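import Vale.Agent.Lib.P154.PChain.BT.R5_0

set_option linter.all false

namespace Vale.Agent.Lib.P154.PChain.BT.S6

open Vale.Agent.Lib.P154.Chain

noncomputable def pc0 : PT := (PT.nd (nat_lit 3384810) (PT.nd (nat_lit 3181932) (PT.nd (nat_lit 3100656) (PT.nd (nat_lit 3019536) (PT.nd (nat_lit 2978976) (PT.nd (nat_lit 2978898) PT.nil (PT.lf (nat_lit 76) (nat_lit 6) (nat_lit 1) (nat_lit 3) (nat_lit 158) (nat_lit 73) (nat_lit 159))) (PT.lf (nat_lit 76) (nat_lit 6) (nat_lit 1) (nat_lit 1) (nat_lit 159) (nat_lit 73) (nat_lit 158))) (PT.nd (nat_lit 40560) (PT.lf (nat_lit 152) (nat_lit 3) (nat_lit 2) (nat_lit 1) (nat_lit 158) (nat_lit 74) (nat_lit 158)) (PT.nd (nat_lit 78) (PT.lf (nat_lit 228) (nat_lit 6) (nat_lit 3) (nat_lit 3) (nat_lit 157) (nat_lit 75) (nat_lit 158)) (PT.lf (nat_lit 228) (nat_lit 6) (nat_lit 3) (nat_lit 1) (nat_lit 158) (nat_lit 75) (nat_lit 157))))) (PT.nd (nat_lit 40638) (PT.nd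 (nat_lit 78) (PT.lf (nat_lit 304) (nat_lit 6) (nat_lit 4) (nat_lit 3) (nat_lit 156) (nat_lit 76) (nat_lit 158)) (PT.nd (nat_lit 78) (PT.lf (nat_lit 380) (nat_lit 3) (nat_lit 5) (nat_lit 1) (nat_lit 157) (nat_lit 76) (nat_lit 157)) (PT.lf (nat_lit 304) (nat_lit 6) (nat_lit 4) (nat_lit 1) (nat_lit 158) (nat_lit 76) (nat_lit 156)))) (PT.nd (nat_lit 78) (PT.lf (nat_lit 456) (nat_lit 6) (nat_lit 6) (nat_lit 3) (nat_lit 156) (nat_lit 77) (nat_lit 157)) (PT.nd (nat_lit 40482) (PT.lf (nat_lit 456) (nat_lit 6) (nat_lit 6) (nat_lit 1) (nat_lit 157) (nat_lit 77) (nat_lit 156)) (PT.lf (nat_lit 532) (nat_lit 6) (nat_lit 7) (nat_lit 3) (nat_lit 155) (nat_lit 78) (nat_lit 157)))))) (PT.nd (nat_lit 81276) (PT.nd (nat_lit 40638) (PT.nd (nat_lit 78) (PT.lf (nat_lit 608) (nat_lit 3) (nat_lit 8) (nat_lit 1) (nat_lit 156) (nat_lit 78) (nat_lit 156)) (PT.nd (nat_lit 40482) (PT.lf (nat_lit 532) (nat_lit 6) (nat_lit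 7) (nat_lit 1) (nat_lit 157) (nat_lit 78) (nat_lit 155)) (PT.lf (nat_lit 684) (nat_lit 6) (nat_lit 9) (nat_lit 3) (nat_lit 155) (nat_lit 79) (nat_lit 156)))) (PT.nd (nat_lit 40482) (PT.lf (nat_lit 684) (nat_lit 6) (nat_lit 9) (nat_lit 1) (nat_lit 156) (nat_lit 79) (nat_lit 155)) (PT.nd (nat_lit 78) (PT.lf (nat_lit 760) (nat_lit 6) (nat_lit 10) (nat_lit 3) (nat_lit 154) (nat_lit 80) (nat_lit 156)) (PT.lf (nat_lit 836) (nat_lit 3) (nat_lit 11) (nat_lit 1) (nat_lit 155) (nat_lit 80) (nat_lit 155))))) (PT.nd (nat_lit 81042) (PT.nd (nat_lit 40482) (PT.lf (nat_lit 760) (nat_lit 6) (nat_lit 10) (nat_lit 1) (nat_lit 156) (nat_lit 80) (nat_lit 154)) (PT.nd (nat_lit 78) (PT.lf (nat_lit 912) (nat_lit 6) (nat_lit 12) (nat_lit 3) (nat_lit 154) (nat_lit 81) (nat_lit 155)) (PT.lf (nat_lit 912) (nat_lit 6) (nat_lit 12) (nat_lit 1) (nat_lit 155) (nat_lit 81) (nat_lit 154)))) (PT.nd (nat_lit 78) (PT.lf (nat_lit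 988) (nat_lit 6) (nat_lit 13) (nat_lit 3) (nat_lit 153) (nat_lit 82) (nat_lit 155)) (PT.nd (nat_lit 78) (PT.lf (nat_lit 1064) (nat_lit 3) (nat_lit 14) (nat_lit 1) (nat_lit 154) (nat_lit 82) (nat_lit 154)) (PT.lf (nat_lit 988) (nat_lit 6) (nat_lit 13) (nat_lit 1) (nat_lit 155) (nat_lit 82) (nat_lit 153))))))) (PT.nd (nat_lit 121914) (PT.nd (nat_lit 40794) (PT.nd (nat_lit 234) (PT.nd (nat_lit 78) (PT.lf (nat_lit 1140) (nat_lit 6) (nat_lit 15) (nat_lit 3) (nat_lit 152) (nat_lit 83) (nat_lit 155)) (PT.nd (nat_lit 78) (PT.lf (nat_lit 1216) (nat_lit 6) (nat_lit 16) (nat_lit 3) (nat_lit 153) (nat_lit 83) (nat_lit 154)) (PT.lf (nat_lit 1216) (nat_lit 6) (nat_lit 16) (nat_lit 1) (nat_lit 154) (nat_lit 83) (nat_lit 153)))) (PT.nd (nat_lit 40404) (PT.lf (nat_lit 1140) (nat_lit 6) (nat_lit 15) (nat_lit 1) (nat_lit 155) (nat_lit 83) (nat_lit 152)) (PT.nd (nat_lit 78) (PT.lf (nat_lit 1292) (nat_lit 6) (nat_lit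 17) (nat_lit 3) (nat_lit 152) (nat_lit 84) (nat_lit 154)) (PT.lf (nat_lit 1368) (nat_lit 3) (nat_lit 18) (nat_lit 1) (nat_lit 153) (nat_lit 84) (nat_lit 153))))) (PT.nd (nat_lit 40560) (PT.nd (nat_lit 40404) (PT.lf (nat_lit 1292) (nat_lit 6) (nat_lit 17) (nat_lit 1) (nat_lit 154) (nat_lit 84) (nat_lit 152)) (PT.nd (nat_lit 78) (PT.lf (nat_lit 1444) (nat_lit 6) (nat_lit 19) (nat_lit 3) (nat_lit 151) (nat_lit 85) (nat_lit 154)) (PT.lf (nat_lit 1520) (nat_lit 6) (nat_lit 20) (nat_lit 3) (nat_lit 152) (nat_lit 85) (nat_lit 153)))) (PT.nd (nat_lit 78) (PT.lf (nat_lit 1520) (nat_lit 6) (nat_lit 20) (nat_lit 1) (nat_lit 153) (nat_lit 85) (nat_lit 152)) (PT.nd (nat_lit 40404) (PT.lf (nat_lit 1444) (nat_lit 6) (nat_lit 19) (nat_lit 1) (nat_lit 154) (nat_lit 85) (nat_lit 151)) (PT.lf (nat_lit 1596) (nat_lit 6) (nat_lit 21) (nat_lit 3) (nat_lit 151) (nat_lit 86) (nat_lit 153)))))) (PT.nd (nat_lit 81042)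 (PT.nd (nat_lit 40560) (PT.nd (nat_lit 78) (PT.lf (nat_lit 1672) (nat_lit 3) (nat_lit 22) (nat_lit 1) (nat_lit 152) (nat_lit 86) (nat_lit 152)) (PT.nd (nat_lit 40404) (PT.lf (nat_lit 1596) (nat_lit 6) (nat_lit 21) (nat_lit 1) (nat_lit 153) (nat_lit 86) (nat_lit 151)) (PT.lf (nat_lit 1748) (nat_lit 6) (nat_lit 23) (nat_lit 3) (nat_lit 150) (nat_lit 87) (nat_lit 153)))) (PT.nd (nat_lit 78) (PT.lf (nat_lit 1824) (nat_lit 6) (nat_lit 24) (nat_lit 3) (nat_lit 151) (nat_lit 87) (nat_lit 152)) (PT.nd (nat_lit 78) (PT.lf (nat_lit 1824) (nat_lit 6) (nat_lit 24) (nat_lit 1) (nat_lit 152) (nat_lit 87) (nat_lit 151)) (PT.lf (nat_lit 1748) (nat_lit 6) (nat_lit 23) (nat_lit 1) (nat_lit 153) (nat_lit 87) (nat_lit 150))))) (PT.nd (nat_lit 234) (PT.nd (nat_lit 78) (PT.lf (nat_lit 1900) (nat_lit 6) (nat_lit 25) (nat_lit 3) (nat_lit 149) (nat_lit 88) (nat_lit 153)) (PT.nd (nat_lit 78) (PT.lf (nat_lit 1976) (nat_lit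 6) (nat_lit 26) (nat_lit 3) (nat_lit 150) (nat_lit 88) (nat_lit 152)) (PT.lf (nat_lit 2052) (nat_lit 3) (nat_lit 27) (nat_lit 1) (nat_lit 151) (nat_lit 88) (nat_lit 151)))) (PT.nd (nat_lit 78) (PT.lf (nat_lit 1976) (nat_lit 6) (nat_lit 26) (nat_lit 1) (nat_lit 152) (nat_lit 88) (nat_lit 150)) (PT.nd (nat_lit 40326) (PT.lf (nat_lit 1900) (nat_lit 6) (nat_lit 25) (nat_lit 1) (nat_lit 153) (nat_lit 88) (nat_lit 149)) (PT.lf (nat_lit 2128) (nat_lit 6) (nat_lit 28) (nat_lit 3) (nat_lit 149) (nat_lit 89) (nat_lit 152))))))))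
noncomputable def pc1 : PT := (PT.nd (nat_lit 202878) (PT.nd (nat_lit 81354) (PT.nd (nat_lit 40638) (PT.nd (nat_lit 156) (PT.nd (nat_lit 78) (PT.lf (nat_lit 2204) (nat_lit 6) (nat_lit 29) (nat_lit 3) (nat_lit 150) (nat_lit 89) (nat_lit 151)) (PT.lf (nat_lit 2204) (nat_lit 6) (nat_lit 29) (nat_lit 1) (nat_lit 151) (nat_lit 89) (nat_lit 150))) (PT.nd (nat_lit 40326) (PT.lf (nat_lit 2128) (nat_lit 6) (nat_lit 28) (nat_lit 1) (nat_lit 152) (nat_lit 89) (nat_lit 149)) (PT.nd (nat_lit 78) (PT.lf (nat_lit 2280) (nat_lit 6) (nat_lit 30) (nat_lit 3) (nat_lit 148) (nat_lit 90) (nat_lit 152)) (PT.lf (nat_lit 2356) (nat_lit 6) (nat_lit 31) (nat_lit 3) (nat_lit 149) (nat_lit 90) (nat_lit 151))))) (PT.nd (nat_lit 40482) (PT.nd (nat_lit 78) (PT.lf (nat_lit 2432) (nat_lit 3) (nat_lit 32) (nat_lit 1) (nat_lit 150) (nat_lit 90) (nat_lit 150)) (PT.nd (nat_lit 78) (PT.lf (nat_lit 2356) (nat_lit 6) (nat_lit 31) (nat_lit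 1) (nat_lit 151) (nat_lit 90) (nat_lit 149)) (PT.lf (nat_lit 2280) (nat_lit 6) (nat_lit 30) (nat_lit 1) (nat_lit 152) (nat_lit 90) (nat_lit 148)))) (PT.nd (nat_lit 78) (PT.lf (nat_lit 2508) (nat_lit 6) (nat_lit 33) (nat_lit 3) (nat_lit 148) (nat_lit 91) (nat_lit 151)) (PT.nd (nat_lit 78) (PT.lf (nat_lit 2584) (nat_lit 6) (nat_lit 34) (nat_lit 3) (nat_lit 149) (nat_lit 91) (nat_lit 150)) (PT.lf (nat_lit 2584) (nat_lit 6) (nat_lit 34) (nat_lit 1) (nat_lit 150) (nat_lit 91) (nat_lit 149)))))) (PT.nd (nat_lit 80886) (PT.nd (nat_lit 40482) (PT.nd (nat_lit 40326) (PT.lf (nat_lit 2508) (nat_lit 6) (nat_lit 33) (nat_lit 1) (nat_lit 151) (nat_lit 91) (nat_lit 148)) (PT.nd (nat_lit 78) (PT.lf (nat_lit 2660) (nat_lit 6) (nat_lit 35) (nat_lit 3) (nat_lit 147) (nat_lit 92) (nat_lit 151)) (PT.lf (nat_lit 2736) (nat_lit 6) (nat_lit 36) (nat_lit 3) (nat_lit 148) (nat_lit 92) (nat_lit 150)))) (PT.nd (nat_lit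 78) (PT.lf (nat_lit 2812) (nat_lit 3) (nat_lit 37) (nat_lit 1) (nat_lit 149) (nat_lit 92) (nat_lit 149)) (PT.nd (nat_lit 78) (PT.lf (nat_lit 2736) (nat_lit 6) (nat_lit 36) (nat_lit 1) (nat_lit 150) (nat_lit 92) (nat_lit 148)) (PT.lf (nat_lit 2660) (nat_lit 6) (nat_lit 35) (nat_lit 1) (nat_lit 151) (nat_lit 92) (nat_lit 147))))) (PT.nd (nat_lit 234) (PT.nd (nat_lit 78) (PT.lf (nat_lit 2888) (nat_lit 6) (nat_lit 38) (nat_lit 3) (nat_lit 146) (nat_lit 93) (nat_lit 151)) (PT.nd (nat_lit 78) (PT.lf (nat_lit 2964) (nat_lit 6) (nat_lit 39) (nat_lit 3) (nat_lit 147) (nat_lit 93) (nat_lit 150)) (PT.lf (nat_lit 3040) (nat_lit 6) (nat_lit 40) (nat_lit 3) (nat_lit 148) (nat_lit 93) (nat_lit 149)))) (PT.nd (nat_lit 78) (PT.lf (nat_lit 3040) (nat_lit 6) (nat_lit 40) (nat_lit 1) (nat_lit 149) (nat_lit 93) (nat_lit 148)) (PT.nd (nat_lit 78) (PT.lf (nat_lit 2964) (nat_lit 6) (nat_lit 39) (nat_lit 1) (nat_lit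 150) (nat_lit 93) (nat_lit 147)) (PT.lf (nat_lit 2888) (nat_lit 6) (nat_lit 38) (nat_lit 1) (nat_lit 151) (nat_lit 93) (nat_lit 146))))))) (PT.nd (nat_lit 81198) (PT.nd (nat_lit 40638) (PT.nd (nat_lit 234) (PT.nd (nat_lit 78) (PT.lf (nat_lit 3116) (nat_lit 6) (nat_lit 41) (nat_lit 3) (nat_lit 146) (nat_lit 94) (nat_lit 150)) (PT.nd (nat_lit 78) (PT.lf (nat_lit 3192) (nat_lit 6) (nat_lit 42) (nat_lit 3) (nat_lit 147) (nat_lit 94) (nat_lit 149)) (PT.lf (nat_lit 3268) (nat_lit 3) (nat_lit 43) (nat_lit 1) (nat_lit 148) (nat_lit 94) (nat_lit 148)))) (PT.nd (nat_lit 78) (PT.lf (nat_lit 3192) (nat_lit 6) (nat_lit 42) (nat_lit 1) (nat_lit 149) (nat_lit 94) (nat_lit 147)) (PT.nd (nat_lit 40248) (PT.lf (nat_lit 3116) (nat_lit 6) (nat_lit 41) (nat_lit 1) (nat_lit 150) (nat_lit 94) (nat_lit 146)) (PT.lf (nat_lit 3344) (nat_lit 6) (nat_lit 44) (nat_lit 3) (nat_lit 145) (nat_lit 95) (nat_lit 150))))) (PT.nd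 (nat_lit 234) (PT.nd (nat_lit 78) (PT.lf (nat_lit 3420) (nat_lit 6) (nat_lit 45) (nat_lit 3) (nat_lit 146) (nat_lit 95) (nat_lit 149)) (PT.nd (nat_lit 78) (PT.lf (nat_lit 3496) (nat_lit 6) (nat_lit 46) (nat_lit 3) (nat_lit 147) (nat_lit 95) (nat_lit 148)) (PT.lf (nat_lit 3496) (nat_lit 6) (nat_lit 46) (nat_lit 1) (nat_lit 148) (nat_lit 95) (nat_lit 147)))) (PT.nd (nat_lit 78) (PT.lf (nat_lit 3420) (nat_lit 6) (nat_lit 45) (nat_lit 1) (nat_lit 149) (nat_lit 95) (nat_lit 146)) (PT.nd (nat_lit 40170) (PT.lf (nat_lit 3344) (nat_lit 6) (nat_lit 44) (nat_lit 1) (nat_lit 150) (nat_lit 95) (nat_lit 145)) (PT.lf (nat_lit 3572) (nat_lit 6) (nat_lit 47) (nat_lit 3) (nat_lit 144) (nat_lit 96) (nat_lit 150)))))) (PT.nd (nat_lit 40560) (PT.nd (nat_lit 234) (PT.nd (nat_lit 78) (PT.lf (nat_lit 3648) (nat_lit 6) (nat_lit 48) (nat_lit 3) (nat_lit 145) (nat_lit 96) (nat_lit 149)) (PT.nd (nat_lit 78) (PT.lf (nat_lit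 3724) (nat_lit 6) (nat_lit 49) (nat_lit 3) (nat_lit 146) (nat_lit 96) (nat_lit 148)) (PT.lf (nat_lit 3800) (nat_lit 3) (nat_lit 50) (nat_lit 1) (nat_lit 147) (nat_lit 96) (nat_lit 147)))) (PT.nd (nat_lit 78) (PT.lf (nat_lit 3724) (nat_lit 6) (nat_lit 49) (nat_lit 1) (nat_lit 148) (nat_lit 96) (nat_lit 146)) (PT.nd (nat_lit 78) (PT.lf (nat_lit 3648) (nat_lit 6) (nat_lit 48) (nat_lit 1) (nat_lit 149) (nat_lit 96) (nat_lit 145)) (PT.lf (nat_lit 3572) (nat_lit 6) (nat_lit 47) (nat_lit 1) (nat_lit 150) (nat_lit 96) (nat_lit 144))))) (PT.nd (nat_lit 234) (PT.nd (nat_lit 78) (PT.lf (nat_lit 3876) (nat_lit 6) (nat_lit 51) (nat_lit 3) (nat_lit 144) (nat_lit 97) (nat_lit 149)) (PT.nd (nat_lit 78) (PT.lf (nat_lit 3952) (nat_lit 6) (nat_lit 52) (nat_lit 3) (nat_lit 145) (nat_lit 97) (nat_lit 148)) (PT.lf (nat_lit 4028) (nat_lit 6) (nat_lit 53) (nat_lit 3) (nat_lit 146) (nat_lit 97) (nat_lit 147)))) (PT.nd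 (nat_lit 78) (PT.lf (nat_lit 4028) (nat_lit 6) (nat_lit 53) (nat_lit 1) (nat_lit 147) (nat_lit 97) (nat_lit 146)) (PT.nd (nat_lit 78) (PT.lf (nat_lit 3952) (nat_lit 6) (nat_lit 52) (nat_lit 1) (nat_lit 148) (nat_lit 97) (nat_lit 145)) (PT.lf (nat_lit 3876) (nat_lit 6) (nat_lit 51) (nat_lit 1) (nat_lit 149) (nat_lit 97) (nat_lit 144))))))))
noncomputable def pc2 : PT := (PT.nd (nat_lit 121836) (PT.nd (nat_lit 40872) (PT.nd (nat_lit 390) (PT.nd (nat_lit 156) (PT.nd (nat_lit 78) (PT.lf (nat_lit 4104) (nat_lit 6) (nat_lit 54) (nat_lit 3) (nat_lit 143) (nat_lit 98) (nat_lit 149)) (PT.lf (nat_lit 4180) (nat_lit 6) (nat_lit 55) (nat_lit 3) (nat_lit 144) (nat_lit 98) (nat_lit 148))) (PT.nd (nat_lit 78) (PT.lf (nat_lit 4256) (nat_lit 6) (nat_lit 56) (nat_lit 3) (nat_lit 145) (nat_lit 98) (nat_lit 147)) (PT.nd (nat_lit 78) (PT.lf (nat_lit 4332) (nat_lit 3) (nat_lit 57) (nat_lit 1) (nat_lit 146) (nat_lit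 98) (nat_lit 146)) (PT.lf (nat_lit 4256) (nat_lit 6) (nat_lit 56) (nat_lit 1) (nat_lit 147) (nat_lit 98) (nat_lit 145))))) (PT.nd (nat_lit 40248) (PT.nd (nat_lit 78) (PT.lf (nat_lit 4180) (nat_lit 6) (nat_lit 55) (nat_lit 1) (nat_lit 148) (nat_lit 98) (nat_lit 144)) (PT.nd (nat_lit 40092) (PT.lf (nat_lit 4104) (nat_lit 6) (nat_lit 54) (nat_lit 1) (nat_lit 149) (nat_lit 98) (nat_lit 143)) (PT.lf (nat_lit 4408) (nat_lit 6) (nat_lit 58) (nat_lit 3) (nat_lit 142) (nat_lit 99) (nat_lit 149)))) (PT.nd (nat_lit 78) (PT.lf (nat_lit 4484) (nat_lit 6) (nat_lit 59) (nat_lit 3) (nat_lit 143) (nat_lit 99) (nat_lit 148)) (PT.nd (nat_lit 78) (PT.lf (nat_lit 4560) (nat_lit 6) (nat_lit 60) (nat_lit 3) (nat_lit 144) (nat_lit 99) (nat_lit 147)) (PT.lf (nat_lit 4636) (nat_lit 6) (nat_lit 61) (nat_lit 3) (nat_lit 145) (nat_lit 99) (nat_lit 146)))))) (PT.nd (nat_lit 40482) (PT.nd (nat_lit 234) (PT.nd (nat_lit 78)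 (PT.lf (nat_lit 4636) (nat_lit 6) (nat_lit 61) (nat_lit 1) (nat_lit 146) (nat_lit 99) (nat_lit 145)) (PT.nd (nat_lit 78) (PT.lf (nat_lit 4560) (nat_lit 6) (nat_lit 60) (nat_lit 1) (nat_lit 147) (nat_lit 99) (nat_lit 144)) (PT.lf (nat_lit 4484) (nat_lit 6) (nat_lit 59) (nat_lit 1) (nat_lit 148) (nat_lit 99) (nat_lit 143)))) (PT.nd (nat_lit 40092) (PT.lf (nat_lit 4408) (nat_lit 6) (nat_lit 58) (nat_lit 1) (nat_lit 149) (nat_lit 99) (nat_lit 142)) (PT.nd (nat_lit 78) (PT.lf (nat_lit 4712) (nat_lit 6) (nat_lit 62) (nat_lit 3) (nat_lit 142) (nat_lit 100) (nat_lit 148)) (PT.lf (nat_lit 4788) (nat_lit 6) (nat_lit 63) (nat_lit 3) (nat_lit 143) (nat_lit 100) (nat_lit 147))))) (PT.nd (nat_lit 234) (PT.nd (nat_lit 78) (PT.lf (nat_lit 4864) (nat_lit 6) (nat_lit 64) (nat_lit 3) (nat_lit 144) (nat_lit 100) (nat_lit 146)) (PT.nd (nat_lit 78) (PT.lf (nat_lit 4940) (nat_lit 3) (nat_lit 65) (nat_lit 1) (nat_lit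 145) (nat_lit 100) (nat_lit 145)) (PT.lf (nat_lit 4864) (nat_lit 6) (nat_lit 64) (nat_lit 1) (nat_lit 146) (nat_lit 100) (nat_lit 144)))) (PT.nd (nat_lit 78) (PT.lf (nat_lit 4788) (nat_lit 6) (nat_lit 63) (nat_lit 1) (nat_lit 147) (nat_lit 100) (nat_lit 143)) (PT.nd (nat_lit 40092) (PT.lf (nat_lit 4712) (nat_lit 6) (nat_lit 62) (nat_lit 1) (nat_lit 148) (nat_lit 100) (nat_lit 142)) (PT.lf (nat_lit 5016) (nat_lit 6) (nat_lit 66) (nat_lit 3) (nat_lit 141) (nat_lit 101) (nat_lit 148))))))) (PT.nd (nat_lit 40872) (PT.nd (nat_lit 468) (PT.nd (nat_lit 234) (PT.nd (nat_lit 78) (PT.lf (nat_lit 5092) (nat_lit 6) (nat_lit 67) (nat_lit 3) (nat_lit 142) (nat_lit 101) (nat_lit 147)) (PT.nd (nat_lit 78) (PT.lf (nat_lit 5168) (nat_lit 6) (nat_lit 68) (nat_lit 3) (nat_lit 143) (nat_lit 101) (nat_lit 146)) (PT.lf (nat_lit 5244) (nat_lit 6) (nat_lit 69) (nat_lit 3) (nat_lit 144) (nat_lit 101) (nat_lit 145))))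 (PT.nd (nat_lit 78) (PT.lf (nat_lit 5244) (nat_lit 6) (nat_lit 69) (nat_lit 1) (nat_lit 145) (nat_lit 101) (nat_lit 144)) (PT.nd (nat_lit 78) (PT.lf (nat_lit 5168) (nat_lit 6) (nat_lit 68) (nat_lit 1) (nat_lit 146) (nat_lit 101) (nat_lit 143)) (PT.lf (nat_lit 5092) (nat_lit 6) (nat_lit 67) (nat_lit 1) (nat_lit 147) (nat_lit 101) (nat_lit 142))))) (PT.nd (nat_lit 40170) (PT.nd (nat_lit 40014) (PT.lf (nat_lit 5016) (nat_lit 6) (nat_lit 66) (nat_lit 1) (nat_lit 148) (nat_lit 101) (nat_lit 141)) (PT.nd (nat_lit 78) (PT.lf (nat_lit 5320) (nat_lit 6) (nat_lit 70) (nat_lit 3) (nat_lit 140) (nat_lit 102) (nat_lit 148)) (PT.lf (nat_lit 5396) (nat_lit 6) (nat_lit 71) (nat_lit 3) (nat_lit 141) (nat_lit 102) (nat_lit 147)))) (PT.nd (nat_lit 78) (PT.lf (nat_lit 5472) (nat_lit 6) (nat_lit 72) (nat_lit 3) (nat_lit 142) (nat_lit 102) (nat_lit 146)) (PT.nd (nat_lit 78) (PT.lf (nat_lit 5548) (nat_lit 6) (nat_lit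 73) (nat_lit 3) (nat_lit 143) (nat_lit 102) (nat_lit 145)) (PT.lf (nat_lit 5624) (nat_lit 3) (nat_lit 74) (nat_lit 1) (nat_lit 144) (nat_lit 102) (nat_lit 144)))))) (PT.nd (nat_lit 40404) (PT.nd (nat_lit 234) (PT.nd (nat_lit 78) (PT.lf (nat_lit 5548) (nat_lit 6) (nat_lit 73) (nat_lit 1) (nat_lit 145) (nat_lit 102) (nat_lit 143)) (PT.nd (nat_lit 78) (PT.lf (nat_lit 5472) (nat_lit 6) (nat_lit 72) (nat_lit 1) (nat_lit 146) (nat_lit 102) (nat_lit 142)) (PT.lf (nat_lit 5396) (nat_lit 6) (nat_lit 71) (nat_lit 1) (nat_lit 147) (nat_lit 102) (nat_lit 141)))) (PT.nd (nat_lit 40014) (PT.lf (nat_lit 5320) (nat_lit 6) (nat_lit 70) (nat_lit 1) (nat_lit 148) (nat_lit 102) (nat_lit 140)) (PT.nd (nat_lit 78) (PT.lf (nat_lit 5700) (nat_lit 6) (nat_lit 75) (nat_lit 3) (nat_lit 140) (nat_lit 103) (nat_lit 147)) (PT.lf (nat_lit 5776) (nat_lit 6) (nat_lit 76) (nat_lit 3) (nat_lit 141) (nat_lit 103) (nat_lit 146)))))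 (PT.nd (nat_lit 234) (PT.nd (nat_lit 78) (PT.lf (nat_lit 5852) (nat_lit 6) (nat_lit 77) (nat_lit 3) (nat_lit 142) (nat_lit 103) (nat_lit 145)) (PT.nd (nat_lit 78) (PT.lf (nat_lit 5928) (nat_lit 6) (nat_lit 78) (nat_lit 3) (nat_lit 143) (nat_lit 103) (nat_lit 144)) (PT.lf (nat_lit 5928) (nat_lit 6) (nat_lit 78) (nat_lit 1) (nat_lit 144) (nat_lit 103) (nat_lit 143)))) (PT.nd (nat_lit 78) (PT.lf (nat_lit 5852) (nat_lit 6) (nat_lit 77) (nat_lit 1) (nat_lit 145) (nat_lit 103) (nat_lit 142)) (PT.nd (nat_lit 78) (PT.lf (nat_lit 5776) (nat_lit 6) (nat_lit 76) (nat_lit 1) (nat_lit 146) (nat_lit 103) (nat_lit 141)) (PT.lf (nat_lit 5700) (nat_lit 6) (nat_lit 75) (nat_lit 1) (nat_lit 147) (nat_lit 103) (nat_lit 140))))))))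
noncomputable def pc3 : PT := (PT.nd (nat_lit 81510) (PT.nd (nat_lit 40794) (PT.nd (nat_lit 468) (PT.nd (nat_lit 234) (PT.nd (nat_lit 78) (PT.lf (nat_lit 6004) (nat_lit 6) (nat_lit 79) (nat_lit 3) (nat_lit 139) (nat_lit 104) (nat_lit 147)) (PT.nd (nat_lit 78) (PT.lf (nat_lit 6080) (nat_lit 6) (nat_lit 80) (nat_lit 3) (nat_lit 140) (nat_lit 104) (nat_lit 146)) (PT.lf (nat_lit 6156) (nat_lit 6) (nat_lit 81) (nat_lit 3) (nat_lit 141) (nat_lit 104) (nat_lit 145)))) (PT.nd (nat_lit 78) (PT.lf (nat_lit 6232) (nat_lit 6) (nat_lit 82) (nat_lit 3) (nat_lit 142) (nat_lit 104) (nat_lit 144)) (PT.nd (nat_lit 78) (PT.lf (nat_lit 6308) (nat_lit 3) (nat_lit 83) (nat_lit 1) (nat_lit 143) (nat_lit 104) (nat_lit 143)) (PT.lf (nat_lit 6232) (nat_lit 6) (nat_lit 82) (nat_lit 1) (nat_lit 144) (nat_lit 104) (nat_lit 142))))) (PT.nd (nat_lit 40092) (PT.nd (nat_lit 78) (PT.lf (nat_lit 6156) (nat_lit 6) (nat_lit 81)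 (nat_lit 1) (nat_lit 145) (nat_lit 104) (nat_lit 141)) (PT.nd (nat_lit 78) (PT.lf (nat_lit 6080) (nat_lit 6) (nat_lit 80) (nat_lit 1) (nat_lit 146) (nat_lit 104) (nat_lit 140)) (PT.lf (nat_lit 6004) (nat_lit 6) (nat_lit 79) (nat_lit 1) (nat_lit 147) (nat_lit 104) (nat_lit 139)))) (PT.nd (nat_lit 78) (PT.lf (nat_lit 6384) (nat_lit 6) (nat_lit 84) (nat_lit 3) (nat_lit 138) (nat_lit 105) (nat_lit 147)) (PT.nd (nat_lit 78) (PT.lf (nat_lit 6460) (nat_lit 6) (nat_lit 85) (nat_lit 3) (nat_lit 139) (nat_lit 105) (nat_lit 146)) (PT.lf (nat_lit 6536) (nat_lit 6) (nat_lit 86) (nat_lit 3) (nat_lit 140) (nat_lit 105) (nat_lit 145)))))) (PT.nd (nat_lit 468) (PT.nd (nat_lit 234) (PT.nd (nat_lit 78) (PT.lf (nat_lit 6612) (nat_lit 6) (nat_lit 87) (nat_lit 3) (nat_lit 141) (nat_lit 105) (nat_lit 144)) (PT.nd (nat_lit 78) (PT.lf (nat_lit 6688) (nat_lit 6) (nat_lit 88) (nat_lit 3) (nat_lit 142) (nat_lit 105) (nat_lit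 143)) (PT.lf (nat_lit 6688) (nat_lit 6) (nat_lit 88) (nat_lit 1) (nat_lit 143) (nat_lit 105) (nat_lit 142)))) (PT.nd (nat_lit 78) (PT.lf (nat_lit 6612) (nat_lit 6) (nat_lit 87) (nat_lit 1) (nat_lit 144) (nat_lit 105) (nat_lit 141)) (PT.nd (nat_lit 78) (PT.lf (nat_lit 6536) (nat_lit 6) (nat_lit 86) (nat_lit 1) (nat_lit 145) (nat_lit 105) (nat_lit 140)) (PT.lf (nat_lit 6460) (nat_lit 6) (nat_lit 85) (nat_lit 1) (nat_lit 146) (nat_lit 105) (nat_lit 139))))) (PT.nd (nat_lit 40014) (PT.nd (nat_lit 39858) (PT.lf (nat_lit 6384) (nat_lit 6) (nat_lit 84) (nat_lit 1) (nat_lit 147) (nat_lit 105) (nat_lit 138)) (PT.nd (nat_lit 78) (PT.lf (nat_lit 6764) (nat_lit 6) (nat_lit 89) (nat_lit 3) (nat_lit 137) (nat_lit 106) (nat_lit 147)) (PT.lf (nat_lit 6840) (nat_lit 6) (nat_lit 90) (nat_lit 3) (nat_lit 138) (nat_lit 106) (nat_lit 146)))) (PT.nd (nat_lit 78) (PT.lf (nat_lit 6916) (nat_lit 6) (nat_lit 91) (nat_lit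 3) (nat_lit 139) (nat_lit 106) (nat_lit 145)) (PT.nd (nat_lit 78) (PT.lf (nat_lit 6992) (nat_lit 6) (nat_lit 92) (nat_lit 3) (nat_lit 140) (nat_lit 106) (nat_lit 144)) (PT.lf (nat_lit 7068) (nat_lit 6) (nat_lit 93) (nat_lit 3) (nat_lit 141) (nat_lit 106) (nat_lit 143))))))) (PT.nd (nat_lit 40716) (PT.nd (nat_lit 40248) (PT.nd (nat_lit 234) (PT.nd (nat_lit 78) (PT.lf (nat_lit 7144) (nat_lit 3) (nat_lit 94) (nat_lit 1) (nat_lit 142) (nat_lit 106) (nat_lit 142)) (PT.nd (nat_lit 78) (PT.lf (nat_lit 7068) (nat_lit 6) (nat_lit 93) (nat_lit 1) (nat_lit 143) (nat_lit 106) (nat_lit 141)) (PT.lf (nat_lit 6992) (nat_lit 6) (nat_lit 92) (nat_lit 1) (nat_lit 144) (nat_lit 106) (nat_lit 140)))) (PT.nd (nat_lit 78) (PT.lf (nat_lit 6916) (nat_lit 6) (nat_lit 91) (nat_lit 1) (nat_lit 145) (nat_lit 106) (nat_lit 139)) (PT.nd (nat_lit 78) (PT.lf (nat_lit 6840) (nat_lit 6) (nat_lit 90) (nat_lit 1) (nat_lit 146)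 (nat_lit 106) (nat_lit 138)) (PT.lf (nat_lit 6764) (nat_lit 6) (nat_lit 89) (nat_lit 1) (nat_lit 147) (nat_lit 106) (nat_lit 137))))) (PT.nd (nat_lit 234) (PT.nd (nat_lit 78) (PT.lf (nat_lit 7220) (nat_lit 6) (nat_lit 95) (nat_lit 3) (nat_lit 137) (nat_lit 107) (nat_lit 146)) (PT.nd (nat_lit 78) (PT.lf (nat_lit 7296) (nat_lit 6) (nat_lit 96) (nat_lit 3) (nat_lit 138) (nat_lit 107) (nat_lit 145)) (PT.lf (nat_lit 7372) (nat_lit 6) (nat_lit 97) (nat_lit 3) (nat_lit 139) (nat_lit 107) (nat_lit 144)))) (PT.nd (nat_lit 78) (PT.lf (nat_lit 7448) (nat_lit 6) (nat_lit 98) (nat_lit 3) (nat_lit 140) (nat_lit 107) (nat_lit 143)) (PT.nd (nat_lit 78) (PT.lf (nat_lit 7524) (nat_lit 6) (nat_lit 99) (nat_lit 3) (nat_lit 141) (nat_lit 107) (nat_lit 142)) (PT.lf (nat_lit 7524) (nat_lit 6) (nat_lit 99) (nat_lit 1) (nat_lit 142) (nat_lit 107) (nat_lit 141)))))) (PT.nd (nat_lit 40248) (PT.nd (nat_lit 234) (PT.nd (nat_lit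 78) (PT.lf (nat_lit 7448) (nat_lit 6) (nat_lit 98) (nat_lit 1) (nat_lit 143) (nat_lit 107) (nat_lit 140)) (PT.nd (nat_lit 78) (PT.lf (nat_lit 7372) (nat_lit 6) (nat_lit 97) (nat_lit 1) (nat_lit 144) (nat_lit 107) (nat_lit 139)) (PT.lf (nat_lit 7296) (nat_lit 6) (nat_lit 96) (nat_lit 1) (nat_lit 145) (nat_lit 107) (nat_lit 138)))) (PT.nd (nat_lit 39858) (PT.lf (nat_lit 7220) (nat_lit 6) (nat_lit 95) (nat_lit 1) (nat_lit 146) (nat_lit 107) (nat_lit 137)) (PT.nd (nat_lit 78) (PT.lf (nat_lit 7600) (nat_lit 6) (nat_lit 100) (nat_lit 3) (nat_lit 136) (nat_lit 108) (nat_lit 146)) (PT.lf (nat_lit 7676) (nat_lit 6) (nat_lit 101) (nat_lit 3) (nat_lit 137) (nat_lit 108) (nat_lit 145))))) (PT.nd (nat_lit 234) (PT.nd (nat_lit 78) (PT.lf (nat_lit 7752) (nat_lit 6) (nat_lit 102) (nat_lit 3) (nat_lit 138) (nat_lit 108) (nat_lit 144)) (PT.nd (nat_lit 78) (PT.lf (nat_lit 7828) (nat_lit 6) (nat_lit 103) (nat_lit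 3) (nat_lit 139) (nat_lit 108) (nat_lit 143)) (PT.lf (nat_lit 7904) (nat_lit 6) (nat_lit 104) (nat_lit 3) (nat_lit 140) (nat_lit 108) (nat_lit 142)))) (PT.nd (nat_lit 78) (PT.lf (nat_lit 7980) (nat_lit 3) (nat_lit 105) (nat_lit 1) (nat_lit 141) (nat_lit 108) (nat_lit 141)) (PT.nd (nat_lit 78) (PT.lf (nat_lit 7904) (nat_lit 6) (nat_lit 104) (nat_lit 1) (nat_lit 142) (nat_lit 108) (nat_lit 140)) (PT.lf (nat_lit 7828) (nat_lit 6) (nat_lit 103) (nat_lit 1) (nat_lit 143) (nat_lit 108) (nat_lit 139))))))))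
noncomputable def pc4 : PT := (PT.nd (nat_lit 81120) (PT.nd (nat_lit 40560) (PT.nd (nat_lit 40092) (PT.nd (nat_lit 156) (PT.nd (nat_lit 78) (PT.lf (nat_lit 7752) (nat_lit 6) (nat_lit 102) (nat_lit 1) (nat_lit 144) (nat_lit 108) (nat_lit 138)) (PT.lf (nat_lit 7676) (nat_lit 6) (nat_lit 101) (nat_lit 1) (nat_lit 145) (nat_lit 108) (nat_lit 137))) (PT.nd (nat_lit 39780) (PT.lf (nat_lit 7600) (nat_lit 6) (nat_lit 100) (nat_lit 1) (nat_lit 146) (nat_lit 108) (nat_lit 136)) (PT.nd (nat_lit 78) (PT.lf (nat_lit 8056) (nat_lit 6) (nat_lit 106) (nat_lit 3) (nat_lit 135) (nat_lit 109) (nat_lit 146)) (PT.lf (nat_lit 8132) (nat_lit 6) (nat_lit 107) (nat_lit 3) (nat_lit 136) (nat_lit 109) (nat_lit 145))))) (PT.nd (nat_lit 234) (PT.nd (nat_lit 78) (PT.lf (nat_lit 8208) (nat_lit 6) (nat_lit 108) (nat_lit 3) (nat_lit 137) (nat_lit 109) (nat_lit 144)) (PT.nd (nat_lit 78) (PT.lf (nat_lit 8284) (nat_lit 6) (nat_lit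 109) (nat_lit 3) (nat_lit 138) (nat_lit 109) (nat_lit 143)) (PT.lf (nat_lit 8360) (nat_lit 6) (nat_lit 110) (nat_lit 3) (nat_lit 139) (nat_lit 109) (nat_lit 142)))) (PT.nd (nat_lit 78) (PT.lf (nat_lit 8436) (nat_lit 6) (nat_lit 111) (nat_lit 3) (nat_lit 140) (nat_lit 109) (nat_lit 141)) (PT.nd (nat_lit 78) (PT.lf (nat_lit 8436) (nat_lit 6) (nat_lit 111) (nat_lit 1) (nat_lit 141) (nat_lit 109) (nat_lit 140)) (PT.lf (nat_lit 8360) (nat_lit 6) (nat_lit 110) (nat_lit 1) (nat_lit 142) (nat_lit 109) (nat_lit 139)))))) (PT.nd (nat_lit 40092) (PT.nd (nat_lit 234) (PT.nd (nat_lit 78) (PT.lf (nat_lit 8284) (nat_lit 6) (nat_lit 109) (nat_lit 1) (nat_lit 143) (nat_lit 109) (nat_lit 138)) (PT.nd (nat_lit 78) (PT.lf (nat_lit 8208) (nat_lit 6) (nat_lit 108) (nat_lit 1) (nat_lit 144) (nat_lit 109) (nat_lit 137)) (PT.lf (nat_lit 8132) (nat_lit 6) (nat_lit 107) (nat_lit 1) (nat_lit 145) (nat_lit 109) (nat_lit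 136)))) (PT.nd (nat_lit 39702) (PT.lf (nat_lit 8056) (nat_lit 6) (nat_lit 106) (nat_lit 1) (nat_lit 146) (nat_lit 109) (nat_lit 135)) (PT.nd (nat_lit 78) (PT.lf (nat_lit 8512) (nat_lit 6) (nat_lit 112) (nat_lit 3) (nat_lit 134) (nat_lit 110) (nat_lit 146)) (PT.lf (nat_lit 8588) (nat_lit 6) (nat_lit 113) (nat_lit 3) (nat_lit 135) (nat_lit 110) (nat_lit 145))))) (PT.nd (nat_lit 234) (PT.nd (nat_lit 78) (PT.lf (nat_lit 8664) (nat_lit 6) (nat_lit 114) (nat_lit 3) (nat_lit 136) (nat_lit 110) (nat_lit 144)) (PT.nd (nat_lit 78) (PT.lf (nat_lit 8740) (nat_lit 6) (nat_lit 115) (nat_lit 3) (nat_lit 137) (nat_lit 110) (nat_lit 143)) (PT.lf (nat_lit 8816) (nat_lit 6) (nat_lit 116) (nat_lit 3) (nat_lit 138) (nat_lit 110) (nat_lit 142)))) (PT.nd (nat_lit 78) (PT.lf (nat_lit 8892) (nat_lit 6) (nat_lit 117) (nat_lit 3) (nat_lit 139) (nat_lit 110) (nat_lit 141)) (PT.nd (nat_lit 78) (PT.lf (nat_lit 8968) (nat_lit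 3) (nat_lit 118) (nat_lit 1) (nat_lit 140) (nat_lit 110) (nat_lit 140)) (PT.lf (nat_lit 8892) (nat_lit 6) (nat_lit 117) (nat_lit 1) (nat_lit 141) (nat_lit 110) (nat_lit 139))))))) (PT.nd (nat_lit 40482) (PT.nd (nat_lit 40014) (PT.nd (nat_lit 234) (PT.nd (nat_lit 78) (PT.lf (nat_lit 8816) (nat_lit 6) (nat_lit 116) (nat_lit 1) (nat_lit 142) (nat_lit 110) (nat_lit 138)) (PT.nd (nat_lit 78) (PT.lf (nat_lit 8740) (nat_lit 6) (nat_lit 115) (nat_lit 1) (nat_lit 143) (nat_lit 110) (nat_lit 137)) (PT.lf (nat_lit 8664) (nat_lit 6) (nat_lit 114) (nat_lit 1) (nat_lit 144) (nat_lit 110) (nat_lit 136)))) (PT.nd (nat_lit 78) (PT.lf (nat_lit 8588) (nat_lit 6) (nat_lit 113) (nat_lit 1) (nat_lit 145) (nat_lit 110) (nat_lit 135)) (PT.nd (nat_lit 39624) (PT.lf (nat_lit 8512) (nat_lit 6) (nat_lit 112) (nat_lit 1) (nat_lit 146) (nat_lit 110) (nat_lit 134)) (PT.lf (nat_lit 9044) (nat_lit 6) (nat_lit 119) (nat_lit 3)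 (nat_lit 133) (nat_lit 111) (nat_lit 146))))) (PT.nd (nat_lit 234) (PT.nd (nat_lit 78) (PT.lf (nat_lit 9120) (nat_lit 6) (nat_lit 120) (nat_lit 3) (nat_lit 134) (nat_lit 111) (nat_lit 145)) (PT.nd (nat_lit 78) (PT.lf (nat_lit 9196) (nat_lit 6) (nat_lit 121) (nat_lit 3) (nat_lit 135) (nat_lit 111) (nat_lit 144)) (PT.lf (nat_lit 9272) (nat_lit 6) (nat_lit 122) (nat_lit 3) (nat_lit 136) (nat_lit 111) (nat_lit 143)))) (PT.nd (nat_lit 78) (PT.lf (nat_lit 9348) (nat_lit 6) (nat_lit 123) (nat_lit 3) (nat_lit 137) (nat_lit 111) (nat_lit 142)) (PT.nd (nat_lit 78) (PT.lf (nat_lit 9424) (nat_lit 6) (nat_lit 124) (nat_lit 3) (nat_lit 138) (nat_lit 111) (nat_lit 141)) (PT.lf (nat_lit 9500) (nat_lit 6) (nat_lit 125) (nat_lit 3) (nat_lit 139) (nat_lit 111) (nat_lit 140)))))) (PT.nd (nat_lit 468) (PT.nd (nat_lit 234) (PT.nd (nat_lit 78) (PT.lf (nat_lit 9500) (nat_lit 6) (nat_lit 125) (nat_lit 1) (nat_lit 140)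 (nat_lit 111) (nat_lit 139)) (PT.nd (nat_lit 78) (PT.lf (nat_lit 9424) (nat_lit 6) (nat_lit 124) (nat_lit 1) (nat_lit 141) (nat_lit 111) (nat_lit 138)) (PT.lf (nat_lit 9348) (nat_lit 6) (nat_lit 123) (nat_lit 1) (nat_lit 142) (nat_lit 111) (nat_lit 137)))) (PT.nd (nat_lit 78) (PT.lf (nat_lit 9272) (nat_lit 6) (nat_lit 122) (nat_lit 1) (nat_lit 143) (nat_lit 111) (nat_lit 136)) (PT.nd (nat_lit 78) (PT.lf (nat_lit 9196) (nat_lit 6) (nat_lit 121) (nat_lit 1) (nat_lit 144) (nat_lit 111) (nat_lit 135)) (PT.lf (nat_lit 9120) (nat_lit 6) (nat_lit 120) (nat_lit 1) (nat_lit 145) (nat_lit 111) (nat_lit 134))))) (PT.nd (nat_lit 39780) (PT.nd (nat_lit 39624) (PT.lf (nat_lit 9044) (nat_lit 6) (nat_lit 119) (nat_lit 1) (nat_lit 146) (nat_lit 111) (nat_lit 133)) (PT.nd (nat_lit 78) (PT.lf (nat_lit 9576) (nat_lit 6) (nat_lit 126) (nat_lit 3) (nat_lit 133) (nat_lit 112) (nat_lit 145)) (PT.lf (nat_lit 9652) (nat_lit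 6) (nat_lit 127) (nat_lit 3) (nat_lit 134) (nat_lit 112) (nat_lit 144)))) (PT.nd (nat_lit 78) (PT.lf (nat_lit 9728) (nat_lit 6) (nat_lit 128) (nat_lit 3) (nat_lit 135) (nat_lit 112) (nat_lit 143)) (PT.nd (nat_lit 78) (PT.lf (nat_lit 9804) (nat_lit 6) (nat_lit 129) (nat_lit 3) (nat_lit 136) (nat_lit 112) (nat_lit 142)) (PT.lf (nat_lit 9880) (nat_lit 6) (nat_lit 130) (nat_lit 3) (nat_lit 137) (nat_lit 112) (nat_lit 141))))))))
noncomputable def pc5 : PT := (PT.nd (nat_lit 80886) (PT.nd (nat_lit 40482) (PT.nd (nat_lit 468) (PT.nd (nat_lit 234) (PT.nd (nat_lit 78) (PT.lf (nat_lit 9956) (nat_lit 6) (nat_lit 131) (nat_lit 3) (nat_lit 138) (nat_lit 112) (nat_lit 140)) (PT.nd (nat_lit 78) (PT.lf (nat_lit 10032) (nat_lit 3) (nat_lit 132) (nat_lit 1) (nat_lit 139) (nat_lit 112) (nat_lit 139)) (PT.lf (nat_lit 9956) (nat_lit 6) (nat_lit 131) (nat_lit 1) (nat_lit 140) (nat_lit 112) (nat_lit 138)))) (PT.nd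 (nat_lit 78) (PT.lf (nat_lit 9880) (nat_lit 6) (nat_lit 130) (nat_lit 1) (nat_lit 141) (nat_lit 112) (nat_lit 137)) (PT.nd (nat_lit 78) (PT.lf (nat_lit 9804) (nat_lit 6) (nat_lit 129) (nat_lit 1) (nat_lit 142) (nat_lit 112) (nat_lit 136)) (PT.lf (nat_lit 9728) (nat_lit 6) (nat_lit 128) (nat_lit 1) (nat_lit 143) (nat_lit 112) (nat_lit 135))))) (PT.nd (nat_lit 39780) (PT.nd (nat_lit 78) (PT.lf (nat_lit 9652) (nat_lit 6) (nat_lit 127) (nat_lit 1) (nat_lit 144) (nat_lit 112) (nat_lit 134)) (PT.nd (nat_lit 39624) (PT.lf (nat_lit 9576) (nat_lit 6) (nat_lit 126) (nat_lit 1) (nat_lit 145) (nat_lit 112) (nat_lit 133)) (PT.lf (nat_lit 10108) (nat_lit 6) (nat_lit 133) (nat_lit 3) (nat_lit 132) (nat_lit 113) (nat_lit 145)))) (PT.nd (nat_lit 78) (PT.lf (nat_lit 10184) (nat_lit 6) (nat_lit 134) (nat_lit 3) (nat_lit 133) (nat_lit 113) (nat_lit 144)) (PT.nd (nat_lit 78) (PT.lf (nat_lit 10260) (nat_lit 6) (nat_lit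 135) (nat_lit 3) (nat_lit 134) (nat_lit 113) (nat_lit 143)) (PT.lf (nat_lit 10336) (nat_lit 6) (nat_lit 136) (nat_lit 3) (nat_lit 135) (nat_lit 113) (nat_lit 142)))))) (PT.nd (nat_lit 468) (PT.nd (nat_lit 234) (PT.nd (nat_lit 78) (PT.lf (nat_lit 10412) (nat_lit 6) (nat_lit 137) (nat_lit 3) (nat_lit 136) (nat_lit 113) (nat_lit 141)) (PT.nd (nat_lit 78) (PT.lf (nat_lit 10488) (nat_lit 6) (nat_lit 138) (nat_lit 3) (nat_lit 137) (nat_lit 113) (nat_lit 140)) (PT.lf (nat_lit 10564) (nat_lit 6) (nat_lit 139) (nat_lit 3) (nat_lit 138) (nat_lit 113) (nat_lit 139)))) (PT.nd (nat_lit 78) (PT.lf (nat_lit 10564) (nat_lit 6) (nat_lit 139) (nat_lit 1) (nat_lit 139) (nat_lit 113) (nat_lit 138)) (PT.nd (nat_lit 78) (PT.lf (nat_lit 10488) (nat_lit 6) (nat_lit 138) (nat_lit 1) (nat_lit 140) (nat_lit 113) (nat_lit 137)) (PT.lf (nat_lit 10412) (nat_lit 6) (nat_lit 137) (nat_lit 1) (nat_lit 141) (nat_lit 113) (nat_lit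 136))))) (PT.nd (nat_lit 234) (PT.nd (nat_lit 78) (PT.lf (nat_lit 10336) (nat_lit 6) (nat_lit 136) (nat_lit 1) (nat_lit 142) (nat_lit 113) (nat_lit 135)) (PT.nd (nat_lit 78) (PT.lf (nat_lit 10260) (nat_lit 6) (nat_lit 135) (nat_lit 1) (nat_lit 143) (nat_lit 113) (nat_lit 134)) (PT.lf (nat_lit 10184) (nat_lit 6) (nat_lit 134) (nat_lit 1) (nat_lit 144) (nat_lit 113) (nat_lit 133)))) (PT.nd (nat_lit 39546) (PT.lf (nat_lit 10108) (nat_lit 6) (nat_lit 133) (nat_lit 1) (nat_lit 145) (nat_lit 113) (nat_lit 132)) (PT.nd (nat_lit 78) (PT.lf (nat_lit 10640) (nat_lit 6) (nat_lit 140) (nat_lit 3) (nat_lit 131) (nat_lit 114) (nat_lit 145)) (PT.lf (nat_lit 10716) (nat_lit 6) (nat_lit 141) (nat_lit 3) (nat_lit 132) (nat_lit 114) (nat_lit 144))))))) (PT.nd (nat_lit 936) (PT.nd (nat_lit 468) (PT.nd (nat_lit 234) (PT.nd (nat_lit 78) (PT.lf (nat_lit 10792) (nat_lit 6) (nat_lit 142) (nat_lit 3) (nat_lit 133) (nat_lit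 114) (nat_lit 143)) (PT.nd (nat_lit 78) (PT.lf (nat_lit 10868) (nat_lit 6) (nat_lit 143) (nat_lit 3) (nat_lit 134) (nat_lit 114) (nat_lit 142)) (PT.lf (nat_lit 10944) (nat_lit 6) (nat_lit 144) (nat_lit 3) (nat_lit 135) (nat_lit 114) (nat_lit 141)))) (PT.nd (nat_lit 78) (PT.lf (nat_lit 11020) (nat_lit 6) (nat_lit 145) (nat_lit 3) (nat_lit 136) (nat_lit 114) (nat_lit 140)) (PT.nd (nat_lit 78) (PT.lf (nat_lit 11096) (nat_lit 6) (nat_lit 146) (nat_lit 3) (nat_lit 137) (nat_lit 114) (nat_lit 139)) (PT.lf (nat_lit 11172) (nat_lit 3) (nat_lit 147) (nat_lit 1) (nat_lit 138) (nat_lit 114) (nat_lit 138))))) (PT.nd (nat_lit 234) (PT.nd (nat_lit 78) (PT.lf (nat_lit 11096) (nat_lit 6) (nat_lit 146) (nat_lit 1) (nat_lit 139) (nat_lit 114) (nat_lit 137)) (PT.nd (nat_lit 78) (PT.lf (nat_lit 11020) (nat_lit 6) (nat_lit 145) (nat_lit 1) (nat_lit 140) (nat_lit 114) (nat_lit 136)) (PT.lf (nat_lit 10944) (nat_lit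 6) (nat_lit 144) (nat_lit 1) (nat_lit 141) (nat_lit 114) (nat_lit 135)))) (PT.nd (nat_lit 78) (PT.lf (nat_lit 10868) (nat_lit 6) (nat_lit 143) (nat_lit 1) (nat_lit 142) (nat_lit 114) (nat_lit 134)) (PT.nd (nat_lit 78) (PT.lf (nat_lit 10792) (nat_lit 6) (nat_lit 142) (nat_lit 1) (nat_lit 143) (nat_lit 114) (nat_lit 133)) (PT.lf (nat_lit 10716) (nat_lit 6) (nat_lit 141) (nat_lit 1) (nat_lit 144) (nat_lit 114) (nat_lit 132)))))) (PT.nd (nat_lit 39858) (PT.nd (nat_lit 39624) (PT.nd (nat_lit 39468) (PT.lf (nat_lit 10640) (nat_lit 6) (nat_lit 140) (nat_lit 1) (nat_lit 145) (nat_lit 114) (nat_lit 131)) (PT.nd (nat_lit 78) (PT.lf (nat_lit 11476) (nat_lit 6) (nat_lit 151) (nat_lit 3) (nat_lit 130) (nat_lit 115) (nat_lit 145)) (PT.lf (nat_lit 11552) (nat_lit 6) (nat_lit 152) (nat_lit 3) (nat_lit 131) (nat_lit 115) (nat_lit 144)))) (PT.nd (nat_lit 78) (PT.lf (nat_lit 11628) (nat_lit 6) (nat_lit 153) (nat_lit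 3) (nat_lit 132) (nat_lit 115) (nat_lit 143)) (PT.nd (nat_lit 78) (PT.lf (nat_lit 11704) (nat_lit 6) (nat_lit 154) (nat_lit 3) (nat_lit 133) (nat_lit 115) (nat_lit 142)) (PT.lf (nat_lit 11780) (nat_lit 6) (nat_lit 155) (nat_lit 3) (nat_lit 134) (nat_lit 115) (nat_lit 141))))) (PT.nd (nat_lit 234) (PT.nd (nat_lit 78) (PT.lf (nat_lit 11856) (nat_lit 6) (nat_lit 156) (nat_lit 3) (nat_lit 135) (nat_lit 115) (nat_lit 140)) (PT.nd (nat_lit 78) (PT.lf (nat_lit 11932) (nat_lit 6) (nat_lit 157) (nat_lit 3) (nat_lit 136) (nat_lit 115) (nat_lit 139)) (PT.lf (nat_lit 12008) (nat_lit 6) (nat_lit 158) (nat_lit 3) (nat_lit 137) (nat_lit 115) (nat_lit 138)))) (PT.nd (nat_lit 78) (PT.lf (nat_lit 12008) (nat_lit 6) (nat_lit 158) (nat_lit 1) (nat_lit 138) (nat_lit 115) (nat_lit 137)) (PT.nd (nat_lit 78) (PT.lf (nat_lit 11932) (nat_lit 6) (nat_lit 157) (nat_lit 1) (nat_lit 139) (nat_lit 115) (nat_lit 136)) (PT.lf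 (nat_lit 11856) (nat_lit 6) (nat_lit 156) (nat_lit 1) (nat_lit 140) (nat_lit 115) (nat_lit 135))))))))
noncomputable def pc6 : PT := (PT.nd (nat_lit 80340) (PT.nd (nat_lit 40170) (PT.nd (nat_lit 39702) (PT.nd (nat_lit 156) (PT.nd (nat_lit 78) (PT.lf (nat_lit 11780) (nat_lit 6) (nat_lit 155) (nat_lit 1) (nat_lit 141) (nat_lit 115) (nat_lit 134)) (PT.lf (nat_lit 11704) (nat_lit 6) (nat_lit 154) (nat_lit 1) (nat_lit 142) (nat_lit 115) (nat_lit 133))) (PT.nd (nat_lit 78) (PT.lf (nat_lit 11628) (nat_lit 6) (nat_lit 153) (nat_lit 1) (nat_lit 143) (nat_lit 115) (nat_lit 132)) (PT.nd (nat_lit 78) (PT.lf (nat_lit 11552) (nat_lit 6) (nat_lit 152) (nat_lit 1) (nat_lit 144) (nat_lit 115) (nat_lit 131)) (PT.lf (nat_lit 11476) (nat_lit 6) (nat_lit 151) (nat_lit 1) (nat_lit 145) (nat_lit 115) (nat_lit 130))))) (PT.nd (nat_lit 234) (PT.nd (nat_lit 78) (PT.lf (nat_lit 11400) (nat_lit 6) (nat_lit 150) (nat_lit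 3) (nat_lit 129) (nat_lit 116) (nat_lit 145)) (PT.nd (nat_lit 78) (PT.lf (nat_lit 12616) (nat_lit 6) (nat_lit 166) (nat_lit 3) (nat_lit 130) (nat_lit 116) (nat_lit 144)) (PT.lf (nat_lit 12692) (nat_lit 6) (nat_lit 167) (nat_lit 3) (nat_lit 131) (nat_lit 116) (nat_lit 143)))) (PT.nd (nat_lit 78) (PT.lf (nat_lit 12768) (nat_lit 6) (nat_lit 168) (nat_lit 3) (nat_lit 132) (nat_lit 116) (nat_lit 142)) (PT.nd (nat_lit 78) (PT.lf (nat_lit 12844) (nat_lit 6) (nat_lit 169) (nat_lit 3) (nat_lit 133) (nat_lit 116) (nat_lit 141)) (PT.lf (nat_lit 12920) (nat_lit 6) (nat_lit 170) (nat_lit 3) (nat_lit 134) (nat_lit 116) (nat_lit 140)))))) (PT.nd (nat_lit 468) (PT.nd (nat_lit 234) (PT.nd (nat_lit 78) (PT.lf (nat_lit 12996) (nat_lit 6) (nat_lit 171) (nat_lit 3) (nat_lit 135) (nat_lit 116) (nat_lit 139)) (PT.nd (nat_lit 78) (PT.lf (nat_lit 13072) (nat_lit 6) (nat_lit 172) (nat_lit 3) (nat_lit 136) (nat_lit 116)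 (nat_lit 138)) (PT.lf (nat_lit 13148) (nat_lit 3) (nat_lit 173) (nat_lit 1) (nat_lit 137) (nat_lit 116) (nat_lit 137)))) (PT.nd (nat_lit 78) (PT.lf (nat_lit 13072) (nat_lit 6) (nat_lit 172) (nat_lit 1) (nat_lit 138) (nat_lit 116) (nat_lit 136)) (PT.nd (nat_lit 78) (PT.lf (nat_lit 12996) (nat_lit 6) (nat_lit 171) (nat_lit 1) (nat_lit 139) (nat_lit 116) (nat_lit 135)) (PT.lf (nat_lit 12920) (nat_lit 6) (nat_lit 170) (nat_lit 1) (nat_lit 140) (nat_lit 116) (nat_lit 134))))) (PT.nd (nat_lit 234) (PT.nd (nat_lit 78) (PT.lf (nat_lit 12844) (nat_lit 6) (nat_lit 169) (nat_lit 1) (nat_lit 141) (nat_lit 116) (nat_lit 133)) (PT.nd (nat_lit 78) (PT.lf (nat_lit 12768) (nat_lit 6) (nat_lit 168) (nat_lit 1) (nat_lit 142) (nat_lit 116) (nat_lit 132)) (PT.lf (nat_lit 12692) (nat_lit 6) (nat_lit 167) (nat_lit 1) (nat_lit 143) (nat_lit 116) (nat_lit 131)))) (PT.nd (nat_lit 78) (PT.lf (nat_lit 12616) (nat_lit 6)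 (nat_lit 166) (nat_lit 1) (nat_lit 144) (nat_lit 116) (nat_lit 130)) (PT.nd (nat_lit 39312) (PT.lf (nat_lit 11400) (nat_lit 6) (nat_lit 150) (nat_lit 1) (nat_lit 145) (nat_lit 116) (nat_lit 129)) (PT.lf (nat_lit 11324) (nat_lit 6) (nat_lit 149) (nat_lit 3) (nat_lit 128) (nat_lit 117) (nat_lit 145))))))) (PT.nd (nat_lit 936) (PT.nd (nat_lit 468) (PT.nd (nat_lit 234) (PT.nd (nat_lit 78) (PT.lf (nat_lit 12540) (nat_lit 6) (nat_lit 165) (nat_lit 3) (nat_lit 129) (nat_lit 117) (nat_lit 144)) (PT.nd (nat_lit 78) (PT.lf (nat_lit 13680) (nat_lit 6) (nat_lit 180) (nat_lit 3) (nat_lit 130) (nat_lit 117) (nat_lit 143)) (PT.lf (nat_lit 13756) (nat_lit 6) (nat_lit 181) (nat_lit 3) (nat_lit 131) (nat_lit 117) (nat_lit 142)))) (PT.nd (nat_lit 78) (PT.lf (nat_lit 13832) (nat_lit 6) (nat_lit 182) (nat_lit 3) (nat_lit 132) (nat_lit 117) (nat_lit 141)) (PT.nd (nat_lit 78) (PT.lf (nat_lit 13908) (nat_lit 6) (nat_lit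 183) (nat_lit 3) (nat_lit 133) (nat_lit 117) (nat_lit 140)) (PT.lf (nat_lit 13984) (nat_lit 6) (nat_lit 184) (nat_lit 3) (nat_lit 134) (nat_lit 117) (nat_lit 139))))) (PT.nd (nat_lit 234) (PT.nd (nat_lit 78) (PT.lf (nat_lit 14060) (nat_lit 6) (nat_lit 185) (nat_lit 3) (nat_lit 135) (nat_lit 117) (nat_lit 138)) (PT.nd (nat_lit 78) (PT.lf (nat_lit 14136) (nat_lit 6) (nat_lit 186) (nat_lit 3) (nat_lit 136) (nat_lit 117) (nat_lit 137)) (PT.lf (nat_lit 14136) (nat_lit 6) (nat_lit 186) (nat_lit 1) (nat_lit 137) (nat_lit 117) (nat_lit 136)))) (PT.nd (nat_lit 78) (PT.lf (nat_lit 14060) (nat_lit 6) (nat_lit 185) (nat_lit 1) (nat_lit 138) (nat_lit 117) (nat_lit 135)) (PT.nd (nat_lit 78) (PT.lf (nat_lit 13984) (nat_lit 6) (nat_lit 184) (nat_lit 1) (nat_lit 139) (nat_lit 117) (nat_lit 134)) (PT.lf (nat_lit 13908) (nat_lit 6) (nat_lit 183) (nat_lit 1) (nat_lit 140) (nat_lit 117) (nat_lit 133)))))) (PT.nd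 (nat_lit 39624) (PT.nd (nat_lit 234) (PT.nd (nat_lit 78) (PT.lf (nat_lit 13832) (nat_lit 6) (nat_lit 182) (nat_lit 1) (nat_lit 141) (nat_lit 117) (nat_lit 132)) (PT.nd (nat_lit 78) (PT.lf (nat_lit 13756) (nat_lit 6) (nat_lit 181) (nat_lit 1) (nat_lit 142) (nat_lit 117) (nat_lit 131)) (PT.lf (nat_lit 13680) (nat_lit 6) (nat_lit 180) (nat_lit 1) (nat_lit 143) (nat_lit 117) (nat_lit 130)))) (PT.nd (nat_lit 78) (PT.lf (nat_lit 12540) (nat_lit 6) (nat_lit 165) (nat_lit 1) (nat_lit 144) (nat_lit 117) (nat_lit 129)) (PT.nd (nat_lit 39234) (PT.lf (nat_lit 11324) (nat_lit 6) (nat_lit 149) (nat_lit 1) (nat_lit 145) (nat_lit 117) (nat_lit 128)) (PT.lf (nat_lit 11248) (nat_lit 6) (nat_lit 148) (nat_lit 3) (nat_lit 127) (nat_lit 118) (nat_lit 145))))) (PT.nd (nat_lit 234) (PT.nd (nat_lit 78) (PT.lf (nat_lit 12464) (nat_lit 6) (nat_lit 164) (nat_lit 3) (nat_lit 128) (nat_lit 118) (nat_lit 144)) (PT.nd (nat_lit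 78) (PT.lf (nat_lit 13604) (nat_lit 6) (nat_lit 179) (nat_lit 3) (nat_lit 129) (nat_lit 118) (nat_lit 143)) (PT.lf (nat_lit 14668) (nat_lit 6) (nat_lit 193) (nat_lit 3) (nat_lit 130) (nat_lit 118) (nat_lit 142)))) (PT.nd (nat_lit 78) (PT.lf (nat_lit 14744) (nat_lit 6) (nat_lit 194) (nat_lit 3) (nat_lit 131) (nat_lit 118) (nat_lit 141)) (PT.nd (nat_lit 78) (PT.lf (nat_lit 14820) (nat_lit 6) (nat_lit 195) (nat_lit 3) (nat_lit 132) (nat_lit 118) (nat_lit 140)) (PT.lf (nat_lit 14896) (nat_lit 6) (nat_lit 196) (nat_lit 3) (nat_lit 133) (nat_lit 118) (nat_lit 139))))))))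
noncomputable def pc7 : PT := (PT.nd (nat_lit 41028) (PT.nd (nat_lit 40092) (PT.nd (nat_lit 468) (PT.nd (nat_lit 234) (PT.nd (nat_lit 78) (PT.lf (nat_lit 14972) (nat_lit 6) (nat_lit 197) (nat_lit 3) (nat_lit 134) (nat_lit 118) (nat_lit 138)) (PT.nd (nat_lit 78) (PT.lf (nat_lit 15048) (nat_lit 6) (nat_lit 198) (nat_lit 3) (nat_lit 135) (nat_lit 118) (nat_lit 137)) (PT.lf (nat_lit 15124) (nat_lit 3) (nat_lit 199) (nat_lit 1) (nat_lit 136) (nat_lit 118) (nat_lit 136)))) (PT.nd (nat_lit 78) (PT.lf (nat_lit 15048) (nat_lit 6) (nat_lit 198) (nat_lit 1) (nat_lit 137) (nat_lit 118) (nat_lit 135)) (PT.nd (nat_lit 78) (PT.lf (nat_lit 14972) (nat_lit 6) (nat_lit 197) (nat_lit 1) (nat_lit 138) (nat_lit 118) (nat_lit 134)) (PT.lf (nat_lit 14896) (nat_lit 6) (nat_lit 196) (nat_lit 1) (nat_lit 139) (nat_lit 118) (nat_lit 133))))) (PT.nd (nat_lit 234) (PT.nd (nat_lit 78) (PT.lf (nat_lit 14820) (nat_lit 6) (nat_lit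 195) (nat_lit 1) (nat_lit 140) (nat_lit 118) (nat_lit 132)) (PT.nd (nat_lit 78) (PT.lf (nat_lit 14744) (nat_lit 6) (nat_lit 194) (nat_lit 1) (nat_lit 141) (nat_lit 118) (nat_lit 131)) (PT.lf (nat_lit 14668) (nat_lit 6) (nat_lit 193) (nat_lit 1) (nat_lit 142) (nat_lit 118) (nat_lit 130)))) (PT.nd (nat_lit 78) (PT.lf (nat_lit 13604) (nat_lit 6) (nat_lit 179) (nat_lit 1) (nat_lit 143) (nat_lit 118) (nat_lit 129)) (PT.nd (nat_lit 78) (PT.lf (nat_lit 12464) (nat_lit 6) (nat_lit 164) (nat_lit 1) (nat_lit 144) (nat_lit 118) (nat_lit 128)) (PT.lf (nat_lit 11248) (nat_lit 6) (nat_lit 148) (nat_lit 1) (nat_lit 145) (nat_lit 118) (nat_lit 127)))))) (PT.nd (nat_lit 468) (PT.nd (nat_lit 234) (PT.nd (nat_lit 78) (PT.lf (nat_lit 12388) (nat_lit 6) (nat_lit 163) (nat_lit 3) (nat_lit 127) (nat_lit 119) (nat_lit 144)) (PT.nd (nat_lit 78) (PT.lf (nat_lit 13528) (nat_lit 6) (nat_lit 178) (nat_lit 3) (nat_lit 128)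 (nat_lit 119) (nat_lit 143)) (PT.lf (nat_lit 14592) (nat_lit 6) (nat_lit 192) (nat_lit 3) (nat_lit 129) (nat_lit 119) (nat_lit 142)))) (PT.nd (nat_lit 78) (PT.lf (nat_lit 15580) (nat_lit 6) (nat_lit 205) (nat_lit 3) (nat_lit 130) (nat_lit 119) (nat_lit 141)) (PT.nd (nat_lit 78) (PT.lf (nat_lit 15656) (nat_lit 6) (nat_lit 206) (nat_lit 3) (nat_lit 131) (nat_lit 119) (nat_lit 140)) (PT.lf (nat_lit 15732) (nat_lit 6) (nat_lit 207) (nat_lit 3) (nat_lit 132) (nat_lit 119) (nat_lit 139))))) (PT.nd (nat_lit 234) (PT.nd (nat_lit 78) (PT.lf (nat_lit 15808) (nat_lit 6) (nat_lit 208) (nat_lit 3) (nat_lit 133) (nat_lit 119) (nat_lit 138)) (PT.nd (nat_lit 78) (PT.lf (nat_lit 15884) (nat_lit 6) (nat_lit 209) (nat_lit 3) (nat_lit 134) (nat_lit 119) (nat_lit 137)) (PT.lf (nat_lit 15960) (nat_lit 6) (nat_lit 210) (nat_lit 3) (nat_lit 135) (nat_lit 119) (nat_lit 136)))) (PT.nd (nat_lit 78) (PT.lf (nat_lit 15960)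 (nat_lit 6) (nat_lit 210) (nat_lit 1) (nat_lit 136) (nat_lit 119) (nat_lit 135)) (PT.nd (nat_lit 78) (PT.lf (nat_lit 15884) (nat_lit 6) (nat_lit 209) (nat_lit 1) (nat_lit 137) (nat_lit 119) (nat_lit 134)) (PT.lf (nat_lit 15808) (nat_lit 6) (nat_lit 208) (nat_lit 1) (nat_lit 138) (nat_lit 119) (nat_lit 133))))))) (PT.nd (nat_lit 40092) (PT.nd (nat_lit 39624) (PT.nd (nat_lit 234) (PT.nd (nat_lit 78) (PT.lf (nat_lit 15732) (nat_lit 6) (nat_lit 207) (nat_lit 1) (nat_lit 139) (nat_lit 119) (nat_lit 132)) (PT.nd (nat_lit 78) (PT.lf (nat_lit 15656) (nat_lit 6) (nat_lit 206) (nat_lit 1) (nat_lit 140) (nat_lit 119) (nat_lit 131)) (PT.lf (nat_lit 15580) (nat_lit 6) (nat_lit 205) (nat_lit 1) (nat_lit 141) (nat_lit 119) (nat_lit 130)))) (PT.nd (nat_lit 78) (PT.lf (nat_lit 14592) (nat_lit 6) (nat_lit 192) (nat_lit 1) (nat_lit 142) (nat_lit 119) (nat_lit 129)) (PT.nd (nat_lit 78) (PT.lf (nat_lit 13528) (nat_lit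 6) (nat_lit 178) (nat_lit 1) (nat_lit 143) (nat_lit 119) (nat_lit 128)) (PT.lf (nat_lit 12388) (nat_lit 6) (nat_lit 163) (nat_lit 1) (nat_lit 144) (nat_lit 119) (nat_lit 127))))) (PT.nd (nat_lit 234) (PT.nd (nat_lit 78) (PT.lf (nat_lit 12312) (nat_lit 6) (nat_lit 162) (nat_lit 3) (nat_lit 126) (nat_lit 120) (nat_lit 144)) (PT.nd (nat_lit 78) (PT.lf (nat_lit 13452) (nat_lit 6) (nat_lit 177) (nat_lit 3) (nat_lit 127) (nat_lit 120) (nat_lit 143)) (PT.lf (nat_lit 14516) (nat_lit 6) (nat_lit 191) (nat_lit 3) (nat_lit 128) (nat_lit 120) (nat_lit 142)))) (PT.nd (nat_lit 78) (PT.lf (nat_lit 15504) (nat_lit 6) (nat_lit 204) (nat_lit 3) (nat_lit 129) (nat_lit 120) (nat_lit 141)) (PT.nd (nat_lit 78) (PT.lf (nat_lit 16416) (nat_lit 6) (nat_lit 216) (nat_lit 3) (nat_lit 130) (nat_lit 120) (nat_lit 140)) (PT.lf (nat_lit 16492) (nat_lit 6) (nat_lit 217) (nat_lit 3) (nat_lit 131) (nat_lit 120) (nat_lit 139))))))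 (PT.nd (nat_lit 468) (PT.nd (nat_lit 234) (PT.nd (nat_lit 78) (PT.lf (nat_lit 16568) (nat_lit 6) (nat_lit 218) (nat_lit 3) (nat_lit 132) (nat_lit 120) (nat_lit 138)) (PT.nd (nat_lit 78) (PT.lf (nat_lit 16644) (nat_lit 6) (nat_lit 219) (nat_lit 3) (nat_lit 133) (nat_lit 120) (nat_lit 137)) (PT.lf (nat_lit 16720) (nat_lit 6) (nat_lit 220) (nat_lit 3) (nat_lit 134) (nat_lit 120) (nat_lit 136)))) (PT.nd (nat_lit 78) (PT.lf (nat_lit 16796) (nat_lit 3) (nat_lit 221) (nat_lit 1) (nat_lit 135) (nat_lit 120) (nat_lit 135)) (PT.nd (nat_lit 78) (PT.lf (nat_lit 16720) (nat_lit 6) (nat_lit 220) (nat_lit 1) (nat_lit 136) (nat_lit 120) (nat_lit 134)) (PT.lf (nat_lit 16644) (nat_lit 6) (nat_lit 219) (nat_lit 1) (nat_lit 137) (nat_lit 120) (nat_lit 133))))) (PT.nd (nat_lit 234) (PT.nd (nat_lit 78) (PT.lf (nat_lit 16568) (nat_lit 6) (nat_lit 218) (nat_lit 1) (nat_lit 138) (nat_lit 120) (nat_lit 132)) (PT.nd (nat_lit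 78) (PT.lf (nat_lit 16492) (nat_lit 6) (nat_lit 217) (nat_lit 1) (nat_lit 139) (nat_lit 120) (nat_lit 131)) (PT.lf (nat_lit 16416) (nat_lit 6) (nat_lit 216) (nat_lit 1) (nat_lit 140) (nat_lit 120) (nat_lit 130)))) (PT.nd (nat_lit 78) (PT.lf (nat_lit 15504) (nat_lit 6) (nat_lit 204) (nat_lit 1) (nat_lit 141) (nat_lit 120) (nat_lit 129)) (PT.nd (nat_lit 78) (PT.lf (nat_lit 14516) (nat_lit 6) (nat_lit 191) (nat_lit 1) (nat_lit 142) (nat_lit 120) (nat_lit 128)) (PT.lf (nat_lit 13452) (nat_lit 6) (nat_lit 177) (nat_lit 1) (nat_lit 143) (nat_lit 120) (nat_lit 127))))))))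
noncomputable def pc8 : PT := (PT.nd (nat_lit 79872) (PT.nd (nat_lit 39936) (PT.nd (nat_lit 39468) (PT.nd (nat_lit 39234) (PT.nd (nat_lit 39156) (PT.lf (nat_lit 12312) (nat_lit 6) (nat_lit 162) (nat_lit 1) (nat_lit 144) (nat_lit 120) (nat_lit 126)) (PT.lf (nat_lit 12236) (nat_lit 6) (nat_lit 161) (nat_lit 3) (nat_lit 125) (nat_lit 121) (nat_lit 144))) (PT.nd (nat_lit 78) (PT.lf (nat_lit 13376) (nat_lit 6) (nat_lit 176) (nat_lit 3) (nat_lit 126) (nat_lit 121) (nat_lit 143)) (PT.nd (nat_lit 78) (PT.lf (nat_lit 14440) (nat_lit 6) (nat_lit 190) (nat_lit 3) (nat_lit 127) (nat_lit 121) (nat_lit 142)) (PT.lf (nat_lit 15428) (nat_lit 6) (nat_lit 203) (nat_lit 3) (nat_lit 128) (nat_lit 121) (nat_lit 141))))) (PT.nd (nat_lit 234) (PT.nd (nat_lit 78) (PT.lf (nat_lit 16340) (nat_lit 6) (nat_lit 215) (nat_lit 3) (nat_lit 129) (nat_lit 121) (nat_lit 140)) (PT.nd (nat_lit 78) (PT.lf (nat_lit 17176) (nat_lit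 6) (nat_lit 226) (nat_lit 3) (nat_lit 130) (nat_lit 121) (nat_lit 139)) (PT.lf (nat_lit 17252) (nat_lit 6) (nat_lit 227) (nat_lit 3) (nat_lit 131) (nat_lit 121) (nat_lit 138)))) (PT.nd (nat_lit 78) (PT.lf (nat_lit 17328) (nat_lit 6) (nat_lit 228) (nat_lit 3) (nat_lit 132) (nat_lit 121) (nat_lit 137)) (PT.nd (nat_lit 78) (PT.lf (nat_lit 17404) (nat_lit 6) (nat_lit 229) (nat_lit 3) (nat_lit 133) (nat_lit 121) (nat_lit 136)) (PT.lf (nat_lit 17480) (nat_lit 6) (nat_lit 230) (nat_lit 3) (nat_lit 134) (nat_lit 121) (nat_lit 135)))))) (PT.nd (nat_lit 468) (PT.nd (nat_lit 234) (PT.nd (nat_lit 78) (PT.lf (nat_lit 17480) (nat_lit 6) (nat_lit 230) (nat_lit 1) (nat_lit 135) (nat_lit 121) (nat_lit 134)) (PT.nd (nat_lit 78) (PT.lf (nat_lit 17404) (nat_lit 6) (nat_lit 229) (nat_lit 1) (nat_lit 136) (nat_lit 121) (nat_lit 133)) (PT.lf (nat_lit 17328) (nat_lit 6) (nat_lit 228) (nat_lit 1) (nat_lit 137) (nat_lit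 121) (nat_lit 132)))) (PT.nd (nat_lit 78) (PT.lf (nat_lit 17252) (nat_lit 6) (nat_lit 227) (nat_lit 1) (nat_lit 138) (nat_lit 121) (nat_lit 131)) (PT.nd (nat_lit 78) (PT.lf (nat_lit 17176) (nat_lit 6) (nat_lit 226) (nat_lit 1) (nat_lit 139) (nat_lit 121) (nat_lit 130)) (PT.lf (nat_lit 16340) (nat_lit 6) (nat_lit 215) (nat_lit 1) (nat_lit 140) (nat_lit 121) (nat_lit 129))))) (PT.nd (nat_lit 234) (PT.nd (nat_lit 78) (PT.lf (nat_lit 15428) (nat_lit 6) (nat_lit 203) (nat_lit 1) (nat_lit 141) (nat_lit 121) (nat_lit 128)) (PT.nd (nat_lit 78) (PT.lf (nat_lit 14440) (nat_lit 6) (nat_lit 190) (nat_lit 1) (nat_lit 142) (nat_lit 121) (nat_lit 127)) (PT.lf (nat_lit 13376) (nat_lit 6) (nat_lit 176) (nat_lit 1) (nat_lit 143) (nat_lit 121) (nat_lit 126)))) (PT.nd (nat_lit 39078) (PT.lf (nat_lit 12236) (nat_lit 6) (nat_lit 161) (nat_lit 1) (nat_lit 144) (nat_lit 121) (nat_lit 125)) (PT.nd (nat_lit 78) (PT.lf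 (nat_lit 12160) (nat_lit 6) (nat_lit 160) (nat_lit 3) (nat_lit 124) (nat_lit 122) (nat_lit 144)) (PT.lf (nat_lit 13300) (nat_lit 6) (nat_lit 175) (nat_lit 3) (nat_lit 125) (nat_lit 122) (nat_lit 143))))))) (PT.nd (nat_lit 936) (PT.nd (nat_lit 468) (PT.nd (nat_lit 234) (PT.nd (nat_lit 78) (PT.lf (nat_lit 14364) (nat_lit 6) (nat_lit 189) (nat_lit 3) (nat_lit 126) (nat_lit 122) (nat_lit 142)) (PT.nd (nat_lit 78) (PT.lf (nat_lit 15352) (nat_lit 6) (nat_lit 202) (nat_lit 3) (nat_lit 127) (nat_lit 122) (nat_lit 141)) (PT.lf (nat_lit 16264) (nat_lit 6) (nat_lit 214) (nat_lit 3) (nat_lit 128) (nat_lit 122) (nat_lit 140)))) (PT.nd (nat_lit 78) (PT.lf (nat_lit 17100) (nat_lit 6) (nat_lit 225) (nat_lit 3) (nat_lit 129) (nat_lit 122) (nat_lit 139)) (PT.nd (nat_lit 78) (PT.lf (nat_lit 17860) (nat_lit 6) (nat_lit 235) (nat_lit 3) (nat_lit 130) (nat_lit 122) (nat_lit 138)) (PT.lf (nat_lit 17936) (nat_lit 6)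 (nat_lit 236) (nat_lit 3) (nat_lit 131) (nat_lit 122) (nat_lit 137))))) (PT.nd (nat_lit 234) (PT.nd (nat_lit 78) (PT.lf (nat_lit 18012) (nat_lit 6) (nat_lit 237) (nat_lit 3) (nat_lit 132) (nat_lit 122) (nat_lit 136)) (PT.nd (nat_lit 78) (PT.lf (nat_lit 18088) (nat_lit 6) (nat_lit 238) (nat_lit 3) (nat_lit 133) (nat_lit 122) (nat_lit 135)) (PT.lf (nat_lit 18164) (nat_lit 3) (nat_lit 239) (nat_lit 1) (nat_lit 134) (nat_lit 122) (nat_lit 134)))) (PT.nd (nat_lit 78) (PT.lf (nat_lit 18088) (nat_lit 6) (nat_lit 238) (nat_lit 1) (nat_lit 135) (nat_lit 122) (nat_lit 133)) (PT.nd (nat_lit 78) (PT.lf (nat_lit 18012) (nat_lit 6) (nat_lit 237) (nat_lit 1) (nat_lit 136) (nat_lit 122) (nat_lit 132)) (PT.lf (nat_lit 17936) (nat_lit 6) (nat_lit 236) (nat_lit 1) (nat_lit 137) (nat_lit 122) (nat_lit 131)))))) (PT.nd (nat_lit 468) (PT.nd (nat_lit 234) (PT.nd (nat_lit 78) (PT.lf (nat_lit 17860) (nat_lit 6) (nat_lit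 235) (nat_lit 1) (nat_lit 138) (nat_lit 122) (nat_lit 130)) (PT.nd (nat_lit 78) (PT.lf (nat_lit 17100) (nat_lit 6) (nat_lit 225) (nat_lit 1) (nat_lit 139) (nat_lit 122) (nat_lit 129)) (PT.lf (nat_lit 16264) (nat_lit 6) (nat_lit 214) (nat_lit 1) (nat_lit 140) (nat_lit 122) (nat_lit 128)))) (PT.nd (nat_lit 78) (PT.lf (nat_lit 15352) (nat_lit 6) (nat_lit 202) (nat_lit 1) (nat_lit 141) (nat_lit 122) (nat_lit 127)) (PT.nd (nat_lit 78) (PT.lf (nat_lit 14364) (nat_lit 6) (nat_lit 189) (nat_lit 1) (nat_lit 142) (nat_lit 122) (nat_lit 126)) (PT.lf (nat_lit 13300) (nat_lit 6) (nat_lit 175) (nat_lit 1) (nat_lit 143) (nat_lit 122) (nat_lit 125))))) (PT.nd (nat_lit 39156) (PT.nd (nat_lit 39000) (PT.lf (nat_lit 12160) (nat_lit 6) (nat_lit 160) (nat_lit 1) (nat_lit 144) (nat_lit 122) (nat_lit 124)) (PT.nd (nat_lit 78) (PT.lf (nat_lit 12084) (nat_lit 3) (nat_lit 159) (nat_lit 3) (nat_lit 123) (nat_lit 123) (nat_lit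 144)) (PT.lf (nat_lit 13224) (nat_lit 6) (nat_lit 174) (nat_lit 3) (nat_lit 124) (nat_lit 123) (nat_lit 143)))) (PT.nd (nat_lit 78) (PT.lf (nat_lit 14288) (nat_lit 6) (nat_lit 188) (nat_lit 3) (nat_lit 125) (nat_lit 123) (nat_lit 142)) (PT.nd (nat_lit 78) (PT.lf (nat_lit 15276) (nat_lit 6) (nat_lit 201) (nat_lit 3) (nat_lit 126) (nat_lit 123) (nat_lit 141)) (PT.lf (nat_lit 16188) (nat_lit 6) (nat_lit 213) (nat_lit 3) (nat_lit 127) (nat_lit 123) (nat_lit 140))))))))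
noncomputable def pc9 : PT := (PT.nd (nat_lit 40638) (PT.nd (nat_lit 858) (PT.nd (nat_lit 390) (PT.nd (nat_lit 156) (PT.nd (nat_lit 78) (PT.lf (nat_lit 17024) (nat_lit 6) (nat_lit 224) (nat_lit 3) (nat_lit 128) (nat_lit 123) (nat_lit 139)) (PT.lf (nat_lit 17784) (nat_lit 6) (nat_lit 234) (nat_lit 3) (nat_lit 129) (nat_lit 123) (nat_lit 138))) (PT.nd (nat_lit 78) (PT.lf (nat_lit 18468) (nat_lit 6) (nat_lit 243) (nat_lit 3) (nat_lit 130) (nat_lit 123) (nat_lit 137)) (PT.nd (nat_lit 78) (PT.lf (nat_lit 18544) (nat_lit 6) (nat_lit 244) (nat_lit 3) (nat_lit 131) (nat_lit 123) (nat_lit 136)) (PT.lf (nat_lit 18620) (nat_lit 6) (nat_lit 245) (nat_lit 3) (nat_lit 132) (nat_lit 123) (nat_lit 135))))) (PT.nd (nat_lit 234) (PT.nd (nat_lit 78) (PT.lf (nat_lit 18696) (nat_lit 6) (nat_lit 246) (nat_lit 3) (nat_lit 133) (nat_lit 123) (nat_lit 134)) (PT.nd (nat_lit 78) (PT.lf (nat_lit 18696) (nat_lit 6) (nat_lit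 246) (nat_lit 1) (nat_lit 134) (nat_lit 123) (nat_lit 133)) (PT.lf (nat_lit 18620) (nat_lit 6) (nat_lit 245) (nat_lit 1) (nat_lit 135) (nat_lit 123) (nat_lit 132)))) (PT.nd (nat_lit 78) (PT.lf (nat_lit 18544) (nat_lit 6) (nat_lit 244) (nat_lit 1) (nat_lit 136) (nat_lit 123) (nat_lit 131)) (PT.nd (nat_lit 78) (PT.lf (nat_lit 18468) (nat_lit 6) (nat_lit 243) (nat_lit 1) (nat_lit 137) (nat_lit 123) (nat_lit 130)) (PT.lf (nat_lit 17784) (nat_lit 6) (nat_lit 234) (nat_lit 1) (nat_lit 138) (nat_lit 123) (nat_lit 129)))))) (PT.nd (nat_lit 39312) (PT.nd (nat_lit 234) (PT.nd (nat_lit 78) (PT.lf (nat_lit 17024) (nat_lit 6) (nat_lit 224) (nat_lit 1) (nat_lit 139) (nat_lit 123) (nat_lit 128)) (PT.nd (nat_lit 78) (PT.lf (nat_lit 16188) (nat_lit 6) (nat_lit 213) (nat_lit 1) (nat_lit 140) (nat_lit 123) (nat_lit 127)) (PT.lf (nat_lit 15276) (nat_lit 6) (nat_lit 201) (nat_lit 1) (nat_lit 141) (nat_lit 123) (nat_lit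 126)))) (PT.nd (nat_lit 78) (PT.lf (nat_lit 14288) (nat_lit 6) (nat_lit 188) (nat_lit 1) (nat_lit 142) (nat_lit 123) (nat_lit 125)) (PT.nd (nat_lit 78) (PT.lf (nat_lit 13224) (nat_lit 6) (nat_lit 174) (nat_lit 1) (nat_lit 143) (nat_lit 123) (nat_lit 124)) (PT.lf (nat_lit 12084) (nat_lit 3) (nat_lit 159) (nat_lit 0) (nat_lit 144) (nat_lit 123) (nat_lit 123))))) (PT.nd (nat_lit 234) (PT.nd (nat_lit 78) (PT.lf (nat_lit 12160) (nat_lit 6) (nat_lit 160) (nat_lit 5) (nat_lit 122) (nat_lit 124) (nat_lit 144)) (PT.nd (nat_lit 78) (PT.lf (nat_lit 13224) (nat_lit 6) (nat_lit 174) (nat_lit 5) (nat_lit 123) (nat_lit 124) (nat_lit 143)) (PT.lf (nat_lit 14212) (nat_lit 3) (nat_lit 187) (nat_lit 3) (nat_lit 124) (nat_lit 124) (nat_lit 142)))) (PT.nd (nat_lit 78) (PT.lf (nat_lit 15200) (nat_lit 6) (nat_lit 200) (nat_lit 3) (nat_lit 125) (nat_lit 124) (nat_lit 141)) (PT.nd (nat_lit 78) (PT.lf (nat_lit 16112)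 (nat_lit 6) (nat_lit 212) (nat_lit 3) (nat_lit 126) (nat_lit 124) (nat_lit 140)) (PT.lf (nat_lit 16948) (nat_lit 6) (nat_lit 223) (nat_lit 3) (nat_lit 127) (nat_lit 124) (nat_lit 139))))))) (PT.nd (nat_lit 936) (PT.nd (nat_lit 468) (PT.nd (nat_lit 234) (PT.nd (nat_lit 78) (PT.lf (nat_lit 17708) (nat_lit 6) (nat_lit 233) (nat_lit 3) (nat_lit 128) (nat_lit 124) (nat_lit 138)) (PT.nd (nat_lit 78) (PT.lf (nat_lit 18392) (nat_lit 6) (nat_lit 242) (nat_lit 3) (nat_lit 129) (nat_lit 124) (nat_lit 137)) (PT.lf (nat_lit 19000) (nat_lit 6) (nat_lit 250) (nat_lit 3) (nat_lit 130) (nat_lit 124) (nat_lit 136)))) (PT.nd (nat_lit 78) (PT.lf (nat_lit 19076) (nat_lit 6) (nat_lit 251) (nat_lit 3) (nat_lit 131) (nat_lit 124) (nat_lit 135)) (PT.nd (nat_lit 78) (PT.lf (nat_lit 19152) (nat_lit 6) (nat_lit 252) (nat_lit 3) (nat_lit 132) (nat_lit 124) (nat_lit 134)) (PT.lf (nat_lit 19228) (nat_lit 3) (nat_lit 253) (nat_lit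 1) (nat_lit 133) (nat_lit 124) (nat_lit 133))))) (PT.nd (nat_lit 234) (PT.nd (nat_lit 78) (PT.lf (nat_lit 19152) (nat_lit 6) (nat_lit 252) (nat_lit 1) (nat_lit 134) (nat_lit 124) (nat_lit 132)) (PT.nd (nat_lit 78) (PT.lf (nat_lit 19076) (nat_lit 6) (nat_lit 251) (nat_lit 1) (nat_lit 135) (nat_lit 124) (nat_lit 131)) (PT.lf (nat_lit 19000) (nat_lit 6) (nat_lit 250) (nat_lit 1) (nat_lit 136) (nat_lit 124) (nat_lit 130)))) (PT.nd (nat_lit 78) (PT.lf (nat_lit 18392) (nat_lit 6) (nat_lit 242) (nat_lit 1) (nat_lit 137) (nat_lit 124) (nat_lit 129)) (PT.nd (nat_lit 78) (PT.lf (nat_lit 17708) (nat_lit 6) (nat_lit 233) (nat_lit 1) (nat_lit 138) (nat_lit 124) (nat_lit 128)) (PT.lf (nat_lit 16948) (nat_lit 6) (nat_lit 223) (nat_lit 1) (nat_lit 139) (nat_lit 124) (nat_lit 127)))))) (PT.nd (nat_lit 39234) (PT.nd (nat_lit 234) (PT.nd (nat_lit 78) (PT.lf (nat_lit 16112) (nat_lit 6) (nat_lit 212) (nat_lit 1)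 (nat_lit 140) (nat_lit 124) (nat_lit 126)) (PT.nd (nat_lit 78) (PT.lf (nat_lit 15200) (nat_lit 6) (nat_lit 200) (nat_lit 1) (nat_lit 141) (nat_lit 124) (nat_lit 125)) (PT.lf (nat_lit 14212) (nat_lit 3) (nat_lit 187) (nat_lit 0) (nat_lit 142) (nat_lit 124) (nat_lit 124)))) (PT.nd (nat_lit 78) (PT.lf (nat_lit 13224) (nat_lit 6) (nat_lit 174) (nat_lit 0) (nat_lit 143) (nat_lit 124) (nat_lit 123)) (PT.nd (nat_lit 38844) (PT.lf (nat_lit 12160) (nat_lit 6) (nat_lit 160) (nat_lit 0) (nat_lit 144) (nat_lit 124) (nat_lit 122)) (PT.lf (nat_lit 12236) (nat_lit 6) (nat_lit 161) (nat_lit 5) (nat_lit 121) (nat_lit 125) (nat_lit 144))))) (PT.nd (nat_lit 234) (PT.nd (nat_lit 78) (PT.lf (nat_lit 13300) (nat_lit 6) (nat_lit 175) (nat_lit 5) (nat_lit 122) (nat_lit 125) (nat_lit 143)) (PT.nd (nat_lit 78) (PT.lf (nat_lit 14288) (nat_lit 6) (nat_lit 188) (nat_lit 5) (nat_lit 123) (nat_lit 125) (nat_lit 142)) (PT.lf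 (nat_lit 15200) (nat_lit 6) (nat_lit 200) (nat_lit 5) (nat_lit 124) (nat_lit 125) (nat_lit 141)))) (PT.nd (nat_lit 78) (PT.lf (nat_lit 16036) (nat_lit 3) (nat_lit 211) (nat_lit 3) (nat_lit 125) (nat_lit 125) (nat_lit 140)) (PT.nd (nat_lit 78) (PT.lf (nat_lit 16872) (nat_lit 6) (nat_lit 222) (nat_lit 3) (nat_lit 126) (nat_lit 125) (nat_lit 139)) (PT.lf (nat_lit 17632) (nat_lit 6) (nat_lit 232) (nat_lit 3) (nat_lit 127) (nat_lit 125) (nat_lit 138))))))))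
noncomputable def pc10 : PT := (PT.nd (nat_lit 40482) (PT.nd (nat_lit 858) (PT.nd (nat_lit 390) (PT.nd (nat_lit 156) (PT.nd (nat_lit 78) (PT.lf (nat_lit 18316) (nat_lit 6) (nat_lit 241) (nat_lit 3) (nat_lit 128) (nat_lit 125) (nat_lit 137)) (PT.lf (nat_lit 18924) (nat_lit 6) (nat_lit 249) (nat_lit 3) (nat_lit 129) (nat_lit 125) (nat_lit 136))) (PT.nd (nat_lit 78) (PT.lf (nat_lit 19456) (nat_lit 6) (nat_lit 256) (nat_lit 3) (nat_lit 130) (nat_lit 125) (nat_lit 135)) (PT.nd (nat_lit 78) (PT.lf (nat_lit 19532) (nat_lit 6) (nat_lit 257) (nat_lit 3) (nat_lit 131) (nat_lit 125) (nat_lit 134)) (PT.lf (nat_lit 19608) (nat_lit 6) (nat_lit 258) (nat_lit 3) (nat_lit 132) (nat_lit 125) (nat_lit 133))))) (PT.nd (nat_lit 234) (PT.nd (nat_lit 78) (PT.lf (nat_lit 19608) (nat_lit 6) (nat_lit 258) (nat_lit 1) (nat_lit 133) (nat_lit 125) (nat_lit 132)) (PT.nd (nat_lit 78) (PT.lf (nat_lit 19532) (nat_lit 6) (nat_lit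 257) (nat_lit 1) (nat_lit 134) (nat_lit 125) (nat_lit 131)) (PT.lf (nat_lit 19456) (nat_lit 6) (nat_lit 256) (nat_lit 1) (nat_lit 135) (nat_lit 125) (nat_lit 130)))) (PT.nd (nat_lit 78) (PT.lf (nat_lit 18924) (nat_lit 6) (nat_lit 249) (nat_lit 1) (nat_lit 136) (nat_lit 125) (nat_lit 129)) (PT.nd (nat_lit 78) (PT.lf (nat_lit 18316) (nat_lit 6) (nat_lit 241) (nat_lit 1) (nat_lit 137) (nat_lit 125) (nat_lit 128)) (PT.lf (nat_lit 17632) (nat_lit 6) (nat_lit 232) (nat_lit 1) (nat_lit 138) (nat_lit 125) (nat_lit 127)))))) (PT.nd (nat_lit 39156) (PT.nd (nat_lit 234) (PT.nd (nat_lit 78) (PT.lf (nat_lit 16872) (nat_lit 6) (nat_lit 222) (nat_lit 1) (nat_lit 139) (nat_lit 125) (nat_lit 126)) (PT.nd (nat_lit 78) (PT.lf (nat_lit 16036) (nat_lit 3) (nat_lit 211) (nat_lit 0) (nat_lit 140) (nat_lit 125) (nat_lit 125)) (PT.lf (nat_lit 15200) (nat_lit 6) (nat_lit 200) (nat_lit 0) (nat_lit 141) (nat_lit 125) (nat_lit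 124)))) (PT.nd (nat_lit 78) (PT.lf (nat_lit 14288) (nat_lit 6) (nat_lit 188) (nat_lit 0) (nat_lit 142) (nat_lit 125) (nat_lit 123)) (PT.nd (nat_lit 78) (PT.lf (nat_lit 13300) (nat_lit 6) (nat_lit 175) (nat_lit 0) (nat_lit 143) (nat_lit 125) (nat_lit 122)) (PT.lf (nat_lit 12236) (nat_lit 6) (nat_lit 161) (nat_lit 0) (nat_lit 144) (nat_lit 125) (nat_lit 121))))) (PT.nd (nat_lit 234) (PT.nd (nat_lit 78) (PT.lf (nat_lit 12312) (nat_lit 6) (nat_lit 162) (nat_lit 5) (nat_lit 120) (nat_lit 126) (nat_lit 144)) (PT.nd (nat_lit 78) (PT.lf (nat_lit 13376) (nat_lit 6) (nat_lit 176) (nat_lit 5) (nat_lit 121) (nat_lit 126) (nat_lit 143)) (PT.lf (nat_lit 14364) (nat_lit 6) (nat_lit 189) (nat_lit 5) (nat_lit 122) (nat_lit 126) (nat_lit 142)))) (PT.nd (nat_lit 78) (PT.lf (nat_lit 15276) (nat_lit 6) (nat_lit 201) (nat_lit 5) (nat_lit 123) (nat_lit 126) (nat_lit 141)) (PT.nd (nat_lit 78) (PT.lf (nat_lit 16112)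 (nat_lit 6) (nat_lit 212) (nat_lit 5) (nat_lit 124) (nat_lit 126) (nat_lit 140)) (PT.lf (nat_lit 16872) (nat_lit 6) (nat_lit 222) (nat_lit 5) (nat_lit 125) (nat_lit 126) (nat_lit 139))))))) (PT.nd (nat_lit 936) (PT.nd (nat_lit 468) (PT.nd (nat_lit 234) (PT.nd (nat_lit 78) (PT.lf (nat_lit 17556) (nat_lit 3) (nat_lit 231) (nat_lit 3) (nat_lit 126) (nat_lit 126) (nat_lit 138)) (PT.nd (nat_lit 78) (PT.lf (nat_lit 18240) (nat_lit 6) (nat_lit 240) (nat_lit 3) (nat_lit 127) (nat_lit 126) (nat_lit 137)) (PT.lf (nat_lit 18848) (nat_lit 6) (nat_lit 248) (nat_lit 3) (nat_lit 128) (nat_lit 126) (nat_lit 136)))) (PT.nd (nat_lit 78) (PT.lf (nat_lit 19380) (nat_lit 6) (nat_lit 255) (nat_lit 3) (nat_lit 129) (nat_lit 126) (nat_lit 135)) (PT.nd (nat_lit 78) (PT.lf (nat_lit 19836) (nat_lit 6) (nat_lit 261) (nat_lit 3) (nat_lit 130) (nat_lit 126) (nat_lit 134)) (PT.lf (nat_lit 19912) (nat_lit 6) (nat_lit 262) (nat_lit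 3) (nat_lit 131) (nat_lit 126) (nat_lit 133))))) (PT.nd (nat_lit 234) (PT.nd (nat_lit 78) (PT.lf (nat_lit 19988) (nat_lit 3) (nat_lit 263) (nat_lit 1) (nat_lit 132) (nat_lit 126) (nat_lit 132)) (PT.nd (nat_lit 78) (PT.lf (nat_lit 19912) (nat_lit 6) (nat_lit 262) (nat_lit 1) (nat_lit 133) (nat_lit 126) (nat_lit 131)) (PT.lf (nat_lit 19836) (nat_lit 6) (nat_lit 261) (nat_lit 1) (nat_lit 134) (nat_lit 126) (nat_lit 130)))) (PT.nd (nat_lit 78) (PT.lf (nat_lit 19380) (nat_lit 6) (nat_lit 255) (nat_lit 1) (nat_lit 135) (nat_lit 126) (nat_lit 129)) (PT.nd (nat_lit 78) (PT.lf (nat_lit 18848) (nat_lit 6) (nat_lit 248) (nat_lit 1) (nat_lit 136) (nat_lit 126) (nat_lit 128)) (PT.lf (nat_lit 18240) (nat_lit 6) (nat_lit 240) (nat_lit 1) (nat_lit 137) (nat_lit 126) (nat_lit 127)))))) (PT.nd (nat_lit 468) (PT.nd (nat_lit 234) (PT.nd (nat_lit 78) (PT.lf (nat_lit 17556) (nat_lit 3) (nat_lit 231) (nat_lit 0) (nat_lit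 138) (nat_lit 126) (nat_lit 126)) (PT.nd (nat_lit 78) (PT.lf (nat_lit 16872) (nat_lit 6) (nat_lit 222) (nat_lit 0) (nat_lit 139) (nat_lit 126) (nat_lit 125)) (PT.lf (nat_lit 16112) (nat_lit 6) (nat_lit 212) (nat_lit 0) (nat_lit 140) (nat_lit 126) (nat_lit 124)))) (PT.nd (nat_lit 78) (PT.lf (nat_lit 15276) (nat_lit 6) (nat_lit 201) (nat_lit 0) (nat_lit 141) (nat_lit 126) (nat_lit 123)) (PT.nd (nat_lit 78) (PT.lf (nat_lit 14364) (nat_lit 6) (nat_lit 189) (nat_lit 0) (nat_lit 142) (nat_lit 126) (nat_lit 122)) (PT.lf (nat_lit 13376) (nat_lit 6) (nat_lit 176) (nat_lit 0) (nat_lit 143) (nat_lit 126) (nat_lit 121))))) (PT.nd (nat_lit 38766) (PT.nd (nat_lit 38610) (PT.lf (nat_lit 12312) (nat_lit 6) (nat_lit 162) (nat_lit 0) (nat_lit 144) (nat_lit 126) (nat_lit 120)) (PT.nd (nat_lit 78) (PT.lf (nat_lit 11248) (nat_lit 6) (nat_lit 148) (nat_lit 5) (nat_lit 118) (nat_lit 127) (nat_lit 145)) (PT.lf (nat_lit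 12388) (nat_lit 6) (nat_lit 163) (nat_lit 5) (nat_lit 119) (nat_lit 127) (nat_lit 144)))) (PT.nd (nat_lit 78) (PT.lf (nat_lit 13452) (nat_lit 6) (nat_lit 177) (nat_lit 5) (nat_lit 120) (nat_lit 127) (nat_lit 143)) (PT.nd (nat_lit 78) (PT.lf (nat_lit 14440) (nat_lit 6) (nat_lit 190) (nat_lit 5) (nat_lit 121) (nat_lit 127) (nat_lit 142)) (PT.lf (nat_lit 15352) (nat_lit 6) (nat_lit 202) (nat_lit 5) (nat_lit 122) (nat_lit 127) (nat_lit 141))))))))
noncomputable def pc11 : PT := (PT.nd (nat_lit 40248) (PT.nd (nat_lit 936) (PT.nd (nat_lit 468) (PT.nd (nat_lit 234) (PT.nd (nat_lit 78) (PT.lf (nat_lit 16188) (nat_lit 6) (nat_lit 213) (nat_lit 5) (nat_lit 123) (nat_lit 127) (nat_lit 140)) (PT.nd (nat_lit 78) (PT.lf (nat_lit 16948) (nat_lit 6) (nat_lit 223) (nat_lit 5) (nat_lit 124) (nat_lit 127) (nat_lit 139)) (PT.lf (nat_lit 17632) (nat_lit 6) (nat_lit 232) (nat_lit 5) (nat_lit 125) (nat_lit 127) (nat_lit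 138)))) (PT.nd (nat_lit 78) (PT.lf (nat_lit 18240) (nat_lit 6) (nat_lit 240) (nat_lit 5) (nat_lit 126) (nat_lit 127) (nat_lit 137)) (PT.nd (nat_lit 78) (PT.lf (nat_lit 18772) (nat_lit 3) (nat_lit 247) (nat_lit 3) (nat_lit 127) (nat_lit 127) (nat_lit 136)) (PT.lf (nat_lit 19304) (nat_lit 6) (nat_lit 254) (nat_lit 3) (nat_lit 128) (nat_lit 127) (nat_lit 135))))) (PT.nd (nat_lit 234) (PT.nd (nat_lit 78) (PT.lf (nat_lit 19760) (nat_lit 6) (nat_lit 260) (nat_lit 3) (nat_lit 129) (nat_lit 127) (nat_lit 134)) (PT.nd (nat_lit 78) (PT.lf (nat_lit 20140) (nat_lit 6) (nat_lit 265) (nat_lit 3) (nat_lit 130) (nat_lit 127) (nat_lit 133)) (PT.lf (nat_lit 20216) (nat_lit 6) (nat_lit 266) (nat_lit 3) (nat_lit 131) (nat_lit 127) (nat_lit 132)))) (PT.nd (nat_lit 78) (PT.lf (nat_lit 20216) (nat_lit 6) (nat_lit 266) (nat_lit 1) (nat_lit 132) (nat_lit 127) (nat_lit 131)) (PT.nd (nat_lit 78) (PT.lf (nat_lit 20140)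 (nat_lit 6) (nat_lit 265) (nat_lit 1) (nat_lit 133) (nat_lit 127) (nat_lit 130)) (PT.lf (nat_lit 19760) (nat_lit 6) (nat_lit 260) (nat_lit 1) (nat_lit 134) (nat_lit 127) (nat_lit 129)))))) (PT.nd (nat_lit 468) (PT.nd (nat_lit 234) (PT.nd (nat_lit 78) (PT.lf (nat_lit 19304) (nat_lit 6) (nat_lit 254) (nat_lit 1) (nat_lit 135) (nat_lit 127) (nat_lit 128)) (PT.nd (nat_lit 78) (PT.lf (nat_lit 18772) (nat_lit 3) (nat_lit 247) (nat_lit 0) (nat_lit 136) (nat_lit 127) (nat_lit 127)) (PT.lf (nat_lit 18240) (nat_lit 6) (nat_lit 240) (nat_lit 0) (nat_lit 137) (nat_lit 127) (nat_lit 126)))) (PT.nd (nat_lit 78) (PT.lf (nat_lit 17632) (nat_lit 6) (nat_lit 232) (nat_lit 0) (nat_lit 138) (nat_lit 127) (nat_lit 125)) (PT.nd (nat_lit 78) (PT.lf (nat_lit 16948) (nat_lit 6) (nat_lit 223) (nat_lit 0) (nat_lit 139) (nat_lit 127) (nat_lit 124)) (PT.lf (nat_lit 16188) (nat_lit 6) (nat_lit 213) (nat_lit 0) (nat_lit 140)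 (nat_lit 127) (nat_lit 123))))) (PT.nd (nat_lit 234) (PT.nd (nat_lit 78) (PT.lf (nat_lit 15352) (nat_lit 6) (nat_lit 202) (nat_lit 0) (nat_lit 141) (nat_lit 127) (nat_lit 122)) (PT.nd (nat_lit 78) (PT.lf (nat_lit 14440) (nat_lit 6) (nat_lit 190) (nat_lit 0) (nat_lit 142) (nat_lit 127) (nat_lit 121)) (PT.lf (nat_lit 13452) (nat_lit 6) (nat_lit 177) (nat_lit 0) (nat_lit 143) (nat_lit 127) (nat_lit 120)))) (PT.nd (nat_lit 78) (PT.lf (nat_lit 12388) (nat_lit 6) (nat_lit 163) (nat_lit 0) (nat_lit 144) (nat_lit 127) (nat_lit 119)) (PT.nd (nat_lit 38454) (PT.lf (nat_lit 11248) (nat_lit 6) (nat_lit 148) (nat_lit 0) (nat_lit 145) (nat_lit 127) (nat_lit 118)) (PT.lf (nat_lit 11324) (nat_lit 6) (nat_lit 149) (nat_lit 5) (nat_lit 117) (nat_lit 128) (nat_lit 145))))))) (PT.nd (nat_lit 936) (PT.nd (nat_lit 468) (PT.nd (nat_lit 234) (PT.nd (nat_lit 78) (PT.lf (nat_lit 12464) (nat_lit 6) (nat_lit 164) (nat_lit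 5) (nat_lit 118) (nat_lit 128) (nat_lit 144)) (PT.nd (nat_lit 78) (PT.lf (nat_lit 13528) (nat_lit 6) (nat_lit 178) (nat_lit 5) (nat_lit 119) (nat_lit 128) (nat_lit 143)) (PT.lf (nat_lit 14516) (nat_lit 6) (nat_lit 191) (nat_lit 5) (nat_lit 120) (nat_lit 128) (nat_lit 142)))) (PT.nd (nat_lit 78) (PT.lf (nat_lit 15428) (nat_lit 6) (nat_lit 203) (nat_lit 5) (nat_lit 121) (nat_lit 128) (nat_lit 141)) (PT.nd (nat_lit 78) (PT.lf (nat_lit 16264) (nat_lit 6) (nat_lit 214) (nat_lit 5) (nat_lit 122) (nat_lit 128) (nat_lit 140)) (PT.lf (nat_lit 17024) (nat_lit 6) (nat_lit 224) (nat_lit 5) (nat_lit 123) (nat_lit 128) (nat_lit 139))))) (PT.nd (nat_lit 234) (PT.nd (nat_lit 78) (PT.lf (nat_lit 17708) (nat_lit 6) (nat_lit 233) (nat_lit 5) (nat_lit 124) (nat_lit 128) (nat_lit 138)) (PT.nd (nat_lit 78) (PT.lf (nat_lit 18316) (nat_lit 6) (nat_lit 241) (nat_lit 5) (nat_lit 125) (nat_lit 128) (nat_lit 137)) (PT.lf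 (nat_lit 18848) (nat_lit 6) (nat_lit 248) (nat_lit 5) (nat_lit 126) (nat_lit 128) (nat_lit 136)))) (PT.nd (nat_lit 78) (PT.lf (nat_lit 19304) (nat_lit 6) (nat_lit 254) (nat_lit 5) (nat_lit 127) (nat_lit 128) (nat_lit 135)) (PT.nd (nat_lit 78) (PT.lf (nat_lit 19684) (nat_lit 3) (nat_lit 259) (nat_lit 3) (nat_lit 128) (nat_lit 128) (nat_lit 134)) (PT.lf (nat_lit 20064) (nat_lit 6) (nat_lit 264) (nat_lit 3) (nat_lit 129) (nat_lit 128) (nat_lit 133)))))) (PT.nd (nat_lit 468) (PT.nd (nat_lit 234) (PT.nd (nat_lit 78) (PT.lf (nat_lit 20368) (nat_lit 6) (nat_lit 268) (nat_lit 3) (nat_lit 130) (nat_lit 128) (nat_lit 132)) (PT.nd (nat_lit 78) (PT.lf (nat_lit 20444) (nat_lit 3) (nat_lit 269) (nat_lit 1) (nat_lit 131) (nat_lit 128) (nat_lit 131)) (PT.lf (nat_lit 20368) (nat_lit 6) (nat_lit 268) (nat_lit 1) (nat_lit 132) (nat_lit 128) (nat_lit 130)))) (PT.nd (nat_lit 78) (PT.lf (nat_lit 20064) (nat_lit 6)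 (nat_lit 264) (nat_lit 1) (nat_lit 133) (nat_lit 128) (nat_lit 129)) (PT.nd (nat_lit 78) (PT.lf (nat_lit 19684) (nat_lit 3) (nat_lit 259) (nat_lit 0) (nat_lit 134) (nat_lit 128) (nat_lit 128)) (PT.lf (nat_lit 19304) (nat_lit 6) (nat_lit 254) (nat_lit 0) (nat_lit 135) (nat_lit 128) (nat_lit 127))))) (PT.nd (nat_lit 234) (PT.nd (nat_lit 78) (PT.lf (nat_lit 18848) (nat_lit 6) (nat_lit 248) (nat_lit 0) (nat_lit 136) (nat_lit 128) (nat_lit 126)) (PT.nd (nat_lit 78) (PT.lf (nat_lit 18316) (nat_lit 6) (nat_lit 241) (nat_lit 0) (nat_lit 137) (nat_lit 128) (nat_lit 125)) (PT.lf (nat_lit 17708) (nat_lit 6) (nat_lit 233) (nat_lit 0) (nat_lit 138) (nat_lit 128) (nat_lit 124)))) (PT.nd (nat_lit 78) (PT.lf (nat_lit 17024) (nat_lit 6) (nat_lit 224) (nat_lit 0) (nat_lit 139) (nat_lit 128) (nat_lit 123)) (PT.nd (nat_lit 78) (PT.lf (nat_lit 16264) (nat_lit 6) (nat_lit 214) (nat_lit 0) (nat_lit 140) (nat_lit 128)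 (nat_lit 122)) (PT.lf (nat_lit 15428) (nat_lit 6) (nat_lit 203) (nat_lit 0) (nat_lit 141) (nat_lit 128) (nat_lit 121))))))))
noncomputable def pc12 : PT := (PT.nd (nat_lit 40092) (PT.nd (nat_lit 39156) (PT.nd (nat_lit 38688) (PT.nd (nat_lit 156) (PT.nd (nat_lit 78) (PT.lf (nat_lit 14516) (nat_lit 6) (nat_lit 191) (nat_lit 0) (nat_lit 142) (nat_lit 128) (nat_lit 120)) (PT.lf (nat_lit 13528) (nat_lit 6) (nat_lit 178) (nat_lit 0) (nat_lit 143) (nat_lit 128) (nat_lit 119))) (PT.nd (nat_lit 78) (PT.lf (nat_lit 12464) (nat_lit 6) (nat_lit 164) (nat_lit 0) (nat_lit 144) (nat_lit 128) (nat_lit 118)) (PT.nd (nat_lit 38376) (PT.lf (nat_lit 11324) (nat_lit 6) (nat_lit 149) (nat_lit 0) (nat_lit 145) (nat_lit 128) (nat_lit 117)) (PT.lf (nat_lit 11400) (nat_lit 6) (nat_lit 150) (nat_lit 5) (nat_lit 116) (nat_lit 129) (nat_lit 145))))) (PT.nd (nat_lit 234) (PT.nd (nat_lit 78) (PT.lf (nat_lit 12540) (nat_lit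 6) (nat_lit 165) (nat_lit 5) (nat_lit 117) (nat_lit 129) (nat_lit 144)) (PT.nd (nat_lit 78) (PT.lf (nat_lit 13604) (nat_lit 6) (nat_lit 179) (nat_lit 5) (nat_lit 118) (nat_lit 129) (nat_lit 143)) (PT.lf (nat_lit 14592) (nat_lit 6) (nat_lit 192) (nat_lit 5) (nat_lit 119) (nat_lit 129) (nat_lit 142)))) (PT.nd (nat_lit 78) (PT.lf (nat_lit 15504) (nat_lit 6) (nat_lit 204) (nat_lit 5) (nat_lit 120) (nat_lit 129) (nat_lit 141)) (PT.nd (nat_lit 78) (PT.lf (nat_lit 16340) (nat_lit 6) (nat_lit 215) (nat_lit 5) (nat_lit 121) (nat_lit 129) (nat_lit 140)) (PT.lf (nat_lit 17100) (nat_lit 6) (nat_lit 225) (nat_lit 5) (nat_lit 122) (nat_lit 129) (nat_lit 139)))))) (PT.nd (nat_lit 468) (PT.nd (nat_lit 234) (PT.nd (nat_lit 78) (PT.lf (nat_lit 17784) (nat_lit 6) (nat_lit 234) (nat_lit 5) (nat_lit 123) (nat_lit 129) (nat_lit 138)) (PT.nd (nat_lit 78) (PT.lf (nat_lit 18392) (nat_lit 6) (nat_lit 242) (nat_lit 5)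 (nat_lit 124) (nat_lit 129) (nat_lit 137)) (PT.lf (nat_lit 18924) (nat_lit 6) (nat_lit 249) (nat_lit 5) (nat_lit 125) (nat_lit 129) (nat_lit 136)))) (PT.nd (nat_lit 78) (PT.lf (nat_lit 19380) (nat_lit 6) (nat_lit 255) (nat_lit 5) (nat_lit 126) (nat_lit 129) (nat_lit 135)) (PT.nd (nat_lit 78) (PT.lf (nat_lit 19760) (nat_lit 6) (nat_lit 260) (nat_lit 5) (nat_lit 127) (nat_lit 129) (nat_lit 134)) (PT.lf (nat_lit 20064) (nat_lit 6) (nat_lit 264) (nat_lit 5) (nat_lit 128) (nat_lit 129) (nat_lit 133))))) (PT.nd (nat_lit 234) (PT.nd (nat_lit 78) (PT.lf (nat_lit 20292) (nat_lit 3) (nat_lit 267) (nat_lit 3) (nat_lit 129) (nat_lit 129) (nat_lit 132)) (PT.nd (nat_lit 78) (PT.lf (nat_lit 20520) (nat_lit 6) (nat_lit 270) (nat_lit 3) (nat_lit 130) (nat_lit 129) (nat_lit 131)) (PT.lf (nat_lit 20520) (nat_lit 6) (nat_lit 270) (nat_lit 1) (nat_lit 131) (nat_lit 129) (nat_lit 130)))) (PT.nd (nat_lit 78) (PT.lf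 (nat_lit 20292) (nat_lit 3) (nat_lit 267) (nat_lit 0) (nat_lit 132) (nat_lit 129) (nat_lit 129)) (PT.nd (nat_lit 78) (PT.lf (nat_lit 20064) (nat_lit 6) (nat_lit 264) (nat_lit 0) (nat_lit 133) (nat_lit 129) (nat_lit 128)) (PT.lf (nat_lit 19760) (nat_lit 6) (nat_lit 260) (nat_lit 0) (nat_lit 134) (nat_lit 129) (nat_lit 127))))))) (PT.nd (nat_lit 39156) (PT.nd (nat_lit 468) (PT.nd (nat_lit 234) (PT.nd (nat_lit 78) (PT.lf (nat_lit 19380) (nat_lit 6) (nat_lit 255) (nat_lit 0) (nat_lit 135) (nat_lit 129) (nat_lit 126)) (PT.nd (nat_lit 78) (PT.lf (nat_lit 18924) (nat_lit 6) (nat_lit 249) (nat_lit 0) (nat_lit 136) (nat_lit 129) (nat_lit 125)) (PT.lf (nat_lit 18392) (nat_lit 6) (nat_lit 242) (nat_lit 0) (nat_lit 137) (nat_lit 129) (nat_lit 124)))) (PT.nd (nat_lit 78) (PT.lf (nat_lit 17784) (nat_lit 6) (nat_lit 234) (nat_lit 0) (nat_lit 138) (nat_lit 129) (nat_lit 123)) (PT.nd (nat_lit 78) (PT.lf (nat_lit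 17100) (nat_lit 6) (nat_lit 225) (nat_lit 0) (nat_lit 139) (nat_lit 129) (nat_lit 122)) (PT.lf (nat_lit 16340) (nat_lit 6) (nat_lit 215) (nat_lit 0) (nat_lit 140) (nat_lit 129) (nat_lit 121))))) (PT.nd (nat_lit 234) (PT.nd (nat_lit 78) (PT.lf (nat_lit 15504) (nat_lit 6) (nat_lit 204) (nat_lit 0) (nat_lit 141) (nat_lit 129) (nat_lit 120)) (PT.nd (nat_lit 78) (PT.lf (nat_lit 14592) (nat_lit 6) (nat_lit 192) (nat_lit 0) (nat_lit 142) (nat_lit 129) (nat_lit 119)) (PT.lf (nat_lit 13604) (nat_lit 6) (nat_lit 179) (nat_lit 0) (nat_lit 143) (nat_lit 129) (nat_lit 118)))) (PT.nd (nat_lit 78) (PT.lf (nat_lit 12540) (nat_lit 6) (nat_lit 165) (nat_lit 0) (nat_lit 144) (nat_lit 129) (nat_lit 117)) (PT.nd (nat_lit 38298) (PT.lf (nat_lit 11400) (nat_lit 6) (nat_lit 150) (nat_lit 0) (nat_lit 145) (nat_lit 129) (nat_lit 116)) (PT.lf (nat_lit 11476) (nat_lit 6) (nat_lit 151) (nat_lit 5) (nat_lit 115) (nat_lit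 130) (nat_lit 145)))))) (PT.nd (nat_lit 468) (PT.nd (nat_lit 234) (PT.nd (nat_lit 78) (PT.lf (nat_lit 12616) (nat_lit 6) (nat_lit 166) (nat_lit 5) (nat_lit 116) (nat_lit 130) (nat_lit 144)) (PT.nd (nat_lit 78) (PT.lf (nat_lit 13680) (nat_lit 6) (nat_lit 180) (nat_lit 5) (nat_lit 117) (nat_lit 130) (nat_lit 143)) (PT.lf (nat_lit 14668) (nat_lit 6) (nat_lit 193) (nat_lit 5) (nat_lit 118) (nat_lit 130) (nat_lit 142)))) (PT.nd (nat_lit 78) (PT.lf (nat_lit 15580) (nat_lit 6) (nat_lit 205) (nat_lit 5) (nat_lit 119) (nat_lit 130) (nat_lit 141)) (PT.nd (nat_lit 78) (PT.lf (nat_lit 16416) (nat_lit 6) (nat_lit 216) (nat_lit 5) (nat_lit 120) (nat_lit 130) (nat_lit 140)) (PT.lf (nat_lit 17176) (nat_lit 6) (nat_lit 226) (nat_lit 5) (nat_lit 121) (nat_lit 130) (nat_lit 139))))) (PT.nd (nat_lit 234) (PT.nd (nat_lit 78) (PT.lf (nat_lit 17860) (nat_lit 6) (nat_lit 235) (nat_lit 5) (nat_lit 122) (nat_lit 130)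 (nat_lit 138)) (PT.nd (nat_lit 78) (PT.lf (nat_lit 18468) (nat_lit 6) (nat_lit 243) (nat_lit 5) (nat_lit 123) (nat_lit 130) (nat_lit 137)) (PT.lf (nat_lit 19000) (nat_lit 6) (nat_lit 250) (nat_lit 5) (nat_lit 124) (nat_lit 130) (nat_lit 136)))) (PT.nd (nat_lit 78) (PT.lf (nat_lit 19456) (nat_lit 6) (nat_lit 256) (nat_lit 5) (nat_lit 125) (nat_lit 130) (nat_lit 135)) (PT.nd (nat_lit 78) (PT.lf (nat_lit 19836) (nat_lit 6) (nat_lit 261) (nat_lit 5) (nat_lit 126) (nat_lit 130) (nat_lit 134)) (PT.lf (nat_lit 20140) (nat_lit 6) (nat_lit 265) (nat_lit 5) (nat_lit 127) (nat_lit 130) (nat_lit 133))))))))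
noncomputable def pc13 : PT := (PT.nd (nat_lit 40014) (PT.nd (nat_lit 936) (PT.nd (nat_lit 468) (PT.nd (nat_lit 234) (PT.nd (nat_lit 78) (PT.lf (nat_lit 20368) (nat_lit 6) (nat_lit 268) (nat_lit 5) (nat_lit 128) (nat_lit 130) (nat_lit 132)) (PT.nd (nat_lit 78) (PT.lf (nat_lit 20520) (nat_lit 6) (nat_lit 270) (nat_lit 5) (nat_lit 129) (nat_lit 130) (nat_lit 131)) (PT.lf (nat_lit 20596) (nat_lit 1) (nat_lit 271) (nat_lit 0) (nat_lit 130) (nat_lit 130) (nat_lit 130)))) (PT.nd (nat_lit 78) (PT.lf (nat_lit 20520) (nat_lit 6) (nat_lit 270) (nat_lit 0) (nat_lit 131) (nat_lit 130) (nat_lit 129)) (PT.nd (nat_lit 78) (PT.lf (nat_lit 20368) (nat_lit 6) (nat_lit 268) (nat_lit 0) (nat_lit 132) (nat_lit 130) (nat_lit 128)) (PT.lf (nat_lit 20140) (nat_lit 6) (nat_lit 265) (nat_lit 0) (nat_lit 133) (nat_lit 130) (nat_lit 127))))) (PT.nd (nat_lit 234) (PT.nd (nat_lit 78) (PT.lf (nat_lit 19836) (nat_lit 6) (nat_lit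 261) (nat_lit 0) (nat_lit 134) (nat_lit 130) (nat_lit 126)) (PT.nd (nat_lit 78) (PT.lf (nat_lit 19456) (nat_lit 6) (nat_lit 256) (nat_lit 0) (nat_lit 135) (nat_lit 130) (nat_lit 125)) (PT.lf (nat_lit 19000) (nat_lit 6) (nat_lit 250) (nat_lit 0) (nat_lit 136) (nat_lit 130) (nat_lit 124)))) (PT.nd (nat_lit 78) (PT.lf (nat_lit 18468) (nat_lit 6) (nat_lit 243) (nat_lit 0) (nat_lit 137) (nat_lit 130) (nat_lit 123)) (PT.nd (nat_lit 78) (PT.lf (nat_lit 17860) (nat_lit 6) (nat_lit 235) (nat_lit 0) (nat_lit 138) (nat_lit 130) (nat_lit 122)) (PT.lf (nat_lit 17176) (nat_lit 6) (nat_lit 226) (nat_lit 0) (nat_lit 139) (nat_lit 130) (nat_lit 121)))))) (PT.nd (nat_lit 38610) (PT.nd (nat_lit 234) (PT.nd (nat_lit 78) (PT.lf (nat_lit 16416) (nat_lit 6) (nat_lit 216) (nat_lit 0) (nat_lit 140) (nat_lit 130) (nat_lit 120)) (PT.nd (nat_lit 78) (PT.lf (nat_lit 15580) (nat_lit 6) (nat_lit 205) (nat_lit 0) (nat_lit 141)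 (nat_lit 130) (nat_lit 119)) (PT.lf (nat_lit 14668) (nat_lit 6) (nat_lit 193) (nat_lit 0) (nat_lit 142) (nat_lit 130) (nat_lit 118)))) (PT.nd (nat_lit 78) (PT.lf (nat_lit 13680) (nat_lit 6) (nat_lit 180) (nat_lit 0) (nat_lit 143) (nat_lit 130) (nat_lit 117)) (PT.nd (nat_lit 78) (PT.lf (nat_lit 12616) (nat_lit 6) (nat_lit 166) (nat_lit 0) (nat_lit 144) (nat_lit 130) (nat_lit 116)) (PT.lf (nat_lit 11476) (nat_lit 6) (nat_lit 151) (nat_lit 0) (nat_lit 145) (nat_lit 130) (nat_lit 115))))) (PT.nd (nat_lit 234) (PT.nd (nat_lit 78) (PT.lf (nat_lit 10640) (nat_lit 6) (nat_lit 140) (nat_lit 5) (nat_lit 114) (nat_lit 131) (nat_lit 145)) (PT.nd (nat_lit 78) (PT.lf (nat_lit 11552) (nat_lit 6) (nat_lit 152) (nat_lit 5) (nat_lit 115) (nat_lit 131) (nat_lit 144)) (PT.lf (nat_lit 12692) (nat_lit 6) (nat_lit 167) (nat_lit 5) (nat_lit 116) (nat_lit 131) (nat_lit 143)))) (PT.nd (nat_lit 78) (PT.lf (nat_lit 13756)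 (nat_lit 6) (nat_lit 181) (nat_lit 5) (nat_lit 117) (nat_lit 131) (nat_lit 142)) (PT.nd (nat_lit 78) (PT.lf (nat_lit 14744) (nat_lit 6) (nat_lit 194) (nat_lit 5) (nat_lit 118) (nat_lit 131) (nat_lit 141)) (PT.lf (nat_lit 15656) (nat_lit 6) (nat_lit 206) (nat_lit 5) (nat_lit 119) (nat_lit 131) (nat_lit 140))))))) (PT.nd (nat_lit 936) (PT.nd (nat_lit 468) (PT.nd (nat_lit 234) (PT.nd (nat_lit 78) (PT.lf (nat_lit 16492) (nat_lit 6) (nat_lit 217) (nat_lit 5) (nat_lit 120) (nat_lit 131) (nat_lit 139)) (PT.nd (nat_lit 78) (PT.lf (nat_lit 17252) (nat_lit 6) (nat_lit 227) (nat_lit 5) (nat_lit 121) (nat_lit 131) (nat_lit 138)) (PT.lf (nat_lit 17936) (nat_lit 6) (nat_lit 236) (nat_lit 5) (nat_lit 122) (nat_lit 131) (nat_lit 137)))) (PT.nd (nat_lit 78) (PT.lf (nat_lit 18544) (nat_lit 6) (nat_lit 244) (nat_lit 5) (nat_lit 123) (nat_lit 131) (nat_lit 136)) (PT.nd (nat_lit 78) (PT.lf (nat_lit 19076) (nat_lit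 6) (nat_lit 251) (nat_lit 5) (nat_lit 124) (nat_lit 131) (nat_lit 135)) (PT.lf (nat_lit 19532) (nat_lit 6) (nat_lit 257) (nat_lit 5) (nat_lit 125) (nat_lit 131) (nat_lit 134))))) (PT.nd (nat_lit 234) (PT.nd (nat_lit 78) (PT.lf (nat_lit 19912) (nat_lit 6) (nat_lit 262) (nat_lit 5) (nat_lit 126) (nat_lit 131) (nat_lit 133)) (PT.nd (nat_lit 78) (PT.lf (nat_lit 20216) (nat_lit 6) (nat_lit 266) (nat_lit 5) (nat_lit 127) (nat_lit 131) (nat_lit 132)) (PT.lf (nat_lit 20444) (nat_lit 3) (nat_lit 269) (nat_lit 4) (nat_lit 128) (nat_lit 131) (nat_lit 131)))) (PT.nd (nat_lit 78) (PT.lf (nat_lit 20520) (nat_lit 6) (nat_lit 270) (nat_lit 4) (nat_lit 129) (nat_lit 131) (nat_lit 130)) (PT.nd (nat_lit 78) (PT.lf (nat_lit 20520) (nat_lit 6) (nat_lit 270) (nat_lit 2) (nat_lit 130) (nat_lit 131) (nat_lit 129)) (PT.lf (nat_lit 20444) (nat_lit 3) (nat_lit 269) (nat_lit 0) (nat_lit 131) (nat_lit 131) (nat_lit 128))))))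 (PT.nd (nat_lit 468) (PT.nd (nat_lit 234) (PT.nd (nat_lit 78) (PT.lf (nat_lit 20216) (nat_lit 6) (nat_lit 266) (nat_lit 0) (nat_lit 132) (nat_lit 131) (nat_lit 127)) (PT.nd (nat_lit 78) (PT.lf (nat_lit 19912) (nat_lit 6) (nat_lit 262) (nat_lit 0) (nat_lit 133) (nat_lit 131) (nat_lit 126)) (PT.lf (nat_lit 19532) (nat_lit 6) (nat_lit 257) (nat_lit 0) (nat_lit 134) (nat_lit 131) (nat_lit 125)))) (PT.nd (nat_lit 78) (PT.lf (nat_lit 19076) (nat_lit 6) (nat_lit 251) (nat_lit 0) (nat_lit 135) (nat_lit 131) (nat_lit 124)) (PT.nd (nat_lit 78) (PT.lf (nat_lit 18544) (nat_lit 6) (nat_lit 244) (nat_lit 0) (nat_lit 136) (nat_lit 131) (nat_lit 123)) (PT.lf (nat_lit 17936) (nat_lit 6) (nat_lit 236) (nat_lit 0) (nat_lit 137) (nat_lit 131) (nat_lit 122))))) (PT.nd (nat_lit 234) (PT.nd (nat_lit 78) (PT.lf (nat_lit 17252) (nat_lit 6) (nat_lit 227) (nat_lit 0) (nat_lit 138) (nat_lit 131) (nat_lit 121)) (PT.nd (nat_lit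 78) (PT.lf (nat_lit 16492) (nat_lit 6) (nat_lit 217) (nat_lit 0) (nat_lit 139) (nat_lit 131) (nat_lit 120)) (PT.lf (nat_lit 15656) (nat_lit 6) (nat_lit 206) (nat_lit 0) (nat_lit 140) (nat_lit 131) (nat_lit 119)))) (PT.nd (nat_lit 78) (PT.lf (nat_lit 14744) (nat_lit 6) (nat_lit 194) (nat_lit 0) (nat_lit 141) (nat_lit 131) (nat_lit 118)) (PT.nd (nat_lit 78) (PT.lf (nat_lit 13756) (nat_lit 6) (nat_lit 181) (nat_lit 0) (nat_lit 142) (nat_lit 131) (nat_lit 117)) (PT.lf (nat_lit 12692) (nat_lit 6) (nat_lit 167) (nat_lit 0) (nat_lit 143) (nat_lit 131) (nat_lit 116))))))))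
noncomputable def pc14 : PT := (PT.nd (nat_lit 39858) (PT.nd (nat_lit 38922) (PT.nd (nat_lit 38454) (PT.nd (nat_lit 38220) (PT.nd (nat_lit 78) (PT.lf (nat_lit 11552) (nat_lit 6) (nat_lit 152) (nat_lit 0) (nat_lit 144) (nat_lit 131) (nat_lit 115)) (PT.lf (nat_lit 10640) (nat_lit 6) (nat_lit 140) (nat_lit 0) (nat_lit 145) (nat_lit 131) (nat_lit 114))) (PT.nd (nat_lit 78) (PT.lf (nat_lit 10108) (nat_lit 6) (nat_lit 133) (nat_lit 5) (nat_lit 113) (nat_lit 132) (nat_lit 145)) (PT.nd (nat_lit 78) (PT.lf (nat_lit 10716) (nat_lit 6) (nat_lit 141) (nat_lit 5) (nat_lit 114) (nat_lit 132) (nat_lit 144)) (PT.lf (nat_lit 11628) (nat_lit 6) (nat_lit 153) (nat_lit 5) (nat_lit 115) (nat_lit 132) (nat_lit 143))))) (PT.nd (nat_lit 234) (PT.nd (nat_lit 78) (PT.lf (nat_lit 12768) (nat_lit 6) (nat_lit 168) (nat_lit 5) (nat_lit 116) (nat_lit 132) (nat_lit 142)) (PT.nd (nat_lit 78) (PT.lf (nat_lit 13832) (nat_lit 6)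 (nat_lit 182) (nat_lit 5) (nat_lit 117) (nat_lit 132) (nat_lit 141)) (PT.lf (nat_lit 14820) (nat_lit 6) (nat_lit 195) (nat_lit 5) (nat_lit 118) (nat_lit 132) (nat_lit 140)))) (PT.nd (nat_lit 78) (PT.lf (nat_lit 15732) (nat_lit 6) (nat_lit 207) (nat_lit 5) (nat_lit 119) (nat_lit 132) (nat_lit 139)) (PT.nd (nat_lit 78) (PT.lf (nat_lit 16568) (nat_lit 6) (nat_lit 218) (nat_lit 5) (nat_lit 120) (nat_lit 132) (nat_lit 138)) (PT.lf (nat_lit 17328) (nat_lit 6) (nat_lit 228) (nat_lit 5) (nat_lit 121) (nat_lit 132) (nat_lit 137)))))) (PT.nd (nat_lit 468) (PT.nd (nat_lit 234) (PT.nd (nat_lit 78) (PT.lf (nat_lit 18012) (nat_lit 6) (nat_lit 237) (nat_lit 5) (nat_lit 122) (nat_lit 132) (nat_lit 136)) (PT.nd (nat_lit 78) (PT.lf (nat_lit 18620) (nat_lit 6) (nat_lit 245) (nat_lit 5) (nat_lit 123) (nat_lit 132) (nat_lit 135)) (PT.lf (nat_lit 19152) (nat_lit 6) (nat_lit 252) (nat_lit 5) (nat_lit 124) (nat_lit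 132) (nat_lit 134)))) (PT.nd (nat_lit 78) (PT.lf (nat_lit 19608) (nat_lit 6) (nat_lit 258) (nat_lit 5) (nat_lit 125) (nat_lit 132) (nat_lit 133)) (PT.nd (nat_lit 78) (PT.lf (nat_lit 19988) (nat_lit 3) (nat_lit 263) (nat_lit 4) (nat_lit 126) (nat_lit 132) (nat_lit 132)) (PT.lf (nat_lit 20216) (nat_lit 6) (nat_lit 266) (nat_lit 4) (nat_lit 127) (nat_lit 132) (nat_lit 131))))) (PT.nd (nat_lit 234) (PT.nd (nat_lit 78) (PT.lf (nat_lit 20368) (nat_lit 6) (nat_lit 268) (nat_lit 4) (nat_lit 128) (nat_lit 132) (nat_lit 130)) (PT.nd (nat_lit 78) (PT.lf (nat_lit 20292) (nat_lit 3) (nat_lit 267) (nat_lit 2) (nat_lit 129) (nat_lit 132) (nat_lit 129)) (PT.lf (nat_lit 20368) (nat_lit 6) (nat_lit 268) (nat_lit 2) (nat_lit 130) (nat_lit 132) (nat_lit 128)))) (PT.nd (nat_lit 78) (PT.lf (nat_lit 20216) (nat_lit 6) (nat_lit 266) (nat_lit 2) (nat_lit 131) (nat_lit 132) (nat_lit 127)) (PT.nd (nat_lit 78) (PT.lf (nat_lit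 19988) (nat_lit 3) (nat_lit 263) (nat_lit 0) (nat_lit 132) (nat_lit 132) (nat_lit 126)) (PT.lf (nat_lit 19608) (nat_lit 6) (nat_lit 258) (nat_lit 0) (nat_lit 133) (nat_lit 132) (nat_lit 125))))))) (PT.nd (nat_lit 38844) (PT.nd (nat_lit 468) (PT.nd (nat_lit 234) (PT.nd (nat_lit 78) (PT.lf (nat_lit 19152) (nat_lit 6) (nat_lit 252) (nat_lit 0) (nat_lit 134) (nat_lit 132) (nat_lit 124)) (PT.nd (nat_lit 78) (PT.lf (nat_lit 18620) (nat_lit 6) (nat_lit 245) (nat_lit 0) (nat_lit 135) (nat_lit 132) (nat_lit 123)) (PT.lf (nat_lit 18012) (nat_lit 6) (nat_lit 237) (nat_lit 0) (nat_lit 136) (nat_lit 132) (nat_lit 122)))) (PT.nd (nat_lit 78) (PT.lf (nat_lit 17328) (nat_lit 6) (nat_lit 228) (nat_lit 0) (nat_lit 137) (nat_lit 132) (nat_lit 121)) (PT.nd (nat_lit 78) (PT.lf (nat_lit 16568) (nat_lit 6) (nat_lit 218) (nat_lit 0) (nat_lit 138) (nat_lit 132) (nat_lit 120)) (PT.lf (nat_lit 15732) (nat_lit 6) (nat_lit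 207) (nat_lit 0) (nat_lit 139) (nat_lit 132) (nat_lit 119))))) (PT.nd (nat_lit 234) (PT.nd (nat_lit 78) (PT.lf (nat_lit 14820) (nat_lit 6) (nat_lit 195) (nat_lit 0) (nat_lit 140) (nat_lit 132) (nat_lit 118)) (PT.nd (nat_lit 78) (PT.lf (nat_lit 13832) (nat_lit 6) (nat_lit 182) (nat_lit 0) (nat_lit 141) (nat_lit 132) (nat_lit 117)) (PT.lf (nat_lit 12768) (nat_lit 6) (nat_lit 168) (nat_lit 0) (nat_lit 142) (nat_lit 132) (nat_lit 116)))) (PT.nd (nat_lit 78) (PT.lf (nat_lit 11628) (nat_lit 6) (nat_lit 153) (nat_lit 0) (nat_lit 143) (nat_lit 132) (nat_lit 115)) (PT.nd (nat_lit 78) (PT.lf (nat_lit 10716) (nat_lit 6) (nat_lit 141) (nat_lit 0) (nat_lit 144) (nat_lit 132) (nat_lit 114)) (PT.lf (nat_lit 10108) (nat_lit 6) (nat_lit 133) (nat_lit 0) (nat_lit 145) (nat_lit 132) (nat_lit 113)))))) (PT.nd (nat_lit 468) (PT.nd (nat_lit 234) (PT.nd (nat_lit 78) (PT.lf (nat_lit 9044) (nat_lit 6) (nat_lit 119) (nat_lit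 5) (nat_lit 111) (nat_lit 133) (nat_lit 146)) (PT.nd (nat_lit 78) (PT.lf (nat_lit 9576) (nat_lit 6) (nat_lit 126) (nat_lit 5) (nat_lit 112) (nat_lit 133) (nat_lit 145)) (PT.lf (nat_lit 10184) (nat_lit 6) (nat_lit 134) (nat_lit 5) (nat_lit 113) (nat_lit 133) (nat_lit 144)))) (PT.nd (nat_lit 78) (PT.lf (nat_lit 10792) (nat_lit 6) (nat_lit 142) (nat_lit 5) (nat_lit 114) (nat_lit 133) (nat_lit 143)) (PT.nd (nat_lit 78) (PT.lf (nat_lit 11704) (nat_lit 6) (nat_lit 154) (nat_lit 5) (nat_lit 115) (nat_lit 133) (nat_lit 142)) (PT.lf (nat_lit 12844) (nat_lit 6) (nat_lit 169) (nat_lit 5) (nat_lit 116) (nat_lit 133) (nat_lit 141))))) (PT.nd (nat_lit 234) (PT.nd (nat_lit 78) (PT.lf (nat_lit 13908) (nat_lit 6) (nat_lit 183) (nat_lit 5) (nat_lit 117) (nat_lit 133) (nat_lit 140)) (PT.nd (nat_lit 78) (PT.lf (nat_lit 14896) (nat_lit 6) (nat_lit 196) (nat_lit 5) (nat_lit 118) (nat_lit 133) (nat_lit 139)) (PT.lf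 (nat_lit 15808) (nat_lit 6) (nat_lit 208) (nat_lit 5) (nat_lit 119) (nat_lit 133) (nat_lit 138)))) (PT.nd (nat_lit 78) (PT.lf (nat_lit 16644) (nat_lit 6) (nat_lit 219) (nat_lit 5) (nat_lit 120) (nat_lit 133) (nat_lit 137)) (PT.nd (nat_lit 78) (PT.lf (nat_lit 17404) (nat_lit 6) (nat_lit 229) (nat_lit 5) (nat_lit 121) (nat_lit 133) (nat_lit 136)) (PT.lf (nat_lit 18088) (nat_lit 6) (nat_lit 238) (nat_lit 5) (nat_lit 122) (nat_lit 133) (nat_lit 135))))))))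
noncomputable def pc15 : PT := (PT.nd (nat_lit 39624) (PT.nd (nat_lit 936) (PT.nd (nat_lit 468) (PT.nd (nat_lit 234) (PT.nd (nat_lit 78) (PT.lf (nat_lit 18696) (nat_lit 6) (nat_lit 246) (nat_lit 5) (nat_lit 123) (nat_lit 133) (nat_lit 134)) (PT.nd (nat_lit 78) (PT.lf (nat_lit 19228) (nat_lit 3) (nat_lit 253) (nat_lit 4) (nat_lit 124) (nat_lit 133) (nat_lit 133)) (PT.lf (nat_lit 19608) (nat_lit 6) (nat_lit 258) (nat_lit 4) (nat_lit 125) (nat_lit 133) (nat_lit 132)))) (PT.nd (nat_lit 78) (PT.lf (nat_lit 19912) (nat_lit 6) (nat_lit 262) (nat_lit 4) (nat_lit 126) (nat_lit 133) (nat_lit 131)) (PT.nd (nat_lit 78) (PT.lf (nat_lit 20140) (nat_lit 6) (nat_lit 265) (nat_lit 4) (nat_lit 127) (nat_lit 133) (nat_lit 130)) (PT.lf (nat_lit 20064) (nat_lit 6) (nat_lit 264) (nat_lit 4) (nat_lit 128) (nat_lit 133) (nat_lit 129))))) (PT.nd (nat_lit 234) (PT.nd (nat_lit 78) (PT.lf (nat_lit 20064) (nat_lit 6) (nat_lit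 264) (nat_lit 2) (nat_lit 129) (nat_lit 133) (nat_lit 128)) (PT.nd (nat_lit 78) (PT.lf (nat_lit 20140) (nat_lit 6) (nat_lit 265) (nat_lit 2) (nat_lit 130) (nat_lit 133) (nat_lit 127)) (PT.lf (nat_lit 19912) (nat_lit 6) (nat_lit 262) (nat_lit 2) (nat_lit 131) (nat_lit 133) (nat_lit 126)))) (PT.nd (nat_lit 78) (PT.lf (nat_lit 19608) (nat_lit 6) (nat_lit 258) (nat_lit 2) (nat_lit 132) (nat_lit 133) (nat_lit 125)) (PT.nd (nat_lit 78) (PT.lf (nat_lit 19228) (nat_lit 3) (nat_lit 253) (nat_lit 0) (nat_lit 133) (nat_lit 133) (nat_lit 124)) (PT.lf (nat_lit 18696) (nat_lit 6) (nat_lit 246) (nat_lit 0) (nat_lit 134) (nat_lit 133) (nat_lit 123)))))) (PT.nd (nat_lit 468) (PT.nd (nat_lit 234) (PT.nd (nat_lit 78) (PT.lf (nat_lit 18088) (nat_lit 6) (nat_lit 238) (nat_lit 0) (nat_lit 135) (nat_lit 133) (nat_lit 122)) (PT.nd (nat_lit 78) (PT.lf (nat_lit 17404) (nat_lit 6) (nat_lit 229) (nat_lit 0) (nat_lit 136)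 (nat_lit 133) (nat_lit 121)) (PT.lf (nat_lit 16644) (nat_lit 6) (nat_lit 219) (nat_lit 0) (nat_lit 137) (nat_lit 133) (nat_lit 120)))) (PT.nd (nat_lit 78) (PT.lf (nat_lit 15808) (nat_lit 6) (nat_lit 208) (nat_lit 0) (nat_lit 138) (nat_lit 133) (nat_lit 119)) (PT.nd (nat_lit 78) (PT.lf (nat_lit 14896) (nat_lit 6) (nat_lit 196) (nat_lit 0) (nat_lit 139) (nat_lit 133) (nat_lit 118)) (PT.lf (nat_lit 13908) (nat_lit 6) (nat_lit 183) (nat_lit 0) (nat_lit 140) (nat_lit 133) (nat_lit 117))))) (PT.nd (nat_lit 234) (PT.nd (nat_lit 78) (PT.lf (nat_lit 12844) (nat_lit 6) (nat_lit 169) (nat_lit 0) (nat_lit 141) (nat_lit 133) (nat_lit 116)) (PT.nd (nat_lit 78) (PT.lf (nat_lit 11704) (nat_lit 6) (nat_lit 154) (nat_lit 0) (nat_lit 142) (nat_lit 133) (nat_lit 115)) (PT.lf (nat_lit 10792) (nat_lit 6) (nat_lit 142) (nat_lit 0) (nat_lit 143) (nat_lit 133) (nat_lit 114)))) (PT.nd (nat_lit 78) (PT.lf (nat_lit 10184)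 (nat_lit 6) (nat_lit 134) (nat_lit 0) (nat_lit 144) (nat_lit 133) (nat_lit 113)) (PT.nd (nat_lit 78) (PT.lf (nat_lit 9576) (nat_lit 6) (nat_lit 126) (nat_lit 0) (nat_lit 145) (nat_lit 133) (nat_lit 112)) (PT.lf (nat_lit 9044) (nat_lit 6) (nat_lit 119) (nat_lit 0) (nat_lit 146) (nat_lit 133) (nat_lit 111))))))) (PT.nd (nat_lit 936) (PT.nd (nat_lit 468) (PT.nd (nat_lit 234) (PT.nd (nat_lit 78) (PT.lf (nat_lit 8512) (nat_lit 6) (nat_lit 112) (nat_lit 5) (nat_lit 110) (nat_lit 134) (nat_lit 146)) (PT.nd (nat_lit 78) (PT.lf (nat_lit 9120) (nat_lit 6) (nat_lit 120) (nat_lit 5) (nat_lit 111) (nat_lit 134) (nat_lit 145)) (PT.lf (nat_lit 9652) (nat_lit 6) (nat_lit 127) (nat_lit 5) (nat_lit 112) (nat_lit 134) (nat_lit 144)))) (PT.nd (nat_lit 78) (PT.lf (nat_lit 10260) (nat_lit 6) (nat_lit 135) (nat_lit 5) (nat_lit 113) (nat_lit 134) (nat_lit 143)) (PT.nd (nat_lit 78) (PT.lf (nat_lit 10868) (nat_lit 6)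 (nat_lit 143) (nat_lit 5) (nat_lit 114) (nat_lit 134) (nat_lit 142)) (PT.lf (nat_lit 11780) (nat_lit 6) (nat_lit 155) (nat_lit 5) (nat_lit 115) (nat_lit 134) (nat_lit 141))))) (PT.nd (nat_lit 234) (PT.nd (nat_lit 78) (PT.lf (nat_lit 12920) (nat_lit 6) (nat_lit 170) (nat_lit 5) (nat_lit 116) (nat_lit 134) (nat_lit 140)) (PT.nd (nat_lit 78) (PT.lf (nat_lit 13984) (nat_lit 6) (nat_lit 184) (nat_lit 5) (nat_lit 117) (nat_lit 134) (nat_lit 139)) (PT.lf (nat_lit 14972) (nat_lit 6) (nat_lit 197) (nat_lit 5) (nat_lit 118) (nat_lit 134) (nat_lit 138)))) (PT.nd (nat_lit 78) (PT.lf (nat_lit 15884) (nat_lit 6) (nat_lit 209) (nat_lit 5) (nat_lit 119) (nat_lit 134) (nat_lit 137)) (PT.nd (nat_lit 78) (PT.lf (nat_lit 16720) (nat_lit 6) (nat_lit 220) (nat_lit 5) (nat_lit 120) (nat_lit 134) (nat_lit 136)) (PT.lf (nat_lit 17480) (nat_lit 6) (nat_lit 230) (nat_lit 5) (nat_lit 121) (nat_lit 134) (nat_lit 135))))))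 (PT.nd (nat_lit 468) (PT.nd (nat_lit 234) (PT.nd (nat_lit 78) (PT.lf (nat_lit 18164) (nat_lit 3) (nat_lit 239) (nat_lit 4) (nat_lit 122) (nat_lit 134) (nat_lit 134)) (PT.nd (nat_lit 78) (PT.lf (nat_lit 18696) (nat_lit 6) (nat_lit 246) (nat_lit 4) (nat_lit 123) (nat_lit 134) (nat_lit 133)) (PT.lf (nat_lit 19152) (nat_lit 6) (nat_lit 252) (nat_lit 4) (nat_lit 124) (nat_lit 134) (nat_lit 132)))) (PT.nd (nat_lit 78) (PT.lf (nat_lit 19532) (nat_lit 6) (nat_lit 257) (nat_lit 4) (nat_lit 125) (nat_lit 134) (nat_lit 131)) (PT.nd (nat_lit 78) (PT.lf (nat_lit 19836) (nat_lit 6) (nat_lit 261) (nat_lit 4) (nat_lit 126) (nat_lit 134) (nat_lit 130)) (PT.lf (nat_lit 19760) (nat_lit 6) (nat_lit 260) (nat_lit 4) (nat_lit 127) (nat_lit 134) (nat_lit 129))))) (PT.nd (nat_lit 234) (PT.nd (nat_lit 78) (PT.lf (nat_lit 19684) (nat_lit 3) (nat_lit 259) (nat_lit 2) (nat_lit 128) (nat_lit 134) (nat_lit 128)) (PT.nd (nat_lit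 78) (PT.lf (nat_lit 19760) (nat_lit 6) (nat_lit 260) (nat_lit 2) (nat_lit 129) (nat_lit 134) (nat_lit 127)) (PT.lf (nat_lit 19836) (nat_lit 6) (nat_lit 261) (nat_lit 2) (nat_lit 130) (nat_lit 134) (nat_lit 126)))) (PT.nd (nat_lit 78) (PT.lf (nat_lit 19532) (nat_lit 6) (nat_lit 257) (nat_lit 2) (nat_lit 131) (nat_lit 134) (nat_lit 125)) (PT.nd (nat_lit 78) (PT.lf (nat_lit 19152) (nat_lit 6) (nat_lit 252) (nat_lit 2) (nat_lit 132) (nat_lit 134) (nat_lit 124)) (PT.lf (nat_lit 18696) (nat_lit 6) (nat_lit 246) (nat_lit 2) (nat_lit 133) (nat_lit 134) (nat_lit 123))))))))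
noncomputable def pc16 : PT := (PT.nd (nat_lit 39468) (PT.nd (nat_lit 858) (PT.nd (nat_lit 390) (PT.nd (nat_lit 156) (PT.nd (nat_lit 78) (PT.lf (nat_lit 18164) (nat_lit 3) (nat_lit 239) (nat_lit 0) (nat_lit 134) (nat_lit 134) (nat_lit 122)) (PT.lf (nat_lit 17480) (nat_lit 6) (nat_lit 230) (nat_lit 0) (nat_lit 135) (nat_lit 134) (nat_lit 121))) (PT.nd (nat_lit 78) (PT.lf (nat_lit 16720) (nat_lit 6) (nat_lit 220) (nat_lit 0) (nat_lit 136) (nat_lit 134) (nat_lit 120)) (PT.nd (nat_lit 78) (PT.lf (nat_lit 15884) (nat_lit 6) (nat_lit 209) (nat_lit 0) (nat_lit 137) (nat_lit 134) (nat_lit 119)) (PT.lf (nat_lit 14972) (nat_lit 6) (nat_lit 197) (nat_lit 0) (nat_lit 138) (nat_lit 134) (nat_lit 118))))) (PT.nd (nat_lit 234) (PT.nd (nat_lit 78) (PT.lf (nat_lit 13984) (nat_lit 6) (nat_lit 184) (nat_lit 0) (nat_lit 139) (nat_lit 134) (nat_lit 117)) (PT.nd (nat_lit 78) (PT.lf (nat_lit 12920) (nat_lit 6) (nat_lit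 170) (nat_lit 0) (nat_lit 140) (nat_lit 134) (nat_lit 116)) (PT.lf (nat_lit 11780) (nat_lit 6) (nat_lit 155) (nat_lit 0) (nat_lit 141) (nat_lit 134) (nat_lit 115)))) (PT.nd (nat_lit 78) (PT.lf (nat_lit 10868) (nat_lit 6) (nat_lit 143) (nat_lit 0) (nat_lit 142) (nat_lit 134) (nat_lit 114)) (PT.nd (nat_lit 78) (PT.lf (nat_lit 10260) (nat_lit 6) (nat_lit 135) (nat_lit 0) (nat_lit 143) (nat_lit 134) (nat_lit 113)) (PT.lf (nat_lit 9652) (nat_lit 6) (nat_lit 127) (nat_lit 0) (nat_lit 144) (nat_lit 134) (nat_lit 112)))))) (PT.nd (nat_lit 38142) (PT.nd (nat_lit 37908) (PT.nd (nat_lit 78) (PT.lf (nat_lit 9120) (nat_lit 6) (nat_lit 120) (nat_lit 0) (nat_lit 145) (nat_lit 134) (nat_lit 111)) (PT.nd (nat_lit 37752) (PT.lf (nat_lit 8512) (nat_lit 6) (nat_lit 112) (nat_lit 0) (nat_lit 146) (nat_lit 134) (nat_lit 110)) (PT.lf (nat_lit 8056) (nat_lit 6) (nat_lit 106) (nat_lit 5) (nat_lit 109) (nat_lit 135) (nat_lit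 146)))) (PT.nd (nat_lit 78) (PT.lf (nat_lit 8588) (nat_lit 6) (nat_lit 113) (nat_lit 5) (nat_lit 110) (nat_lit 135) (nat_lit 145)) (PT.nd (nat_lit 78) (PT.lf (nat_lit 9196) (nat_lit 6) (nat_lit 121) (nat_lit 5) (nat_lit 111) (nat_lit 135) (nat_lit 144)) (PT.lf (nat_lit 9728) (nat_lit 6) (nat_lit 128) (nat_lit 5) (nat_lit 112) (nat_lit 135) (nat_lit 143))))) (PT.nd (nat_lit 234) (PT.nd (nat_lit 78) (PT.lf (nat_lit 10336) (nat_lit 6) (nat_lit 136) (nat_lit 5) (nat_lit 113) (nat_lit 135) (nat_lit 142)) (PT.nd (nat_lit 78) (PT.lf (nat_lit 10944) (nat_lit 6) (nat_lit 144) (nat_lit 5) (nat_lit 114) (nat_lit 135) (nat_lit 141)) (PT.lf (nat_lit 11856) (nat_lit 6) (nat_lit 156) (nat_lit 5) (nat_lit 115) (nat_lit 135) (nat_lit 140)))) (PT.nd (nat_lit 78) (PT.lf (nat_lit 12996) (nat_lit 6) (nat_lit 171) (nat_lit 5) (nat_lit 116) (nat_lit 135) (nat_lit 139)) (PT.nd (nat_lit 78) (PT.lf (nat_lit 14060) (nat_lit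 6) (nat_lit 185) (nat_lit 5) (nat_lit 117) (nat_lit 135) (nat_lit 138)) (PT.lf (nat_lit 15048) (nat_lit 6) (nat_lit 198) (nat_lit 5) (nat_lit 118) (nat_lit 135) (nat_lit 137))))))) (PT.nd (nat_lit 936) (PT.nd (nat_lit 468) (PT.nd (nat_lit 234) (PT.nd (nat_lit 78) (PT.lf (nat_lit 15960) (nat_lit 6) (nat_lit 210) (nat_lit 5) (nat_lit 119) (nat_lit 135) (nat_lit 136)) (PT.nd (nat_lit 78) (PT.lf (nat_lit 16796) (nat_lit 3) (nat_lit 221) (nat_lit 4) (nat_lit 120) (nat_lit 135) (nat_lit 135)) (PT.lf (nat_lit 17480) (nat_lit 6) (nat_lit 230) (nat_lit 4) (nat_lit 121) (nat_lit 135) (nat_lit 134)))) (PT.nd (nat_lit 78) (PT.lf (nat_lit 18088) (nat_lit 6) (nat_lit 238) (nat_lit 4) (nat_lit 122) (nat_lit 135) (nat_lit 133)) (PT.nd (nat_lit 78) (PT.lf (nat_lit 18620) (nat_lit 6) (nat_lit 245) (nat_lit 4) (nat_lit 123) (nat_lit 135) (nat_lit 132)) (PT.lf (nat_lit 19076) (nat_lit 6) (nat_lit 251) (nat_lit 4)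 (nat_lit 124) (nat_lit 135) (nat_lit 131))))) (PT.nd (nat_lit 234) (PT.nd (nat_lit 78) (PT.lf (nat_lit 19456) (nat_lit 6) (nat_lit 256) (nat_lit 4) (nat_lit 125) (nat_lit 135) (nat_lit 130)) (PT.nd (nat_lit 78) (PT.lf (nat_lit 19380) (nat_lit 6) (nat_lit 255) (nat_lit 4) (nat_lit 126) (nat_lit 135) (nat_lit 129)) (PT.lf (nat_lit 19304) (nat_lit 6) (nat_lit 254) (nat_lit 4) (nat_lit 127) (nat_lit 135) (nat_lit 128)))) (PT.nd (nat_lit 78) (PT.lf (nat_lit 19304) (nat_lit 6) (nat_lit 254) (nat_lit 2) (nat_lit 128) (nat_lit 135) (nat_lit 127)) (PT.nd (nat_lit 78) (PT.lf (nat_lit 19380) (nat_lit 6) (nat_lit 255) (nat_lit 2) (nat_lit 129) (nat_lit 135) (nat_lit 126)) (PT.lf (nat_lit 19456) (nat_lit 6) (nat_lit 256) (nat_lit 2) (nat_lit 130) (nat_lit 135) (nat_lit 125)))))) (PT.nd (nat_lit 468) (PT.nd (nat_lit 234) (PT.nd (nat_lit 78) (PT.lf (nat_lit 19076) (nat_lit 6) (nat_lit 251) (nat_lit 2) (nat_lit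 131) (nat_lit 135) (nat_lit 124)) (PT.nd (nat_lit 78) (PT.lf (nat_lit 18620) (nat_lit 6) (nat_lit 245) (nat_lit 2) (nat_lit 132) (nat_lit 135) (nat_lit 123)) (PT.lf (nat_lit 18088) (nat_lit 6) (nat_lit 238) (nat_lit 2) (nat_lit 133) (nat_lit 135) (nat_lit 122)))) (PT.nd (nat_lit 78) (PT.lf (nat_lit 17480) (nat_lit 6) (nat_lit 230) (nat_lit 2) (nat_lit 134) (nat_lit 135) (nat_lit 121)) (PT.nd (nat_lit 78) (PT.lf (nat_lit 16796) (nat_lit 3) (nat_lit 221) (nat_lit 0) (nat_lit 135) (nat_lit 135) (nat_lit 120)) (PT.lf (nat_lit 15960) (nat_lit 6) (nat_lit 210) (nat_lit 0) (nat_lit 136) (nat_lit 135) (nat_lit 119))))) (PT.nd (nat_lit 234) (PT.nd (nat_lit 78) (PT.lf (nat_lit 15048) (nat_lit 6) (nat_lit 198) (nat_lit 0) (nat_lit 137) (nat_lit 135) (nat_lit 118)) (PT.nd (nat_lit 78) (PT.lf (nat_lit 14060) (nat_lit 6) (nat_lit 185) (nat_lit 0) (nat_lit 138) (nat_lit 135) (nat_lit 117)) (PT.lf (nat_lit 12996)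 (nat_lit 6) (nat_lit 171) (nat_lit 0) (nat_lit 139) (nat_lit 135) (nat_lit 116)))) (PT.nd (nat_lit 78) (PT.lf (nat_lit 11856) (nat_lit 6) (nat_lit 156) (nat_lit 0) (nat_lit 140) (nat_lit 135) (nat_lit 115)) (PT.nd (nat_lit 78) (PT.lf (nat_lit 10944) (nat_lit 6) (nat_lit 144) (nat_lit 0) (nat_lit 141) (nat_lit 135) (nat_lit 114)) (PT.lf (nat_lit 10336) (nat_lit 6) (nat_lit 136) (nat_lit 0) (nat_lit 142) (nat_lit 135) (nat_lit 113))))))))
noncomputable def pc17 : PT := (PT.nd (nat_lit 39390) (PT.nd (nat_lit 38454) (PT.nd (nat_lit 37986) (PT.nd (nat_lit 156) (PT.nd (nat_lit 78) (PT.lf (nat_lit 9728) (nat_lit 6) (nat_lit 128) (nat_lit 0) (nat_lit 143) (nat_lit 135) (nat_lit 112)) (PT.lf (nat_lit 9196) (nat_lit 6) (nat_lit 121) (nat_lit 0) (nat_lit 144) (nat_lit 135) (nat_lit 111))) (PT.nd (nat_lit 78) (PT.lf (nat_lit 8588) (nat_lit 6) (nat_lit 113) (nat_lit 0) (nat_lit 145) (nat_lit 135) (nat_lit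 110)) (PT.nd (nat_lit 37674) (PT.lf (nat_lit 8056) (nat_lit 6) (nat_lit 106) (nat_lit 0) (nat_lit 146) (nat_lit 135) (nat_lit 109)) (PT.lf (nat_lit 7600) (nat_lit 6) (nat_lit 100) (nat_lit 5) (nat_lit 108) (nat_lit 136) (nat_lit 146))))) (PT.nd (nat_lit 234) (PT.nd (nat_lit 78) (PT.lf (nat_lit 8132) (nat_lit 6) (nat_lit 107) (nat_lit 5) (nat_lit 109) (nat_lit 136) (nat_lit 145)) (PT.nd (nat_lit 78) (PT.lf (nat_lit 8664) (nat_lit 6) (nat_lit 114) (nat_lit 5) (nat_lit 110) (nat_lit 136) (nat_lit 144)) (PT.lf (nat_lit 9272) (nat_lit 6) (nat_lit 122) (nat_lit 5) (nat_lit 111) (nat_lit 136) (nat_lit 143)))) (PT.nd (nat_lit 78) (PT.lf (nat_lit 9804) (nat_lit 6) (nat_lit 129) (nat_lit 5) (nat_lit 112) (nat_lit 136) (nat_lit 142)) (PT.nd (nat_lit 78) (PT.lf (nat_lit 10412) (nat_lit 6) (nat_lit 137) (nat_lit 5) (nat_lit 113) (nat_lit 136) (nat_lit 141)) (PT.lf (nat_lit 11020) (nat_lit 6) (nat_lit 145)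 (nat_lit 5) (nat_lit 114) (nat_lit 136) (nat_lit 140)))))) (PT.nd (nat_lit 468) (PT.nd (nat_lit 234) (PT.nd (nat_lit 78) (PT.lf (nat_lit 11932) (nat_lit 6) (nat_lit 157) (nat_lit 5) (nat_lit 115) (nat_lit 136) (nat_lit 139)) (PT.nd (nat_lit 78) (PT.lf (nat_lit 13072) (nat_lit 6) (nat_lit 172) (nat_lit 5) (nat_lit 116) (nat_lit 136) (nat_lit 138)) (PT.lf (nat_lit 14136) (nat_lit 6) (nat_lit 186) (nat_lit 5) (nat_lit 117) (nat_lit 136) (nat_lit 137)))) (PT.nd (nat_lit 78) (PT.lf (nat_lit 15124) (nat_lit 3) (nat_lit 199) (nat_lit 4) (nat_lit 118) (nat_lit 136) (nat_lit 136)) (PT.nd (nat_lit 78) (PT.lf (nat_lit 15960) (nat_lit 6) (nat_lit 210) (nat_lit 4) (nat_lit 119) (nat_lit 136) (nat_lit 135)) (PT.lf (nat_lit 16720) (nat_lit 6) (nat_lit 220) (nat_lit 4) (nat_lit 120) (nat_lit 136) (nat_lit 134))))) (PT.nd (nat_lit 234) (PT.nd (nat_lit 78) (PT.lf (nat_lit 17404) (nat_lit 6) (nat_lit 229) (nat_lit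 4) (nat_lit 121) (nat_lit 136) (nat_lit 133)) (PT.nd (nat_lit 78) (PT.lf (nat_lit 18012) (nat_lit 6) (nat_lit 237) (nat_lit 4) (nat_lit 122) (nat_lit 136) (nat_lit 132)) (PT.lf (nat_lit 18544) (nat_lit 6) (nat_lit 244) (nat_lit 4) (nat_lit 123) (nat_lit 136) (nat_lit 131)))) (PT.nd (nat_lit 78) (PT.lf (nat_lit 19000) (nat_lit 6) (nat_lit 250) (nat_lit 4) (nat_lit 124) (nat_lit 136) (nat_lit 130)) (PT.nd (nat_lit 78) (PT.lf (nat_lit 18924) (nat_lit 6) (nat_lit 249) (nat_lit 4) (nat_lit 125) (nat_lit 136) (nat_lit 129)) (PT.lf (nat_lit 18848) (nat_lit 6) (nat_lit 248) (nat_lit 4) (nat_lit 126) (nat_lit 136) (nat_lit 128))))))) (PT.nd (nat_lit 936) (PT.nd (nat_lit 468) (PT.nd (nat_lit 234) (PT.nd (nat_lit 78) (PT.lf (nat_lit 18772) (nat_lit 3) (nat_lit 247) (nat_lit 2) (nat_lit 127) (nat_lit 136) (nat_lit 127)) (PT.nd (nat_lit 78) (PT.lf (nat_lit 18848) (nat_lit 6) (nat_lit 248) (nat_lit 2) (nat_lit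 128) (nat_lit 136) (nat_lit 126)) (PT.lf (nat_lit 18924) (nat_lit 6) (nat_lit 249) (nat_lit 2) (nat_lit 129) (nat_lit 136) (nat_lit 125)))) (PT.nd (nat_lit 78) (PT.lf (nat_lit 19000) (nat_lit 6) (nat_lit 250) (nat_lit 2) (nat_lit 130) (nat_lit 136) (nat_lit 124)) (PT.nd (nat_lit 78) (PT.lf (nat_lit 18544) (nat_lit 6) (nat_lit 244) (nat_lit 2) (nat_lit 131) (nat_lit 136) (nat_lit 123)) (PT.lf (nat_lit 18012) (nat_lit 6) (nat_lit 237) (nat_lit 2) (nat_lit 132) (nat_lit 136) (nat_lit 122))))) (PT.nd (nat_lit 234) (PT.nd (nat_lit 78) (PT.lf (nat_lit 17404) (nat_lit 6) (nat_lit 229) (nat_lit 2) (nat_lit 133) (nat_lit 136) (nat_lit 121)) (PT.nd (nat_lit 78) (PT.lf (nat_lit 16720) (nat_lit 6) (nat_lit 220) (nat_lit 2) (nat_lit 134) (nat_lit 136) (nat_lit 120)) (PT.lf (nat_lit 15960) (nat_lit 6) (nat_lit 210) (nat_lit 2) (nat_lit 135) (nat_lit 136) (nat_lit 119)))) (PT.nd (nat_lit 78) (PT.lf (nat_lit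 15124) (nat_lit 3) (nat_lit 199) (nat_lit 0) (nat_lit 136) (nat_lit 136) (nat_lit 118)) (PT.nd (nat_lit 78) (PT.lf (nat_lit 14136) (nat_lit 6) (nat_lit 186) (nat_lit 0) (nat_lit 137) (nat_lit 136) (nat_lit 117)) (PT.lf (nat_lit 13072) (nat_lit 6) (nat_lit 172) (nat_lit 0) (nat_lit 138) (nat_lit 136) (nat_lit 116)))))) (PT.nd (nat_lit 468) (PT.nd (nat_lit 234) (PT.nd (nat_lit 78) (PT.lf (nat_lit 11932) (nat_lit 6) (nat_lit 157) (nat_lit 0) (nat_lit 139) (nat_lit 136) (nat_lit 115)) (PT.nd (nat_lit 78) (PT.lf (nat_lit 11020) (nat_lit 6) (nat_lit 145) (nat_lit 0) (nat_lit 140) (nat_lit 136) (nat_lit 114)) (PT.lf (nat_lit 10412) (nat_lit 6) (nat_lit 137) (nat_lit 0) (nat_lit 141) (nat_lit 136) (nat_lit 113)))) (PT.nd (nat_lit 78) (PT.lf (nat_lit 9804) (nat_lit 6) (nat_lit 129) (nat_lit 0) (nat_lit 142) (nat_lit 136) (nat_lit 112)) (PT.nd (nat_lit 78) (PT.lf (nat_lit 9272) (nat_lit 6) (nat_lit 122)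 (nat_lit 0) (nat_lit 143) (nat_lit 136) (nat_lit 111)) (PT.lf (nat_lit 8664) (nat_lit 6) (nat_lit 114) (nat_lit 0) (nat_lit 144) (nat_lit 136) (nat_lit 110))))) (PT.nd (nat_lit 37674) (PT.nd (nat_lit 78) (PT.lf (nat_lit 8132) (nat_lit 6) (nat_lit 107) (nat_lit 0) (nat_lit 145) (nat_lit 136) (nat_lit 109)) (PT.nd (nat_lit 37518) (PT.lf (nat_lit 7600) (nat_lit 6) (nat_lit 100) (nat_lit 0) (nat_lit 146) (nat_lit 136) (nat_lit 108)) (PT.lf (nat_lit 6764) (nat_lit 6) (nat_lit 89) (nat_lit 5) (nat_lit 106) (nat_lit 137) (nat_lit 147)))) (PT.nd (nat_lit 78) (PT.lf (nat_lit 7220) (nat_lit 6) (nat_lit 95) (nat_lit 5) (nat_lit 107) (nat_lit 137) (nat_lit 146)) (PT.nd (nat_lit 78) (PT.lf (nat_lit 7676) (nat_lit 6) (nat_lit 101) (nat_lit 5) (nat_lit 108) (nat_lit 137) (nat_lit 145)) (PT.lf (nat_lit 8208) (nat_lit 6) (nat_lit 108) (nat_lit 5) (nat_lit 109) (nat_lit 137) (nat_lit 144))))))))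
noncomputable def pc18 : PT := (PT.nd (nat_lit 1794) (PT.nd (nat_lit 858) (PT.nd (nat_lit 390) (PT.nd (nat_lit 156) (PT.nd (nat_lit 78) (PT.lf (nat_lit 8740) (nat_lit 6) (nat_lit 115) (nat_lit 5) (nat_lit 110) (nat_lit 137) (nat_lit 143)) (PT.lf (nat_lit 9348) (nat_lit 6) (nat_lit 123) (nat_lit 5) (nat_lit 111) (nat_lit 137) (nat_lit 142))) (PT.nd (nat_lit 78) (PT.lf (nat_lit 9880) (nat_lit 6) (nat_lit 130) (nat_lit 5) (nat_lit 112) (nat_lit 137) (nat_lit 141)) (PT.nd (nat_lit 78) (PT.lf (nat_lit 10488) (nat_lit 6) (nat_lit 138) (nat_lit 5) (nat_lit 113) (nat_lit 137) (nat_lit 140)) (PT.lf (nat_lit 11096) (nat_lit 6) (nat_lit 146) (nat_lit 5) (nat_lit 114) (nat_lit 137) (nat_lit 139))))) (PT.nd (nat_lit 234) (PT.nd (nat_lit 78) (PT.lf (nat_lit 12008) (nat_lit 6) (nat_lit 158) (nat_lit 5) (nat_lit 115) (nat_lit 137) (nat_lit 138)) (PT.nd (nat_lit 78) (PT.lf (nat_lit 13148) (nat_lit 3) (nat_lit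 173) (nat_lit 4) (nat_lit 116) (nat_lit 137) (nat_lit 137)) (PT.lf (nat_lit 14136) (nat_lit 6) (nat_lit 186) (nat_lit 4) (nat_lit 117) (nat_lit 137) (nat_lit 136)))) (PT.nd (nat_lit 78) (PT.lf (nat_lit 15048) (nat_lit 6) (nat_lit 198) (nat_lit 4) (nat_lit 118) (nat_lit 137) (nat_lit 135)) (PT.nd (nat_lit 78) (PT.lf (nat_lit 15884) (nat_lit 6) (nat_lit 209) (nat_lit 4) (nat_lit 119) (nat_lit 137) (nat_lit 134)) (PT.lf (nat_lit 16644) (nat_lit 6) (nat_lit 219) (nat_lit 4) (nat_lit 120) (nat_lit 137) (nat_lit 133)))))) (PT.nd (nat_lit 468) (PT.nd (nat_lit 234) (PT.nd (nat_lit 78) (PT.lf (nat_lit 17328) (nat_lit 6) (nat_lit 228) (nat_lit 4) (nat_lit 121) (nat_lit 137) (nat_lit 132)) (PT.nd (nat_lit 78) (PT.lf (nat_lit 17936) (nat_lit 6) (nat_lit 236) (nat_lit 4) (nat_lit 122) (nat_lit 137) (nat_lit 131)) (PT.lf (nat_lit 18468) (nat_lit 6) (nat_lit 243) (nat_lit 4) (nat_lit 123) (nat_lit 137) (nat_lit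 130)))) (PT.nd (nat_lit 78) (PT.lf (nat_lit 18392) (nat_lit 6) (nat_lit 242) (nat_lit 4) (nat_lit 124) (nat_lit 137) (nat_lit 129)) (PT.nd (nat_lit 78) (PT.lf (nat_lit 18316) (nat_lit 6) (nat_lit 241) (nat_lit 4) (nat_lit 125) (nat_lit 137) (nat_lit 128)) (PT.lf (nat_lit 18240) (nat_lit 6) (nat_lit 240) (nat_lit 4) (nat_lit 126) (nat_lit 137) (nat_lit 127))))) (PT.nd (nat_lit 234) (PT.nd (nat_lit 78) (PT.lf (nat_lit 18240) (nat_lit 6) (nat_lit 240) (nat_lit 2) (nat_lit 127) (nat_lit 137) (nat_lit 126)) (PT.nd (nat_lit 78) (PT.lf (nat_lit 18316) (nat_lit 6) (nat_lit 241) (nat_lit 2) (nat_lit 128) (nat_lit 137) (nat_lit 125)) (PT.lf (nat_lit 18392) (nat_lit 6) (nat_lit 242) (nat_lit 2) (nat_lit 129) (nat_lit 137) (nat_lit 124)))) (PT.nd (nat_lit 78) (PT.lf (nat_lit 18468) (nat_lit 6) (nat_lit 243) (nat_lit 2) (nat_lit 130) (nat_lit 137) (nat_lit 123)) (PT.nd (nat_lit 78) (PT.lf (nat_lit 17936)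 (nat_lit 6) (nat_lit 236) (nat_lit 2) (nat_lit 131) (nat_lit 137) (nat_lit 122)) (PT.lf (nat_lit 17328) (nat_lit 6) (nat_lit 228) (nat_lit 2) (nat_lit 132) (nat_lit 137) (nat_lit 121))))))) (PT.nd (nat_lit 936) (PT.nd (nat_lit 468) (PT.nd (nat_lit 234) (PT.nd (nat_lit 78) (PT.lf (nat_lit 16644) (nat_lit 6) (nat_lit 219) (nat_lit 2) (nat_lit 133) (nat_lit 137) (nat_lit 120)) (PT.nd (nat_lit 78) (PT.lf (nat_lit 15884) (nat_lit 6) (nat_lit 209) (nat_lit 2) (nat_lit 134) (nat_lit 137) (nat_lit 119)) (PT.lf (nat_lit 15048) (nat_lit 6) (nat_lit 198) (nat_lit 2) (nat_lit 135) (nat_lit 137) (nat_lit 118)))) (PT.nd (nat_lit 78) (PT.lf (nat_lit 14136) (nat_lit 6) (nat_lit 186) (nat_lit 2) (nat_lit 136) (nat_lit 137) (nat_lit 117)) (PT.nd (nat_lit 78) (PT.lf (nat_lit 13148) (nat_lit 3) (nat_lit 173) (nat_lit 0) (nat_lit 137) (nat_lit 137) (nat_lit 116)) (PT.lf (nat_lit 12008) (nat_lit 6) (nat_lit 158) (nat_lit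 0) (nat_lit 138) (nat_lit 137) (nat_lit 115))))) (PT.nd (nat_lit 234) (PT.nd (nat_lit 78) (PT.lf (nat_lit 11096) (nat_lit 6) (nat_lit 146) (nat_lit 0) (nat_lit 139) (nat_lit 137) (nat_lit 114)) (PT.nd (nat_lit 78) (PT.lf (nat_lit 10488) (nat_lit 6) (nat_lit 138) (nat_lit 0) (nat_lit 140) (nat_lit 137) (nat_lit 113)) (PT.lf (nat_lit 9880) (nat_lit 6) (nat_lit 130) (nat_lit 0) (nat_lit 141) (nat_lit 137) (nat_lit 112)))) (PT.nd (nat_lit 78) (PT.lf (nat_lit 9348) (nat_lit 6) (nat_lit 123) (nat_lit 0) (nat_lit 142) (nat_lit 137) (nat_lit 111)) (PT.nd (nat_lit 78) (PT.lf (nat_lit 8740) (nat_lit 6) (nat_lit 115) (nat_lit 0) (nat_lit 143) (nat_lit 137) (nat_lit 110)) (PT.lf (nat_lit 8208) (nat_lit 6) (nat_lit 108) (nat_lit 0) (nat_lit 144) (nat_lit 137) (nat_lit 109)))))) (PT.nd (nat_lit 37752) (PT.nd (nat_lit 37518) (PT.nd (nat_lit 78) (PT.lf (nat_lit 7676) (nat_lit 6) (nat_lit 101) (nat_lit 0) (nat_lit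 145) (nat_lit 137) (nat_lit 108)) (PT.nd (nat_lit 78) (PT.lf (nat_lit 7220) (nat_lit 6) (nat_lit 95) (nat_lit 0) (nat_lit 146) (nat_lit 137) (nat_lit 107)) (PT.lf (nat_lit 6764) (nat_lit 6) (nat_lit 89) (nat_lit 0) (nat_lit 147) (nat_lit 137) (nat_lit 106)))) (PT.nd (nat_lit 78) (PT.lf (nat_lit 6384) (nat_lit 6) (nat_lit 84) (nat_lit 5) (nat_lit 105) (nat_lit 138) (nat_lit 147)) (PT.nd (nat_lit 78) (PT.lf (nat_lit 6840) (nat_lit 6) (nat_lit 90) (nat_lit 5) (nat_lit 106) (nat_lit 138) (nat_lit 146)) (PT.lf (nat_lit 7296) (nat_lit 6) (nat_lit 96) (nat_lit 5) (nat_lit 107) (nat_lit 138) (nat_lit 145))))) (PT.nd (nat_lit 234) (PT.nd (nat_lit 78) (PT.lf (nat_lit 7752) (nat_lit 6) (nat_lit 102) (nat_lit 5) (nat_lit 108) (nat_lit 138) (nat_lit 144)) (PT.nd (nat_lit 78) (PT.lf (nat_lit 8284) (nat_lit 6) (nat_lit 109) (nat_lit 5) (nat_lit 109) (nat_lit 138) (nat_lit 143)) (PT.lf (nat_lit 8816) (nat_lit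 6) (nat_lit 116) (nat_lit 5) (nat_lit 110) (nat_lit 138) (nat_lit 142)))) (PT.nd (nat_lit 78) (PT.lf (nat_lit 9424) (nat_lit 6) (nat_lit 124) (nat_lit 5) (nat_lit 111) (nat_lit 138) (nat_lit 141)) (PT.nd (nat_lit 78) (PT.lf (nat_lit 9956) (nat_lit 6) (nat_lit 131) (nat_lit 5) (nat_lit 112) (nat_lit 138) (nat_lit 140)) (PT.lf (nat_lit 10564) (nat_lit 6) (nat_lit 139) (nat_lit 5) (nat_lit 113) (nat_lit 138) (nat_lit 139))))))))
noncomputable def pc19 : PT := (PT.nd (nat_lit 1872) (PT.nd (nat_lit 936) (PT.nd (nat_lit 468) (PT.nd (nat_lit 234) (PT.nd (nat_lit 78) (PT.lf (nat_lit 11172) (nat_lit 3) (nat_lit 147) (nat_lit 4) (nat_lit 114) (nat_lit 138) (nat_lit 138)) (PT.nd (nat_lit 78) (PT.lf (nat_lit 12008) (nat_lit 6) (nat_lit 158) (nat_lit 4) (nat_lit 115) (nat_lit 138) (nat_lit 137)) (PT.lf (nat_lit 13072) (nat_lit 6) (nat_lit 172) (nat_lit 4) (nat_lit 116) (nat_lit 138) (nat_lit 136)))) (PT.nd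 (nat_lit 78) (PT.lf (nat_lit 14060) (nat_lit 6) (nat_lit 185) (nat_lit 4) (nat_lit 117) (nat_lit 138) (nat_lit 135)) (PT.nd (nat_lit 78) (PT.lf (nat_lit 14972) (nat_lit 6) (nat_lit 197) (nat_lit 4) (nat_lit 118) (nat_lit 138) (nat_lit 134)) (PT.lf (nat_lit 15808) (nat_lit 6) (nat_lit 208) (nat_lit 4) (nat_lit 119) (nat_lit 138) (nat_lit 133))))) (PT.nd (nat_lit 234) (PT.nd (nat_lit 78) (PT.lf (nat_lit 16568) (nat_lit 6) (nat_lit 218) (nat_lit 4) (nat_lit 120) (nat_lit 138) (nat_lit 132)) (PT.nd (nat_lit 78) (PT.lf (nat_lit 17252) (nat_lit 6) (nat_lit 227) (nat_lit 4) (nat_lit 121) (nat_lit 138) (nat_lit 131)) (PT.lf (nat_lit 17860) (nat_lit 6) (nat_lit 235) (nat_lit 4) (nat_lit 122) (nat_lit 138) (nat_lit 130)))) (PT.nd (nat_lit 78) (PT.lf (nat_lit 17784) (nat_lit 6) (nat_lit 234) (nat_lit 4) (nat_lit 123) (nat_lit 138) (nat_lit 129)) (PT.nd (nat_lit 78) (PT.lf (nat_lit 17708) (nat_lit 6) (nat_lit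 233) (nat_lit 4) (nat_lit 124) (nat_lit 138) (nat_lit 128)) (PT.lf (nat_lit 17632) (nat_lit 6) (nat_lit 232) (nat_lit 4) (nat_lit 125) (nat_lit 138) (nat_lit 127)))))) (PT.nd (nat_lit 468) (PT.nd (nat_lit 234) (PT.nd (nat_lit 78) (PT.lf (nat_lit 17556) (nat_lit 3) (nat_lit 231) (nat_lit 2) (nat_lit 126) (nat_lit 138) (nat_lit 126)) (PT.nd (nat_lit 78) (PT.lf (nat_lit 17632) (nat_lit 6) (nat_lit 232) (nat_lit 2) (nat_lit 127) (nat_lit 138) (nat_lit 125)) (PT.lf (nat_lit 17708) (nat_lit 6) (nat_lit 233) (nat_lit 2) (nat_lit 128) (nat_lit 138) (nat_lit 124)))) (PT.nd (nat_lit 78) (PT.lf (nat_lit 17784) (nat_lit 6) (nat_lit 234) (nat_lit 2) (nat_lit 129) (nat_lit 138) (nat_lit 123)) (PT.nd (nat_lit 78) (PT.lf (nat_lit 17860) (nat_lit 6) (nat_lit 235) (nat_lit 2) (nat_lit 130) (nat_lit 138) (nat_lit 122)) (PT.lf (nat_lit 17252) (nat_lit 6) (nat_lit 227) (nat_lit 2) (nat_lit 131) (nat_lit 138) (nat_lit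 121))))) (PT.nd (nat_lit 234) (PT.nd (nat_lit 78) (PT.lf (nat_lit 16568) (nat_lit 6) (nat_lit 218) (nat_lit 2) (nat_lit 132) (nat_lit 138) (nat_lit 120)) (PT.nd (nat_lit 78) (PT.lf (nat_lit 15808) (nat_lit 6) (nat_lit 208) (nat_lit 2) (nat_lit 133) (nat_lit 138) (nat_lit 119)) (PT.lf (nat_lit 14972) (nat_lit 6) (nat_lit 197) (nat_lit 2) (nat_lit 134) (nat_lit 138) (nat_lit 118)))) (PT.nd (nat_lit 78) (PT.lf (nat_lit 14060) (nat_lit 6) (nat_lit 185) (nat_lit 2) (nat_lit 135) (nat_lit 138) (nat_lit 117)) (PT.nd (nat_lit 78) (PT.lf (nat_lit 13072) (nat_lit 6) (nat_lit 172) (nat_lit 2) (nat_lit 136) (nat_lit 138) (nat_lit 116)) (PT.lf (nat_lit 12008) (nat_lit 6) (nat_lit 158) (nat_lit 2) (nat_lit 137) (nat_lit 138) (nat_lit 115))))))) (PT.nd (nat_lit 38142) (PT.nd (nat_lit 468) (PT.nd (nat_lit 234) (PT.nd (nat_lit 78) (PT.lf (nat_lit 11172) (nat_lit 3) (nat_lit 147) (nat_lit 0) (nat_lit 138) (nat_lit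 138) (nat_lit 114)) (PT.nd (nat_lit 78) (PT.lf (nat_lit 10564) (nat_lit 6) (nat_lit 139) (nat_lit 0) (nat_lit 139) (nat_lit 138) (nat_lit 113)) (PT.lf (nat_lit 9956) (nat_lit 6) (nat_lit 131) (nat_lit 0) (nat_lit 140) (nat_lit 138) (nat_lit 112)))) (PT.nd (nat_lit 78) (PT.lf (nat_lit 9424) (nat_lit 6) (nat_lit 124) (nat_lit 0) (nat_lit 141) (nat_lit 138) (nat_lit 111)) (PT.nd (nat_lit 78) (PT.lf (nat_lit 8816) (nat_lit 6) (nat_lit 116) (nat_lit 0) (nat_lit 142) (nat_lit 138) (nat_lit 110)) (PT.lf (nat_lit 8284) (nat_lit 6) (nat_lit 109) (nat_lit 0) (nat_lit 143) (nat_lit 138) (nat_lit 109))))) (PT.nd (nat_lit 234) (PT.nd (nat_lit 78) (PT.lf (nat_lit 7752) (nat_lit 6) (nat_lit 102) (nat_lit 0) (nat_lit 144) (nat_lit 138) (nat_lit 108)) (PT.nd (nat_lit 78) (PT.lf (nat_lit 7296) (nat_lit 6) (nat_lit 96) (nat_lit 0) (nat_lit 145) (nat_lit 138) (nat_lit 107)) (PT.lf (nat_lit 6840) (nat_lit 6) (nat_lit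 90) (nat_lit 0) (nat_lit 146) (nat_lit 138) (nat_lit 106)))) (PT.nd (nat_lit 37284) (PT.lf (nat_lit 6384) (nat_lit 6) (nat_lit 84) (nat_lit 0) (nat_lit 147) (nat_lit 138) (nat_lit 105)) (PT.nd (nat_lit 78) (PT.lf (nat_lit 6004) (nat_lit 6) (nat_lit 79) (nat_lit 5) (nat_lit 104) (nat_lit 139) (nat_lit 147)) (PT.lf (nat_lit 6460) (nat_lit 6) (nat_lit 85) (nat_lit 5) (nat_lit 105) (nat_lit 139) (nat_lit 146)))))) (PT.nd (nat_lit 468) (PT.nd (nat_lit 234) (PT.nd (nat_lit 78) (PT.lf (nat_lit 6916) (nat_lit 6) (nat_lit 91) (nat_lit 5) (nat_lit 106) (nat_lit 139) (nat_lit 145)) (PT.nd (nat_lit 78) (PT.lf (nat_lit 7372) (nat_lit 6) (nat_lit 97) (nat_lit 5) (nat_lit 107) (nat_lit 139) (nat_lit 144)) (PT.lf (nat_lit 7828) (nat_lit 6) (nat_lit 103) (nat_lit 5) (nat_lit 108) (nat_lit 139) (nat_lit 143)))) (PT.nd (nat_lit 78) (PT.lf (nat_lit 8360) (nat_lit 6) (nat_lit 110) (nat_lit 5) (nat_lit 109) (nat_lit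 139) (nat_lit 142)) (PT.nd (nat_lit 78) (PT.lf (nat_lit 8892) (nat_lit 6) (nat_lit 117) (nat_lit 5) (nat_lit 110) (nat_lit 139) (nat_lit 141)) (PT.lf (nat_lit 9500) (nat_lit 6) (nat_lit 125) (nat_lit 5) (nat_lit 111) (nat_lit 139) (nat_lit 140))))) (PT.nd (nat_lit 234) (PT.nd (nat_lit 78) (PT.lf (nat_lit 10032) (nat_lit 3) (nat_lit 132) (nat_lit 4) (nat_lit 112) (nat_lit 139) (nat_lit 139)) (PT.nd (nat_lit 78) (PT.lf (nat_lit 10564) (nat_lit 6) (nat_lit 139) (nat_lit 4) (nat_lit 113) (nat_lit 139) (nat_lit 138)) (PT.lf (nat_lit 11096) (nat_lit 6) (nat_lit 146) (nat_lit 4) (nat_lit 114) (nat_lit 139) (nat_lit 137)))) (PT.nd (nat_lit 78) (PT.lf (nat_lit 11932) (nat_lit 6) (nat_lit 157) (nat_lit 4) (nat_lit 115) (nat_lit 139) (nat_lit 136)) (PT.nd (nat_lit 78) (PT.lf (nat_lit 12996) (nat_lit 6) (nat_lit 171) (nat_lit 4) (nat_lit 116) (nat_lit 139) (nat_lit 135)) (PT.lf (nat_lit 13984) (nat_lit 6)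 (nat_lit 184) (nat_lit 4) (nat_lit 117) (nat_lit 139) (nat_lit 134))))))))
noncomputable def pc20 : PT := (PT.nd (nat_lit 1794) (PT.nd (nat_lit 858) (PT.nd (nat_lit 390) (PT.nd (nat_lit 156) (PT.nd (nat_lit 78) (PT.lf (nat_lit 14896) (nat_lit 6) (nat_lit 196) (nat_lit 4) (nat_lit 118) (nat_lit 139) (nat_lit 133)) (PT.lf (nat_lit 15732) (nat_lit 6) (nat_lit 207) (nat_lit 4) (nat_lit 119) (nat_lit 139) (nat_lit 132))) (PT.nd (nat_lit 78) (PT.lf (nat_lit 16492) (nat_lit 6) (nat_lit 217) (nat_lit 4) (nat_lit 120) (nat_lit 139) (nat_lit 131)) (PT.nd (nat_lit 78) (PT.lf (nat_lit 17176) (nat_lit 6) (nat_lit 226) (nat_lit 4) (nat_lit 121) (nat_lit 139) (nat_lit 130)) (PT.lf (nat_lit 17100) (nat_lit 6) (nat_lit 225) (nat_lit 4) (nat_lit 122) (nat_lit 139) (nat_lit 129))))) (PT.nd (nat_lit 234) (PT.nd (nat_lit 78) (PT.lf (nat_lit 17024) (nat_lit 6) (nat_lit 224) (nat_lit 4) (nat_lit 123) (nat_lit 139)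 (nat_lit 128)) (PT.nd (nat_lit 78) (PT.lf (nat_lit 16948) (nat_lit 6) (nat_lit 223) (nat_lit 4) (nat_lit 124) (nat_lit 139) (nat_lit 127)) (PT.lf (nat_lit 16872) (nat_lit 6) (nat_lit 222) (nat_lit 4) (nat_lit 125) (nat_lit 139) (nat_lit 126)))) (PT.nd (nat_lit 78) (PT.lf (nat_lit 16872) (nat_lit 6) (nat_lit 222) (nat_lit 2) (nat_lit 126) (nat_lit 139) (nat_lit 125)) (PT.nd (nat_lit 78) (PT.lf (nat_lit 16948) (nat_lit 6) (nat_lit 223) (nat_lit 2) (nat_lit 127) (nat_lit 139) (nat_lit 124)) (PT.lf (nat_lit 17024) (nat_lit 6) (nat_lit 224) (nat_lit 2) (nat_lit 128) (nat_lit 139) (nat_lit 123)))))) (PT.nd (nat_lit 468) (PT.nd (nat_lit 234) (PT.nd (nat_lit 78) (PT.lf (nat_lit 17100) (nat_lit 6) (nat_lit 225) (nat_lit 2) (nat_lit 129) (nat_lit 139) (nat_lit 122)) (PT.nd (nat_lit 78) (PT.lf (nat_lit 17176) (nat_lit 6) (nat_lit 226) (nat_lit 2) (nat_lit 130) (nat_lit 139) (nat_lit 121)) (PT.lf (nat_lit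 16492) (nat_lit 6) (nat_lit 217) (nat_lit 2) (nat_lit 131) (nat_lit 139) (nat_lit 120)))) (PT.nd (nat_lit 78) (PT.lf (nat_lit 15732) (nat_lit 6) (nat_lit 207) (nat_lit 2) (nat_lit 132) (nat_lit 139) (nat_lit 119)) (PT.nd (nat_lit 78) (PT.lf (nat_lit 14896) (nat_lit 6) (nat_lit 196) (nat_lit 2) (nat_lit 133) (nat_lit 139) (nat_lit 118)) (PT.lf (nat_lit 13984) (nat_lit 6) (nat_lit 184) (nat_lit 2) (nat_lit 134) (nat_lit 139) (nat_lit 117))))) (PT.nd (nat_lit 234) (PT.nd (nat_lit 78) (PT.lf (nat_lit 12996) (nat_lit 6) (nat_lit 171) (nat_lit 2) (nat_lit 135) (nat_lit 139) (nat_lit 116)) (PT.nd (nat_lit 78) (PT.lf (nat_lit 11932) (nat_lit 6) (nat_lit 157) (nat_lit 2) (nat_lit 136) (nat_lit 139) (nat_lit 115)) (PT.lf (nat_lit 11096) (nat_lit 6) (nat_lit 146) (nat_lit 2) (nat_lit 137) (nat_lit 139) (nat_lit 114)))) (PT.nd (nat_lit 78) (PT.lf (nat_lit 10564) (nat_lit 6) (nat_lit 139) (nat_lit 2) (nat_lit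 138) (nat_lit 139) (nat_lit 113)) (PT.nd (nat_lit 78) (PT.lf (nat_lit 10032) (nat_lit 3) (nat_lit 132) (nat_lit 0) (nat_lit 139) (nat_lit 139) (nat_lit 112)) (PT.lf (nat_lit 9500) (nat_lit 6) (nat_lit 125) (nat_lit 0) (nat_lit 140) (nat_lit 139) (nat_lit 111))))))) (PT.nd (nat_lit 37986) (PT.nd (nat_lit 468) (PT.nd (nat_lit 234) (PT.nd (nat_lit 78) (PT.lf (nat_lit 8892) (nat_lit 6) (nat_lit 117) (nat_lit 0) (nat_lit 141) (nat_lit 139) (nat_lit 110)) (PT.nd (nat_lit 78) (PT.lf (nat_lit 8360) (nat_lit 6) (nat_lit 110) (nat_lit 0) (nat_lit 142) (nat_lit 139) (nat_lit 109)) (PT.lf (nat_lit 7828) (nat_lit 6) (nat_lit 103) (nat_lit 0) (nat_lit 143) (nat_lit 139) (nat_lit 108)))) (PT.nd (nat_lit 78) (PT.lf (nat_lit 7372) (nat_lit 6) (nat_lit 97) (nat_lit 0) (nat_lit 144) (nat_lit 139) (nat_lit 107)) (PT.nd (nat_lit 78) (PT.lf (nat_lit 6916) (nat_lit 6) (nat_lit 91) (nat_lit 0) (nat_lit 145) (nat_lit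 139) (nat_lit 106)) (PT.lf (nat_lit 6460) (nat_lit 6) (nat_lit 85) (nat_lit 0) (nat_lit 146) (nat_lit 139) (nat_lit 105))))) (PT.nd (nat_lit 37284) (PT.nd (nat_lit 37128) (PT.lf (nat_lit 6004) (nat_lit 6) (nat_lit 79) (nat_lit 0) (nat_lit 147) (nat_lit 139) (nat_lit 104)) (PT.nd (nat_lit 78) (PT.lf (nat_lit 5320) (nat_lit 6) (nat_lit 70) (nat_lit 5) (nat_lit 102) (nat_lit 140) (nat_lit 148)) (PT.lf (nat_lit 5700) (nat_lit 6) (nat_lit 75) (nat_lit 5) (nat_lit 103) (nat_lit 140) (nat_lit 147)))) (PT.nd (nat_lit 78) (PT.lf (nat_lit 6080) (nat_lit 6) (nat_lit 80) (nat_lit 5) (nat_lit 104) (nat_lit 140) (nat_lit 146)) (PT.nd (nat_lit 78) (PT.lf (nat_lit 6536) (nat_lit 6) (nat_lit 86) (nat_lit 5) (nat_lit 105) (nat_lit 140) (nat_lit 145)) (PT.lf (nat_lit 6992) (nat_lit 6) (nat_lit 92) (nat_lit 5) (nat_lit 106) (nat_lit 140) (nat_lit 144)))))) (PT.nd (nat_lit 468) (PT.nd (nat_lit 234) (PT.nd (nat_lit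 78) (PT.lf (nat_lit 7448) (nat_lit 6) (nat_lit 98) (nat_lit 5) (nat_lit 107) (nat_lit 140) (nat_lit 143)) (PT.nd (nat_lit 78) (PT.lf (nat_lit 7904) (nat_lit 6) (nat_lit 104) (nat_lit 5) (nat_lit 108) (nat_lit 140) (nat_lit 142)) (PT.lf (nat_lit 8436) (nat_lit 6) (nat_lit 111) (nat_lit 5) (nat_lit 109) (nat_lit 140) (nat_lit 141)))) (PT.nd (nat_lit 78) (PT.lf (nat_lit 8968) (nat_lit 3) (nat_lit 118) (nat_lit 4) (nat_lit 110) (nat_lit 140) (nat_lit 140)) (PT.nd (nat_lit 78) (PT.lf (nat_lit 9500) (nat_lit 6) (nat_lit 125) (nat_lit 4) (nat_lit 111) (nat_lit 140) (nat_lit 139)) (PT.lf (nat_lit 9956) (nat_lit 6) (nat_lit 131) (nat_lit 4) (nat_lit 112) (nat_lit 140) (nat_lit 138))))) (PT.nd (nat_lit 234) (PT.nd (nat_lit 78) (PT.lf (nat_lit 10488) (nat_lit 6) (nat_lit 138) (nat_lit 4) (nat_lit 113) (nat_lit 140) (nat_lit 137)) (PT.nd (nat_lit 78) (PT.lf (nat_lit 11020) (nat_lit 6) (nat_lit 145) (nat_lit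 4) (nat_lit 114) (nat_lit 140) (nat_lit 136)) (PT.lf (nat_lit 11856) (nat_lit 6) (nat_lit 156) (nat_lit 4) (nat_lit 115) (nat_lit 140) (nat_lit 135)))) (PT.nd (nat_lit 78) (PT.lf (nat_lit 12920) (nat_lit 6) (nat_lit 170) (nat_lit 4) (nat_lit 116) (nat_lit 140) (nat_lit 134)) (PT.nd (nat_lit 78) (PT.lf (nat_lit 13908) (nat_lit 6) (nat_lit 183) (nat_lit 4) (nat_lit 117) (nat_lit 140) (nat_lit 133)) (PT.lf (nat_lit 14820) (nat_lit 6) (nat_lit 195) (nat_lit 4) (nat_lit 118) (nat_lit 140) (nat_lit 132))))))))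
noncomputable def pc21 : PT := (PT.nd (nat_lit 1872) (PT.nd (nat_lit 936) (PT.nd (nat_lit 468) (PT.nd (nat_lit 234) (PT.nd (nat_lit 78) (PT.lf (nat_lit 15656) (nat_lit 6) (nat_lit 206) (nat_lit 4) (nat_lit 119) (nat_lit 140) (nat_lit 131)) (PT.nd (nat_lit 78) (PT.lf (nat_lit 16416) (nat_lit 6) (nat_lit 216) (nat_lit 4) (nat_lit 120) (nat_lit 140) (nat_lit 130)) (PT.lf (nat_lit 16340) (nat_lit 6) (nat_lit 215) (nat_lit 4) (nat_lit 121) (nat_lit 140) (nat_lit 129)))) (PT.nd (nat_lit 78) (PT.lf (nat_lit 16264) (nat_lit 6) (nat_lit 214) (nat_lit 4) (nat_lit 122) (nat_lit 140) (nat_lit 128)) (PT.nd (nat_lit 78) (PT.lf (nat_lit 16188) (nat_lit 6) (nat_lit 213) (nat_lit 4) (nat_lit 123) (nat_lit 140) (nat_lit 127)) (PT.lf (nat_lit 16112) (nat_lit 6) (nat_lit 212) (nat_lit 4) (nat_lit 124) (nat_lit 140) (nat_lit 126))))) (PT.nd (nat_lit 234) (PT.nd (nat_lit 78) (PT.lf (nat_lit 16036) (nat_lit 3) (nat_lit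 211) (nat_lit 2) (nat_lit 125) (nat_lit 140) (nat_lit 125)) (PT.nd (nat_lit 78) (PT.lf (nat_lit 16112) (nat_lit 6) (nat_lit 212) (nat_lit 2) (nat_lit 126) (nat_lit 140) (nat_lit 124)) (PT.lf (nat_lit 16188) (nat_lit 6) (nat_lit 213) (nat_lit 2) (nat_lit 127) (nat_lit 140) (nat_lit 123)))) (PT.nd (nat_lit 78) (PT.lf (nat_lit 16264) (nat_lit 6) (nat_lit 214) (nat_lit 2) (nat_lit 128) (nat_lit 140) (nat_lit 122)) (PT.nd (nat_lit 78) (PT.lf (nat_lit 16340) (nat_lit 6) (nat_lit 215) (nat_lit 2) (nat_lit 129) (nat_lit 140) (nat_lit 121)) (PT.lf (nat_lit 16416) (nat_lit 6) (nat_lit 216) (nat_lit 2) (nat_lit 130) (nat_lit 140) (nat_lit 120)))))) (PT.nd (nat_lit 468) (PT.nd (nat_lit 234) (PT.nd (nat_lit 78) (PT.lf (nat_lit 15656) (nat_lit 6) (nat_lit 206) (nat_lit 2) (nat_lit 131) (nat_lit 140) (nat_lit 119)) (PT.nd (nat_lit 78) (PT.lf (nat_lit 14820) (nat_lit 6) (nat_lit 195) (nat_lit 2) (nat_lit 132)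 (nat_lit 140) (nat_lit 118)) (PT.lf (nat_lit 13908) (nat_lit 6) (nat_lit 183) (nat_lit 2) (nat_lit 133) (nat_lit 140) (nat_lit 117)))) (PT.nd (nat_lit 78) (PT.lf (nat_lit 12920) (nat_lit 6) (nat_lit 170) (nat_lit 2) (nat_lit 134) (nat_lit 140) (nat_lit 116)) (PT.nd (nat_lit 78) (PT.lf (nat_lit 11856) (nat_lit 6) (nat_lit 156) (nat_lit 2) (nat_lit 135) (nat_lit 140) (nat_lit 115)) (PT.lf (nat_lit 11020) (nat_lit 6) (nat_lit 145) (nat_lit 2) (nat_lit 136) (nat_lit 140) (nat_lit 114))))) (PT.nd (nat_lit 234) (PT.nd (nat_lit 78) (PT.lf (nat_lit 10488) (nat_lit 6) (nat_lit 138) (nat_lit 2) (nat_lit 137) (nat_lit 140) (nat_lit 113)) (PT.nd (nat_lit 78) (PT.lf (nat_lit 9956) (nat_lit 6) (nat_lit 131) (nat_lit 2) (nat_lit 138) (nat_lit 140) (nat_lit 112)) (PT.lf (nat_lit 9500) (nat_lit 6) (nat_lit 125) (nat_lit 2) (nat_lit 139) (nat_lit 140) (nat_lit 111)))) (PT.nd (nat_lit 78) (PT.lf (nat_lit 8968)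 (nat_lit 3) (nat_lit 118) (nat_lit 0) (nat_lit 140) (nat_lit 140) (nat_lit 110)) (PT.nd (nat_lit 78) (PT.lf (nat_lit 8436) (nat_lit 6) (nat_lit 111) (nat_lit 0) (nat_lit 141) (nat_lit 140) (nat_lit 109)) (PT.lf (nat_lit 7904) (nat_lit 6) (nat_lit 104) (nat_lit 0) (nat_lit 142) (nat_lit 140) (nat_lit 108))))))) (PT.nd (nat_lit 37830) (PT.nd (nat_lit 37362) (PT.nd (nat_lit 234) (PT.nd (nat_lit 78) (PT.lf (nat_lit 7448) (nat_lit 6) (nat_lit 98) (nat_lit 0) (nat_lit 143) (nat_lit 140) (nat_lit 107)) (PT.nd (nat_lit 78) (PT.lf (nat_lit 6992) (nat_lit 6) (nat_lit 92) (nat_lit 0) (nat_lit 144) (nat_lit 140) (nat_lit 106)) (PT.lf (nat_lit 6536) (nat_lit 6) (nat_lit 86) (nat_lit 0) (nat_lit 145) (nat_lit 140) (nat_lit 105)))) (PT.nd (nat_lit 78) (PT.lf (nat_lit 6080) (nat_lit 6) (nat_lit 80) (nat_lit 0) (nat_lit 146) (nat_lit 140) (nat_lit 104)) (PT.nd (nat_lit 78) (PT.lf (nat_lit 5700) (nat_lit 6) (nat_lit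 75) (nat_lit 0) (nat_lit 147) (nat_lit 140) (nat_lit 103)) (PT.lf (nat_lit 5320) (nat_lit 6) (nat_lit 70) (nat_lit 0) (nat_lit 148) (nat_lit 140) (nat_lit 102))))) (PT.nd (nat_lit 234) (PT.nd (nat_lit 78) (PT.lf (nat_lit 5016) (nat_lit 6) (nat_lit 66) (nat_lit 5) (nat_lit 101) (nat_lit 141) (nat_lit 148)) (PT.nd (nat_lit 78) (PT.lf (nat_lit 5396) (nat_lit 6) (nat_lit 71) (nat_lit 5) (nat_lit 102) (nat_lit 141) (nat_lit 147)) (PT.lf (nat_lit 5776) (nat_lit 6) (nat_lit 76) (nat_lit 5) (nat_lit 103) (nat_lit 141) (nat_lit 146)))) (PT.nd (nat_lit 78) (PT.lf (nat_lit 6156) (nat_lit 6) (nat_lit 81) (nat_lit 5) (nat_lit 104) (nat_lit 141) (nat_lit 145)) (PT.nd (nat_lit 78) (PT.lf (nat_lit 6612) (nat_lit 6) (nat_lit 87) (nat_lit 5) (nat_lit 105) (nat_lit 141) (nat_lit 144)) (PT.lf (nat_lit 7068) (nat_lit 6) (nat_lit 93) (nat_lit 5) (nat_lit 106) (nat_lit 141) (nat_lit 143)))))) (PT.nd (nat_lit 468) (PT.nd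 (nat_lit 234) (PT.nd (nat_lit 78) (PT.lf (nat_lit 7524) (nat_lit 6) (nat_lit 99) (nat_lit 5) (nat_lit 107) (nat_lit 141) (nat_lit 142)) (PT.nd (nat_lit 78) (PT.lf (nat_lit 7980) (nat_lit 3) (nat_lit 105) (nat_lit 4) (nat_lit 108) (nat_lit 141) (nat_lit 141)) (PT.lf (nat_lit 8436) (nat_lit 6) (nat_lit 111) (nat_lit 4) (nat_lit 109) (nat_lit 141) (nat_lit 140)))) (PT.nd (nat_lit 78) (PT.lf (nat_lit 8892) (nat_lit 6) (nat_lit 117) (nat_lit 4) (nat_lit 110) (nat_lit 141) (nat_lit 139)) (PT.nd (nat_lit 78) (PT.lf (nat_lit 9424) (nat_lit 6) (nat_lit 124) (nat_lit 4) (nat_lit 111) (nat_lit 141) (nat_lit 138)) (PT.lf (nat_lit 9880) (nat_lit 6) (nat_lit 130) (nat_lit 4) (nat_lit 112) (nat_lit 141) (nat_lit 137))))) (PT.nd (nat_lit 234) (PT.nd (nat_lit 78) (PT.lf (nat_lit 10412) (nat_lit 6) (nat_lit 137) (nat_lit 4) (nat_lit 113) (nat_lit 141) (nat_lit 136)) (PT.nd (nat_lit 78) (PT.lf (nat_lit 10944) (nat_lit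 6) (nat_lit 144) (nat_lit 4) (nat_lit 114) (nat_lit 141) (nat_lit 135)) (PT.lf (nat_lit 11780) (nat_lit 6) (nat_lit 155) (nat_lit 4) (nat_lit 115) (nat_lit 141) (nat_lit 134)))) (PT.nd (nat_lit 78) (PT.lf (nat_lit 12844) (nat_lit 6) (nat_lit 169) (nat_lit 4) (nat_lit 116) (nat_lit 141) (nat_lit 133)) (PT.nd (nat_lit 78) (PT.lf (nat_lit 13832) (nat_lit 6) (nat_lit 182) (nat_lit 4) (nat_lit 117) (nat_lit 141) (nat_lit 132)) (PT.lf (nat_lit 14744) (nat_lit 6) (nat_lit 194) (nat_lit 4) (nat_lit 118) (nat_lit 141) (nat_lit 131))))))))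
noncomputable def pc22 : PT := (PT.nd (nat_lit 1794) (PT.nd (nat_lit 858) (PT.nd (nat_lit 390) (PT.nd (nat_lit 156) (PT.nd (nat_lit 78) (PT.lf (nat_lit 15580) (nat_lit 6) (nat_lit 205) (nat_lit 4) (nat_lit 119) (nat_lit 141) (nat_lit 130)) (PT.lf (nat_lit 15504) (nat_lit 6) (nat_lit 204) (nat_lit 4) (nat_lit 120) (nat_lit 141) (nat_lit 129))) (PT.nd (nat_lit 78) (PT.lf (nat_lit 15428) (nat_lit 6) (nat_lit 203) (nat_lit 4) (nat_lit 121) (nat_lit 141) (nat_lit 128)) (PT.nd (nat_lit 78) (PT.lf (nat_lit 15352) (nat_lit 6) (nat_lit 202) (nat_lit 4) (nat_lit 122) (nat_lit 141) (nat_lit 127)) (PT.lf (nat_lit 15276) (nat_lit 6) (nat_lit 201) (nat_lit 4) (nat_lit 123) (nat_lit 141) (nat_lit 126))))) (PT.nd (nat_lit 234) (PT.nd (nat_lit 78) (PT.lf (nat_lit 15200) (nat_lit 6) (nat_lit 200) (nat_lit 4) (nat_lit 124) (nat_lit 141) (nat_lit 125)) (PT.nd (nat_lit 78) (PT.lf (nat_lit 15200) (nat_lit 6) (nat_lit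 200) (nat_lit 2) (nat_lit 125) (nat_lit 141) (nat_lit 124)) (PT.lf (nat_lit 15276) (nat_lit 6) (nat_lit 201) (nat_lit 2) (nat_lit 126) (nat_lit 141) (nat_lit 123)))) (PT.nd (nat_lit 78) (PT.lf (nat_lit 15352) (nat_lit 6) (nat_lit 202) (nat_lit 2) (nat_lit 127) (nat_lit 141) (nat_lit 122)) (PT.nd (nat_lit 78) (PT.lf (nat_lit 15428) (nat_lit 6) (nat_lit 203) (nat_lit 2) (nat_lit 128) (nat_lit 141) (nat_lit 121)) (PT.lf (nat_lit 15504) (nat_lit 6) (nat_lit 204) (nat_lit 2) (nat_lit 129) (nat_lit 141) (nat_lit 120)))))) (PT.nd (nat_lit 468) (PT.nd (nat_lit 234) (PT.nd (nat_lit 78) (PT.lf (nat_lit 15580) (nat_lit 6) (nat_lit 205) (nat_lit 2) (nat_lit 130) (nat_lit 141) (nat_lit 119)) (PT.nd (nat_lit 78) (PT.lf (nat_lit 14744) (nat_lit 6) (nat_lit 194) (nat_lit 2) (nat_lit 131) (nat_lit 141) (nat_lit 118)) (PT.lf (nat_lit 13832) (nat_lit 6) (nat_lit 182) (nat_lit 2) (nat_lit 132) (nat_lit 141) (nat_lit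 117)))) (PT.nd (nat_lit 78) (PT.lf (nat_lit 12844) (nat_lit 6) (nat_lit 169) (nat_lit 2) (nat_lit 133) (nat_lit 141) (nat_lit 116)) (PT.nd (nat_lit 78) (PT.lf (nat_lit 11780) (nat_lit 6) (nat_lit 155) (nat_lit 2) (nat_lit 134) (nat_lit 141) (nat_lit 115)) (PT.lf (nat_lit 10944) (nat_lit 6) (nat_lit 144) (nat_lit 2) (nat_lit 135) (nat_lit 141) (nat_lit 114))))) (PT.nd (nat_lit 234) (PT.nd (nat_lit 78) (PT.lf (nat_lit 10412) (nat_lit 6) (nat_lit 137) (nat_lit 2) (nat_lit 136) (nat_lit 141) (nat_lit 113)) (PT.nd (nat_lit 78) (PT.lf (nat_lit 9880) (nat_lit 6) (nat_lit 130) (nat_lit 2) (nat_lit 137) (nat_lit 141) (nat_lit 112)) (PT.lf (nat_lit 9424) (nat_lit 6) (nat_lit 124) (nat_lit 2) (nat_lit 138) (nat_lit 141) (nat_lit 111)))) (PT.nd (nat_lit 78) (PT.lf (nat_lit 8892) (nat_lit 6) (nat_lit 117) (nat_lit 2) (nat_lit 139) (nat_lit 141) (nat_lit 110)) (PT.nd (nat_lit 78) (PT.lf (nat_lit 8436) (nat_lit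 6) (nat_lit 111) (nat_lit 2) (nat_lit 140) (nat_lit 141) (nat_lit 109)) (PT.lf (nat_lit 7980) (nat_lit 3) (nat_lit 105) (nat_lit 0) (nat_lit 141) (nat_lit 141) (nat_lit 108))))))) (PT.nd (nat_lit 37674) (PT.nd (nat_lit 468) (PT.nd (nat_lit 234) (PT.nd (nat_lit 78) (PT.lf (nat_lit 7524) (nat_lit 6) (nat_lit 99) (nat_lit 0) (nat_lit 142) (nat_lit 141) (nat_lit 107)) (PT.nd (nat_lit 78) (PT.lf (nat_lit 7068) (nat_lit 6) (nat_lit 93) (nat_lit 0) (nat_lit 143) (nat_lit 141) (nat_lit 106)) (PT.lf (nat_lit 6612) (nat_lit 6) (nat_lit 87) (nat_lit 0) (nat_lit 144) (nat_lit 141) (nat_lit 105)))) (PT.nd (nat_lit 78) (PT.lf (nat_lit 6156) (nat_lit 6) (nat_lit 81) (nat_lit 0) (nat_lit 145) (nat_lit 141) (nat_lit 104)) (PT.nd (nat_lit 78) (PT.lf (nat_lit 5776) (nat_lit 6) (nat_lit 76) (nat_lit 0) (nat_lit 146) (nat_lit 141) (nat_lit 103)) (PT.lf (nat_lit 5396) (nat_lit 6) (nat_lit 71) (nat_lit 0) (nat_lit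 147) (nat_lit 141) (nat_lit 102))))) (PT.nd (nat_lit 36972) (PT.nd (nat_lit 36816) (PT.lf (nat_lit 5016) (nat_lit 6) (nat_lit 66) (nat_lit 0) (nat_lit 148) (nat_lit 141) (nat_lit 101)) (PT.nd (nat_lit 78) (PT.lf (nat_lit 4408) (nat_lit 6) (nat_lit 58) (nat_lit 5) (nat_lit 99) (nat_lit 142) (nat_lit 149)) (PT.lf (nat_lit 4712) (nat_lit 6) (nat_lit 62) (nat_lit 5) (nat_lit 100) (nat_lit 142) (nat_lit 148)))) (PT.nd (nat_lit 78) (PT.lf (nat_lit 5092) (nat_lit 6) (nat_lit 67) (nat_lit 5) (nat_lit 101) (nat_lit 142) (nat_lit 147)) (PT.nd (nat_lit 78) (PT.lf (nat_lit 5472) (nat_lit 6) (nat_lit 72) (nat_lit 5) (nat_lit 102) (nat_lit 142) (nat_lit 146)) (PT.lf (nat_lit 5852) (nat_lit 6) (nat_lit 77) (nat_lit 5) (nat_lit 103) (nat_lit 142) (nat_lit 145)))))) (PT.nd (nat_lit 468) (PT.nd (nat_lit 234) (PT.nd (nat_lit 78) (PT.lf (nat_lit 6232) (nat_lit 6) (nat_lit 82) (nat_lit 5) (nat_lit 104) (nat_lit 142)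 (nat_lit 144)) (PT.nd (nat_lit 78) (PT.lf (nat_lit 6688) (nat_lit 6) (nat_lit 88) (nat_lit 5) (nat_lit 105) (nat_lit 142) (nat_lit 143)) (PT.lf (nat_lit 7144) (nat_lit 3) (nat_lit 94) (nat_lit 4) (nat_lit 106) (nat_lit 142) (nat_lit 142)))) (PT.nd (nat_lit 78) (PT.lf (nat_lit 7524) (nat_lit 6) (nat_lit 99) (nat_lit 4) (nat_lit 107) (nat_lit 142) (nat_lit 141)) (PT.nd (nat_lit 78) (PT.lf (nat_lit 7904) (nat_lit 6) (nat_lit 104) (nat_lit 4) (nat_lit 108) (nat_lit 142) (nat_lit 140)) (PT.lf (nat_lit 8360) (nat_lit 6) (nat_lit 110) (nat_lit 4) (nat_lit 109) (nat_lit 142) (nat_lit 139))))) (PT.nd (nat_lit 234) (PT.nd (nat_lit 78) (PT.lf (nat_lit 8816) (nat_lit 6) (nat_lit 116) (nat_lit 4) (nat_lit 110) (nat_lit 142) (nat_lit 138)) (PT.nd (nat_lit 78) (PT.lf (nat_lit 9348) (nat_lit 6) (nat_lit 123) (nat_lit 4) (nat_lit 111) (nat_lit 142) (nat_lit 137)) (PT.lf (nat_lit 9804) (nat_lit 6) (nat_lit 129)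 (nat_lit 4) (nat_lit 112) (nat_lit 142) (nat_lit 136)))) (PT.nd (nat_lit 78) (PT.lf (nat_lit 10336) (nat_lit 6) (nat_lit 136) (nat_lit 4) (nat_lit 113) (nat_lit 142) (nat_lit 135)) (PT.nd (nat_lit 78) (PT.lf (nat_lit 10868) (nat_lit 6) (nat_lit 143) (nat_lit 4) (nat_lit 114) (nat_lit 142) (nat_lit 134)) (PT.lf (nat_lit 11704) (nat_lit 6) (nat_lit 154) (nat_lit 4) (nat_lit 115) (nat_lit 142) (nat_lit 133))))))))
noncomputable def pc23 : PT := (PT.nd (nat_lit 1872) (PT.nd (nat_lit 936) (PT.nd (nat_lit 468) (PT.nd (nat_lit 234) (PT.nd (nat_lit 78) (PT.lf (nat_lit 12768) (nat_lit 6) (nat_lit 168) (nat_lit 4) (nat_lit 116) (nat_lit 142) (nat_lit 132)) (PT.nd (nat_lit 78) (PT.lf (nat_lit 13756) (nat_lit 6) (nat_lit 181) (nat_lit 4) (nat_lit 117) (nat_lit 142) (nat_lit 131)) (PT.lf (nat_lit 14668) (nat_lit 6) (nat_lit 193) (nat_lit 4) (nat_lit 118) (nat_lit 142) (nat_lit 130)))) (PT.nd (nat_lit 78)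 (PT.lf (nat_lit 14592) (nat_lit 6) (nat_lit 192) (nat_lit 4) (nat_lit 119) (nat_lit 142) (nat_lit 129)) (PT.nd (nat_lit 78) (PT.lf (nat_lit 14516) (nat_lit 6) (nat_lit 191) (nat_lit 4) (nat_lit 120) (nat_lit 142) (nat_lit 128)) (PT.lf (nat_lit 14440) (nat_lit 6) (nat_lit 190) (nat_lit 4) (nat_lit 121) (nat_lit 142) (nat_lit 127))))) (PT.nd (nat_lit 234) (PT.nd (nat_lit 78) (PT.lf (nat_lit 14364) (nat_lit 6) (nat_lit 189) (nat_lit 4) (nat_lit 122) (nat_lit 142) (nat_lit 126)) (PT.nd (nat_lit 78) (PT.lf (nat_lit 14288) (nat_lit 6) (nat_lit 188) (nat_lit 4) (nat_lit 123) (nat_lit 142) (nat_lit 125)) (PT.lf (nat_lit 14212) (nat_lit 3) (nat_lit 187) (nat_lit 2) (nat_lit 124) (nat_lit 142) (nat_lit 124)))) (PT.nd (nat_lit 78) (PT.lf (nat_lit 14288) (nat_lit 6) (nat_lit 188) (nat_lit 2) (nat_lit 125) (nat_lit 142) (nat_lit 123)) (PT.nd (nat_lit 78) (PT.lf (nat_lit 14364) (nat_lit 6) (nat_lit 189) (nat_lit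 2) (nat_lit 126) (nat_lit 142) (nat_lit 122)) (PT.lf (nat_lit 14440) (nat_lit 6) (nat_lit 190) (nat_lit 2) (nat_lit 127) (nat_lit 142) (nat_lit 121)))))) (PT.nd (nat_lit 468) (PT.nd (nat_lit 234) (PT.nd (nat_lit 78) (PT.lf (nat_lit 14516) (nat_lit 6) (nat_lit 191) (nat_lit 2) (nat_lit 128) (nat_lit 142) (nat_lit 120)) (PT.nd (nat_lit 78) (PT.lf (nat_lit 14592) (nat_lit 6) (nat_lit 192) (nat_lit 2) (nat_lit 129) (nat_lit 142) (nat_lit 119)) (PT.lf (nat_lit 14668) (nat_lit 6) (nat_lit 193) (nat_lit 2) (nat_lit 130) (nat_lit 142) (nat_lit 118)))) (PT.nd (nat_lit 78) (PT.lf (nat_lit 13756) (nat_lit 6) (nat_lit 181) (nat_lit 2) (nat_lit 131) (nat_lit 142) (nat_lit 117)) (PT.nd (nat_lit 78) (PT.lf (nat_lit 12768) (nat_lit 6) (nat_lit 168) (nat_lit 2) (nat_lit 132) (nat_lit 142) (nat_lit 116)) (PT.lf (nat_lit 11704) (nat_lit 6) (nat_lit 154) (nat_lit 2) (nat_lit 133) (nat_lit 142) (nat_lit 115)))))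 (PT.nd (nat_lit 234) (PT.nd (nat_lit 78) (PT.lf (nat_lit 10868) (nat_lit 6) (nat_lit 143) (nat_lit 2) (nat_lit 134) (nat_lit 142) (nat_lit 114)) (PT.nd (nat_lit 78) (PT.lf (nat_lit 10336) (nat_lit 6) (nat_lit 136) (nat_lit 2) (nat_lit 135) (nat_lit 142) (nat_lit 113)) (PT.lf (nat_lit 9804) (nat_lit 6) (nat_lit 129) (nat_lit 2) (nat_lit 136) (nat_lit 142) (nat_lit 112)))) (PT.nd (nat_lit 78) (PT.lf (nat_lit 9348) (nat_lit 6) (nat_lit 123) (nat_lit 2) (nat_lit 137) (nat_lit 142) (nat_lit 111)) (PT.nd (nat_lit 78) (PT.lf (nat_lit 8816) (nat_lit 6) (nat_lit 116) (nat_lit 2) (nat_lit 138) (nat_lit 142) (nat_lit 110)) (PT.lf (nat_lit 8360) (nat_lit 6) (nat_lit 110) (nat_lit 2) (nat_lit 139) (nat_lit 142) (nat_lit 109))))))) (PT.nd (nat_lit 37518) (PT.nd (nat_lit 468) (PT.nd (nat_lit 234) (PT.nd (nat_lit 78) (PT.lf (nat_lit 7904) (nat_lit 6) (nat_lit 104) (nat_lit 2) (nat_lit 140) (nat_lit 142) (nat_lit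 108)) (PT.nd (nat_lit 78) (PT.lf (nat_lit 7524) (nat_lit 6) (nat_lit 99) (nat_lit 2) (nat_lit 141) (nat_lit 142) (nat_lit 107)) (PT.lf (nat_lit 7144) (nat_lit 3) (nat_lit 94) (nat_lit 0) (nat_lit 142) (nat_lit 142) (nat_lit 106)))) (PT.nd (nat_lit 78) (PT.lf (nat_lit 6688) (nat_lit 6) (nat_lit 88) (nat_lit 0) (nat_lit 143) (nat_lit 142) (nat_lit 105)) (PT.nd (nat_lit 78) (PT.lf (nat_lit 6232) (nat_lit 6) (nat_lit 82) (nat_lit 0) (nat_lit 144) (nat_lit 142) (nat_lit 104)) (PT.lf (nat_lit 5852) (nat_lit 6) (nat_lit 77) (nat_lit 0) (nat_lit 145) (nat_lit 142) (nat_lit 103))))) (PT.nd (nat_lit 234) (PT.nd (nat_lit 78) (PT.lf (nat_lit 5472) (nat_lit 6) (nat_lit 72) (nat_lit 0) (nat_lit 146) (nat_lit 142) (nat_lit 102)) (PT.nd (nat_lit 78) (PT.lf (nat_lit 5092) (nat_lit 6) (nat_lit 67) (nat_lit 0) (nat_lit 147) (nat_lit 142) (nat_lit 101)) (PT.lf (nat_lit 4712) (nat_lit 6) (nat_lit 62) (nat_lit 0)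 (nat_lit 148) (nat_lit 142) (nat_lit 100)))) (PT.nd (nat_lit 36660) (PT.lf (nat_lit 4408) (nat_lit 6) (nat_lit 58) (nat_lit 0) (nat_lit 149) (nat_lit 142) (nat_lit 99)) (PT.nd (nat_lit 78) (PT.lf (nat_lit 4104) (nat_lit 6) (nat_lit 54) (nat_lit 5) (nat_lit 98) (nat_lit 143) (nat_lit 149)) (PT.lf (nat_lit 4484) (nat_lit 6) (nat_lit 59) (nat_lit 5) (nat_lit 99) (nat_lit 143) (nat_lit 148)))))) (PT.nd (nat_lit 468) (PT.nd (nat_lit 234) (PT.nd (nat_lit 78) (PT.lf (nat_lit 4788) (nat_lit 6) (nat_lit 63) (nat_lit 5) (nat_lit 100) (nat_lit 143) (nat_lit 147)) (PT.nd (nat_lit 78) (PT.lf (nat_lit 5168) (nat_lit 6) (nat_lit 68) (nat_lit 5) (nat_lit 101) (nat_lit 143) (nat_lit 146)) (PT.lf (nat_lit 5548) (nat_lit 6) (nat_lit 73) (nat_lit 5) (nat_lit 102) (nat_lit 143) (nat_lit 145)))) (PT.nd (nat_lit 78) (PT.lf (nat_lit 5928) (nat_lit 6) (nat_lit 78) (nat_lit 5) (nat_lit 103) (nat_lit 143) (nat_lit 144))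 (PT.nd (nat_lit 78) (PT.lf (nat_lit 6308) (nat_lit 3) (nat_lit 83) (nat_lit 4) (nat_lit 104) (nat_lit 143) (nat_lit 143)) (PT.lf (nat_lit 6688) (nat_lit 6) (nat_lit 88) (nat_lit 4) (nat_lit 105) (nat_lit 143) (nat_lit 142))))) (PT.nd (nat_lit 234) (PT.nd (nat_lit 78) (PT.lf (nat_lit 7068) (nat_lit 6) (nat_lit 93) (nat_lit 4) (nat_lit 106) (nat_lit 143) (nat_lit 141)) (PT.nd (nat_lit 78) (PT.lf (nat_lit 7448) (nat_lit 6) (nat_lit 98) (nat_lit 4) (nat_lit 107) (nat_lit 143) (nat_lit 140)) (PT.lf (nat_lit 7828) (nat_lit 6) (nat_lit 103) (nat_lit 4) (nat_lit 108) (nat_lit 143) (nat_lit 139)))) (PT.nd (nat_lit 78) (PT.lf (nat_lit 8284) (nat_lit 6) (nat_lit 109) (nat_lit 4) (nat_lit 109) (nat_lit 143) (nat_lit 138)) (PT.nd (nat_lit 78) (PT.lf (nat_lit 8740) (nat_lit 6) (nat_lit 115) (nat_lit 4) (nat_lit 110) (nat_lit 143) (nat_lit 137)) (PT.lf (nat_lit 9272) (nat_lit 6) (nat_lit 122) (nat_lit 4) (nat_lit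 111) (nat_lit 143) (nat_lit 136))))))))
noncomputable def pc24 : PT := (PT.nd (nat_lit 1794) (PT.nd (nat_lit 858) (PT.nd (nat_lit 390) (PT.nd (nat_lit 156) (PT.nd (nat_lit 78) (PT.lf (nat_lit 9728) (nat_lit 6) (nat_lit 128) (nat_lit 4) (nat_lit 112) (nat_lit 143) (nat_lit 135)) (PT.lf (nat_lit 10260) (nat_lit 6) (nat_lit 135) (nat_lit 4) (nat_lit 113) (nat_lit 143) (nat_lit 134))) (PT.nd (nat_lit 78) (PT.lf (nat_lit 10792) (nat_lit 6) (nat_lit 142) (nat_lit 4) (nat_lit 114) (nat_lit 143) (nat_lit 133)) (PT.nd (nat_lit 78) (PT.lf (nat_lit 11628) (nat_lit 6) (nat_lit 153) (nat_lit 4) (nat_lit 115) (nat_lit 143) (nat_lit 132)) (PT.lf (nat_lit 12692) (nat_lit 6) (nat_lit 167) (nat_lit 4) (nat_lit 116) (nat_lit 143) (nat_lit 131))))) (PT.nd (nat_lit 234) (PT.nd (nat_lit 78) (PT.lf (nat_lit 13680) (nat_lit 6) (nat_lit 180) (nat_lit 4) (nat_lit 117) (nat_lit 143) (nat_lit 130)) (PT.nd (nat_lit 78) (PT.lf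 (nat_lit 13604) (nat_lit 6) (nat_lit 179) (nat_lit 4) (nat_lit 118) (nat_lit 143) (nat_lit 129)) (PT.lf (nat_lit 13528) (nat_lit 6) (nat_lit 178) (nat_lit 4) (nat_lit 119) (nat_lit 143) (nat_lit 128)))) (PT.nd (nat_lit 78) (PT.lf (nat_lit 13452) (nat_lit 6) (nat_lit 177) (nat_lit 4) (nat_lit 120) (nat_lit 143) (nat_lit 127)) (PT.nd (nat_lit 78) (PT.lf (nat_lit 13376) (nat_lit 6) (nat_lit 176) (nat_lit 4) (nat_lit 121) (nat_lit 143) (nat_lit 126)) (PT.lf (nat_lit 13300) (nat_lit 6) (nat_lit 175) (nat_lit 4) (nat_lit 122) (nat_lit 143) (nat_lit 125)))))) (PT.nd (nat_lit 468) (PT.nd (nat_lit 234) (PT.nd (nat_lit 78) (PT.lf (nat_lit 13224) (nat_lit 6) (nat_lit 174) (nat_lit 4) (nat_lit 123) (nat_lit 143) (nat_lit 124)) (PT.nd (nat_lit 78) (PT.lf (nat_lit 13224) (nat_lit 6) (nat_lit 174) (nat_lit 2) (nat_lit 124) (nat_lit 143) (nat_lit 123)) (PT.lf (nat_lit 13300) (nat_lit 6) (nat_lit 175) (nat_lit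 2) (nat_lit 125) (nat_lit 143) (nat_lit 122)))) (PT.nd (nat_lit 78) (PT.lf (nat_lit 13376) (nat_lit 6) (nat_lit 176) (nat_lit 2) (nat_lit 126) (nat_lit 143) (nat_lit 121)) (PT.nd (nat_lit 78) (PT.lf (nat_lit 13452) (nat_lit 6) (nat_lit 177) (nat_lit 2) (nat_lit 127) (nat_lit 143) (nat_lit 120)) (PT.lf (nat_lit 13528) (nat_lit 6) (nat_lit 178) (nat_lit 2) (nat_lit 128) (nat_lit 143) (nat_lit 119))))) (PT.nd (nat_lit 234) (PT.nd (nat_lit 78) (PT.lf (nat_lit 13604) (nat_lit 6) (nat_lit 179) (nat_lit 2) (nat_lit 129) (nat_lit 143) (nat_lit 118)) (PT.nd (nat_lit 78) (PT.lf (nat_lit 13680) (nat_lit 6) (nat_lit 180) (nat_lit 2) (nat_lit 130) (nat_lit 143) (nat_lit 117)) (PT.lf (nat_lit 12692) (nat_lit 6) (nat_lit 167) (nat_lit 2) (nat_lit 131) (nat_lit 143) (nat_lit 116)))) (PT.nd (nat_lit 78) (PT.lf (nat_lit 11628) (nat_lit 6) (nat_lit 153) (nat_lit 2) (nat_lit 132) (nat_lit 143) (nat_lit 115)) (PT.nd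 (nat_lit 78) (PT.lf (nat_lit 10792) (nat_lit 6) (nat_lit 142) (nat_lit 2) (nat_lit 133) (nat_lit 143) (nat_lit 114)) (PT.lf (nat_lit 10260) (nat_lit 6) (nat_lit 135) (nat_lit 2) (nat_lit 134) (nat_lit 143) (nat_lit 113))))))) (PT.nd (nat_lit 936) (PT.nd (nat_lit 468) (PT.nd (nat_lit 234) (PT.nd (nat_lit 78) (PT.lf (nat_lit 9728) (nat_lit 6) (nat_lit 128) (nat_lit 2) (nat_lit 135) (nat_lit 143) (nat_lit 112)) (PT.nd (nat_lit 78) (PT.lf (nat_lit 9272) (nat_lit 6) (nat_lit 122) (nat_lit 2) (nat_lit 136) (nat_lit 143) (nat_lit 111)) (PT.lf (nat_lit 8740) (nat_lit 6) (nat_lit 115) (nat_lit 2) (nat_lit 137) (nat_lit 143) (nat_lit 110)))) (PT.nd (nat_lit 78) (PT.lf (nat_lit 8284) (nat_lit 6) (nat_lit 109) (nat_lit 2) (nat_lit 138) (nat_lit 143) (nat_lit 109)) (PT.nd (nat_lit 78) (PT.lf (nat_lit 7828) (nat_lit 6) (nat_lit 103) (nat_lit 2) (nat_lit 139) (nat_lit 143) (nat_lit 108)) (PT.lf (nat_lit 7448)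 (nat_lit 6) (nat_lit 98) (nat_lit 2) (nat_lit 140) (nat_lit 143) (nat_lit 107))))) (PT.nd (nat_lit 234) (PT.nd (nat_lit 78) (PT.lf (nat_lit 7068) (nat_lit 6) (nat_lit 93) (nat_lit 2) (nat_lit 141) (nat_lit 143) (nat_lit 106)) (PT.nd (nat_lit 78) (PT.lf (nat_lit 6688) (nat_lit 6) (nat_lit 88) (nat_lit 2) (nat_lit 142) (nat_lit 143) (nat_lit 105)) (PT.lf (nat_lit 6308) (nat_lit 3) (nat_lit 83) (nat_lit 0) (nat_lit 143) (nat_lit 143) (nat_lit 104)))) (PT.nd (nat_lit 78) (PT.lf (nat_lit 5928) (nat_lit 6) (nat_lit 78) (nat_lit 0) (nat_lit 144) (nat_lit 143) (nat_lit 103)) (PT.nd (nat_lit 78) (PT.lf (nat_lit 5548) (nat_lit 6) (nat_lit 73) (nat_lit 0) (nat_lit 145) (nat_lit 143) (nat_lit 102)) (PT.lf (nat_lit 5168) (nat_lit 6) (nat_lit 68) (nat_lit 0) (nat_lit 146) (nat_lit 143) (nat_lit 101)))))) (PT.nd (nat_lit 36894) (PT.nd (nat_lit 36660) (PT.nd (nat_lit 78) (PT.lf (nat_lit 4788) (nat_lit 6) (nat_lit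 63) (nat_lit 0) (nat_lit 147) (nat_lit 143) (nat_lit 100)) (PT.nd (nat_lit 78) (PT.lf (nat_lit 4484) (nat_lit 6) (nat_lit 59) (nat_lit 0) (nat_lit 148) (nat_lit 143) (nat_lit 99)) (PT.lf (nat_lit 4104) (nat_lit 6) (nat_lit 54) (nat_lit 0) (nat_lit 149) (nat_lit 143) (nat_lit 98)))) (PT.nd (nat_lit 78) (PT.lf (nat_lit 3572) (nat_lit 6) (nat_lit 47) (nat_lit 5) (nat_lit 96) (nat_lit 144) (nat_lit 150)) (PT.nd (nat_lit 78) (PT.lf (nat_lit 3876) (nat_lit 6) (nat_lit 51) (nat_lit 5) (nat_lit 97) (nat_lit 144) (nat_lit 149)) (PT.lf (nat_lit 4180) (nat_lit 6) (nat_lit 55) (nat_lit 5) (nat_lit 98) (nat_lit 144) (nat_lit 148))))) (PT.nd (nat_lit 234) (PT.nd (nat_lit 78) (PT.lf (nat_lit 4560) (nat_lit 6) (nat_lit 60) (nat_lit 5) (nat_lit 99) (nat_lit 144) (nat_lit 147)) (PT.nd (nat_lit 78) (PT.lf (nat_lit 4864) (nat_lit 6) (nat_lit 64) (nat_lit 5) (nat_lit 100) (nat_lit 144) (nat_lit 146)) (PT.lf (nat_lit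 5244) (nat_lit 6) (nat_lit 69) (nat_lit 5) (nat_lit 101) (nat_lit 144) (nat_lit 145)))) (PT.nd (nat_lit 78) (PT.lf (nat_lit 5624) (nat_lit 3) (nat_lit 74) (nat_lit 4) (nat_lit 102) (nat_lit 144) (nat_lit 144)) (PT.nd (nat_lit 78) (PT.lf (nat_lit 5928) (nat_lit 6) (nat_lit 78) (nat_lit 4) (nat_lit 103) (nat_lit 144) (nat_lit 143)) (PT.lf (nat_lit 6232) (nat_lit 6) (nat_lit 82) (nat_lit 4) (nat_lit 104) (nat_lit 144) (nat_lit 142))))))))
noncomputable def pc25 : PT := (PT.nd (nat_lit 1794) (PT.nd (nat_lit 858) (PT.nd (nat_lit 390) (PT.nd (nat_lit 156) (PT.nd (nat_lit 78) (PT.lf (nat_lit 6612) (nat_lit 6) (nat_lit 87) (nat_lit 4) (nat_lit 105) (nat_lit 144) (nat_lit 141)) (PT.lf (nat_lit 6992) (nat_lit 6) (nat_lit 92) (nat_lit 4) (nat_lit 106) (nat_lit 144) (nat_lit 140))) (PT.nd (nat_lit 78) (PT.lf (nat_lit 7372) (nat_lit 6) (nat_lit 97) (nat_lit 4) (nat_lit 107) (nat_lit 144) (nat_lit 139)) (PT.nd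 (nat_lit 78) (PT.lf (nat_lit 7752) (nat_lit 6) (nat_lit 102) (nat_lit 4) (nat_lit 108) (nat_lit 144) (nat_lit 138)) (PT.lf (nat_lit 8208) (nat_lit 6) (nat_lit 108) (nat_lit 4) (nat_lit 109) (nat_lit 144) (nat_lit 137))))) (PT.nd (nat_lit 234) (PT.nd (nat_lit 78) (PT.lf (nat_lit 8664) (nat_lit 6) (nat_lit 114) (nat_lit 4) (nat_lit 110) (nat_lit 144) (nat_lit 136)) (PT.nd (nat_lit 78) (PT.lf (nat_lit 9196) (nat_lit 6) (nat_lit 121) (nat_lit 4) (nat_lit 111) (nat_lit 144) (nat_lit 135)) (PT.lf (nat_lit 9652) (nat_lit 6) (nat_lit 127) (nat_lit 4) (nat_lit 112) (nat_lit 144) (nat_lit 134)))) (PT.nd (nat_lit 78) (PT.lf (nat_lit 10184) (nat_lit 6) (nat_lit 134) (nat_lit 4) (nat_lit 113) (nat_lit 144) (nat_lit 133)) (PT.nd (nat_lit 78) (PT.lf (nat_lit 10716) (nat_lit 6) (nat_lit 141) (nat_lit 4) (nat_lit 114) (nat_lit 144) (nat_lit 132)) (PT.lf (nat_lit 11552) (nat_lit 6) (nat_lit 152) (nat_lit 4) (nat_lit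 115) (nat_lit 144) (nat_lit 131)))))) (PT.nd (nat_lit 468) (PT.nd (nat_lit 234) (PT.nd (nat_lit 78) (PT.lf (nat_lit 12616) (nat_lit 6) (nat_lit 166) (nat_lit 4) (nat_lit 116) (nat_lit 144) (nat_lit 130)) (PT.nd (nat_lit 78) (PT.lf (nat_lit 12540) (nat_lit 6) (nat_lit 165) (nat_lit 4) (nat_lit 117) (nat_lit 144) (nat_lit 129)) (PT.lf (nat_lit 12464) (nat_lit 6) (nat_lit 164) (nat_lit 4) (nat_lit 118) (nat_lit 144) (nat_lit 128)))) (PT.nd (nat_lit 78) (PT.lf (nat_lit 12388) (nat_lit 6) (nat_lit 163) (nat_lit 4) (nat_lit 119) (nat_lit 144) (nat_lit 127)) (PT.nd (nat_lit 78) (PT.lf (nat_lit 12312) (nat_lit 6) (nat_lit 162) (nat_lit 4) (nat_lit 120) (nat_lit 144) (nat_lit 126)) (PT.lf (nat_lit 12236) (nat_lit 6) (nat_lit 161) (nat_lit 4) (nat_lit 121) (nat_lit 144) (nat_lit 125))))) (PT.nd (nat_lit 234) (PT.nd (nat_lit 78) (PT.lf (nat_lit 12160) (nat_lit 6) (nat_lit 160) (nat_lit 4) (nat_lit 122)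 (nat_lit 144) (nat_lit 124)) (PT.nd (nat_lit 78) (PT.lf (nat_lit 12084) (nat_lit 3) (nat_lit 159) (nat_lit 2) (nat_lit 123) (nat_lit 144) (nat_lit 123)) (PT.lf (nat_lit 12160) (nat_lit 6) (nat_lit 160) (nat_lit 2) (nat_lit 124) (nat_lit 144) (nat_lit 122)))) (PT.nd (nat_lit 78) (PT.lf (nat_lit 12236) (nat_lit 6) (nat_lit 161) (nat_lit 2) (nat_lit 125) (nat_lit 144) (nat_lit 121)) (PT.nd (nat_lit 78) (PT.lf (nat_lit 12312) (nat_lit 6) (nat_lit 162) (nat_lit 2) (nat_lit 126) (nat_lit 144) (nat_lit 120)) (PT.lf (nat_lit 12388) (nat_lit 6) (nat_lit 163) (nat_lit 2) (nat_lit 127) (nat_lit 144) (nat_lit 119))))))) (PT.nd (nat_lit 936) (PT.nd (nat_lit 468) (PT.nd (nat_lit 234) (PT.nd (nat_lit 78) (PT.lf (nat_lit 12464) (nat_lit 6) (nat_lit 164) (nat_lit 2) (nat_lit 128) (nat_lit 144) (nat_lit 118)) (PT.nd (nat_lit 78) (PT.lf (nat_lit 12540) (nat_lit 6) (nat_lit 165) (nat_lit 2) (nat_lit 129) (nat_lit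 144) (nat_lit 117)) (PT.lf (nat_lit 12616) (nat_lit 6) (nat_lit 166) (nat_lit 2) (nat_lit 130) (nat_lit 144) (nat_lit 116)))) (PT.nd (nat_lit 78) (PT.lf (nat_lit 11552) (nat_lit 6) (nat_lit 152) (nat_lit 2) (nat_lit 131) (nat_lit 144) (nat_lit 115)) (PT.nd (nat_lit 78) (PT.lf (nat_lit 10716) (nat_lit 6) (nat_lit 141) (nat_lit 2) (nat_lit 132) (nat_lit 144) (nat_lit 114)) (PT.lf (nat_lit 10184) (nat_lit 6) (nat_lit 134) (nat_lit 2) (nat_lit 133) (nat_lit 144) (nat_lit 113))))) (PT.nd (nat_lit 234) (PT.nd (nat_lit 78) (PT.lf (nat_lit 9652) (nat_lit 6) (nat_lit 127) (nat_lit 2) (nat_lit 134) (nat_lit 144) (nat_lit 112)) (PT.nd (nat_lit 78) (PT.lf (nat_lit 9196) (nat_lit 6) (nat_lit 121) (nat_lit 2) (nat_lit 135) (nat_lit 144) (nat_lit 111)) (PT.lf (nat_lit 8664) (nat_lit 6) (nat_lit 114) (nat_lit 2) (nat_lit 136) (nat_lit 144) (nat_lit 110)))) (PT.nd (nat_lit 78) (PT.lf (nat_lit 8208) (nat_lit 6)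 (nat_lit 108) (nat_lit 2) (nat_lit 137) (nat_lit 144) (nat_lit 109)) (PT.nd (nat_lit 78) (PT.lf (nat_lit 7752) (nat_lit 6) (nat_lit 102) (nat_lit 2) (nat_lit 138) (nat_lit 144) (nat_lit 108)) (PT.lf (nat_lit 7372) (nat_lit 6) (nat_lit 97) (nat_lit 2) (nat_lit 139) (nat_lit 144) (nat_lit 107)))))) (PT.nd (nat_lit 468) (PT.nd (nat_lit 234) (PT.nd (nat_lit 78) (PT.lf (nat_lit 6992) (nat_lit 6) (nat_lit 92) (nat_lit 2) (nat_lit 140) (nat_lit 144) (nat_lit 106)) (PT.nd (nat_lit 78) (PT.lf (nat_lit 6612) (nat_lit 6) (nat_lit 87) (nat_lit 2) (nat_lit 141) (nat_lit 144) (nat_lit 105)) (PT.lf (nat_lit 6232) (nat_lit 6) (nat_lit 82) (nat_lit 2) (nat_lit 142) (nat_lit 144) (nat_lit 104)))) (PT.nd (nat_lit 78) (PT.lf (nat_lit 5928) (nat_lit 6) (nat_lit 78) (nat_lit 2) (nat_lit 143) (nat_lit 144) (nat_lit 103)) (PT.nd (nat_lit 78) (PT.lf (nat_lit 5624) (nat_lit 3) (nat_lit 74) (nat_lit 0) (nat_lit 144) (nat_lit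 144) (nat_lit 102)) (PT.lf (nat_lit 5244) (nat_lit 6) (nat_lit 69) (nat_lit 0) (nat_lit 145) (nat_lit 144) (nat_lit 101))))) (PT.nd (nat_lit 234) (PT.nd (nat_lit 78) (PT.lf (nat_lit 4864) (nat_lit 6) (nat_lit 64) (nat_lit 0) (nat_lit 146) (nat_lit 144) (nat_lit 100)) (PT.nd (nat_lit 78) (PT.lf (nat_lit 4560) (nat_lit 6) (nat_lit 60) (nat_lit 0) (nat_lit 147) (nat_lit 144) (nat_lit 99)) (PT.lf (nat_lit 4180) (nat_lit 6) (nat_lit 55) (nat_lit 0) (nat_lit 148) (nat_lit 144) (nat_lit 98)))) (PT.nd (nat_lit 78) (PT.lf (nat_lit 3876) (nat_lit 6) (nat_lit 51) (nat_lit 0) (nat_lit 149) (nat_lit 144) (nat_lit 97)) (PT.nd (nat_lit 36348) (PT.lf (nat_lit 3572) (nat_lit 6) (nat_lit 47) (nat_lit 0) (nat_lit 150) (nat_lit 144) (nat_lit 96)) (PT.lf (nat_lit 3344) (nat_lit 6) (nat_lit 44) (nat_lit 5) (nat_lit 95) (nat_lit 145) (nat_lit 150))))))))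
noncomputable def pc26 : PT := (PT.nd (nat_lit 2418) (PT.nd (nat_lit 858) (PT.nd (nat_lit 390) (PT.nd (nat_lit 156) (PT.nd (nat_lit 78) (PT.lf (nat_lit 3648) (nat_lit 6) (nat_lit 48) (nat_lit 5) (nat_lit 96) (nat_lit 145) (nat_lit 149)) (PT.lf (nat_lit 3952) (nat_lit 6) (nat_lit 52) (nat_lit 5) (nat_lit 97) (nat_lit 145) (nat_lit 148))) (PT.nd (nat_lit 78) (PT.lf (nat_lit 4256) (nat_lit 6) (nat_lit 56) (nat_lit 5) (nat_lit 98) (nat_lit 145) (nat_lit 147)) (PT.nd (nat_lit 78) (PT.lf (nat_lit 4636) (nat_lit 6) (nat_lit 61) (nat_lit 5) (nat_lit 99) (nat_lit 145) (nat_lit 146)) (PT.lf (nat_lit 4940) (nat_lit 3) (nat_lit 65) (nat_lit 4) (nat_lit 100) (nat_lit 145) (nat_lit 145))))) (PT.nd (nat_lit 234) (PT.nd (nat_lit 78) (PT.lf (nat_lit 5244) (nat_lit 6) (nat_lit 69) (nat_lit 4) (nat_lit 101) (nat_lit 145) (nat_lit 144)) (PT.nd (nat_lit 78) (PT.lf (nat_lit 5548) (nat_lit 6) (nat_lit 73) (nat_lit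 4) (nat_lit 102) (nat_lit 145) (nat_lit 143)) (PT.lf (nat_lit 5852) (nat_lit 6) (nat_lit 77) (nat_lit 4) (nat_lit 103) (nat_lit 145) (nat_lit 142)))) (PT.nd (nat_lit 78) (PT.lf (nat_lit 6156) (nat_lit 6) (nat_lit 81) (nat_lit 4) (nat_lit 104) (nat_lit 145) (nat_lit 141)) (PT.nd (nat_lit 78) (PT.lf (nat_lit 6536) (nat_lit 6) (nat_lit 86) (nat_lit 4) (nat_lit 105) (nat_lit 145) (nat_lit 140)) (PT.lf (nat_lit 6916) (nat_lit 6) (nat_lit 91) (nat_lit 4) (nat_lit 106) (nat_lit 145) (nat_lit 139)))))) (PT.nd (nat_lit 468) (PT.nd (nat_lit 234) (PT.nd (nat_lit 78) (PT.lf (nat_lit 7296) (nat_lit 6) (nat_lit 96) (nat_lit 4) (nat_lit 107) (nat_lit 145) (nat_lit 138)) (PT.nd (nat_lit 78) (PT.lf (nat_lit 7676) (nat_lit 6) (nat_lit 101) (nat_lit 4) (nat_lit 108) (nat_lit 145) (nat_lit 137)) (PT.lf (nat_lit 8132) (nat_lit 6) (nat_lit 107) (nat_lit 4) (nat_lit 109) (nat_lit 145) (nat_lit 136)))) (PT.nd (nat_lit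 78) (PT.lf (nat_lit 8588) (nat_lit 6) (nat_lit 113) (nat_lit 4) (nat_lit 110) (nat_lit 145) (nat_lit 135)) (PT.nd (nat_lit 78) (PT.lf (nat_lit 9120) (nat_lit 6) (nat_lit 120) (nat_lit 4) (nat_lit 111) (nat_lit 145) (nat_lit 134)) (PT.lf (nat_lit 9576) (nat_lit 6) (nat_lit 126) (nat_lit 4) (nat_lit 112) (nat_lit 145) (nat_lit 133))))) (PT.nd (nat_lit 234) (PT.nd (nat_lit 78) (PT.lf (nat_lit 10108) (nat_lit 6) (nat_lit 133) (nat_lit 4) (nat_lit 113) (nat_lit 145) (nat_lit 132)) (PT.nd (nat_lit 78) (PT.lf (nat_lit 10640) (nat_lit 6) (nat_lit 140) (nat_lit 4) (nat_lit 114) (nat_lit 145) (nat_lit 131)) (PT.lf (nat_lit 11476) (nat_lit 6) (nat_lit 151) (nat_lit 4) (nat_lit 115) (nat_lit 145) (nat_lit 130)))) (PT.nd (nat_lit 78) (PT.lf (nat_lit 11400) (nat_lit 6) (nat_lit 150) (nat_lit 4) (nat_lit 116) (nat_lit 145) (nat_lit 129)) (PT.nd (nat_lit 78) (PT.lf (nat_lit 11324) (nat_lit 6) (nat_lit 149) (nat_lit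 4) (nat_lit 117) (nat_lit 145) (nat_lit 128)) (PT.lf (nat_lit 11248) (nat_lit 6) (nat_lit 148) (nat_lit 4) (nat_lit 118) (nat_lit 145) (nat_lit 127))))))) (PT.nd (nat_lit 936) (PT.nd (nat_lit 468) (PT.nd (nat_lit 234) (PT.nd (nat_lit 78) (PT.lf (nat_lit 11248) (nat_lit 6) (nat_lit 148) (nat_lit 2) (nat_lit 127) (nat_lit 145) (nat_lit 118)) (PT.nd (nat_lit 78) (PT.lf (nat_lit 11324) (nat_lit 6) (nat_lit 149) (nat_lit 2) (nat_lit 128) (nat_lit 145) (nat_lit 117)) (PT.lf (nat_lit 11400) (nat_lit 6) (nat_lit 150) (nat_lit 2) (nat_lit 129) (nat_lit 145) (nat_lit 116)))) (PT.nd (nat_lit 78) (PT.lf (nat_lit 11476) (nat_lit 6) (nat_lit 151) (nat_lit 2) (nat_lit 130) (nat_lit 145) (nat_lit 115)) (PT.nd (nat_lit 78) (PT.lf (nat_lit 10640) (nat_lit 6) (nat_lit 140) (nat_lit 2) (nat_lit 131) (nat_lit 145) (nat_lit 114)) (PT.lf (nat_lit 10108) (nat_lit 6) (nat_lit 133) (nat_lit 2) (nat_lit 132) (nat_lit 145)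 (nat_lit 113))))) (PT.nd (nat_lit 234) (PT.nd (nat_lit 78) (PT.lf (nat_lit 9576) (nat_lit 6) (nat_lit 126) (nat_lit 2) (nat_lit 133) (nat_lit 145) (nat_lit 112)) (PT.nd (nat_lit 78) (PT.lf (nat_lit 9120) (nat_lit 6) (nat_lit 120) (nat_lit 2) (nat_lit 134) (nat_lit 145) (nat_lit 111)) (PT.lf (nat_lit 8588) (nat_lit 6) (nat_lit 113) (nat_lit 2) (nat_lit 135) (nat_lit 145) (nat_lit 110)))) (PT.nd (nat_lit 78) (PT.lf (nat_lit 8132) (nat_lit 6) (nat_lit 107) (nat_lit 2) (nat_lit 136) (nat_lit 145) (nat_lit 109)) (PT.nd (nat_lit 78) (PT.lf (nat_lit 7676) (nat_lit 6) (nat_lit 101) (nat_lit 2) (nat_lit 137) (nat_lit 145) (nat_lit 108)) (PT.lf (nat_lit 7296) (nat_lit 6) (nat_lit 96) (nat_lit 2) (nat_lit 138) (nat_lit 145) (nat_lit 107)))))) (PT.nd (nat_lit 468) (PT.nd (nat_lit 234) (PT.nd (nat_lit 78) (PT.lf (nat_lit 6916) (nat_lit 6) (nat_lit 91) (nat_lit 2) (nat_lit 139) (nat_lit 145) (nat_lit 106))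 (PT.nd (nat_lit 78) (PT.lf (nat_lit 6536) (nat_lit 6) (nat_lit 86) (nat_lit 2) (nat_lit 140) (nat_lit 145) (nat_lit 105)) (PT.lf (nat_lit 6156) (nat_lit 6) (nat_lit 81) (nat_lit 2) (nat_lit 141) (nat_lit 145) (nat_lit 104)))) (PT.nd (nat_lit 78) (PT.lf (nat_lit 5852) (nat_lit 6) (nat_lit 77) (nat_lit 2) (nat_lit 142) (nat_lit 145) (nat_lit 103)) (PT.nd (nat_lit 78) (PT.lf (nat_lit 5548) (nat_lit 6) (nat_lit 73) (nat_lit 2) (nat_lit 143) (nat_lit 145) (nat_lit 102)) (PT.lf (nat_lit 5244) (nat_lit 6) (nat_lit 69) (nat_lit 2) (nat_lit 144) (nat_lit 145) (nat_lit 101))))) (PT.nd (nat_lit 234) (PT.nd (nat_lit 78) (PT.lf (nat_lit 4940) (nat_lit 3) (nat_lit 65) (nat_lit 0) (nat_lit 145) (nat_lit 145) (nat_lit 100)) (PT.nd (nat_lit 78) (PT.lf (nat_lit 4636) (nat_lit 6) (nat_lit 61) (nat_lit 0) (nat_lit 146) (nat_lit 145) (nat_lit 99)) (PT.lf (nat_lit 4256) (nat_lit 6) (nat_lit 56) (nat_lit 0) (nat_lit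 147) (nat_lit 145) (nat_lit 98)))) (PT.nd (nat_lit 78) (PT.lf (nat_lit 3952) (nat_lit 6) (nat_lit 52) (nat_lit 0) (nat_lit 148) (nat_lit 145) (nat_lit 97)) (PT.nd (nat_lit 78) (PT.lf (nat_lit 3648) (nat_lit 6) (nat_lit 48) (nat_lit 0) (nat_lit 149) (nat_lit 145) (nat_lit 96)) (PT.lf (nat_lit 3344) (nat_lit 6) (nat_lit 44) (nat_lit 0) (nat_lit 150) (nat_lit 145) (nat_lit 95))))))))
noncomputable def pc27 : PT := (PT.nd (nat_lit 3510) (PT.nd (nat_lit 936) (PT.nd (nat_lit 468) (PT.nd (nat_lit 234) (PT.nd (nat_lit 78) (PT.lf (nat_lit 2888) (nat_lit 6) (nat_lit 38) (nat_lit 5) (nat_lit 93) (nat_lit 146) (nat_lit 151)) (PT.nd (nat_lit 78) (PT.lf (nat_lit 3116) (nat_lit 6) (nat_lit 41) (nat_lit 5) (nat_lit 94) (nat_lit 146) (nat_lit 150)) (PT.lf (nat_lit 3420) (nat_lit 6) (nat_lit 45) (nat_lit 5) (nat_lit 95) (nat_lit 146) (nat_lit 149)))) (PT.nd (nat_lit 78) (PT.lf (nat_lit 3724) (nat_lit 6) (nat_lit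 49) (nat_lit 5) (nat_lit 96) (nat_lit 146) (nat_lit 148)) (PT.nd (nat_lit 78) (PT.lf (nat_lit 4028) (nat_lit 6) (nat_lit 53) (nat_lit 5) (nat_lit 97) (nat_lit 146) (nat_lit 147)) (PT.lf (nat_lit 4332) (nat_lit 3) (nat_lit 57) (nat_lit 4) (nat_lit 98) (nat_lit 146) (nat_lit 146))))) (PT.nd (nat_lit 234) (PT.nd (nat_lit 78) (PT.lf (nat_lit 4636) (nat_lit 6) (nat_lit 61) (nat_lit 4) (nat_lit 99) (nat_lit 146) (nat_lit 145)) (PT.nd (nat_lit 78) (PT.lf (nat_lit 4864) (nat_lit 6) (nat_lit 64) (nat_lit 4) (nat_lit 100) (nat_lit 146) (nat_lit 144)) (PT.lf (nat_lit 5168) (nat_lit 6) (nat_lit 68) (nat_lit 4) (nat_lit 101) (nat_lit 146) (nat_lit 143)))) (PT.nd (nat_lit 78) (PT.lf (nat_lit 5472) (nat_lit 6) (nat_lit 72) (nat_lit 4) (nat_lit 102) (nat_lit 146) (nat_lit 142)) (PT.nd (nat_lit 78) (PT.lf (nat_lit 5776) (nat_lit 6) (nat_lit 76) (nat_lit 4) (nat_lit 103) (nat_lit 146) (nat_lit 141)) (PT.lf (nat_lit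 6080) (nat_lit 6) (nat_lit 80) (nat_lit 4) (nat_lit 104) (nat_lit 146) (nat_lit 140)))))) (PT.nd (nat_lit 468) (PT.nd (nat_lit 234) (PT.nd (nat_lit 78) (PT.lf (nat_lit 6460) (nat_lit 6) (nat_lit 85) (nat_lit 4) (nat_lit 105) (nat_lit 146) (nat_lit 139)) (PT.nd (nat_lit 78) (PT.lf (nat_lit 6840) (nat_lit 6) (nat_lit 90) (nat_lit 4) (nat_lit 106) (nat_lit 146) (nat_lit 138)) (PT.lf (nat_lit 7220) (nat_lit 6) (nat_lit 95) (nat_lit 4) (nat_lit 107) (nat_lit 146) (nat_lit 137)))) (PT.nd (nat_lit 78) (PT.lf (nat_lit 7600) (nat_lit 6) (nat_lit 100) (nat_lit 4) (nat_lit 108) (nat_lit 146) (nat_lit 136)) (PT.nd (nat_lit 78) (PT.lf (nat_lit 8056) (nat_lit 6) (nat_lit 106) (nat_lit 4) (nat_lit 109) (nat_lit 146) (nat_lit 135)) (PT.lf (nat_lit 8512) (nat_lit 6) (nat_lit 112) (nat_lit 4) (nat_lit 110) (nat_lit 146) (nat_lit 134))))) (PT.nd (nat_lit 1872) (PT.nd (nat_lit 1716) (PT.lf (nat_lit 9044) (nat_lit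 6) (nat_lit 119) (nat_lit 4) (nat_lit 111) (nat_lit 146) (nat_lit 133)) (PT.nd (nat_lit 78) (PT.lf (nat_lit 9044) (nat_lit 6) (nat_lit 119) (nat_lit 2) (nat_lit 133) (nat_lit 146) (nat_lit 111)) (PT.lf (nat_lit 8512) (nat_lit 6) (nat_lit 112) (nat_lit 2) (nat_lit 134) (nat_lit 146) (nat_lit 110)))) (PT.nd (nat_lit 78) (PT.lf (nat_lit 8056) (nat_lit 6) (nat_lit 106) (nat_lit 2) (nat_lit 135) (nat_lit 146) (nat_lit 109)) (PT.nd (nat_lit 78) (PT.lf (nat_lit 7600) (nat_lit 6) (nat_lit 100) (nat_lit 2) (nat_lit 136) (nat_lit 146) (nat_lit 108)) (PT.lf (nat_lit 7220) (nat_lit 6) (nat_lit 95) (nat_lit 2) (nat_lit 137) (nat_lit 146) (nat_lit 107))))))) (PT.nd (nat_lit 936) (PT.nd (nat_lit 468) (PT.nd (nat_lit 234) (PT.nd (nat_lit 78) (PT.lf (nat_lit 6840) (nat_lit 6) (nat_lit 90) (nat_lit 2) (nat_lit 138) (nat_lit 146) (nat_lit 106)) (PT.nd (nat_lit 78) (PT.lf (nat_lit 6460) (nat_lit 6) (nat_lit 85)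 (nat_lit 2) (nat_lit 139) (nat_lit 146) (nat_lit 105)) (PT.lf (nat_lit 6080) (nat_lit 6) (nat_lit 80) (nat_lit 2) (nat_lit 140) (nat_lit 146) (nat_lit 104)))) (PT.nd (nat_lit 78) (PT.lf (nat_lit 5776) (nat_lit 6) (nat_lit 76) (nat_lit 2) (nat_lit 141) (nat_lit 146) (nat_lit 103)) (PT.nd (nat_lit 78) (PT.lf (nat_lit 5472) (nat_lit 6) (nat_lit 72) (nat_lit 2) (nat_lit 142) (nat_lit 146) (nat_lit 102)) (PT.lf (nat_lit 5168) (nat_lit 6) (nat_lit 68) (nat_lit 2) (nat_lit 143) (nat_lit 146) (nat_lit 101))))) (PT.nd (nat_lit 234) (PT.nd (nat_lit 78) (PT.lf (nat_lit 4864) (nat_lit 6) (nat_lit 64) (nat_lit 2) (nat_lit 144) (nat_lit 146) (nat_lit 100)) (PT.nd (nat_lit 78) (PT.lf (nat_lit 4636) (nat_lit 6) (nat_lit 61) (nat_lit 2) (nat_lit 145) (nat_lit 146) (nat_lit 99)) (PT.lf (nat_lit 4332) (nat_lit 3) (nat_lit 57) (nat_lit 0) (nat_lit 146) (nat_lit 146) (nat_lit 98)))) (PT.nd (nat_lit 78) (PT.lf (nat_lit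 4028) (nat_lit 6) (nat_lit 53) (nat_lit 0) (nat_lit 147) (nat_lit 146) (nat_lit 97)) (PT.nd (nat_lit 78) (PT.lf (nat_lit 3724) (nat_lit 6) (nat_lit 49) (nat_lit 0) (nat_lit 148) (nat_lit 146) (nat_lit 96)) (PT.lf (nat_lit 3420) (nat_lit 6) (nat_lit 45) (nat_lit 0) (nat_lit 149) (nat_lit 146) (nat_lit 95)))))) (PT.nd (nat_lit 36426) (PT.nd (nat_lit 36192) (PT.nd (nat_lit 78) (PT.lf (nat_lit 3116) (nat_lit 6) (nat_lit 41) (nat_lit 0) (nat_lit 150) (nat_lit 146) (nat_lit 94)) (PT.nd (nat_lit 36036) (PT.lf (nat_lit 2888) (nat_lit 6) (nat_lit 38) (nat_lit 0) (nat_lit 151) (nat_lit 146) (nat_lit 93)) (PT.lf (nat_lit 2660) (nat_lit 6) (nat_lit 35) (nat_lit 5) (nat_lit 92) (nat_lit 147) (nat_lit 151)))) (PT.nd (nat_lit 78) (PT.lf (nat_lit 2964) (nat_lit 6) (nat_lit 39) (nat_lit 5) (nat_lit 93) (nat_lit 147) (nat_lit 150)) (PT.nd (nat_lit 78) (PT.lf (nat_lit 3192) (nat_lit 6) (nat_lit 42) (nat_lit 5)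 (nat_lit 94) (nat_lit 147) (nat_lit 149)) (PT.lf (nat_lit 3496) (nat_lit 6) (nat_lit 46) (nat_lit 5) (nat_lit 95) (nat_lit 147) (nat_lit 148))))) (PT.nd (nat_lit 234) (PT.nd (nat_lit 78) (PT.lf (nat_lit 3800) (nat_lit 3) (nat_lit 50) (nat_lit 4) (nat_lit 96) (nat_lit 147) (nat_lit 147)) (PT.nd (nat_lit 78) (PT.lf (nat_lit 4028) (nat_lit 6) (nat_lit 53) (nat_lit 4) (nat_lit 97) (nat_lit 147) (nat_lit 146)) (PT.lf (nat_lit 4256) (nat_lit 6) (nat_lit 56) (nat_lit 4) (nat_lit 98) (nat_lit 147) (nat_lit 145)))) (PT.nd (nat_lit 78) (PT.lf (nat_lit 4560) (nat_lit 6) (nat_lit 60) (nat_lit 4) (nat_lit 99) (nat_lit 147) (nat_lit 144)) (PT.nd (nat_lit 78) (PT.lf (nat_lit 4788) (nat_lit 6) (nat_lit 63) (nat_lit 4) (nat_lit 100) (nat_lit 147) (nat_lit 143)) (PT.lf (nat_lit 5092) (nat_lit 6) (nat_lit 67) (nat_lit 4) (nat_lit 101) (nat_lit 147) (nat_lit 142))))))))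
noncomputable def pc28 : PT := (PT.nd (nat_lit 39936) (PT.nd (nat_lit 3198) (PT.nd (nat_lit 2730) (PT.nd (nat_lit 156) (PT.nd (nat_lit 78) (PT.lf (nat_lit 5396) (nat_lit 6) (nat_lit 71) (nat_lit 4) (nat_lit 102) (nat_lit 147) (nat_lit 141)) (PT.lf (nat_lit 5700) (nat_lit 6) (nat_lit 75) (nat_lit 4) (nat_lit 103) (nat_lit 147) (nat_lit 140))) (PT.nd (nat_lit 78) (PT.lf (nat_lit 6004) (nat_lit 6) (nat_lit 79) (nat_lit 4) (nat_lit 104) (nat_lit 147) (nat_lit 139)) (PT.nd (nat_lit 78) (PT.lf (nat_lit 6384) (nat_lit 6) (nat_lit 84) (nat_lit 4) (nat_lit 105) (nat_lit 147) (nat_lit 138)) (PT.lf (nat_lit 6764) (nat_lit 6) (nat_lit 89) (nat_lit 4) (nat_lit 106) (nat_lit 147) (nat_lit 137))))) (PT.nd (nat_lit 234) (PT.nd (nat_lit 78) (PT.lf (nat_lit 6764) (nat_lit 6) (nat_lit 89) (nat_lit 2) (nat_lit 137) (nat_lit 147) (nat_lit 106)) (PT.nd (nat_lit 78) (PT.lf (nat_lit 6384) (nat_lit 6) (nat_lit 84) (nat_lit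 2) (nat_lit 138) (nat_lit 147) (nat_lit 105)) (PT.lf (nat_lit 6004) (nat_lit 6) (nat_lit 79) (nat_lit 2) (nat_lit 139) (nat_lit 147) (nat_lit 104)))) (PT.nd (nat_lit 78) (PT.lf (nat_lit 5700) (nat_lit 6) (nat_lit 75) (nat_lit 2) (nat_lit 140) (nat_lit 147) (nat_lit 103)) (PT.nd (nat_lit 78) (PT.lf (nat_lit 5396) (nat_lit 6) (nat_lit 71) (nat_lit 2) (nat_lit 141) (nat_lit 147) (nat_lit 102)) (PT.lf (nat_lit 5092) (nat_lit 6) (nat_lit 67) (nat_lit 2) (nat_lit 142) (nat_lit 147) (nat_lit 101)))))) (PT.nd (nat_lit 468) (PT.nd (nat_lit 234) (PT.nd (nat_lit 78) (PT.lf (nat_lit 4788) (nat_lit 6) (nat_lit 63) (nat_lit 2) (nat_lit 143) (nat_lit 147) (nat_lit 100)) (PT.nd (nat_lit 78) (PT.lf (nat_lit 4560) (nat_lit 6) (nat_lit 60) (nat_lit 2) (nat_lit 144) (nat_lit 147) (nat_lit 99)) (PT.lf (nat_lit 4256) (nat_lit 6) (nat_lit 56) (nat_lit 2) (nat_lit 145) (nat_lit 147) (nat_lit 98)))) (PT.nd (nat_lit 78)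 (PT.lf (nat_lit 4028) (nat_lit 6) (nat_lit 53) (nat_lit 2) (nat_lit 146) (nat_lit 147) (nat_lit 97)) (PT.nd (nat_lit 78) (PT.lf (nat_lit 3800) (nat_lit 3) (nat_lit 50) (nat_lit 0) (nat_lit 147) (nat_lit 147) (nat_lit 96)) (PT.lf (nat_lit 3496) (nat_lit 6) (nat_lit 46) (nat_lit 0) (nat_lit 148) (nat_lit 147) (nat_lit 95))))) (PT.nd (nat_lit 36036) (PT.nd (nat_lit 78) (PT.lf (nat_lit 3192) (nat_lit 6) (nat_lit 42) (nat_lit 0) (nat_lit 149) (nat_lit 147) (nat_lit 94)) (PT.nd (nat_lit 78) (PT.lf (nat_lit 2964) (nat_lit 6) (nat_lit 39) (nat_lit 0) (nat_lit 150) (nat_lit 147) (nat_lit 93)) (PT.lf (nat_lit 2660) (nat_lit 6) (nat_lit 35) (nat_lit 0) (nat_lit 151) (nat_lit 147) (nat_lit 92)))) (PT.nd (nat_lit 78) (PT.lf (nat_lit 2280) (nat_lit 6) (nat_lit 30) (nat_lit 5) (nat_lit 90) (nat_lit 148) (nat_lit 152)) (PT.nd (nat_lit 78) (PT.lf (nat_lit 2508) (nat_lit 6) (nat_lit 33) (nat_lit 5) (nat_lit 91)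 (nat_lit 148) (nat_lit 151)) (PT.lf (nat_lit 2736) (nat_lit 6) (nat_lit 36) (nat_lit 5) (nat_lit 92) (nat_lit 148) (nat_lit 150))))))) (PT.nd (nat_lit 3822) (PT.nd (nat_lit 468) (PT.nd (nat_lit 234) (PT.nd (nat_lit 78) (PT.lf (nat_lit 3040) (nat_lit 6) (nat_lit 40) (nat_lit 5) (nat_lit 93) (nat_lit 148) (nat_lit 149)) (PT.nd (nat_lit 78) (PT.lf (nat_lit 3268) (nat_lit 3) (nat_lit 43) (nat_lit 4) (nat_lit 94) (nat_lit 148) (nat_lit 148)) (PT.lf (nat_lit 3496) (nat_lit 6) (nat_lit 46) (nat_lit 4) (nat_lit 95) (nat_lit 148) (nat_lit 147)))) (PT.nd (nat_lit 78) (PT.lf (nat_lit 3724) (nat_lit 6) (nat_lit 49) (nat_lit 4) (nat_lit 96) (nat_lit 148) (nat_lit 146)) (PT.nd (nat_lit 78) (PT.lf (nat_lit 3952) (nat_lit 6) (nat_lit 52) (nat_lit 4) (nat_lit 97) (nat_lit 148) (nat_lit 145)) (PT.lf (nat_lit 4180) (nat_lit 6) (nat_lit 55) (nat_lit 4) (nat_lit 98) (nat_lit 148) (nat_lit 144))))) (PT.nd (nat_lit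 234) (PT.nd (nat_lit 78) (PT.lf (nat_lit 4484) (nat_lit 6) (nat_lit 59) (nat_lit 4) (nat_lit 99) (nat_lit 148) (nat_lit 143)) (PT.nd (nat_lit 78) (PT.lf (nat_lit 4712) (nat_lit 6) (nat_lit 62) (nat_lit 4) (nat_lit 100) (nat_lit 148) (nat_lit 142)) (PT.lf (nat_lit 5016) (nat_lit 6) (nat_lit 66) (nat_lit 4) (nat_lit 101) (nat_lit 148) (nat_lit 141)))) (PT.nd (nat_lit 2964) (PT.lf (nat_lit 5320) (nat_lit 6) (nat_lit 70) (nat_lit 4) (nat_lit 102) (nat_lit 148) (nat_lit 140)) (PT.nd (nat_lit 78) (PT.lf (nat_lit 5320) (nat_lit 6) (nat_lit 70) (nat_lit 2) (nat_lit 140) (nat_lit 148) (nat_lit 102)) (PT.lf (nat_lit 5016) (nat_lit 6) (nat_lit 66) (nat_lit 2) (nat_lit 141) (nat_lit 148) (nat_lit 101)))))) (PT.nd (nat_lit 468) (PT.nd (nat_lit 234) (PT.nd (nat_lit 78) (PT.lf (nat_lit 4712) (nat_lit 6) (nat_lit 62) (nat_lit 2) (nat_lit 142) (nat_lit 148) (nat_lit 100)) (PT.nd (nat_lit 78) (PT.lf (nat_lit 4484)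 (nat_lit 6) (nat_lit 59) (nat_lit 2) (nat_lit 143) (nat_lit 148) (nat_lit 99)) (PT.lf (nat_lit 4180) (nat_lit 6) (nat_lit 55) (nat_lit 2) (nat_lit 144) (nat_lit 148) (nat_lit 98)))) (PT.nd (nat_lit 78) (PT.lf (nat_lit 3952) (nat_lit 6) (nat_lit 52) (nat_lit 2) (nat_lit 145) (nat_lit 148) (nat_lit 97)) (PT.nd (nat_lit 78) (PT.lf (nat_lit 3724) (nat_lit 6) (nat_lit 49) (nat_lit 2) (nat_lit 146) (nat_lit 148) (nat_lit 96)) (PT.lf (nat_lit 3496) (nat_lit 6) (nat_lit 46) (nat_lit 2) (nat_lit 147) (nat_lit 148) (nat_lit 95))))) (PT.nd (nat_lit 234) (PT.nd (nat_lit 78) (PT.lf (nat_lit 3268) (nat_lit 3) (nat_lit 43) (nat_lit 0) (nat_lit 148) (nat_lit 148) (nat_lit 94)) (PT.nd (nat_lit 78) (PT.lf (nat_lit 3040) (nat_lit 6) (nat_lit 40) (nat_lit 0) (nat_lit 149) (nat_lit 148) (nat_lit 93)) (PT.lf (nat_lit 2736) (nat_lit 6) (nat_lit 36) (nat_lit 0) (nat_lit 150) (nat_lit 148) (nat_lit 92)))) (PT.nd (nat_lit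 78) (PT.lf (nat_lit 2508) (nat_lit 6) (nat_lit 33) (nat_lit 0) (nat_lit 151) (nat_lit 148) (nat_lit 91)) (PT.nd (nat_lit 35646) (PT.lf (nat_lit 2280) (nat_lit 6) (nat_lit 30) (nat_lit 0) (nat_lit 152) (nat_lit 148) (nat_lit 90)) (PT.lf (nat_lit 1900) (nat_lit 6) (nat_lit 25) (nat_lit 5) (nat_lit 88) (nat_lit 149) (nat_lit 153))))))))
noncomputable def pc29 : PT := (PT.nd (nat_lit 40560) (PT.nd (nat_lit 4212) (PT.nd (nat_lit 468) (PT.nd (nat_lit 234) (PT.nd (nat_lit 78) (PT.lf (nat_lit 2128) (nat_lit 6) (nat_lit 28) (nat_lit 5) (nat_lit 89) (nat_lit 149) (nat_lit 152)) (PT.nd (nat_lit 78) (PT.lf (nat_lit 2356) (nat_lit 6) (nat_lit 31) (nat_lit 5) (nat_lit 90) (nat_lit 149) (nat_lit 151)) (PT.lf (nat_lit 2584) (nat_lit 6) (nat_lit 34) (nat_lit 5) (nat_lit 91) (nat_lit 149) (nat_lit 150)))) (PT.nd (nat_lit 78) (PT.lf (nat_lit 2812) (nat_lit 3) (nat_lit 37) (nat_lit 4) (nat_lit 92) (nat_lit 149)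 (nat_lit 149)) (PT.nd (nat_lit 78) (PT.lf (nat_lit 3040) (nat_lit 6) (nat_lit 40) (nat_lit 4) (nat_lit 93) (nat_lit 149) (nat_lit 148)) (PT.lf (nat_lit 3192) (nat_lit 6) (nat_lit 42) (nat_lit 4) (nat_lit 94) (nat_lit 149) (nat_lit 147))))) (PT.nd (nat_lit 234) (PT.nd (nat_lit 78) (PT.lf (nat_lit 3420) (nat_lit 6) (nat_lit 45) (nat_lit 4) (nat_lit 95) (nat_lit 149) (nat_lit 146)) (PT.nd (nat_lit 78) (PT.lf (nat_lit 3648) (nat_lit 6) (nat_lit 48) (nat_lit 4) (nat_lit 96) (nat_lit 149) (nat_lit 145)) (PT.lf (nat_lit 3876) (nat_lit 6) (nat_lit 51) (nat_lit 4) (nat_lit 97) (nat_lit 149) (nat_lit 144)))) (PT.nd (nat_lit 78) (PT.lf (nat_lit 4104) (nat_lit 6) (nat_lit 54) (nat_lit 4) (nat_lit 98) (nat_lit 149) (nat_lit 143)) (PT.nd (nat_lit 3354) (PT.lf (nat_lit 4408) (nat_lit 6) (nat_lit 58) (nat_lit 4) (nat_lit 99) (nat_lit 149) (nat_lit 142)) (PT.lf (nat_lit 4408) (nat_lit 6) (nat_lit 58) (nat_lit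 2) (nat_lit 142) (nat_lit 149) (nat_lit 99)))))) (PT.nd (nat_lit 468) (PT.nd (nat_lit 234) (PT.nd (nat_lit 78) (PT.lf (nat_lit 4104) (nat_lit 6) (nat_lit 54) (nat_lit 2) (nat_lit 143) (nat_lit 149) (nat_lit 98)) (PT.nd (nat_lit 78) (PT.lf (nat_lit 3876) (nat_lit 6) (nat_lit 51) (nat_lit 2) (nat_lit 144) (nat_lit 149) (nat_lit 97)) (PT.lf (nat_lit 3648) (nat_lit 6) (nat_lit 48) (nat_lit 2) (nat_lit 145) (nat_lit 149) (nat_lit 96)))) (PT.nd (nat_lit 78) (PT.lf (nat_lit 3420) (nat_lit 6) (nat_lit 45) (nat_lit 2) (nat_lit 146) (nat_lit 149) (nat_lit 95)) (PT.nd (nat_lit 78) (PT.lf (nat_lit 3192) (nat_lit 6) (nat_lit 42) (nat_lit 2) (nat_lit 147) (nat_lit 149) (nat_lit 94)) (PT.lf (nat_lit 3040) (nat_lit 6) (nat_lit 40) (nat_lit 2) (nat_lit 148) (nat_lit 149) (nat_lit 93))))) (PT.nd (nat_lit 234) (PT.nd (nat_lit 78) (PT.lf (nat_lit 2812) (nat_lit 3) (nat_lit 37) (nat_lit 0) (nat_lit 149) (nat_lit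 149) (nat_lit 92)) (PT.nd (nat_lit 78) (PT.lf (nat_lit 2584) (nat_lit 6) (nat_lit 34) (nat_lit 0) (nat_lit 150) (nat_lit 149) (nat_lit 91)) (PT.lf (nat_lit 2356) (nat_lit 6) (nat_lit 31) (nat_lit 0) (nat_lit 151) (nat_lit 149) (nat_lit 90)))) (PT.nd (nat_lit 78) (PT.lf (nat_lit 2128) (nat_lit 6) (nat_lit 28) (nat_lit 0) (nat_lit 152) (nat_lit 149) (nat_lit 89)) (PT.nd (nat_lit 35490) (PT.lf (nat_lit 1900) (nat_lit 6) (nat_lit 25) (nat_lit 0) (nat_lit 153) (nat_lit 149) (nat_lit 88)) (PT.lf (nat_lit 1748) (nat_lit 6) (nat_lit 23) (nat_lit 5) (nat_lit 87) (nat_lit 150) (nat_lit 153))))))) (PT.nd (nat_lit 4602) (PT.nd (nat_lit 468) (PT.nd (nat_lit 234) (PT.nd (nat_lit 78) (PT.lf (nat_lit 1976) (nat_lit 6) (nat_lit 26) (nat_lit 5) (nat_lit 88) (nat_lit 150) (nat_lit 152)) (PT.nd (nat_lit 78) (PT.lf (nat_lit 2204) (nat_lit 6) (nat_lit 29) (nat_lit 5) (nat_lit 89) (nat_lit 150) (nat_lit 151)) (PT.lf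 (nat_lit 2432) (nat_lit 3) (nat_lit 32) (nat_lit 4) (nat_lit 90) (nat_lit 150) (nat_lit 150)))) (PT.nd (nat_lit 78) (PT.lf (nat_lit 2584) (nat_lit 6) (nat_lit 34) (nat_lit 4) (nat_lit 91) (nat_lit 150) (nat_lit 149)) (PT.nd (nat_lit 78) (PT.lf (nat_lit 2736) (nat_lit 6) (nat_lit 36) (nat_lit 4) (nat_lit 92) (nat_lit 150) (nat_lit 148)) (PT.lf (nat_lit 2964) (nat_lit 6) (nat_lit 39) (nat_lit 4) (nat_lit 93) (nat_lit 150) (nat_lit 147))))) (PT.nd (nat_lit 3900) (PT.nd (nat_lit 78) (PT.lf (nat_lit 3116) (nat_lit 6) (nat_lit 41) (nat_lit 4) (nat_lit 94) (nat_lit 150) (nat_lit 146)) (PT.nd (nat_lit 78) (PT.lf (nat_lit 3344) (nat_lit 6) (nat_lit 44) (nat_lit 4) (nat_lit 95) (nat_lit 150) (nat_lit 145)) (PT.lf (nat_lit 3572) (nat_lit 6) (nat_lit 47) (nat_lit 4) (nat_lit 96) (nat_lit 150) (nat_lit 144)))) (PT.nd (nat_lit 78) (PT.lf (nat_lit 3572) (nat_lit 6) (nat_lit 47) (nat_lit 2) (nat_lit 144) (nat_lit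 150) (nat_lit 96)) (PT.nd (nat_lit 78) (PT.lf (nat_lit 3344) (nat_lit 6) (nat_lit 44) (nat_lit 2) (nat_lit 145) (nat_lit 150) (nat_lit 95)) (PT.lf (nat_lit 3116) (nat_lit 6) (nat_lit 41) (nat_lit 2) (nat_lit 146) (nat_lit 150) (nat_lit 94)))))) (PT.nd (nat_lit 468) (PT.nd (nat_lit 234) (PT.nd (nat_lit 78) (PT.lf (nat_lit 2964) (nat_lit 6) (nat_lit 39) (nat_lit 2) (nat_lit 147) (nat_lit 150) (nat_lit 93)) (PT.nd (nat_lit 78) (PT.lf (nat_lit 2736) (nat_lit 6) (nat_lit 36) (nat_lit 2) (nat_lit 148) (nat_lit 150) (nat_lit 92)) (PT.lf (nat_lit 2584) (nat_lit 6) (nat_lit 34) (nat_lit 2) (nat_lit 149) (nat_lit 150) (nat_lit 91)))) (PT.nd (nat_lit 78) (PT.lf (nat_lit 2432) (nat_lit 3) (nat_lit 32) (nat_lit 0) (nat_lit 150) (nat_lit 150) (nat_lit 90)) (PT.nd (nat_lit 78) (PT.lf (nat_lit 2204) (nat_lit 6) (nat_lit 29) (nat_lit 0) (nat_lit 151) (nat_lit 150) (nat_lit 89)) (PT.lf (nat_lit 1976) (nat_lit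 6) (nat_lit 26) (nat_lit 0) (nat_lit 152) (nat_lit 150) (nat_lit 88))))) (PT.nd (nat_lit 35490) (PT.nd (nat_lit 35334) (PT.lf (nat_lit 1748) (nat_lit 6) (nat_lit 23) (nat_lit 0) (nat_lit 153) (nat_lit 150) (nat_lit 87)) (PT.nd (nat_lit 78) (PT.lf (nat_lit 1444) (nat_lit 6) (nat_lit 19) (nat_lit 5) (nat_lit 85) (nat_lit 151) (nat_lit 154)) (PT.lf (nat_lit 1596) (nat_lit 6) (nat_lit 21) (nat_lit 5) (nat_lit 86) (nat_lit 151) (nat_lit 153)))) (PT.nd (nat_lit 78) (PT.lf (nat_lit 1824) (nat_lit 6) (nat_lit 24) (nat_lit 5) (nat_lit 87) (nat_lit 151) (nat_lit 152)) (PT.nd (nat_lit 78) (PT.lf (nat_lit 2052) (nat_lit 3) (nat_lit 27) (nat_lit 4) (nat_lit 88) (nat_lit 151) (nat_lit 151)) (PT.lf (nat_lit 2204) (nat_lit 6) (nat_lit 29) (nat_lit 4) (nat_lit 89) (nat_lit 151) (nat_lit 150))))))))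
noncomputable def pc30 : PT := (PT.nd (nat_lit 45318) (PT.nd (nat_lit 4914) (PT.nd (nat_lit 4446) (PT.nd (nat_lit 156) (PT.nd (nat_lit 78) (PT.lf (nat_lit 2356) (nat_lit 6) (nat_lit 31) (nat_lit 4) (nat_lit 90) (nat_lit 151) (nat_lit 149)) (PT.lf (nat_lit 2508) (nat_lit 6) (nat_lit 33) (nat_lit 4) (nat_lit 91) (nat_lit 151) (nat_lit 148))) (PT.nd (nat_lit 78) (PT.lf (nat_lit 2660) (nat_lit 6) (nat_lit 35) (nat_lit 4) (nat_lit 92) (nat_lit 151) (nat_lit 147)) (PT.nd (nat_lit 4134) (PT.lf (nat_lit 2888) (nat_lit 6) (nat_lit 38) (nat_lit 4) (nat_lit 93) (nat_lit 151) (nat_lit 146)) (PT.lf (nat_lit 2888) (nat_lit 6) (nat_lit 38) (nat_lit 2) (nat_lit 146) (nat_lit 151) (nat_lit 93))))) (PT.nd (nat_lit 234) (PT.nd (nat_lit 78) (PT.lf (nat_lit 2660) (nat_lit 6) (nat_lit 35) (nat_lit 2) (nat_lit 147) (nat_lit 151) (nat_lit 92)) (PT.nd (nat_lit 78) (PT.lf (nat_lit 2508) (nat_lit 6) (nat_lit 33) (nat_lit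 2) (nat_lit 148) (nat_lit 151) (nat_lit 91)) (PT.lf (nat_lit 2356) (nat_lit 6) (nat_lit 31) (nat_lit 2) (nat_lit 149) (nat_lit 151) (nat_lit 90)))) (PT.nd (nat_lit 78) (PT.lf (nat_lit 2204) (nat_lit 6) (nat_lit 29) (nat_lit 2) (nat_lit 150) (nat_lit 151) (nat_lit 89)) (PT.nd (nat_lit 78) (PT.lf (nat_lit 2052) (nat_lit 3) (nat_lit 27) (nat_lit 0) (nat_lit 151) (nat_lit 151) (nat_lit 88)) (PT.lf (nat_lit 1824) (nat_lit 6) (nat_lit 24) (nat_lit 0) (nat_lit 152) (nat_lit 151) (nat_lit 87)))))) (PT.nd (nat_lit 35490) (PT.nd (nat_lit 35256) (PT.nd (nat_lit 78) (PT.lf (nat_lit 1596) (nat_lit 6) (nat_lit 21) (nat_lit 0) (nat_lit 153) (nat_lit 151) (nat_lit 86)) (PT.nd (nat_lit 35100) (PT.lf (nat_lit 1444) (nat_lit 6) (nat_lit 19) (nat_lit 0) (nat_lit 154) (nat_lit 151) (nat_lit 85)) (PT.lf (nat_lit 1140) (nat_lit 6) (nat_lit 15) (nat_lit 5) (nat_lit 83) (nat_lit 152) (nat_lit 155)))) (PT.nd (nat_lit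 78) (PT.lf (nat_lit 1292) (nat_lit 6) (nat_lit 17) (nat_lit 5) (nat_lit 84) (nat_lit 152) (nat_lit 154)) (PT.nd (nat_lit 78) (PT.lf (nat_lit 1520) (nat_lit 6) (nat_lit 20) (nat_lit 5) (nat_lit 85) (nat_lit 152) (nat_lit 153)) (PT.lf (nat_lit 1672) (nat_lit 3) (nat_lit 22) (nat_lit 4) (nat_lit 86) (nat_lit 152) (nat_lit 152))))) (PT.nd (nat_lit 234) (PT.nd (nat_lit 78) (PT.lf (nat_lit 1824) (nat_lit 6) (nat_lit 24) (nat_lit 4) (nat_lit 87) (nat_lit 152) (nat_lit 151)) (PT.nd (nat_lit 78) (PT.lf (nat_lit 1976) (nat_lit 6) (nat_lit 26) (nat_lit 4) (nat_lit 88) (nat_lit 152) (nat_lit 150)) (PT.lf (nat_lit 2128) (nat_lit 6) (nat_lit 28) (nat_lit 4) (nat_lit 89) (nat_lit 152) (nat_lit 149)))) (PT.nd (nat_lit 4524) (PT.lf (nat_lit 2280) (nat_lit 6) (nat_lit 30) (nat_lit 4) (nat_lit 90) (nat_lit 152) (nat_lit 148)) (PT.nd (nat_lit 78) (PT.lf (nat_lit 2280) (nat_lit 6) (nat_lit 30) (nat_lit 2) (nat_lit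 148) (nat_lit 152) (nat_lit 90)) (PT.lf (nat_lit 2128) (nat_lit 6) (nat_lit 28) (nat_lit 2) (nat_lit 149) (nat_lit 152) (nat_lit 89))))))) (PT.nd (nat_lit 35802) (PT.nd (nat_lit 35334) (PT.nd (nat_lit 234) (PT.nd (nat_lit 78) (PT.lf (nat_lit 1976) (nat_lit 6) (nat_lit 26) (nat_lit 2) (nat_lit 150) (nat_lit 152) (nat_lit 88)) (PT.nd (nat_lit 78) (PT.lf (nat_lit 1824) (nat_lit 6) (nat_lit 24) (nat_lit 2) (nat_lit 151) (nat_lit 152) (nat_lit 87)) (PT.lf (nat_lit 1672) (nat_lit 3) (nat_lit 22) (nat_lit 0) (nat_lit 152) (nat_lit 152) (nat_lit 86)))) (PT.nd (nat_lit 78) (PT.lf (nat_lit 1520) (nat_lit 6) (nat_lit 20) (nat_lit 0) (nat_lit 153) (nat_lit 152) (nat_lit 85)) (PT.nd (nat_lit 78) (PT.lf (nat_lit 1292) (nat_lit 6) (nat_lit 17) (nat_lit 0) (nat_lit 154) (nat_lit 152) (nat_lit 84)) (PT.lf (nat_lit 1140) (nat_lit 6) (nat_lit 15) (nat_lit 0) (nat_lit 155) (nat_lit 152) (nat_lit 83))))) (PT.nd (nat_lit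 234) (PT.nd (nat_lit 78) (PT.lf (nat_lit 988) (nat_lit 6) (nat_lit 13) (nat_lit 5) (nat_lit 82) (nat_lit 153) (nat_lit 155)) (PT.nd (nat_lit 78) (PT.lf (nat_lit 1216) (nat_lit 6) (nat_lit 16) (nat_lit 5) (nat_lit 83) (nat_lit 153) (nat_lit 154)) (PT.lf (nat_lit 1368) (nat_lit 3) (nat_lit 18) (nat_lit 4) (nat_lit 84) (nat_lit 153) (nat_lit 153)))) (PT.nd (nat_lit 78) (PT.lf (nat_lit 1520) (nat_lit 6) (nat_lit 20) (nat_lit 4) (nat_lit 85) (nat_lit 153) (nat_lit 152)) (PT.nd (nat_lit 78) (PT.lf (nat_lit 1596) (nat_lit 6) (nat_lit 21) (nat_lit 4) (nat_lit 86) (nat_lit 153) (nat_lit 151)) (PT.lf (nat_lit 1748) (nat_lit 6) (nat_lit 23) (nat_lit 4) (nat_lit 87) (nat_lit 153) (nat_lit 150)))))) (PT.nd (nat_lit 5148) (PT.nd (nat_lit 4914) (PT.nd (nat_lit 4758) (PT.lf (nat_lit 1900) (nat_lit 6) (nat_lit 25) (nat_lit 4) (nat_lit 88) (nat_lit 153) (nat_lit 149)) (PT.nd (nat_lit 78) (PT.lf (nat_lit 1900)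 (nat_lit 6) (nat_lit 25) (nat_lit 2) (nat_lit 149) (nat_lit 153) (nat_lit 88)) (PT.lf (nat_lit 1748) (nat_lit 6) (nat_lit 23) (nat_lit 2) (nat_lit 150) (nat_lit 153) (nat_lit 87)))) (PT.nd (nat_lit 78) (PT.lf (nat_lit 1596) (nat_lit 6) (nat_lit 21) (nat_lit 2) (nat_lit 151) (nat_lit 153) (nat_lit 86)) (PT.nd (nat_lit 78) (PT.lf (nat_lit 1520) (nat_lit 6) (nat_lit 20) (nat_lit 2) (nat_lit 152) (nat_lit 153) (nat_lit 85)) (PT.lf (nat_lit 1368) (nat_lit 3) (nat_lit 18) (nat_lit 0) (nat_lit 153) (nat_lit 153) (nat_lit 84))))) (PT.nd (nat_lit 34944) (PT.nd (nat_lit 78) (PT.lf (nat_lit 1216) (nat_lit 6) (nat_lit 16) (nat_lit 0) (nat_lit 154) (nat_lit 153) (nat_lit 83)) (PT.nd (nat_lit 34788) (PT.lf (nat_lit 988) (nat_lit 6) (nat_lit 13) (nat_lit 0) (nat_lit 155) (nat_lit 153) (nat_lit 82)) (PT.lf (nat_lit 760) (nat_lit 6) (nat_lit 10) (nat_lit 5) (nat_lit 80) (nat_lit 154) (nat_lit 156)))) (PT.nd (nat_lit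 78) (PT.lf (nat_lit 912) (nat_lit 6) (nat_lit 12) (nat_lit 5) (nat_lit 81) (nat_lit 154) (nat_lit 155)) (PT.nd (nat_lit 78) (PT.lf (nat_lit 1064) (nat_lit 3) (nat_lit 14) (nat_lit 4) (nat_lit 82) (nat_lit 154) (nat_lit 154)) (PT.lf (nat_lit 1216) (nat_lit 6) (nat_lit 16) (nat_lit 4) (nat_lit 83) (nat_lit 154) (nat_lit 153))))))))
noncomputable def pc31 : PT := (PT.nd (nat_lit 80964) (PT.nd (nat_lit 40482) (PT.nd (nat_lit 5538) (PT.nd (nat_lit 5304) (PT.nd (nat_lit 78) (PT.lf (nat_lit 1292) (nat_lit 6) (nat_lit 17) (nat_lit 4) (nat_lit 84) (nat_lit 154) (nat_lit 152)) (PT.nd (nat_lit 5148) (PT.lf (nat_lit 1444) (nat_lit 6) (nat_lit 19) (nat_lit 4) (nat_lit 85) (nat_lit 154) (nat_lit 151)) (PT.lf (nat_lit 1444) (nat_lit 6) (nat_lit 19) (nat_lit 2) (nat_lit 151) (nat_lit 154) (nat_lit 85)))) (PT.nd (nat_lit 78) (PT.lf (nat_lit 1292) (nat_lit 6) (nat_lit 17) (nat_lit 2) (nat_lit 152) (nat_lit 154)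 (nat_lit 84)) (PT.nd (nat_lit 78) (PT.lf (nat_lit 1216) (nat_lit 6) (nat_lit 16) (nat_lit 2) (nat_lit 153) (nat_lit 154) (nat_lit 83)) (PT.lf (nat_lit 1064) (nat_lit 3) (nat_lit 14) (nat_lit 0) (nat_lit 154) (nat_lit 154) (nat_lit 82))))) (PT.nd (nat_lit 34710) (PT.nd (nat_lit 78) (PT.lf (nat_lit 912) (nat_lit 6) (nat_lit 12) (nat_lit 0) (nat_lit 155) (nat_lit 154) (nat_lit 81)) (PT.nd (nat_lit 34554) (PT.lf (nat_lit 760) (nat_lit 6) (nat_lit 10) (nat_lit 0) (nat_lit 156) (nat_lit 154) (nat_lit 80)) (PT.lf (nat_lit 532) (nat_lit 6) (nat_lit 7) (nat_lit 5) (nat_lit 78) (nat_lit 155) (nat_lit 157)))) (PT.nd (nat_lit 78) (PT.lf (nat_lit 684) (nat_lit 6) (nat_lit 9) (nat_lit 5) (nat_lit 79) (nat_lit 155) (nat_lit 156)) (PT.nd (nat_lit 78) (PT.lf (nat_lit 836) (nat_lit 3) (nat_lit 11) (nat_lit 4) (nat_lit 80) (nat_lit 155) (nat_lit 155)) (PT.lf (nat_lit 912) (nat_lit 6) (nat_lit 12) (nat_lit 4) (nat_lit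 81) (nat_lit 155) (nat_lit 154)))))) (PT.nd (nat_lit 5772) (PT.nd (nat_lit 5538) (PT.nd (nat_lit 78) (PT.lf (nat_lit 988) (nat_lit 6) (nat_lit 13) (nat_lit 4) (nat_lit 82) (nat_lit 155) (nat_lit 153)) (PT.nd (nat_lit 5382) (PT.lf (nat_lit 1140) (nat_lit 6) (nat_lit 15) (nat_lit 4) (nat_lit 83) (nat_lit 155) (nat_lit 152)) (PT.lf (nat_lit 1140) (nat_lit 6) (nat_lit 15) (nat_lit 2) (nat_lit 152) (nat_lit 155) (nat_lit 83)))) (PT.nd (nat_lit 78) (PT.lf (nat_lit 988) (nat_lit 6) (nat_lit 13) (nat_lit 2) (nat_lit 153) (nat_lit 155) (nat_lit 82)) (PT.nd (nat_lit 78) (PT.lf (nat_lit 912) (nat_lit 6) (nat_lit 12) (nat_lit 2) (nat_lit 154) (nat_lit 155) (nat_lit 81)) (PT.lf (nat_lit 836) (nat_lit 3) (nat_lit 11) (nat_lit 0) (nat_lit 155) (nat_lit 155) (nat_lit 80))))) (PT.nd (nat_lit 34476) (PT.nd (nat_lit 78) (PT.lf (nat_lit 684) (nat_lit 6) (nat_lit 9) (nat_lit 0) (nat_lit 156) (nat_lit 155) (nat_lit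 79)) (PT.nd (nat_lit 34320) (PT.lf (nat_lit 532) (nat_lit 6) (nat_lit 7) (nat_lit 0) (nat_lit 157) (nat_lit 155) (nat_lit 78)) (PT.lf (nat_lit 304) (nat_lit 6) (nat_lit 4) (nat_lit 5) (nat_lit 76) (nat_lit 156) (nat_lit 158)))) (PT.nd (nat_lit 78) (PT.lf (nat_lit 456) (nat_lit 6) (nat_lit 6) (nat_lit 5) (nat_lit 77) (nat_lit 156) (nat_lit 157)) (PT.nd (nat_lit 78) (PT.lf (nat_lit 608) (nat_lit 3) (nat_lit 8) (nat_lit 4) (nat_lit 78) (nat_lit 156) (nat_lit 156)) (PT.lf (nat_lit 684) (nat_lit 6) (nat_lit 9) (nat_lit 4) (nat_lit 79) (nat_lit 156) (nat_lit 155))))))) (PT.nd (nat_lit 46644) (PT.nd (nat_lit 40248) (PT.nd (nat_lit 5928) (PT.nd (nat_lit 5772) (PT.lf (nat_lit 760) (nat_lit 6) (nat_lit 10) (nat_lit 4) (nat_lit 80) (nat_lit 156) (nat_lit 154)) (PT.nd (nat_lit 78) (PT.lf (nat_lit 760) (nat_lit 6) (nat_lit 10) (nat_lit 2) (nat_lit 154) (nat_lit 156) (nat_lit 80)) (PT.lf (nat_lit 684) (nat_lit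 6) (nat_lit 9) (nat_lit 2) (nat_lit 155) (nat_lit 156) (nat_lit 79)))) (PT.nd (nat_lit 78) (PT.lf (nat_lit 608) (nat_lit 3) (nat_lit 8) (nat_lit 0) (nat_lit 156) (nat_lit 156) (nat_lit 78)) (PT.nd (nat_lit 78) (PT.lf (nat_lit 456) (nat_lit 6) (nat_lit 6) (nat_lit 0) (nat_lit 157) (nat_lit 156) (nat_lit 77)) (PT.lf (nat_lit 304) (nat_lit 6) (nat_lit 4) (nat_lit 0) (nat_lit 158) (nat_lit 156) (nat_lit 76))))) (PT.nd (nat_lit 234) (PT.nd (nat_lit 78) (PT.lf (nat_lit 228) (nat_lit 6) (nat_lit 3) (nat_lit 5) (nat_lit 75) (nat_lit 157) (nat_lit 158)) (PT.nd (nat_lit 78) (PT.lf (nat_lit 380) (nat_lit 3) (nat_lit 5) (nat_lit 4) (nat_lit 76) (nat_lit 157) (nat_lit 157)) (PT.lf (nat_lit 456) (nat_lit 6) (nat_lit 6) (nat_lit 4) (nat_lit 77) (nat_lit 157) (nat_lit 156)))) (PT.nd (nat_lit 6006) (PT.lf (nat_lit 532) (nat_lit 6) (nat_lit 7) (nat_lit 4) (nat_lit 78) (nat_lit 157) (nat_lit 155)) (PT.nd (nat_lit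 78) (PT.lf (nat_lit 532) (nat_lit 6) (nat_lit 7) (nat_lit 2) (nat_lit 155) (nat_lit 157) (nat_lit 78)) (PT.lf (nat_lit 456) (nat_lit 6) (nat_lit 6) (nat_lit 2) (nat_lit 156) (nat_lit 157) (nat_lit 77)))))) (PT.nd (nat_lit 40560) (PT.nd (nat_lit 34164) (PT.nd (nat_lit 78) (PT.lf (nat_lit 380) (nat_lit 3) (nat_lit 5) (nat_lit 0) (nat_lit 157) (nat_lit 157) (nat_lit 76)) (PT.nd (nat_lit 34008) (PT.lf (nat_lit 228) (nat_lit 6) (nat_lit 3) (nat_lit 0) (nat_lit 158) (nat_lit 157) (nat_lit 75)) (PT.lf (nat_lit 76) (nat_lit 6) (nat_lit 1) (nat_lit 5) (nat_lit 73) (nat_lit 158) (nat_lit 159)))) (PT.nd (nat_lit 78) (PT.lf (nat_lit 152) (nat_lit 3) (nat_lit 2) (nat_lit 4) (nat_lit 74) (nat_lit 158) (nat_lit 158)) (PT.nd (nat_lit 78) (PT.lf (nat_lit 228) (nat_lit 6) (nat_lit 3) (nat_lit 4) (nat_lit 75) (nat_lit 158) (nat_lit 157)) (PT.lf (nat_lit 304) (nat_lit 6) (nat_lit 4) (nat_lit 4) (nat_lit 76) (nat_lit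 158) (nat_lit 156))))) (PT.nd (nat_lit 234) (PT.nd (nat_lit 78) (PT.lf (nat_lit 304) (nat_lit 6) (nat_lit 4) (nat_lit 2) (nat_lit 156) (nat_lit 158) (nat_lit 76)) (PT.nd (nat_lit 78) (PT.lf (nat_lit 228) (nat_lit 6) (nat_lit 3) (nat_lit 2) (nat_lit 157) (nat_lit 158) (nat_lit 75)) (PT.lf (nat_lit 152) (nat_lit 3) (nat_lit 2) (nat_lit 0) (nat_lit 158) (nat_lit 158) (nat_lit 74)))) (PT.nd (nat_lit 33930) (PT.lf (nat_lit 76) (nat_lit 6) (nat_lit 1) (nat_lit 0) (nat_lit 159) (nat_lit 158) (nat_lit 73)) (PT.nd (nat_lit 6630) (PT.lf (nat_lit 76) (nat_lit 6) (nat_lit 1) (nat_lit 4) (nat_lit 73) (nat_lit 159) (nat_lit 158)) (PT.lf (nat_lit 76) (nat_lit 6) (nat_lit 1) (nat_lit 2) (nat_lit 158) (nat_lit 159) (nat_lit 73))))))))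
noncomputable def xc0 : XT := (XT.nd (nat_lit 161850) (nat_lit 0) (nat_lit 0) (XT.nd (nat_lit 81198) (nat_lit 0) (nat_lit 0) (XT.nd (nat_lit 40638) (nat_lit 0) (nat_lit 0) (XT.nd (nat_lit 40404) (nat_lit 0) (nat_lit 0) (XT.nd (nat_lit 78) (nat_lit 0) (nat_lit 0) (XT.lf (nat_lit 0) (nat_lit 14199392887) (nat_lit 76) (nat_lit 39941262754) (nat_lit 76) (nat_lit 39789341495) (nat_lit 2) (nat_lit 4) (nat_lit 3) (nat_lit 5) (nat_lit 3) (nat_lit 4) (nat_lit 403) (nat_lit 189) (nat_lit 188)) (XT.lf (nat_lit 0) (nat_lit 18280376120) (nat_lit 76) (nat_lit 39352480696) (nat_lit 76) (nat_lit 39053063069) (nat_lit 2) (nat_lit 4) (nat_lit 3) (nat_lit 5) (nat_lit 3) (nat_lit 4) (nat_lit 404) (nat_lit 189) (nat_lit 187))) (XT.nd (nat_lit 78) (nat_lit 0) (nat_lit 0) (XT.lf (nat_lit 0) (nat_lit 1136852764) (nat_lit 76) (nat_lit 20966834411) (nat_lit 76) (nat_lit 20966834411) (nat_lit 2) (nat_lit 4) (nat_lit 3)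 (nat_lit 5) (nat_lit 3) (nat_lit 4) (nat_lit 400) (nat_lit 190) (nat_lit 190)) (XT.nd (nat_lit 78) (nat_lit 0) (nat_lit 0) (XT.lf (nat_lit 0) (nat_lit 6180743109) (nat_lit 76) (nat_lit 41317958003) (nat_lit 76) (nat_lit 41161479106) (nat_lit 2) (nat_lit 4) (nat_lit 3) (nat_lit 5) (nat_lit 3) (nat_lit 4) (nat_lit 401) (nat_lit 190) (nat_lit 189)) (XT.lf (nat_lit 0) (nat_lit 10130816892) (nat_lit 76) (nat_lit 40716866204) (nat_lit 76) (nat_lit 40408466048) (nat_lit 2) (nat_lit 4) (nat_lit 3) (nat_lit 5) (nat_lit 3) (nat_lit 4) (nat_lit 402) (nat_lit 190) (nat_lit 188))))) (XT.nd (nat_lit 40326) (nat_lit 0) (nat_lit 0) (XT.nd (nat_lit 78) (nat_lit 0) (nat_lit 0) (XT.lf (nat_lit 0) (nat_lit 14127378397) (nat_lit 76) (nat_lit 40129868199) (nat_lit 76) (nat_lit 39673971676) (nat_lit 2) (nat_lit 4) (nat_lit 3) (nat_lit 5) (nat_lit 3) (nat_lit 4) (nat_lit 403) (nat_lit 190) (nat_lit 187)) (XT.nd (nat_lit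 40170) (nat_lit 0) (nat_lit 76) (XT.lf (nat_lit 0) (nat_lit 18173919767) (nat_lit 76) (nat_lit 39556451079) (nat_lit 76) (nat_lit 38957354198) (nat_lit 2) (nat_lit 4) (nat_lit 3) (nat_lit 5) (nat_lit 3) (nat_lit 4) (nat_lit 404) (nat_lit 190) (nat_lit 186)) (XT.lf (nat_lit 0) (nat_lit 19010324932) (nat_lit 152) (nat_lit 2640507448) (nat_lit 0) (nat_lit 19010324932) (nat_lit 3) (nat_lit 5) (nat_lit 5) (nat_lit 4) (nat_lit 3) (nat_lit 4) (nat_lit 398) (nat_lit 191) (nat_lit 191)))) (XT.nd (nat_lit 78) (nat_lit 76) (nat_lit 0) (XT.lf (nat_lit 0) (nat_lit 41147319875) (nat_lit 152) (nat_lit 1562610746) (nat_lit 0) (nat_lit 40986146611) (nat_lit 3) (nat_lit 5) (nat_lit 5) (nat_lit 4) (nat_lit 3) (nat_lit 4) (nat_lit 399) (nat_lit 191) (nat_lit 190)) (XT.nd (nat_lit 78) (nat_lit 0) (nat_lit 0) (XT.lf (nat_lit 0) (nat_lit 2236069976) (nat_lit 76) (nat_lit 42111631769) (nat_lit 76) (nat_lit 41793979608)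 (nat_lit 2) (nat_lit 4) (nat_lit 3) (nat_lit 5) (nat_lit 3) (nat_lit 4) (nat_lit 400) (nat_lit 191) (nat_lit 189)) (XT.lf (nat_lit 0) (nat_lit 6106568184) (nat_lit 76) (nat_lit 41512221612) (nat_lit 76) (nat_lit 41042648192) (nat_lit 2) (nat_lit 4) (nat_lit 3) (nat_lit 5) (nat_lit 3) (nat_lit 4) (nat_lit 401) (nat_lit 191) (nat_lit 188)))))) (XT.nd (nat_lit 40404) (nat_lit 0) (nat_lit 0) (XT.nd (nat_lit 40170) (nat_lit 0) (nat_lit 76) (XT.nd (nat_lit 78) (nat_lit 0) (nat_lit 0) (XT.lf (nat_lit 0) (nat_lit 10021166848) (nat_lit 76) (nat_lit 40926955699) (nat_lit 76) (nat_lit 40309885911) (nat_lit 2) (nat_lit 4) (nat_lit 3) (nat_lit 5) (nat_lit 3) (nat_lit 4) (nat_lit 402) (nat_lit 191) (nat_lit 187)) (XT.nd (nat_lit 78) (nat_lit 0) (nat_lit 0) (XT.lf (nat_lit 0) (nat_lit 13983286491) (nat_lit 76) (nat_lit 40355322632) (nat_lit 76) (nat_lit 39595052488) (nat_lit 2) (nat_lit 4) (nat_lit 3) (nat_lit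 5) (nat_lit 3) (nat_lit 4) (nat_lit 403) (nat_lit 191) (nat_lit 186)) (XT.lf (nat_lit 0) (nat_lit 17996389160) (nat_lit 76) (nat_lit 39796822928) (nat_lit 76) (nat_lit 38897523310) (nat_lit 2) (nat_lit 4) (nat_lit 3) (nat_lit 5) (nat_lit 3) (nat_lit 4) (nat_lit 404) (nat_lit 191) (nat_lit 185)))) (XT.nd (nat_lit 78) (nat_lit 0) (nat_lit 0) (XT.lf (nat_lit 0) (nat_lit 16050408561) (nat_lit 152) (nat_lit 6290856785) (nat_lit 0) (nat_lit 16050408561) (nat_lit 3) (nat_lit 5) (nat_lit 5) (nat_lit 4) (nat_lit 3) (nat_lit 4) (nat_lit 396) (nat_lit 192) (nat_lit 192)) (XT.nd (nat_lit 78) (nat_lit 0) (nat_lit 0) (XT.lf (nat_lit 0) (nat_lit 35109473664) (nat_lit 152) (nat_lit 8966025342) (nat_lit 0) (nat_lit 34943465203) (nat_lit 3) (nat_lit 5) (nat_lit 5) (nat_lit 4) (nat_lit 3) (nat_lit 4) (nat_lit 397) (nat_lit 192) (nat_lit 191)) (XT.lf (nat_lit 0) (nat_lit 38165559710) (nat_lit 152) (nat_lit 5319023078)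 (nat_lit 0) (nat_lit 37838377984) (nat_lit 3) (nat_lit 5) (nat_lit 5) (nat_lit 4) (nat_lit 3) (nat_lit 4) (nat_lit 398) (nat_lit 192) (nat_lit 190))))) (XT.nd (nat_lit 234) (nat_lit 0) (nat_lit 0) (XT.nd (nat_lit 78) (nat_lit 76) (nat_lit 0) (XT.lf (nat_lit 0) (nat_lit 41271745624) (nat_lit 152) (nat_lit 1637520076) (nat_lit 0) (nat_lit 40788085002) (nat_lit 3) (nat_lit 5) (nat_lit 5) (nat_lit 4) (nat_lit 3) (nat_lit 4) (nat_lit 399) (nat_lit 192) (nat_lit 189)) (XT.nd (nat_lit 78) (nat_lit 0) (nat_lit 0) (XT.lf (nat_lit 0) (nat_lit 2123130431) (nat_lit 76) (nat_lit 42328023949) (nat_lit 76) (nat_lit 41692442067) (nat_lit 2) (nat_lit 4) (nat_lit 3) (nat_lit 5) (nat_lit 3) (nat_lit 4) (nat_lit 400) (nat_lit 192) (nat_lit 188)) (XT.lf (nat_lit 0) (nat_lit 5958153521) (nat_lit 76) (nat_lit 41744439678) (nat_lit 76) (nat_lit 40961361428) (nat_lit 2) (nat_lit 4) (nat_lit 3) (nat_lit 5) (nat_lit 3)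 (nat_lit 4) (nat_lit 401) (nat_lit 192) (nat_lit 187)))) (XT.nd (nat_lit 78) (nat_lit 0) (nat_lit 0) (XT.lf (nat_lit 0) (nat_lit 9838310323) (nat_lit 76) (nat_lit 41174538703) (nat_lit 76) (nat_lit 40248260096) (nat_lit 2) (nat_lit 4) (nat_lit 3) (nat_lit 5) (nat_lit 3) (nat_lit 4) (nat_lit 402) (nat_lit 192) (nat_lit 186)) (XT.nd (nat_lit 78) (nat_lit 0) (nat_lit 0) (XT.lf (nat_lit 0) (nat_lit 13766991264) (nat_lit 76) (nat_lit 40617823052) (nat_lit 76) (nat_lit 39552514972) (nat_lit 2) (nat_lit 4) (nat_lit 3) (nat_lit 5) (nat_lit 3) (nat_lit 4) (nat_lit 403) (nat_lit 192) (nat_lit 185)) (XT.lf (nat_lit 0) (nat_lit 17747629174) (nat_lit 76) (nat_lit 40073806275) (nat_lit 76) (nat_lit 38873518124) (nat_lit 2) (nat_lit 4) (nat_lit 3) (nat_lit 5) (nat_lit 3) (nat_lit 4) (nat_lit 404) (nat_lit 192) (nat_lit 184))))))) (XT.nd (nat_lit 40482) (nat_lit 0) (nat_lit 0) (XT.nd (nat_lit 390) (nat_lit 76)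 (nat_lit 0) (XT.nd (nat_lit 156) (nat_lit 0) (nat_lit 0) (XT.nd (nat_lit 78) (nat_lit 0) (nat_lit 0) (XT.lf (nat_lit 0) (nat_lit 13204344119) (nat_lit 152) (nat_lit 9845718894) (nat_lit 0) (nat_lit 13204344119) (nat_lit 3) (nat_lit 5) (nat_lit 5) (nat_lit 4) (nat_lit 3) (nat_lit 4) (nat_lit 394) (nat_lit 193) (nat_lit 193)) (XT.lf (nat_lit 0) (nat_lit 29307949874) (nat_lit 152) (nat_lit 16169247099) (nat_lit 0) (nat_lit 29136961159) (nat_lit 3) (nat_lit 5) (nat_lit 5) (nat_lit 4) (nat_lit 3) (nat_lit 4) (nat_lit 395) (nat_lit 193) (nat_lit 192))) (XT.nd (nat_lit 78) (nat_lit 0) (nat_lit 0) (XT.lf (nat_lit 0) (nat_lit 32250074261) (nat_lit 152) (nat_lit 12620861997) (nat_lit 0) (nat_lit 31913077084) (nat_lit 3) (nat_lit 5) (nat_lit 5) (nat_lit 4) (nat_lit 3) (nat_lit 4) (nat_lit 396) (nat_lit 193) (nat_lit 191)) (XT.nd (nat_lit 78) (nat_lit 0) (nat_lit 0) (XT.lf (nat_lit 0) (nat_lit 35237632186)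 (nat_lit 152) (nat_lit 9043181952) (nat_lit 0) (nat_lit 34739461745) (nat_lit 3) (nat_lit 5) (nat_lit 5) (nat_lit 4) (nat_lit 3) (nat_lit 4) (nat_lit 397) (nat_lit 193) (nat_lit 190)) (XT.lf (nat_lit 0) (nat_lit 38273234137) (nat_lit 152) (nat_lit 5433080836) (nat_lit 0) (nat_lit 37618584800) (nat_lit 3) (nat_lit 5) (nat_lit 5) (nat_lit 4) (nat_lit 3) (nat_lit 4) (nat_lit 398) (nat_lit 193) (nat_lit 189))))) (XT.nd (nat_lit 234) (nat_lit 0) (nat_lit 0) (XT.nd (nat_lit 78) (nat_lit 76) (nat_lit 0) (XT.lf (nat_lit 0) (nat_lit 41359532582) (nat_lit 152) (nat_lit 1787404192) (nat_lit 0) (nat_lit 40552961985) (nat_lit 3) (nat_lit 5) (nat_lit 5) (nat_lit 4) (nat_lit 3) (nat_lit 4) (nat_lit 399) (nat_lit 193) (nat_lit 188)) (XT.nd (nat_lit 78) (nat_lit 0) (nat_lit 0) (XT.lf (nat_lit 0) (nat_lit 1934788210) (nat_lit 76) (nat_lit 42583034443) (nat_lit 76) (nat_lit 41628967478) (nat_lit 2) (nat_lit 4)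 (nat_lit 3) (nat_lit 5) (nat_lit 3) (nat_lit 4) (nat_lit 400) (nat_lit 193) (nat_lit 187)) (XT.lf (nat_lit 0) (nat_lit 5735369437) (nat_lit 76) (nat_lit 42014815110) (nat_lit 76) (nat_lit 40917547788) (nat_lit 2) (nat_lit 4) (nat_lit 3) (nat_lit 5) (nat_lit 3) (nat_lit 4) (nat_lit 401) (nat_lit 193) (nat_lit 186)))) (XT.nd (nat_lit 78) (nat_lit 0) (nat_lit 0) (XT.lf (nat_lit 0) (nat_lit 9582087537) (nat_lit 76) (nat_lit 41459831550) (nat_lit 76) (nat_lit 40223534755) (nat_lit 2) (nat_lit 4) (nat_lit 3) (nat_lit 5) (nat_lit 3) (nat_lit 4) (nat_lit 402) (nat_lit 193) (nat_lit 185)) (XT.nd (nat_lit 78) (nat_lit 0) (nat_lit 0) (XT.lf (nat_lit 0) (nat_lit 13478303720) (nat_lit 76) (nat_lit 40917598827) (nat_lit 76) (nat_lit 39546321961) (nat_lit 2) (nat_lit 4) (nat_lit 3) (nat_lit 5) (nat_lit 3) (nat_lit 4) (nat_lit 403) (nat_lit 193) (nat_lit 184)) (XT.lf (nat_lit 0) (nat_lit 17427422447) (nat_lit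 76) (nat_lit 40387643145) (nat_lit 76) (nat_lit 38885317666) (nat_lit 2) (nat_lit 4) (nat_lit 3) (nat_lit 5) (nat_lit 3) (nat_lit 4) (nat_lit 404) (nat_lit 193) (nat_lit 183)))))) (XT.nd (nat_lit 468) (nat_lit 76) (nat_lit 0) (XT.nd (nat_lit 234) (nat_lit 0) (nat_lit 0) (XT.nd (nat_lit 78) (nat_lit 0) (nat_lit 0) (XT.lf (nat_lit 0) (nat_lit 10463914258) (nat_lit 152) (nat_lit 13313996867) (nat_lit 0) (nat_lit 10463914258) (nat_lit 3) (nat_lit 5) (nat_lit 5) (nat_lit 4) (nat_lit 3) (nat_lit 4) (nat_lit 392) (nat_lit 194) (nat_lit 194)) (XT.nd (nat_lit 78) (nat_lit 0) (nat_lit 0) (XT.lf (nat_lit 0) (nat_lit 23725874392) (nat_lit 152) (nat_lit 23190511709) (nat_lit 0) (nat_lit 23549756015) (nat_lit 3) (nat_lit 5) (nat_lit 5) (nat_lit 4) (nat_lit 3) (nat_lit 4) (nat_lit 393) (nat_lit 194) (nat_lit 193)) (XT.lf (nat_lit 0) (nat_lit 26562423091) (nat_lit 152) (nat_lit 19731760670) (nat_lit 0) (nat_lit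 26215315999) (nat_lit 3) (nat_lit 5) (nat_lit 5) (nat_lit 4) (nat_lit 3) (nat_lit 4) (nat_lit 394) (nat_lit 194) (nat_lit 192)))) (XT.nd (nat_lit 78) (nat_lit 0) (nat_lit 0) (XT.lf (nat_lit 0) (nat_lit 29439953152) (nat_lit 152) (nat_lit 16248718408) (nat_lit 0) (nat_lit 28926837598) (nat_lit 3) (nat_lit 5) (nat_lit 5) (nat_lit 4) (nat_lit 3) (nat_lit 4) (nat_lit 395) (nat_lit 194) (nat_lit 191)) (XT.nd (nat_lit 78) (nat_lit 0) (nat_lit 0) (XT.lf (nat_lit 0) (nat_lit 32360978922) (nat_lit 152) (nat_lit 12738341488) (nat_lit 0) (nat_lit 31686690104) (nat_lit 3) (nat_lit 5) (nat_lit 5) (nat_lit 4) (nat_lit 3) (nat_lit 4) (nat_lit 396) (nat_lit 194) (nat_lit 190)) (XT.lf (nat_lit 0) (nat_lit 35328052752) (nat_lit 152) (nat_lit 9197562591) (nat_lit 0) (nat_lit 34497285038) (nat_lit 3) (nat_lit 5) (nat_lit 5) (nat_lit 4) (nat_lit 3) (nat_lit 4) (nat_lit 397) (nat_lit 194) (nat_lit 189))))) (XT.nd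 (nat_lit 234) (nat_lit 0) (nat_lit 0) (XT.nd (nat_lit 78) (nat_lit 76) (nat_lit 0) (XT.lf (nat_lit 0) (nat_lit 38343767233) (nat_lit 152) (nat_lit 5623287832) (nat_lit 0) (nat_lit 37361078259) (nat_lit 3) (nat_lit 5) (nat_lit 5) (nat_lit 4) (nat_lit 3) (nat_lit 4) (nat_lit 398) (nat_lit 194) (nat_lit 188)) (XT.nd (nat_lit 78) (nat_lit 76) (nat_lit 0) (XT.lf (nat_lit 0) (nat_lit 41410757453) (nat_lit 152) (nat_lit 2012394058) (nat_lit 0) (nat_lit 40280572112) (nat_lit 3) (nat_lit 5) (nat_lit 5) (nat_lit 4) (nat_lit 3) (nat_lit 4) (nat_lit 399) (nat_lit 194) (nat_lit 187)) (XT.lf (nat_lit 0) (nat_lit 1670878741) (nat_lit 76) (nat_lit 42876886076) (nat_lit 76) (nat_lit 41603500377) (nat_lit 2) (nat_lit 4) (nat_lit 3) (nat_lit 5) (nat_lit 3) (nat_lit 4) (nat_lit 400) (nat_lit 194) (nat_lit 186)))) (XT.nd (nat_lit 78) (nat_lit 0) (nat_lit 0) (XT.lf (nat_lit 0) (nat_lit 5438021267) (nat_lit 76) (nat_lit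 42323584158) (nat_lit 76) (nat_lit 40911168986) (nat_lit 2) (nat_lit 4) (nat_lit 3) (nat_lit 5) (nat_lit 3) (nat_lit 4) (nat_lit 401) (nat_lit 194) (nat_lit 185)) (XT.nd (nat_lit 78) (nat_lit 0) (nat_lit 0) (XT.lf (nat_lit 0) (nat_lit 9252274608) (nat_lit 76) (nat_lit 41783083526) (nat_lit 76) (nat_lit 40235688283) (nat_lit 2) (nat_lit 4) (nat_lit 3) (nat_lit 5) (nat_lit 3) (nat_lit 4) (nat_lit 402) (nat_lit 194) (nat_lit 184)) (XT.lf (nat_lit 0) (nat_lit 13116971608) (nat_lit 76) (nat_lit 41254911898) (nat_lit 76) (nat_lit 39576468042) (nat_lit 2) (nat_lit 4) (nat_lit 3) (nat_lit 5) (nat_lit 3) (nat_lit 4) (nat_lit 403) (nat_lit 194) (nat_lit 183))))))))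
noncomputable def xc1 : XT := (XT.nd (nat_lit 80574) (nat_lit 0) (nat_lit 0) (XT.nd (nat_lit 40326) (nat_lit 0) (nat_lit 0) (XT.nd (nat_lit 39858) (nat_lit 0) (nat_lit 76) (XT.nd (nat_lit 39624) (nat_lit 0) (nat_lit 76) (XT.nd (nat_lit 39546) (nat_lit 0) (nat_lit 76) (XT.lf (nat_lit 0) (nat_lit 17035489186) (nat_lit 76) (nat_lit 40738607764) (nat_lit 76) (nat_lit 38932932246) (nat_lit 2) (nat_lit 4) (nat_lit 3) (nat_lit 5) (nat_lit 3) (nat_lit 4) (nat_lit 404) (nat_lit 194) (nat_lit 182)) (XT.lf (nat_lit 0) (nat_lit 7821322888) (nat_lit 152) (nat_lit 16704185372) (nat_lit 0) (nat_lit 7821322888) (nat_lit 3) (nat_lit 5) (nat_lit 5) (nat_lit 4) (nat_lit 3) (nat_lit 4) (nat_lit 390) (nat_lit 195) (nat_lit 195))) (XT.nd (nat_lit 78) (nat_lit 0) (nat_lit 0) (XT.lf (nat_lit 0) (nat_lit 18347242500) (nat_lit 152) (nat_lit 30047210373) (nat_lit 0) (nat_lit 18165840572) (nat_lit 3) (nat_lit 5) (nat_lit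 5) (nat_lit 4) (nat_lit 3) (nat_lit 4) (nat_lit 391) (nat_lit 195) (nat_lit 194)) (XT.nd (nat_lit 78) (nat_lit 0) (nat_lit 0) (XT.lf (nat_lit 0) (nat_lit 21086175417) (nat_lit 152) (nat_lit 26669526302) (nat_lit 0) (nat_lit 20728655112) (nat_lit 3) (nat_lit 5) (nat_lit 5) (nat_lit 4) (nat_lit 3) (nat_lit 4) (nat_lit 392) (nat_lit 195) (nat_lit 193)) (XT.lf (nat_lit 0) (nat_lit 23861837768) (nat_lit 152) (nat_lit 23272367157) (nat_lit 0) (nat_lit 23333328748) (nat_lit 3) (nat_lit 5) (nat_lit 5) (nat_lit 4) (nat_lit 3) (nat_lit 4) (nat_lit 393) (nat_lit 195) (nat_lit 192))))) (XT.nd (nat_lit 234) (nat_lit 0) (nat_lit 0) (XT.nd (nat_lit 78) (nat_lit 0) (nat_lit 0) (XT.lf (nat_lit 0) (nat_lit 26676654892) (nat_lit 152) (nat_lit 19852764545) (nat_lit 0) (nat_lit 25982137409) (nat_lit 3) (nat_lit 5) (nat_lit 5) (nat_lit 4) (nat_lit 3) (nat_lit 4) (nat_lit 394) (nat_lit 195) (nat_lit 191)) (XT.nd (nat_lit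 78) (nat_lit 0) (nat_lit 0) (XT.lf (nat_lit 0) (nat_lit 29533086335) (nat_lit 152) (nat_lit 16407730466) (nat_lit 0) (nat_lit 28677395589) (nat_lit 3) (nat_lit 5) (nat_lit 5) (nat_lit 4) (nat_lit 3) (nat_lit 4) (nat_lit 395) (nat_lit 195) (nat_lit 190)) (XT.lf (nat_lit 0) (nat_lit 32433628010) (nat_lit 152) (nat_lit 12934254694) (nat_lit 0) (nat_lit 31421458367) (nat_lit 3) (nat_lit 5) (nat_lit 5) (nat_lit 4) (nat_lit 3) (nat_lit 4) (nat_lit 396) (nat_lit 195) (nat_lit 189)))) (XT.nd (nat_lit 78) (nat_lit 0) (nat_lit 0) (XT.lf (nat_lit 0) (nat_lit 35380814370) (nat_lit 152) (nat_lit 9429302154) (nat_lit 0) (nat_lit 34216723468) (nat_lit 3) (nat_lit 5) (nat_lit 5) (nat_lit 4) (nat_lit 3) (nat_lit 4) (nat_lit 397) (nat_lit 195) (nat_lit 188)) (XT.nd (nat_lit 78) (nat_lit 0) (nat_lit 0) (XT.lf (nat_lit 0) (nat_lit 38377220627) (nat_lit 152) (nat_lit 5889810266) (nat_lit 0) (nat_lit 37065633357)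 (nat_lit 3) (nat_lit 5) (nat_lit 5) (nat_lit 4) (nat_lit 3) (nat_lit 4) (nat_lit 398) (nat_lit 195) (nat_lit 187)) (XT.lf (nat_lit 0) (nat_lit 41425464999) (nat_lit 152) (nat_lit 2312686270) (nat_lit 0) (nat_lit 39970677372) (nat_lit 3) (nat_lit 5) (nat_lit 5) (nat_lit 4) (nat_lit 3) (nat_lit 4) (nat_lit 399) (nat_lit 195) (nat_lit 186)))))) (XT.nd (nat_lit 39780) (nat_lit 0) (nat_lit 76) (XT.nd (nat_lit 234) (nat_lit 0) (nat_lit 0) (XT.nd (nat_lit 78) (nat_lit 0) (nat_lit 0) (XT.lf (nat_lit 0) (nat_lit 1331171424) (nat_lit 76) (nat_lit 43209835611) (nat_lit 76) (nat_lit 41616018511) (nat_lit 2) (nat_lit 4) (nat_lit 3) (nat_lit 5) (nat_lit 3) (nat_lit 4) (nat_lit 400) (nat_lit 195) (nat_lit 185)) (XT.nd (nat_lit 78) (nat_lit 0) (nat_lit 0) (XT.lf (nat_lit 0) (nat_lit 5065849191) (nat_lit 76) (nat_lit 42671016621) (nat_lit 76) (nat_lit 40942219450) (nat_lit 2) (nat_lit 4) (nat_lit 3) (nat_lit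 5) (nat_lit 3) (nat_lit 4) (nat_lit 401) (nat_lit 195) (nat_lit 184)) (XT.lf (nat_lit 0) (nat_lit 8848583350) (nat_lit 76) (nat_lit 42144577084) (nat_lit 76) (nat_lit 40284731300) (nat_lit 2) (nat_lit 4) (nat_lit 3) (nat_lit 5) (nat_lit 3) (nat_lit 4) (nat_lit 402) (nat_lit 195) (nat_lit 183)))) (XT.nd (nat_lit 78) (nat_lit 0) (nat_lit 0) (XT.lf (nat_lit 0) (nat_lit 12682679201) (nat_lit 76) (nat_lit 41630057004) (nat_lit 76) (nat_lit 39642979557) (nat_lit 2) (nat_lit 4) (nat_lit 3) (nat_lit 5) (nat_lit 3) (nat_lit 4) (nat_lit 403) (nat_lit 195) (nat_lit 182)) (XT.nd (nat_lit 39390) (nat_lit 0) (nat_lit 76) (XT.lf (nat_lit 0) (nat_lit 16571486926) (nat_lit 76) (nat_lit 41127006801) (nat_lit 76) (nat_lit 39016403468) (nat_lit 2) (nat_lit 4) (nat_lit 3) (nat_lit 5) (nat_lit 3) (nat_lit 4) (nat_lit 404) (nat_lit 195) (nat_lit 181)) (XT.lf (nat_lit 0) (nat_lit 5269169477) (nat_lit 152) (nat_lit 20024397179)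 (nat_lit 0) (nat_lit 5269169477) (nat_lit 3) (nat_lit 5) (nat_lit 5) (nat_lit 4) (nat_lit 3) (nat_lit 4) (nat_lit 388) (nat_lit 196) (nat_lit 196))))) (XT.nd (nat_lit 234) (nat_lit 0) (nat_lit 0) (XT.nd (nat_lit 78) (nat_lit 0) (nat_lit 0) (XT.lf (nat_lit 0) (nat_lit 13156865993) (nat_lit 152) (nat_lit 36755944351) (nat_lit 0) (nat_lit 12970022007) (nat_lit 3) (nat_lit 5) (nat_lit 5) (nat_lit 4) (nat_lit 3) (nat_lit 4) (nat_lit 389) (nat_lit 196) (nat_lit 195)) (XT.nd (nat_lit 78) (nat_lit 0) (nat_lit 0) (XT.lf (nat_lit 0) (nat_lit 15805743083) (nat_lit 152) (nat_lit 33451149288) (nat_lit 0) (nat_lit 15437497169) (nat_lit 3) (nat_lit 5) (nat_lit 5) (nat_lit 4) (nat_lit 3) (nat_lit 4) (nat_lit 390) (nat_lit 196) (nat_lit 194)) (XT.lf (nat_lit 0) (nat_lit 18487284778) (nat_lit 152) (nat_lit 30131521484) (nat_lit 0) (nat_lit 17942920487) (nat_lit 3) (nat_lit 5) (nat_lit 5) (nat_lit 4) (nat_lit 3)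 (nat_lit 4) (nat_lit 391) (nat_lit 196) (nat_lit 193)))) (XT.nd (nat_lit 78) (nat_lit 0) (nat_lit 0) (XT.lf (nat_lit 0) (nat_lit 21203834171) (nat_lit 152) (nat_lit 26794160294) (nat_lit 0) (nat_lit 20488481164) (nat_lit 3) (nat_lit 5) (nat_lit 5) (nat_lit 4) (nat_lit 3) (nat_lit 4) (nat_lit 392) (nat_lit 196) (nat_lit 192)) (XT.nd (nat_lit 78) (nat_lit 0) (nat_lit 0) (XT.lf (nat_lit 0) (nat_lit 23957764947) (nat_lit 152) (nat_lit 23436149576) (nat_lit 0) (nat_lit 23076403478) (nat_lit 3) (nat_lit 5) (nat_lit 5) (nat_lit 4) (nat_lit 3) (nat_lit 4) (nat_lit 393) (nat_lit 196) (nat_lit 191)) (XT.lf (nat_lit 0) (nat_lit 26751483453) (nat_lit 152) (nat_lit 20054555147) (nat_lit 0) (nat_lit 25708948720) (nat_lit 3) (nat_lit 5) (nat_lit 5) (nat_lit 4) (nat_lit 3) (nat_lit 4) (nat_lit 394) (nat_lit 196) (nat_lit 190))))))) (XT.nd (nat_lit 40092) (nat_lit 0) (nat_lit 76) (XT.nd (nat_lit 468) (nat_lit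 0) (nat_lit 0) (XT.nd (nat_lit 234) (nat_lit 76) (nat_lit 0) (XT.nd (nat_lit 78) (nat_lit 0) (nat_lit 0) (XT.lf (nat_lit 0) (nat_lit 29587430801) (nat_lit 152) (nat_lit 16646422215) (nat_lit 0) (nat_lit 28388417172) (nat_lit 3) (nat_lit 5) (nat_lit 5) (nat_lit 4) (nat_lit 3) (nat_lit 4) (nat_lit 395) (nat_lit 196) (nat_lit 189)) (XT.nd (nat_lit 78) (nat_lit 0) (nat_lit 0) (XT.lf (nat_lit 0) (nat_lit 32468085006) (nat_lit 152) (nat_lit 13208772801) (nat_lit 0) (nat_lit 31117150118) (nat_lit 3) (nat_lit 5) (nat_lit 5) (nat_lit 4) (nat_lit 3) (nat_lit 4) (nat_lit 396) (nat_lit 196) (nat_lit 188)) (XT.lf (nat_lit 0) (nat_lit 35395963142) (nat_lit 152) (nat_lit 9738603132) (nat_lit 0) (nat_lit 33897531886) (nat_lit 3) (nat_lit 5) (nat_lit 5) (nat_lit 4) (nat_lit 3) (nat_lit 4) (nat_lit 397) (nat_lit 196) (nat_lit 187)))) (XT.nd (nat_lit 78) (nat_lit 76) (nat_lit 0) (XT.lf (nat_lit 0) (nat_lit 38373623551)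 (nat_lit 152) (nat_lit 6232881021) (nat_lit 0) (nat_lit 36731991937) (nat_lit 3) (nat_lit 5) (nat_lit 5) (nat_lit 4) (nat_lit 3) (nat_lit 4) (nat_lit 398) (nat_lit 196) (nat_lit 186)) (XT.nd (nat_lit 78) (nat_lit 76) (nat_lit 0) (XT.lf (nat_lit 0) (nat_lit 41403668070) (nat_lit 152) (nat_lit 2688543218) (nat_lit 0) (nat_lit 39623006984) (nat_lit 3) (nat_lit 5) (nat_lit 5) (nat_lit 4) (nat_lit 3) (nat_lit 4) (nat_lit 399) (nat_lit 196) (nat_lit 185)) (XT.lf (nat_lit 0) (nat_lit 915369428) (nat_lit 76) (nat_lit 43582173975) (nat_lit 76) (nat_lit 41666532818) (nat_lit 2) (nat_lit 4) (nat_lit 3) (nat_lit 5) (nat_lit 3) (nat_lit 4) (nat_lit 400) (nat_lit 196) (nat_lit 184))))) (XT.nd (nat_lit 234) (nat_lit 0) (nat_lit 0) (XT.nd (nat_lit 78) (nat_lit 0) (nat_lit 0) (XT.lf (nat_lit 0) (nat_lit 4618528012) (nat_lit 76) (nat_lit 43057416080) (nat_lit 76) (nat_lit 41010726310) (nat_lit 2) (nat_lit 4) (nat_lit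 3) (nat_lit 5) (nat_lit 3) (nat_lit 4) (nat_lit 401) (nat_lit 196) (nat_lit 183)) (XT.nd (nat_lit 78) (nat_lit 0) (nat_lit 0) (XT.lf (nat_lit 0) (nat_lit 8370661021) (nat_lit 76) (nat_lit 42544628092) (nat_lit 76) (nat_lit 40370706659) (nat_lit 2) (nat_lit 4) (nat_lit 3) (nat_lit 5) (nat_lit 3) (nat_lit 4) (nat_lit 402) (nat_lit 196) (nat_lit 182)) (XT.lf (nat_lit 0) (nat_lit 12175047019) (nat_lit 76) (nat_lit 42043361942) (nat_lit 76) (nat_lit 39745914623) (nat_lit 2) (nat_lit 4) (nat_lit 3) (nat_lit 5) (nat_lit 3) (nat_lit 4) (nat_lit 403) (nat_lit 196) (nat_lit 181)))) (XT.nd (nat_lit 39234) (nat_lit 0) (nat_lit 76) (XT.lf (nat_lit 0) (nat_lit 16035010226) (nat_lit 76) (nat_lit 41553179632) (nat_lit 76) (nat_lit 39135804269) (nat_lit 2) (nat_lit 4) (nat_lit 3) (nat_lit 5) (nat_lit 3) (nat_lit 4) (nat_lit 404) (nat_lit 196) (nat_lit 180)) (XT.nd (nat_lit 78) (nat_lit 0) (nat_lit 0) (XT.lf (nat_lit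 0) (nat_lit 2800424787) (nat_lit 152) (nat_lit 23282388257) (nat_lit 0) (nat_lit 2800424787) (nat_lit 3) (nat_lit 5) (nat_lit 5) (nat_lit 4) (nat_lit 3) (nat_lit 4) (nat_lit 386) (nat_lit 197) (nat_lit 197)) (XT.lf (nat_lit 0) (nat_lit 8140323239) (nat_lit 152) (nat_lit 43332576558) (nat_lit 0) (nat_lit 7947873933) (nat_lit 3) (nat_lit 5) (nat_lit 5) (nat_lit 4) (nat_lit 3) (nat_lit 4) (nat_lit 387) (nat_lit 197) (nat_lit 196)))))) (XT.nd (nat_lit 468) (nat_lit 0) (nat_lit 0) (XT.nd (nat_lit 234) (nat_lit 0) (nat_lit 0) (XT.nd (nat_lit 78) (nat_lit 0) (nat_lit 0) (XT.lf (nat_lit 0) (nat_lit 10706329180) (nat_lit 152) (nat_lit 40092856259) (nat_lit 0) (nat_lit 10327035888) (nat_lit 3) (nat_lit 5) (nat_lit 5) (nat_lit 4) (nat_lit 3) (nat_lit 4) (nat_lit 388) (nat_lit 197) (nat_lit 195)) (XT.nd (nat_lit 78) (nat_lit 0) (nat_lit 0) (XT.lf (nat_lit 0) (nat_lit 13301109539) (nat_lit 152) (nat_lit 36842784796)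 (nat_lit 0) (nat_lit 12740414319) (nat_lit 3) (nat_lit 5) (nat_lit 5) (nat_lit 4) (nat_lit 3) (nat_lit 4) (nat_lit 389) (nat_lit 197) (nat_lit 194)) (XT.lf (nat_lit 0) (nat_lit 15926931600) (nat_lit 152) (nat_lit 33579522300) (nat_lit 0) (nat_lit 15190118003) (nat_lit 3) (nat_lit 5) (nat_lit 5) (nat_lit 4) (nat_lit 3) (nat_lit 4) (nat_lit 390) (nat_lit 197) (nat_lit 193)))) (XT.nd (nat_lit 78) (nat_lit 0) (nat_lit 0) (XT.lf (nat_lit 0) (nat_lit 18586089772) (nat_lit 152) (nat_lit 30300217376) (nat_lit 0) (nat_lit 17678287459) (nat_lit 3) (nat_lit 5) (nat_lit 5) (nat_lit 4) (nat_lit 3) (nat_lit 4) (nat_lit 391) (nat_lit 197) (nat_lit 192)) (XT.nd (nat_lit 78) (nat_lit 0) (nat_lit 0) (XT.lf (nat_lit 0) (nat_lit 21280907589) (nat_lit 152) (nat_lit 27002004614) (nat_lit 0) (nat_lit 20207096815) (nat_lit 3) (nat_lit 5) (nat_lit 5) (nat_lit 4) (nat_lit 3) (nat_lit 4) (nat_lit 392) (nat_lit 197) (nat_lit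 191)) (XT.lf (nat_lit 0) (nat_lit 24013739747) (nat_lit 152) (nat_lit 23682002078) (nat_lit 0) (nat_lit 22778755709) (nat_lit 3) (nat_lit 5) (nat_lit 5) (nat_lit 4) (nat_lit 3) (nat_lit 4) (nat_lit 393) (nat_lit 197) (nat_lit 190))))) (XT.nd (nat_lit 234) (nat_lit 0) (nat_lit 0) (XT.nd (nat_lit 78) (nat_lit 0) (nat_lit 0) (XT.lf (nat_lit 0) (nat_lit 26786974158) (nat_lit 152) (nat_lit 20337308797) (nat_lit 0) (nat_lit 25395511224) (nat_lit 3) (nat_lit 5) (nat_lit 5) (nat_lit 4) (nat_lit 3) (nat_lit 4) (nat_lit 394) (nat_lit 197) (nat_lit 189)) (XT.nd (nat_lit 78) (nat_lit 0) (nat_lit 0) (XT.lf (nat_lit 0) (nat_lit 29603034037) (nat_lit 152) (nat_lit 16965002222) (nat_lit 0) (nat_lit 28059649843) (nat_lit 3) (nat_lit 5) (nat_lit 5) (nat_lit 4) (nat_lit 3) (nat_lit 4) (nat_lit 395) (nat_lit 197) (nat_lit 188)) (XT.lf (nat_lit 0) (nat_lit 32464380017) (nat_lit 152) (nat_lit 13562135679) (nat_lit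 0) (nat_lit 30773499456) (nat_lit 3) (nat_lit 5) (nat_lit 5) (nat_lit 4) (nat_lit 3) (nat_lit 4) (nat_lit 396) (nat_lit 197) (nat_lit 187)))) (XT.nd (nat_lit 78) (nat_lit 0) (nat_lit 0) (XT.lf (nat_lit 0) (nat_lit 35373512305) (nat_lit 152) (nat_lit 10125735788) (nat_lit 0) (nat_lit 33539431386) (nat_lit 3) (nat_lit 5) (nat_lit 5) (nat_lit 4) (nat_lit 3) (nat_lit 4) (nat_lit 397) (nat_lit 197) (nat_lit 186)) (XT.nd (nat_lit 78) (nat_lit 0) (nat_lit 0) (XT.lf (nat_lit 0) (nat_lit 38332972861) (nat_lit 152) (nat_lit 6652799869) (nat_lit 0) (nat_lit 36359862469) (nat_lit 3) (nat_lit 5) (nat_lit 5) (nat_lit 4) (nat_lit 3) (nat_lit 4) (nat_lit 398) (nat_lit 197) (nat_lit 185)) (XT.lf (nat_lit 0) (nat_lit 41345347621) (nat_lit 152) (nat_lit 3140293320) (nat_lit 0) (nat_lit 39237257158) (nat_lit 3) (nat_lit 5) (nat_lit 5) (nat_lit 4) (nat_lit 3) (nat_lit 4) (nat_lit 399) (nat_lit 197) (nat_lit 184))))))))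
noncomputable def xc2 : XT := (XT.nd (nat_lit 40794) (nat_lit 0) (nat_lit 0) (XT.nd (nat_lit 39858) (nat_lit 0) (nat_lit 0) (XT.nd (nat_lit 39390) (nat_lit 0) (nat_lit 76) (XT.nd (nat_lit 156) (nat_lit 0) (nat_lit 0) (XT.nd (nat_lit 78) (nat_lit 0) (nat_lit 0) (XT.lf (nat_lit 0) (nat_lit 423109430) (nat_lit 76) (nat_lit 43994226513) (nat_lit 76) (nat_lit 41755087438) (nat_lit 2) (nat_lit 4) (nat_lit 3) (nat_lit 5) (nat_lit 3) (nat_lit 4) (nat_lit 400) (nat_lit 197) (nat_lit 183)) (XT.lf (nat_lit 0) (nat_lit 4095666865) (nat_lit 76) (nat_lit 43483120167) (nat_lit 76) (nat_lit 41116749428) (nat_lit 2) (nat_lit 4) (nat_lit 3) (nat_lit 5) (nat_lit 3) (nat_lit 4) (nat_lit 401) (nat_lit 197) (nat_lit 182))) (XT.nd (nat_lit 78) (nat_lit 0) (nat_lit 0) (XT.lf (nat_lit 0) (nat_lit 7818090021) (nat_lit 76) (nat_lit 42983586109) (nat_lit 76) (nat_lit 40493689484) (nat_lit 2) (nat_lit 4) (nat_lit 3) (nat_lit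 5) (nat_lit 3) (nat_lit 4) (nat_lit 402) (nat_lit 197) (nat_lit 181)) (XT.nd (nat_lit 78) (nat_lit 0) (nat_lit 0) (XT.lf (nat_lit 0) (nat_lit 11593631501) (nat_lit 76) (nat_lit 42495187853) (nat_lit 76) (nat_lit 39885363183) (nat_lit 2) (nat_lit 4) (nat_lit 3) (nat_lit 5) (nat_lit 3) (nat_lit 4) (nat_lit 403) (nat_lit 197) (nat_lit 180)) (XT.lf (nat_lit 0) (nat_lit 15425590323) (nat_lit 76) (nat_lit 42017498643) (nat_lit 76) (nat_lit 39291238979) (nat_lit 2) (nat_lit 4) (nat_lit 3) (nat_lit 5) (nat_lit 3) (nat_lit 4) (nat_lit 404) (nat_lit 197) (nat_lit 179))))) (XT.nd (nat_lit 234) (nat_lit 0) (nat_lit 0) (XT.nd (nat_lit 78) (nat_lit 0) (nat_lit 0) (XT.lf (nat_lit 0) (nat_lit 408407958) (nat_lit 152) (nat_lit 26485581522) (nat_lit 0) (nat_lit 408407958) (nat_lit 3) (nat_lit 5) (nat_lit 5) (nat_lit 4) (nat_lit 3) (nat_lit 4) (nat_lit 384) (nat_lit 198) (nat_lit 198)) (XT.nd (nat_lit 78) (nat_lit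 0) (nat_lit 0) (XT.lf (nat_lit 0) (nat_lit 3283912015) (nat_lit 152) (nat_lit 49792280385) (nat_lit 0) (nat_lit 3085689230) (nat_lit 3) (nat_lit 5) (nat_lit 5) (nat_lit 4) (nat_lit 3) (nat_lit 4) (nat_lit 385) (nat_lit 198) (nat_lit 197)) (XT.lf (nat_lit 0) (nat_lit 5773879507) (nat_lit 152) (nat_lit 46610160273) (nat_lit 0) (nat_lit 5383207416) (nat_lit 3) (nat_lit 5) (nat_lit 5) (nat_lit 4) (nat_lit 3) (nat_lit 4) (nat_lit 386) (nat_lit 198) (nat_lit 196)))) (XT.nd (nat_lit 78) (nat_lit 0) (nat_lit 0) (XT.lf (nat_lit 0) (nat_lit 8288894091) (nat_lit 152) (nat_lit 43422022215) (nat_lit 0) (nat_lit 7711378014) (nat_lit 3) (nat_lit 5) (nat_lit 5) (nat_lit 4) (nat_lit 3) (nat_lit 4) (nat_lit 387) (nat_lit 198) (nat_lit 195)) (XT.nd (nat_lit 78) (nat_lit 0) (nat_lit 0) (XT.lf (nat_lit 0) (nat_lit 10831153352) (nat_lit 152) (nat_lit 40225080461) (nat_lit 0) (nat_lit 10072235347) (nat_lit 3) (nat_lit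 5) (nat_lit 5) (nat_lit 4) (nat_lit 3) (nat_lit 4) (nat_lit 388) (nat_lit 198) (nat_lit 194)) (XT.lf (nat_lit 0) (nat_lit 13402878682) (nat_lit 152) (nat_lit 37016541564) (nat_lit 0) (nat_lit 12467842300) (nat_lit 3) (nat_lit 5) (nat_lit 5) (nat_lit 4) (nat_lit 3) (nat_lit 4) (nat_lit 389) (nat_lit 198) (nat_lit 193)))))) (XT.nd (nat_lit 468) (nat_lit 76) (nat_lit 0) (XT.nd (nat_lit 234) (nat_lit 0) (nat_lit 0) (XT.nd (nat_lit 78) (nat_lit 0) (nat_lit 0) (XT.lf (nat_lit 0) (nat_lit 16006317221) (nat_lit 152) (nat_lit 33793601949) (nat_lit 0) (nat_lit 14900292123) (nat_lit 3) (nat_lit 5) (nat_lit 5) (nat_lit 4) (nat_lit 3) (nat_lit 4) (nat_lit 390) (nat_lit 198) (nat_lit 192)) (XT.nd (nat_lit 78) (nat_lit 0) (nat_lit 0) (XT.lf (nat_lit 0) (nat_lit 18643743816) (nat_lit 152) (nat_lit 30553445453) (nat_lit 0) (nat_lit 17371710257) (nat_lit 3) (nat_lit 5) (nat_lit 5) (nat_lit 4) (nat_lit 3) (nat_lit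 4) (nat_lit 391) (nat_lit 198) (nat_lit 191)) (XT.lf (nat_lit 0) (nat_lit 21317463016) (nat_lit 152) (nat_lit 27293240873) (nat_lit 0) (nat_lit 19884256193) (nat_lit 3) (nat_lit 5) (nat_lit 5) (nat_lit 4) (nat_lit 3) (nat_lit 4) (nat_lit 392) (nat_lit 198) (nat_lit 190)))) (XT.nd (nat_lit 78) (nat_lit 0) (nat_lit 0) (XT.lf (nat_lit 0) (nat_lit 24029811080) (nat_lit 152) (nat_lit 24010139486) (nat_lit 0) (nat_lit 22440125360) (nat_lit 3) (nat_lit 5) (nat_lit 5) (nat_lit 4) (nat_lit 3) (nat_lit 4) (nat_lit 393) (nat_lit 198) (nat_lit 189)) (XT.nd (nat_lit 78) (nat_lit 0) (nat_lit 0) (XT.lf (nat_lit 0) (nat_lit 26783158020) (nat_lit 152) (nat_lit 20701272562) (nat_lit 0) (nat_lit 25041551042) (nat_lit 3) (nat_lit 5) (nat_lit 5) (nat_lit 4) (nat_lit 3) (nat_lit 4) (nat_lit 394) (nat_lit 198) (nat_lit 188)) (XT.lf (nat_lit 0) (nat_lit 29579909675) (nat_lit 152) (nat_lit 17363748858) (nat_lit 0) (nat_lit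 27690806328) (nat_lit 3) (nat_lit 5) (nat_lit 5) (nat_lit 4) (nat_lit 3) (nat_lit 4) (nat_lit 395) (nat_lit 198) (nat_lit 187))))) (XT.nd (nat_lit 234) (nat_lit 76) (nat_lit 0) (XT.nd (nat_lit 78) (nat_lit 0) (nat_lit 0) (XT.lf (nat_lit 0) (nat_lit 32422509807) (nat_lit 152) (nat_lit 13994652092) (nat_lit 0) (nat_lit 30390206103) (nat_lit 3) (nat_lit 5) (nat_lit 5) (nat_lit 4) (nat_lit 3) (nat_lit 4) (nat_lit 396) (nat_lit 198) (nat_lit 186)) (XT.nd (nat_lit 78) (nat_lit 0) (nat_lit 0) (XT.lf (nat_lit 0) (nat_lit 35313442243) (nat_lit 152) (nat_lit 10591038393) (nat_lit 0) (nat_lit 33142109066) (nat_lit 3) (nat_lit 5) (nat_lit 5) (nat_lit 4) (nat_lit 3) (nat_lit 4) (nat_lit 397) (nat_lit 198) (nat_lit 185)) (XT.lf (nat_lit 0) (nat_lit 38255233038) (nat_lit 152) (nat_lit 7149933729) (nat_lit 0) (nat_lit 35948919790) (nat_lit 3) (nat_lit 5) (nat_lit 5) (nat_lit 4) (nat_lit 3) (nat_lit 4) (nat_lit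 398) (nat_lit 198) (nat_lit 184)))) (XT.nd (nat_lit 78) (nat_lit 76) (nat_lit 0) (XT.lf (nat_lit 0) (nat_lit 41250452691) (nat_lit 152) (nat_lit 3668331310) (nat_lit 0) (nat_lit 38813090831) (nat_lit 3) (nat_lit 5) (nat_lit 5) (nat_lit 4) (nat_lit 3) (nat_lit 4) (nat_lit 399) (nat_lit 198) (nat_lit 183)) (XT.nd (nat_lit 78) (nat_lit 76) (nat_lit 0) (XT.lf (nat_lit 0) (nat_lit 44301718384) (nat_lit 152) (nat_lit 143188959) (nat_lit 0) (nat_lit 41737124861) (nat_lit 3) (nat_lit 5) (nat_lit 5) (nat_lit 4) (nat_lit 3) (nat_lit 4) (nat_lit 400) (nat_lit 198) (nat_lit 182)) (XT.lf (nat_lit 0) (nat_lit 3496808881) (nat_lit 76) (nat_lit 43948500855) (nat_lit 76) (nat_lit 41260381445) (nat_lit 2) (nat_lit 4) (nat_lit 3) (nat_lit 5) (nat_lit 3) (nat_lit 4) (nat_lit 401) (nat_lit 198) (nat_lit 181))))))) (XT.nd (nat_lit 39702) (nat_lit 0) (nat_lit 0) (XT.nd (nat_lit 39234) (nat_lit 0) (nat_lit 76) (XT.nd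 (nat_lit 156) (nat_lit 0) (nat_lit 0) (XT.nd (nat_lit 78) (nat_lit 0) (nat_lit 0) (XT.lf (nat_lit 0) (nat_lit 7190387520) (nat_lit 76) (nat_lit 43461834690) (nat_lit 76) (nat_lit 40653787236) (nat_lit 2) (nat_lit 4) (nat_lit 3) (nat_lit 5) (nat_lit 3) (nat_lit 4) (nat_lit 402) (nat_lit 198) (nat_lit 180)) (XT.lf (nat_lit 0) (nat_lit 10937924615) (nat_lit 76) (nat_lit 42985929535) (nat_lit 76) (nat_lit 40061447086) (nat_lit 2) (nat_lit 4) (nat_lit 3) (nat_lit 5) (nat_lit 3) (nat_lit 4) (nat_lit 403) (nat_lit 198) (nat_lit 179))) (XT.nd (nat_lit 38922) (nat_lit 0) (nat_lit 228) (XT.lf (nat_lit 0) (nat_lit 14742694711) (nat_lit 76) (nat_lit 42520369549) (nat_lit 76) (nat_lit 39482843416) (nat_lit 2) (nat_lit 4) (nat_lit 3) (nat_lit 5) (nat_lit 3) (nat_lit 4) (nat_lit 404) (nat_lit 198) (nat_lit 178)) (XT.nd (nat_lit 78) (nat_lit 0) (nat_lit 0) (XT.lf (nat_lit 0) (nat_lit 22023445049) (nat_lit 76)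 (nat_lit 1894477942) (nat_lit 76) (nat_lit 1894477942) (nat_lit 5) (nat_lit 4) (nat_lit 6) (nat_lit 5) (nat_lit 6) (nat_lit 4) (nat_lit 382) (nat_lit 199) (nat_lit 199)) (XT.lf (nat_lit 0) (nat_lit 50067846549) (nat_lit 76) (nat_lit 1617651755) (nat_lit 76) (nat_lit 1407357203) (nat_lit 5) (nat_lit 4) (nat_lit 6) (nat_lit 5) (nat_lit 6) (nat_lit 4) (nat_lit 383) (nat_lit 199) (nat_lit 198))))) (XT.nd (nat_lit 234) (nat_lit 0) (nat_lit 0) (XT.nd (nat_lit 78) (nat_lit 0) (nat_lit 0) (XT.lf (nat_lit 0) (nat_lit 995036746) (nat_lit 152) (nat_lit 53017908314) (nat_lit 0) (nat_lit 592644493) (nat_lit 3) (nat_lit 5) (nat_lit 5) (nat_lit 4) (nat_lit 3) (nat_lit 4) (nat_lit 384) (nat_lit 199) (nat_lit 197)) (XT.nd (nat_lit 78) (nat_lit 0) (nat_lit 0) (XT.lf (nat_lit 0) (nat_lit 3436939993) (nat_lit 152) (nat_lit 49884409412) (nat_lit 0) (nat_lit 2842098434) (nat_lit 3) (nat_lit 5) (nat_lit 5) (nat_lit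 4) (nat_lit 3) (nat_lit 4) (nat_lit 385) (nat_lit 199) (nat_lit 196)) (XT.lf (nat_lit 0) (nat_lit 5902448405) (nat_lit 152) (nat_lit 46746351201) (nat_lit 0) (nat_lit 5120762859) (nat_lit 3) (nat_lit 5) (nat_lit 5) (nat_lit 4) (nat_lit 3) (nat_lit 4) (nat_lit 386) (nat_lit 199) (nat_lit 195)))) (XT.nd (nat_lit 78) (nat_lit 0) (nat_lit 0) (XT.lf (nat_lit 0) (nat_lit 8393716308) (nat_lit 152) (nat_lit 43600991687) (nat_lit 0) (nat_lit 7430628835) (nat_lit 3) (nat_lit 5) (nat_lit 5) (nat_lit 4) (nat_lit 3) (nat_lit 4) (nat_lit 387) (nat_lit 199) (nat_lit 194)) (XT.nd (nat_lit 78) (nat_lit 0) (nat_lit 0) (XT.lf (nat_lit 0) (nat_lit 10912920541) (nat_lit 152) (nat_lit 40445582500) (nat_lit 0) (nat_lit 9773714691) (nat_lit 3) (nat_lit 5) (nat_lit 5) (nat_lit 4) (nat_lit 3) (nat_lit 4) (nat_lit 388) (nat_lit 199) (nat_lit 193)) (XT.lf (nat_lit 0) (nat_lit 13462262348) (nat_lit 152) (nat_lit 37277366484)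 (nat_lit 0) (nat_lit 12152067782) (nat_lit 3) (nat_lit 5) (nat_lit 5) (nat_lit 4) (nat_lit 3) (nat_lit 4) (nat_lit 389) (nat_lit 199) (nat_lit 192)))))) (XT.nd (nat_lit 468) (nat_lit 76) (nat_lit 0) (XT.nd (nat_lit 234) (nat_lit 0) (nat_lit 0) (XT.nd (nat_lit 78) (nat_lit 0) (nat_lit 0) (XT.lf (nat_lit 0) (nat_lit 16043969310) (nat_lit 152) (nat_lit 34093575296) (nat_lit 0) (nat_lit 14567766283) (nat_lit 3) (nat_lit 5) (nat_lit 5) (nat_lit 4) (nat_lit 3) (nat_lit 4) (nat_lit 390) (nat_lit 199) (nat_lit 191)) (XT.nd (nat_lit 78) (nat_lit 0) (nat_lit 0) (XT.lf (nat_lit 0) (nat_lit 18660297288) (nat_lit 152) (nat_lit 30891426983) (nat_lit 0) (nat_lit 17022920997) (nat_lit 3) (nat_lit 5) (nat_lit 5) (nat_lit 4) (nat_lit 3) (nat_lit 4) (nat_lit 391) (nat_lit 199) (nat_lit 190)) (XT.lf (nat_lit 0) (nat_lit 21313532393) (nat_lit 152) (nat_lit 27668123551) (nat_lit 0) (nat_lit 19519677205) (nat_lit 3)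 (nat_lit 5) (nat_lit 5) (nat_lit 4) (nat_lit 3) (nat_lit 4) (nat_lit 392) (nat_lit 199) (nat_lit 189)))) (XT.nd (nat_lit 78) (nat_lit 0) (nat_lit 0) (XT.lf (nat_lit 0) (nat_lit 24005992987) (nat_lit 152) (nat_lit 24420848520) (nat_lit 0) (nat_lit 22060216540) (nat_lit 3) (nat_lit 5) (nat_lit 5) (nat_lit 4) (nat_lit 3) (nat_lit 4) (nat_lit 393) (nat_lit 199) (nat_lit 188)) (XT.nd (nat_lit 78) (nat_lit 0) (nat_lit 0) (XT.lf (nat_lit 0) (nat_lit 26740031704) (nat_lit 152) (nat_lit 21146764467) (nat_lit 0) (nat_lit 24646758889) (nat_lit 3) (nat_lit 5) (nat_lit 5) (nat_lit 4) (nat_lit 3) (nat_lit 4) (nat_lit 394) (nat_lit 199) (nat_lit 187)) (XT.lf (nat_lit 0) (nat_lit 29518037510) (nat_lit 152) (nat_lit 17843010542) (nat_lit 0) (nat_lit 27281564338) (nat_lit 3) (nat_lit 5) (nat_lit 5) (nat_lit 4) (nat_lit 3) (nat_lit 4) (nat_lit 395) (nat_lit 199) (nat_lit 186))))) (XT.nd (nat_lit 234) (nat_lit 76)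 (nat_lit 0) (XT.nd (nat_lit 78) (nat_lit 0) (nat_lit 0) (XT.lf (nat_lit 0) (nat_lit 32342437790) (nat_lit 152) (nat_lit 14506699968) (nat_lit 0) (nat_lit 29966935144) (nat_lit 3) (nat_lit 5) (nat_lit 5) (nat_lit 4) (nat_lit 3) (nat_lit 4) (nat_lit 396) (nat_lit 199) (nat_lit 185)) (XT.nd (nat_lit 78) (nat_lit 0) (nat_lit 0) (XT.lf (nat_lit 0) (nat_lit 35215700465) (nat_lit 152) (nat_lit 11134917523) (nat_lit 0) (nat_lit 32705217749) (nat_lit 3) (nat_lit 5) (nat_lit 5) (nat_lit 4) (nat_lit 3) (nat_lit 4) (nat_lit 397) (nat_lit 199) (nat_lit 184)) (XT.lf (nat_lit 0) (nat_lit 38140336154) (nat_lit 152) (nat_lit 7724716989) (nat_lit 0) (nat_lit 35498804825) (nat_lit 3) (nat_lit 5) (nat_lit 5) (nat_lit 4) (nat_lit 3) (nat_lit 4) (nat_lit 398) (nat_lit 199) (nat_lit 183)))) (XT.nd (nat_lit 78) (nat_lit 76) (nat_lit 0) (XT.lf (nat_lit 0) (nat_lit 41118900364) (nat_lit 152) (nat_lit 4273118580) (nat_lit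 0) (nat_lit 38350137372) (nat_lit 3) (nat_lit 5) (nat_lit 5) (nat_lit 4) (nat_lit 3) (nat_lit 4) (nat_lit 399) (nat_lit 199) (nat_lit 182)) (XT.nd (nat_lit 78) (nat_lit 76) (nat_lit 0) (XT.lf (nat_lit 0) (nat_lit 44153995723) (nat_lit 152) (nat_lit 777106336) (nat_lit 0) (nat_lit 41261706845) (nat_lit 3) (nat_lit 5) (nat_lit 5) (nat_lit 4) (nat_lit 3) (nat_lit 4) (nat_lit 400) (nat_lit 199) (nat_lit 181)) (XT.lf (nat_lit 0) (nat_lit 2821430788) (nat_lit 76) (nat_lit 44453964787) (nat_lit 76) (nat_lit 41441747864) (nat_lit 2) (nat_lit 4) (nat_lit 3) (nat_lit 5) (nat_lit 3) (nat_lit 4) (nat_lit 401) (nat_lit 199) (nat_lit 180))))))))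
noncomputable def xc3 : XT := (XT.nd (nat_lit 40482) (nat_lit 0) (nat_lit 0) (XT.nd (nat_lit 39546) (nat_lit 0) (nat_lit 76) (XT.nd (nat_lit 39078) (nat_lit 0) (nat_lit 76) (XT.nd (nat_lit 156) (nat_lit 0) (nat_lit 0) (XT.nd (nat_lit 78) (nat_lit 0) (nat_lit 0) (XT.lf (nat_lit 0) (nat_lit 6487005041) (nat_lit 76) (nat_lit 43979791723) (nat_lit 76) (nat_lit 40851139806) (nat_lit 2) (nat_lit 4) (nat_lit 3) (nat_lit 5) (nat_lit 3) (nat_lit 4) (nat_lit 402) (nat_lit 199) (nat_lit 179)) (XT.lf (nat_lit 0) (nat_lit 10207353411) (nat_lit 76) (nat_lit 43516015792) (nat_lit 76) (nat_lit 40274320190) (nat_lit 2) (nat_lit 4) (nat_lit 3) (nat_lit 5) (nat_lit 3) (nat_lit 4) (nat_lit 403) (nat_lit 199) (nat_lit 178))) (XT.nd (nat_lit 38766) (nat_lit 0) (nat_lit 228) (XT.lf (nat_lit 0) (nat_lit 13985726688) (nat_lit 76) (nat_lit 43062231752) (nat_lit 76) (nat_lit 39710785000) (nat_lit 2) (nat_lit 4) (nat_lit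 3) (nat_lit 5) (nat_lit 3) (nat_lit 4) (nat_lit 404) (nat_lit 199) (nat_lit 177)) (XT.nd (nat_lit 78) (nat_lit 0) (nat_lit 0) (XT.lf (nat_lit 0) (nat_lit 16150465532) (nat_lit 76) (nat_lit 4129664641) (nat_lit 76) (nat_lit 4129664641) (nat_lit 5) (nat_lit 4) (nat_lit 6) (nat_lit 5) (nat_lit 6) (nat_lit 4) (nat_lit 380) (nat_lit 200) (nat_lit 200)) (XT.lf (nat_lit 0) (nat_lit 38110495237) (nat_lit 76) (nat_lit 6153587171) (nat_lit 76) (nat_lit 5936983782) (nat_lit 5) (nat_lit 4) (nat_lit 6) (nat_lit 5) (nat_lit 6) (nat_lit 4) (nat_lit 381) (nat_lit 200) (nat_lit 199))))) (XT.nd (nat_lit 234) (nat_lit 0) (nat_lit 0) (XT.nd (nat_lit 78) (nat_lit 152) (nat_lit 0) (XT.lf (nat_lit 0) (nat_lit 44000816081) (nat_lit 76) (nat_lit 4025837404) (nat_lit 76) (nat_lit 3598939463) (nat_lit 5) (nat_lit 4) (nat_lit 6) (nat_lit 5) (nat_lit 6) (nat_lit 4) (nat_lit 382) (nat_lit 200) (nat_lit 198)) (XT.nd (nat_lit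 78) (nat_lit 152) (nat_lit 0) (XT.lf (nat_lit 0) (nat_lit 49977040476) (nat_lit 76) (nat_lit 1874220782) (nat_lit 76) (nat_lit 1243153372) (nat_lit 5) (nat_lit 4) (nat_lit 6) (nat_lit 5) (nat_lit 6) (nat_lit 4) (nat_lit 383) (nat_lit 200) (nat_lit 197)) (XT.lf (nat_lit 0) (nat_lit 1127462711) (nat_lit 152) (nat_lit 53158184970) (nat_lit 0) (nat_lit 322326599) (nat_lit 3) (nat_lit 5) (nat_lit 5) (nat_lit 4) (nat_lit 3) (nat_lit 4) (nat_lit 384) (nat_lit 200) (nat_lit 196)))) (XT.nd (nat_lit 78) (nat_lit 0) (nat_lit 0) (XT.lf (nat_lit 0) (nat_lit 3544906877) (nat_lit 152) (nat_lit 50068747968) (nat_lit 0) (nat_lit 2552926780) (nat_lit 3) (nat_lit 5) (nat_lit 5) (nat_lit 4) (nat_lit 3) (nat_lit 4) (nat_lit 385) (nat_lit 200) (nat_lit 195)) (XT.nd (nat_lit 78) (nat_lit 0) (nat_lit 0) (XT.lf (nat_lit 0) (nat_lit 5986668609) (nat_lit 152) (nat_lit 46973468301) (nat_lit 0) (nat_lit 4813286583) (nat_lit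 3) (nat_lit 5) (nat_lit 5) (nat_lit 4) (nat_lit 3) (nat_lit 4) (nat_lit 386) (nat_lit 200) (nat_lit 194)) (XT.lf (nat_lit 0) (nat_lit 8454881484) (nat_lit 152) (nat_lit 43869641354) (nat_lit 0) (nat_lit 7105381081) (nat_lit 3) (nat_lit 5) (nat_lit 5) (nat_lit 4) (nat_lit 3) (nat_lit 4) (nat_lit 387) (nat_lit 200) (nat_lit 193)))))) (XT.nd (nat_lit 468) (nat_lit 0) (nat_lit 0) (XT.nd (nat_lit 234) (nat_lit 0) (nat_lit 0) (XT.nd (nat_lit 78) (nat_lit 0) (nat_lit 0) (XT.lf (nat_lit 0) (nat_lit 10951702193) (nat_lit 152) (nat_lit 40754555047) (nat_lit 0) (nat_lit 9431213075) (nat_lit 3) (nat_lit 5) (nat_lit 5) (nat_lit 4) (nat_lit 3) (nat_lit 4) (nat_lit 388) (nat_lit 200) (nat_lit 192)) (XT.nd (nat_lit 78) (nat_lit 0) (nat_lit 0) (XT.lf (nat_lit 0) (nat_lit 13479312425) (nat_lit 152) (nat_lit 37625487460) (nat_lit 0) (nat_lit 11792814845) (nat_lit 3) (nat_lit 5) (nat_lit 5) (nat_lit 4) (nat_lit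 3) (nat_lit 4) (nat_lit 389) (nat_lit 200) (nat_lit 191)) (XT.lf (nat_lit 0) (nat_lit 16039920770) (nat_lit 152) (nat_lit 34479704454) (nat_lit 0) (nat_lit 14192249926) (nat_lit 3) (nat_lit 5) (nat_lit 5) (nat_lit 4) (nat_lit 3) (nat_lit 4) (nat_lit 390) (nat_lit 200) (nat_lit 190)))) (XT.nd (nat_lit 78) (nat_lit 0) (nat_lit 0) (XT.lf (nat_lit 0) (nat_lit 18635764653) (nat_lit 152) (nat_lit 31314457289) (nat_lit 0) (nat_lit 16631614912) (nat_lit 3) (nat_lit 5) (nat_lit 5) (nat_lit 4) (nat_lit 3) (nat_lit 4) (nat_lit 391) (nat_lit 200) (nat_lit 189)) (XT.nd (nat_lit 78) (nat_lit 0) (nat_lit 0) (XT.lf (nat_lit 0) (nat_lit 21269112288) (nat_lit 152) (nat_lit 28126980214) (nat_lit 0) (nat_lit 19113041288) (nat_lit 3) (nat_lit 5) (nat_lit 5) (nat_lit 4) (nat_lit 3) (nat_lit 4) (nat_lit 392) (nat_lit 200) (nat_lit 188)) (XT.lf (nat_lit 0) (nat_lit 23942264657) (nat_lit 152) (nat_lit 24914488054) (nat_lit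 0) (nat_lit 21638697290) (nat_lit 3) (nat_lit 5) (nat_lit 5) (nat_lit 4) (nat_lit 3) (nat_lit 4) (nat_lit 393) (nat_lit 200) (nat_lit 187))))) (XT.nd (nat_lit 234) (nat_lit 0) (nat_lit 0) (XT.nd (nat_lit 78) (nat_lit 0) (nat_lit 0) (XT.lf (nat_lit 0) (nat_lit 26657557526) (nat_lit 152) (nat_lit 21674173779) (nat_lit 0) (nat_lit 24210789801) (nat_lit 3) (nat_lit 5) (nat_lit 5) (nat_lit 4) (nat_lit 3) (nat_lit 4) (nat_lit 394) (nat_lit 200) (nat_lit 186)) (XT.nd (nat_lit 78) (nat_lit 0) (nat_lit 0) (XT.lf (nat_lit 0) (nat_lit 29417363480) (nat_lit 152) (nat_lit 18403206045) (nat_lit 0) (nat_lit 26831566282) (nat_lit 3) (nat_lit 5) (nat_lit 5) (nat_lit 4) (nat_lit 3) (nat_lit 4) (nat_lit 395) (nat_lit 200) (nat_lit 185)) (XT.lf (nat_lit 0) (nat_lit 32224093999) (nat_lit 152) (nat_lit 15098726726) (nat_lit 0) (nat_lit 29503316731) (nat_lit 3) (nat_lit 5) (nat_lit 5) (nat_lit 4) (nat_lit 3) (nat_lit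 4) (nat_lit 396) (nat_lit 200) (nat_lit 184)))) (XT.nd (nat_lit 78) (nat_lit 0) (nat_lit 0) (XT.lf (nat_lit 0) (nat_lit 35080201568) (nat_lit 152) (nat_lit 11757848411) (nat_lit 0) (nat_lit 32228375687) (nat_lit 3) (nat_lit 5) (nat_lit 5) (nat_lit 4) (nat_lit 3) (nat_lit 4) (nat_lit 397) (nat_lit 200) (nat_lit 183)) (XT.nd (nat_lit 78) (nat_lit 0) (nat_lit 0) (XT.lf (nat_lit 0) (nat_lit 37988181814) (nat_lit 152) (nat_lit 8377651888) (nat_lit 0) (nat_lit 35009124270) (nat_lit 3) (nat_lit 5) (nat_lit 5) (nat_lit 4) (nat_lit 3) (nat_lit 4) (nat_lit 398) (nat_lit 200) (nat_lit 182)) (XT.lf (nat_lit 0) (nat_lit 40950575690) (nat_lit 152) (nat_lit 4955183585) (nat_lit 0) (nat_lit 37847992260) (nat_lit 3) (nat_lit 5) (nat_lit 5) (nat_lit 4) (nat_lit 3) (nat_lit 4) (nat_lit 399) (nat_lit 200) (nat_lit 181))))))) (XT.nd (nat_lit 39468) (nat_lit 0) (nat_lit 76) (XT.nd (nat_lit 39000) (nat_lit 0) (nat_lit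 76) (XT.nd (nat_lit 234) (nat_lit 0) (nat_lit 0) (XT.nd (nat_lit 78) (nat_lit 76) (nat_lit 0) (XT.lf (nat_lit 0) (nat_lit 43969971696) (nat_lit 152) (nat_lit 1487452998) (nat_lit 0) (nat_lit 40747460221) (nat_lit 3) (nat_lit 5) (nat_lit 5) (nat_lit 4) (nat_lit 3) (nat_lit 4) (nat_lit 400) (nat_lit 200) (nat_lit 180)) (XT.nd (nat_lit 78) (nat_lit 0) (nat_lit 0) (XT.lf (nat_lit 0) (nat_lit 2068942448) (nat_lit 76) (nat_lit 44999953632) (nat_lit 76) (nat_lit 41661007162) (nat_lit 2) (nat_lit 4) (nat_lit 3) (nat_lit 5) (nat_lit 3) (nat_lit 4) (nat_lit 401) (nat_lit 200) (nat_lit 179)) (XT.lf (nat_lit 0) (nat_lit 5707327976) (nat_lit 76) (nat_lit 44537909792) (nat_lit 76) (nat_lit 41085919637) (nat_lit 2) (nat_lit 4) (nat_lit 3) (nat_lit 5) (nat_lit 3) (nat_lit 4) (nat_lit 402) (nat_lit 200) (nat_lit 178)))) (XT.nd (nat_lit 78) (nat_lit 0) (nat_lit 0) (XT.lf (nat_lit 0) (nat_lit 9401279527) (nat_lit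 76) (nat_lit 44085909806) (nat_lit 76) (nat_lit 40524168502) (nat_lit 2) (nat_lit 4) (nat_lit 3) (nat_lit 5) (nat_lit 3) (nat_lit 4) (nat_lit 403) (nat_lit 200) (nat_lit 177)) (XT.nd (nat_lit 38610) (nat_lit 0) (nat_lit 228) (XT.lf (nat_lit 0) (nat_lit 13154024823) (nat_lit 76) (nat_lit 43643558723) (nat_lit 76) (nat_lit 39975262904) (nat_lit 2) (nat_lit 4) (nat_lit 3) (nat_lit 5) (nat_lit 3) (nat_lit 4) (nat_lit 404) (nat_lit 200) (nat_lit 176)) (XT.lf (nat_lit 0) (nat_lit 10476356755) (nat_lit 76) (nat_lit 6306860604) (nat_lit 76) (nat_lit 6306860604) (nat_lit 5) (nat_lit 4) (nat_lit 6) (nat_lit 5) (nat_lit 6) (nat_lit 4) (nat_lit 378) (nat_lit 201) (nat_lit 201))))) (XT.nd (nat_lit 234) (nat_lit 152) (nat_lit 0) (XT.nd (nat_lit 78) (nat_lit 0) (nat_lit 0) (XT.lf (nat_lit 0) (nat_lit 26567047244) (nat_lit 76) (nat_lit 10568005195) (nat_lit 76) (nat_lit 10344903705) (nat_lit 5) (nat_lit 4) (nat_lit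 6) (nat_lit 5) (nat_lit 6) (nat_lit 4) (nat_lit 379) (nat_lit 201) (nat_lit 200)) (XT.nd (nat_lit 78) (nat_lit 0) (nat_lit 0) (XT.lf (nat_lit 0) (nat_lit 32253474827) (nat_lit 76) (nat_lit 8503317248) (nat_lit 76) (nat_lit 8063612368) (nat_lit 5) (nat_lit 4) (nat_lit 6) (nat_lit 5) (nat_lit 6) (nat_lit 4) (nat_lit 380) (nat_lit 201) (nat_lit 199)) (XT.lf (nat_lit 0) (nat_lit 38016964982) (nat_lit 76) (nat_lit 6417853269) (nat_lit 76) (nat_lit 5767853836) (nat_lit 5) (nat_lit 4) (nat_lit 6) (nat_lit 5) (nat_lit 6) (nat_lit 4) (nat_lit 381) (nat_lit 201) (nat_lit 198)))) (XT.nd (nat_lit 78) (nat_lit 152) (nat_lit 0) (XT.lf (nat_lit 0) (nat_lit 43862553770) (nat_lit 76) (nat_lit 4309791008) (nat_lit 76) (nat_lit 3455622108) (nat_lit 5) (nat_lit 4) (nat_lit 6) (nat_lit 5) (nat_lit 6) (nat_lit 4) (nat_lit 382) (nat_lit 201) (nat_lit 197)) (XT.nd (nat_lit 78) (nat_lit 152) (nat_lit 0) (XT.lf (nat_lit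 0) (nat_lit 49795348986) (nat_lit 76) (nat_lit 2177288470) (nat_lit 76) (nat_lit 1124896785) (nat_lit 5) (nat_lit 4) (nat_lit 6) (nat_lit 5) (nat_lit 6) (nat_lit 4) (nat_lit 383) (nat_lit 201) (nat_lit 196)) (XT.lf (nat_lit 0) (nat_lit 1214209521) (nat_lit 152) (nat_lit 53392115583) (nat_lit 0) (nat_lit 5626035) (nat_lit 3) (nat_lit 5) (nat_lit 5) (nat_lit 4) (nat_lit 3) (nat_lit 4) (nat_lit 384) (nat_lit 201) (nat_lit 195)))))) (XT.nd (nat_lit 468) (nat_lit 0) (nat_lit 0) (XT.nd (nat_lit 234) (nat_lit 0) (nat_lit 0) (XT.nd (nat_lit 78) (nat_lit 0) (nat_lit 0) (XT.lf (nat_lit 0) (nat_lit 3607907008) (nat_lit 152) (nat_lit 50345457125) (nat_lit 0) (nat_lit 2217921593) (nat_lit 3) (nat_lit 5) (nat_lit 5) (nat_lit 4) (nat_lit 3) (nat_lit 4) (nat_lit 385) (nat_lit 201) (nat_lit 194)) (XT.nd (nat_lit 78) (nat_lit 0) (nat_lit 0) (XT.lf (nat_lit 0) (nat_lit 6026613711) (nat_lit 152) (nat_lit 47291710025)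 (nat_lit 0) (nat_lit 4460509919) (nat_lit 3) (nat_lit 5) (nat_lit 5) (nat_lit 4) (nat_lit 3) (nat_lit 4) (nat_lit 386) (nat_lit 201) (nat_lit 193)) (XT.lf (nat_lit 0) (nat_lit 8472443063) (nat_lit 152) (nat_lit 44228205959) (nat_lit 0) (nat_lit 6735350556) (nat_lit 3) (nat_lit 5) (nat_lit 5) (nat_lit 4) (nat_lit 3) (nat_lit 4) (nat_lit 387) (nat_lit 201) (nat_lit 192)))) (XT.nd (nat_lit 78) (nat_lit 0) (nat_lit 0) (XT.lf (nat_lit 0) (nat_lit 10947532196) (nat_lit 152) (nat_lit 41152268080) (nat_lit 0) (nat_lit 9044431227) (nat_lit 3) (nat_lit 5) (nat_lit 5) (nat_lit 4) (nat_lit 3) (nat_lit 4) (nat_lit 388) (nat_lit 201) (nat_lit 191)) (XT.nd (nat_lit 78) (nat_lit 0) (nat_lit 0) (XT.lf (nat_lit 0) (nat_lit 13454043810) (nat_lit 152) (nat_lit 38061208675) (nat_lit 0) (nat_lit 11389769577) (nat_lit 3) (nat_lit 5) (nat_lit 5) (nat_lit 4) (nat_lit 3) (nat_lit 4) (nat_lit 389) (nat_lit 201) (nat_lit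 190)) (XT.lf (nat_lit 0) (nat_lit 15994168060) (nat_lit 152) (nat_lit 34952326817) (nat_lit 0) (nat_lit 13773414931) (nat_lit 3) (nat_lit 5) (nat_lit 5) (nat_lit 4) (nat_lit 3) (nat_lit 4) (nat_lit 390) (nat_lit 201) (nat_lit 189))))) (XT.nd (nat_lit 234) (nat_lit 0) (nat_lit 0) (XT.nd (nat_lit 78) (nat_lit 0) (nat_lit 0) (XT.lf (nat_lit 0) (nat_lit 18570124473) (nat_lit 152) (nat_lit 31822906009) (nat_lit 0) (nat_lit 16197450085) (nat_lit 3) (nat_lit 5) (nat_lit 5) (nat_lit 4) (nat_lit 3) (nat_lit 4) (nat_lit 391) (nat_lit 201) (nat_lit 188)) (XT.nd (nat_lit 78) (nat_lit 0) (nat_lit 0) (XT.lf (nat_lit 0) (nat_lit 21184163884) (nat_lit 152) (nat_lit 28670211805) (nat_lit 0) (nat_lit 18663993128) (nat_lit 3) (nat_lit 5) (nat_lit 5) (nat_lit 4) (nat_lit 3) (nat_lit 4) (nat_lit 392) (nat_lit 201) (nat_lit 187)) (XT.lf (nat_lit 0) (nat_lit 23838570406) (nat_lit 152) (nat_lit 25491489423) (nat_lit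 0) (nat_lit 21175199292) (nat_lit 3) (nat_lit 5) (nat_lit 5) (nat_lit 4) (nat_lit 3) (nat_lit 4) (nat_lit 393) (nat_lit 201) (nat_lit 186)))) (XT.nd (nat_lit 78) (nat_lit 0) (nat_lit 0) (XT.lf (nat_lit 0) (nat_lit 26535663422) (nat_lit 152) (nat_lit 22283961340) (nat_lit 0) (nat_lit 23733262835) (nat_lit 3) (nat_lit 5) (nat_lit 5) (nat_lit 4) (nat_lit 3) (nat_lit 4) (nat_lit 394) (nat_lit 201) (nat_lit 185)) (XT.nd (nat_lit 78) (nat_lit 0) (nat_lit 0) (XT.lf (nat_lit 0) (nat_lit 29277799615) (nat_lit 152) (nat_lit 19044824860) (nat_lit 0) (nat_lit 26340418958) (nat_lit 3) (nat_lit 5) (nat_lit 5) (nat_lit 4) (nat_lit 3) (nat_lit 4) (nat_lit 395) (nat_lit 201) (nat_lit 184)) (XT.lf (nat_lit 0) (nat_lit 32067375029) (nat_lit 152) (nat_lit 15771249671) (nat_lit 0) (nat_lit 28998945758) (nat_lit 3) (nat_lit 5) (nat_lit 5) (nat_lit 4) (nat_lit 3) (nat_lit 4) (nat_lit 396) (nat_lit 201) (nat_lit 183))))))))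
noncomputable def xc4 : XT := (XT.nd (nat_lit 40170) (nat_lit 0) (nat_lit 0) (XT.nd (nat_lit 39234) (nat_lit 0) (nat_lit 76) (XT.nd (nat_lit 390) (nat_lit 0) (nat_lit 0) (XT.nd (nat_lit 156) (nat_lit 76) (nat_lit 0) (XT.nd (nat_lit 78) (nat_lit 0) (nat_lit 0) (XT.lf (nat_lit 0) (nat_lit 34906827154) (nat_lit 152) (nat_lit 12460375367) (nat_lit 0) (nat_lit 31711166221) (nat_lit 3) (nat_lit 5) (nat_lit 5) (nat_lit 4) (nat_lit 3) (nat_lit 4) (nat_lit 397) (nat_lit 201) (nat_lit 182)) (XT.lf (nat_lit 0) (nat_lit 37798637066) (nat_lit 152) (nat_lit 9109308950) (nat_lit 0) (nat_lit 34479450247) (nat_lit 3) (nat_lit 5) (nat_lit 5) (nat_lit 4) (nat_lit 3) (nat_lit 4) (nat_lit 398) (nat_lit 201) (nat_lit 181))) (XT.nd (nat_lit 78) (nat_lit 76) (nat_lit 0) (XT.lf (nat_lit 0) (nat_lit 40745331589) (nat_lit 152) (nat_lit 5715122305) (nat_lit 0) (nat_lit 37306216725) (nat_lit 3) (nat_lit 5) (nat_lit 5) (nat_lit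 4) (nat_lit 3) (nat_lit 4) (nat_lit 399) (nat_lit 201) (nat_lit 180)) (XT.nd (nat_lit 78) (nat_lit 76) (nat_lit 0) (XT.lf (nat_lit 0) (nat_lit 43749485506) (nat_lit 152) (nat_lit 2274849637) (nat_lit 0) (nat_lit 40193935647) (nat_lit 3) (nat_lit 5) (nat_lit 5) (nat_lit 4) (nat_lit 3) (nat_lit 4) (nat_lit 400) (nat_lit 201) (nat_lit 179)) (XT.lf (nat_lit 0) (nat_lit 1238686347) (nat_lit 76) (nat_lit 45586944466) (nat_lit 76) (nat_lit 41918350923) (nat_lit 2) (nat_lit 4) (nat_lit 3) (nat_lit 5) (nat_lit 3) (nat_lit 4) (nat_lit 401) (nat_lit 201) (nat_lit 178))))) (XT.nd (nat_lit 38610) (nat_lit 0) (nat_lit 228) (XT.nd (nat_lit 78) (nat_lit 0) (nat_lit 0) (XT.lf (nat_lit 0) (nat_lit 4850675056) (nat_lit 76) (nat_lit 45136676572) (nat_lit 76) (nat_lit 41358331878) (nat_lit 2) (nat_lit 4) (nat_lit 3) (nat_lit 5) (nat_lit 3) (nat_lit 4) (nat_lit 402) (nat_lit 201) (nat_lit 177)) (XT.nd (nat_lit 78)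 (nat_lit 0) (nat_lit 0) (XT.lf (nat_lit 0) (nat_lit 8518998626) (nat_lit 76) (nat_lit 44696109543) (nat_lit 76) (nat_lit 40811210335) (nat_lit 2) (nat_lit 4) (nat_lit 3) (nat_lit 5) (nat_lit 3) (nat_lit 4) (nat_lit 403) (nat_lit 201) (nat_lit 176)) (XT.lf (nat_lit 0) (nat_lit 12246862389) (nat_lit 76) (nat_lit 44264858418) (nat_lit 76) (nat_lit 40276508225) (nat_lit 2) (nat_lit 4) (nat_lit 3) (nat_lit 5) (nat_lit 3) (nat_lit 4) (nat_lit 404) (nat_lit 201) (nat_lit 175)))) (XT.nd (nat_lit 78) (nat_lit 0) (nat_lit 0) (XT.lf (nat_lit 0) (nat_lit 4985554854) (nat_lit 76) (nat_lit 8431504280) (nat_lit 76) (nat_lit 8431504280) (nat_lit 5) (nat_lit 4) (nat_lit 6) (nat_lit 5) (nat_lit 6) (nat_lit 4) (nat_lit 376) (nat_lit 202) (nat_lit 202)) (XT.nd (nat_lit 78) (nat_lit 0) (nat_lit 0) (XT.lf (nat_lit 0) (nat_lit 15405567898) (nat_lit 76) (nat_lit 14872047339) (nat_lit 76) (nat_lit 14642252804) (nat_lit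 5) (nat_lit 4) (nat_lit 6) (nat_lit 5) (nat_lit 6) (nat_lit 4) (nat_lit 377) (nat_lit 202) (nat_lit 201)) (XT.lf (nat_lit 0) (nat_lit 20903833585) (nat_lit 76) (nat_lit 12865028813) (nat_lit 76) (nat_lit 12412132787) (nat_lit 5) (nat_lit 4) (nat_lit 6) (nat_lit 5) (nat_lit 6) (nat_lit 4) (nat_lit 378) (nat_lit 202) (nat_lit 200)))))) (XT.nd (nat_lit 468) (nat_lit 0) (nat_lit 0) (XT.nd (nat_lit 234) (nat_lit 152) (nat_lit 0) (XT.nd (nat_lit 78) (nat_lit 0) (nat_lit 0) (XT.lf (nat_lit 0) (nat_lit 26470711081) (nat_lit 76) (nat_lit 10840199276) (nat_lit 76) (nat_lit 10170699861) (nat_lit 5) (nat_lit 4) (nat_lit 6) (nat_lit 5) (nat_lit 6) (nat_lit 4) (nat_lit 379) (nat_lit 202) (nat_lit 199)) (XT.nd (nat_lit 78) (nat_lit 0) (nat_lit 0) (XT.lf (nat_lit 0) (nat_lit 32111064647) (nat_lit 76) (nat_lit 8795789460) (nat_lit 76) (nat_lit 7915995492) (nat_lit 5) (nat_lit 4) (nat_lit 6) (nat_lit 5) (nat_lit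 6) (nat_lit 4) (nat_lit 380) (nat_lit 202) (nat_lit 198)) (XT.lf (nat_lit 0) (nat_lit 37829822747) (nat_lit 76) (nat_lit 6730012987) (nat_lit 76) (nat_lit 5646049551) (nat_lit 5) (nat_lit 4) (nat_lit 6) (nat_lit 5) (nat_lit 6) (nat_lit 4) (nat_lit 381) (nat_lit 202) (nat_lit 197)))) (XT.nd (nat_lit 78) (nat_lit 152) (nat_lit 0) (XT.lf (nat_lit 0) (nat_lit 43631982355) (nat_lit 76) (nat_lit 4641064811) (nat_lit 76) (nat_lit 3358878590) (nat_lit 5) (nat_lit 4) (nat_lit 6) (nat_lit 5) (nat_lit 6) (nat_lit 4) (nat_lit 382) (nat_lit 202) (nat_lit 196)) (XT.nd (nat_lit 78) (nat_lit 152) (nat_lit 0) (XT.lf (nat_lit 0) (nat_lit 49522613318) (nat_lit 76) (nat_lit 2527119635) (nat_lit 76) (nat_lit 1052484109) (nat_lit 5) (nat_lit 4) (nat_lit 6) (nat_lit 5) (nat_lit 6) (nat_lit 4) (nat_lit 383) (nat_lit 202) (nat_lit 195)) (XT.lf (nat_lit 0) (nat_lit 894006637) (nat_lit 76) (nat_lit 364853535) (nat_lit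 152) (nat_lit 53358558219) (nat_lit 3) (nat_lit 5) (nat_lit 4) (nat_lit 5) (nat_lit 5) (nat_lit 4) (nat_lit 384) (nat_lit 202) (nat_lit 194))))) (XT.nd (nat_lit 234) (nat_lit 0) (nat_lit 0) (XT.nd (nat_lit 78) (nat_lit 0) (nat_lit 0) (XT.lf (nat_lit 0) (nat_lit 3625995434) (nat_lit 152) (nat_lit 50714778668) (nat_lit 0) (nat_lit 1836790152) (nat_lit 3) (nat_lit 5) (nat_lit 5) (nat_lit 4) (nat_lit 3) (nat_lit 4) (nat_lit 385) (nat_lit 202) (nat_lit 193)) (XT.nd (nat_lit 78) (nat_lit 0) (nat_lit 0) (XT.lf (nat_lit 0) (nat_lit 6022318614) (nat_lit 152) (nat_lit 47701354449) (nat_lit 0) (nat_lit 4062124616) (nat_lit 3) (nat_lit 5) (nat_lit 5) (nat_lit 4) (nat_lit 3) (nat_lit 4) (nat_lit 386) (nat_lit 202) (nat_lit 192)) (XT.lf (nat_lit 0) (nat_lit 8446416390) (nat_lit 152) (nat_lit 44676998811) (nat_lit 0) (nat_lit 6320213930) (nat_lit 3) (nat_lit 5) (nat_lit 5) (nat_lit 4) (nat_lit 3) (nat_lit 4)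 (nat_lit 387) (nat_lit 202) (nat_lit 191)))) (XT.nd (nat_lit 78) (nat_lit 0) (nat_lit 0) (XT.lf (nat_lit 0) (nat_lit 10900406906) (nat_lit 152) (nat_lit 41639069114) (nat_lit 0) (nat_lit 8613031182) (nat_lit 3) (nat_lit 5) (nat_lit 5) (nat_lit 4) (nat_lit 3) (nat_lit 4) (nat_lit 388) (nat_lit 202) (nat_lit 190)) (XT.nd (nat_lit 78) (nat_lit 0) (nat_lit 0) (XT.lf (nat_lit 0) (nat_lit 13386434425) (nat_lit 152) (nat_lit 38584910856) (nat_lit 0) (nat_lit 10942579805) (nat_lit 3) (nat_lit 5) (nat_lit 5) (nat_lit 4) (nat_lit 3) (nat_lit 4) (nat_lit 389) (nat_lit 202) (nat_lit 189)) (XT.lf (nat_lit 0) (nat_lit 15906671205) (nat_lit 152) (nat_lit 35511855356) (nat_lit 0) (nat_lit 13310895326) (nat_lit 3) (nat_lit 5) (nat_lit 5) (nat_lit 4) (nat_lit 3) (nat_lit 4) (nat_lit 390) (nat_lit 202) (nat_lit 188))))))) (XT.nd (nat_lit 858) (nat_lit 0) (nat_lit 0) (XT.nd (nat_lit 390) (nat_lit 76) (nat_lit 0)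 (XT.nd (nat_lit 156) (nat_lit 0) (nat_lit 0) (XT.nd (nat_lit 78) (nat_lit 0) (nat_lit 0) (XT.lf (nat_lit 0) (nat_lit 18463319394) (nat_lit 152) (nat_lit 32417217419) (nat_lit 0) (nat_lit 15720047147) (nat_lit 3) (nat_lit 5) (nat_lit 5) (nat_lit 4) (nat_lit 3) (nat_lit 4) (nat_lit 391) (nat_lit 202) (nat_lit 187)) (XT.lf (nat_lit 0) (nat_lit 21058612957) (nat_lit 152) (nat_lit 29298292992) (nat_lit 0) (nat_lit 18172140352) (nat_lit 3) (nat_lit 5) (nat_lit 5) (nat_lit 4) (nat_lit 3) (nat_lit 4) (nat_lit 392) (nat_lit 202) (nat_lit 186))) (XT.nd (nat_lit 78) (nat_lit 0) (nat_lit 0) (XT.lf (nat_lit 0) (nat_lit 23694819626) (nat_lit 152) (nat_lit 26152356803) (nat_lit 0) (nat_lit 20669317548) (nat_lit 3) (nat_lit 5) (nat_lit 5) (nat_lit 4) (nat_lit 3) (nat_lit 4) (nat_lit 393) (nat_lit 202) (nat_lit 185)) (XT.nd (nat_lit 78) (nat_lit 0) (nat_lit 0) (XT.lf (nat_lit 0) (nat_lit 26374242882) (nat_lit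 152) (nat_lit 22976659974) (nat_lit 0) (nat_lit 23213760733) (nat_lit 3) (nat_lit 5) (nat_lit 5) (nat_lit 4) (nat_lit 3) (nat_lit 4) (nat_lit 394) (nat_lit 202) (nat_lit 184)) (XT.lf (nat_lit 0) (nat_lit 29099223969) (nat_lit 152) (nat_lit 19768427624) (nat_lit 0) (nat_lit 25807693208) (nat_lit 3) (nat_lit 5) (nat_lit 5) (nat_lit 4) (nat_lit 3) (nat_lit 4) (nat_lit 395) (nat_lit 202) (nat_lit 183))))) (XT.nd (nat_lit 234) (nat_lit 76) (nat_lit 0) (XT.nd (nat_lit 78) (nat_lit 0) (nat_lit 0) (XT.lf (nat_lit 0) (nat_lit 31872143938) (nat_lit 152) (nat_lit 16524856445) (nat_lit 0) (nat_lit 28453381514) (nat_lit 3) (nat_lit 5) (nat_lit 5) (nat_lit 4) (nat_lit 3) (nat_lit 4) (nat_lit 396) (nat_lit 202) (nat_lit 182)) (XT.nd (nat_lit 78) (nat_lit 0) (nat_lit 0) (XT.lf (nat_lit 0) (nat_lit 34695425730) (nat_lit 152) (nat_lit 13243112248) (nat_lit 0) (nat_lit 31153137420) (nat_lit 3) (nat_lit 5) (nat_lit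 5) (nat_lit 4) (nat_lit 3) (nat_lit 4) (nat_lit 397) (nat_lit 202) (nat_lit 181)) (XT.lf (nat_lit 0) (nat_lit 37571536290) (nat_lit 152) (nat_lit 9920327488) (nat_lit 0) (nat_lit 33909319935) (nat_lit 3) (nat_lit 5) (nat_lit 5) (nat_lit 4) (nat_lit 3) (nat_lit 4) (nat_lit 398) (nat_lit 202) (nat_lit 180)))) (XT.nd (nat_lit 78) (nat_lit 76) (nat_lit 0) (XT.lf (nat_lit 0) (nat_lit 40502988723) (nat_lit 152) (nat_lit 6553598763) (nat_lit 0) (nat_lit 36724337373) (nat_lit 3) (nat_lit 5) (nat_lit 5) (nat_lit 4) (nat_lit 3) (nat_lit 4) (nat_lit 399) (nat_lit 202) (nat_lit 179)) (XT.nd (nat_lit 78) (nat_lit 76) (nat_lit 0) (XT.lf (nat_lit 0) (nat_lit 43492344493) (nat_lit 152) (nat_lit 3139984270) (nat_lit 0) (nat_lit 39600649459) (nat_lit 3) (nat_lit 5) (nat_lit 5) (nat_lit 4) (nat_lit 3) (nat_lit 4) (nat_lit 400) (nat_lit 202) (nat_lit 178)) (XT.lf (nat_lit 0) (nat_lit 329937020) (nat_lit 76) (nat_lit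 46215450195) (nat_lit 76) (nat_lit 42214004011) (nat_lit 2) (nat_lit 4) (nat_lit 3) (nat_lit 5) (nat_lit 3) (nat_lit 4) (nat_lit 401) (nat_lit 202) (nat_lit 177)))))) (XT.nd (nat_lit 38688) (nat_lit 0) (nat_lit 228) (XT.nd (nat_lit 38454) (nat_lit 0) (nat_lit 228) (XT.nd (nat_lit 78) (nat_lit 0) (nat_lit 0) (XT.lf (nat_lit 0) (nat_lit 3916297748) (nat_lit 76) (nat_lit 45776615258) (nat_lit 76) (nat_lit 41668614559) (nat_lit 2) (nat_lit 4) (nat_lit 3) (nat_lit 5) (nat_lit 3) (nat_lit 4) (nat_lit 402) (nat_lit 202) (nat_lit 176)) (XT.nd (nat_lit 78) (nat_lit 0) (nat_lit 0) (XT.lf (nat_lit 0) (nat_lit 7559739784) (nat_lit 76) (nat_lit 45347148187) (nat_lit 76) (nat_lit 41135696503) (nat_lit 2) (nat_lit 4) (nat_lit 3) (nat_lit 5) (nat_lit 3) (nat_lit 4) (nat_lit 403) (nat_lit 202) (nat_lit 175)) (XT.lf (nat_lit 0) (nat_lit 11263446717) (nat_lit 76) (nat_lit 44926673720) (nat_lit 76) (nat_lit 40614784187)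 (nat_lit 2) (nat_lit 4) (nat_lit 3) (nat_lit 5) (nat_lit 3) (nat_lit 4) (nat_lit 404) (nat_lit 202) (nat_lit 174)))) (XT.nd (nat_lit 78) (nat_lit 76) (nat_lit 0) (XT.lf (nat_lit 0) (nat_lit 10175287079) (nat_lit 152) (nat_lit 330164126) (nat_lit 0) (nat_lit 10175287079) (nat_lit 6) (nat_lit 5) (nat_lit 8) (nat_lit 4) (nat_lit 6) (nat_lit 4) (nat_lit 374) (nat_lit 203) (nat_lit 203)) (XT.nd (nat_lit 78) (nat_lit 0) (nat_lit 0) (XT.lf (nat_lit 0) (nat_lit 4595710462) (nat_lit 76) (nat_lit 19076340523) (nat_lit 76) (nat_lit 18839652152) (nat_lit 5) (nat_lit 4) (nat_lit 6) (nat_lit 5) (nat_lit 6) (nat_lit 4) (nat_lit 375) (nat_lit 203) (nat_lit 202)) (XT.lf (nat_lit 0) (nat_lit 9920763386) (nat_lit 76) (nat_lit 17121855394) (nat_lit 76) (nat_lit 16655372487) (nat_lit 5) (nat_lit 4) (nat_lit 6) (nat_lit 5) (nat_lit 6) (nat_lit 4) (nat_lit 376) (nat_lit 203) (nat_lit 201))))) (XT.nd (nat_lit 234) (nat_lit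 0) (nat_lit 0) (XT.nd (nat_lit 78) (nat_lit 0) (nat_lit 0) (XT.lf (nat_lit 0) (nat_lit 15306341650) (nat_lit 76) (nat_lit 15152407242) (nat_lit 76) (nat_lit 14462822845) (nat_lit 5) (nat_lit 4) (nat_lit 6) (nat_lit 5) (nat_lit 6) (nat_lit 4) (nat_lit 377) (nat_lit 203) (nat_lit 200)) (XT.nd (nat_lit 78) (nat_lit 0) (nat_lit 0) (XT.lf (nat_lit 0) (nat_lit 20757151100) (nat_lit 76) (nat_lit 13166275191) (nat_lit 76) (nat_lit 12260087405) (nat_lit 5) (nat_lit 4) (nat_lit 6) (nat_lit 5) (nat_lit 6) (nat_lit 4) (nat_lit 378) (nat_lit 203) (nat_lit 199)) (XT.lf (nat_lit 0) (nat_lit 26277954579) (nat_lit 76) (nat_lit 11161723786) (nat_lit 76) (nat_lit 10045241447) (nat_lit 5) (nat_lit 4) (nat_lit 6) (nat_lit 5) (nat_lit 6) (nat_lit 4) (nat_lit 379) (nat_lit 203) (nat_lit 198)))) (XT.nd (nat_lit 78) (nat_lit 0) (nat_lit 0) (XT.lf (nat_lit 0) (nat_lit 31873576089) (nat_lit 76) (nat_lit 9137001476) (nat_lit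 76) (nat_lit 7816349669) (nat_lit 5) (nat_lit 4) (nat_lit 6) (nat_lit 5) (nat_lit 6) (nat_lit 4) (nat_lit 380) (nat_lit 203) (nat_lit 197)) (XT.nd (nat_lit 78) (nat_lit 0) (nat_lit 0) (XT.lf (nat_lit 0) (nat_lit 37548905010) (nat_lit 76) (nat_lit 7090339087) (nat_lit 76) (nat_lit 5571464495) (nat_lit 5) (nat_lit 4) (nat_lit 6) (nat_lit 5) (nat_lit 6) (nat_lit 4) (nat_lit 381) (nat_lit 203) (nat_lit 196)) (XT.lf (nat_lit 0) (nat_lit 43308900365) (nat_lit 76) (nat_lit 5019948274) (nat_lit 76) (nat_lit 3308624376) (nat_lit 5) (nat_lit 4) (nat_lit 6) (nat_lit 5) (nat_lit 6) (nat_lit 4) (nat_lit 382) (nat_lit 203) (nat_lit 195))))))))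
noncomputable def xc5 : XT := (XT.nd (nat_lit 39858) (nat_lit 0) (nat_lit 76) (XT.nd (nat_lit 858) (nat_lit 76) (nat_lit 0) (XT.nd (nat_lit 390) (nat_lit 0) (nat_lit 0) (XT.nd (nat_lit 156) (nat_lit 0) (nat_lit 0) (XT.nd (nat_lit 78) (nat_lit 152) (nat_lit 0) (XT.lf (nat_lit 0) (nat_lit 49158595161) (nat_lit 76) (nat_lit 2924019956) (nat_lit 76) (nat_lit 1025852071) (nat_lit 5) (nat_lit 4) (nat_lit 6) (nat_lit 5) (nat_lit 6) (nat_lit 4) (nat_lit 383) (nat_lit 203) (nat_lit 194)) (XT.lf (nat_lit 0) (nat_lit 475102227) (nat_lit 76) (nat_lit 783356905) (nat_lit 152) (nat_lit 53366011515) (nat_lit 3) (nat_lit 5) (nat_lit 4) (nat_lit 5) (nat_lit 5) (nat_lit 4) (nat_lit 384) (nat_lit 203) (nat_lit 193))) (XT.nd (nat_lit 78) (nat_lit 0) (nat_lit 0) (XT.lf (nat_lit 0) (nat_lit 3599187961) (nat_lit 152) (nat_lit 51177035305) (nat_lit 0) (nat_lit 1409199428) (nat_lit 3) (nat_lit 5) (nat_lit 5) (nat_lit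 4) (nat_lit 3) (nat_lit 4) (nat_lit 385) (nat_lit 203) (nat_lit 192)) (XT.nd (nat_lit 78) (nat_lit 0) (nat_lit 0) (XT.lf (nat_lit 0) (nat_lit 5973779565) (nat_lit 152) (nat_lit 48202759513) (nat_lit 0) (nat_lit 3617782570) (nat_lit 3) (nat_lit 5) (nat_lit 5) (nat_lit 4) (nat_lit 3) (nat_lit 4) (nat_lit 386) (nat_lit 203) (nat_lit 191)) (XT.lf (nat_lit 0) (nat_lit 8376778724) (nat_lit 152) (nat_lit 45216412058) (nat_lit 0) (nat_lit 5859608465) (nat_lit 3) (nat_lit 5) (nat_lit 5) (nat_lit 4) (nat_lit 3) (nat_lit 4) (nat_lit 387) (nat_lit 203) (nat_lit 190))))) (XT.nd (nat_lit 234) (nat_lit 0) (nat_lit 0) (XT.nd (nat_lit 78) (nat_lit 0) (nat_lit 0) (XT.lf (nat_lit 0) (nat_lit 10810285145) (nat_lit 152) (nat_lit 42215383509) (nat_lit 0) (nat_lit 8136635989) (nat_lit 3) (nat_lit 5) (nat_lit 5) (nat_lit 4) (nat_lit 3) (nat_lit 4) (nat_lit 388) (nat_lit 203) (nat_lit 189)) (XT.nd (nat_lit 78) (nat_lit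 0) (nat_lit 0) (XT.lf (nat_lit 0) (nat_lit 13276425194) (nat_lit 152) (nat_lit 39197051608) (nat_lit 0) (nat_lit 10450854779) (nat_lit 3) (nat_lit 5) (nat_lit 5) (nat_lit 4) (nat_lit 3) (nat_lit 4) (nat_lit 389) (nat_lit 203) (nat_lit 188)) (XT.lf (nat_lit 0) (nat_lit 15777353750) (nat_lit 152) (nat_lit 36158778979) (nat_lit 0) (nat_lit 12804286967) (nat_lit 3) (nat_lit 5) (nat_lit 5) (nat_lit 4) (nat_lit 3) (nat_lit 4) (nat_lit 390) (nat_lit 203) (nat_lit 187)))) (XT.nd (nat_lit 78) (nat_lit 0) (nat_lit 0) (XT.lf (nat_lit 0) (nat_lit 18315256091) (nat_lit 152) (nat_lit 33097910820) (nat_lit 0) (nat_lit 15198988951) (nat_lit 3) (nat_lit 5) (nat_lit 5) (nat_lit 4) (nat_lit 3) (nat_lit 4) (nat_lit 391) (nat_lit 203) (nat_lit 186)) (XT.nd (nat_lit 78) (nat_lit 0) (nat_lit 0) (XT.lf (nat_lit 0) (nat_lit 20892349801) (nat_lit 152) (nat_lit 30011772585) (nat_lit 0) (nat_lit 17637053188) (nat_lit 3)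 (nat_lit 5) (nat_lit 5) (nat_lit 4) (nat_lit 3) (nat_lit 4) (nat_lit 392) (nat_lit 203) (nat_lit 185)) (XT.lf (nat_lit 0) (nat_lit 23510886709) (nat_lit 152) (nat_lit 26897667650) (nat_lit 0) (nat_lit 20120610025) (nat_lit 3) (nat_lit 5) (nat_lit 5) (nat_lit 4) (nat_lit 3) (nat_lit 4) (nat_lit 393) (nat_lit 203) (nat_lit 184)))))) (XT.nd (nat_lit 468) (nat_lit 76) (nat_lit 0) (XT.nd (nat_lit 234) (nat_lit 0) (nat_lit 0) (XT.nd (nat_lit 78) (nat_lit 0) (nat_lit 0) (XT.lf (nat_lit 0) (nat_lit 26173154859) (nat_lit 152) (nat_lit 23752874951) (nat_lit 0) (nat_lit 22651829562) (nat_lit 3) (nat_lit 5) (nat_lit 5) (nat_lit 4) (nat_lit 3) (nat_lit 4) (nat_lit 394) (nat_lit 203) (nat_lit 183)) (XT.nd (nat_lit 78) (nat_lit 0) (nat_lit 0) (XT.lf (nat_lit 0) (nat_lit 28881480503) (nat_lit 152) (nat_lit 20574646612) (nat_lit 0) (nat_lit 25232923543) (nat_lit 3) (nat_lit 5) (nat_lit 5) (nat_lit 4) (nat_lit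 3) (nat_lit 4) (nat_lit 395) (nat_lit 203) (nat_lit 182)) (XT.lf (nat_lit 0) (nat_lit 31638230139) (nat_lit 152) (nat_lit 17360205540) (nat_lit 0) (nat_lit 27866147293) (nat_lit 3) (nat_lit 5) (nat_lit 5) (nat_lit 4) (nat_lit 3) (nat_lit 4) (nat_lit 396) (nat_lit 203) (nat_lit 181)))) (XT.nd (nat_lit 78) (nat_lit 0) (nat_lit 0) (XT.lf (nat_lit 0) (nat_lit 34445812578) (nat_lit 152) (nat_lit 14106742999) (nat_lit 0) (nat_lit 30553801688) (nat_lit 3) (nat_lit 5) (nat_lit 5) (nat_lit 4) (nat_lit 3) (nat_lit 4) (nat_lit 397) (nat_lit 203) (nat_lit 180)) (XT.nd (nat_lit 78) (nat_lit 0) (nat_lit 0) (XT.lf (nat_lit 0) (nat_lit 37306681047) (nat_lit 152) (nat_lit 10811416160) (nat_lit 0) (nat_lit 33298235162) (nat_lit 3) (nat_lit 5) (nat_lit 5) (nat_lit 4) (nat_lit 3) (nat_lit 4) (nat_lit 398) (nat_lit 203) (nat_lit 179)) (XT.lf (nat_lit 0) (nat_lit 40223335335) (nat_lit 152) (nat_lit 7471345609) (nat_lit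 0) (nat_lit 36101845765) (nat_lit 3) (nat_lit 5) (nat_lit 5) (nat_lit 4) (nat_lit 3) (nat_lit 4) (nat_lit 399) (nat_lit 203) (nat_lit 178))))) (XT.nd (nat_lit 234) (nat_lit 0) (nat_lit 0) (XT.nd (nat_lit 78) (nat_lit 76) (nat_lit 0) (XT.lf (nat_lit 0) (nat_lit 43198323973) (nat_lit 152) (nat_lit 4083612838) (nat_lit 0) (nat_lit 38967083254) (nat_lit 3) (nat_lit 5) (nat_lit 5) (nat_lit 4) (nat_lit 3) (nat_lit 4) (nat_lit 400) (nat_lit 203) (nat_lit 177)) (XT.nd (nat_lit 78) (nat_lit 76) (nat_lit 0) (XT.lf (nat_lit 0) (nat_lit 46234246468) (nat_lit 152) (nat_lit 645257693) (nat_lit 0) (nat_lit 41896451234) (nat_lit 3) (nat_lit 5) (nat_lit 5) (nat_lit 4) (nat_lit 3) (nat_lit 4) (nat_lit 401) (nat_lit 203) (nat_lit 176)) (XT.lf (nat_lit 0) (nat_lit 2903379607) (nat_lit 76) (nat_lit 46458285019) (nat_lit 76) (nat_lit 42017038800) (nat_lit 2) (nat_lit 4) (nat_lit 3) (nat_lit 5) (nat_lit 3) (nat_lit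 4) (nat_lit 402) (nat_lit 203) (nat_lit 175)))) (XT.nd (nat_lit 78) (nat_lit 0) (nat_lit 0) (XT.lf (nat_lit 0) (nat_lit 6522664813) (nat_lit 76) (nat_lit 46039594607) (nat_lit 76) (nat_lit 41497910538) (nat_lit 2) (nat_lit 4) (nat_lit 3) (nat_lit 5) (nat_lit 3) (nat_lit 4) (nat_lit 403) (nat_lit 203) (nat_lit 174)) (XT.nd (nat_lit 38142) (nat_lit 0) (nat_lit 304) (XT.lf (nat_lit 0) (nat_lit 10202918514) (nat_lit 76) (nat_lit 45629582915) (nat_lit 76) (nat_lit 40990386372) (nat_lit 2) (nat_lit 4) (nat_lit 3) (nat_lit 5) (nat_lit 3) (nat_lit 4) (nat_lit 404) (nat_lit 203) (nat_lit 173)) (XT.lf (nat_lit 0) (nat_lit 7091987015) (nat_lit 152) (nat_lit 5397172368) (nat_lit 0) (nat_lit 7091987015) (nat_lit 6) (nat_lit 5) (nat_lit 8) (nat_lit 4) (nat_lit 6) (nat_lit 4) (nat_lit 372) (nat_lit 204) (nat_lit 204))))))) (XT.nd (nat_lit 936) (nat_lit 76) (nat_lit 0) (XT.nd (nat_lit 468) (nat_lit 76) (nat_lit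 0) (XT.nd (nat_lit 234) (nat_lit 0) (nat_lit 0) (XT.nd (nat_lit 78) (nat_lit 76) (nat_lit 0) (XT.lf (nat_lit 0) (nat_lit 17356279557) (nat_lit 152) (nat_lit 5776420289) (nat_lit 0) (nat_lit 17112490534) (nat_lit 6) (nat_lit 5) (nat_lit 8) (nat_lit 4) (nat_lit 6) (nat_lit 4) (nat_lit 373) (nat_lit 204) (nat_lit 203)) (XT.nd (nat_lit 78) (nat_lit 76) (nat_lit 0) (XT.lf (nat_lit 0) (nat_lit 20565828163) (nat_lit 152) (nat_lit 711173054) (nat_lit 0) (nat_lit 20085350769) (nat_lit 6) (nat_lit 5) (nat_lit 8) (nat_lit 4) (nat_lit 6) (nat_lit 4) (nat_lit 374) (nat_lit 204) (nat_lit 202)) (XT.lf (nat_lit 0) (nat_lit 4493507427) (nat_lit 76) (nat_lit 19365111223) (nat_lit 76) (nat_lit 18654839294) (nat_lit 5) (nat_lit 4) (nat_lit 6) (nat_lit 5) (nat_lit 6) (nat_lit 4) (nat_lit 375) (nat_lit 204) (nat_lit 201)))) (XT.nd (nat_lit 78) (nat_lit 0) (nat_lit 0) (XT.lf (nat_lit 0) (nat_lit 9769680426) (nat_lit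 76) (nat_lit 17432139164) (nat_lit 76) (nat_lit 16498765743) (nat_lit 5) (nat_lit 4) (nat_lit 6) (nat_lit 5) (nat_lit 6) (nat_lit 4) (nat_lit 376) (nat_lit 204) (nat_lit 200)) (XT.nd (nat_lit 78) (nat_lit 0) (nat_lit 0) (XT.lf (nat_lit 0) (nat_lit 15107802453) (nat_lit 76) (nat_lit 15483577488) (nat_lit 76) (nat_lit 14333600678) (nat_lit 5) (nat_lit 4) (nat_lit 6) (nat_lit 5) (nat_lit 6) (nat_lit 4) (nat_lit 377) (nat_lit 204) (nat_lit 199)) (XT.lf (nat_lit 0) (nat_lit 20512537886) (nat_lit 76) (nat_lit 13517723568) (nat_lit 76) (nat_lit 12157452206) (nat_lit 5) (nat_lit 4) (nat_lit 6) (nat_lit 5) (nat_lit 6) (nat_lit 4) (nat_lit 378) (nat_lit 204) (nat_lit 198))))) (XT.nd (nat_lit 234) (nat_lit 76) (nat_lit 0) (XT.nd (nat_lit 78) (nat_lit 0) (nat_lit 0) (XT.lf (nat_lit 0) (nat_lit 25988609309) (nat_lit 76) (nat_lit 11532859669) (nat_lit 76) (nat_lit 9968418839) (nat_lit 5) (nat_lit 4) (nat_lit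 6) (nat_lit 5) (nat_lit 6) (nat_lit 4) (nat_lit 379) (nat_lit 204) (nat_lit 197)) (XT.nd (nat_lit 78) (nat_lit 0) (nat_lit 0) (XT.lf (nat_lit 0) (nat_lit 31540801640) (nat_lit 76) (nat_lit 9527251443) (nat_lit 76) (nat_lit 7764587828) (nat_lit 5) (nat_lit 4) (nat_lit 6) (nat_lit 5) (nat_lit 6) (nat_lit 4) (nat_lit 380) (nat_lit 204) (nat_lit 196)) (XT.lf (nat_lit 0) (nat_lit 37173966307) (nat_lit 76) (nat_lit 7499146417) (nat_lit 76) (nat_lit 5544033497) (nat_lit 5) (nat_lit 4) (nat_lit 6) (nat_lit 5) (nat_lit 6) (nat_lit 4) (nat_lit 381) (nat_lit 204) (nat_lit 195)))) (XT.nd (nat_lit 78) (nat_lit 76) (nat_lit 0) (XT.lf (nat_lit 0) (nat_lit 42893025495) (nat_lit 76) (nat_lit 5446772461) (nat_lit 76) (nat_lit 3304815554) (nat_lit 5) (nat_lit 4) (nat_lit 6) (nat_lit 5) (nat_lit 6) (nat_lit 4) (nat_lit 382) (nat_lit 204) (nat_lit 194)) (XT.nd (nat_lit 78) (nat_lit 76) (nat_lit 0) (XT.lf (nat_lit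 0) (nat_lit 48702976439) (nat_lit 76) (nat_lit 3368336237) (nat_lit 76) (nat_lit 1044977402) (nat_lit 5) (nat_lit 4) (nat_lit 6) (nat_lit 5) (nat_lit 6) (nat_lit 4) (nat_lit 383) (nat_lit 204) (nat_lit 193)) (XT.lf (nat_lit 0) (nat_lit 1213308358) (nat_lit 152) (nat_lit 36461243) (nat_lit 76) (nat_lit 53383335401) (nat_lit 4) (nat_lit 5) (nat_lit 6) (nat_lit 5) (nat_lit 5) (nat_lit 4) (nat_lit 384) (nat_lit 204) (nat_lit 192)))))) (XT.nd (nat_lit 468) (nat_lit 0) (nat_lit 0) (XT.nd (nat_lit 234) (nat_lit 0) (nat_lit 0) (XT.nd (nat_lit 78) (nat_lit 0) (nat_lit 0) (XT.lf (nat_lit 0) (nat_lit 3527461165) (nat_lit 152) (nat_lit 51732630950) (nat_lit 0) (nat_lit 934775798) (nat_lit 3) (nat_lit 5) (nat_lit 5) (nat_lit 4) (nat_lit 3) (nat_lit 4) (nat_lit 385) (nat_lit 204) (nat_lit 191)) (XT.nd (nat_lit 78) (nat_lit 0) (nat_lit 0) (XT.lf (nat_lit 0) (nat_lit 5880954151) (nat_lit 152) (nat_lit 48796363340)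 (nat_lit 0) (nat_lit 3127095521) (nat_lit 3) (nat_lit 5) (nat_lit 5) (nat_lit 4) (nat_lit 3) (nat_lit 4) (nat_lit 386) (nat_lit 204) (nat_lit 190)) (XT.lf (nat_lit 0) (nat_lit 8263469215) (nat_lit 152) (nat_lit 45846917032) (nat_lit 0) (nat_lit 5353131688) (nat_lit 3) (nat_lit 5) (nat_lit 5) (nat_lit 4) (nat_lit 3) (nat_lit 4) (nat_lit 387) (nat_lit 204) (nat_lit 189)))) (XT.nd (nat_lit 78) (nat_lit 0) (nat_lit 0) (XT.lf (nat_lit 0) (nat_lit 10677088166) (nat_lit 152) (nat_lit 42881714841) (nat_lit 0) (nat_lit 7614829380) (nat_lit 3) (nat_lit 5) (nat_lit 5) (nat_lit 4) (nat_lit 3) (nat_lit 4) (nat_lit 388) (nat_lit 204) (nat_lit 188)) (XT.nd (nat_lit 78) (nat_lit 0) (nat_lit 0) (XT.lf (nat_lit 0) (nat_lit 13123919991) (nat_lit 152) (nat_lit 39898165811) (nat_lit 0) (nat_lit 9914164837) (nat_lit 3) (nat_lit 5) (nat_lit 5) (nat_lit 4) (nat_lit 3) (nat_lit 4) (nat_lit 389) (nat_lit 204) (nat_lit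 187)) (XT.lf (nat_lit 0) (nat_lit 15606102699) (nat_lit 152) (nat_lit 36893662960) (nat_lit 0) (nat_lit 12253147187) (nat_lit 3) (nat_lit 5) (nat_lit 5) (nat_lit 4) (nat_lit 3) (nat_lit 4) (nat_lit 390) (nat_lit 204) (nat_lit 186))))) (XT.nd (nat_lit 234) (nat_lit 0) (nat_lit 0) (XT.nd (nat_lit 78) (nat_lit 0) (nat_lit 0) (XT.lf (nat_lit 0) (nat_lit 18125805187) (nat_lit 152) (nat_lit 33865580992) (nat_lit 0) (nat_lit 14633820202) (nat_lit 3) (nat_lit 5) (nat_lit 5) (nat_lit 4) (nat_lit 3) (nat_lit 4) (nat_lit 391) (nat_lit 204) (nat_lit 185)) (XT.nd (nat_lit 78) (nat_lit 0) (nat_lit 0) (XT.lf (nat_lit 0) (nat_lit 20685229137) (nat_lit 152) (nat_lit 30811274012) (nat_lit 0) (nat_lit 17058264082) (nat_lit 3) (nat_lit 5) (nat_lit 5) (nat_lit 4) (nat_lit 3) (nat_lit 4) (nat_lit 392) (nat_lit 204) (nat_lit 184)) (XT.lf (nat_lit 0) (nat_lit 23286610939) (nat_lit 152) (nat_lit 27728073207) (nat_lit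 0) (nat_lit 19528597271) (nat_lit 3) (nat_lit 5) (nat_lit 5) (nat_lit 4) (nat_lit 3) (nat_lit 4) (nat_lit 393) (nat_lit 204) (nat_lit 183)))) (XT.nd (nat_lit 78) (nat_lit 0) (nat_lit 0) (XT.lf (nat_lit 0) (nat_lit 25932223645) (nat_lit 152) (nat_lit 24613284518) (nat_lit 0) (nat_lit 22046978314) (nat_lit 3) (nat_lit 5) (nat_lit 5) (nat_lit 4) (nat_lit 3) (nat_lit 4) (nat_lit 394) (nat_lit 204) (nat_lit 182)) (XT.nd (nat_lit 78) (nat_lit 0) (nat_lit 0) (XT.lf (nat_lit 0) (nat_lit 28624378955) (nat_lit 152) (nat_lit 21464186286) (nat_lit 0) (nat_lit 24615607738) (nat_lit 3) (nat_lit 5) (nat_lit 5) (nat_lit 4) (nat_lit 3) (nat_lit 4) (nat_lit 395) (nat_lit 204) (nat_lit 181)) (XT.lf (nat_lit 0) (nat_lit 31365429239) (nat_lit 152) (nat_lit 18278026871) (nat_lit 0) (nat_lit 27236729977) (nat_lit 3) (nat_lit 5) (nat_lit 5) (nat_lit 4) (nat_lit 3) (nat_lit 4) (nat_lit 396) (nat_lit 204) (nat_lit 180))))))))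
noncomputable def xc6 : XT := (XT.nd (nat_lit 39702) (nat_lit 0) (nat_lit 0) (XT.nd (nat_lit 38766) (nat_lit 0) (nat_lit 152) (XT.nd (nat_lit 390) (nat_lit 76) (nat_lit 0) (XT.nd (nat_lit 156) (nat_lit 0) (nat_lit 0) (XT.nd (nat_lit 78) (nat_lit 0) (nat_lit 0) (XT.lf (nat_lit 0) (nat_lit 34157769588) (nat_lit 152) (nat_lit 15052022250) (nat_lit 0) (nat_lit 29912635331) (nat_lit 3) (nat_lit 5) (nat_lit 5) (nat_lit 4) (nat_lit 3) (nat_lit 4) (nat_lit 397) (nat_lit 204) (nat_lit 179)) (XT.lf (nat_lit 0) (nat_lit 37003839911) (nat_lit 152) (nat_lit 11783353585) (nat_lit 0) (nat_lit 32645661970) (nat_lit 3) (nat_lit 5) (nat_lit 5) (nat_lit 4) (nat_lit 3) (nat_lit 4) (nat_lit 398) (nat_lit 204) (nat_lit 178))) (XT.nd (nat_lit 78) (nat_lit 0) (nat_lit 0) (XT.lf (nat_lit 0) (nat_lit 39906127067) (nat_lit 152) (nat_lit 8469164757) (nat_lit 0) (nat_lit 35438197976) (nat_lit 3) (nat_lit 5) (nat_lit 5) (nat_lit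 4) (nat_lit 3) (nat_lit 4) (nat_lit 399) (nat_lit 204) (nat_lit 177)) (XT.nd (nat_lit 78) (nat_lit 0) (nat_lit 0) (XT.lf (nat_lit 0) (nat_lit 42867167034) (nat_lit 152) (nat_lit 5106559872) (nat_lit 0) (nat_lit 38292683429) (nat_lit 3) (nat_lit 5) (nat_lit 5) (nat_lit 4) (nat_lit 3) (nat_lit 4) (nat_lit 400) (nat_lit 204) (nat_lit 176)) (XT.lf (nat_lit 0) (nat_lit 45889547129) (nat_lit 152) (nat_lit 1692600733) (nat_lit 0) (nat_lit 41211612538) (nat_lit 3) (nat_lit 5) (nat_lit 5) (nat_lit 4) (nat_lit 3) (nat_lit 4) (nat_lit 401) (nat_lit 204) (nat_lit 175))))) (XT.nd (nat_lit 38142) (nat_lit 0) (nat_lit 304) (XT.nd (nat_lit 78) (nat_lit 0) (nat_lit 0) (XT.lf (nat_lit 0) (nat_lit 1811035557) (nat_lit 76) (nat_lit 47182281490) (nat_lit 76) (nat_lit 42403909050) (nat_lit 2) (nat_lit 4) (nat_lit 3) (nat_lit 5) (nat_lit 3) (nat_lit 4) (nat_lit 402) (nat_lit 204) (nat_lit 174)) (XT.nd (nat_lit 78)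 (nat_lit 0) (nat_lit 0) (XT.lf (nat_lit 0) (nat_lit 5406867531) (nat_lit 76) (nat_lit 46774053852) (nat_lit 76) (nat_lit 41898168937) (nat_lit 2) (nat_lit 4) (nat_lit 3) (nat_lit 5) (nat_lit 3) (nat_lit 4) (nat_lit 403) (nat_lit 204) (nat_lit 173)) (XT.lf (nat_lit 0) (nat_lit 9064351103) (nat_lit 76) (nat_lit 46374200195) (nat_lit 76) (nat_lit 41403642974) (nat_lit 2) (nat_lit 4) (nat_lit 3) (nat_lit 5) (nat_lit 3) (nat_lit 4) (nat_lit 404) (nat_lit 204) (nat_lit 172)))) (XT.nd (nat_lit 78) (nat_lit 0) (nat_lit 0) (XT.lf (nat_lit 0) (nat_lit 4110705078) (nat_lit 152) (nat_lit 10325892439) (nat_lit 0) (nat_lit 4110705078) (nat_lit 6) (nat_lit 5) (nat_lit 8) (nat_lit 4) (nat_lit 6) (nat_lit 4) (nat_lit 370) (nat_lit 205) (nat_lit 205)) (XT.nd (nat_lit 78) (nat_lit 0) (nat_lit 0) (XT.lf (nat_lit 0) (nat_lit 11297242357) (nat_lit 152) (nat_lit 15769330992) (nat_lit 0) (nat_lit 11046139664) (nat_lit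 6) (nat_lit 5) (nat_lit 8) (nat_lit 4) (nat_lit 6) (nat_lit 4) (nat_lit 371) (nat_lit 205) (nat_lit 204)) (XT.lf (nat_lit 0) (nat_lit 14405685654) (nat_lit 152) (nat_lit 10846714882) (nat_lit 0) (nat_lit 13910793938) (nat_lit 6) (nat_lit 5) (nat_lit 8) (nat_lit 4) (nat_lit 6) (nat_lit 4) (nat_lit 372) (nat_lit 205) (nat_lit 203)))))) (XT.nd (nat_lit 468) (nat_lit 76) (nat_lit 0) (XT.nd (nat_lit 234) (nat_lit 0) (nat_lit 0) (XT.nd (nat_lit 78) (nat_lit 76) (nat_lit 0) (XT.lf (nat_lit 0) (nat_lit 17549456163) (nat_lit 152) (nat_lit 5879635235) (nat_lit 0) (nat_lit 16817876076) (nat_lit 6) (nat_lit 5) (nat_lit 8) (nat_lit 4) (nat_lit 6) (nat_lit 4) (nat_lit 373) (nat_lit 205) (nat_lit 202)) (XT.nd (nat_lit 78) (nat_lit 76) (nat_lit 0) (XT.lf (nat_lit 0) (nat_lit 20731300869) (nat_lit 152) (nat_lit 863751884) (nat_lit 0) (nat_lit 19769926246) (nat_lit 6) (nat_lit 5) (nat_lit 8) (nat_lit 4) (nat_lit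 6) (nat_lit 4) (nat_lit 374) (nat_lit 205) (nat_lit 201)) (XT.lf (nat_lit 0) (nat_lit 4289012054) (nat_lit 76) (nat_lit 19706216576) (nat_lit 76) (nat_lit 18521740462) (nat_lit 5) (nat_lit 4) (nat_lit 6) (nat_lit 5) (nat_lit 6) (nat_lit 4) (nat_lit 375) (nat_lit 205) (nat_lit 200)))) (XT.nd (nat_lit 78) (nat_lit 0) (nat_lit 0) (XT.lf (nat_lit 0) (nat_lit 9517728815) (nat_lit 76) (nat_lit 17794130992) (nat_lit 76) (nat_lit 16393051489) (nat_lit 5) (nat_lit 4) (nat_lit 6) (nat_lit 5) (nat_lit 6) (nat_lit 4) (nat_lit 376) (nat_lit 205) (nat_lit 199)) (XT.nd (nat_lit 78) (nat_lit 0) (nat_lit 0) (XT.lf (nat_lit 0) (nat_lit 14809776825) (nat_lit 76) (nat_lit 15865847447) (nat_lit 76) (nat_lit 14254473392) (nat_lit 5) (nat_lit 4) (nat_lit 6) (nat_lit 5) (nat_lit 6) (nat_lit 4) (nat_lit 377) (nat_lit 205) (nat_lit 198)) (XT.lf (nat_lit 0) (nat_lit 20169780203) (nat_lit 76) (nat_lit 13919681034) (nat_lit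 76) (nat_lit 12104137511) (nat_lit 5) (nat_lit 4) (nat_lit 6) (nat_lit 5) (nat_lit 6) (nat_lit 4) (nat_lit 378) (nat_lit 205) (nat_lit 197))))) (XT.nd (nat_lit 234) (nat_lit 76) (nat_lit 0) (XT.nd (nat_lit 78) (nat_lit 0) (nat_lit 0) (XT.lf (nat_lit 0) (nat_lit 25602422446) (nat_lit 76) (nat_lit 11953931219) (nat_lit 76) (nat_lit 9940164911) (nat_lit 5) (nat_lit 4) (nat_lit 6) (nat_lit 5) (nat_lit 6) (nat_lit 4) (nat_lit 379) (nat_lit 205) (nat_lit 196)) (XT.nd (nat_lit 78) (nat_lit 0) (nat_lit 0) (XT.lf (nat_lit 0) (nat_lit 31112450524) (nat_lit 76) (nat_lit 9966880356) (nat_lit 76) (nat_lit 7760664742) (nat_lit 5) (nat_lit 4) (nat_lit 6) (nat_lit 5) (nat_lit 6) (nat_lit 4) (nat_lit 380) (nat_lit 205) (nat_lit 195)) (XT.lf (nat_lit 0) (nat_lit 36704679024) (nat_lit 76) (nat_lit 7956792187) (nat_lit 76) (nat_lit 5563732587) (nat_lit 5) (nat_lit 4) (nat_lit 6) (nat_lit 5) (nat_lit 6) (nat_lit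 4) (nat_lit 381) (nat_lit 205) (nat_lit 194)))) (XT.nd (nat_lit 78) (nat_lit 76) (nat_lit 0) (XT.lf (nat_lit 0) (nat_lit 42383994360) (nat_lit 76) (nat_lit 5921910325) (nat_lit 76) (nat_lit 3347448797) (nat_lit 5) (nat_lit 4) (nat_lit 6) (nat_lit 5) (nat_lit 6) (nat_lit 4) (nat_lit 382) (nat_lit 205) (nat_lit 193)) (XT.nd (nat_lit 78) (nat_lit 76) (nat_lit 0) (XT.lf (nat_lit 0) (nat_lit 48155359040) (nat_lit 76) (nat_lit 3860456718) (nat_lit 76) (nat_lit 1109876812) (nat_lit 5) (nat_lit 4) (nat_lit 6) (nat_lit 5) (nat_lit 6) (nat_lit 4) (nat_lit 383) (nat_lit 205) (nat_lit 192)) (XT.lf (nat_lit 0) (nat_lit 1128479570) (nat_lit 152) (nat_lit 630755093) (nat_lit 76) (nat_lit 52883941003) (nat_lit 4) (nat_lit 5) (nat_lit 6) (nat_lit 5) (nat_lit 5) (nat_lit 4) (nat_lit 384) (nat_lit 205) (nat_lit 191))))))) (XT.nd (nat_lit 858) (nat_lit 76) (nat_lit 0) (XT.nd (nat_lit 390) (nat_lit 0) (nat_lit 0)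 (XT.nd (nat_lit 156) (nat_lit 0) (nat_lit 0) (XT.nd (nat_lit 78) (nat_lit 0) (nat_lit 0) (XT.lf (nat_lit 0) (nat_lit 3410752371) (nat_lit 152) (nat_lit 52382051074) (nat_lit 0) (nat_lit 413104718) (nat_lit 3) (nat_lit 5) (nat_lit 5) (nat_lit 4) (nat_lit 3) (nat_lit 4) (nat_lit 385) (nat_lit 205) (nat_lit 190)) (XT.lf (nat_lit 0) (nat_lit 5743761263) (nat_lit 152) (nat_lit 49482684612) (nat_lit 0) (nat_lit 2589634713) (nat_lit 3) (nat_lit 5) (nat_lit 5) (nat_lit 4) (nat_lit 3) (nat_lit 4) (nat_lit 386) (nat_lit 205) (nat_lit 189))) (XT.nd (nat_lit 78) (nat_lit 0) (nat_lit 0) (XT.lf (nat_lit 0) (nat_lit 8106388856) (nat_lit 152) (nat_lit 46569064661) (nat_lit 0) (nat_lit 4800341048) (nat_lit 3) (nat_lit 5) (nat_lit 5) (nat_lit 4) (nat_lit 3) (nat_lit 4) (nat_lit 387) (nat_lit 205) (nat_lit 188)) (XT.nd (nat_lit 78) (nat_lit 0) (nat_lit 0) (XT.lf (nat_lit 0) (nat_lit 10500699584) (nat_lit 152) (nat_lit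 43638645341) (nat_lit 0) (nat_lit 7047155407) (nat_lit 3) (nat_lit 5) (nat_lit 5) (nat_lit 4) (nat_lit 3) (nat_lit 4) (nat_lit 388) (nat_lit 205) (nat_lit 187)) (XT.lf (nat_lit 0) (nat_lit 12928785560) (nat_lit 152) (nat_lit 40688866089) (nat_lit 0) (nat_lit 9332041026) (nat_lit 3) (nat_lit 5) (nat_lit 5) (nat_lit 4) (nat_lit 3) (nat_lit 4) (nat_lit 389) (nat_lit 205) (nat_lit 186))))) (XT.nd (nat_lit 234) (nat_lit 0) (nat_lit 0) (XT.nd (nat_lit 78) (nat_lit 0) (nat_lit 0) (XT.lf (nat_lit 0) (nat_lit 15392768416) (nat_lit 152) (nat_lit 37717149429) (nat_lit 0) (nat_lit 11656994408) (nat_lit 3) (nat_lit 5) (nat_lit 5) (nat_lit 4) (nat_lit 3) (nat_lit 4) (nat_lit 390) (nat_lit 205) (nat_lit 185)) (XT.nd (nat_lit 78) (nat_lit 0) (nat_lit 0) (XT.lf (nat_lit 0) (nat_lit 17894801144) (nat_lit 152) (nat_lit 34720898716) (nat_lit 0) (nat_lit 14024047066) (nat_lit 3) (nat_lit 5) (nat_lit 5) (nat_lit 4)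 (nat_lit 3) (nat_lit 4) (nat_lit 391) (nat_lit 205) (nat_lit 184)) (XT.lf (nat_lit 0) (nat_lit 20437069987) (nat_lit 152) (nat_lit 31697495866) (nat_lit 0) (nat_lit 16435267296) (nat_lit 3) (nat_lit 5) (nat_lit 5) (nat_lit 4) (nat_lit 3) (nat_lit 4) (nat_lit 392) (nat_lit 205) (nat_lit 183)))) (XT.nd (nat_lit 78) (nat_lit 0) (nat_lit 0) (XT.lf (nat_lit 0) (nat_lit 23021796346) (nat_lit 152) (nat_lit 28644299071) (nat_lit 0) (nat_lit 18892761992) (nat_lit 3) (nat_lit 5) (nat_lit 5) (nat_lit 4) (nat_lit 3) (nat_lit 4) (nat_lit 393) (nat_lit 205) (nat_lit 182)) (XT.nd (nat_lit 78) (nat_lit 0) (nat_lit 0) (XT.lf (nat_lit 0) (nat_lit 25651238718) (nat_lit 152) (nat_lit 25558640490) (nat_lit 0) (nat_lit 21398678479) (nat_lit 3) (nat_lit 5) (nat_lit 5) (nat_lit 4) (nat_lit 3) (nat_lit 4) (nat_lit 394) (nat_lit 205) (nat_lit 181)) (XT.lf (nat_lit 0) (nat_lit 28327694676) (nat_lit 152) (nat_lit 22437823915)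 (nat_lit 0) (nat_lit 23955206391) (nat_lit 3) (nat_lit 5) (nat_lit 5) (nat_lit 4) (nat_lit 3) (nat_lit 4) (nat_lit 395) (nat_lit 205) (nat_lit 180)))))) (XT.nd (nat_lit 468) (nat_lit 76) (nat_lit 0) (XT.nd (nat_lit 234) (nat_lit 0) (nat_lit 0) (XT.nd (nat_lit 78) (nat_lit 0) (nat_lit 0) (XT.lf (nat_lit 0) (nat_lit 31053502869) (nat_lit 152) (nat_lit 19279122419) (nat_lit 0) (nat_lit 26564579590) (nat_lit 3) (nat_lit 5) (nat_lit 5) (nat_lit 4) (nat_lit 3) (nat_lit 4) (nat_lit 396) (nat_lit 205) (nat_lit 179)) (XT.nd (nat_lit 78) (nat_lit 0) (nat_lit 0) (XT.lf (nat_lit 0) (nat_lit 33831045072) (nat_lit 152) (nat_lit 16079775973) (nat_lit 0) (nat_lit 29229078109) (nat_lit 3) (nat_lit 5) (nat_lit 5) (nat_lit 4) (nat_lit 3) (nat_lit 4) (nat_lit 397) (nat_lit 205) (nat_lit 178)) (XT.lf (nat_lit 0) (nat_lit 36662748264) (nat_lit 152) (nat_lit 12836989030) (nat_lit 0) (nat_lit 31951030150) (nat_lit 3)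 (nat_lit 5) (nat_lit 5) (nat_lit 4) (nat_lit 3) (nat_lit 4) (nat_lit 398) (nat_lit 205) (nat_lit 177)))) (XT.nd (nat_lit 78) (nat_lit 0) (nat_lit 0) (XT.lf (nat_lit 0) (nat_lit 39551086748) (nat_lit 152) (nat_lit 9547928088) (nat_lit 0) (nat_lit 34732814120) (nat_lit 3) (nat_lit 5) (nat_lit 5) (nat_lit 4) (nat_lit 3) (nat_lit 4) (nat_lit 399) (nat_lit 205) (nat_lit 176)) (XT.nd (nat_lit 78) (nat_lit 0) (nat_lit 0) (XT.lf (nat_lit 0) (nat_lit 42498584315) (nat_lit 152) (nat_lit 6209719209) (nat_lit 0) (nat_lit 37576860702) (nat_lit 3) (nat_lit 5) (nat_lit 5) (nat_lit 4) (nat_lit 3) (nat_lit 4) (nat_lit 400) (nat_lit 205) (nat_lit 175)) (XT.lf (nat_lit 0) (nat_lit 45507816449) (nat_lit 152) (nat_lit 2819445513) (nat_lit 0) (nat_lit 40485654987) (nat_lit 3) (nat_lit 5) (nat_lit 5) (nat_lit 4) (nat_lit 3) (nat_lit 4) (nat_lit 401) (nat_lit 205) (nat_lit 174))))) (XT.nd (nat_lit 37986) (nat_lit 0)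 (nat_lit 304) (XT.nd (nat_lit 78) (nat_lit 0) (nat_lit 0) (XT.lf (nat_lit 0) (nat_lit 638311124) (nat_lit 76) (nat_lit 47949237288) (nat_lit 76) (nat_lit 42829563350) (nat_lit 2) (nat_lit 4) (nat_lit 3) (nat_lit 5) (nat_lit 3) (nat_lit 4) (nat_lit 402) (nat_lit 205) (nat_lit 173)) (XT.nd (nat_lit 78) (nat_lit 0) (nat_lit 0) (XT.lf (nat_lit 0) (nat_lit 4211372970) (nat_lit 76) (nat_lit 47551167685) (nat_lit 76) (nat_lit 42336821441) (nat_lit 2) (nat_lit 4) (nat_lit 3) (nat_lit 5) (nat_lit 3) (nat_lit 4) (nat_lit 403) (nat_lit 205) (nat_lit 172)) (XT.lf (nat_lit 0) (nat_lit 7846749621) (nat_lit 76) (nat_lit 47161176196) (nat_lit 76) (nat_lit 41854915092) (nat_lit 2) (nat_lit 4) (nat_lit 3) (nat_lit 5) (nat_lit 3) (nat_lit 4) (nat_lit 404) (nat_lit 205) (nat_lit 171)))) (XT.nd (nat_lit 78) (nat_lit 0) (nat_lit 0) (XT.lf (nat_lit 0) (nat_lit 1223335735) (nat_lit 152) (nat_lit 15128840011) (nat_lit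 0) (nat_lit 1223335735) (nat_lit 6) (nat_lit 5) (nat_lit 8) (nat_lit 4) (nat_lit 6) (nat_lit 4) (nat_lit 368) (nat_lit 206) (nat_lit 206)) (XT.nd (nat_lit 78) (nat_lit 0) (nat_lit 0) (XT.lf (nat_lit 0) (nat_lit 5434137208) (nat_lit 152) (nat_lit 25498342766) (nat_lit 0) (nat_lit 5175501433) (nat_lit 6) (nat_lit 5) (nat_lit 8) (nat_lit 4) (nat_lit 6) (nat_lit 4) (nat_lit 369) (nat_lit 206) (nat_lit 205)) (XT.lf (nat_lit 0) (nat_lit 8449773131) (nat_lit 152) (nat_lit 20705726128) (nat_lit 0) (nat_lit 7940034663) (nat_lit 6) (nat_lit 5) (nat_lit 8) (nat_lit 4) (nat_lit 6) (nat_lit 4) (nat_lit 370) (nat_lit 206) (nat_lit 204))))))))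
noncomputable def xc7 : XT := (XT.nd (nat_lit 1794) (nat_lit 76) (nat_lit 0) (XT.nd (nat_lit 858) (nat_lit 152) (nat_lit 0) (XT.nd (nat_lit 390) (nat_lit 0) (nat_lit 0) (XT.nd (nat_lit 156) (nat_lit 76) (nat_lit 0) (XT.nd (nat_lit 78) (nat_lit 0) (nat_lit 0) (XT.lf (nat_lit 0) (nat_lit 11496214262) (nat_lit 152) (nat_lit 15875642386) (nat_lit 0) (nat_lit 10742686772) (nat_lit 6) (nat_lit 5) (nat_lit 8) (nat_lit 4) (nat_lit 6) (nat_lit 4) (nat_lit 371) (nat_lit 206) (nat_lit 203)) (XT.lf (nat_lit 0) (nat_lit 14576122541) (nat_lit 152) (nat_lit 11003871077) (nat_lit 0) (nat_lit 13585906679) (nat_lit 6) (nat_lit 5) (nat_lit 8) (nat_lit 4) (nat_lit 6) (nat_lit 4) (nat_lit 372) (nat_lit 206) (nat_lit 202))) (XT.nd (nat_lit 78) (nat_lit 76) (nat_lit 0) (XT.lf (nat_lit 0) (nat_lit 17692189149) (nat_lit 152) (nat_lit 6086155315) (nat_lit 0) (nat_lit 16472178752) (nat_lit 6) (nat_lit 5) (nat_lit 8) (nat_lit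 4) (nat_lit 6) (nat_lit 4) (nat_lit 373) (nat_lit 206) (nat_lit 201)) (XT.nd (nat_lit 78) (nat_lit 76) (nat_lit 0) (XT.lf (nat_lit 0) (nat_lit 20847136863) (nat_lit 152) (nat_lit 1118198066) (nat_lit 0) (nat_lit 19404024975) (nat_lit 6) (nat_lit 5) (nat_lit 8) (nat_lit 4) (nat_lit 6) (nat_lit 4) (nat_lit 374) (nat_lit 206) (nat_lit 200)) (XT.lf (nat_lit 0) (nat_lit 3982045657) (nat_lit 76) (nat_lit 20099954634) (nat_lit 76) (nat_lit 18440239358) (nat_lit 5) (nat_lit 4) (nat_lit 6) (nat_lit 5) (nat_lit 6) (nat_lit 4) (nat_lit 375) (nat_lit 206) (nat_lit 199))))) (XT.nd (nat_lit 234) (nat_lit 0) (nat_lit 0) (XT.nd (nat_lit 78) (nat_lit 0) (nat_lit 0) (XT.lf (nat_lit 0) (nat_lit 9164688402) (nat_lit 76) (nat_lit 18208147182) (nat_lit 76) (nat_lit 16338137353) (nat_lit 5) (nat_lit 4) (nat_lit 6) (nat_lit 5) (nat_lit 6) (nat_lit 4) (nat_lit 376) (nat_lit 206) (nat_lit 198)) (XT.nd (nat_lit 78) (nat_lit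 0) (nat_lit 0) (XT.lf (nat_lit 0) (nat_lit 14412004356) (nat_lit 76) (nat_lit 16299551144) (nat_lit 76) (nat_lit 14225371846) (nat_lit 5) (nat_lit 4) (nat_lit 6) (nat_lit 5) (nat_lit 6) (nat_lit 4) (nat_lit 377) (nat_lit 206) (nat_lit 197)) (XT.lf (nat_lit 0) (nat_lit 19728578553) (nat_lit 76) (nat_lit 14372498815) (nat_lit 76) (nat_lit 12100096732) (nat_lit 5) (nat_lit 4) (nat_lit 6) (nat_lit 5) (nat_lit 6) (nat_lit 4) (nat_lit 378) (nat_lit 206) (nat_lit 196)))) (XT.nd (nat_lit 78) (nat_lit 0) (nat_lit 0) (XT.lf (nat_lit 0) (nat_lit 25119056544) (nat_lit 76) (nat_lit 12425306362) (nat_lit 76) (nat_lit 9960454974) (nat_lit 5) (nat_lit 4) (nat_lit 6) (nat_lit 5) (nat_lit 6) (nat_lit 4) (nat_lit 379) (nat_lit 206) (nat_lit 195)) (XT.nd (nat_lit 78) (nat_lit 0) (nat_lit 0) (XT.lf (nat_lit 0) (nat_lit 30588148454) (nat_lit 76) (nat_lit 10456272356) (nat_lit 76) (nat_lit 7804576982) (nat_lit 5) (nat_lit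 4) (nat_lit 6) (nat_lit 5) (nat_lit 6) (nat_lit 4) (nat_lit 380) (nat_lit 206) (nat_lit 194)) (XT.lf (nat_lit 0) (nat_lit 36140633103) (nat_lit 76) (nat_lit 8463676282) (nat_lit 76) (nat_lit 5630578980) (nat_lit 5) (nat_lit 4) (nat_lit 6) (nat_lit 5) (nat_lit 6) (nat_lit 4) (nat_lit 381) (nat_lit 206) (nat_lit 193)))))) (XT.nd (nat_lit 468) (nat_lit 0) (nat_lit 0) (XT.nd (nat_lit 234) (nat_lit 76) (nat_lit 0) (XT.nd (nat_lit 78) (nat_lit 76) (nat_lit 0) (XT.lf (nat_lit 0) (nat_lit 41781362174) (nat_lit 76) (nat_lit 6445777036) (nat_lit 76) (nat_lit 3436561356) (nat_lit 5) (nat_lit 4) (nat_lit 6) (nat_lit 5) (nat_lit 6) (nat_lit 4) (nat_lit 382) (nat_lit 206) (nat_lit 192)) (XT.nd (nat_lit 78) (nat_lit 76) (nat_lit 0) (XT.lf (nat_lit 0) (nat_lit 47515264462) (nat_lit 76) (nat_lit 4400811405) (nat_lit 76) (nat_lit 1220607010) (nat_lit 5) (nat_lit 4) (nat_lit 6) (nat_lit 5) (nat_lit 6) (nat_lit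 4) (nat_lit 383) (nat_lit 206) (nat_lit 191)) (XT.lf (nat_lit 0) (nat_lit 999331670) (nat_lit 152) (nat_lit 1317569565) (nat_lit 76) (nat_lit 52337927211) (nat_lit 4) (nat_lit 5) (nat_lit 6) (nat_lit 5) (nat_lit 5) (nat_lit 4) (nat_lit 384) (nat_lit 206) (nat_lit 190)))) (XT.nd (nat_lit 78) (nat_lit 0) (nat_lit 0) (XT.lf (nat_lit 0) (nat_lit 3091111944) (nat_lit 76) (nat_lit 159379713) (nat_lit 152) (nat_lit 52968015474) (nat_lit 3) (nat_lit 5) (nat_lit 4) (nat_lit 5) (nat_lit 5) (nat_lit 4) (nat_lit 385) (nat_lit 206) (nat_lit 189)) (XT.nd (nat_lit 78) (nat_lit 0) (nat_lit 0) (XT.lf (nat_lit 0) (nat_lit 5562081023) (nat_lit 152) (nat_lit 50262323027) (nat_lit 0) (nat_lit 2004930521) (nat_lit 3) (nat_lit 5) (nat_lit 5) (nat_lit 4) (nat_lit 3) (nat_lit 4) (nat_lit 386) (nat_lit 206) (nat_lit 188)) (XT.lf (nat_lit 0) (nat_lit 7905400393) (nat_lit 152) (nat_lit 47383485947) (nat_lit 0) (nat_lit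 4200753523) (nat_lit 3) (nat_lit 5) (nat_lit 5) (nat_lit 4) (nat_lit 3) (nat_lit 4) (nat_lit 387) (nat_lit 206) (nat_lit 187))))) (XT.nd (nat_lit 234) (nat_lit 0) (nat_lit 0) (XT.nd (nat_lit 78) (nat_lit 0) (nat_lit 0) (XT.lf (nat_lit 0) (nat_lit 10280965272) (nat_lit 152) (nat_lit 44486836404) (nat_lit 0) (nat_lit 6433118044) (nat_lit 3) (nat_lit 5) (nat_lit 5) (nat_lit 4) (nat_lit 3) (nat_lit 4) (nat_lit 388) (nat_lit 206) (nat_lit 186)) (XT.nd (nat_lit 78) (nat_lit 0) (nat_lit 0) (XT.lf (nat_lit 0) (nat_lit 12690851396) (nat_lit 152) (nat_lit 41569843344) (nat_lit 0) (nat_lit 8703974695) (nat_lit 3) (nat_lit 5) (nat_lit 5) (nat_lit 4) (nat_lit 3) (nat_lit 4) (nat_lit 389) (nat_lit 206) (nat_lit 185)) (XT.lf (nat_lit 0) (nat_lit 15137164491) (nat_lit 152) (nat_lit 38629957939) (nat_lit 0) (nat_lit 11015307719) (nat_lit 3) (nat_lit 5) (nat_lit 5) (nat_lit 4) (nat_lit 3) (nat_lit 4) (nat_lit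 390) (nat_lit 206) (nat_lit 184)))) (XT.nd (nat_lit 78) (nat_lit 0) (nat_lit 0) (XT.lf (nat_lit 0) (nat_lit 17622042112) (nat_lit 152) (nat_lit 35664611356) (nat_lit 0) (nat_lit 13369136728) (nat_lit 3) (nat_lit 5) (nat_lit 5) (nat_lit 4) (nat_lit 3) (nat_lit 4) (nat_lit 391) (nat_lit 206) (nat_lit 183)) (XT.nd (nat_lit 78) (nat_lit 0) (nat_lit 0) (XT.lf (nat_lit 0) (nat_lit 20147655512) (nat_lit 152) (nat_lit 32671212517) (nat_lit 0) (nat_lit 15767518466) (nat_lit 3) (nat_lit 5) (nat_lit 5) (nat_lit 4) (nat_lit 3) (nat_lit 4) (nat_lit 392) (nat_lit 206) (nat_lit 182)) (XT.lf (nat_lit 0) (nat_lit 22716211538) (nat_lit 152) (nat_lit 29647145829) (nat_lit 0) (nat_lit 18212548605) (nat_lit 3) (nat_lit 5) (nat_lit 5) (nat_lit 4) (nat_lit 3) (nat_lit 4) (nat_lit 393) (nat_lit 206) (nat_lit 181))))))) (XT.nd (nat_lit 38532) (nat_lit 0) (nat_lit 228) (XT.nd (nat_lit 468) (nat_lit 76) (nat_lit 0) (XT.nd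 (nat_lit 234) (nat_lit 0) (nat_lit 0) (XT.nd (nat_lit 78) (nat_lit 0) (nat_lit 0) (XT.lf (nat_lit 0) (nat_lit 25329954557) (nat_lit 152) (nat_lit 26589768904) (nat_lit 0) (nat_lit 20706363580) (nat_lit 3) (nat_lit 5) (nat_lit 5) (nat_lit 4) (nat_lit 3) (nat_lit 4) (nat_lit 394) (nat_lit 206) (nat_lit 180)) (XT.nd (nat_lit 78) (nat_lit 0) (nat_lit 0) (XT.lf (nat_lit 0) (nat_lit 27991168425) (nat_lit 152) (nat_lit 23496410249) (nat_lit 0) (nat_lit 23251142452) (nat_lit 3) (nat_lit 5) (nat_lit 5) (nat_lit 4) (nat_lit 3) (nat_lit 4) (nat_lit 395) (nat_lit 206) (nat_lit 179)) (XT.lf (nat_lit 0) (nat_lit 30702178472) (nat_lit 152) (nat_lit 20364366928) (nat_lit 0) (nat_lit 25849108815) (nat_lit 3) (nat_lit 5) (nat_lit 5) (nat_lit 4) (nat_lit 3) (nat_lit 4) (nat_lit 396) (nat_lit 206) (nat_lit 178)))) (XT.nd (nat_lit 78) (nat_lit 0) (nat_lit 0) (XT.lf (nat_lit 0) (nat_lit 33465353544) (nat_lit 152)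 (nat_lit 17190902204) (nat_lit 0) (nat_lit 28502532737) (nat_lit 3) (nat_lit 5) (nat_lit 5) (nat_lit 4) (nat_lit 3) (nat_lit 4) (nat_lit 397) (nat_lit 206) (nat_lit 177)) (XT.nd (nat_lit 78) (nat_lit 0) (nat_lit 0) (XT.lf (nat_lit 0) (nat_lit 36283108064) (nat_lit 152) (nat_lit 13973243147) (nat_lit 0) (nat_lit 31213732742) (nat_lit 3) (nat_lit 5) (nat_lit 5) (nat_lit 4) (nat_lit 3) (nat_lit 4) (nat_lit 398) (nat_lit 206) (nat_lit 176)) (XT.lf (nat_lit 0) (nat_lit 39157904148) (nat_lit 152) (nat_lit 10708578211) (nat_lit 0) (nat_lit 33985077842) (nat_lit 3) (nat_lit 5) (nat_lit 5) (nat_lit 4) (nat_lit 3) (nat_lit 4) (nat_lit 399) (nat_lit 206) (nat_lit 175))))) (XT.nd (nat_lit 234) (nat_lit 76) (nat_lit 0) (XT.nd (nat_lit 78) (nat_lit 0) (nat_lit 0) (XT.lf (nat_lit 0) (nat_lit 42092253755) (nat_lit 152) (nat_lit 7394054775) (nat_lit 0) (nat_lit 36818989599) (nat_lit 3) (nat_lit 5) (nat_lit 5)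 (nat_lit 4) (nat_lit 3) (nat_lit 4) (nat_lit 400) (nat_lit 206) (nat_lit 174)) (XT.nd (nat_lit 78) (nat_lit 0) (nat_lit 0) (XT.lf (nat_lit 0) (nat_lit 45088720878) (nat_lit 152) (nat_lit 4026776654) (nat_lit 0) (nat_lit 39717944247) (nat_lit 3) (nat_lit 5) (nat_lit 5) (nat_lit 4) (nat_lit 3) (nat_lit 4) (nat_lit 401) (nat_lit 206) (nat_lit 173)) (XT.lf (nat_lit 0) (nat_lit 48149923790) (nat_lit 152) (nat_lit 603801567) (nat_lit 0) (nat_lit 42684474853) (nat_lit 3) (nat_lit 5) (nat_lit 5) (nat_lit 4) (nat_lit 3) (nat_lit 4) (nat_lit 402) (nat_lit 206) (nat_lit 172)))) (XT.nd (nat_lit 78) (nat_lit 0) (nat_lit 0) (XT.lf (nat_lit 0) (nat_lit 2935136522) (nat_lit 76) (nat_lit 48371615135) (nat_lit 76) (nat_lit 42814251338) (nat_lit 2) (nat_lit 4) (nat_lit 3) (nat_lit 5) (nat_lit 3) (nat_lit 4) (nat_lit 403) (nat_lit 206) (nat_lit 171)) (XT.nd (nat_lit 37674) (nat_lit 0) (nat_lit 456) (XT.lf (nat_lit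 0) (nat_lit 6549050143) (nat_lit 76) (nat_lit 47991198568) (nat_lit 76) (nat_lit 42344597042) (nat_lit 2) (nat_lit 4) (nat_lit 3) (nat_lit 5) (nat_lit 3) (nat_lit 4) (nat_lit 404) (nat_lit 206) (nat_lit 170)) (XT.lf (nat_lit 0) (nat_lit 13535743260) (nat_lit 76) (nat_lit 1562359827) (nat_lit 76) (nat_lit 1562359827) (nat_lit 8) (nat_lit 4) (nat_lit 9) (nat_lit 5) (nat_lit 9) (nat_lit 4) (nat_lit 366) (nat_lit 207) (nat_lit 207)))))) (XT.nd (nat_lit 468) (nat_lit 76) (nat_lit 0) (XT.nd (nat_lit 234) (nat_lit 0) (nat_lit 0) (XT.nd (nat_lit 78) (nat_lit 152) (nat_lit 0) (XT.lf (nat_lit 0) (nat_lit 33466796308) (nat_lit 76) (nat_lit 515484946) (nat_lit 76) (nat_lit 241098253) (nat_lit 8) (nat_lit 4) (nat_lit 9) (nat_lit 5) (nat_lit 9) (nat_lit 4) (nat_lit 367) (nat_lit 207) (nat_lit 206)) (XT.nd (nat_lit 78) (nat_lit 0) (nat_lit 0) (XT.lf (nat_lit 0) (nat_lit 2681885334) (nat_lit 152) (nat_lit 30313239509)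 (nat_lit 0) (nat_lit 2156854712) (nat_lit 6) (nat_lit 5) (nat_lit 8) (nat_lit 4) (nat_lit 6) (nat_lit 4) (nat_lit 368) (nat_lit 207) (nat_lit 205)) (XT.lf (nat_lit 0) (nat_lit 5639078270) (nat_lit 152) (nat_lit 25607843502) (nat_lit 0) (nat_lit 4862944955) (nat_lit 6) (nat_lit 5) (nat_lit 8) (nat_lit 4) (nat_lit 6) (nat_lit 4) (nat_lit 369) (nat_lit 207) (nat_lit 204)))) (XT.nd (nat_lit 78) (nat_lit 0) (nat_lit 0) (XT.lf (nat_lit 0) (nat_lit 8625323124) (nat_lit 152) (nat_lit 20867597010) (nat_lit 0) (nat_lit 7605400787) (nat_lit 6) (nat_lit 5) (nat_lit 8) (nat_lit 4) (nat_lit 6) (nat_lit 4) (nat_lit 370) (nat_lit 207) (nat_lit 203)) (XT.nd (nat_lit 78) (nat_lit 0) (nat_lit 0) (XT.lf (nat_lit 0) (nat_lit 11643229238) (nat_lit 152) (nat_lit 16088358068) (nat_lit 0) (nat_lit 10386618529) (nat_lit 6) (nat_lit 5) (nat_lit 8) (nat_lit 4) (nat_lit 6) (nat_lit 4) (nat_lit 371) (nat_lit 207) (nat_lit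 202)) (XT.lf (nat_lit 0) (nat_lit 14695433615) (nat_lit 152) (nat_lit 11265950644) (nat_lit 0) (nat_lit 13209028371) (nat_lit 6) (nat_lit 5) (nat_lit 8) (nat_lit 4) (nat_lit 6) (nat_lit 4) (nat_lit 372) (nat_lit 207) (nat_lit 201))))) (XT.nd (nat_lit 234) (nat_lit 0) (nat_lit 0) (XT.nd (nat_lit 78) (nat_lit 76) (nat_lit 0) (XT.lf (nat_lit 0) (nat_lit 17784603232) (nat_lit 152) (nat_lit 6396160983) (nat_lit 0) (nat_lit 16075096497) (nat_lit 6) (nat_lit 5) (nat_lit 8) (nat_lit 4) (nat_lit 6) (nat_lit 4) (nat_lit 373) (nat_lit 207) (nat_lit 200)) (XT.nd (nat_lit 78) (nat_lit 76) (nat_lit 0) (XT.lf (nat_lit 0) (nat_lit 20913437362) (nat_lit 152) (nat_lit 1474733929) (nat_lit 0) (nat_lit 18987327238) (nat_lit 6) (nat_lit 5) (nat_lit 8) (nat_lit 4) (nat_lit 6) (nat_lit 4) (nat_lit 374) (nat_lit 207) (nat_lit 199)) (XT.lf (nat_lit 0) (nat_lit 3572340014) (nat_lit 76) (nat_lit 20546669442) (nat_lit 76)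 (nat_lit 18410264765) (nat_lit 5) (nat_lit 4) (nat_lit 6) (nat_lit 5) (nat_lit 6) (nat_lit 4) (nat_lit 375) (nat_lit 207) (nat_lit 198)))) (XT.nd (nat_lit 78) (nat_lit 0) (nat_lit 0) (XT.lf (nat_lit 0) (nat_lit 8710250703) (nat_lit 76) (nat_lit 18674549496) (nat_lit 76) (nat_lit 16333975351) (nat_lit 5) (nat_lit 4) (nat_lit 6) (nat_lit 5) (nat_lit 6) (nat_lit 4) (nat_lit 376) (nat_lit 207) (nat_lit 197)) (XT.nd (nat_lit 78) (nat_lit 0) (nat_lit 0) (XT.lf (nat_lit 0) (nat_lit 13914137477) (nat_lit 76) (nat_lit 16785067541) (nat_lit 76) (nat_lit 14246270611) (nat_lit 5) (nat_lit 4) (nat_lit 6) (nat_lit 5) (nat_lit 6) (nat_lit 4) (nat_lit 377) (nat_lit 207) (nat_lit 196)) (XT.lf (nat_lit 0) (nat_lit 19188547422) (nat_lit 76) (nat_lit 14876572575) (nat_lit 76) (nat_lit 12145326339) (nat_lit 5) (nat_lit 4) (nat_lit 6) (nat_lit 5) (nat_lit 6) (nat_lit 4) (nat_lit 378) (nat_lit 207) (nat_lit 195))))))))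
noncomputable def xc8 : XT := (XT.nd (nat_lit 1794) (nat_lit 76) (nat_lit 0) (XT.nd (nat_lit 858) (nat_lit 0) (nat_lit 0) (XT.nd (nat_lit 390) (nat_lit 152) (nat_lit 0) (XT.nd (nat_lit 156) (nat_lit 0) (nat_lit 0) (XT.nd (nat_lit 78) (nat_lit 0) (nat_lit 0) (XT.lf (nat_lit 0) (nat_lit 24538089245) (nat_lit 76) (nat_lit 12947396980) (nat_lit 76) (nat_lit 10029306758) (nat_lit 5) (nat_lit 4) (nat_lit 6) (nat_lit 5) (nat_lit 6) (nat_lit 4) (nat_lit 379) (nat_lit 207) (nat_lit 194)) (XT.lf (nat_lit 0) (nat_lit 29967437303) (nat_lit 76) (nat_lit 10995855068) (nat_lit 76) (nat_lit 7896362919) (nat_lit 5) (nat_lit 4) (nat_lit 6) (nat_lit 5) (nat_lit 6) (nat_lit 4) (nat_lit 380) (nat_lit 207) (nat_lit 193))) (XT.nd (nat_lit 78) (nat_lit 0) (nat_lit 0) (XT.lf (nat_lit 0) (nat_lit 35481335688) (nat_lit 76) (nat_lit 9020241610) (nat_lit 76) (nat_lit 5744631083) (nat_lit 5) (nat_lit 4) (nat_lit 6) (nat_lit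 5) (nat_lit 6) (nat_lit 4) (nat_lit 381) (nat_lit 207) (nat_lit 192)) (XT.nd (nat_lit 78) (nat_lit 0) (nat_lit 0) (XT.lf (nat_lit 0) (nat_lit 41084602367) (nat_lit 76) (nat_lit 7018830340) (nat_lit 76) (nat_lit 3572231098) (nat_lit 5) (nat_lit 4) (nat_lit 6) (nat_lit 5) (nat_lit 6) (nat_lit 4) (nat_lit 382) (nat_lit 207) (nat_lit 191)) (XT.lf (nat_lit 0) (nat_lit 46782133400) (nat_lit 76) (nat_lit 4989872454) (nat_lit 76) (nat_lit 1377264750) (nat_lit 5) (nat_lit 4) (nat_lit 6) (nat_lit 5) (nat_lit 6) (nat_lit 4) (nat_lit 383) (nat_lit 207) (nat_lit 190))))) (XT.nd (nat_lit 234) (nat_lit 0) (nat_lit 0) (XT.nd (nat_lit 78) (nat_lit 76) (nat_lit 0) (XT.lf (nat_lit 0) (nat_lit 825751813) (nat_lit 152) (nat_lit 2097504786) (nat_lit 76) (nat_lit 51744816925) (nat_lit 4) (nat_lit 5) (nat_lit 6) (nat_lit 5) (nat_lit 5) (nat_lit 4) (nat_lit 384) (nat_lit 207) (nat_lit 189)) (XT.nd (nat_lit 78) (nat_lit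 0) (nat_lit 0) (XT.lf (nat_lit 0) (nat_lit 2260282378) (nat_lit 76) (nat_lit 789245820) (nat_lit 152) (nat_lit 53183057949) (nat_lit 3) (nat_lit 5) (nat_lit 4) (nat_lit 5) (nat_lit 5) (nat_lit 4) (nat_lit 385) (nat_lit 207) (nat_lit 188)) (XT.lf (nat_lit 0) (nat_lit 5335754682) (nat_lit 152) (nat_lit 51135959822) (nat_lit 0) (nat_lit 1372472038) (nat_lit 3) (nat_lit 5) (nat_lit 5) (nat_lit 4) (nat_lit 3) (nat_lit 4) (nat_lit 386) (nat_lit 207) (nat_lit 187)))) (XT.nd (nat_lit 78) (nat_lit 0) (nat_lit 0) (XT.lf (nat_lit 0) (nat_lit 7660328203) (nat_lit 152) (nat_lit 48290892521) (nat_lit 0) (nat_lit 3553845202) (nat_lit 3) (nat_lit 5) (nat_lit 5) (nat_lit 4) (nat_lit 3) (nat_lit 4) (nat_lit 387) (nat_lit 207) (nat_lit 186)) (XT.nd (nat_lit 78) (nat_lit 0) (nat_lit 0) (XT.lf (nat_lit 0) (nat_lit 10017693229) (nat_lit 152) (nat_lit 45427029170) (nat_lit 0) (nat_lit 5772180755) (nat_lit 3) (nat_lit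 5) (nat_lit 5) (nat_lit 4) (nat_lit 3) (nat_lit 4) (nat_lit 388) (nat_lit 207) (nat_lit 185)) (XT.lf (nat_lit 0) (nat_lit 12409909594) (nat_lit 152) (nat_lit 42541867364) (nat_lit 0) (nat_lit 8029417048) (nat_lit 3) (nat_lit 5) (nat_lit 5) (nat_lit 4) (nat_lit 3) (nat_lit 4) (nat_lit 389) (nat_lit 207) (nat_lit 184)))))) (XT.nd (nat_lit 468) (nat_lit 0) (nat_lit 0) (XT.nd (nat_lit 234) (nat_lit 0) (nat_lit 0) (XT.nd (nat_lit 78) (nat_lit 0) (nat_lit 0) (XT.lf (nat_lit 0) (nat_lit 14839067582) (nat_lit 152) (nat_lit 39632886089) (nat_lit 0) (nat_lit 10327526424) (nat_lit 3) (nat_lit 5) (nat_lit 5) (nat_lit 4) (nat_lit 3) (nat_lit 4) (nat_lit 390) (nat_lit 207) (nat_lit 183)) (XT.nd (nat_lit 78) (nat_lit 0) (nat_lit 0) (XT.lf (nat_lit 0) (nat_lit 17307289760) (nat_lit 152) (nat_lit 36697543517) (nat_lit 0) (nat_lit 12668516939) (nat_lit 3) (nat_lit 5) (nat_lit 5) (nat_lit 4) (nat_lit 3) (nat_lit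 4) (nat_lit 391) (nat_lit 207) (nat_lit 182)) (XT.lf (nat_lit 0) (nat_lit 19816732827) (nat_lit 152) (nat_lit 33733274784) (nat_lit 0) (nat_lit 15054434120) (nat_lit 3) (nat_lit 5) (nat_lit 5) (nat_lit 4) (nat_lit 3) (nat_lit 4) (nat_lit 392) (nat_lit 207) (nat_lit 181)))) (XT.nd (nat_lit 78) (nat_lit 0) (nat_lit 0) (XT.lf (nat_lit 0) (nat_lit 22369589499) (nat_lit 152) (nat_lit 30737489753) (nat_lit 0) (nat_lit 17487362747) (nat_lit 3) (nat_lit 5) (nat_lit 5) (nat_lit 4) (nat_lit 3) (nat_lit 4) (nat_lit 393) (nat_lit 207) (nat_lit 180)) (XT.nd (nat_lit 78) (nat_lit 0) (nat_lit 0) (XT.lf (nat_lit 0) (nat_lit 24968090429) (nat_lit 152) (nat_lit 27707570748) (nat_lit 0) (nat_lit 19969428682) (nat_lit 3) (nat_lit 5) (nat_lit 5) (nat_lit 4) (nat_lit 3) (nat_lit 4) (nat_lit 394) (nat_lit 207) (nat_lit 179)) (XT.lf (nat_lit 0) (nat_lit 27614506150) (nat_lit 152) (nat_lit 24640870267) (nat_lit 0) (nat_lit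 22502800719) (nat_lit 3) (nat_lit 5) (nat_lit 5) (nat_lit 4) (nat_lit 3) (nat_lit 4) (nat_lit 395) (nat_lit 207) (nat_lit 178))))) (XT.nd (nat_lit 234) (nat_lit 0) (nat_lit 0) (XT.nd (nat_lit 78) (nat_lit 0) (nat_lit 0) (XT.lf (nat_lit 0) (nat_lit 30311149066) (nat_lit 152) (nat_lit 21534708669) (nat_lit 0) (nat_lit 25089692485) (nat_lit 3) (nat_lit 5) (nat_lit 5) (nat_lit 4) (nat_lit 3) (nat_lit 4) (nat_lit 396) (nat_lit 207) (nat_lit 177)) (XT.nd (nat_lit 78) (nat_lit 0) (nat_lit 0) (XT.lf (nat_lit 0) (nat_lit 33060375466) (nat_lit 152) (nat_lit 18386371831) (nat_lit 0) (nat_lit 27732364370) (nat_lit 3) (nat_lit 5) (nat_lit 5) (nat_lit 4) (nat_lit 3) (nat_lit 4) (nat_lit 397) (nat_lit 207) (nat_lit 176)) (XT.lf (nat_lit 0) (nat_lit 35864587586) (nat_lit 152) (nat_lit 15193108780) (nat_lit 0) (nat_lit 30433125506) (nat_lit 3) (nat_lit 5) (nat_lit 5) (nat_lit 4) (nat_lit 3) (nat_lit 4) (nat_lit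 398) (nat_lit 207) (nat_lit 175)))) (XT.nd (nat_lit 78) (nat_lit 0) (nat_lit 0) (XT.lf (nat_lit 0) (nat_lit 38726235710) (nat_lit 152) (nat_lit 11952129287) (nat_lit 0) (nat_lit 33194335780) (nat_lit 3) (nat_lit 5) (nat_lit 5) (nat_lit 4) (nat_lit 3) (nat_lit 4) (nat_lit 399) (nat_lit 207) (nat_lit 174)) (XT.nd (nat_lit 78) (nat_lit 0) (nat_lit 0) (XT.lf (nat_lit 0) (nat_lit 41647820306) (nat_lit 152) (nat_lit 8660601426) (nat_lit 0) (nat_lit 36018407901) (nat_lit 3) (nat_lit 5) (nat_lit 5) (nat_lit 4) (nat_lit 3) (nat_lit 4) (nat_lit 400) (nat_lit 207) (nat_lit 173)) (XT.lf (nat_lit 0) (nat_lit 44631894215) (nat_lit 152) (nat_lit 5315649107) (nat_lit 0) (nat_lit 38907809504) (nat_lit 3) (nat_lit 5) (nat_lit 5) (nat_lit 4) (nat_lit 3) (nat_lit 4) (nat_lit 401) (nat_lit 207) (nat_lit 172))))))) (XT.nd (nat_lit 38298) (nat_lit 0) (nat_lit 228) (XT.nd (nat_lit 37830) (nat_lit 0) (nat_lit 304) (XT.nd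 (nat_lit 156) (nat_lit 0) (nat_lit 0) (XT.nd (nat_lit 78) (nat_lit 76) (nat_lit 0) (XT.lf (nat_lit 0) (nat_lit 47681064881) (nat_lit 152) (nat_lit 1914349554) (nat_lit 0) (nat_lit 41865065310) (nat_lit 3) (nat_lit 5) (nat_lit 5) (nat_lit 4) (nat_lit 3) (nat_lit 4) (nat_lit 402) (nat_lit 207) (nat_lit 171)) (XT.lf (nat_lit 0) (nat_lit 1577043030) (nat_lit 76) (nat_lit 49236113099) (nat_lit 76) (nat_lit 43330875800) (nat_lit 2) (nat_lit 4) (nat_lit 3) (nat_lit 5) (nat_lit 3) (nat_lit 4) (nat_lit 403) (nat_lit 207) (nat_lit 170))) (XT.nd (nat_lit 37518) (nat_lit 0) (nat_lit 456) (XT.lf (nat_lit 0) (nat_lit 5170118758) (nat_lit 76) (nat_lit 48864992572) (nat_lit 76) (nat_lit 42873116701) (nat_lit 2) (nat_lit 4) (nat_lit 3) (nat_lit 5) (nat_lit 3) (nat_lit 4) (nat_lit 404) (nat_lit 207) (nat_lit 169)) (XT.nd (nat_lit 78) (nat_lit 0) (nat_lit 0) (XT.lf (nat_lit 0) (nat_lit 7283450580) (nat_lit 76)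 (nat_lit 4257965039) (nat_lit 76) (nat_lit 4257965039) (nat_lit 8) (nat_lit 4) (nat_lit 9) (nat_lit 5) (nat_lit 9) (nat_lit 4) (nat_lit 364) (nat_lit 208) (nat_lit 208)) (XT.lf (nat_lit 0) (nat_lit 20754568343) (nat_lit 76) (nat_lit 5987342394) (nat_lit 76) (nat_lit 5704724100) (nat_lit 8) (nat_lit 4) (nat_lit 9) (nat_lit 5) (nat_lit 9) (nat_lit 4) (nat_lit 365) (nat_lit 208) (nat_lit 207))))) (XT.nd (nat_lit 234) (nat_lit 0) (nat_lit 0) (XT.nd (nat_lit 78) (nat_lit 152) (nat_lit 0) (XT.lf (nat_lit 0) (nat_lit 27016749607) (nat_lit 76) (nat_lit 3431066948) (nat_lit 76) (nat_lit 2874061962) (nat_lit 8) (nat_lit 4) (nat_lit 9) (nat_lit 5) (nat_lit 9) (nat_lit 4) (nat_lit 366) (nat_lit 208) (nat_lit 206)) (XT.nd (nat_lit 78) (nat_lit 152) (nat_lit 0) (XT.lf (nat_lit 0) (nat_lit 33358916760) (nat_lit 76) (nat_lit 844870104) (nat_lit 76) (nat_lit 21470270) (nat_lit 8) (nat_lit 4) (nat_lit 9) (nat_lit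 5) (nat_lit 9) (nat_lit 4) (nat_lit 367) (nat_lit 208) (nat_lit 205)) (XT.lf (nat_lit 0) (nat_lit 2862701827) (nat_lit 152) (nat_lit 30479966516) (nat_lit 0) (nat_lit 1812181819) (nat_lit 6) (nat_lit 5) (nat_lit 8) (nat_lit 4) (nat_lit 6) (nat_lit 4) (nat_lit 368) (nat_lit 208) (nat_lit 204)))) (XT.nd (nat_lit 78) (nat_lit 0) (nat_lit 0) (XT.lf (nat_lit 0) (nat_lit 5790503694) (nat_lit 152) (nat_lit 25826940655) (nat_lit 0) (nat_lit 4496194664) (nat_lit 6) (nat_lit 5) (nat_lit 8) (nat_lit 4) (nat_lit 6) (nat_lit 4) (nat_lit 369) (nat_lit 208) (nat_lit 203)) (XT.nd (nat_lit 78) (nat_lit 0) (nat_lit 0) (XT.lf (nat_lit 0) (nat_lit 8748213530) (nat_lit 152) (nat_lit 21137538963) (nat_lit 0) (nat_lit 7217216129) (nat_lit 6) (nat_lit 5) (nat_lit 8) (nat_lit 4) (nat_lit 6) (nat_lit 4) (nat_lit 370) (nat_lit 208) (nat_lit 202)) (XT.lf (nat_lit 0) (nat_lit 11738415743) (nat_lit 152) (nat_lit 16407663906)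 (nat_lit 0) (nat_lit 9977623806) (nat_lit 6) (nat_lit 5) (nat_lit 8) (nat_lit 4) (nat_lit 6) (nat_lit 4) (nat_lit 371) (nat_lit 208) (nat_lit 201)))))) (XT.nd (nat_lit 468) (nat_lit 0) (nat_lit 0) (XT.nd (nat_lit 234) (nat_lit 76) (nat_lit 0) (XT.nd (nat_lit 78) (nat_lit 0) (nat_lit 0) (XT.lf (nat_lit 0) (nat_lit 14763723129) (nat_lit 152) (nat_lit 11633182583) (nat_lit 0) (nat_lit 12779829701) (nat_lit 6) (nat_lit 5) (nat_lit 8) (nat_lit 4) (nat_lit 6) (nat_lit 4) (nat_lit 372) (nat_lit 208) (nat_lit 200)) (XT.nd (nat_lit 78) (nat_lit 0) (nat_lit 0) (XT.lf (nat_lit 0) (nat_lit 17826779162) (nat_lit 152) (nat_lit 6809923118) (nat_lit 0) (nat_lit 15626282345) (nat_lit 6) (nat_lit 5) (nat_lit 8) (nat_lit 4) (nat_lit 6) (nat_lit 4) (nat_lit 373) (nat_lit 208) (nat_lit 199)) (XT.lf (nat_lit 0) (nat_lit 20930260298) (nat_lit 152) (nat_lit 1933671011) (nat_lit 0) (nat_lit 18519468929) (nat_lit 6) (nat_lit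 5) (nat_lit 8) (nat_lit 4) (nat_lit 6) (nat_lit 4) (nat_lit 374) (nat_lit 208) (nat_lit 198)))) (XT.nd (nat_lit 78) (nat_lit 0) (nat_lit 0) (XT.lf (nat_lit 0) (nat_lit 3059537128) (nat_lit 76) (nat_lit 21046751331) (nat_lit 76) (nat_lit 18431790493) (nat_lit 5) (nat_lit 4) (nat_lit 6) (nat_lit 5) (nat_lit 6) (nat_lit 4) (nat_lit 375) (nat_lit 208) (nat_lit 197)) (XT.nd (nat_lit 78) (nat_lit 0) (nat_lit 0) (XT.lf (nat_lit 0) (nat_lit 8154018637) (nat_lit 76) (nat_lit 19193745469) (nat_lit 76) (nat_lit 16380561846) (nat_lit 5) (nat_lit 4) (nat_lit 6) (nat_lit 5) (nat_lit 6) (nat_lit 4) (nat_lit 376) (nat_lit 208) (nat_lit 196)) (XT.lf (nat_lit 0) (nat_lit 13315741159) (nat_lit 76) (nat_lit 17322820877) (nat_lit 76) (nat_lit 14317187949) (nat_lit 5) (nat_lit 4) (nat_lit 6) (nat_lit 5) (nat_lit 6) (nat_lit 4) (nat_lit 377) (nat_lit 208) (nat_lit 195))))) (XT.nd (nat_lit 234) (nat_lit 0) (nat_lit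 0) (XT.nd (nat_lit 78) (nat_lit 0) (nat_lit 0) (XT.lf (nat_lit 0) (nat_lit 18549214936) (nat_lit 76) (nat_lit 15432342768) (nat_lit 76) (nat_lit 12239865854) (nat_lit 5) (nat_lit 4) (nat_lit 6) (nat_lit 5) (nat_lit 6) (nat_lit 4) (nat_lit 378) (nat_lit 208) (nat_lit 194)) (XT.nd (nat_lit 78) (nat_lit 0) (nat_lit 0) (XT.lf (nat_lit 0) (nat_lit 23859012908) (nat_lit 76) (nat_lit 13520659268) (nat_lit 76) (nat_lit 10146780425) (nat_lit 5) (nat_lit 4) (nat_lit 6) (nat_lit 5) (nat_lit 6) (nat_lit 4) (nat_lit 379) (nat_lit 208) (nat_lit 193)) (XT.lf (nat_lit 0) (nat_lit 29249774702) (nat_lit 76) (nat_lit 11586099972) (nat_lit 76) (nat_lit 8036102752) (nat_lit 5) (nat_lit 4) (nat_lit 6) (nat_lit 5) (nat_lit 6) (nat_lit 4) (nat_lit 380) (nat_lit 208) (nat_lit 192)))) (XT.nd (nat_lit 78) (nat_lit 0) (nat_lit 0) (XT.lf (nat_lit 0) (nat_lit 34726210694) (nat_lit 76) (nat_lit 9626974490) (nat_lit 76) (nat_lit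 5905988555) (nat_lit 5) (nat_lit 4) (nat_lit 6) (nat_lit 5) (nat_lit 6) (nat_lit 4) (nat_lit 381) (nat_lit 208) (nat_lit 191)) (XT.nd (nat_lit 78) (nat_lit 0) (nat_lit 0) (XT.lf (nat_lit 0) (nat_lit 40293106119) (nat_lit 76) (nat_lit 7641570965) (nat_lit 76) (nat_lit 3754576568) (nat_lit 5) (nat_lit 4) (nat_lit 6) (nat_lit 5) (nat_lit 6) (nat_lit 4) (nat_lit 382) (nat_lit 208) (nat_lit 190)) (XT.lf (nat_lit 0) (nat_lit 45955325255) (nat_lit 76) (nat_lit 5628154577) (nat_lit 76) (nat_lit 1579986917) (nat_lit 5) (nat_lit 4) (nat_lit 6) (nat_lit 5) (nat_lit 6) (nat_lit 4) (nat_lit 383) (nat_lit 208) (nat_lit 189))))))))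
noncomputable def xc9 : XT := (XT.nd (nat_lit 39078) (nat_lit 0) (nat_lit 76) (XT.nd (nat_lit 858) (nat_lit 76) (nat_lit 0) (XT.nd (nat_lit 390) (nat_lit 0) (nat_lit 0) (XT.nd (nat_lit 156) (nat_lit 0) (nat_lit 0) (XT.nd (nat_lit 78) (nat_lit 76) (nat_lit 0) (XT.lf (nat_lit 0) (nat_lit 607588325) (nat_lit 152) (nat_lit 2971242255) (nat_lit 76) (nat_lit 51104091894) (nat_lit 4) (nat_lit 5) (nat_lit 6) (nat_lit 5) (nat_lit 5) (nat_lit 4) (nat_lit 384) (nat_lit 208) (nat_lit 188)) (XT.lf (nat_lit 0) (nat_lit 1334813971) (nat_lit 76) (nat_lit 1468822377) (nat_lit 152) (nat_lit 53444642669) (nat_lit 3) (nat_lit 5) (nat_lit 4) (nat_lit 5) (nat_lit 5) (nat_lit 4) (nat_lit 385) (nat_lit 208) (nat_lit 187))) (XT.nd (nat_lit 78) (nat_lit 0) (nat_lit 0) (XT.lf (nat_lit 0) (nat_lit 5064584478) (nat_lit 152) (nat_lit 52104358371) (nat_lit 0) (nat_lit 691706629) (nat_lit 3) (nat_lit 5) (nat_lit 5) (nat_lit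 4) (nat_lit 3) (nat_lit 4) (nat_lit 386) (nat_lit 208) (nat_lit 186)) (XT.nd (nat_lit 78) (nat_lit 0) (nat_lit 0) (XT.lf (nat_lit 0) (nat_lit 7370958147) (nat_lit 152) (nat_lit 49292077261) (nat_lit 0) (nat_lit 2859050825) (nat_lit 3) (nat_lit 5) (nat_lit 5) (nat_lit 4) (nat_lit 3) (nat_lit 4) (nat_lit 387) (nat_lit 208) (nat_lit 185)) (XT.lf (nat_lit 0) (nat_lit 9710653413) (nat_lit 152) (nat_lit 46460045164) (nat_lit 0) (nat_lit 5063766020) (nat_lit 3) (nat_lit 5) (nat_lit 5) (nat_lit 4) (nat_lit 3) (nat_lit 4) (nat_lit 388) (nat_lit 208) (nat_lit 184))))) (XT.nd (nat_lit 234) (nat_lit 0) (nat_lit 0) (XT.nd (nat_lit 78) (nat_lit 0) (nat_lit 0) (XT.lf (nat_lit 0) (nat_lit 12085714671) (nat_lit 152) (nat_lit 43605787489) (nat_lit 0) (nat_lit 7307778665) (nat_lit 3) (nat_lit 5) (nat_lit 5) (nat_lit 4) (nat_lit 3) (nat_lit 4) (nat_lit 389) (nat_lit 208) (nat_lit 183)) (XT.nd (nat_lit 78) (nat_lit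 0) (nat_lit 0) (XT.lf (nat_lit 0) (nat_lit 14498217216) (nat_lit 152) (nat_lit 40726810224) (nat_lit 0) (nat_lit 9593049548) (nat_lit 3) (nat_lit 5) (nat_lit 5) (nat_lit 4) (nat_lit 3) (nat_lit 4) (nat_lit 390) (nat_lit 208) (nat_lit 182)) (XT.lf (nat_lit 0) (nat_lit 16950269060) (nat_lit 152) (nat_lit 37820597758) (nat_lit 0) (nat_lit 11921575506) (nat_lit 3) (nat_lit 5) (nat_lit 5) (nat_lit 4) (nat_lit 3) (nat_lit 4) (nat_lit 391) (nat_lit 208) (nat_lit 181)))) (XT.nd (nat_lit 78) (nat_lit 0) (nat_lit 0) (XT.lf (nat_lit 0) (nat_lit 19444012774) (nat_lit 152) (nat_lit 34884610683) (nat_lit 0) (nat_lit 14295391175) (nat_lit 3) (nat_lit 5) (nat_lit 5) (nat_lit 4) (nat_lit 3) (nat_lit 4) (nat_lit 392) (nat_lit 208) (nat_lit 180)) (XT.nd (nat_lit 78) (nat_lit 0) (nat_lit 0) (XT.lf (nat_lit 0) (nat_lit 21981627356) (nat_lit 152) (nat_lit 31916283572) (nat_lit 0) (nat_lit 16716570762) (nat_lit 3)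 (nat_lit 5) (nat_lit 5) (nat_lit 4) (nat_lit 3) (nat_lit 4) (nat_lit 393) (nat_lit 208) (nat_lit 179)) (XT.lf (nat_lit 0) (nat_lit 24565330140) (nat_lit 152) (nat_lit 28913022741) (nat_lit 0) (nat_lit 19187229862) (nat_lit 3) (nat_lit 5) (nat_lit 5) (nat_lit 4) (nat_lit 3) (nat_lit 4) (nat_lit 394) (nat_lit 208) (nat_lit 178)))))) (XT.nd (nat_lit 468) (nat_lit 76) (nat_lit 0) (XT.nd (nat_lit 234) (nat_lit 0) (nat_lit 0) (XT.nd (nat_lit 78) (nat_lit 0) (nat_lit 0) (XT.lf (nat_lit 0) (nat_lit 27197378730) (nat_lit 152) (nat_lit 25872203983) (nat_lit 0) (nat_lit 21709527302) (nat_lit 3) (nat_lit 5) (nat_lit 5) (nat_lit 4) (nat_lit 3) (nat_lit 4) (nat_lit 395) (nat_lit 208) (nat_lit 177)) (XT.nd (nat_lit 78) (nat_lit 0) (nat_lit 0) (XT.lf (nat_lit 0) (nat_lit 29880072974) (nat_lit 152) (nat_lit 22791170270) (nat_lit 0) (nat_lit 24285667031) (nat_lit 3) (nat_lit 5) (nat_lit 5) (nat_lit 4) (nat_lit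 3) (nat_lit 4) (nat_lit 396) (nat_lit 208) (nat_lit 176)) (XT.lf (nat_lit 0) (nat_lit 32615756974) (nat_lit 152) (nat_lit 19667229439) (nat_lit 0) (nat_lit 26917900047) (nat_lit 3) (nat_lit 5) (nat_lit 5) (nat_lit 4) (nat_lit 3) (nat_lit 4) (nat_lit 397) (nat_lit 208) (nat_lit 175)))) (XT.nd (nat_lit 78) (nat_lit 0) (nat_lit 0) (XT.lf (nat_lit 0) (nat_lit 35406821134) (nat_lit 152) (nat_lit 16497651831) (nat_lit 0) (nat_lit 29608526357) (nat_lit 3) (nat_lit 5) (nat_lit 5) (nat_lit 4) (nat_lit 3) (nat_lit 4) (nat_lit 398) (nat_lit 208) (nat_lit 174)) (XT.nd (nat_lit 78) (nat_lit 0) (nat_lit 0) (XT.lf (nat_lit 0) (nat_lit 38255704247) (nat_lit 152) (nat_lit 13279667912) (nat_lit 0) (nat_lit 32359896995) (nat_lit 3) (nat_lit 5) (nat_lit 5) (nat_lit 4) (nat_lit 3) (nat_lit 4) (nat_lit 399) (nat_lit 208) (nat_lit 173)) (XT.lf (nat_lit 0) (nat_lit 41164895629) (nat_lit 152) (nat_lit 10010465853) (nat_lit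 0) (nat_lit 35174416071) (nat_lit 3) (nat_lit 5) (nat_lit 5) (nat_lit 4) (nat_lit 3) (nat_lit 4) (nat_lit 400) (nat_lit 208) (nat_lit 172))))) (XT.nd (nat_lit 234) (nat_lit 0) (nat_lit 0) (XT.nd (nat_lit 78) (nat_lit 76) (nat_lit 0) (XT.lf (nat_lit 0) (nat_lit 44136937291) (nat_lit 152) (nat_lit 6687189069) (nat_lit 0) (nat_lit 38054542873) (nat_lit 3) (nat_lit 5) (nat_lit 5) (nat_lit 4) (nat_lit 3) (nat_lit 4) (nat_lit 401) (nat_lit 208) (nat_lit 171)) (XT.nd (nat_lit 78) (nat_lit 76) (nat_lit 0) (XT.lf (nat_lit 0) (nat_lit 47174426164) (nat_lit 152) (nat_lit 3306933725) (nat_lit 0) (nat_lit 41002794017) (nat_lit 3) (nat_lit 5) (nat_lit 5) (nat_lit 4) (nat_lit 3) (nat_lit 4) (nat_lit 402) (nat_lit 208) (nat_lit 170)) (XT.lf (nat_lit 0) (nat_lit 135905809) (nat_lit 76) (nat_lit 50145416964) (nat_lit 76) (nat_lit 43887146246) (nat_lit 2) (nat_lit 4) (nat_lit 3) (nat_lit 5) (nat_lit 3) (nat_lit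 4) (nat_lit 403) (nat_lit 208) (nat_lit 169)))) (XT.nd (nat_lit 37362) (nat_lit 0) (nat_lit 456) (XT.lf (nat_lit 0) (nat_lit 3708750573) (nat_lit 76) (nat_lit 49783321719) (nat_lit 76) (nat_lit 43440935883) (nat_lit 2) (nat_lit 4) (nat_lit 3) (nat_lit 5) (nat_lit 3) (nat_lit 4) (nat_lit 404) (nat_lit 208) (nat_lit 168)) (XT.nd (nat_lit 78) (nat_lit 0) (nat_lit 0) (XT.lf (nat_lit 0) (nat_lit 1225806507) (nat_lit 76) (nat_lit 6882390216) (nat_lit 76) (nat_lit 6882390216) (nat_lit 8) (nat_lit 4) (nat_lit 9) (nat_lit 5) (nat_lit 9) (nat_lit 4) (nat_lit 362) (nat_lit 209) (nat_lit 209)) (XT.lf (nat_lit 0) (nat_lit 8448341358) (nat_lit 76) (nat_lit 11310136291) (nat_lit 76) (nat_lit 11019039449) (nat_lit 8) (nat_lit 4) (nat_lit 9) (nat_lit 5) (nat_lit 9) (nat_lit 4) (nat_lit 363) (nat_lit 209) (nat_lit 208))))))) (XT.nd (nat_lit 936) (nat_lit 152) (nat_lit 0) (XT.nd (nat_lit 468) (nat_lit 76) (nat_lit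 0) (XT.nd (nat_lit 234) (nat_lit 152) (nat_lit 0) (XT.nd (nat_lit 78) (nat_lit 0) (nat_lit 0) (XT.lf (nat_lit 0) (nat_lit 14510522139) (nat_lit 76) (nat_lit 8831467791) (nat_lit 76) (nat_lit 8257752655) (nat_lit 8) (nat_lit 4) (nat_lit 9) (nat_lit 5) (nat_lit 9) (nat_lit 4) (nat_lit 364) (nat_lit 209) (nat_lit 207)) (XT.nd (nat_lit 78) (nat_lit 0) (nat_lit 0) (XT.lf (nat_lit 0) (nat_lit 20643452408) (nat_lit 76) (nat_lit 6326609106) (nat_lit 76) (nat_lit 5478507277) (nat_lit 8) (nat_lit 4) (nat_lit 9) (nat_lit 5) (nat_lit 9) (nat_lit 4) (nat_lit 365) (nat_lit 209) (nat_lit 206)) (XT.lf (nat_lit 0) (nat_lit 26852491037) (nat_lit 76) (nat_lit 3793371525) (nat_lit 76) (nat_lit 2678874849) (nat_lit 8) (nat_lit 4) (nat_lit 9) (nat_lit 5) (nat_lit 9) (nat_lit 4) (nat_lit 366) (nat_lit 209) (nat_lit 205)))) (XT.nd (nat_lit 78) (nat_lit 76) (nat_lit 0) (XT.lf (nat_lit 0) (nat_lit 140788935) (nat_lit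 152) (nat_lit 1087330911) (nat_lit 76) (nat_lit 33000852772) (nat_lit 7) (nat_lit 5) (nat_lit 9) (nat_lit 5) (nat_lit 8) (nat_lit 4) (nat_lit 367) (nat_lit 209) (nat_lit 204)) (XT.nd (nat_lit 78) (nat_lit 0) (nat_lit 0) (XT.lf (nat_lit 0) (nat_lit 2989278946) (nat_lit 152) (nat_lit 30758006729) (nat_lit 0) (nat_lit 1412351622) (nat_lit 6) (nat_lit 5) (nat_lit 8) (nat_lit 4) (nat_lit 6) (nat_lit 4) (nat_lit 368) (nat_lit 209) (nat_lit 203)) (XT.lf (nat_lit 0) (nat_lit 5888545795) (nat_lit 152) (nat_lit 26155825668) (nat_lit 0) (nat_lit 4074930099) (nat_lit 6) (nat_lit 5) (nat_lit 8) (nat_lit 4) (nat_lit 6) (nat_lit 4) (nat_lit 369) (nat_lit 209) (nat_lit 202))))) (XT.nd (nat_lit 234) (nat_lit 76) (nat_lit 0) (XT.nd (nat_lit 78) (nat_lit 0) (nat_lit 0) (XT.lf (nat_lit 0) (nat_lit 8818551730) (nat_lit 152) (nat_lit 21515787861) (nat_lit 0) (nat_lit 6775141499) (nat_lit 6) (nat_lit 5) (nat_lit 8)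 (nat_lit 4) (nat_lit 6) (nat_lit 4) (nat_lit 370) (nat_lit 209) (nat_lit 201)) (XT.nd (nat_lit 78) (nat_lit 0) (nat_lit 0) (XT.lf (nat_lit 0) (nat_lit 11781856951) (nat_lit 152) (nat_lit 16833838905) (nat_lit 0) (nat_lit 9515345230) (nat_lit 6) (nat_lit 5) (nat_lit 8) (nat_lit 4) (nat_lit 6) (nat_lit 4) (nat_lit 371) (nat_lit 209) (nat_lit 200)) (XT.lf (nat_lit 0) (nat_lit 14781050754) (nat_lit 152) (nat_lit 12105887778) (nat_lit 0) (nat_lit 12297935643) (nat_lit 6) (nat_lit 5) (nat_lit 8) (nat_lit 4) (nat_lit 6) (nat_lit 4) (nat_lit 372) (nat_lit 209) (nat_lit 199)))) (XT.nd (nat_lit 78) (nat_lit 76) (nat_lit 0) (XT.lf (nat_lit 0) (nat_lit 17818753793) (nat_lit 152) (nat_lit 7327803260) (nat_lit 0) (nat_lit 15125344130) (nat_lit 6) (nat_lit 5) (nat_lit 8) (nat_lit 4) (nat_lit 6) (nat_lit 4) (nat_lit 373) (nat_lit 209) (nat_lit 198)) (XT.nd (nat_lit 78) (nat_lit 76) (nat_lit 0) (XT.lf (nat_lit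 0) (nat_lit 20897620371) (nat_lit 152) (nat_lit 2495410325) (nat_lit 0) (nat_lit 18000041240) (nat_lit 6) (nat_lit 5) (nat_lit 8) (nat_lit 4) (nat_lit 6) (nat_lit 4) (nat_lit 374) (nat_lit 209) (nat_lit 197)) (XT.lf (nat_lit 0) (nat_lit 2443188921) (nat_lit 76) (nat_lit 21600637267) (nat_lit 76) (nat_lit 18504835351) (nat_lit 5) (nat_lit 4) (nat_lit 6) (nat_lit 5) (nat_lit 6) (nat_lit 4) (nat_lit 375) (nat_lit 209) (nat_lit 196)))))) (XT.nd (nat_lit 468) (nat_lit 152) (nat_lit 0) (XT.nd (nat_lit 234) (nat_lit 0) (nat_lit 0) (XT.nd (nat_lit 78) (nat_lit 0) (nat_lit 0) (XT.lf (nat_lit 0) (nat_lit 7495506177) (nat_lit 76) (nat_lit 19766188768) (nat_lit 76) (nat_lit 16477937546) (nat_lit 5) (nat_lit 4) (nat_lit 6) (nat_lit 5) (nat_lit 6) (nat_lit 4) (nat_lit 376) (nat_lit 209) (nat_lit 195)) (XT.nd (nat_lit 78) (nat_lit 0) (nat_lit 0) (XT.lf (nat_lit 0) (nat_lit 12616292531) (nat_lit 76) (nat_lit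 17913281034) (nat_lit 76) (nat_lit 14438185826) (nat_lit 5) (nat_lit 4) (nat_lit 6) (nat_lit 5) (nat_lit 6) (nat_lit 4) (nat_lit 377) (nat_lit 209) (nat_lit 194)) (XT.lf (nat_lit 0) (nat_lit 17810022457) (nat_lit 76) (nat_lit 16040295019) (nat_lit 76) (nat_lit 12383797883) (nat_lit 5) (nat_lit 4) (nat_lit 6) (nat_lit 5) (nat_lit 6) (nat_lit 4) (nat_lit 378) (nat_lit 209) (nat_lit 193)))) (XT.nd (nat_lit 78) (nat_lit 0) (nat_lit 0) (XT.lf (nat_lit 0) (nat_lit 23081234164) (nat_lit 76) (nat_lit 14145594134) (nat_lit 76) (nat_lit 10312978621) (nat_lit 5) (nat_lit 4) (nat_lit 6) (nat_lit 5) (nat_lit 6) (nat_lit 4) (nat_lit 379) (nat_lit 209) (nat_lit 192)) (XT.nd (nat_lit 78) (nat_lit 0) (nat_lit 0) (XT.lf (nat_lit 0) (nat_lit 28434533566) (nat_lit 76) (nat_lit 12227522815) (nat_lit 76) (nat_lit 8223918587) (nat_lit 5) (nat_lit 4) (nat_lit 6) (nat_lit 5) (nat_lit 6) (nat_lit 4) (nat_lit 380) (nat_lit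 209) (nat_lit 191)) (XT.lf (nat_lit 0) (nat_lit 33874598304) (nat_lit 76) (nat_lit 10284405078) (nat_lit 76) (nat_lit 6114792388) (nat_lit 5) (nat_lit 4) (nat_lit 6) (nat_lit 5) (nat_lit 6) (nat_lit 4) (nat_lit 381) (nat_lit 209) (nat_lit 190))))) (XT.nd (nat_lit 234) (nat_lit 76) (nat_lit 0) (XT.nd (nat_lit 78) (nat_lit 76) (nat_lit 0) (XT.lf (nat_lit 0) (nat_lit 39406181831) (nat_lit 76) (nat_lit 8314543052) (nat_lit 76) (nat_lit 3983757098) (nat_lit 5) (nat_lit 4) (nat_lit 6) (nat_lit 5) (nat_lit 6) (nat_lit 4) (nat_lit 382) (nat_lit 209) (nat_lit 189)) (XT.nd (nat_lit 78) (nat_lit 76) (nat_lit 0) (XT.lf (nat_lit 0) (nat_lit 45034117571) (nat_lit 76) (nat_lit 6316215499) (nat_lit 76) (nat_lit 1828950648) (nat_lit 5) (nat_lit 4) (nat_lit 6) (nat_lit 5) (nat_lit 6) (nat_lit 4) (nat_lit 383) (nat_lit 209) (nat_lit 188)) (XT.lf (nat_lit 0) (nat_lit 344650580) (nat_lit 152) (nat_lit 3939545431)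 (nat_lit 76) (nat_lit 50415192261) (nat_lit 4) (nat_lit 5) (nat_lit 6) (nat_lit 5) (nat_lit 5) (nat_lit 4) (nat_lit 384) (nat_lit 209) (nat_lit 187)))) (XT.nd (nat_lit 78) (nat_lit 0) (nat_lit 0) (XT.lf (nat_lit 0) (nat_lit 313898062) (nat_lit 76) (nat_lit 2198703188) (nat_lit 152) (nat_lit 53752998200) (nat_lit 3) (nat_lit 5) (nat_lit 4) (nat_lit 5) (nat_lit 5) (nat_lit 4) (nat_lit 385) (nat_lit 209) (nat_lit 186)) (XT.nd (nat_lit 78) (nat_lit 0) (nat_lit 0) (XT.lf (nat_lit 0) (nat_lit 4709989594) (nat_lit 76) (nat_lit 38716035) (nat_lit 152) (nat_lit 53130020971) (nat_lit 3) (nat_lit 5) (nat_lit 4) (nat_lit 5) (nat_lit 5) (nat_lit 4) (nat_lit 386) (nat_lit 209) (nat_lit 185)) (XT.lf (nat_lit 0) (nat_lit 7037037376) (nat_lit 152) (nat_lit 50387914990) (nat_lit 0) (nat_lit 2115763291) (nat_lit 3) (nat_lit 5) (nat_lit 5) (nat_lit 4) (nat_lit 3) (nat_lit 4) (nat_lit 387) (nat_lit 209) (nat_lit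 184))))))))
noncomputable def xc10 : XT := (XT.nd (nat_lit 38922) (nat_lit 0) (nat_lit 76) (XT.nd (nat_lit 858) (nat_lit 76) (nat_lit 0) (XT.nd (nat_lit 390) (nat_lit 0) (nat_lit 0) (XT.nd (nat_lit 156) (nat_lit 0) (nat_lit 0) (XT.nd (nat_lit 78) (nat_lit 0) (nat_lit 0) (XT.lf (nat_lit 0) (nat_lit 9359577536) (nat_lit 152) (nat_lit 47586787023) (nat_lit 0) (nat_lit 4307254838) (nat_lit 3) (nat_lit 5) (nat_lit 5) (nat_lit 4) (nat_lit 3) (nat_lit 4) (nat_lit 388) (nat_lit 209) (nat_lit 183)) (XT.lf (nat_lit 0) (nat_lit 11717983350) (nat_lit 152) (nat_lit 44762533358) (nat_lit 0) (nat_lit 6538428989) (nat_lit 3) (nat_lit 5) (nat_lit 5) (nat_lit 4) (nat_lit 3) (nat_lit 4) (nat_lit 389) (nat_lit 209) (nat_lit 182))) (XT.nd (nat_lit 78) (nat_lit 0) (nat_lit 0) (XT.lf (nat_lit 0) (nat_lit 14114315562) (nat_lit 152) (nat_lit 41912686200) (nat_lit 0) (nat_lit 8811235315) (nat_lit 3) (nat_lit 5) (nat_lit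 5) (nat_lit 4) (nat_lit 3) (nat_lit 4) (nat_lit 390) (nat_lit 209) (nat_lit 181)) (XT.nd (nat_lit 78) (nat_lit 0) (nat_lit 0) (XT.lf (nat_lit 0) (nat_lit 16550668053) (nat_lit 152) (nat_lit 39034755392) (nat_lit 0) (nat_lit 11127659762) (nat_lit 3) (nat_lit 5) (nat_lit 5) (nat_lit 4) (nat_lit 3) (nat_lit 4) (nat_lit 391) (nat_lit 209) (nat_lit 180)) (XT.lf (nat_lit 0) (nat_lit 19029169677) (nat_lit 152) (nat_lit 36126226236) (nat_lit 0) (nat_lit 13489726390) (nat_lit 3) (nat_lit 5) (nat_lit 5) (nat_lit 4) (nat_lit 3) (nat_lit 4) (nat_lit 392) (nat_lit 209) (nat_lit 179))))) (XT.nd (nat_lit 234) (nat_lit 0) (nat_lit 0) (XT.nd (nat_lit 78) (nat_lit 0) (nat_lit 0) (XT.lf (nat_lit 0) (nat_lit 21551986114) (nat_lit 152) (nat_lit 33184557299) (nat_lit 0) (nat_lit 15899499142) (nat_lit 3) (nat_lit 5) (nat_lit 5) (nat_lit 4) (nat_lit 3) (nat_lit 4) (nat_lit 393) (nat_lit 209) (nat_lit 178)) (XT.nd (nat_lit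 78) (nat_lit 0) (nat_lit 0) (XT.lf (nat_lit 0) (nat_lit 24121321766) (nat_lit 152) (nat_lit 30207178191) (nat_lit 0) (nat_lit 18359083645) (nat_lit 3) (nat_lit 5) (nat_lit 5) (nat_lit 4) (nat_lit 3) (nat_lit 4) (nat_lit 394) (nat_lit 209) (nat_lit 177)) (XT.lf (nat_lit 0) (nat_lit 26739421684) (nat_lit 152) (nat_lit 27191487319) (nat_lit 0) (nat_lit 20870629048) (nat_lit 3) (nat_lit 5) (nat_lit 5) (nat_lit 4) (nat_lit 3) (nat_lit 4) (nat_lit 395) (nat_lit 209) (nat_lit 176)))) (XT.nd (nat_lit 78) (nat_lit 0) (nat_lit 0) (XT.lf (nat_lit 0) (nat_lit 29408573528) (nat_lit 152) (nat_lit 24134849612) (nat_lit 0) (nat_lit 23436329908) (nat_lit 3) (nat_lit 5) (nat_lit 5) (nat_lit 4) (nat_lit 3) (nat_lit 4) (nat_lit 396) (nat_lit 209) (nat_lit 175)) (XT.nd (nat_lit 78) (nat_lit 0) (nat_lit 0) (XT.lf (nat_lit 0) (nat_lit 32131109568) (nat_lit 152) (nat_lit 21034594223) (nat_lit 0) (nat_lit 26058428098)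 (nat_lit 3) (nat_lit 5) (nat_lit 5) (nat_lit 4) (nat_lit 3) (nat_lit 4) (nat_lit 397) (nat_lit 209) (nat_lit 174)) (XT.lf (nat_lit 0) (nat_lit 34909408717) (nat_lit 152) (nat_lit 17888012191) (nat_lit 0) (nat_lit 28739214772) (nat_lit 3) (nat_lit 5) (nat_lit 5) (nat_lit 4) (nat_lit 3) (nat_lit 4) (nat_lit 398) (nat_lit 209) (nat_lit 173)))))) (XT.nd (nat_lit 37596) (nat_lit 0) (nat_lit 456) (XT.nd (nat_lit 234) (nat_lit 76) (nat_lit 0) (XT.nd (nat_lit 78) (nat_lit 0) (nat_lit 0) (XT.lf (nat_lit 0) (nat_lit 37745898616) (nat_lit 152) (nat_lit 14692354074) (nat_lit 0) (nat_lit 31481032365) (nat_lit 3) (nat_lit 5) (nat_lit 5) (nat_lit 4) (nat_lit 3) (nat_lit 4) (nat_lit 399) (nat_lit 209) (nat_lit 172)) (XT.nd (nat_lit 78) (nat_lit 0) (nat_lit 0) (XT.lf (nat_lit 0) (nat_lit 40643057751) (nat_lit 152) (nat_lit 11444827550) (nat_lit 0) (nat_lit 34286276640) (nat_lit 3) (nat_lit 5) (nat_lit 5) (nat_lit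 4) (nat_lit 3) (nat_lit 4) (nat_lit 400) (nat_lit 209) (nat_lit 171)) (XT.lf (nat_lit 0) (nat_lit 43603417621) (nat_lit 152) (nat_lit 8142594974) (nat_lit 0) (nat_lit 37157398781) (nat_lit 3) (nat_lit 5) (nat_lit 5) (nat_lit 4) (nat_lit 3) (nat_lit 4) (nat_lit 401) (nat_lit 209) (nat_lit 170)))) (XT.nd (nat_lit 78) (nat_lit 76) (nat_lit 0) (XT.lf (nat_lit 0) (nat_lit 46629564947) (nat_lit 152) (nat_lit 4782770902) (nat_lit 0) (nat_lit 40096907536) (nat_lit 3) (nat_lit 5) (nat_lit 5) (nat_lit 4) (nat_lit 3) (nat_lit 4) (nat_lit 402) (nat_lit 209) (nat_lit 169)) (XT.nd (nat_lit 78) (nat_lit 76) (nat_lit 0) (XT.lf (nat_lit 0) (nat_lit 49724143936) (nat_lit 152) (nat_lit 1362419563) (nat_lit 0) (nat_lit 43107371408) (nat_lit 3) (nat_lit 5) (nat_lit 5) (nat_lit 4) (nat_lit 3) (nat_lit 4) (nat_lit 403) (nat_lit 209) (nat_lit 168)) (XT.lf (nat_lit 0) (nat_lit 2163668666) (nat_lit 76) (nat_lit 50746988430)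 (nat_lit 76) (nat_lit 44048550739) (nat_lit 2) (nat_lit 4) (nat_lit 3) (nat_lit 5) (nat_lit 3) (nat_lit 4) (nat_lit 404) (nat_lit 209) (nat_lit 167))))) (XT.nd (nat_lit 234) (nat_lit 0) (nat_lit 0) (XT.nd (nat_lit 78) (nat_lit 76) (nat_lit 0) (XT.lf (nat_lit 0) (nat_lit 4833668079) (nat_lit 152) (nat_lit 4562487885) (nat_lit 0) (nat_lit 4833668079) (nat_lit 9) (nat_lit 5) (nat_lit 11) (nat_lit 4) (nat_lit 9) (nat_lit 4) (nat_lit 360) (nat_lit 210) (nat_lit 210)) (XT.nd (nat_lit 78) (nat_lit 76) (nat_lit 0) (XT.lf (nat_lit 0) (nat_lit 13045971067) (nat_lit 152) (nat_lit 3416899744) (nat_lit 0) (nat_lit 12746141320) (nat_lit 9) (nat_lit 5) (nat_lit 11) (nat_lit 4) (nat_lit 9) (nat_lit 4) (nat_lit 361) (nat_lit 210) (nat_lit 209)) (XT.lf (nat_lit 0) (nat_lit 2393542624) (nat_lit 76) (nat_lit 14089784277) (nat_lit 76) (nat_lit 13498857687) (nat_lit 8) (nat_lit 4) (nat_lit 9) (nat_lit 5) (nat_lit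 9) (nat_lit 4) (nat_lit 362) (nat_lit 210) (nat_lit 208)))) (XT.nd (nat_lit 78) (nat_lit 0) (nat_lit 0) (XT.lf (nat_lit 0) (nat_lit 8333891946) (nat_lit 76) (nat_lit 11659581005) (nat_lit 76) (nat_lit 10786036121) (nat_lit 8) (nat_lit 4) (nat_lit 9) (nat_lit 5) (nat_lit 9) (nat_lit 4) (nat_lit 363) (nat_lit 210) (nat_lit 207)) (XT.nd (nat_lit 78) (nat_lit 0) (nat_lit 0) (XT.lf (nat_lit 0) (nat_lit 14341335813) (nat_lit 76) (nat_lit 9204641505) (nat_lit 76) (nat_lit 8056709929) (nat_lit 8) (nat_lit 4) (nat_lit 9) (nat_lit 5) (nat_lit 9) (nat_lit 4) (nat_lit 364) (nat_lit 210) (nat_lit 206)) (XT.lf (nat_lit 0) (nat_lit 20421123447) (nat_lit 76) (nat_lit 6722820684) (nat_lit 76) (nat_lit 5308494261) (nat_lit 8) (nat_lit 4) (nat_lit 9) (nat_lit 5) (nat_lit 9) (nat_lit 4) (nat_lit 365) (nat_lit 210) (nat_lit 205))))))) (XT.nd (nat_lit 858) (nat_lit 152) (nat_lit 0) (XT.nd (nat_lit 390) (nat_lit 76)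 (nat_lit 0) (XT.nd (nat_lit 156) (nat_lit 76) (nat_lit 0) (XT.nd (nat_lit 78) (nat_lit 76) (nat_lit 0) (XT.lf (nat_lit 0) (nat_lit 26578567285) (nat_lit 76) (nat_lit 4211949961) (nat_lit 76) (nat_lit 2538987763) (nat_lit 8) (nat_lit 4) (nat_lit 9) (nat_lit 5) (nat_lit 9) (nat_lit 4) (nat_lit 366) (nat_lit 210) (nat_lit 204)) (XT.lf (nat_lit 0) (nat_lit 249268585) (nat_lit 152) (nat_lit 1418049662) (nat_lit 76) (nat_lit 32567261908) (nat_lit 7) (nat_lit 5) (nat_lit 9) (nat_lit 5) (nat_lit 8) (nat_lit 4) (nat_lit 367) (nat_lit 210) (nat_lit 203))) (XT.nd (nat_lit 78) (nat_lit 0) (nat_lit 0) (XT.lf (nat_lit 0) (nat_lit 3061727291) (nat_lit 152) (nat_lit 31147603093) (nat_lit 0) (nat_lit 957014754) (nat_lit 6) (nat_lit 5) (nat_lit 8) (nat_lit 4) (nat_lit 6) (nat_lit 4) (nat_lit 368) (nat_lit 210) (nat_lit 202)) (XT.nd (nat_lit 78) (nat_lit 0) (nat_lit 0) (XT.lf (nat_lit 0) (nat_lit 5933290239) (nat_lit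 152) (nat_lit 26594785917) (nat_lit 0) (nat_lit 3598783166) (nat_lit 6) (nat_lit 5) (nat_lit 8) (nat_lit 4) (nat_lit 6) (nat_lit 4) (nat_lit 369) (nat_lit 210) (nat_lit 201)) (XT.lf (nat_lit 0) (nat_lit 8836399183) (nat_lit 152) (nat_lit 22002674211) (nat_lit 0) (nat_lit 6278790619) (nat_lit 6) (nat_lit 5) (nat_lit 8) (nat_lit 4) (nat_lit 6) (nat_lit 4) (nat_lit 370) (nat_lit 210) (nat_lit 200))))) (XT.nd (nat_lit 234) (nat_lit 76) (nat_lit 0) (XT.nd (nat_lit 78) (nat_lit 0) (nat_lit 0) (XT.lf (nat_lit 0) (nat_lit 11773590820) (nat_lit 152) (nat_lit 17367255451) (nat_lit 0) (nat_lit 8999378868) (nat_lit 6) (nat_lit 5) (nat_lit 8) (nat_lit 4) (nat_lit 6) (nat_lit 4) (nat_lit 371) (nat_lit 210) (nat_lit 199)) (XT.nd (nat_lit 78) (nat_lit 0) (nat_lit 0) (XT.lf (nat_lit 0) (nat_lit 14747431629) (nat_lit 152) (nat_lit 12684479271) (nat_lit 0) (nat_lit 11762925124) (nat_lit 6) (nat_lit 5) (nat_lit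 8) (nat_lit 4) (nat_lit 6) (nat_lit 4) (nat_lit 372) (nat_lit 210) (nat_lit 198)) (XT.lf (nat_lit 0) (nat_lit 17760520111) (nat_lit 152) (nat_lit 7950253925) (nat_lit 0) (nat_lit 14571844137) (nat_lit 6) (nat_lit 5) (nat_lit 8) (nat_lit 4) (nat_lit 6) (nat_lit 4) (nat_lit 373) (nat_lit 210) (nat_lit 197)))) (XT.nd (nat_lit 78) (nat_lit 76) (nat_lit 0) (XT.lf (nat_lit 0) (nat_lit 20815489061) (nat_lit 152) (nat_lit 3160442710) (nat_lit 0) (nat_lit 17428590303) (nat_lit 6) (nat_lit 5) (nat_lit 8) (nat_lit 4) (nat_lit 6) (nat_lit 4) (nat_lit 374) (nat_lit 210) (nat_lit 196)) (XT.nd (nat_lit 78) (nat_lit 0) (nat_lit 0) (XT.lf (nat_lit 0) (nat_lit 1722756835) (nat_lit 76) (nat_lit 22208811228) (nat_lit 76) (nat_lit 18629463164) (nat_lit 5) (nat_lit 4) (nat_lit 6) (nat_lit 5) (nat_lit 6) (nat_lit 4) (nat_lit 375) (nat_lit 210) (nat_lit 195)) (XT.lf (nat_lit 0) (nat_lit 6734137924) (nat_lit 76) (nat_lit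 20392379586) (nat_lit 76) (nat_lit 16626187536) (nat_lit 5) (nat_lit 4) (nat_lit 6) (nat_lit 5) (nat_lit 6) (nat_lit 4) (nat_lit 376) (nat_lit 210) (nat_lit 194)))))) (XT.nd (nat_lit 468) (nat_lit 152) (nat_lit 0) (XT.nd (nat_lit 234) (nat_lit 0) (nat_lit 0) (XT.nd (nat_lit 78) (nat_lit 0) (nat_lit 0) (XT.lf (nat_lit 0) (nat_lit 11815180426) (nat_lit 76) (nat_lit 18556963946) (nat_lit 76) (nat_lit 14609369968) (nat_lit 5) (nat_lit 4) (nat_lit 6) (nat_lit 5) (nat_lit 6) (nat_lit 4) (nat_lit 377) (nat_lit 210) (nat_lit 193)) (XT.nd (nat_lit 78) (nat_lit 0) (nat_lit 0) (XT.lf (nat_lit 0) (nat_lit 16970324087) (nat_lit 76) (nat_lit 16700960547) (nat_lit 76) (nat_lit 12577248192) (nat_lit 5) (nat_lit 4) (nat_lit 6) (nat_lit 5) (nat_lit 6) (nat_lit 4) (nat_lit 378) (nat_lit 210) (nat_lit 192)) (XT.lf (nat_lit 0) (nat_lit 22204073402) (nat_lit 76) (nat_lit 14822747639) (nat_lit 76) (nat_lit 10528046568)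 (nat_lit 5) (nat_lit 4) (nat_lit 6) (nat_lit 5) (nat_lit 6) (nat_lit 4) (nat_lit 379) (nat_lit 210) (nat_lit 191)))) (XT.nd (nat_lit 78) (nat_lit 0) (nat_lit 0) (XT.lf (nat_lit 0) (nat_lit 27521001550) (nat_lit 76) (nat_lit 12920684065) (nat_lit 76) (nat_lit 8459974532) (nat_lit 5) (nat_lit 4) (nat_lit 6) (nat_lit 5) (nat_lit 6) (nat_lit 4) (nat_lit 380) (nat_lit 210) (nat_lit 190)) (XT.nd (nat_lit 78) (nat_lit 0) (nat_lit 0) (XT.lf (nat_lit 0) (nat_lit 32925754390) (nat_lit 76) (nat_lit 10993107827) (nat_lit 76) (nat_lit 6371225030) (nat_lit 5) (nat_lit 4) (nat_lit 6) (nat_lit 5) (nat_lit 6) (nat_lit 4) (nat_lit 381) (nat_lit 210) (nat_lit 189)) (XT.lf (nat_lit 0) (nat_lit 38423054521) (nat_lit 76) (nat_lit 9038334635) (nat_lit 76) (nat_lit 4259972942) (nat_lit 5) (nat_lit 4) (nat_lit 6) (nat_lit 5) (nat_lit 6) (nat_lit 4) (nat_lit 382) (nat_lit 210) (nat_lit 188))))) (XT.nd (nat_lit 234) (nat_lit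 76) (nat_lit 0) (XT.nd (nat_lit 78) (nat_lit 76) (nat_lit 0) (XT.lf (nat_lit 0) (nat_lit 44017705411) (nat_lit 76) (nat_lit 7054656435) (nat_lit 76) (nat_lit 2124373483) (nat_lit 5) (nat_lit 4) (nat_lit 6) (nat_lit 5) (nat_lit 6) (nat_lit 4) (nat_lit 383) (nat_lit 210) (nat_lit 187)) (XT.nd (nat_lit 78) (nat_lit 0) (nat_lit 0) (XT.lf (nat_lit 0) (nat_lit 36708825) (nat_lit 152) (nat_lit 5003260404) (nat_lit 76) (nat_lit 49677516076) (nat_lit 4) (nat_lit 5) (nat_lit 6) (nat_lit 5) (nat_lit 5) (nat_lit 4) (nat_lit 384) (nat_lit 210) (nat_lit 186)) (XT.lf (nat_lit 0) (nat_lit 2183890967) (nat_lit 152) (nat_lit 787681013) (nat_lit 76) (nat_lit 53312758934) (nat_lit 4) (nat_lit 5) (nat_lit 6) (nat_lit 5) (nat_lit 5) (nat_lit 4) (nat_lit 385) (nat_lit 210) (nat_lit 185)))) (XT.nd (nat_lit 78) (nat_lit 0) (nat_lit 0) (XT.lf (nat_lit 0) (nat_lit 3561306464) (nat_lit 76) (nat_lit 833430291) (nat_lit 152)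 (nat_lit 53503490110) (nat_lit 3) (nat_lit 5) (nat_lit 4) (nat_lit 5) (nat_lit 5) (nat_lit 4) (nat_lit 386) (nat_lit 210) (nat_lit 184)) (XT.nd (nat_lit 78) (nat_lit 0) (nat_lit 0) (XT.lf (nat_lit 0) (nat_lit 6658274116) (nat_lit 152) (nat_lit 51579363235) (nat_lit 0) (nat_lit 1323333124) (nat_lit 3) (nat_lit 5) (nat_lit 5) (nat_lit 4) (nat_lit 3) (nat_lit 4) (nat_lit 387) (nat_lit 210) (nat_lit 183)) (XT.lf (nat_lit 0) (nat_lit 8964158832) (nat_lit 152) (nat_lit 48808239278) (nat_lit 0) (nat_lit 3501986178) (nat_lit 3) (nat_lit 5) (nat_lit 5) (nat_lit 4) (nat_lit 3) (nat_lit 4) (nat_lit 388) (nat_lit 210) (nat_lit 182))))))))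
noncomputable def xc11 : XT := (XT.nd (nat_lit 38766) (nat_lit 0) (nat_lit 76) (XT.nd (nat_lit 858) (nat_lit 76) (nat_lit 0) (XT.nd (nat_lit 390) (nat_lit 0) (nat_lit 0) (XT.nd (nat_lit 156) (nat_lit 0) (nat_lit 0) (XT.nd (nat_lit 78) (nat_lit 0) (nat_lit 0) (XT.lf (nat_lit 0) (nat_lit 11306394313) (nat_lit 152) (nat_lit 46013115720) (nat_lit 0) (nat_lit 5720695772) (nat_lit 3) (nat_lit 5) (nat_lit 5) (nat_lit 4) (nat_lit 3) (nat_lit 4) (nat_lit 389) (nat_lit 210) (nat_lit 181)) (XT.lf (nat_lit 0) (nat_lit 13687027172) (nat_lit 152) (nat_lit 43191550220) (nat_lit 0) (nat_lit 7981400586) (nat_lit 3) (nat_lit 5) (nat_lit 5) (nat_lit 4) (nat_lit 3) (nat_lit 4) (nat_lit 390) (nat_lit 210) (nat_lit 180))) (XT.nd (nat_lit 78) (nat_lit 0) (nat_lit 0) (XT.lf (nat_lit 0) (nat_lit 16108137573) (nat_lit 152) (nat_lit 40341077331) (nat_lit 0) (nat_lit 10286075993) (nat_lit 3) (nat_lit 5) (nat_lit 5) (nat_lit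 4) (nat_lit 3) (nat_lit 4) (nat_lit 391) (nat_lit 210) (nat_lit 179)) (XT.nd (nat_lit 78) (nat_lit 0) (nat_lit 0) (XT.lf (nat_lit 0) (nat_lit 18571841051) (nat_lit 152) (nat_lit 37459206349) (nat_lit 0) (nat_lit 12636735787) (nat_lit 3) (nat_lit 5) (nat_lit 5) (nat_lit 4) (nat_lit 3) (nat_lit 4) (nat_lit 392) (nat_lit 210) (nat_lit 178)) (XT.lf (nat_lit 0) (nat_lit 21080290356) (nat_lit 152) (nat_lit 34543419135) (nat_lit 0) (nat_lit 15035433941) (nat_lit 3) (nat_lit 5) (nat_lit 5) (nat_lit 4) (nat_lit 3) (nat_lit 4) (nat_lit 393) (nat_lit 210) (nat_lit 177))))) (XT.nd (nat_lit 234) (nat_lit 0) (nat_lit 0) (XT.nd (nat_lit 78) (nat_lit 0) (nat_lit 0) (XT.lf (nat_lit 0) (nat_lit 23635677336) (nat_lit 152) (nat_lit 31591167913) (nat_lit 0) (nat_lit 17484266407) (nat_lit 3) (nat_lit 5) (nat_lit 5) (nat_lit 4) (nat_lit 3) (nat_lit 4) (nat_lit 394) (nat_lit 210) (nat_lit 176)) (XT.nd (nat_lit 78) (nat_lit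 0) (nat_lit 0) (XT.lf (nat_lit 0) (nat_lit 26240234855) (nat_lit 152) (nat_lit 28599873047) (nat_lit 0) (nat_lit 19985372941) (nat_lit 3) (nat_lit 5) (nat_lit 5) (nat_lit 4) (nat_lit 3) (nat_lit 4) (nat_lit 395) (nat_lit 210) (nat_lit 175)) (XT.lf (nat_lit 0) (nat_lit 28896238739) (nat_lit 152) (nat_lit 25566920783) (nat_lit 0) (nat_lit 22540938975) (nat_lit 3) (nat_lit 5) (nat_lit 5) (nat_lit 4) (nat_lit 3) (nat_lit 4) (nat_lit 396) (nat_lit 210) (nat_lit 174)))) (XT.nd (nat_lit 78) (nat_lit 0) (nat_lit 0) (XT.lf (nat_lit 0) (nat_lit 31606009767) (nat_lit 152) (nat_lit 22489660969) (nat_lit 0) (nat_lit 25153197529) (nat_lit 3) (nat_lit 5) (nat_lit 5) (nat_lit 4) (nat_lit 3) (nat_lit 4) (nat_lit 397) (nat_lit 210) (nat_lit 173)) (XT.nd (nat_lit 78) (nat_lit 0) (nat_lit 0) (XT.lf (nat_lit 0) (nat_lit 34371915702) (nat_lit 152) (nat_lit 19365404738) (nat_lit 0) (nat_lit 27824431158) (nat_lit 3)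 (nat_lit 5) (nat_lit 5) (nat_lit 4) (nat_lit 3) (nat_lit 4) (nat_lit 398) (nat_lit 210) (nat_lit 172)) (XT.lf (nat_lit 0) (nat_lit 37196373355) (nat_lit 152) (nat_lit 16191422156) (nat_lit 0) (nat_lit 30556973950) (nat_lit 3) (nat_lit 5) (nat_lit 5) (nat_lit 4) (nat_lit 3) (nat_lit 4) (nat_lit 399) (nat_lit 210) (nat_lit 171)))))) (XT.nd (nat_lit 37440) (nat_lit 0) (nat_lit 456) (XT.nd (nat_lit 234) (nat_lit 76) (nat_lit 0) (XT.nd (nat_lit 78) (nat_lit 0) (nat_lit 0) (XT.lf (nat_lit 0) (nat_lit 40081850697) (nat_lit 152) (nat_lit 12964939842) (nat_lit 0) (nat_lit 33353213564) (nat_lit 3) (nat_lit 5) (nat_lit 5) (nat_lit 4) (nat_lit 3) (nat_lit 4) (nat_lit 400) (nat_lit 210) (nat_lit 170)) (XT.nd (nat_lit 78) (nat_lit 0) (nat_lit 0) (XT.lf (nat_lit 0) (nat_lit 43030869020) (nat_lit 152) (nat_lit 9683138537) (nat_lit 0) (nat_lit 36215593316) (nat_lit 3) (nat_lit 5) (nat_lit 5) (nat_lit 4) (nat_lit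 3) (nat_lit 4) (nat_lit 401) (nat_lit 210) (nat_lit 169)) (XT.lf (nat_lit 0) (nat_lit 46046005136) (nat_lit 152) (nat_lit 6343150650) (nat_lit 0) (nat_lit 39146614314) (nat_lit 3) (nat_lit 5) (nat_lit 5) (nat_lit 4) (nat_lit 3) (nat_lit 4) (nat_lit 402) (nat_lit 210) (nat_lit 168)))) (XT.nd (nat_lit 78) (nat_lit 76) (nat_lit 0) (XT.lf (nat_lit 0) (nat_lit 49129893630) (nat_lit 152) (nat_lit 2942057743) (nat_lit 0) (nat_lit 42148837645) (nat_lit 3) (nat_lit 5) (nat_lit 5) (nat_lit 4) (nat_lit 3) (nat_lit 4) (nat_lit 403) (nat_lit 210) (nat_lit 167)) (XT.nd (nat_lit 37050) (nat_lit 0) (nat_lit 532) (XT.lf (nat_lit 0) (nat_lit 533522964) (nat_lit 76) (nat_lit 51756834747) (nat_lit 76) (nat_lit 44696492196) (nat_lit 2) (nat_lit 4) (nat_lit 3) (nat_lit 5) (nat_lit 3) (nat_lit 4) (nat_lit 404) (nat_lit 210) (nat_lit 166)) (XT.lf (nat_lit 0) (nat_lit 1674278227) (nat_lit 152) (nat_lit 10166825139) (nat_lit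 0) (nat_lit 1674278227) (nat_lit 9) (nat_lit 5) (nat_lit 11) (nat_lit 4) (nat_lit 9) (nat_lit 4) (nat_lit 358) (nat_lit 211) (nat_lit 211))))) (XT.nd (nat_lit 234) (nat_lit 76) (nat_lit 0) (XT.nd (nat_lit 78) (nat_lit 0) (nat_lit 0) (XT.lf (nat_lit 0) (nat_lit 6630286415) (nat_lit 152) (nat_lit 14782379729) (nat_lit 0) (nat_lit 6321461775) (nat_lit 9) (nat_lit 5) (nat_lit 11) (nat_lit 4) (nat_lit 9) (nat_lit 4) (nat_lit 359) (nat_lit 211) (nat_lit 210)) (XT.nd (nat_lit 78) (nat_lit 0) (nat_lit 0) (XT.lf (nat_lit 0) (nat_lit 9942852569) (nat_lit 152) (nat_lit 9183621116) (nat_lit 0) (nat_lit 9334198181) (nat_lit 9) (nat_lit 5) (nat_lit 11) (nat_lit 4) (nat_lit 9) (nat_lit 4) (nat_lit 360) (nat_lit 211) (nat_lit 209)) (XT.lf (nat_lit 0) (nat_lit 13289149390) (nat_lit 152) (nat_lit 3532482319) (nat_lit 0) (nat_lit 12389398160) (nat_lit 9) (nat_lit 5) (nat_lit 11) (nat_lit 4) (nat_lit 9) (nat_lit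 4) (nat_lit 361) (nat_lit 211) (nat_lit 208)))) (XT.nd (nat_lit 78) (nat_lit 0) (nat_lit 0) (XT.lf (nat_lit 0) (nat_lit 2219280707) (nat_lit 76) (nat_lit 14474153202) (nat_lit 76) (nat_lit 13291783679) (nat_lit 8) (nat_lit 4) (nat_lit 9) (nat_lit 5) (nat_lit 9) (nat_lit 4) (nat_lit 362) (nat_lit 211) (nat_lit 207)) (XT.nd (nat_lit 78) (nat_lit 0) (nat_lit 0) (XT.lf (nat_lit 0) (nat_lit 8104893116) (nat_lit 76) (nat_lit 12067678930) (nat_lit 76) (nat_lit 10610922714) (nat_lit 8) (nat_lit 4) (nat_lit 9) (nat_lit 5) (nat_lit 9) (nat_lit 4) (nat_lit 363) (nat_lit 211) (nat_lit 206)) (XT.lf (nat_lit 0) (nat_lit 14059194348) (nat_lit 76) (nat_lit 9635777294) (nat_lit 76) (nat_lit 7912626231) (nat_lit 8) (nat_lit 4) (nat_lit 9) (nat_lit 5) (nat_lit 9) (nat_lit 4) (nat_lit 364) (nat_lit 211) (nat_lit 205))))))) (XT.nd (nat_lit 936) (nat_lit 152) (nat_lit 0) (XT.nd (nat_lit 468) (nat_lit 76) (nat_lit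 0) (XT.nd (nat_lit 234) (nat_lit 76) (nat_lit 0) (XT.nd (nat_lit 78) (nat_lit 76) (nat_lit 0) (XT.lf (nat_lit 0) (nat_lit 20087387192) (nat_lit 76) (nat_lit 7176323332) (nat_lit 76) (nat_lit 5194536494) (nat_lit 8) (nat_lit 4) (nat_lit 9) (nat_lit 5) (nat_lit 9) (nat_lit 4) (nat_lit 365) (nat_lit 211) (nat_lit 204)) (XT.nd (nat_lit 78) (nat_lit 76) (nat_lit 0) (XT.lf (nat_lit 0) (nat_lit 26194739000) (nat_lit 76) (nat_lit 4687168005) (nat_lit 76) (nat_lit 2454278474) (nat_lit 8) (nat_lit 4) (nat_lit 9) (nat_lit 5) (nat_lit 9) (nat_lit 4) (nat_lit 366) (nat_lit 211) (nat_lit 203)) (XT.lf (nat_lit 0) (nat_lit 304482431) (nat_lit 152) (nat_lit 1858579218) (nat_lit 76) (nat_lit 32079029187) (nat_lit 7) (nat_lit 5) (nat_lit 9) (nat_lit 5) (nat_lit 8) (nat_lit 4) (nat_lit 367) (nat_lit 211) (nat_lit 202)))) (XT.nd (nat_lit 78) (nat_lit 0) (nat_lit 0) (XT.lf (nat_lit 0) (nat_lit 3080110168) (nat_lit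 152) (nat_lit 31649096034) (nat_lit 0) (nat_lit 445773347) (nat_lit 6) (nat_lit 5) (nat_lit 8) (nat_lit 4) (nat_lit 6) (nat_lit 4) (nat_lit 368) (nat_lit 211) (nat_lit 201)) (XT.nd (nat_lit 78) (nat_lit 0) (nat_lit 0) (XT.lf (nat_lit 0) (nat_lit 5924776124) (nat_lit 152) (nat_lit 27144204959) (nat_lit 0) (nat_lit 3067337813) (nat_lit 6) (nat_lit 5) (nat_lit 8) (nat_lit 4) (nat_lit 6) (nat_lit 4) (nat_lit 369) (nat_lit 211) (nat_lit 200)) (XT.lf (nat_lit 0) (nat_lit 8801771485) (nat_lit 152) (nat_lit 22598623449) (nat_lit 0) (nat_lit 5727729784) (nat_lit 6) (nat_lit 5) (nat_lit 8) (nat_lit 4) (nat_lit 6) (nat_lit 4) (nat_lit 370) (nat_lit 211) (nat_lit 199))))) (XT.nd (nat_lit 234) (nat_lit 76) (nat_lit 0) (XT.nd (nat_lit 78) (nat_lit 0) (nat_lit 0) (XT.lf (nat_lit 0) (nat_lit 11713610128) (nat_lit 152) (nat_lit 18008379636) (nat_lit 0) (nat_lit 8429273875) (nat_lit 6) (nat_lit 5) (nat_lit 8)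 (nat_lit 4) (nat_lit 6) (nat_lit 4) (nat_lit 371) (nat_lit 211) (nat_lit 198)) (XT.nd (nat_lit 78) (nat_lit 0) (nat_lit 0) (XT.lf (nat_lit 0) (nat_lit 14662836379) (nat_lit 152) (nat_lit 13369462628) (nat_lit 0) (nat_lit 11174330658) (nat_lit 6) (nat_lit 5) (nat_lit 8) (nat_lit 4) (nat_lit 6) (nat_lit 4) (nat_lit 372) (nat_lit 211) (nat_lit 197)) (XT.lf (nat_lit 0) (nat_lit 17652027233) (nat_lit 152) (nat_lit 8677819002) (nat_lit 0) (nat_lit 13965298727) (nat_lit 6) (nat_lit 5) (nat_lit 8) (nat_lit 4) (nat_lit 6) (nat_lit 4) (nat_lit 373) (nat_lit 211) (nat_lit 196)))) (XT.nd (nat_lit 78) (nat_lit 76) (nat_lit 0) (XT.lf (nat_lit 0) (nat_lit 20683794602) (nat_lit 152) (nat_lit 3929349263) (nat_lit 0) (nat_lit 16804616790) (nat_lit 6) (nat_lit 5) (nat_lit 8) (nat_lit 4) (nat_lit 6) (nat_lit 4) (nat_lit 374) (nat_lit 211) (nat_lit 195)) (XT.nd (nat_lit 78) (nat_lit 0) (nat_lit 0) (XT.lf (nat_lit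 0) (nat_lit 897611366) (nat_lit 76) (nat_lit 22871804628) (nat_lit 76) (nat_lit 18805782830) (nat_lit 5) (nat_lit 4) (nat_lit 6) (nat_lit 5) (nat_lit 6) (nat_lit 4) (nat_lit 375) (nat_lit 211) (nat_lit 194)) (XT.lf (nat_lit 0) (nat_lit 5869248603) (nat_lit 76) (nat_lit 21072865080) (nat_lit 76) (nat_lit 16825441354) (nat_lit 5) (nat_lit 4) (nat_lit 6) (nat_lit 5) (nat_lit 6) (nat_lit 4) (nat_lit 376) (nat_lit 211) (nat_lit 193)))))) (XT.nd (nat_lit 468) (nat_lit 152) (nat_lit 0) (XT.nd (nat_lit 234) (nat_lit 0) (nat_lit 0) (XT.nd (nat_lit 78) (nat_lit 0) (nat_lit 0) (XT.lf (nat_lit 0) (nat_lit 10911704841) (nat_lit 76) (nat_lit 19254432057) (nat_lit 76) (nat_lit 14830889953) (nat_lit 5) (nat_lit 4) (nat_lit 6) (nat_lit 5) (nat_lit 6) (nat_lit 4) (nat_lit 377) (nat_lit 211) (nat_lit 192)) (XT.nd (nat_lit 78) (nat_lit 0) (nat_lit 0) (XT.lf (nat_lit 0) (nat_lit 16029386110) (nat_lit 76) (nat_lit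 17414916634) (nat_lit 76) (nat_lit 12820385816) (nat_lit 5) (nat_lit 4) (nat_lit 6) (nat_lit 5) (nat_lit 6) (nat_lit 4) (nat_lit 378) (nat_lit 211) (nat_lit 191)) (XT.lf (nat_lit 0) (nat_lit 21226764171) (nat_lit 76) (nat_lit 15552711471) (nat_lit 76) (nat_lit 10792172190) (nat_lit 5) (nat_lit 4) (nat_lit 6) (nat_lit 5) (nat_lit 6) (nat_lit 4) (nat_lit 379) (nat_lit 211) (nat_lit 190)))) (XT.nd (nat_lit 78) (nat_lit 0) (nat_lit 0) (XT.lf (nat_lit 0) (nat_lit 26508380421) (nat_lit 76) (nat_lit 13666189395) (nat_lit 76) (nat_lit 8744476851) (nat_lit 5) (nat_lit 4) (nat_lit 6) (nat_lit 5) (nat_lit 6) (nat_lit 4) (nat_lit 380) (nat_lit 211) (nat_lit 189)) (XT.nd (nat_lit 78) (nat_lit 0) (nat_lit 0) (XT.lf (nat_lit 0) (nat_lit 31878849865) (nat_lit 76) (nat_lit 11753701991) (nat_lit 76) (nat_lit 6675510551) (nat_lit 5) (nat_lit 4) (nat_lit 6) (nat_lit 5) (nat_lit 6) (nat_lit 4) (nat_lit 381) (nat_lit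 211) (nat_lit 188)) (XT.lf (nat_lit 0) (nat_lit 37342865146) (nat_lit 76) (nat_lit 9813578153) (nat_lit 76) (nat_lit 4583465453) (nat_lit 5) (nat_lit 4) (nat_lit 6) (nat_lit 5) (nat_lit 6) (nat_lit 4) (nat_lit 382) (nat_lit 211) (nat_lit 187))))) (XT.nd (nat_lit 234) (nat_lit 76) (nat_lit 0) (XT.nd (nat_lit 78) (nat_lit 76) (nat_lit 0) (XT.lf (nat_lit 0) (nat_lit 42905200647) (nat_lit 76) (nat_lit 7844122627) (nat_lit 76) (nat_lit 2466513559) (nat_lit 5) (nat_lit 4) (nat_lit 6) (nat_lit 5) (nat_lit 6) (nat_lit 4) (nat_lit 383) (nat_lit 211) (nat_lit 186)) (XT.nd (nat_lit 78) (nat_lit 76) (nat_lit 0) (XT.lf (nat_lit 0) (nat_lit 48570716660) (nat_lit 76) (nat_lit 5843614530) (nat_lit 76) (nat_lit 322805104) (nat_lit 5) (nat_lit 4) (nat_lit 6) (nat_lit 5) (nat_lit 6) (nat_lit 4) (nat_lit 384) (nat_lit 211) (nat_lit 185)) (XT.lf (nat_lit 0) (nat_lit 1813442002) (nat_lit 152) (nat_lit 1978551633)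 (nat_lit 76) (nat_lit 52512609427) (nat_lit 4) (nat_lit 5) (nat_lit 6) (nat_lit 5) (nat_lit 5) (nat_lit 4) (nat_lit 385) (nat_lit 211) (nat_lit 184)))) (XT.nd (nat_lit 78) (nat_lit 0) (nat_lit 0) (XT.lf (nat_lit 0) (nat_lit 2316222896) (nat_lit 76) (nat_lit 1679364229) (nat_lit 152) (nat_lit 53923783630) (nat_lit 3) (nat_lit 5) (nat_lit 4) (nat_lit 5) (nat_lit 5) (nat_lit 4) (nat_lit 386) (nat_lit 211) (nat_lit 183)) (XT.nd (nat_lit 78) (nat_lit 0) (nat_lit 0) (XT.lf (nat_lit 0) (nat_lit 6234337408) (nat_lit 152) (nat_lit 52867463068) (nat_lit 0) (nat_lit 481067911) (nat_lit 3) (nat_lit 5) (nat_lit 5) (nat_lit 4) (nat_lit 3) (nat_lit 4) (nat_lit 387) (nat_lit 211) (nat_lit 182)) (XT.lf (nat_lit 0) (nat_lit 8524051790) (nat_lit 152) (nat_lit 50125469218) (nat_lit 0) (nat_lit 2647256407) (nat_lit 3) (nat_lit 5) (nat_lit 5) (nat_lit 4) (nat_lit 3) (nat_lit 4) (nat_lit 388) (nat_lit 211) (nat_lit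 181))))))))
noncomputable def xc12 : XT := (XT.nd (nat_lit 38610) (nat_lit 0) (nat_lit 76) (XT.nd (nat_lit 858) (nat_lit 0) (nat_lit 0) (XT.nd (nat_lit 390) (nat_lit 0) (nat_lit 0) (XT.nd (nat_lit 156) (nat_lit 0) (nat_lit 0) (XT.nd (nat_lit 78) (nat_lit 0) (nat_lit 0) (XT.lf (nat_lit 0) (nat_lit 10850587918) (nat_lit 152) (nat_lit 47358627318) (nat_lit 0) (nat_lit 4853864491) (nat_lit 3) (nat_lit 5) (nat_lit 5) (nat_lit 4) (nat_lit 3) (nat_lit 4) (nat_lit 389) (nat_lit 211) (nat_lit 180)) (XT.lf (nat_lit 0) (nat_lit 13215978687) (nat_lit 152) (nat_lit 44564519736) (nat_lit 0) (nat_lit 7102820264) (nat_lit 3) (nat_lit 5) (nat_lit 5) (nat_lit 4) (nat_lit 3) (nat_lit 4) (nat_lit 390) (nat_lit 211) (nat_lit 179))) (XT.nd (nat_lit 78) (nat_lit 0) (nat_lit 0) (XT.lf (nat_lit 0) (nat_lit 15622290943) (nat_lit 152) (nat_lit 41740705022) (nat_lit 0) (nat_lit 9396088836) (nat_lit 3) (nat_lit 5) (nat_lit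 5) (nat_lit 4) (nat_lit 3) (nat_lit 4) (nat_lit 391) (nat_lit 211) (nat_lit 178)) (XT.nd (nat_lit 78) (nat_lit 0) (nat_lit 0) (XT.lf (nat_lit 0) (nat_lit 18071627289) (nat_lit 152) (nat_lit 38884715763) (nat_lit 0) (nat_lit 11735674032) (nat_lit 3) (nat_lit 5) (nat_lit 5) (nat_lit 4) (nat_lit 3) (nat_lit 4) (nat_lit 392) (nat_lit 211) (nat_lit 177)) (XT.lf (nat_lit 0) (nat_lit 20566127922) (nat_lit 152) (nat_lit 35994056435) (nat_lit 0) (nat_lit 14123620151) (nat_lit 3) (nat_lit 5) (nat_lit 5) (nat_lit 4) (nat_lit 3) (nat_lit 4) (nat_lit 393) (nat_lit 211) (nat_lit 176))))) (XT.nd (nat_lit 234) (nat_lit 0) (nat_lit 0) (XT.nd (nat_lit 78) (nat_lit 0) (nat_lit 0) (XT.lf (nat_lit 0) (nat_lit 23107972503) (nat_lit 152) (nat_lit 33066201219) (nat_lit 0) (nat_lit 16562013747) (nat_lit 3) (nat_lit 5) (nat_lit 5) (nat_lit 4) (nat_lit 3) (nat_lit 4) (nat_lit 394) (nat_lit 211) (nat_lit 175)) (XT.nd (nat_lit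 78) (nat_lit 0) (nat_lit 0) (XT.lf (nat_lit 0) (nat_lit 25699382061) (nat_lit 152) (nat_lit 30098591795) (nat_lit 0) (nat_lit 19052985455) (nat_lit 3) (nat_lit 5) (nat_lit 5) (nat_lit 4) (nat_lit 3) (nat_lit 4) (nat_lit 395) (nat_lit 211) (nat_lit 174)) (XT.lf (nat_lit 0) (nat_lit 28342620934) (nat_lit 152) (nat_lit 27088635107) (nat_lit 0) (nat_lit 21598711853) (nat_lit 3) (nat_lit 5) (nat_lit 5) (nat_lit 4) (nat_lit 3) (nat_lit 4) (nat_lit 396) (nat_lit 211) (nat_lit 173)))) (XT.nd (nat_lit 78) (nat_lit 0) (nat_lit 0) (XT.lf (nat_lit 0) (nat_lit 31039998749) (nat_lit 152) (nat_lit 24033701095) (nat_lit 0) (nat_lit 24201417361) (nat_lit 3) (nat_lit 5) (nat_lit 5) (nat_lit 4) (nat_lit 3) (nat_lit 4) (nat_lit 397) (nat_lit 211) (nat_lit 172)) (XT.nd (nat_lit 78) (nat_lit 0) (nat_lit 0) (XT.lf (nat_lit 0) (nat_lit 33793872437) (nat_lit 152) (nat_lit 20931120399) (nat_lit 0) (nat_lit 26863376190)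 (nat_lit 3) (nat_lit 5) (nat_lit 5) (nat_lit 4) (nat_lit 3) (nat_lit 4) (nat_lit 398) (nat_lit 211) (nat_lit 171)) (XT.lf (nat_lit 0) (nat_lit 36606648296) (nat_lit 152) (nat_lit 17778182026) (nat_lit 0) (nat_lit 29586914321) (nat_lit 3) (nat_lit 5) (nat_lit 5) (nat_lit 4) (nat_lit 3) (nat_lit 4) (nat_lit 399) (nat_lit 211) (nat_lit 170)))))) (XT.nd (nat_lit 37284) (nat_lit 0) (nat_lit 380) (XT.nd (nat_lit 234) (nat_lit 0) (nat_lit 0) (XT.nd (nat_lit 78) (nat_lit 0) (nat_lit 0) (XT.lf (nat_lit 0) (nat_lit 39480784092) (nat_lit 152) (nat_lit 14572130982) (nat_lit 0) (nat_lit 32374411545) (nat_lit 3) (nat_lit 5) (nat_lit 5) (nat_lit 4) (nat_lit 3) (nat_lit 4) (nat_lit 400) (nat_lit 211) (nat_lit 169)) (XT.nd (nat_lit 78) (nat_lit 0) (nat_lit 0) (XT.lf (nat_lit 0) (nat_lit 42418791205) (nat_lit 152) (nat_lit 11310165863) (nat_lit 0) (nat_lit 35228303540) (nat_lit 3) (nat_lit 5) (nat_lit 5) (nat_lit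 4) (nat_lit 3) (nat_lit 4) (nat_lit 401) (nat_lit 211) (nat_lit 168)) (XT.lf (nat_lit 0) (nat_lit 45423236826) (nat_lit 152) (nat_lit 7989436408) (nat_lit 0) (nat_lit 38151083998) (nat_lit 3) (nat_lit 5) (nat_lit 5) (nat_lit 4) (nat_lit 3) (nat_lit 4) (nat_lit 402) (nat_lit 211) (nat_lit 167)))) (XT.nd (nat_lit 78) (nat_lit 0) (nat_lit 0) (XT.lf (nat_lit 0) (nat_lit 48496746198) (nat_lit 152) (nat_lit 4607041009) (nat_lit 0) (nat_lit 41145306805) (nat_lit 3) (nat_lit 5) (nat_lit 5) (nat_lit 4) (nat_lit 3) (nat_lit 4) (nat_lit 403) (nat_lit 211) (nat_lit 166)) (XT.nd (nat_lit 36894) (nat_lit 0) (nat_lit 608) (XT.lf (nat_lit 0) (nat_lit 51642004913) (nat_lit 152) (nat_lit 1160024174) (nat_lit 0) (nat_lit 44213588271) (nat_lit 3) (nat_lit 5) (nat_lit 5) (nat_lit 4) (nat_lit 3) (nat_lit 4) (nat_lit 404) (nat_lit 211) (nat_lit 165)) (XT.lf (nat_lit 0) (nat_lit 10090256039) (nat_lit 76) (nat_lit 1376577766)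 (nat_lit 76) (nat_lit 1376577766) (nat_lit 11) (nat_lit 4) (nat_lit 12) (nat_lit 5) (nat_lit 12) (nat_lit 4) (nat_lit 356) (nat_lit 212) (nat_lit 212))))) (XT.nd (nat_lit 234) (nat_lit 76) (nat_lit 0) (XT.nd (nat_lit 78) (nat_lit 0) (nat_lit 0) (XT.lf (nat_lit 0) (nat_lit 412884532) (nat_lit 152) (nat_lit 25842283388) (nat_lit 0) (nat_lit 94795153) (nat_lit 9) (nat_lit 5) (nat_lit 11) (nat_lit 4) (nat_lit 9) (nat_lit 4) (nat_lit 357) (nat_lit 212) (nat_lit 211)) (XT.nd (nat_lit 78) (nat_lit 0) (nat_lit 0) (XT.lf (nat_lit 0) (nat_lit 3632338356) (nat_lit 152) (nat_lit 20394054985) (nat_lit 0) (nat_lit 3005424337) (nat_lit 9) (nat_lit 5) (nat_lit 11) (nat_lit 4) (nat_lit 9) (nat_lit 4) (nat_lit 358) (nat_lit 212) (nat_lit 210)) (XT.lf (nat_lit 0) (nat_lit 6880760088) (nat_lit 152) (nat_lit 14901429782) (nat_lit 0) (nat_lit 5954016321) (nat_lit 9) (nat_lit 5) (nat_lit 11) (nat_lit 4) (nat_lit 9)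 (nat_lit 4) (nat_lit 359) (nat_lit 212) (nat_lit 209)))) (XT.nd (nat_lit 78) (nat_lit 76) (nat_lit 0) (XT.lf (nat_lit 0) (nat_lit 10160988154) (nat_lit 152) (nat_lit 9359608398) (nat_lit 0) (nat_lit 8943147545) (nat_lit 9) (nat_lit 5) (nat_lit 11) (nat_lit 4) (nat_lit 9) (nat_lit 4) (nat_lit 360) (nat_lit 212) (nat_lit 208)) (XT.nd (nat_lit 78) (nat_lit 76) (nat_lit 0) (XT.lf (nat_lit 0) (nat_lit 13475888773) (nat_lit 152) (nat_lit 3763748464) (nat_lit 0) (nat_lit 11975429870) (nat_lit 9) (nat_lit 5) (nat_lit 11) (nat_lit 4) (nat_lit 9) (nat_lit 4) (nat_lit 361) (nat_lit 212) (nat_lit 207)) (XT.lf (nat_lit 0) (nat_lit 1928674999) (nat_lit 76) (nat_lit 14918223065) (nat_lit 76) (nat_lit 13143377470) (nat_lit 8) (nat_lit 4) (nat_lit 9) (nat_lit 5) (nat_lit 9) (nat_lit 4) (nat_lit 362) (nat_lit 212) (nat_lit 206))))))) (XT.nd (nat_lit 858) (nat_lit 152) (nat_lit 0) (XT.nd (nat_lit 390) (nat_lit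 76) (nat_lit 0) (XT.nd (nat_lit 156) (nat_lit 76) (nat_lit 0) (XT.nd (nat_lit 78) (nat_lit 0) (nat_lit 0) (XT.lf (nat_lit 0) (nat_lit 7761144773) (nat_lit 76) (nat_lit 12534786658) (nat_lit 76) (nat_lit 10493546215) (nat_lit 8) (nat_lit 4) (nat_lit 9) (nat_lit 5) (nat_lit 9) (nat_lit 4) (nat_lit 363) (nat_lit 212) (nat_lit 205)) (XT.lf (nat_lit 0) (nat_lit 13663851214) (nat_lit 76) (nat_lit 10125251880) (nat_lit 76) (nat_lit 7825375663) (nat_lit 8) (nat_lit 4) (nat_lit 9) (nat_lit 5) (nat_lit 9) (nat_lit 4) (nat_lit 364) (nat_lit 212) (nat_lit 204))) (XT.nd (nat_lit 78) (nat_lit 76) (nat_lit 0) (XT.lf (nat_lit 0) (nat_lit 19641952028) (nat_lit 76) (nat_lit 7687513314) (nat_lit 76) (nat_lit 5136534404) (nat_lit 8) (nat_lit 4) (nat_lit 9) (nat_lit 5) (nat_lit 9) (nat_lit 4) (nat_lit 365) (nat_lit 212) (nat_lit 203)) (XT.nd (nat_lit 78) (nat_lit 76) (nat_lit 0) (XT.lf (nat_lit 0) (nat_lit 25700670797)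 (nat_lit 76) (nat_lit 5219440897) (nat_lit 76) (nat_lit 2424672964) (nat_lit 8) (nat_lit 4) (nat_lit 9) (nat_lit 5) (nat_lit 9) (nat_lit 4) (nat_lit 366) (nat_lit 212) (nat_lit 202)) (XT.lf (nat_lit 0) (nat_lit 306478716) (nat_lit 152) (nat_lit 2409304509) (nat_lit 76) (nat_lit 31535727998) (nat_lit 7) (nat_lit 5) (nat_lit 9) (nat_lit 5) (nat_lit 8) (nat_lit 4) (nat_lit 367) (nat_lit 212) (nat_lit 201))))) (XT.nd (nat_lit 234) (nat_lit 0) (nat_lit 0) (XT.nd (nat_lit 78) (nat_lit 0) (nat_lit 0) (XT.lf (nat_lit 0) (nat_lit 2921394190) (nat_lit 76) (nat_lit 124243755) (nat_lit 152) (nat_lit 32139874300) (nat_lit 6) (nat_lit 5) (nat_lit 7) (nat_lit 5) (nat_lit 8) (nat_lit 4) (nat_lit 368) (nat_lit 212) (nat_lit 200)) (XT.nd (nat_lit 78) (nat_lit 0) (nat_lit 0) (XT.lf (nat_lit 0) (nat_lit 5862996011) (nat_lit 152) (nat_lit 27804562870) (nat_lit 0) (nat_lit 2480129671) (nat_lit 6) (nat_lit 5) (nat_lit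 8) (nat_lit 4) (nat_lit 6) (nat_lit 4) (nat_lit 369) (nat_lit 212) (nat_lit 199)) (XT.lf (nat_lit 0) (nat_lit 8714638378) (nat_lit 152) (nat_lit 23304156307) (nat_lit 0) (nat_lit 5121477485) (nat_lit 6) (nat_lit 5) (nat_lit 8) (nat_lit 4) (nat_lit 6) (nat_lit 4) (nat_lit 370) (nat_lit 212) (nat_lit 198)))) (XT.nd (nat_lit 78) (nat_lit 0) (nat_lit 0) (XT.lf (nat_lit 0) (nat_lit 11601862464) (nat_lit 152) (nat_lit 18757771666) (nat_lit 0) (nat_lit 7804532102) (nat_lit 6) (nat_lit 5) (nat_lit 8) (nat_lit 4) (nat_lit 6) (nat_lit 4) (nat_lit 371) (nat_lit 212) (nat_lit 197)) (XT.nd (nat_lit 78) (nat_lit 0) (nat_lit 0) (XT.lf (nat_lit 0) (nat_lit 14527191087) (nat_lit 152) (nat_lit 14161436378) (nat_lit 0) (nat_lit 10531637940) (nat_lit 6) (nat_lit 5) (nat_lit 8) (nat_lit 4) (nat_lit 6) (nat_lit 4) (nat_lit 372) (nat_lit 212) (nat_lit 196)) (XT.lf (nat_lit 0) (nat_lit 17493180359) (nat_lit 152) (nat_lit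 9511134228) (nat_lit 0) (nat_lit 13305177907) (nat_lit 6) (nat_lit 5) (nat_lit 8) (nat_lit 4) (nat_lit 6) (nat_lit 4) (nat_lit 373) (nat_lit 212) (nat_lit 195)))))) (XT.nd (nat_lit 468) (nat_lit 76) (nat_lit 0) (XT.nd (nat_lit 234) (nat_lit 0) (nat_lit 0) (XT.nd (nat_lit 78) (nat_lit 76) (nat_lit 0) (XT.lf (nat_lit 0) (nat_lit 20502421922) (nat_lit 152) (nat_lit 4802801845) (nat_lit 0) (nat_lit 16127575484) (nat_lit 6) (nat_lit 5) (nat_lit 8) (nat_lit 4) (nat_lit 6) (nat_lit 4) (nat_lit 374) (nat_lit 212) (nat_lit 194)) (XT.nd (nat_lit 78) (nat_lit 76) (nat_lit 0) (XT.lf (nat_lit 0) (nat_lit 23557545209) (nat_lit 152) (nat_lit 32325152) (nat_lit 0) (nat_lit 19001296843) (nat_lit 6) (nat_lit 5) (nat_lit 8) (nat_lit 4) (nat_lit 6) (nat_lit 4) (nat_lit 375) (nat_lit 212) (nat_lit 193)) (XT.lf (nat_lit 0) (nat_lit 4900082486) (nat_lit 76) (nat_lit 21808239850) (nat_lit 76) (nat_lit 17075873107) (nat_lit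 5) (nat_lit 4) (nat_lit 6) (nat_lit 5) (nat_lit 6) (nat_lit 4) (nat_lit 376) (nat_lit 212) (nat_lit 192)))) (XT.nd (nat_lit 78) (nat_lit 0) (nat_lit 0) (XT.lf (nat_lit 0) (nat_lit 9905076333) (nat_lit 76) (nat_lit 20006294803) (nat_lit 76) (nat_lit 15102939344) (nat_lit 5) (nat_lit 4) (nat_lit 6) (nat_lit 5) (nat_lit 6) (nat_lit 4) (nat_lit 377) (nat_lit 212) (nat_lit 191)) (XT.nd (nat_lit 78) (nat_lit 0) (nat_lit 0) (XT.lf (nat_lit 0) (nat_lit 14986386347) (nat_lit 76) (nat_lit 18182787125) (nat_lit 76) (nat_lit 13113423205) (nat_lit 5) (nat_lit 4) (nat_lit 6) (nat_lit 5) (nat_lit 6) (nat_lit 4) (nat_lit 378) (nat_lit 212) (nat_lit 190)) (XT.lf (nat_lit 0) (nat_lit 20148452510) (nat_lit 76) (nat_lit 16336123460) (nat_lit 76) (nat_lit 11105586276) (nat_lit 5) (nat_lit 4) (nat_lit 6) (nat_lit 5) (nat_lit 6) (nat_lit 4) (nat_lit 379) (nat_lit 212) (nat_lit 189))))) (XT.nd (nat_lit 234) (nat_lit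 76) (nat_lit 0) (XT.nd (nat_lit 78) (nat_lit 0) (nat_lit 0) (XT.lf (nat_lit 0) (nat_lit 25395785364) (nat_lit 76) (nat_lit 14464690219) (nat_lit 76) (nat_lit 9077674138) (nat_lit 5) (nat_lit 4) (nat_lit 6) (nat_lit 5) (nat_lit 6) (nat_lit 4) (nat_lit 380) (nat_lit 212) (nat_lit 188)) (XT.nd (nat_lit 78) (nat_lit 0) (nat_lit 0) (XT.lf (nat_lit 0) (nat_lit 30732969958) (nat_lit 76) (nat_lit 12566852169) (nat_lit 76) (nat_lit 7027914829) (nat_lit 5) (nat_lit 4) (nat_lit 6) (nat_lit 5) (nat_lit 6) (nat_lit 4) (nat_lit 381) (nat_lit 212) (nat_lit 187)) (XT.lf (nat_lit 0) (nat_lit 36164669851) (nat_lit 76) (nat_lit 10640951004) (nat_lit 76) (nat_lit 4954517297) (nat_lit 5) (nat_lit 4) (nat_lit 6) (nat_lit 5) (nat_lit 6) (nat_lit 4) (nat_lit 382) (nat_lit 212) (nat_lit 186)))) (XT.nd (nat_lit 78) (nat_lit 76) (nat_lit 0) (XT.lf (nat_lit 0) (nat_lit 41695631188) (nat_lit 76) (nat_lit 8685303899) (nat_lit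 76) (nat_lit 2855669834) (nat_lit 5) (nat_lit 4) (nat_lit 6) (nat_lit 5) (nat_lit 6) (nat_lit 4) (nat_lit 383) (nat_lit 212) (nat_lit 185)) (XT.nd (nat_lit 78) (nat_lit 76) (nat_lit 0) (XT.lf (nat_lit 0) (nat_lit 47330686848) (nat_lit 76) (nat_lit 6698202035) (nat_lit 76) (nat_lit 729538497) (nat_lit 5) (nat_lit 4) (nat_lit 6) (nat_lit 5) (nat_lit 6) (nat_lit 4) (nat_lit 384) (nat_lit 212) (nat_lit 184)) (XT.lf (nat_lit 0) (nat_lit 1397913282) (nat_lit 152) (nat_lit 3265879644) (nat_lit 76) (nat_lit 51662731201) (nat_lit 4) (nat_lit 5) (nat_lit 6) (nat_lit 5) (nat_lit 5) (nat_lit 4) (nat_lit 385) (nat_lit 212) (nat_lit 183))))))))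
noncomputable def xc13 : XT := (XT.nd (nat_lit 38454) (nat_lit 0) (nat_lit 152) (XT.nd (nat_lit 858) (nat_lit 0) (nat_lit 0) (XT.nd (nat_lit 390) (nat_lit 0) (nat_lit 0) (XT.nd (nat_lit 156) (nat_lit 0) (nat_lit 0) (XT.nd (nat_lit 78) (nat_lit 0) (nat_lit 0) (XT.lf (nat_lit 0) (nat_lit 973650952) (nat_lit 76) (nat_lit 2577257015) (nat_lit 152) (nat_lit 54391268777) (nat_lit 3) (nat_lit 5) (nat_lit 4) (nat_lit 5) (nat_lit 5) (nat_lit 4) (nat_lit 386) (nat_lit 212) (nat_lit 182)) (XT.lf (nat_lit 0) (nat_lit 5348930460) (nat_lit 76) (nat_lit 419963305) (nat_lit 152) (nat_lit 53837413652) (nat_lit 3) (nat_lit 5) (nat_lit 4) (nat_lit 5) (nat_lit 5) (nat_lit 4) (nat_lit 387) (nat_lit 212) (nat_lit 181))) (XT.nd (nat_lit 78) (nat_lit 0) (nat_lit 0) (XT.lf (nat_lit 0) (nat_lit 8038871851) (nat_lit 152) (nat_lit 51539627821) (nat_lit 0) (nat_lit 1742318676) (nat_lit 3) (nat_lit 5) (nat_lit 5) (nat_lit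 4) (nat_lit 3) (nat_lit 4) (nat_lit 388) (nat_lit 212) (nat_lit 180)) (XT.nd (nat_lit 78) (nat_lit 0) (nat_lit 0) (XT.lf (nat_lit 0) (nat_lit 10350165889) (nat_lit 152) (nat_lit 48800243839) (nat_lit 0) (nat_lit 3937177719) (nat_lit 3) (nat_lit 5) (nat_lit 5) (nat_lit 4) (nat_lit 3) (nat_lit 4) (nat_lit 389) (nat_lit 212) (nat_lit 179)) (XT.lf (nat_lit 0) (nat_lit 12700758512) (nat_lit 152) (nat_lit 46032794433) (nat_lit 0) (nat_lit 6174726657) (nat_lit 3) (nat_lit 5) (nat_lit 5) (nat_lit 4) (nat_lit 3) (nat_lit 4) (nat_lit 390) (nat_lit 212) (nat_lit 178))))) (XT.nd (nat_lit 234) (nat_lit 0) (nat_lit 0) (XT.nd (nat_lit 78) (nat_lit 0) (nat_lit 0) (XT.lf (nat_lit 0) (nat_lit 15092703636) (nat_lit 152) (nat_lit 43234861441) (nat_lit 0) (nat_lit 8456920632) (nat_lit 3) (nat_lit 5) (nat_lit 5) (nat_lit 4) (nat_lit 3) (nat_lit 4) (nat_lit 391) (nat_lit 212) (nat_lit 177)) (XT.nd (nat_lit 78) (nat_lit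 0) (nat_lit 0) (XT.lf (nat_lit 0) (nat_lit 17528091311) (nat_lit 152) (nat_lit 40404000068) (nat_lit 0) (nat_lit 10785753792) (nat_lit 3) (nat_lit 5) (nat_lit 5) (nat_lit 4) (nat_lit 3) (nat_lit 4) (nat_lit 392) (nat_lit 212) (nat_lit 176)) (XT.lf (nat_lit 0) (nat_lit 20009049544) (nat_lit 152) (nat_lit 37537736746) (nat_lit 0) (nat_lit 13163261040) (nat_lit 3) (nat_lit 5) (nat_lit 5) (nat_lit 4) (nat_lit 3) (nat_lit 4) (nat_lit 393) (nat_lit 212) (nat_lit 175)))) (XT.nd (nat_lit 78) (nat_lit 0) (nat_lit 0) (XT.lf (nat_lit 0) (nat_lit 22537746164) (nat_lit 152) (nat_lit 34633566973) (nat_lit 0) (nat_lit 15591519811) (nat_lit 3) (nat_lit 5) (nat_lit 5) (nat_lit 4) (nat_lit 3) (nat_lit 4) (nat_lit 394) (nat_lit 212) (nat_lit 174)) (XT.nd (nat_lit 78) (nat_lit 0) (nat_lit 0) (XT.lf (nat_lit 0) (nat_lit 25116390711) (nat_lit 152) (nat_lit 31688953124) (nat_lit 0) (nat_lit 18072651883) (nat_lit 3)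 (nat_lit 5) (nat_lit 5) (nat_lit 4) (nat_lit 3) (nat_lit 4) (nat_lit 395) (nat_lit 212) (nat_lit 173)) (XT.lf (nat_lit 0) (nat_lit 27747236370) (nat_lit 152) (nat_lit 28701322237) (nat_lit 0) (nat_lit 20608825236) (nat_lit 3) (nat_lit 5) (nat_lit 5) (nat_lit 4) (nat_lit 3) (nat_lit 4) (nat_lit 396) (nat_lit 212) (nat_lit 172)))))) (XT.nd (nat_lit 468) (nat_lit 0) (nat_lit 0) (XT.nd (nat_lit 234) (nat_lit 0) (nat_lit 0) (XT.nd (nat_lit 78) (nat_lit 0) (nat_lit 0) (XT.lf (nat_lit 0) (nat_lit 30432581938) (nat_lit 152) (nat_lit 25668063760) (nat_lit 0) (nat_lit 23202255943) (nat_lit 3) (nat_lit 5) (nat_lit 5) (nat_lit 4) (nat_lit 3) (nat_lit 4) (nat_lit 397) (nat_lit 212) (nat_lit 171)) (XT.nd (nat_lit 78) (nat_lit 0) (nat_lit 0) (XT.lf (nat_lit 0) (nat_lit 33174773834) (nat_lit 152) (nat_lit 22586527273) (nat_lit 0) (nat_lit 25855210110) (nat_lit 3) (nat_lit 5) (nat_lit 5) (nat_lit 4) (nat_lit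 3) (nat_lit 4) (nat_lit 398) (nat_lit 212) (nat_lit 170)) (XT.lf (nat_lit 0) (nat_lit 35976208147) (nat_lit 152) (nat_lit 19454020171) (nat_lit 0) (nat_lit 28570005852) (nat_lit 3) (nat_lit 5) (nat_lit 5) (nat_lit 4) (nat_lit 3) (nat_lit 4) (nat_lit 399) (nat_lit 212) (nat_lit 169)))) (XT.nd (nat_lit 78) (nat_lit 0) (nat_lit 0) (XT.lf (nat_lit 0) (nat_lit 38839332732) (nat_lit 152) (nat_lit 16267805313) (nat_lit 0) (nat_lit 31349015320) (nat_lit 3) (nat_lit 5) (nat_lit 5) (nat_lit 4) (nat_lit 3) (nat_lit 4) (nat_lit 400) (nat_lit 212) (nat_lit 168)) (XT.nd (nat_lit 78) (nat_lit 0) (nat_lit 0) (XT.lf (nat_lit 0) (nat_lit 41766649350) (nat_lit 152) (nat_lit 13025098626) (nat_lit 0) (nat_lit 34194666775) (nat_lit 3) (nat_lit 5) (nat_lit 5) (nat_lit 4) (nat_lit 3) (nat_lit 4) (nat_lit 401) (nat_lit 212) (nat_lit 167)) (XT.lf (nat_lit 0) (nat_lit 44760715849) (nat_lit 152) (nat_lit 9723066678) (nat_lit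 0) (nat_lit 37109446708) (nat_lit 3) (nat_lit 5) (nat_lit 5) (nat_lit 4) (nat_lit 3) (nat_lit 4) (nat_lit 402) (nat_lit 212) (nat_lit 166))))) (XT.nd (nat_lit 36894) (nat_lit 0) (nat_lit 456) (XT.nd (nat_lit 78) (nat_lit 0) (nat_lit 0) (XT.lf (nat_lit 0) (nat_lit 47824148404) (nat_lit 152) (nat_lit 6358824199) (nat_lit 0) (nat_lit 40095902015) (nat_lit 3) (nat_lit 5) (nat_lit 5) (nat_lit 4) (nat_lit 3) (nat_lit 4) (nat_lit 403) (nat_lit 212) (nat_lit 165)) (XT.nd (nat_lit 36738) (nat_lit 0) (nat_lit 608) (XT.lf (nat_lit 0) (nat_lit 50959623801) (nat_lit 152) (nat_lit 2929431558) (nat_lit 0) (nat_lit 43156642219) (nat_lit 3) (nat_lit 5) (nat_lit 5) (nat_lit 4) (nat_lit 3) (nat_lit 4) (nat_lit 404) (nat_lit 212) (nat_lit 164)) (XT.lf (nat_lit 0) (nat_lit 3561230681) (nat_lit 76) (nat_lit 4325008112) (nat_lit 76) (nat_lit 4325008112) (nat_lit 11) (nat_lit 4) (nat_lit 12) (nat_lit 5) (nat_lit 12)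 (nat_lit 4) (nat_lit 354) (nat_lit 213) (nat_lit 213)))) (XT.nd (nat_lit 78) (nat_lit 152) (nat_lit 0) (XT.lf (nat_lit 0) (nat_lit 13585178528) (nat_lit 76) (nat_lit 5898532764) (nat_lit 76) (nat_lit 5561071741) (nat_lit 11) (nat_lit 4) (nat_lit 12) (nat_lit 5) (nat_lit 12) (nat_lit 4) (nat_lit 355) (nat_lit 213) (nat_lit 212)) (XT.nd (nat_lit 78) (nat_lit 152) (nat_lit 0) (XT.lf (nat_lit 0) (nat_lit 20121031368) (nat_lit 76) (nat_lit 3115967774) (nat_lit 76) (nat_lit 2450874691) (nat_lit 11) (nat_lit 4) (nat_lit 12) (nat_lit 5) (nat_lit 12) (nat_lit 4) (nat_lit 356) (nat_lit 213) (nat_lit 211)) (XT.lf (nat_lit 0) (nat_lit 384334202) (nat_lit 76) (nat_lit 289319327) (nat_lit 152) (nat_lit 25678366730) (nat_lit 9) (nat_lit 5) (nat_lit 10) (nat_lit 5) (nat_lit 11) (nat_lit 4) (nat_lit 357) (nat_lit 213) (nat_lit 210))))))) (XT.nd (nat_lit 936) (nat_lit 76) (nat_lit 0) (XT.nd (nat_lit 468) (nat_lit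 152) (nat_lit 0) (XT.nd (nat_lit 234) (nat_lit 76) (nat_lit 0) (XT.nd (nat_lit 78) (nat_lit 0) (nat_lit 0) (XT.lf (nat_lit 0) (nat_lit 3857018008) (nat_lit 152) (nat_lit 20575321885) (nat_lit 0) (nat_lit 2602642181) (nat_lit 9) (nat_lit 5) (nat_lit 11) (nat_lit 4) (nat_lit 9) (nat_lit 4) (nat_lit 358) (nat_lit 213) (nat_lit 209)) (XT.nd (nat_lit 78) (nat_lit 0) (nat_lit 0) (XT.lf (nat_lit 0) (nat_lit 7073101653) (nat_lit 152) (nat_lit 15139633911) (nat_lit 0) (nat_lit 5527628983) (nat_lit 9) (nat_lit 5) (nat_lit 11) (nat_lit 4) (nat_lit 9) (nat_lit 4) (nat_lit 359) (nat_lit 213) (nat_lit 208)) (XT.lf (nat_lit 0) (nat_lit 10321933517) (nat_lit 152) (nat_lit 9653091390) (nat_lit 0) (nat_lit 8493842554) (nat_lit 9) (nat_lit 5) (nat_lit 11) (nat_lit 4) (nat_lit 9) (nat_lit 4) (nat_lit 360) (nat_lit 213) (nat_lit 207)))) (XT.nd (nat_lit 78) (nat_lit 76) (nat_lit 0) (XT.lf (nat_lit 0) (nat_lit 13606352388)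 (nat_lit 152) (nat_lit 4110900256) (nat_lit 0) (nat_lit 11503874732) (nat_lit 9) (nat_lit 5) (nat_lit 11) (nat_lit 4) (nat_lit 9) (nat_lit 4) (nat_lit 361) (nat_lit 213) (nat_lit 206)) (XT.nd (nat_lit 78) (nat_lit 0) (nat_lit 0) (XT.lf (nat_lit 0) (nat_lit 1521471571) (nat_lit 76) (nat_lit 15422381889) (nat_lit 76) (nat_lit 13053509385) (nat_lit 8) (nat_lit 4) (nat_lit 9) (nat_lit 5) (nat_lit 9) (nat_lit 4) (nat_lit 362) (nat_lit 213) (nat_lit 205)) (XT.lf (nat_lit 0) (nat_lit 7302346554) (nat_lit 76) (nat_lit 13061312339) (nat_lit 76) (nat_lit 10433804062) (nat_lit 8) (nat_lit 4) (nat_lit 9) (nat_lit 5) (nat_lit 9) (nat_lit 4) (nat_lit 363) (nat_lit 213) (nat_lit 204))))) (XT.nd (nat_lit 234) (nat_lit 152) (nat_lit 0) (XT.nd (nat_lit 78) (nat_lit 0) (nat_lit 0) (XT.lf (nat_lit 0) (nat_lit 13154960965) (nat_lit 76) (nat_lit 10673492958) (nat_lit 76) (nat_lit 7794881987) (nat_lit 8) (nat_lit 4)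 (nat_lit 9) (nat_lit 5) (nat_lit 9) (nat_lit 4) (nat_lit 364) (nat_lit 213) (nat_lit 203)) (XT.nd (nat_lit 78) (nat_lit 0) (nat_lit 0) (XT.lf (nat_lit 0) (nat_lit 19084428740) (nat_lit 76) (nat_lit 8256837301) (nat_lit 76) (nat_lit 5134437308) (nat_lit 8) (nat_lit 4) (nat_lit 9) (nat_lit 5) (nat_lit 9) (nat_lit 4) (nat_lit 365) (nat_lit 213) (nat_lit 202)) (XT.lf (nat_lit 0) (nat_lit 25095930967) (nat_lit 76) (nat_lit 5809233728) (nat_lit 76) (nat_lit 2450145363) (nat_lit 8) (nat_lit 4) (nat_lit 9) (nat_lit 5) (nat_lit 9) (nat_lit 4) (nat_lit 366) (nat_lit 213) (nat_lit 201)))) (XT.nd (nat_lit 78) (nat_lit 76) (nat_lit 0) (XT.lf (nat_lit 0) (nat_lit 255259186) (nat_lit 152) (nat_lit 3070706751) (nat_lit 76) (nat_lit 30936883611) (nat_lit 7) (nat_lit 5) (nat_lit 9) (nat_lit 5) (nat_lit 8) (nat_lit 4) (nat_lit 367) (nat_lit 213) (nat_lit 200)) (XT.nd (nat_lit 78) (nat_lit 0) (nat_lit 0) (XT.lf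 (nat_lit 0) (nat_lit 2200901603) (nat_lit 76) (nat_lit 761111201) (nat_lit 152) (nat_lit 32235827657) (nat_lit 6) (nat_lit 5) (nat_lit 7) (nat_lit 5) (nat_lit 8) (nat_lit 4) (nat_lit 368) (nat_lit 213) (nat_lit 199)) (XT.lf (nat_lit 0) (nat_lit 5747895917) (nat_lit 152) (nat_lit 28576436660) (nat_lit 0) (nat_lit 1836645645) (nat_lit 6) (nat_lit 5) (nat_lit 8) (nat_lit 4) (nat_lit 6) (nat_lit 4) (nat_lit 369) (nat_lit 213) (nat_lit 198)))))) (XT.nd (nat_lit 468) (nat_lit 76) (nat_lit 0) (XT.nd (nat_lit 234) (nat_lit 0) (nat_lit 0) (XT.nd (nat_lit 78) (nat_lit 0) (nat_lit 0) (XT.lf (nat_lit 0) (nat_lit 8574923726) (nat_lit 152) (nat_lit 24119889269) (nat_lit 0) (nat_lit 4459503986) (nat_lit 6) (nat_lit 5) (nat_lit 8) (nat_lit 4) (nat_lit 6) (nat_lit 4) (nat_lit 370) (nat_lit 213) (nat_lit 197)) (XT.nd (nat_lit 78) (nat_lit 0) (nat_lit 0) (XT.lf (nat_lit 0) (nat_lit 11438250184) (nat_lit 152) (nat_lit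 19616086348) (nat_lit 0) (nat_lit 7124607658) (nat_lit 6) (nat_lit 5) (nat_lit 8) (nat_lit 4) (nat_lit 6) (nat_lit 4) (nat_lit 371) (nat_lit 213) (nat_lit 196)) (XT.lf (nat_lit 0) (nat_lit 14340377226) (nat_lit 152) (nat_lit 15061092537) (nat_lit 0) (nat_lit 9834285395) (nat_lit 6) (nat_lit 5) (nat_lit 8) (nat_lit 4) (nat_lit 6) (nat_lit 4) (nat_lit 372) (nat_lit 213) (nat_lit 195)))) (XT.nd (nat_lit 78) (nat_lit 0) (nat_lit 0) (XT.lf (nat_lit 0) (nat_lit 17283840691) (nat_lit 152) (nat_lit 10450927742) (nat_lit 0) (nat_lit 12590904874) (nat_lit 6) (nat_lit 5) (nat_lit 8) (nat_lit 4) (nat_lit 6) (nat_lit 4) (nat_lit 373) (nat_lit 213) (nat_lit 194)) (XT.nd (nat_lit 78) (nat_lit 0) (nat_lit 0) (XT.lf (nat_lit 0) (nat_lit 20271212539) (nat_lit 152) (nat_lit 5781563665) (nat_lit 0) (nat_lit 15396874793) (nat_lit 6) (nat_lit 5) (nat_lit 8) (nat_lit 4) (nat_lit 6) (nat_lit 4) (nat_lit 374) (nat_lit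 213) (nat_lit 193)) (XT.lf (nat_lit 0) (nat_lit 23305103093) (nat_lit 152) (nat_lit 1048920279) (nat_lit 0) (nat_lit 18254646970) (nat_lit 6) (nat_lit 5) (nat_lit 8) (nat_lit 4) (nat_lit 6) (nat_lit 4) (nat_lit 375) (nat_lit 213) (nat_lit 192))))) (XT.nd (nat_lit 234) (nat_lit 0) (nat_lit 0) (XT.nd (nat_lit 78) (nat_lit 0) (nat_lit 0) (XT.lf (nat_lit 0) (nat_lit 3825792730) (nat_lit 76) (nat_lit 22599146455) (nat_lit 76) (nat_lit 17377701617) (nat_lit 5) (nat_lit 4) (nat_lit 6) (nat_lit 5) (nat_lit 6) (nat_lit 4) (nat_lit 376) (nat_lit 213) (nat_lit 191)) (XT.nd (nat_lit 78) (nat_lit 0) (nat_lit 0) (XT.lf (nat_lit 0) (nat_lit 8794415322) (nat_lit 76) (nat_lit 20813209152) (nat_lit 76) (nat_lit 15425755853) (nat_lit 5) (nat_lit 4) (nat_lit 6) (nat_lit 5) (nat_lit 6) (nat_lit 4) (nat_lit 377) (nat_lit 213) (nat_lit 190)) (XT.lf (nat_lit 0) (nat_lit 13840413439) (nat_lit 76) (nat_lit 19005242974)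 (nat_lit 76) (nat_lit 13456616410) (nat_lit 5) (nat_lit 4) (nat_lit 6) (nat_lit 5) (nat_lit 6) (nat_lit 4) (nat_lit 378) (nat_lit 213) (nat_lit 189)))) (XT.nd (nat_lit 78) (nat_lit 0) (nat_lit 0) (XT.lf (nat_lit 0) (nat_lit 18968196206) (nat_lit 76) (nat_lit 17173668143) (nat_lit 76) (nat_lit 11468562683) (nat_lit 5) (nat_lit 4) (nat_lit 6) (nat_lit 5) (nat_lit 6) (nat_lit 4) (nat_lit 379) (nat_lit 213) (nat_lit 188)) (XT.nd (nat_lit 78) (nat_lit 0) (nat_lit 0) (XT.lf (nat_lit 0) (nat_lit 24182244210) (nat_lit 76) (nat_lit 15316884256) (nat_lit 76) (nat_lit 9459857537) (nat_lit 5) (nat_lit 4) (nat_lit 6) (nat_lit 5) (nat_lit 6) (nat_lit 4) (nat_lit 380) (nat_lit 213) (nat_lit 187)) (XT.lf (nat_lit 0) (nat_lit 29487113415) (nat_lit 76) (nat_lit 13433268879) (nat_lit 76) (nat_lit 7428745792) (nat_lit 5) (nat_lit 4) (nat_lit 6) (nat_lit 5) (nat_lit 6) (nat_lit 4) (nat_lit 381) (nat_lit 213) (nat_lit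 186))))))))
noncomputable def xc14 : XT := (XT.nd (nat_lit 38298) (nat_lit 0) (nat_lit 228) (XT.nd (nat_lit 858) (nat_lit 0) (nat_lit 0) (XT.nd (nat_lit 390) (nat_lit 76) (nat_lit 0) (XT.nd (nat_lit 156) (nat_lit 76) (nat_lit 0) (XT.nd (nat_lit 78) (nat_lit 0) (nat_lit 0) (XT.lf (nat_lit 0) (nat_lit 34887439144) (nat_lit 76) (nat_lit 11521176135) (nat_lit 76) (nat_lit 5373452691) (nat_lit 5) (nat_lit 4) (nat_lit 6) (nat_lit 5) (nat_lit 6) (nat_lit 4) (nat_lit 382) (nat_lit 213) (nat_lit 185)) (XT.lf (nat_lit 0) (nat_lit 40387940128) (nat_lit 76) (nat_lit 9578935264) (nat_lit 76) (nat_lit 3292182346) (nat_lit 5) (nat_lit 4) (nat_lit 6) (nat_lit 5) (nat_lit 6) (nat_lit 4) (nat_lit 383) (nat_lit 213) (nat_lit 184))) (XT.nd (nat_lit 78) (nat_lit 76) (nat_lit 0) (XT.lf (nat_lit 0) (nat_lit 45993422630) (nat_lit 76) (nat_lit 7604849161) (nat_lit 76) (nat_lit 1183116173) (nat_lit 5) (nat_lit 4) (nat_lit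 6) (nat_lit 5) (nat_lit 6) (nat_lit 4) (nat_lit 384) (nat_lit 213) (nat_lit 183)) (XT.nd (nat_lit 78) (nat_lit 0) (nat_lit 0) (XT.lf (nat_lit 0) (nat_lit 936941725) (nat_lit 152) (nat_lit 4650789897) (nat_lit 76) (nat_lit 50762381644) (nat_lit 4) (nat_lit 5) (nat_lit 6) (nat_lit 5) (nat_lit 5) (nat_lit 4) (nat_lit 385) (nat_lit 213) (nat_lit 182)) (XT.lf (nat_lit 0) (nat_lit 3064805416) (nat_lit 152) (nat_lit 458458269) (nat_lit 76) (nat_lit 54443266236) (nat_lit 4) (nat_lit 5) (nat_lit 6) (nat_lit 5) (nat_lit 5) (nat_lit 4) (nat_lit 386) (nat_lit 213) (nat_lit 181))))) (XT.nd (nat_lit 234) (nat_lit 0) (nat_lit 0) (XT.nd (nat_lit 78) (nat_lit 0) (nat_lit 0) (XT.lf (nat_lit 0) (nat_lit 3879773954) (nat_lit 76) (nat_lit 1382941860) (nat_lit 152) (nat_lit 54368556853) (nat_lit 3) (nat_lit 5) (nat_lit 4) (nat_lit 5) (nat_lit 5) (nat_lit 4) (nat_lit 387) (nat_lit 213) (nat_lit 180)) (XT.nd (nat_lit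 78) (nat_lit 0) (nat_lit 0) (XT.lf (nat_lit 0) (nat_lit 7508195071) (nat_lit 152) (nat_lit 53051950758) (nat_lit 0) (nat_lit 786382261) (nat_lit 3) (nat_lit 5) (nat_lit 5) (nat_lit 4) (nat_lit 3) (nat_lit 4) (nat_lit 388) (nat_lit 213) (nat_lit 179)) (XT.lf (nat_lit 0) (nat_lit 9804690963) (nat_lit 152) (nat_lit 50339224951) (nat_lit 0) (nat_lit 2969834468) (nat_lit 3) (nat_lit 5) (nat_lit 5) (nat_lit 4) (nat_lit 3) (nat_lit 4) (nat_lit 389) (nat_lit 213) (nat_lit 178)))) (XT.nd (nat_lit 78) (nat_lit 0) (nat_lit 0) (XT.lf (nat_lit 0) (nat_lit 12140916454) (nat_lit 152) (nat_lit 47597657267) (nat_lit 0) (nat_lit 5196308810) (nat_lit 3) (nat_lit 5) (nat_lit 5) (nat_lit 4) (nat_lit 3) (nat_lit 4) (nat_lit 390) (nat_lit 213) (nat_lit 177)) (XT.nd (nat_lit 78) (nat_lit 0) (nat_lit 0) (XT.lf (nat_lit 0) (nat_lit 14518912907) (nat_lit 152) (nat_lit 44824852161) (nat_lit 0) (nat_lit 7467750748) (nat_lit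 3) (nat_lit 5) (nat_lit 5) (nat_lit 4) (nat_lit 3) (nat_lit 4) (nat_lit 391) (nat_lit 213) (nat_lit 176)) (XT.lf (nat_lit 0) (nat_lit 16940758182) (nat_lit 152) (nat_lit 42018386794) (nat_lit 0) (nat_lit 9786145038) (nat_lit 3) (nat_lit 5) (nat_lit 5) (nat_lit 4) (nat_lit 3) (nat_lit 4) (nat_lit 392) (nat_lit 213) (nat_lit 175)))))) (XT.nd (nat_lit 468) (nat_lit 0) (nat_lit 0) (XT.nd (nat_lit 234) (nat_lit 0) (nat_lit 0) (XT.nd (nat_lit 78) (nat_lit 0) (nat_lit 0) (XT.lf (nat_lit 0) (nat_lit 19408568454) (nat_lit 152) (nat_lit 39175808915) (nat_lit 0) (nat_lit 12153517461) (nat_lit 3) (nat_lit 5) (nat_lit 5) (nat_lit 4) (nat_lit 3) (nat_lit 4) (nat_lit 393) (nat_lit 213) (nat_lit 174)) (XT.nd (nat_lit 78) (nat_lit 0) (nat_lit 0) (XT.lf (nat_lit 0) (nat_lit 21924500064) (nat_lit 152) (nat_lit 36294634717) (nat_lit 0) (nat_lit 14571936595) (nat_lit 3) (nat_lit 5) (nat_lit 5) (nat_lit 4) (nat_lit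 3) (nat_lit 4) (nat_lit 394) (nat_lit 213) (nat_lit 173)) (XT.lf (nat_lit 0) (nat_lit 24490751397) (nat_lit 152) (nat_lit 33372346670) (nat_lit 0) (nat_lit 17043515622) (nat_lit 3) (nat_lit 5) (nat_lit 5) (nat_lit 4) (nat_lit 3) (nat_lit 4) (nat_lit 395) (nat_lit 213) (nat_lit 172)))) (XT.nd (nat_lit 78) (nat_lit 0) (nat_lit 0) (XT.lf (nat_lit 0) (nat_lit 27109564809) (nat_lit 152) (nat_lit 30406391318) (nat_lit 0) (nat_lit 19570414174) (nat_lit 3) (nat_lit 5) (nat_lit 5) (nat_lit 4) (nat_lit 3) (nat_lit 4) (nat_lit 396) (nat_lit 213) (nat_lit 171)) (XT.nd (nat_lit 78) (nat_lit 0) (nat_lit 0) (XT.lf (nat_lit 0) (nat_lit 29783228584) (nat_lit 152) (nat_lit 27394177050) (nat_lit 0) (nat_lit 22154840221) (nat_lit 3) (nat_lit 5) (nat_lit 5) (nat_lit 4) (nat_lit 3) (nat_lit 4) (nat_lit 397) (nat_lit 213) (nat_lit 170)) (XT.lf (nat_lit 0) (nat_lit 32514078933) (nat_lit 152) (nat_lit 24333071834) (nat_lit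 0) (nat_lit 24799051999) (nat_lit 3) (nat_lit 5) (nat_lit 5) (nat_lit 4) (nat_lit 3) (nat_lit 4) (nat_lit 398) (nat_lit 213) (nat_lit 169))))) (XT.nd (nat_lit 234) (nat_lit 0) (nat_lit 0) (XT.nd (nat_lit 78) (nat_lit 0) (nat_lit 0) (XT.lf (nat_lit 0) (nat_lit 35304502036) (nat_lit 152) (nat_lit 21220400917) (nat_lit 0) (nat_lit 27505359984) (nat_lit 3) (nat_lit 5) (nat_lit 5) (nat_lit 4) (nat_lit 3) (nat_lit 4) (nat_lit 399) (nat_lit 213) (nat_lit 168)) (XT.nd (nat_lit 78) (nat_lit 0) (nat_lit 0) (XT.lf (nat_lit 0) (nat_lit 38156936126) (nat_lit 152) (nat_lit 18053444491) (nat_lit 0) (nat_lit 30276128911) (nat_lit 3) (nat_lit 5) (nat_lit 5) (nat_lit 4) (nat_lit 3) (nat_lit 4) (nat_lit 400) (nat_lit 213) (nat_lit 167)) (XT.lf (nat_lit 0) (nat_lit 41073873622) (nat_lit 152) (nat_lit 14829435311) (nat_lit 0) (nat_lit 33113779841) (nat_lit 3) (nat_lit 5) (nat_lit 5) (nat_lit 4) (nat_lit 3) (nat_lit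 4) (nat_lit 401) (nat_lit 213) (nat_lit 166)))) (XT.nd (nat_lit 78) (nat_lit 0) (nat_lit 0) (XT.lf (nat_lit 0) (nat_lit 44057863304) (nat_lit 152) (nat_lit 11545556283) (nat_lit 0) (nat_lit 36020792275) (nat_lit 3) (nat_lit 5) (nat_lit 5) (nat_lit 4) (nat_lit 3) (nat_lit 4) (nat_lit 402) (nat_lit 213) (nat_lit 165)) (XT.nd (nat_lit 78) (nat_lit 0) (nat_lit 0) (XT.lf (nat_lit 0) (nat_lit 47111512541) (nat_lit 152) (nat_lit 8198937997) (nat_lit 0) (nat_lit 38999706320) (nat_lit 3) (nat_lit 5) (nat_lit 5) (nat_lit 4) (nat_lit 3) (nat_lit 4) (nat_lit 403) (nat_lit 213) (nat_lit 164)) (XT.lf (nat_lit 0) (nat_lit 50237489572) (nat_lit 152) (nat_lit 4786656224) (nat_lit 0) (nat_lit 42053124911) (nat_lit 3) (nat_lit 5) (nat_lit 5) (nat_lit 4) (nat_lit 3) (nat_lit 4) (nat_lit 404) (nat_lit 213) (nat_lit 163))))))) (XT.nd (nat_lit 936) (nat_lit 152) (nat_lit 0) (XT.nd (nat_lit 468) (nat_lit 76) (nat_lit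 0) (XT.nd (nat_lit 234) (nat_lit 152) (nat_lit 0) (XT.nd (nat_lit 78) (nat_lit 76) (nat_lit 0) (XT.lf (nat_lit 0) (nat_lit 4450155343) (nat_lit 152) (nat_lit 2717414142) (nat_lit 0) (nat_lit 4450155343) (nat_lit 12) (nat_lit 5) (nat_lit 14) (nat_lit 4) (nat_lit 12) (nat_lit 4) (nat_lit 352) (nat_lit 214) (nat_lit 214)) (XT.nd (nat_lit 78) (nat_lit 0) (nat_lit 0) (XT.lf (nat_lit 0) (nat_lit 727232838) (nat_lit 76) (nat_lit 11720407218) (nat_lit 76) (nat_lit 11372822365) (nat_lit 11) (nat_lit 4) (nat_lit 12) (nat_lit 5) (nat_lit 12) (nat_lit 4) (nat_lit 353) (nat_lit 214) (nat_lit 213)) (XT.lf (nat_lit 0) (nat_lit 7061196232) (nat_lit 76) (nat_lit 9023712833) (nat_lit 76) (nat_lit 8338666957) (nat_lit 11) (nat_lit 4) (nat_lit 12) (nat_lit 5) (nat_lit 12) (nat_lit 4) (nat_lit 354) (nat_lit 214) (nat_lit 212)))) (XT.nd (nat_lit 78) (nat_lit 152) (nat_lit 0) (XT.lf (nat_lit 0) (nat_lit 13464432688)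 (nat_lit 76) (nat_lit 6297580592) (nat_lit 76) (nat_lit 5284902656) (nat_lit 11) (nat_lit 4) (nat_lit 12) (nat_lit 5) (nat_lit 12) (nat_lit 4) (nat_lit 355) (nat_lit 214) (nat_lit 211)) (XT.nd (nat_lit 78) (nat_lit 152) (nat_lit 0) (XT.lf (nat_lit 0) (nat_lit 19942537267) (nat_lit 76) (nat_lit 3539628437) (nat_lit 76) (nat_lit 2208861121) (nat_lit 11) (nat_lit 4) (nat_lit 12) (nat_lit 5) (nat_lit 12) (nat_lit 4) (nat_lit 356) (nat_lit 214) (nat_lit 210)) (XT.lf (nat_lit 0) (nat_lit 138832209) (nat_lit 76) (nat_lit 737238807) (nat_lit 152) (nat_lit 25480103178) (nat_lit 9) (nat_lit 5) (nat_lit 10) (nat_lit 5) (nat_lit 11) (nat_lit 4) (nat_lit 357) (nat_lit 214) (nat_lit 209))))) (XT.nd (nat_lit 234) (nat_lit 76) (nat_lit 0) (XT.nd (nat_lit 78) (nat_lit 0) (nat_lit 0) (XT.lf (nat_lit 0) (nat_lit 4022791733) (nat_lit 152) (nat_lit 20877609367) (nat_lit 0) (nat_lit 2139858041) (nat_lit 9) (nat_lit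 5) (nat_lit 11) (nat_lit 4) (nat_lit 9) (nat_lit 4) (nat_lit 358) (nat_lit 214) (nat_lit 208)) (XT.nd (nat_lit 78) (nat_lit 0) (nat_lit 0) (XT.lf (nat_lit 0) (nat_lit 7207479176) (nat_lit 152) (nat_lit 15497200257) (nat_lit 0) (nat_lit 5041927190) (nat_lit 9) (nat_lit 5) (nat_lit 11) (nat_lit 4) (nat_lit 9) (nat_lit 4) (nat_lit 359) (nat_lit 214) (nat_lit 207)) (XT.lf (nat_lit 0) (nat_lit 10425829292) (nat_lit 152) (nat_lit 10064326535) (nat_lit 0) (nat_lit 7985890613) (nat_lit 9) (nat_lit 5) (nat_lit 11) (nat_lit 4) (nat_lit 9) (nat_lit 4) (nat_lit 360) (nat_lit 214) (nat_lit 206)))) (XT.nd (nat_lit 78) (nat_lit 76) (nat_lit 0) (XT.lf (nat_lit 0) (nat_lit 13680654231) (nat_lit 152) (nat_lit 4574241032) (nat_lit 0) (nat_lit 10974320705) (nat_lit 9) (nat_lit 5) (nat_lit 11) (nat_lit 4) (nat_lit 9) (nat_lit 4) (nat_lit 361) (nat_lit 214) (nat_lit 205)) (XT.nd (nat_lit 78) (nat_lit 0) (nat_lit 0)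 (XT.lf (nat_lit 0) (nat_lit 997314615) (nat_lit 76) (nat_lit 15987070199) (nat_lit 76) (nat_lit 13022100899) (nat_lit 8) (nat_lit 4) (nat_lit 9) (nat_lit 5) (nat_lit 9) (nat_lit 4) (nat_lit 362) (nat_lit 214) (nat_lit 204)) (XT.lf (nat_lit 0) (nat_lit 6728097568) (nat_lit 76) (nat_lit 13647716046) (nat_lit 76) (nat_lit 10431644053) (nat_lit 8) (nat_lit 4) (nat_lit 9) (nat_lit 5) (nat_lit 9) (nat_lit 4) (nat_lit 363) (nat_lit 214) (nat_lit 203)))))) (XT.nd (nat_lit 468) (nat_lit 0) (nat_lit 0) (XT.nd (nat_lit 234) (nat_lit 152) (nat_lit 0) (XT.nd (nat_lit 78) (nat_lit 0) (nat_lit 0) (XT.lf (nat_lit 0) (nat_lit 12532078940) (nat_lit 76) (nat_lit 11280979574) (nat_lit 76) (nat_lit 7821118558) (nat_lit 8) (nat_lit 4) (nat_lit 9) (nat_lit 5) (nat_lit 9) (nat_lit 4) (nat_lit 364) (nat_lit 214) (nat_lit 202)) (XT.nd (nat_lit 78) (nat_lit 0) (nat_lit 0) (XT.lf (nat_lit 0) (nat_lit 18414330173) (nat_lit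 76) (nat_lit 8884792761) (nat_lit 76) (nat_lit 5188243374) (nat_lit 8) (nat_lit 4) (nat_lit 9) (nat_lit 5) (nat_lit 9) (nat_lit 4) (nat_lit 365) (nat_lit 214) (nat_lit 201)) (XT.lf (nat_lit 0) (nat_lit 24379991096) (nat_lit 76) (nat_lit 6457061852) (nat_lit 76) (nat_lit 2530717929) (nat_lit 8) (nat_lit 4) (nat_lit 9) (nat_lit 5) (nat_lit 9) (nat_lit 4) (nat_lit 366) (nat_lit 214) (nat_lit 200)))) (XT.nd (nat_lit 78) (nat_lit 76) (nat_lit 0) (XT.lf (nat_lit 0) (nat_lit 150779086) (nat_lit 152) (nat_lit 3843363868) (nat_lit 76) (nat_lit 30281972765) (nat_lit 7) (nat_lit 5) (nat_lit 9) (nat_lit 5) (nat_lit 8) (nat_lit 4) (nat_lit 367) (nat_lit 214) (nat_lit 199)) (XT.nd (nat_lit 78) (nat_lit 0) (nat_lit 0) (XT.lf (nat_lit 0) (nat_lit 1368277634) (nat_lit 76) (nat_lit 1456513713) (nat_lit 152) (nat_lit 32387314730) (nat_lit 6) (nat_lit 5) (nat_lit 7) (nat_lit 5) (nat_lit 8) (nat_lit 4) (nat_lit 368)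 (nat_lit 214) (nat_lit 198)) (XT.lf (nat_lit 0) (nat_lit 5579375269) (nat_lit 152) (nat_lit 29460500783) (nat_lit 0) (nat_lit 1136323467) (nat_lit 6) (nat_lit 5) (nat_lit 8) (nat_lit 4) (nat_lit 6) (nat_lit 4) (nat_lit 369) (nat_lit 214) (nat_lit 197))))) (XT.nd (nat_lit 234) (nat_lit 0) (nat_lit 0) (XT.nd (nat_lit 78) (nat_lit 0) (nat_lit 0) (XT.lf (nat_lit 0) (nat_lit 8382505449) (nat_lit 152) (nat_lit 25046535112) (nat_lit 0) (nat_lit 3741230863) (nat_lit 6) (nat_lit 5) (nat_lit 8) (nat_lit 4) (nat_lit 6) (nat_lit 4) (nat_lit 370) (nat_lit 214) (nat_lit 196)) (XT.nd (nat_lit 78) (nat_lit 0) (nat_lit 0) (XT.lf (nat_lit 0) (nat_lit 11222630326) (nat_lit 152) (nat_lit 20584073668) (nat_lit 0) (nat_lit 6388906434) (nat_lit 6) (nat_lit 5) (nat_lit 8) (nat_lit 4) (nat_lit 6) (nat_lit 4) (nat_lit 371) (nat_lit 214) (nat_lit 195)) (XT.lf (nat_lit 0) (nat_lit 14102231561) (nat_lit 152) (nat_lit 16069217212)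 (nat_lit 0) (nat_lit 9081663683) (nat_lit 6) (nat_lit 5) (nat_lit 8) (nat_lit 4) (nat_lit 6) (nat_lit 4) (nat_lit 372) (nat_lit 214) (nat_lit 194)))) (XT.nd (nat_lit 78) (nat_lit 0) (nat_lit 0) (XT.lf (nat_lit 0) (nat_lit 17023825311) (nat_lit 152) (nat_lit 11498020723) (nat_lit 0) (nat_lit 11821855505) (nat_lit 6) (nat_lit 5) (nat_lit 8) (nat_lit 4) (nat_lit 6) (nat_lit 4) (nat_lit 373) (nat_lit 214) (nat_lit 193)) (XT.nd (nat_lit 78) (nat_lit 0) (nat_lit 0) (XT.lf (nat_lit 0) (nat_lit 19989964425) (nat_lit 152) (nat_lit 6866489953) (nat_lit 0) (nat_lit 14611876242) (nat_lit 6) (nat_lit 5) (nat_lit 8) (nat_lit 4) (nat_lit 6) (nat_lit 4) (nat_lit 374) (nat_lit 214) (nat_lit 192)) (XT.lf (nat_lit 0) (nat_lit 23003240675) (nat_lit 152) (nat_lit 2170577933) (nat_lit 0) (nat_lit 17454163777) (nat_lit 6) (nat_lit 5) (nat_lit 8) (nat_lit 4) (nat_lit 6) (nat_lit 4) (nat_lit 375) (nat_lit 214) (nat_lit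 191))))))))
noncomputable def xc15 : XT := (XT.nd (nat_lit 1794) (nat_lit 0) (nat_lit 0) (XT.nd (nat_lit 858) (nat_lit 76) (nat_lit 0) (XT.nd (nat_lit 390) (nat_lit 76) (nat_lit 0) (XT.nd (nat_lit 156) (nat_lit 0) (nat_lit 0) (XT.nd (nat_lit 78) (nat_lit 0) (nat_lit 0) (XT.lf (nat_lit 0) (nat_lit 2645440635) (nat_lit 76) (nat_lit 23446275979) (nat_lit 76) (nat_lit 17731190619) (nat_lit 5) (nat_lit 4) (nat_lit 6) (nat_lit 5) (nat_lit 6) (nat_lit 4) (nat_lit 376) (nat_lit 214) (nat_lit 190)) (XT.lf (nat_lit 0) (nat_lit 7578751329) (nat_lit 76) (nat_lit 21675880176) (nat_lit 76) (nat_lit 15799621552) (nat_lit 5) (nat_lit 4) (nat_lit 6) (nat_lit 5) (nat_lit 6) (nat_lit 4) (nat_lit 377) (nat_lit 214) (nat_lit 189))) (XT.nd (nat_lit 78) (nat_lit 0) (nat_lit 0) (XT.lf (nat_lit 0) (nat_lit 12590466050) (nat_lit 76) (nat_lit 19883002831) (nat_lit 76) (nat_lit 13850265311) (nat_lit 5) (nat_lit 4) (nat_lit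 6) (nat_lit 5) (nat_lit 6) (nat_lit 4) (nat_lit 378) (nat_lit 214) (nat_lit 188)) (XT.nd (nat_lit 78) (nat_lit 0) (nat_lit 0) (XT.lf (nat_lit 0) (nat_lit 17684963967) (nat_lit 76) (nat_lit 18066077355) (nat_lit 76) (nat_lit 11881418575) (nat_lit 5) (nat_lit 4) (nat_lit 6) (nat_lit 5) (nat_lit 6) (nat_lit 4) (nat_lit 379) (nat_lit 214) (nat_lit 187)) (XT.lf (nat_lit 0) (nat_lit 22866696582) (nat_lit 76) (nat_lit 16223516141) (nat_lit 76) (nat_lit 9891360993) (nat_lit 5) (nat_lit 4) (nat_lit 6) (nat_lit 5) (nat_lit 6) (nat_lit 4) (nat_lit 380) (nat_lit 214) (nat_lit 186))))) (XT.nd (nat_lit 234) (nat_lit 76) (nat_lit 0) (XT.nd (nat_lit 78) (nat_lit 0) (nat_lit 0) (XT.lf (nat_lit 0) (nat_lit 28140191623) (nat_lit 76) (nat_lit 14353709185) (nat_lit 76) (nat_lit 7878353680) (nat_lit 5) (nat_lit 4) (nat_lit 6) (nat_lit 5) (nat_lit 6) (nat_lit 4) (nat_lit 381) (nat_lit 214) (nat_lit 185)) (XT.nd (nat_lit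 78) (nat_lit 0) (nat_lit 0) (XT.lf (nat_lit 0) (nat_lit 33510056999) (nat_lit 76) (nat_lit 12455022675) (nat_lit 76) (nat_lit 5840637697) (nat_lit 5) (nat_lit 4) (nat_lit 6) (nat_lit 5) (nat_lit 6) (nat_lit 4) (nat_lit 382) (nat_lit 214) (nat_lit 184)) (XT.lf (nat_lit 0) (nat_lit 38980984825) (nat_lit 76) (nat_lit 10525797564) (nat_lit 76) (nat_lit 3776432515) (nat_lit 5) (nat_lit 4) (nat_lit 6) (nat_lit 5) (nat_lit 6) (nat_lit 4) (nat_lit 383) (nat_lit 214) (nat_lit 183)))) (XT.nd (nat_lit 78) (nat_lit 76) (nat_lit 0) (XT.lf (nat_lit 0) (nat_lit 44557755523) (nat_lit 76) (nat_lit 8564348123) (nat_lit 76) (nat_lit 1683934461) (nat_lit 5) (nat_lit 4) (nat_lit 6) (nat_lit 5) (nat_lit 6) (nat_lit 4) (nat_lit 384) (nat_lit 214) (nat_lit 182)) (XT.nd (nat_lit 78) (nat_lit 0) (nat_lit 0) (XT.lf (nat_lit 0) (nat_lit 430124540) (nat_lit 152) (nat_lit 6134492508) (nat_lit 76) (nat_lit 49810774044) (nat_lit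 4) (nat_lit 5) (nat_lit 6) (nat_lit 5) (nat_lit 5) (nat_lit 4) (nat_lit 385) (nat_lit 214) (nat_lit 181)) (XT.lf (nat_lit 0) (nat_lit 2542675933) (nat_lit 152) (nat_lit 1969539065) (nat_lit 76) (nat_lit 53480061928) (nat_lit 4) (nat_lit 5) (nat_lit 6) (nat_lit 5) (nat_lit 5) (nat_lit 4) (nat_lit 386) (nat_lit 214) (nat_lit 180)))))) (XT.nd (nat_lit 468) (nat_lit 0) (nat_lit 0) (XT.nd (nat_lit 234) (nat_lit 0) (nat_lit 0) (XT.nd (nat_lit 78) (nat_lit 0) (nat_lit 0) (XT.lf (nat_lit 0) (nat_lit 2311509914) (nat_lit 76) (nat_lit 2399134996) (nat_lit 152) (nat_lit 54947282532) (nat_lit 3) (nat_lit 5) (nat_lit 4) (nat_lit 5) (nat_lit 5) (nat_lit 4) (nat_lit 387) (nat_lit 214) (nat_lit 179)) (XT.nd (nat_lit 78) (nat_lit 0) (nat_lit 0) (XT.lf (nat_lit 0) (nat_lit 6707934044) (nat_lit 76) (nat_lit 225794179) (nat_lit 152) (nat_lit 54440135769) (nat_lit 3) (nat_lit 5) (nat_lit 4) (nat_lit 5) (nat_lit 5)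 (nat_lit 4) (nat_lit 388) (nat_lit 214) (nat_lit 178)) (XT.lf (nat_lit 0) (nat_lit 9213686512) (nat_lit 152) (nat_lit 51976915393) (nat_lit 0) (nat_lit 1950989488) (nat_lit 3) (nat_lit 5) (nat_lit 5) (nat_lit 4) (nat_lit 3) (nat_lit 4) (nat_lit 389) (nat_lit 214) (nat_lit 177)))) (XT.nd (nat_lit 78) (nat_lit 0) (nat_lit 0) (XT.lf (nat_lit 0) (nat_lit 11535963331) (nat_lit 152) (nat_lit 49260475595) (nat_lit 0) (nat_lit 4166711793) (nat_lit 3) (nat_lit 5) (nat_lit 5) (nat_lit 4) (nat_lit 3) (nat_lit 4) (nat_lit 390) (nat_lit 214) (nat_lit 176)) (XT.nd (nat_lit 78) (nat_lit 0) (nat_lit 0) (XT.lf (nat_lit 0) (nat_lit 13900417384) (nat_lit 152) (nat_lit 46512066495) (nat_lit 0) (nat_lit 6427714861) (nat_lit 3) (nat_lit 5) (nat_lit 5) (nat_lit 4) (nat_lit 3) (nat_lit 4) (nat_lit 391) (nat_lit 214) (nat_lit 175)) (XT.lf (nat_lit 0) (nat_lit 16309114698) (nat_lit 152) (nat_lit 43729286571) (nat_lit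 0) (nat_lit 8735974325) (nat_lit 3) (nat_lit 5) (nat_lit 5) (nat_lit 4) (nat_lit 3) (nat_lit 4) (nat_lit 392) (nat_lit 214) (nat_lit 174))))) (XT.nd (nat_lit 234) (nat_lit 0) (nat_lit 0) (XT.nd (nat_lit 78) (nat_lit 0) (nat_lit 0) (XT.lf (nat_lit 0) (nat_lit 18764159960) (nat_lit 152) (nat_lit 40909704267) (nat_lit 0) (nat_lit 11093507112) (nat_lit 3) (nat_lit 5) (nat_lit 5) (nat_lit 4) (nat_lit 3) (nat_lit 4) (nat_lit 393) (nat_lit 214) (nat_lit 173)) (XT.nd (nat_lit 78) (nat_lit 0) (nat_lit 0) (XT.lf (nat_lit 0) (nat_lit 21267698356) (nat_lit 152) (nat_lit 38050855870) (nat_lit 0) (nat_lit 13502373202) (nat_lit 3) (nat_lit 5) (nat_lit 5) (nat_lit 4) (nat_lit 3) (nat_lit 4) (nat_lit 394) (nat_lit 214) (nat_lit 172)) (XT.lf (nat_lit 0) (nat_lit 23821917442) (nat_lit 152) (nat_lit 35150243358) (nat_lit 0) (nat_lit 15964677428) (nat_lit 3) (nat_lit 5) (nat_lit 5) (nat_lit 4) (nat_lit 3) (nat_lit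 4) (nat_lit 395) (nat_lit 214) (nat_lit 171)))) (XT.nd (nat_lit 78) (nat_lit 0) (nat_lit 0) (XT.lf (nat_lit 0) (nat_lit 26429049061) (nat_lit 152) (nat_lit 32205332216) (nat_lit 0) (nat_lit 18482571319) (nat_lit 3) (nat_lit 5) (nat_lit 5) (nat_lit 4) (nat_lit 3) (nat_lit 4) (nat_lit 396) (nat_lit 214) (nat_lit 170)) (XT.nd (nat_lit 78) (nat_lit 0) (nat_lit 0) (XT.lf (nat_lit 0) (nat_lit 29091371290) (nat_lit 152) (nat_lit 29213549218) (nat_lit 0) (nat_lit 21058254976) (nat_lit 3) (nat_lit 5) (nat_lit 5) (nat_lit 4) (nat_lit 3) (nat_lit 4) (nat_lit 397) (nat_lit 214) (nat_lit 169)) (XT.lf (nat_lit 0) (nat_lit 31811210429) (nat_lit 152) (nat_lit 26172280188) (nat_lit 0) (nat_lit 23693978997) (nat_lit 3) (nat_lit 5) (nat_lit 5) (nat_lit 4) (nat_lit 3) (nat_lit 4) (nat_lit 398) (nat_lit 214) (nat_lit 168))))))) (XT.nd (nat_lit 37284) (nat_lit 0) (nat_lit 380) (XT.nd (nat_lit 36816) (nat_lit 0) (nat_lit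 608) (XT.nd (nat_lit 234) (nat_lit 0) (nat_lit 0) (XT.nd (nat_lit 78) (nat_lit 0) (nat_lit 0) (XT.lf (nat_lit 0) (nat_lit 34590943036) (nat_lit 152) (nat_lit 23078867703) (nat_lit 0) (nat_lit 26392046442) (nat_lit 3) (nat_lit 5) (nat_lit 5) (nat_lit 4) (nat_lit 3) (nat_lit 4) (nat_lit 399) (nat_lit 214) (nat_lit 167)) (XT.nd (nat_lit 78) (nat_lit 0) (nat_lit 0) (XT.lf (nat_lit 0) (nat_lit 37432998005) (nat_lit 152) (nat_lit 19930608784) (nat_lit 0) (nat_lit 29154814845) (nat_lit 3) (nat_lit 5) (nat_lit 5) (nat_lit 4) (nat_lit 3) (nat_lit 4) (nat_lit 400) (nat_lit 214) (nat_lit 166)) (XT.lf (nat_lit 0) (nat_lit 40339858683) (nat_lit 152) (nat_lit 16724752524) (nat_lit 0) (nat_lit 31984698275) (nat_lit 3) (nat_lit 5) (nat_lit 5) (nat_lit 4) (nat_lit 3) (nat_lit 4) (nat_lit 401) (nat_lit 214) (nat_lit 165)))) (XT.nd (nat_lit 78) (nat_lit 0) (nat_lit 0) (XT.lf (nat_lit 0) (nat_lit 43314065048) (nat_lit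 152) (nat_lit 13458497690) (nat_lit 0) (nat_lit 34884169447) (nat_lit 3) (nat_lit 5) (nat_lit 5) (nat_lit 4) (nat_lit 3) (nat_lit 4) (nat_lit 402) (nat_lit 214) (nat_lit 164)) (XT.nd (nat_lit 78) (nat_lit 0) (nat_lit 0) (XT.lf (nat_lit 0) (nat_lit 46358215919) (nat_lit 152) (nat_lit 10128990272) (nat_lit 0) (nat_lit 37855761878) (nat_lit 3) (nat_lit 5) (nat_lit 5) (nat_lit 4) (nat_lit 3) (nat_lit 4) (nat_lit 403) (nat_lit 214) (nat_lit 163)) (XT.lf (nat_lit 0) (nat_lit 49474971234) (nat_lit 152) (nat_lit 6733320992) (nat_lit 0) (nat_lit 40902072107) (nat_lit 3) (nat_lit 5) (nat_lit 5) (nat_lit 4) (nat_lit 3) (nat_lit 4) (nat_lit 404) (nat_lit 214) (nat_lit 162))))) (XT.nd (nat_lit 234) (nat_lit 76) (nat_lit 0) (XT.nd (nat_lit 78) (nat_lit 0) (nat_lit 0) (XT.lf (nat_lit 0) (nat_lit 1155051365) (nat_lit 152) (nat_lit 8750397151) (nat_lit 0) (nat_lit 1155051365) (nat_lit 12) (nat_lit 5) (nat_lit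 14) (nat_lit 4) (nat_lit 12) (nat_lit 4) (nat_lit 350) (nat_lit 215) (nat_lit 215)) (XT.nd (nat_lit 78) (nat_lit 0) (nat_lit 0) (XT.lf (nat_lit 0) (nat_lit 5750935138) (nat_lit 152) (nat_lit 11525575640) (nat_lit 0) (nat_lit 5392922739) (nat_lit 12) (nat_lit 5) (nat_lit 14) (nat_lit 4) (nat_lit 12) (nat_lit 4) (nat_lit 351) (nat_lit 215) (nat_lit 214)) (XT.lf (nat_lit 0) (nat_lit 9222721694) (nat_lit 152) (nat_lit 5496700001) (nat_lit 0) (nat_lit 8517124443) (nat_lit 12) (nat_lit 5) (nat_lit 14) (nat_lit 4) (nat_lit 12) (nat_lit 4) (nat_lit 352) (nat_lit 215) (nat_lit 213)))) (XT.nd (nat_lit 78) (nat_lit 0) (nat_lit 0) (XT.lf (nat_lit 0) (nat_lit 602864623) (nat_lit 76) (nat_lit 12131426481) (nat_lit 76) (nat_lit 11088368207) (nat_lit 11) (nat_lit 4) (nat_lit 12) (nat_lit 5) (nat_lit 12) (nat_lit 4) (nat_lit 353) (nat_lit 215) (nat_lit 212)) (XT.nd (nat_lit 78) (nat_lit 0) (nat_lit 0) (XT.lf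 (nat_lit 0) (nat_lit 6877347308) (nat_lit 76) (nat_lit 9460083315) (nat_lit 76) (nat_lit 8089392980) (nat_lit 11) (nat_lit 4) (nat_lit 12) (nat_lit 5) (nat_lit 12) (nat_lit 4) (nat_lit 354) (nat_lit 215) (nat_lit 211)) (XT.lf (nat_lit 0) (nat_lit 13222835502) (nat_lit 76) (nat_lit 6758563908) (nat_lit 76) (nat_lit 5069784194) (nat_lit 11) (nat_lit 4) (nat_lit 12) (nat_lit 5) (nat_lit 12) (nat_lit 4) (nat_lit 355) (nat_lit 215) (nat_lit 210)))))) (XT.nd (nat_lit 468) (nat_lit 76) (nat_lit 0) (XT.nd (nat_lit 234) (nat_lit 0) (nat_lit 0) (XT.nd (nat_lit 78) (nat_lit 152) (nat_lit 0) (XT.lf (nat_lit 0) (nat_lit 19644873807) (nat_lit 76) (nat_lit 4024507709) (nat_lit 76) (nat_lit 2026903355) (nat_lit 11) (nat_lit 4) (nat_lit 12) (nat_lit 5) (nat_lit 12) (nat_lit 4) (nat_lit 356) (nat_lit 215) (nat_lit 209)) (XT.nd (nat_lit 78) (nat_lit 76) (nat_lit 0) (XT.lf (nat_lit 0) (nat_lit 1021576980) (nat_lit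 152) (nat_lit 223632831) (nat_lit 76) (nat_lit 25117180809) (nat_lit 10) (nat_lit 5) (nat_lit 12) (nat_lit 5) (nat_lit 11) (nat_lit 4) (nat_lit 357) (nat_lit 215) (nat_lit 208)) (XT.lf (nat_lit 0) (nat_lit 4129804380) (nat_lit 152) (nat_lit 21301181567) (nat_lit 0) (nat_lit 1616667541) (nat_lit 9) (nat_lit 5) (nat_lit 11) (nat_lit 4) (nat_lit 9) (nat_lit 4) (nat_lit 358) (nat_lit 215) (nat_lit 207)))) (XT.nd (nat_lit 78) (nat_lit 0) (nat_lit 0) (XT.lf (nat_lit 0) (nat_lit 7284010074) (nat_lit 152) (nat_lit 15974441255) (nat_lit 0) (nat_lit 4496486543) (nat_lit 9) (nat_lit 5) (nat_lit 11) (nat_lit 4) (nat_lit 9) (nat_lit 4) (nat_lit 359) (nat_lit 215) (nat_lit 206)) (XT.nd (nat_lit 78) (nat_lit 0) (nat_lit 0) (XT.lf (nat_lit 0) (nat_lit 10472766259) (nat_lit 152) (nat_lit 10593673164) (nat_lit 0) (nat_lit 7418847880) (nat_lit 9) (nat_lit 5) (nat_lit 11) (nat_lit 4) (nat_lit 9) (nat_lit 4) (nat_lit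 360) (nat_lit 215) (nat_lit 205)) (XT.lf (nat_lit 0) (nat_lit 13698859227) (nat_lit 152) (nat_lit 5154175652) (nat_lit 0) (nat_lit 10386305074) (nat_lit 9) (nat_lit 5) (nat_lit 11) (nat_lit 4) (nat_lit 9) (nat_lit 4) (nat_lit 361) (nat_lit 215) (nat_lit 204))))) (XT.nd (nat_lit 234) (nat_lit 0) (nat_lit 0) (XT.nd (nat_lit 78) (nat_lit 0) (nat_lit 0) (XT.lf (nat_lit 0) (nat_lit 355746129) (nat_lit 76) (nat_lit 16612781414) (nat_lit 76) (nat_lit 13049124567) (nat_lit 8) (nat_lit 4) (nat_lit 9) (nat_lit 5) (nat_lit 9) (nat_lit 4) (nat_lit 362) (nat_lit 215) (nat_lit 203)) (XT.nd (nat_lit 78) (nat_lit 0) (nat_lit 0) (XT.lf (nat_lit 0) (nat_lit 6037896043) (nat_lit 76) (nat_lit 14294510170) (nat_lit 76) (nat_lit 10487064301) (nat_lit 8) (nat_lit 4) (nat_lit 9) (nat_lit 5) (nat_lit 9) (nat_lit 4) (nat_lit 363) (nat_lit 215) (nat_lit 202)) (XT.lf (nat_lit 0) (nat_lit 11794660873) (nat_lit 76) (nat_lit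 11948242542) (nat_lit 76) (nat_lit 7904108301) (nat_lit 8) (nat_lit 4) (nat_lit 9) (nat_lit 5) (nat_lit 9) (nat_lit 4) (nat_lit 364) (nat_lit 215) (nat_lit 201)))) (XT.nd (nat_lit 78) (nat_lit 0) (nat_lit 0) (XT.lf (nat_lit 0) (nat_lit 17631070802) (nat_lit 76) (nat_lit 9571928393) (nat_lit 76) (nat_lit 5297999617) (nat_lit 8) (nat_lit 4) (nat_lit 9) (nat_lit 5) (nat_lit 9) (nat_lit 4) (nat_lit 365) (nat_lit 215) (nat_lit 200)) (XT.nd (nat_lit 78) (nat_lit 0) (nat_lit 0) (XT.lf (nat_lit 0) (nat_lit 23552225606) (nat_lit 76) (nat_lit 7163491332) (nat_lit 76) (nat_lit 2666461065) (nat_lit 8) (nat_lit 4) (nat_lit 9) (nat_lit 5) (nat_lit 9) (nat_lit 4) (nat_lit 366) (nat_lit 215) (nat_lit 199)) (XT.lf (nat_lit 0) (nat_lit 29563299109) (nat_lit 76) (nat_lit 4720826899) (nat_lit 76) (nat_lit 7193244) (nat_lit 8) (nat_lit 4) (nat_lit 9) (nat_lit 5) (nat_lit 9) (nat_lit 4) (nat_lit 367) (nat_lit 215)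 (nat_lit 198))))))))
noncomputable def xc16 : XT := (XT.nd (nat_lit 1794) (nat_lit 0) (nat_lit 0) (XT.nd (nat_lit 858) (nat_lit 152) (nat_lit 0) (XT.nd (nat_lit 390) (nat_lit 76) (nat_lit 0) (XT.nd (nat_lit 156) (nat_lit 0) (nat_lit 0) (XT.nd (nat_lit 78) (nat_lit 0) (nat_lit 0) (XT.lf (nat_lit 0) (nat_lit 422794748) (nat_lit 76) (nat_lit 2211058924) (nat_lit 152) (nat_lit 32594467889) (nat_lit 6) (nat_lit 5) (nat_lit 7) (nat_lit 5) (nat_lit 8) (nat_lit 4) (nat_lit 368) (nat_lit 215) (nat_lit 197)) (XT.lf (nat_lit 0) (nat_lit 5357286815) (nat_lit 152) (nat_lit 30457527722) (nat_lit 0) (nat_lit 378551207) (nat_lit 6) (nat_lit 5) (nat_lit 8) (nat_lit 4) (nat_lit 6) (nat_lit 4) (nat_lit 369) (nat_lit 215) (nat_lit 196))) (XT.nd (nat_lit 78) (nat_lit 0) (nat_lit 0) (XT.lf (nat_lit 0) (nat_lit 8137215415) (nat_lit 152) (nat_lit 26084903528) (nat_lit 0) (nat_lit 2966030501) (nat_lit 6) (nat_lit 5)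 (nat_lit 8) (nat_lit 4) (nat_lit 6) (nat_lit 4) (nat_lit 370) (nat_lit 215) (nat_lit 195)) (XT.nd (nat_lit 78) (nat_lit 0) (nat_lit 0) (XT.lf (nat_lit 0) (nat_lit 10954814485) (nat_lit 152) (nat_lit 21662579439) (nat_lit 0) (nat_lit 5596785584) (nat_lit 6) (nat_lit 5) (nat_lit 8) (nat_lit 4) (nat_lit 6) (nat_lit 4) (nat_lit 371) (nat_lit 215) (nat_lit 194)) (XT.lf (nat_lit 0) (nat_lit 13812546005) (nat_lit 152) (nat_lit 17186691289) (nat_lit 0) (nat_lit 8273115176) (nat_lit 6) (nat_lit 5) (nat_lit 8) (nat_lit 4) (nat_lit 6) (nat_lit 4) (nat_lit 372) (nat_lit 215) (nat_lit 193))))) (XT.nd (nat_lit 234) (nat_lit 76) (nat_lit 0) (XT.nd (nat_lit 78) (nat_lit 0) (nat_lit 0) (XT.lf (nat_lit 0) (nat_lit 16712907021) (nat_lit 152) (nat_lit 12653328107) (nat_lit 0) (nat_lit 10997357816) (nat_lit 6) (nat_lit 5) (nat_lit 8) (nat_lit 4) (nat_lit 6) (nat_lit 4) (nat_lit 373) (nat_lit 215) (nat_lit 192)) (XT.nd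 (nat_lit 78) (nat_lit 0) (nat_lit 0) (XT.lf (nat_lit 0) (nat_lit 19658431831) (nat_lit 152) (nat_lit 8058528703) (nat_lit 0) (nat_lit 13771893910) (nat_lit 6) (nat_lit 5) (nat_lit 8) (nat_lit 4) (nat_lit 6) (nat_lit 4) (nat_lit 374) (nat_lit 215) (nat_lit 191)) (XT.lf (nat_lit 0) (nat_lit 22651694194) (nat_lit 152) (nat_lit 3398278204) (nat_lit 0) (nat_lit 16599147811) (nat_lit 6) (nat_lit 5) (nat_lit 8) (nat_lit 4) (nat_lit 6) (nat_lit 4) (nat_lit 375) (nat_lit 215) (nat_lit 190)))) (XT.nd (nat_lit 78) (nat_lit 0) (nat_lit 0) (XT.lf (nat_lit 0) (nat_lit 1357994824) (nat_lit 76) (nat_lit 24350368633) (nat_lit 76) (nat_lit 18136648987) (nat_lit 5) (nat_lit 4) (nat_lit 6) (nat_lit 5) (nat_lit 6) (nat_lit 4) (nat_lit 376) (nat_lit 215) (nat_lit 189)) (XT.nd (nat_lit 78) (nat_lit 0) (nat_lit 0) (XT.lf (nat_lit 0) (nat_lit 6257022122) (nat_lit 76) (nat_lit 22595061663) (nat_lit 76) (nat_lit 16224863120)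 (nat_lit 5) (nat_lit 4) (nat_lit 6) (nat_lit 5) (nat_lit 6) (nat_lit 4) (nat_lit 377) (nat_lit 215) (nat_lit 188)) (XT.lf (nat_lit 0) (nat_lit 11235451993) (nat_lit 76) (nat_lit 20816833673) (nat_lit 76) (nat_lit 14294713871) (nat_lit 5) (nat_lit 4) (nat_lit 6) (nat_lit 5) (nat_lit 6) (nat_lit 4) (nat_lit 378) (nat_lit 215) (nat_lit 187)))))) (XT.nd (nat_lit 468) (nat_lit 152) (nat_lit 0) (XT.nd (nat_lit 234) (nat_lit 0) (nat_lit 0) (XT.nd (nat_lit 78) (nat_lit 0) (nat_lit 0) (XT.lf (nat_lit 0) (nat_lit 16297634521) (nat_lit 76) (nat_lit 19014130870) (nat_lit 76) (nat_lit 12344514699) (nat_lit 5) (nat_lit 4) (nat_lit 6) (nat_lit 5) (nat_lit 6) (nat_lit 4) (nat_lit 379) (nat_lit 215) (nat_lit 186)) (XT.nd (nat_lit 78) (nat_lit 0) (nat_lit 0) (XT.lf (nat_lit 0) (nat_lit 21447992973) (nat_lit 76) (nat_lit 17185378077) (nat_lit 76) (nat_lit 10372561549) (nat_lit 5) (nat_lit 4) (nat_lit 6) (nat_lit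 5) (nat_lit 6) (nat_lit 4) (nat_lit 380) (nat_lit 215) (nat_lit 185)) (XT.lf (nat_lit 0) (nat_lit 26691027661) (nat_lit 76) (nat_lit 15328977354) (nat_lit 76) (nat_lit 8377131354) (nat_lit 5) (nat_lit 4) (nat_lit 6) (nat_lit 5) (nat_lit 6) (nat_lit 4) (nat_lit 381) (nat_lit 215) (nat_lit 184)))) (XT.nd (nat_lit 78) (nat_lit 0) (nat_lit 0) (XT.lf (nat_lit 0) (nat_lit 32031319879) (nat_lit 76) (nat_lit 13443306605) (nat_lit 76) (nat_lit 6356480534) (nat_lit 5) (nat_lit 4) (nat_lit 6) (nat_lit 5) (nat_lit 6) (nat_lit 4) (nat_lit 382) (nat_lit 215) (nat_lit 183)) (XT.nd (nat_lit 78) (nat_lit 0) (nat_lit 0) (XT.lf (nat_lit 0) (nat_lit 37473535900) (nat_lit 76) (nat_lit 11526718156) (nat_lit 76) (nat_lit 4308843472) (nat_lit 5) (nat_lit 4) (nat_lit 6) (nat_lit 5) (nat_lit 6) (nat_lit 4) (nat_lit 383) (nat_lit 215) (nat_lit 182)) (XT.lf (nat_lit 0) (nat_lit 43022431060) (nat_lit 76) (nat_lit 9577537318)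 (nat_lit 76) (nat_lit 2232430971) (nat_lit 5) (nat_lit 4) (nat_lit 6) (nat_lit 5) (nat_lit 6) (nat_lit 4) (nat_lit 384) (nat_lit 215) (nat_lit 181))))) (XT.nd (nat_lit 234) (nat_lit 0) (nat_lit 0) (XT.nd (nat_lit 78) (nat_lit 152) (nat_lit 0) (XT.lf (nat_lit 0) (nat_lit 48682853907) (nat_lit 76) (nat_lit 7594060922) (nat_lit 76) (nat_lit 125428689) (nat_lit 5) (nat_lit 4) (nat_lit 6) (nat_lit 5) (nat_lit 6) (nat_lit 4) (nat_lit 385) (nat_lit 215) (nat_lit 180)) (XT.nd (nat_lit 78) (nat_lit 76) (nat_lit 0) (XT.lf (nat_lit 0) (nat_lit 1974703961) (nat_lit 152) (nat_lit 3579911235) (nat_lit 76) (nat_lit 52465105842) (nat_lit 4) (nat_lit 5) (nat_lit 6) (nat_lit 5) (nat_lit 5) (nat_lit 4) (nat_lit 386) (nat_lit 215) (nat_lit 179)) (XT.lf (nat_lit 0) (nat_lit 642768013) (nat_lit 76) (nat_lit 3469430649) (nat_lit 152) (nat_lit 55574096371) (nat_lit 3) (nat_lit 5) (nat_lit 4) (nat_lit 5) (nat_lit 5)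 (nat_lit 4) (nat_lit 387) (nat_lit 215) (nat_lit 178)))) (XT.nd (nat_lit 78) (nat_lit 0) (nat_lit 0) (XT.lf (nat_lit 0) (nat_lit 5013638581) (nat_lit 76) (nat_lit 1307384836) (nat_lit 152) (nat_lit 55081644901) (nat_lit 3) (nat_lit 5) (nat_lit 4) (nat_lit 5) (nat_lit 5) (nat_lit 4) (nat_lit 388) (nat_lit 215) (nat_lit 177)) (XT.nd (nat_lit 78) (nat_lit 0) (nat_lit 0) (XT.lf (nat_lit 0) (nat_lit 8576636123) (nat_lit 152) (nat_lit 53714746157) (nat_lit 0) (nat_lit 879752524) (nat_lit 3) (nat_lit 5) (nat_lit 5) (nat_lit 4) (nat_lit 3) (nat_lit 4) (nat_lit 389) (nat_lit 215) (nat_lit 176)) (XT.lf (nat_lit 0) (nat_lit 10885370543) (nat_lit 152) (nat_lit 51022702365) (nat_lit 0) (nat_lit 3085035959) (nat_lit 3) (nat_lit 5) (nat_lit 5) (nat_lit 4) (nat_lit 3) (nat_lit 4) (nat_lit 390) (nat_lit 215) (nat_lit 175))))))) (XT.nd (nat_lit 858) (nat_lit 0) (nat_lit 0) (XT.nd (nat_lit 390) (nat_lit 0) (nat_lit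 0) (XT.nd (nat_lit 156) (nat_lit 0) (nat_lit 0) (XT.nd (nat_lit 78) (nat_lit 0) (nat_lit 0) (XT.lf (nat_lit 0) (nat_lit 13236676635) (nat_lit 152) (nat_lit 48297978707) (nat_lit 0) (nat_lit 5335904202) (nat_lit 3) (nat_lit 5) (nat_lit 5) (nat_lit 4) (nat_lit 3) (nat_lit 4) (nat_lit 391) (nat_lit 215) (nat_lit 174)) (XT.lf (nat_lit 0) (nat_lit 15632608939) (nat_lit 152) (nat_lit 45538194358) (nat_lit 0) (nat_lit 7634324030) (nat_lit 3) (nat_lit 5) (nat_lit 5) (nat_lit 4) (nat_lit 3) (nat_lit 4) (nat_lit 392) (nat_lit 215) (nat_lit 173))) (XT.nd (nat_lit 78) (nat_lit 0) (nat_lit 0) (XT.lf (nat_lit 0) (nat_lit 18075260987) (nat_lit 152) (nat_lit 42740937856) (nat_lit 0) (nat_lit 9982303772) (nat_lit 3) (nat_lit 5) (nat_lit 5) (nat_lit 4) (nat_lit 3) (nat_lit 4) (nat_lit 393) (nat_lit 215) (nat_lit 172)) (XT.nd (nat_lit 78) (nat_lit 0) (nat_lit 0) (XT.lf (nat_lit 0) (nat_lit 20566767136) (nat_lit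 152) (nat_lit 39903764995) (nat_lit 0) (nat_lit 12381895061) (nat_lit 3) (nat_lit 5) (nat_lit 5) (nat_lit 4) (nat_lit 3) (nat_lit 4) (nat_lit 394) (nat_lit 215) (nat_lit 171)) (XT.lf (nat_lit 0) (nat_lit 23109304429) (nat_lit 152) (nat_lit 37024196692) (nat_lit 0) (nat_lit 14835194626) (nat_lit 3) (nat_lit 5) (nat_lit 5) (nat_lit 4) (nat_lit 3) (nat_lit 4) (nat_lit 395) (nat_lit 215) (nat_lit 170))))) (XT.nd (nat_lit 234) (nat_lit 0) (nat_lit 0) (XT.nd (nat_lit 78) (nat_lit 0) (nat_lit 0) (XT.lf (nat_lit 0) (nat_lit 25705094502) (nat_lit 152) (nat_lit 34099716820) (nat_lit 0) (nat_lit 17344346128) (nat_lit 3) (nat_lit 5) (nat_lit 5) (nat_lit 4) (nat_lit 3) (nat_lit 4) (nat_lit 396) (nat_lit 215) (nat_lit 169)) (XT.nd (nat_lit 78) (nat_lit 0) (nat_lit 0) (XT.lf (nat_lit 0) (nat_lit 28356405520) (nat_lit 152) (nat_lit 31127770008) (nat_lit 0) (nat_lit 19911542028) (nat_lit 3) (nat_lit 5) (nat_lit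 5) (nat_lit 4) (nat_lit 3) (nat_lit 4) (nat_lit 397) (nat_lit 215) (nat_lit 168)) (XT.lf (nat_lit 0) (nat_lit 31065554164) (nat_lit 152) (nat_lit 28105759410) (nat_lit 0) (nat_lit 22539025509) (nat_lit 3) (nat_lit 5) (nat_lit 5) (nat_lit 4) (nat_lit 3) (nat_lit 4) (nat_lit 398) (nat_lit 215) (nat_lit 167)))) (XT.nd (nat_lit 78) (nat_lit 0) (nat_lit 0) (XT.lf (nat_lit 0) (nat_lit 33834907649) (nat_lit 152) (nat_lit 25031044433) (nat_lit 0) (nat_lit 25229092429) (nat_lit 3) (nat_lit 5) (nat_lit 5) (nat_lit 4) (nat_lit 3) (nat_lit 4) (nat_lit 399) (nat_lit 215) (nat_lit 166)) (XT.nd (nat_lit 78) (nat_lit 0) (nat_lit 0) (XT.lf (nat_lit 0) (nat_lit 36666885801) (nat_lit 152) (nat_lit 21900938433) (nat_lit 0) (nat_lit 27984093332) (nat_lit 3) (nat_lit 5) (nat_lit 5) (nat_lit 4) (nat_lit 3) (nat_lit 4) (nat_lit 400) (nat_lit 215) (nat_lit 165)) (XT.lf (nat_lit 0) (nat_lit 39563963162) (nat_lit 152)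 (nat_lit 18712706367) (nat_lit 0) (nat_lit 30806435500) (nat_lit 3) (nat_lit 5) (nat_lit 5) (nat_lit 4) (nat_lit 3) (nat_lit 4) (nat_lit 401) (nat_lit 215) (nat_lit 164)))))) (XT.nd (nat_lit 36660) (nat_lit 0) (nat_lit 608) (XT.nd (nat_lit 36426) (nat_lit 0) (nat_lit 684) (XT.nd (nat_lit 78) (nat_lit 0) (nat_lit 0) (XT.lf (nat_lit 0) (nat_lit 42528671160) (nat_lit 152) (nat_lit 15463562400) (nat_lit 0) (nat_lit 33698585058) (nat_lit 3) (nat_lit 5) (nat_lit 5) (nat_lit 4) (nat_lit 3) (nat_lit 4) (nat_lit 402) (nat_lit 215) (nat_lit 163)) (XT.nd (nat_lit 78) (nat_lit 0) (nat_lit 0) (XT.lf (nat_lit 0) (nat_lit 45563600315) (nat_lit 152) (nat_lit 12150667475) (nat_lit 0) (nat_lit 36663069127) (nat_lit 3) (nat_lit 5) (nat_lit 5) (nat_lit 4) (nat_lit 3) (nat_lit 4) (nat_lit 403) (nat_lit 215) (nat_lit 162)) (XT.lf (nat_lit 0) (nat_lit 48671402509) (nat_lit 152) (nat_lit 8771126829) (nat_lit 0) (nat_lit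 39702478033) (nat_lit 3) (nat_lit 5) (nat_lit 5) (nat_lit 4) (nat_lit 3) (nat_lit 4) (nat_lit 404) (nat_lit 215) (nat_lit 161)))) (XT.nd (nat_lit 78) (nat_lit 152) (nat_lit 0) (XT.lf (nat_lit 0) (nat_lit 6492046685) (nat_lit 152) (nat_lit 2022069084) (nat_lit 152) (nat_lit 2022069084) (nat_lit 14) (nat_lit 4) (nat_lit 16) (nat_lit 5) (nat_lit 16) (nat_lit 4) (nat_lit 348) (nat_lit 216) (nat_lit 216)) (XT.nd (nat_lit 78) (nat_lit 152) (nat_lit 0) (XT.lf (nat_lit 0) (nat_lit 19770897486) (nat_lit 152) (nat_lit 1099309394) (nat_lit 152) (nat_lit 719494040) (nat_lit 14) (nat_lit 4) (nat_lit 16) (nat_lit 5) (nat_lit 16) (nat_lit 4) (nat_lit 349) (nat_lit 216) (nat_lit 215)) (XT.lf (nat_lit 0) (nat_lit 2642186068) (nat_lit 152) (nat_lit 17564522170) (nat_lit 0) (nat_lit 1915420899) (nat_lit 12) (nat_lit 5) (nat_lit 14) (nat_lit 4) (nat_lit 12) (nat_lit 4) (nat_lit 350) (nat_lit 216) (nat_lit 214)))))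 (XT.nd (nat_lit 234) (nat_lit 0) (nat_lit 0) (XT.nd (nat_lit 78) (nat_lit 76) (nat_lit 0) (XT.lf (nat_lit 0) (nat_lit 6047417085) (nat_lit 152) (nat_lit 11651175224) (nat_lit 0) (nat_lit 4973067063) (nat_lit 12) (nat_lit 5) (nat_lit 14) (nat_lit 4) (nat_lit 12) (nat_lit 4) (nat_lit 351) (nat_lit 216) (nat_lit 213)) (XT.nd (nat_lit 78) (nat_lit 76) (nat_lit 0) (XT.lf (nat_lit 0) (nat_lit 9484639185) (nat_lit 152) (nat_lit 5682369212) (nat_lit 0) (nat_lit 8072828140) (nat_lit 12) (nat_lit 5) (nat_lit 14) (nat_lit 4) (nat_lit 12) (nat_lit 4) (nat_lit 352) (nat_lit 216) (nat_lit 212)) (XT.lf (nat_lit 0) (nat_lit 354019521) (nat_lit 76) (nat_lit 12606239297) (nat_lit 76) (nat_lit 10866796191) (nat_lit 11) (nat_lit 4) (nat_lit 12) (nat_lit 5) (nat_lit 12) (nat_lit 4) (nat_lit 353) (nat_lit 216) (nat_lit 211)))) (XT.nd (nat_lit 78) (nat_lit 0) (nat_lit 0) (XT.lf (nat_lit 0) (nat_lit 6570753944) (nat_lit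 76) (nat_lit 9959508965) (nat_lit 76) (nat_lit 7901976481) (nat_lit 11) (nat_lit 4) (nat_lit 12) (nat_lit 5) (nat_lit 12) (nat_lit 4) (nat_lit 354) (nat_lit 216) (nat_lit 210)) (XT.nd (nat_lit 78) (nat_lit 0) (nat_lit 0) (XT.lf (nat_lit 0) (nat_lit 12860175866) (nat_lit 76) (nat_lit 7281885514) (nat_lit 76) (nat_lit 4915528389) (nat_lit 11) (nat_lit 4) (nat_lit 12) (nat_lit 5) (nat_lit 12) (nat_lit 4) (nat_lit 355) (nat_lit 216) (nat_lit 209)) (XT.lf (nat_lit 0) (nat_lit 19227780896) (nat_lit 76) (nat_lit 4571029271) (nat_lit 76) (nat_lit 1904842399) (nat_lit 11) (nat_lit 4) (nat_lit 12) (nat_lit 5) (nat_lit 12) (nat_lit 4) (nat_lit 356) (nat_lit 216) (nat_lit 208))))))))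
noncomputable def xc17 : XT := (XT.nd (nat_lit 1794) (nat_lit 152) (nat_lit 0) (XT.nd (nat_lit 858) (nat_lit 228) (nat_lit 0) (XT.nd (nat_lit 390) (nat_lit 76) (nat_lit 0) (XT.nd (nat_lit 156) (nat_lit 0) (nat_lit 0) (XT.nd (nat_lit 78) (nat_lit 76) (nat_lit 0) (XT.lf (nat_lit 0) (nat_lit 1110608891) (nat_lit 152) (nat_lit 702747665) (nat_lit 76) (nat_lit 24557309099) (nat_lit 10) (nat_lit 5) (nat_lit 12) (nat_lit 5) (nat_lit 11) (nat_lit 4) (nat_lit 357) (nat_lit 216) (nat_lit 207)) (XT.lf (nat_lit 0) (nat_lit 4178149457) (nat_lit 152) (nat_lit 21846408595) (nat_lit 0) (nat_lit 1032613527) (nat_lit 9) (nat_lit 5) (nat_lit 11) (nat_lit 4) (nat_lit 9) (nat_lit 4) (nat_lit 358) (nat_lit 216) (nat_lit 206))) (XT.nd (nat_lit 78) (nat_lit 0) (nat_lit 0) (XT.lf (nat_lit 0) (nat_lit 7302761220) (nat_lit 152) (nat_lit 16571773914) (nat_lit 0) (nat_lit 3890830442) (nat_lit 9) (nat_lit 5) (nat_lit 11)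 (nat_lit 4) (nat_lit 9) (nat_lit 4) (nat_lit 359) (nat_lit 216) (nat_lit 205)) (XT.nd (nat_lit 78) (nat_lit 0) (nat_lit 0) (XT.lf (nat_lit 0) (nat_lit 10462785433) (nat_lit 152) (nat_lit 11241593813) (nat_lit 0) (nat_lit 6792218881) (nat_lit 9) (nat_lit 5) (nat_lit 11) (nat_lit 4) (nat_lit 9) (nat_lit 4) (nat_lit 360) (nat_lit 216) (nat_lit 204)) (XT.lf (nat_lit 0) (nat_lit 13660983283) (nat_lit 152) (nat_lit 5851210855) (nat_lit 0) (nat_lit 9739314037) (nat_lit 9) (nat_lit 5) (nat_lit 11) (nat_lit 4) (nat_lit 9) (nat_lit 4) (nat_lit 361) (nat_lit 216) (nat_lit 203))))) (XT.nd (nat_lit 234) (nat_lit 0) (nat_lit 0) (XT.nd (nat_lit 78) (nat_lit 76) (nat_lit 0) (XT.lf (nat_lit 0) (nat_lit 16900149310) (nat_lit 152) (nat_lit 395914994) (nat_lit 0) (nat_lit 12734691042) (nat_lit 9) (nat_lit 5) (nat_lit 11) (nat_lit 4) (nat_lit 9) (nat_lit 4) (nat_lit 362) (nat_lit 216) (nat_lit 202)) (XT.nd (nat_lit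 78) (nat_lit 0) (nat_lit 0) (XT.lf (nat_lit 0) (nat_lit 5231138891) (nat_lit 76) (nat_lit 15002259870) (nat_lit 76) (nat_lit 10600113231) (nat_lit 8) (nat_lit 4) (nat_lit 9) (nat_lit 5) (nat_lit 9) (nat_lit 4) (nat_lit 363) (nat_lit 216) (nat_lit 201)) (XT.lf (nat_lit 0) (nat_lit 10942062418) (nat_lit 76) (nat_lit 12675864906) (nat_lit 76) (nat_lit 8043923732) (nat_lit 8) (nat_lit 4) (nat_lit 9) (nat_lit 5) (nat_lit 9) (nat_lit 4) (nat_lit 364) (nat_lit 216) (nat_lit 200)))) (XT.nd (nat_lit 78) (nat_lit 0) (nat_lit 0) (XT.lf (nat_lit 0) (nat_lit 16733966227) (nat_lit 76) (nat_lit 10318844606) (nat_lit 76) (nat_lit 5463801940) (nat_lit 8) (nat_lit 4) (nat_lit 9) (nat_lit 5) (nat_lit 9) (nat_lit 4) (nat_lit 365) (nat_lit 216) (nat_lit 199)) (XT.nd (nat_lit 78) (nat_lit 0) (nat_lit 0) (XT.lf (nat_lit 0) (nat_lit 22611911206) (nat_lit 76) (nat_lit 7929139437) (nat_lit 76) (nat_lit 2857493382) (nat_lit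 8) (nat_lit 4) (nat_lit 9) (nat_lit 5) (nat_lit 9) (nat_lit 4) (nat_lit 366) (nat_lit 216) (nat_lit 198)) (XT.lf (nat_lit 0) (nat_lit 28581033422) (nat_lit 76) (nat_lit 5504661307) (nat_lit 76) (nat_lit 222720700) (nat_lit 8) (nat_lit 4) (nat_lit 9) (nat_lit 5) (nat_lit 9) (nat_lit 4) (nat_lit 367) (nat_lit 216) (nat_lit 197)))))) (XT.nd (nat_lit 468) (nat_lit 76) (nat_lit 0) (XT.nd (nat_lit 234) (nat_lit 0) (nat_lit 0) (XT.nd (nat_lit 78) (nat_lit 76) (nat_lit 0) (XT.lf (nat_lit 0) (nat_lit 2395150150) (nat_lit 152) (nat_lit 623955270) (nat_lit 76) (nat_lit 32227212144) (nat_lit 7) (nat_lit 5) (nat_lit 9) (nat_lit 5) (nat_lit 8) (nat_lit 4) (nat_lit 368) (nat_lit 216) (nat_lit 196)) (XT.nd (nat_lit 78) (nat_lit 0) (nat_lit 0) (XT.lf (nat_lit 0) (nat_lit 4639687022) (nat_lit 76) (nat_lit 446037057) (nat_lit 152) (nat_lit 31126639190) (nat_lit 6) (nat_lit 5) (nat_lit 7) (nat_lit 5) (nat_lit 8)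 (nat_lit 4) (nat_lit 369) (nat_lit 216) (nat_lit 195)) (XT.lf (nat_lit 0) (nat_lit 7838839292) (nat_lit 152) (nat_lit 27235901827) (nat_lit 0) (nat_lit 2133225538) (nat_lit 6) (nat_lit 5) (nat_lit 8) (nat_lit 4) (nat_lit 6) (nat_lit 4) (nat_lit 370) (nat_lit 216) (nat_lit 194)))) (XT.nd (nat_lit 78) (nat_lit 0) (nat_lit 0) (XT.lf (nat_lit 0) (nat_lit 10634568646) (nat_lit 152) (nat_lit 22852546044) (nat_lit 0) (nat_lit 4747552964) (nat_lit 6) (nat_lit 5) (nat_lit 8) (nat_lit 4) (nat_lit 6) (nat_lit 4) (nat_lit 371) (nat_lit 216) (nat_lit 193)) (XT.nd (nat_lit 78) (nat_lit 0) (nat_lit 0) (XT.lf (nat_lit 0) (nat_lit 13471067433) (nat_lit 152) (nat_lit 18414491201) (nat_lit 0) (nat_lit 7407933374) (nat_lit 6) (nat_lit 5) (nat_lit 8) (nat_lit 4) (nat_lit 6) (nat_lit 4) (nat_lit 372) (nat_lit 216) (nat_lit 192)) (XT.lf (nat_lit 0) (nat_lit 16350814145) (nat_lit 152) (nat_lit 13917859386) (nat_lit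 0) (nat_lit 10116691371) (nat_lit 6) (nat_lit 5) (nat_lit 8) (nat_lit 4) (nat_lit 6) (nat_lit 4) (nat_lit 373) (nat_lit 216) (nat_lit 191))))) (XT.nd (nat_lit 234) (nat_lit 76) (nat_lit 0) (XT.nd (nat_lit 78) (nat_lit 0) (nat_lit 0) (XT.lf (nat_lit 0) (nat_lit 19276325068) (nat_lit 152) (nat_lit 9358721502) (nat_lit 0) (nat_lit 12876193832) (nat_lit 6) (nat_lit 5) (nat_lit 8) (nat_lit 4) (nat_lit 6) (nat_lit 4) (nat_lit 374) (nat_lit 216) (nat_lit 190)) (XT.nd (nat_lit 78) (nat_lit 0) (nat_lit 0) (XT.lf (nat_lit 0) (nat_lit 22250156471) (nat_lit 152) (nat_lit 4733093838) (nat_lit 0) (nat_lit 15688851972) (nat_lit 6) (nat_lit 5) (nat_lit 8) (nat_lit 4) (nat_lit 6) (nat_lit 4) (nat_lit 375) (nat_lit 216) (nat_lit 189)) (XT.lf (nat_lit 0) (nat_lit 25274906850) (nat_lit 152) (nat_lit 36934583) (nat_lit 0) (nat_lit 18557123453) (nat_lit 6) (nat_lit 5) (nat_lit 8) (nat_lit 4) (nat_lit 6) (nat_lit 4)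 (nat_lit 376) (nat_lit 216) (nat_lit 188)))) (XT.nd (nat_lit 78) (nat_lit 0) (nat_lit 0) (XT.lf (nat_lit 0) (nat_lit 4828072794) (nat_lit 76) (nat_lit 23571556784) (nat_lit 76) (nat_lit 16701852128) (nat_lit 5) (nat_lit 4) (nat_lit 6) (nat_lit 5) (nat_lit 6) (nat_lit 4) (nat_lit 377) (nat_lit 216) (nat_lit 187)) (XT.nd (nat_lit 78) (nat_lit 0) (nat_lit 0) (XT.lf (nat_lit 0) (nat_lit 9774187276) (nat_lit 76) (nat_lit 21807551467) (nat_lit 76) (nat_lit 14790350443) (nat_lit 5) (nat_lit 4) (nat_lit 6) (nat_lit 5) (nat_lit 6) (nat_lit 4) (nat_lit 378) (nat_lit 216) (nat_lit 186)) (XT.lf (nat_lit 0) (nat_lit 14804995640) (nat_lit 76) (nat_lit 20018657084) (nat_lit 76) (nat_lit 12858255704) (nat_lit 5) (nat_lit 4) (nat_lit 6) (nat_lit 5) (nat_lit 6) (nat_lit 4) (nat_lit 379) (nat_lit 216) (nat_lit 185))))))) (XT.nd (nat_lit 936) (nat_lit 0) (nat_lit 0) (XT.nd (nat_lit 468) (nat_lit 152) (nat_lit 0)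 (XT.nd (nat_lit 234) (nat_lit 0) (nat_lit 0) (XT.nd (nat_lit 78) (nat_lit 0) (nat_lit 0) (XT.lf (nat_lit 0) (nat_lit 19924893739) (nat_lit 76) (nat_lit 18203310525) (nat_lit 76) (nat_lit 10903879671) (nat_lit 5) (nat_lit 4) (nat_lit 6) (nat_lit 5) (nat_lit 6) (nat_lit 4) (nat_lit 380) (nat_lit 216) (nat_lit 184)) (XT.nd (nat_lit 78) (nat_lit 0) (nat_lit 0) (XT.lf (nat_lit 0) (nat_lit 25138355269) (nat_lit 76) (nat_lit 16359925564) (nat_lit 76) (nat_lit 8925514639) (nat_lit 5) (nat_lit 4) (nat_lit 6) (nat_lit 5) (nat_lit 6) (nat_lit 4) (nat_lit 381) (nat_lit 216) (nat_lit 183)) (XT.lf (nat_lit 0) (nat_lit 30449935682) (nat_lit 76) (nat_lit 14486891476) (nat_lit 76) (nat_lit 6921431939) (nat_lit 5) (nat_lit 4) (nat_lit 6) (nat_lit 5) (nat_lit 6) (nat_lit 4) (nat_lit 382) (nat_lit 216) (nat_lit 182)))) (XT.nd (nat_lit 78) (nat_lit 0) (nat_lit 0) (XT.lf (nat_lit 0) (nat_lit 35864276165) (nat_lit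 76) (nat_lit 12582571630) (nat_lit 76) (nat_lit 4889880430) (nat_lit 5) (nat_lit 4) (nat_lit 6) (nat_lit 5) (nat_lit 6) (nat_lit 4) (nat_lit 383) (nat_lit 216) (nat_lit 181)) (XT.nd (nat_lit 78) (nat_lit 0) (nat_lit 0) (XT.lf (nat_lit 0) (nat_lit 41386107696) (nat_lit 76) (nat_lit 10645302056) (nat_lit 76) (nat_lit 2829084970) (nat_lit 5) (nat_lit 4) (nat_lit 6) (nat_lit 5) (nat_lit 6) (nat_lit 4) (nat_lit 384) (nat_lit 216) (nat_lit 180)) (XT.lf (nat_lit 0) (nat_lit 47020255175) (nat_lit 76) (nat_lit 8673389996) (nat_lit 76) (nat_lit 737244865) (nat_lit 5) (nat_lit 4) (nat_lit 6) (nat_lit 5) (nat_lit 6) (nat_lit 4) (nat_lit 385) (nat_lit 216) (nat_lit 179))))) (XT.nd (nat_lit 234) (nat_lit 0) (nat_lit 0) (XT.nd (nat_lit 78) (nat_lit 76) (nat_lit 0) (XT.lf (nat_lit 0) (nat_lit 1360393214) (nat_lit 152) (nat_lit 5290981900) (nat_lit 76) (nat_lit 51397511125) (nat_lit 4) (nat_lit 5) (nat_lit 6)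 (nat_lit 5) (nat_lit 5) (nat_lit 4) (nat_lit 386) (nat_lit 216) (nat_lit 178)) (XT.nd (nat_lit 78) (nat_lit 76) (nat_lit 0) (XT.lf (nat_lit 0) (nat_lit 3477696315) (nat_lit 152) (nat_lit 1105900289) (nat_lit 76) (nat_lit 55132478356) (nat_lit 4) (nat_lit 5) (nat_lit 6) (nat_lit 5) (nat_lit 5) (nat_lit 4) (nat_lit 387) (nat_lit 216) (nat_lit 177)) (XT.lf (nat_lit 0) (nat_lit 3218151412) (nat_lit 76) (nat_lit 2443684238) (nat_lit 152) (nat_lit 55771361877) (nat_lit 3) (nat_lit 5) (nat_lit 4) (nat_lit 5) (nat_lit 5) (nat_lit 4) (nat_lit 388) (nat_lit 216) (nat_lit 176)))) (XT.nd (nat_lit 78) (nat_lit 0) (nat_lit 0) (XT.lf (nat_lit 0) (nat_lit 7645698573) (nat_lit 76) (nat_lit 249684701) (nat_lit 152) (nat_lit 55306951156) (nat_lit 3) (nat_lit 5) (nat_lit 4) (nat_lit 5) (nat_lit 5) (nat_lit 4) (nat_lit 389) (nat_lit 216) (nat_lit 175)) (XT.nd (nat_lit 78) (nat_lit 0) (nat_lit 0) (XT.lf (nat_lit 0)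 (nat_lit 10188569611) (nat_lit 152) (nat_lit 52885877386) (nat_lit 0) (nat_lit 1950336155) (nat_lit 3) (nat_lit 5) (nat_lit 5) (nat_lit 4) (nat_lit 3) (nat_lit 4) (nat_lit 390) (nat_lit 216) (nat_lit 174)) (XT.lf (nat_lit 0) (nat_lit 12527110693) (nat_lit 152) (nat_lit 50184149304) (nat_lit 0) (nat_lit 4191364762) (nat_lit 3) (nat_lit 5) (nat_lit 5) (nat_lit 4) (nat_lit 3) (nat_lit 4) (nat_lit 391) (nat_lit 216) (nat_lit 173)))))) (XT.nd (nat_lit 468) (nat_lit 0) (nat_lit 0) (XT.nd (nat_lit 234) (nat_lit 0) (nat_lit 0) (XT.nd (nat_lit 78) (nat_lit 0) (nat_lit 0) (XT.lf (nat_lit 0) (nat_lit 14910649782) (nat_lit 152) (nat_lit 47446690757) (nat_lit 0) (nat_lit 6480231545) (nat_lit 3) (nat_lit 5) (nat_lit 5) (nat_lit 4) (nat_lit 3) (nat_lit 4) (nat_lit 392) (nat_lit 216) (nat_lit 172)) (XT.nd (nat_lit 78) (nat_lit 0) (nat_lit 0) (XT.lf (nat_lit 0) (nat_lit 17341269584) (nat_lit 152) (nat_lit 44671109789)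 (nat_lit 0) (nat_lit 8818936486) (nat_lit 3) (nat_lit 5) (nat_lit 5) (nat_lit 4) (nat_lit 3) (nat_lit 4) (nat_lit 393) (nat_lit 216) (nat_lit 171)) (XT.lf (nat_lit 0) (nat_lit 19821093939) (nat_lit 152) (nat_lit 41854981137) (nat_lit 0) (nat_lit 11209523114) (nat_lit 3) (nat_lit 5) (nat_lit 5) (nat_lit 4) (nat_lit 3) (nat_lit 4) (nat_lit 394) (nat_lit 216) (nat_lit 170)))) (XT.nd (nat_lit 78) (nat_lit 0) (nat_lit 0) (XT.lf (nat_lit 0) (nat_lit 22352289686) (nat_lit 152) (nat_lit 38995844105) (nat_lit 0) (nat_lit 13654080289) (nat_lit 3) (nat_lit 5) (nat_lit 5) (nat_lit 4) (nat_lit 3) (nat_lit 4) (nat_lit 395) (nat_lit 216) (nat_lit 169)) (XT.nd (nat_lit 78) (nat_lit 0) (nat_lit 0) (XT.lf (nat_lit 0) (nat_lit 24937068549) (nat_lit 152) (nat_lit 36091200419) (nat_lit 0) (nat_lit 16154744035) (nat_lit 3) (nat_lit 5) (nat_lit 5) (nat_lit 4) (nat_lit 3) (nat_lit 4) (nat_lit 396) (nat_lit 216) (nat_lit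 168)) (XT.lf (nat_lit 0) (nat_lit 27577689072) (nat_lit 152) (nat_lit 33138512039) (nat_lit 0) (nat_lit 18713699395) (nat_lit 3) (nat_lit 5) (nat_lit 5) (nat_lit 4) (nat_lit 3) (nat_lit 4) (nat_lit 397) (nat_lit 216) (nat_lit 167))))) (XT.nd (nat_lit 234) (nat_lit 0) (nat_lit 0) (XT.nd (nat_lit 78) (nat_lit 0) (nat_lit 0) (XT.lf (nat_lit 0) (nat_lit 30276458594) (nat_lit 152) (nat_lit 30135198948) (nat_lit 0) (nat_lit 21333182351) (nat_lit 3) (nat_lit 5) (nat_lit 5) (nat_lit 4) (nat_lit 3) (nat_lit 4) (nat_lit 398) (nat_lit 216) (nat_lit 166)) (XT.nd (nat_lit 78) (nat_lit 0) (nat_lit 0) (XT.lf (nat_lit 0) (nat_lit 33035735262) (nat_lit 152) (nat_lit 27078636890) (nat_lit 0) (nat_lit 24015481771) (nat_lit 3) (nat_lit 5) (nat_lit 5) (nat_lit 4) (nat_lit 3) (nat_lit 4) (nat_lit 399) (nat_lit 216) (nat_lit 165)) (XT.lf (nat_lit 0) (nat_lit 35857930096) (nat_lit 152) (nat_lit 23966155085) (nat_lit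 0) (nat_lit 26762941412) (nat_lit 3) (nat_lit 5) (nat_lit 5) (nat_lit 4) (nat_lit 3) (nat_lit 4) (nat_lit 400) (nat_lit 216) (nat_lit 164)))) (XT.nd (nat_lit 78) (nat_lit 0) (nat_lit 0) (XT.lf (nat_lit 0) (nat_lit 38745509090) (nat_lit 152) (nat_lit 20795033886) (nat_lit 0) (nat_lit 29577961967) (nat_lit 3) (nat_lit 5) (nat_lit 5) (nat_lit 4) (nat_lit 3) (nat_lit 4) (nat_lit 401) (nat_lit 216) (nat_lit 163)) (XT.nd (nat_lit 78) (nat_lit 0) (nat_lit 0) (XT.lf (nat_lit 0) (nat_lit 41700995373) (nat_lit 152) (nat_lit 17562502412) (nat_lit 0) (nat_lit 32463003163) (nat_lit 3) (nat_lit 5) (nat_lit 5) (nat_lit 4) (nat_lit 3) (nat_lit 4) (nat_lit 402) (nat_lit 216) (nat_lit 162)) (XT.lf (nat_lit 0) (nat_lit 44726971407) (nat_lit 152) (nat_lit 14265736121) (nat_lit 0) (nat_lit 35420585909) (nat_lit 3) (nat_lit 5) (nat_lit 5) (nat_lit 4) (nat_lit 3) (nat_lit 4) (nat_lit 403) (nat_lit 216) (nat_lit 161))))))))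
noncomputable def xc18 : XT := (XT.nd (nat_lit 37830) (nat_lit 0) (nat_lit 0) (XT.nd (nat_lit 36894) (nat_lit 0) (nat_lit 380) (XT.nd (nat_lit 36426) (nat_lit 0) (nat_lit 608) (XT.nd (nat_lit 36192) (nat_lit 0) (nat_lit 836) (XT.nd (nat_lit 36114) (nat_lit 0) (nat_lit 988) (XT.lf (nat_lit 0) (nat_lit 47826081250) (nat_lit 152) (nat_lit 10901854342) (nat_lit 0) (nat_lit 38453294501) (nat_lit 3) (nat_lit 5) (nat_lit 5) (nat_lit 4) (nat_lit 3) (nat_lit 4) (nat_lit 404) (nat_lit 216) (nat_lit 160)) (XT.lf (nat_lit 0) (nat_lit 4946328733) (nat_lit 152) (nat_lit 151283687) (nat_lit 0) (nat_lit 4946328733) (nat_lit 16) (nat_lit 5) (nat_lit 18) (nat_lit 4) (nat_lit 16) (nat_lit 4) (nat_lit 346) (nat_lit 217) (nat_lit 217))) (XT.nd (nat_lit 78) (nat_lit 0) (nat_lit 0) (XT.lf (nat_lit 0) (nat_lit 6271353023) (nat_lit 152) (nat_lit 7346091077) (nat_lit 152) (nat_lit 6954881263) (nat_lit 14) (nat_lit 4)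 (nat_lit 16) (nat_lit 5) (nat_lit 16) (nat_lit 4) (nat_lit 347) (nat_lit 217) (nat_lit 216)) (XT.nd (nat_lit 78) (nat_lit 0) (nat_lit 0) (XT.lf (nat_lit 0) (nat_lit 12921374926) (nat_lit 152) (nat_lit 4461572915) (nat_lit 152) (nat_lit 3690547747) (nat_lit 14) (nat_lit 4) (nat_lit 16) (nat_lit 5) (nat_lit 16) (nat_lit 4) (nat_lit 348) (nat_lit 217) (nat_lit 215)) (XT.lf (nat_lit 0) (nat_lit 19647287349) (nat_lit 152) (nat_lit 1542205240) (nat_lit 152) (nat_lit 402427301) (nat_lit 14) (nat_lit 4) (nat_lit 16) (nat_lit 5) (nat_lit 16) (nat_lit 4) (nat_lit 349) (nat_lit 217) (nat_lit 214))))) (XT.nd (nat_lit 234) (nat_lit 76) (nat_lit 0) (XT.nd (nat_lit 78) (nat_lit 0) (nat_lit 0) (XT.lf (nat_lit 0) (nat_lit 2911961084) (nat_lit 152) (nat_lit 17755761457) (nat_lit 0) (nat_lit 1457795708) (nat_lit 12) (nat_lit 5) (nat_lit 14) (nat_lit 4) (nat_lit 12) (nat_lit 4) (nat_lit 350) (nat_lit 217) (nat_lit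 213)) (XT.nd (nat_lit 78) (nat_lit 0) (nat_lit 0) (XT.lf (nat_lit 0) (nat_lit 6282627644) (nat_lit 152) (nat_lit 11902484138) (nat_lit 0) (nat_lit 4491001245) (nat_lit 12) (nat_lit 5) (nat_lit 14) (nat_lit 4) (nat_lit 12) (nat_lit 4) (nat_lit 351) (nat_lit 217) (nat_lit 212)) (XT.lf (nat_lit 0) (nat_lit 9686292019) (nat_lit 152) (nat_lit 5991998153) (nat_lit 0) (nat_lit 7567033560) (nat_lit 12) (nat_lit 5) (nat_lit 14) (nat_lit 4) (nat_lit 12) (nat_lit 4) (nat_lit 352) (nat_lit 217) (nat_lit 211)))) (XT.nd (nat_lit 78) (nat_lit 76) (nat_lit 0) (XT.lf (nat_lit 0) (nat_lit 13125928284) (nat_lit 152) (nat_lit 19139000) (nat_lit 0) (nat_lit 10688580446) (nat_lit 12) (nat_lit 5) (nat_lit 14) (nat_lit 4) (nat_lit 12) (nat_lit 4) (nat_lit 353) (nat_lit 217) (nat_lit 210)) (XT.nd (nat_lit 78) (nat_lit 0) (nat_lit 0) (XT.lf (nat_lit 0) (nat_lit 6141148246) (nat_lit 76) (nat_lit 10522426175) (nat_lit 76)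 (nat_lit 7776253696) (nat_lit 11) (nat_lit 4) (nat_lit 12) (nat_lit 5) (nat_lit 12) (nat_lit 4) (nat_lit 354) (nat_lit 217) (nat_lit 209)) (XT.lf (nat_lit 0) (nat_lit 12376136892) (nat_lit 76) (nat_lit 7868002680) (nat_lit 76) (nat_lit 4822000454) (nat_lit 11) (nat_lit 4) (nat_lit 12) (nat_lit 5) (nat_lit 12) (nat_lit 4) (nat_lit 355) (nat_lit 217) (nat_lit 208)))))) (XT.nd (nat_lit 468) (nat_lit 76) (nat_lit 0) (XT.nd (nat_lit 234) (nat_lit 0) (nat_lit 0) (XT.nd (nat_lit 78) (nat_lit 152) (nat_lit 0) (XT.lf (nat_lit 0) (nat_lit 18690894082) (nat_lit 76) (nat_lit 5179670668) (nat_lit 76) (nat_lit 1842571599) (nat_lit 11) (nat_lit 4) (nat_lit 12) (nat_lit 5) (nat_lit 12) (nat_lit 4) (nat_lit 356) (nat_lit 217) (nat_lit 207)) (XT.nd (nat_lit 78) (nat_lit 76) (nat_lit 0) (XT.lf (nat_lit 0) (nat_lit 1141910004) (nat_lit 152) (nat_lit 1301640052) (nat_lit 76) (nat_lit 23937496510) (nat_lit 10) (nat_lit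 5) (nat_lit 12) (nat_lit 5) (nat_lit 11) (nat_lit 4) (nat_lit 357) (nat_lit 217) (nat_lit 206)) (XT.lf (nat_lit 0) (nat_lit 4167869206) (nat_lit 152) (nat_lit 22513766863) (nat_lit 0) (nat_lit 387185658) (nat_lit 9) (nat_lit 5) (nat_lit 11) (nat_lit 4) (nat_lit 9) (nat_lit 4) (nat_lit 358) (nat_lit 217) (nat_lit 205)))) (XT.nd (nat_lit 78) (nat_lit 0) (nat_lit 0) (XT.lf (nat_lit 0) (nat_lit 7263748997) (nat_lit 152) (nat_lit 17289720173) (nat_lit 0) (nat_lit 3224429675) (nat_lit 9) (nat_lit 5) (nat_lit 11) (nat_lit 4) (nat_lit 9) (nat_lit 4) (nat_lit 359) (nat_lit 217) (nat_lit 204)) (XT.nd (nat_lit 78) (nat_lit 0) (nat_lit 0) (XT.lf (nat_lit 0) (nat_lit 10395878092) (nat_lit 152) (nat_lit 12008654627) (nat_lit 0) (nat_lit 6105456076) (nat_lit 9) (nat_lit 5) (nat_lit 11) (nat_lit 4) (nat_lit 9) (nat_lit 4) (nat_lit 360) (nat_lit 217) (nat_lit 203)) (XT.lf (nat_lit 0) (nat_lit 13566993302) (nat_lit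 152) (nat_lit 6665955701) (nat_lit 0) (nat_lit 9032782264) (nat_lit 9) (nat_lit 5) (nat_lit 11) (nat_lit 4) (nat_lit 9) (nat_lit 4) (nat_lit 361) (nat_lit 217) (nat_lit 202))))) (XT.nd (nat_lit 234) (nat_lit 0) (nat_lit 0) (XT.nd (nat_lit 78) (nat_lit 76) (nat_lit 0) (XT.lf (nat_lit 0) (nat_lit 16779865506) (nat_lit 152) (nat_lit 1256955018) (nat_lit 0) (nat_lit 12008966096) (nat_lit 9) (nat_lit 5) (nat_lit 11) (nat_lit 4) (nat_lit 9) (nat_lit 4) (nat_lit 362) (nat_lit 217) (nat_lit 201)) (XT.nd (nat_lit 78) (nat_lit 0) (nat_lit 0) (XT.lf (nat_lit 0) (nat_lit 4307121179) (nat_lit 76) (nat_lit 15771583570) (nat_lit 76) (nat_lit 10770889624) (nat_lit 8) (nat_lit 4) (nat_lit 9) (nat_lit 5) (nat_lit 9) (nat_lit 4) (nat_lit 363) (nat_lit 217) (nat_lit 200)) (XT.lf (nat_lit 0) (nat_lit 9973538586) (nat_lit 76) (nat_lit 13464482454) (nat_lit 76) (nat_lit 8240687018) (nat_lit 8) (nat_lit 4) (nat_lit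 9) (nat_lit 5) (nat_lit 9) (nat_lit 4) (nat_lit 364) (nat_lit 217) (nat_lit 199)))) (XT.nd (nat_lit 78) (nat_lit 0) (nat_lit 0) (XT.lf (nat_lit 0) (nat_lit 15722232570) (nat_lit 76) (nat_lit 11126194046) (nat_lit 76) (nat_lit 5685795220) (nat_lit 8) (nat_lit 4) (nat_lit 9) (nat_lit 5) (nat_lit 9) (nat_lit 4) (nat_lit 365) (nat_lit 217) (nat_lit 198)) (XT.nd (nat_lit 78) (nat_lit 0) (nat_lit 0) (XT.lf (nat_lit 0) (nat_lit 21558226262) (nat_lit 76) (nat_lit 8754675179) (nat_lit 76) (nat_lit 3103981801) (nat_lit 8) (nat_lit 4) (nat_lit 9) (nat_lit 5) (nat_lit 9) (nat_lit 4) (nat_lit 366) (nat_lit 217) (nat_lit 197)) (XT.lf (nat_lit 0) (nat_lit 27486619074) (nat_lit 76) (nat_lit 6347853654) (nat_lit 76) (nat_lit 492990808) (nat_lit 8) (nat_lit 4) (nat_lit 9) (nat_lit 5) (nat_lit 9) (nat_lit 4) (nat_lit 367) (nat_lit 217) (nat_lit 196))))))) (XT.nd (nat_lit 858) (nat_lit 152) (nat_lit 0) (XT.nd (nat_lit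 390) (nat_lit 76) (nat_lit 0) (XT.nd (nat_lit 156) (nat_lit 0) (nat_lit 0) (XT.nd (nat_lit 78) (nat_lit 76) (nat_lit 0) (XT.lf (nat_lit 0) (nat_lit 2107515517) (nat_lit 152) (nat_lit 1774829130) (nat_lit 76) (nat_lit 31383793863) (nat_lit 7) (nat_lit 5) (nat_lit 9) (nat_lit 5) (nat_lit 8) (nat_lit 4) (nat_lit 368) (nat_lit 217) (nat_lit 195)) (XT.lf (nat_lit 0) (nat_lit 3426291358) (nat_lit 76) (nat_lit 1338155092) (nat_lit 152) (nat_lit 31468762343) (nat_lit 6) (nat_lit 5) (nat_lit 7) (nat_lit 5) (nat_lit 8) (nat_lit 4) (nat_lit 369) (nat_lit 217) (nat_lit 194))) (XT.nd (nat_lit 78) (nat_lit 0) (nat_lit 0) (XT.lf (nat_lit 0) (nat_lit 7487116362) (nat_lit 152) (nat_lit 28500535737) (nat_lit 0) (nat_lit 1242088282) (nat_lit 6) (nat_lit 5) (nat_lit 8) (nat_lit 4) (nat_lit 6) (nat_lit 4) (nat_lit 370) (nat_lit 217) (nat_lit 193)) (XT.nd (nat_lit 78) (nat_lit 0) (nat_lit 0) (XT.lf (nat_lit 0) (nat_lit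 10261612984) (nat_lit 152) (nat_lit 24155013261) (nat_lit 0) (nat_lit 3840466526) (nat_lit 6) (nat_lit 5) (nat_lit 8) (nat_lit 4) (nat_lit 6) (nat_lit 4) (nat_lit 371) (nat_lit 217) (nat_lit 192)) (XT.lf (nat_lit 0) (nat_lit 13077497466) (nat_lit 152) (nat_lit 19753689784) (nat_lit 0) (nat_lit 6485362293) (nat_lit 6) (nat_lit 5) (nat_lit 8) (nat_lit 4) (nat_lit 6) (nat_lit 4) (nat_lit 372) (nat_lit 217) (nat_lit 191))))) (XT.nd (nat_lit 234) (nat_lit 76) (nat_lit 0) (XT.nd (nat_lit 78) (nat_lit 0) (nat_lit 0) (XT.lf (nat_lit 0) (nat_lit 15937230291) (nat_lit 152) (nat_lit 15292719489) (nat_lit 0) (nat_lit 9179086657) (nat_lit 6) (nat_lit 5) (nat_lit 8) (nat_lit 4) (nat_lit 6) (nat_lit 4) (nat_lit 373) (nat_lit 217) (nat_lit 190)) (XT.nd (nat_lit 78) (nat_lit 0) (nat_lit 0) (XT.lf (nat_lit 0) (nat_lit 18843310255) (nat_lit 152) (nat_lit 10768204441) (nat_lit 0) (nat_lit 11923993357) (nat_lit 6)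 (nat_lit 5) (nat_lit 8) (nat_lit 4) (nat_lit 6) (nat_lit 4) (nat_lit 374) (nat_lit 217) (nat_lit 189)) (XT.lf (nat_lit 0) (nat_lit 21798276650) (nat_lit 152) (nat_lit 6176191180) (nat_lit 0) (nat_lit 14722480855) (nat_lit 6) (nat_lit 5) (nat_lit 8) (nat_lit 4) (nat_lit 6) (nat_lit 4) (nat_lit 375) (nat_lit 217) (nat_lit 188)))) (XT.nd (nat_lit 78) (nat_lit 76) (nat_lit 0) (XT.lf (nat_lit 0) (nat_lit 24804711486) (nat_lit 152) (nat_lit 1512667267) (nat_lit 0) (nat_lit 17576994432) (nat_lit 6) (nat_lit 5) (nat_lit 8) (nat_lit 4) (nat_lit 6) (nat_lit 4) (nat_lit 376) (nat_lit 217) (nat_lit 187)) (XT.nd (nat_lit 78) (nat_lit 0) (nat_lit 0) (XT.lf (nat_lit 0) (nat_lit 3290654746) (nat_lit 76) (nat_lit 24606218785) (nat_lit 76) (nat_lit 17231005363) (nat_lit 5) (nat_lit 4) (nat_lit 6) (nat_lit 5) (nat_lit 6) (nat_lit 4) (nat_lit 377) (nat_lit 217) (nat_lit 186)) (XT.lf (nat_lit 0) (nat_lit 8205395065)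 (nat_lit 76) (nat_lit 22856021889) (nat_lit 76) (nat_lit 15337608109) (nat_lit 5) (nat_lit 4) (nat_lit 6) (nat_lit 5) (nat_lit 6) (nat_lit 4) (nat_lit 378) (nat_lit 217) (nat_lit 185)))))) (XT.nd (nat_lit 468) (nat_lit 152) (nat_lit 0) (XT.nd (nat_lit 234) (nat_lit 0) (nat_lit 0) (XT.nd (nat_lit 78) (nat_lit 0) (nat_lit 0) (XT.lf (nat_lit 0) (nat_lit 13205743076) (nat_lit 76) (nat_lit 21080533740) (nat_lit 76) (nat_lit 13423090488) (nat_lit 5) (nat_lit 4) (nat_lit 6) (nat_lit 5) (nat_lit 6) (nat_lit 4) (nat_lit 379) (nat_lit 217) (nat_lit 184)) (XT.nd (nat_lit 78) (nat_lit 0) (nat_lit 0) (XT.lf (nat_lit 0) (nat_lit 18296068016) (nat_lit 76) (nat_lit 19278202942) (nat_lit 76) (nat_lit 11485779618) (nat_lit 5) (nat_lit 4) (nat_lit 6) (nat_lit 5) (nat_lit 6) (nat_lit 4) (nat_lit 380) (nat_lit 217) (nat_lit 183)) (XT.lf (nat_lit 0) (nat_lit 23480817742) (nat_lit 76) (nat_lit 17447454642) (nat_lit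 76) (nat_lit 9523982706) (nat_lit 5) (nat_lit 4) (nat_lit 6) (nat_lit 5) (nat_lit 6) (nat_lit 4) (nat_lit 381) (nat_lit 217) (nat_lit 182)))) (XT.nd (nat_lit 78) (nat_lit 0) (nat_lit 0) (XT.lf (nat_lit 0) (nat_lit 28764522617) (nat_lit 76) (nat_lit 15586689157) (nat_lit 76) (nat_lit 7535985558) (nat_lit 5) (nat_lit 4) (nat_lit 6) (nat_lit 5) (nat_lit 6) (nat_lit 4) (nat_lit 382) (nat_lit 217) (nat_lit 181)) (XT.nd (nat_lit 78) (nat_lit 0) (nat_lit 0) (XT.lf (nat_lit 0) (nat_lit 34151799471) (nat_lit 76) (nat_lit 13694280576) (nat_lit 76) (nat_lit 5520051091) (nat_lit 5) (nat_lit 4) (nat_lit 6) (nat_lit 5) (nat_lit 6) (nat_lit 4) (nat_lit 383) (nat_lit 217) (nat_lit 180)) (XT.lf (nat_lit 0) (nat_lit 39647355633) (nat_lit 76) (nat_lit 11768575338) (nat_lit 76) (nat_lit 3474417808) (nat_lit 5) (nat_lit 4) (nat_lit 6) (nat_lit 5) (nat_lit 6) (nat_lit 4) (nat_lit 384) (nat_lit 217) (nat_lit 179)))))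 (XT.nd (nat_lit 234) (nat_lit 76) (nat_lit 0) (XT.nd (nat_lit 78) (nat_lit 76) (nat_lit 0) (XT.lf (nat_lit 0) (nat_lit 45255993046) (nat_lit 76) (nat_lit 9807890787) (nat_lit 76) (nat_lit 1397298262) (nat_lit 5) (nat_lit 4) (nat_lit 6) (nat_lit 5) (nat_lit 6) (nat_lit 4) (nat_lit 385) (nat_lit 217) (nat_lit 178)) (XT.nd (nat_lit 78) (nat_lit 0) (nat_lit 0) (XT.lf (nat_lit 0) (nat_lit 699206915) (nat_lit 152) (nat_lit 7104246170) (nat_lit 76) (nat_lit 50276344926) (nat_lit 4) (nat_lit 5) (nat_lit 6) (nat_lit 5) (nat_lit 5) (nat_lit 4) (nat_lit 386) (nat_lit 217) (nat_lit 177)) (XT.lf (nat_lit 0) (nat_lit 2802905239) (nat_lit 152) (nat_lit 2943489723) (nat_lit 76) (nat_lit 54001008633) (nat_lit 4) (nat_lit 5) (nat_lit 6) (nat_lit 5) (nat_lit 5) (nat_lit 4) (nat_lit 387) (nat_lit 217) (nat_lit 176)))) (XT.nd (nat_lit 78) (nat_lit 0) (nat_lit 0) (XT.lf (nat_lit 0) (nat_lit 1319903664) (nat_lit 76)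 (nat_lit 3635685270) (nat_lit 152) (nat_lit 56509889360) (nat_lit 3) (nat_lit 5) (nat_lit 4) (nat_lit 5) (nat_lit 5) (nat_lit 4) (nat_lit 388) (nat_lit 217) (nat_lit 175)) (XT.nd (nat_lit 78) (nat_lit 0) (nat_lit 0) (XT.lf (nat_lit 0) (nat_lit 5724065696) (nat_lit 76) (nat_lit 1452022261) (nat_lit 152) (nat_lit 56058926915) (nat_lit 3) (nat_lit 5) (nat_lit 4) (nat_lit 5) (nat_lit 5) (nat_lit 4) (nat_lit 389) (nat_lit 217) (nat_lit 174)) (XT.lf (nat_lit 0) (nat_lit 9444951680) (nat_lit 152) (nat_lit 54851628676) (nat_lit 0) (nat_lit 761620896) (nat_lit 3) (nat_lit 5) (nat_lit 5) (nat_lit 4) (nat_lit 3) (nat_lit 4) (nat_lit 390) (nat_lit 217) (nat_lit 173))))))))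
noncomputable def xc19 : XT := (XT.nd (nat_lit 37752) (nat_lit 0) (nat_lit 152) (XT.nd (nat_lit 858) (nat_lit 0) (nat_lit 0) (XT.nd (nat_lit 390) (nat_lit 0) (nat_lit 0) (XT.nd (nat_lit 156) (nat_lit 0) (nat_lit 0) (XT.nd (nat_lit 78) (nat_lit 0) (nat_lit 0) (XT.lf (nat_lit 0) (nat_lit 11771099547) (nat_lit 152) (nat_lit 52172226396) (nat_lit 0) (nat_lit 2993096457) (nat_lit 3) (nat_lit 5) (nat_lit 5) (nat_lit 4) (nat_lit 3) (nat_lit 4) (nat_lit 391) (nat_lit 217) (nat_lit 172)) (XT.lf (nat_lit 0) (nat_lit 14142606390) (nat_lit 152) (nat_lit 49456443383) (nat_lit 0) (nat_lit 5272688440) (nat_lit 3) (nat_lit 5) (nat_lit 5) (nat_lit 4) (nat_lit 3) (nat_lit 4) (nat_lit 392) (nat_lit 217) (nat_lit 171))) (XT.nd (nat_lit 78) (nat_lit 0) (nat_lit 0) (XT.lf (nat_lit 0) (nat_lit 16561544399) (nat_lit 152) (nat_lit 46701906625) (nat_lit 0) (nat_lit 7602388720) (nat_lit 3) (nat_lit 5) (nat_lit 5) (nat_lit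 4) (nat_lit 3) (nat_lit 4) (nat_lit 393) (nat_lit 217) (nat_lit 170)) (XT.nd (nat_lit 78) (nat_lit 0) (nat_lit 0) (XT.lf (nat_lit 0) (nat_lit 19030027208) (nat_lit 152) (nat_lit 43906209244) (nat_lit 0) (nat_lit 9984232958) (nat_lit 3) (nat_lit 5) (nat_lit 5) (nat_lit 4) (nat_lit 3) (nat_lit 4) (nat_lit 394) (nat_lit 217) (nat_lit 169)) (XT.lf (nat_lit 0) (nat_lit 21550211745) (nat_lit 152) (nat_lit 41066908397) (nat_lit 0) (nat_lit 12420302377) (nat_lit 3) (nat_lit 5) (nat_lit 5) (nat_lit 4) (nat_lit 3) (nat_lit 4) (nat_lit 395) (nat_lit 217) (nat_lit 168))))) (XT.nd (nat_lit 234) (nat_lit 0) (nat_lit 0) (XT.nd (nat_lit 78) (nat_lit 0) (nat_lit 0) (XT.lf (nat_lit 0) (nat_lit 24124300112) (nat_lit 152) (nat_lit 38181523143) (nat_lit 0) (nat_lit 14912725581) (nat_lit 3) (nat_lit 5) (nat_lit 5) (nat_lit 4) (nat_lit 3) (nat_lit 4) (nat_lit 396) (nat_lit 217) (nat_lit 167)) (XT.nd (nat_lit 78) (nat_lit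 0) (nat_lit 0) (XT.lf (nat_lit 0) (nat_lit 26754541513) (nat_lit 152) (nat_lit 35247532271) (nat_lit 0) (nat_lit 17463680417) (nat_lit 3) (nat_lit 5) (nat_lit 5) (nat_lit 4) (nat_lit 3) (nat_lit 4) (nat_lit 397) (nat_lit 217) (nat_lit 166)) (XT.lf (nat_lit 0) (nat_lit 29443234218) (nat_lit 152) (nat_lit 32262372099) (nat_lit 0) (nat_lit 20075395873) (nat_lit 3) (nat_lit 5) (nat_lit 5) (nat_lit 4) (nat_lit 3) (nat_lit 4) (nat_lit 398) (nat_lit 217) (nat_lit 165)))) (XT.nd (nat_lit 78) (nat_lit 0) (nat_lit 0) (XT.lf (nat_lit 0) (nat_lit 32192727569) (nat_lit 152) (nat_lit 29223434235) (nat_lit 0) (nat_lit 22750154031) (nat_lit 3) (nat_lit 5) (nat_lit 5) (nat_lit 4) (nat_lit 3) (nat_lit 4) (nat_lit 399) (nat_lit 217) (nat_lit 164)) (XT.nd (nat_lit 78) (nat_lit 0) (nat_lit 0) (XT.lf (nat_lit 0) (nat_lit 35005424036) (nat_lit 152) (nat_lit 26128063297) (nat_lit 0) (nat_lit 25490292059) (nat_lit 3)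 (nat_lit 5) (nat_lit 5) (nat_lit 4) (nat_lit 3) (nat_lit 4) (nat_lit 400) (nat_lit 217) (nat_lit 163)) (XT.lf (nat_lit 0) (nat_lit 37883781315) (nat_lit 152) (nat_lit 22973554591) (nat_lit 0) (nat_lit 28298204252) (nat_lit 3) (nat_lit 5) (nat_lit 5) (nat_lit 4) (nat_lit 3) (nat_lit 4) (nat_lit 401) (nat_lit 217) (nat_lit 162)))))) (XT.nd (nat_lit 36426) (nat_lit 0) (nat_lit 684) (XT.nd (nat_lit 36192) (nat_lit 0) (nat_lit 836) (XT.nd (nat_lit 78) (nat_lit 0) (nat_lit 0) (XT.lf (nat_lit 0) (nat_lit 40830314476) (nat_lit 152) (nat_lit 19757151751) (nat_lit 0) (nat_lit 31176344124) (nat_lit 3) (nat_lit 5) (nat_lit 5) (nat_lit 4) (nat_lit 3) (nat_lit 4) (nat_lit 402) (nat_lit 217) (nat_lit 161)) (XT.nd (nat_lit 36036) (nat_lit 0) (nat_lit 988) (XT.lf (nat_lit 0) (nat_lit 43847598159) (nat_lit 152) (nat_lit 16476044328) (nat_lit 0) (nat_lit 34127226557) (nat_lit 3) (nat_lit 5) (nat_lit 5) (nat_lit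 4) (nat_lit 3) (nat_lit 4) (nat_lit 403) (nat_lit 217) (nat_lit 160)) (XT.lf (nat_lit 0) (nat_lit 1551563897) (nat_lit 152) (nat_lit 6478386117) (nat_lit 0) (nat_lit 1551563897) (nat_lit 16) (nat_lit 5) (nat_lit 18) (nat_lit 4) (nat_lit 16) (nat_lit 4) (nat_lit 344) (nat_lit 218) (nat_lit 218)))) (XT.nd (nat_lit 78) (nat_lit 152) (nat_lit 0) (XT.lf (nat_lit 0) (nat_lit 6664976141) (nat_lit 152) (nat_lit 6691036047) (nat_lit 0) (nat_lit 6262030033) (nat_lit 16) (nat_lit 5) (nat_lit 18) (nat_lit 4) (nat_lit 16) (nat_lit 4) (nat_lit 345) (nat_lit 218) (nat_lit 217)) (XT.nd (nat_lit 78) (nat_lit 152) (nat_lit 0) (XT.lf (nat_lit 0) (nat_lit 10258636233) (nat_lit 152) (nat_lit 365906793) (nat_lit 0) (nat_lit 9464480310) (nat_lit 16) (nat_lit 5) (nat_lit 18) (nat_lit 4) (nat_lit 16) (nat_lit 4) (nat_lit 346) (nat_lit 218) (nat_lit 216)) (XT.lf (nat_lit 0) (nat_lit 6144034581) (nat_lit 152) (nat_lit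 7802273799) (nat_lit 152) (nat_lit 6628302522) (nat_lit 14) (nat_lit 4) (nat_lit 16) (nat_lit 5) (nat_lit 16) (nat_lit 4) (nat_lit 347) (nat_lit 218) (nat_lit 215))))) (XT.nd (nat_lit 234) (nat_lit 0) (nat_lit 0) (XT.nd (nat_lit 78) (nat_lit 152) (nat_lit 0) (XT.lf (nat_lit 0) (nat_lit 12733164791) (nat_lit 152) (nat_lit 4943216736) (nat_lit 152) (nat_lit 3400492689) (nat_lit 14) (nat_lit 4) (nat_lit 16) (nat_lit 5) (nat_lit 16) (nat_lit 4) (nat_lit 348) (nat_lit 218) (nat_lit 214)) (XT.nd (nat_lit 78) (nat_lit 152) (nat_lit 0) (XT.lf (nat_lit 0) (nat_lit 19399959064) (nat_lit 152) (nat_lit 2048568575) (nat_lit 152) (nat_lit 147832129) (nat_lit 14) (nat_lit 4) (nat_lit 16) (nat_lit 5) (nat_lit 16) (nat_lit 4) (nat_lit 349) (nat_lit 218) (nat_lit 213)) (XT.lf (nat_lit 0) (nat_lit 3119663503) (nat_lit 152) (nat_lit 18074679267) (nat_lit 0) (nat_lit 936827289) (nat_lit 12) (nat_lit 5) (nat_lit 14)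 (nat_lit 4) (nat_lit 12) (nat_lit 4) (nat_lit 350) (nat_lit 218) (nat_lit 212)))) (XT.nd (nat_lit 78) (nat_lit 0) (nat_lit 0) (XT.lf (nat_lit 0) (nat_lit 6456772337) (nat_lit 152) (nat_lit 12279721974) (nat_lit 0) (nat_lit 3946304064) (nat_lit 12) (nat_lit 5) (nat_lit 14) (nat_lit 4) (nat_lit 12) (nat_lit 4) (nat_lit 351) (nat_lit 218) (nat_lit 211)) (XT.nd (nat_lit 78) (nat_lit 0) (nat_lit 0) (XT.lf (nat_lit 0) (nat_lit 9827856397) (nat_lit 152) (nat_lit 6425857374) (nat_lit 0) (nat_lit 6999298744) (nat_lit 12) (nat_lit 5) (nat_lit 14) (nat_lit 4) (nat_lit 12) (nat_lit 4) (nat_lit 352) (nat_lit 218) (nat_lit 210)) (XT.lf (nat_lit 0) (nat_lit 13235861287) (nat_lit 152) (nat_lit 507970439) (nat_lit 0) (nat_lit 10098478994) (nat_lit 12) (nat_lit 5) (nat_lit 14) (nat_lit 4) (nat_lit 12) (nat_lit 4) (nat_lit 353) (nat_lit 218) (nat_lit 209))))))) (XT.nd (nat_lit 936) (nat_lit 228) (nat_lit 0) (XT.nd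 (nat_lit 468) (nat_lit 76) (nat_lit 0) (XT.nd (nat_lit 234) (nat_lit 152) (nat_lit 0) (XT.nd (nat_lit 78) (nat_lit 0) (nat_lit 0) (XT.lf (nat_lit 0) (nat_lit 5588154827) (nat_lit 76) (nat_lit 11149326813) (nat_lit 76) (nat_lit 7712114772) (nat_lit 11) (nat_lit 4) (nat_lit 12) (nat_lit 5) (nat_lit 12) (nat_lit 4) (nat_lit 354) (nat_lit 218) (nat_lit 208)) (XT.nd (nat_lit 78) (nat_lit 0) (nat_lit 0) (XT.lf (nat_lit 0) (nat_lit 11770295634) (nat_lit 76) (nat_lit 8517427549) (nat_lit 76) (nat_lit 4789118665) (nat_lit 11) (nat_lit 4) (nat_lit 12) (nat_lit 5) (nat_lit 12) (nat_lit 4) (nat_lit 355) (nat_lit 218) (nat_lit 207)) (XT.lf (nat_lit 0) (nat_lit 18033744242) (nat_lit 76) (nat_lit 5850963720) (nat_lit 76) (nat_lit 1840036544) (nat_lit 11) (nat_lit 4) (nat_lit 12) (nat_lit 5) (nat_lit 12) (nat_lit 4) (nat_lit 356) (nat_lit 218) (nat_lit 206)))) (XT.nd (nat_lit 78) (nat_lit 76) (nat_lit 0) (XT.lf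 (nat_lit 0) (nat_lit 1115507670) (nat_lit 152) (nat_lit 2020833298) (nat_lit 76) (nat_lit 23257201458) (nat_lit 10) (nat_lit 5) (nat_lit 12) (nat_lit 5) (nat_lit 11) (nat_lit 4) (nat_lit 357) (nat_lit 218) (nat_lit 205)) (XT.nd (nat_lit 78) (nat_lit 0) (nat_lit 0) (XT.lf (nat_lit 0) (nat_lit 3775541423) (nat_lit 76) (nat_lit 326552241) (nat_lit 152) (nat_lit 22980426279) (nat_lit 9) (nat_lit 5) (nat_lit 10) (nat_lit 5) (nat_lit 11) (nat_lit 4) (nat_lit 358) (nat_lit 218) (nat_lit 204)) (XT.lf (nat_lit 0) (nat_lit 7166939318) (nat_lit 152) (nat_lit 18128907364) (nat_lit 0) (nat_lit 2496701948) (nat_lit 9) (nat_lit 5) (nat_lit 11) (nat_lit 4) (nat_lit 9) (nat_lit 4) (nat_lit 359) (nat_lit 218) (nat_lit 203))))) (XT.nd (nat_lit 234) (nat_lit 76) (nat_lit 0) (XT.nd (nat_lit 78) (nat_lit 0) (nat_lit 0) (XT.lf (nat_lit 0) (nat_lit 10271985774) (nat_lit 152) (nat_lit 12895525851) (nat_lit 0) (nat_lit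 5357959381) (nat_lit 9) (nat_lit 5) (nat_lit 11) (nat_lit 4) (nat_lit 9) (nat_lit 4) (nat_lit 360) (nat_lit 218) (nat_lit 202)) (XT.nd (nat_lit 78) (nat_lit 0) (nat_lit 0) (XT.lf (nat_lit 0) (nat_lit 13416807160) (nat_lit 152) (nat_lit 7599122103) (nat_lit 0) (nat_lit 8266092396) (nat_lit 9) (nat_lit 5) (nat_lit 11) (nat_lit 4) (nat_lit 9) (nat_lit 4) (nat_lit 361) (nat_lit 218) (nat_lit 201)) (XT.lf (nat_lit 0) (nat_lit 16604151378) (nat_lit 152) (nat_lit 2235068195) (nat_lit 0) (nat_lit 11223642079) (nat_lit 9) (nat_lit 5) (nat_lit 11) (nat_lit 4) (nat_lit 9) (nat_lit 4) (nat_lit 362) (nat_lit 218) (nat_lit 200)))) (XT.nd (nat_lit 78) (nat_lit 0) (nat_lit 0) (XT.lf (nat_lit 0) (nat_lit 3265035512) (nat_lit 76) (nat_lit 16603153493) (nat_lit 76) (nat_lit 10999542703) (nat_lit 8) (nat_lit 4) (nat_lit 9) (nat_lit 5) (nat_lit 9) (nat_lit 4) (nat_lit 363) (nat_lit 218) (nat_lit 199)) (XT.nd (nat_lit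 78) (nat_lit 0) (nat_lit 0) (XT.lf (nat_lit 0) (nat_lit 8888243094) (nat_lit 76) (nat_lit 14314784269) (nat_lit 76) (nat_lit 8494570090) (nat_lit 8) (nat_lit 4) (nat_lit 9) (nat_lit 5) (nat_lit 9) (nat_lit 4) (nat_lit 364) (nat_lit 218) (nat_lit 198)) (XT.lf (nat_lit 0) (nat_lit 14594985791) (nat_lit 76) (nat_lit 11994682163) (nat_lit 76) (nat_lit 5964173432) (nat_lit 8) (nat_lit 4) (nat_lit 9) (nat_lit 5) (nat_lit 9) (nat_lit 4) (nat_lit 365) (nat_lit 218) (nat_lit 197)))))) (XT.nd (nat_lit 468) (nat_lit 76) (nat_lit 0) (XT.nd (nat_lit 234) (nat_lit 76) (nat_lit 0) (XT.nd (nat_lit 78) (nat_lit 76) (nat_lit 0) (XT.lf (nat_lit 0) (nat_lit 20390250079) (nat_lit 76) (nat_lit 9640819901) (nat_lit 76) (nat_lit 3406141701) (nat_lit 8) (nat_lit 4) (nat_lit 9) (nat_lit 5) (nat_lit 9) (nat_lit 4) (nat_lit 366) (nat_lit 218) (nat_lit 196)) (XT.nd (nat_lit 78) (nat_lit 76) (nat_lit 0) (XT.lf (nat_lit 0)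 (nat_lit 26279099780) (nat_lit 76) (nat_lit 7251140710) (nat_lit 76) (nat_lit 818239726) (nat_lit 8) (nat_lit 4) (nat_lit 9) (nat_lit 5) (nat_lit 9) (nat_lit 4) (nat_lit 367) (nat_lit 218) (nat_lit 195)) (XT.lf (nat_lit 0) (nat_lit 1766634282) (nat_lit 152) (nat_lit 3039082697) (nat_lit 76) (nat_lit 30482206666) (nat_lit 7) (nat_lit 5) (nat_lit 9) (nat_lit 5) (nat_lit 8) (nat_lit 4) (nat_lit 368) (nat_lit 218) (nat_lit 194)))) (XT.nd (nat_lit 78) (nat_lit 0) (nat_lit 0) (XT.lf (nat_lit 0) (nat_lit 2098413406) (nat_lit 76) (nat_lit 2291048506) (nat_lit 152) (nat_lit 31866569957) (nat_lit 6) (nat_lit 5) (nat_lit 7) (nat_lit 5) (nat_lit 8) (nat_lit 4) (nat_lit 369) (nat_lit 218) (nat_lit 193)) (XT.nd (nat_lit 78) (nat_lit 0) (nat_lit 0) (XT.lf (nat_lit 0) (nat_lit 7081739297) (nat_lit 152) (nat_lit 29879910277) (nat_lit 0) (nat_lit 291840069) (nat_lit 6) (nat_lit 5) (nat_lit 8) (nat_lit 4) (nat_lit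 6) (nat_lit 4) (nat_lit 370) (nat_lit 218) (nat_lit 192)) (XT.lf (nat_lit 0) (nat_lit 9835621614) (nat_lit 152) (nat_lit 25571119167) (nat_lit 0) (nat_lit 2874733671) (nat_lit 6) (nat_lit 5) (nat_lit 8) (nat_lit 4) (nat_lit 6) (nat_lit 4) (nat_lit 371) (nat_lit 218) (nat_lit 191))))) (XT.nd (nat_lit 234) (nat_lit 76) (nat_lit 0) (XT.nd (nat_lit 78) (nat_lit 0) (nat_lit 0) (XT.lf (nat_lit 0) (nat_lit 12631492209) (nat_lit 152) (nat_lit 21205457211) (nat_lit 0) (nat_lit 5504595804) (nat_lit 6) (nat_lit 5) (nat_lit 8) (nat_lit 4) (nat_lit 6) (nat_lit 4) (nat_lit 372) (nat_lit 218) (nat_lit 190)) (XT.nd (nat_lit 78) (nat_lit 0) (nat_lit 0) (XT.lf (nat_lit 0) (nat_lit 15471794075) (nat_lit 152) (nat_lit 16779109751) (nat_lit 0) (nat_lit 8183724406) (nat_lit 6) (nat_lit 5) (nat_lit 8) (nat_lit 4) (nat_lit 6) (nat_lit 4) (nat_lit 373) (nat_lit 218) (nat_lit 189)) (XT.lf (nat_lit 0) (nat_lit 18359009030)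 (nat_lit 152) (nat_lit 12288209106) (nat_lit 0) (nat_lit 10914460464) (nat_lit 6) (nat_lit 5) (nat_lit 8) (nat_lit 4) (nat_lit 6) (nat_lit 4) (nat_lit 374) (nat_lit 218) (nat_lit 188)))) (XT.nd (nat_lit 78) (nat_lit 76) (nat_lit 0) (XT.lf (nat_lit 0) (nat_lit 21295659883) (nat_lit 152) (nat_lit 7728831188) (nat_lit 0) (nat_lit 13699190058) (nat_lit 6) (nat_lit 5) (nat_lit 8) (nat_lit 4) (nat_lit 6) (nat_lit 4) (nat_lit 375) (nat_lit 218) (nat_lit 187)) (XT.nd (nat_lit 78) (nat_lit 76) (nat_lit 0) (XT.lf (nat_lit 0) (nat_lit 24284312639) (nat_lit 152) (nat_lit 3096992075) (nat_lit 0) (nat_lit 16540346446) (nat_lit 6) (nat_lit 5) (nat_lit 8) (nat_lit 4) (nat_lit 6) (nat_lit 4) (nat_lit 376) (nat_lit 218) (nat_lit 186)) (XT.lf (nat_lit 0) (nat_lit 1643424605) (nat_lit 76) (nat_lit 25699951740) (nat_lit 76) (nat_lit 17812785190) (nat_lit 5) (nat_lit 4) (nat_lit 6) (nat_lit 5) (nat_lit 6) (nat_lit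 4) (nat_lit 377) (nat_lit 218) (nat_lit 185))))))))
noncomputable def xc20 : XT := (XT.nd (nat_lit 1794) (nat_lit 0) (nat_lit 0) (XT.nd (nat_lit 858) (nat_lit 76) (nat_lit 0) (XT.nd (nat_lit 390) (nat_lit 76) (nat_lit 0) (XT.nd (nat_lit 156) (nat_lit 0) (nat_lit 0) (XT.nd (nat_lit 78) (nat_lit 0) (nat_lit 0) (XT.lf (nat_lit 0) (nat_lit 6527704570) (nat_lit 76) (nat_lit 23963161078) (nat_lit 76) (nat_lit 15936965055) (nat_lit 5) (nat_lit 4) (nat_lit 6) (nat_lit 5) (nat_lit 6) (nat_lit 4) (nat_lit 378) (nat_lit 218) (nat_lit 184)) (XT.lf (nat_lit 0) (nat_lit 11498479423) (nat_lit 76) (nat_lit 22200688690) (nat_lit 76) (nat_lit 14039512596) (nat_lit 5) (nat_lit 4) (nat_lit 6) (nat_lit 5) (nat_lit 6) (nat_lit 4) (nat_lit 379) (nat_lit 218) (nat_lit 183))) (XT.nd (nat_lit 78) (nat_lit 0) (nat_lit 0) (XT.lf (nat_lit 0) (nat_lit 16560092559) (nat_lit 76) (nat_lit 20410994553) (nat_lit 76) (nat_lit 12118769847)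 (nat_lit 5) (nat_lit 4) (nat_lit 6) (nat_lit 5) (nat_lit 6) (nat_lit 4) (nat_lit 380) (nat_lit 218) (nat_lit 182)) (XT.nd (nat_lit 78) (nat_lit 0) (nat_lit 0) (XT.lf (nat_lit 0) (nat_lit 21716966747) (nat_lit 76) (nat_lit 18592514856) (nat_lit 76) (nat_lit 10173058487) (nat_lit 5) (nat_lit 4) (nat_lit 6) (nat_lit 5) (nat_lit 6) (nat_lit 4) (nat_lit 381) (nat_lit 218) (nat_lit 181)) (XT.lf (nat_lit 0) (nat_lit 26973607993) (nat_lit 76) (nat_lit 16743660637) (nat_lit 76) (nat_lit 8200678381) (nat_lit 5) (nat_lit 4) (nat_lit 6) (nat_lit 5) (nat_lit 6) (nat_lit 4) (nat_lit 382) (nat_lit 218) (nat_lit 180))))) (XT.nd (nat_lit 234) (nat_lit 76) (nat_lit 0) (XT.nd (nat_lit 78) (nat_lit 0) (nat_lit 0) (XT.lf (nat_lit 0) (nat_lit 32334609478) (nat_lit 76) (nat_lit 14862816391) (nat_lit 76) (nat_lit 6199906090) (nat_lit 5) (nat_lit 4) (nat_lit 6) (nat_lit 5) (nat_lit 6) (nat_lit 4) (nat_lit 383) (nat_lit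 218) (nat_lit 179)) (XT.nd (nat_lit 78) (nat_lit 0) (nat_lit 0) (XT.lf (nat_lit 0) (nat_lit 37804655575) (nat_lit 76) (nat_lit 12948338662) (nat_lit 76) (nat_lit 4168993367) (nat_lit 5) (nat_lit 4) (nat_lit 6) (nat_lit 5) (nat_lit 6) (nat_lit 4) (nat_lit 384) (nat_lit 218) (nat_lit 178)) (XT.lf (nat_lit 0) (nat_lit 43388525933) (nat_lit 76) (nat_lit 10998554606) (nat_lit 76) (nat_lit 2106165627) (nat_lit 5) (nat_lit 4) (nat_lit 6) (nat_lit 5) (nat_lit 6) (nat_lit 4) (nat_lit 385) (nat_lit 218) (nat_lit 177)))) (XT.nd (nat_lit 78) (nat_lit 76) (nat_lit 0) (XT.lf (nat_lit 0) (nat_lit 49091099663) (nat_lit 76) (nat_lit 9011760528) (nat_lit 76) (nat_lit 9620399) (nat_lit 5) (nat_lit 4) (nat_lit 6) (nat_lit 5) (nat_lit 6) (nat_lit 4) (nat_lit 386) (nat_lit 218) (nat_lit 176)) (XT.nd (nat_lit 78) (nat_lit 0) (nat_lit 0) (XT.lf (nat_lit 0) (nat_lit 2081057131) (nat_lit 152) (nat_lit 4884148667) (nat_lit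 76) (nat_lit 52815287870) (nat_lit 4) (nat_lit 5) (nat_lit 6) (nat_lit 5) (nat_lit 5) (nat_lit 4) (nat_lit 387) (nat_lit 218) (nat_lit 175)) (XT.lf (nat_lit 0) (nat_lit 4208229297) (nat_lit 152) (nat_lit 669440155) (nat_lit 76) (nat_lit 56621672480) (nat_lit 4) (nat_lit 5) (nat_lit 6) (nat_lit 5) (nat_lit 5) (nat_lit 4) (nat_lit 388) (nat_lit 218) (nat_lit 174)))))) (XT.nd (nat_lit 468) (nat_lit 0) (nat_lit 0) (XT.nd (nat_lit 234) (nat_lit 0) (nat_lit 0) (XT.nd (nat_lit 78) (nat_lit 0) (nat_lit 0) (XT.lf (nat_lit 0) (nat_lit 3698694698) (nat_lit 76) (nat_lit 2710801940) (nat_lit 152) (nat_lit 56859966801) (nat_lit 3) (nat_lit 5) (nat_lit 4) (nat_lit 5) (nat_lit 5) (nat_lit 4) (nat_lit 389) (nat_lit 218) (nat_lit 173)) (XT.nd (nat_lit 78) (nat_lit 0) (nat_lit 0) (XT.lf (nat_lit 0) (nat_lit 8166849729) (nat_lit 76) (nat_lit 491744202) (nat_lit 152) (nat_lit 56434656625) (nat_lit 3) (nat_lit 5)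 (nat_lit 4) (nat_lit 5) (nat_lit 5) (nat_lit 4) (nat_lit 390) (nat_lit 218) (nat_lit 172)) (XT.lf (nat_lit 0) (nat_lit 10967982607) (nat_lit 152) (nat_lit 54263947137) (nat_lit 0) (nat_lit 1740052258) (nat_lit 3) (nat_lit 5) (nat_lit 5) (nat_lit 4) (nat_lit 3) (nat_lit 4) (nat_lit 391) (nat_lit 218) (nat_lit 171)))) (XT.nd (nat_lit 78) (nat_lit 0) (nat_lit 0) (XT.lf (nat_lit 0) (nat_lit 13327807657) (nat_lit 152) (nat_lit 51569208333) (nat_lit 0) (nat_lit 4010639579) (nat_lit 3) (nat_lit 5) (nat_lit 5) (nat_lit 4) (nat_lit 3) (nat_lit 4) (nat_lit 392) (nat_lit 218) (nat_lit 170)) (XT.nd (nat_lit 78) (nat_lit 0) (nat_lit 0) (XT.lf (nat_lit 0) (nat_lit 15735404119) (nat_lit 152) (nat_lit 48835102846) (nat_lit 0) (nat_lit 6331597470) (nat_lit 3) (nat_lit 5) (nat_lit 5) (nat_lit 4) (nat_lit 3) (nat_lit 4) (nat_lit 393) (nat_lit 218) (nat_lit 169)) (XT.lf (nat_lit 0) (nat_lit 18192875718) (nat_lit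 152) (nat_lit 46059241650) (nat_lit 0) (nat_lit 8704953951) (nat_lit 3) (nat_lit 5) (nat_lit 5) (nat_lit 4) (nat_lit 3) (nat_lit 4) (nat_lit 394) (nat_lit 218) (nat_lit 168))))) (XT.nd (nat_lit 234) (nat_lit 0) (nat_lit 0) (XT.nd (nat_lit 78) (nat_lit 0) (nat_lit 0) (XT.lf (nat_lit 0) (nat_lit 20702369759) (nat_lit 152) (nat_lit 43239199236) (nat_lit 0) (nat_lit 11132782830) (nat_lit 3) (nat_lit 5) (nat_lit 5) (nat_lit 4) (nat_lit 3) (nat_lit 4) (nat_lit 395) (nat_lit 218) (nat_lit 167)) (XT.nd (nat_lit 78) (nat_lit 0) (nat_lit 0) (XT.lf (nat_lit 0) (nat_lit 23266079005) (nat_lit 152) (nat_lit 40372511489) (nat_lit 0) (nat_lit 13617205510) (nat_lit 3) (nat_lit 5) (nat_lit 5) (nat_lit 4) (nat_lit 3) (nat_lit 4) (nat_lit 396) (nat_lit 218) (nat_lit 166)) (XT.lf (nat_lit 0) (nat_lit 25886243589) (nat_lit 152) (nat_lit 37456673536) (nat_lit 0) (nat_lit 16160392846) (nat_lit 3) (nat_lit 5) (nat_lit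 5) (nat_lit 4) (nat_lit 3) (nat_lit 4) (nat_lit 397) (nat_lit 218) (nat_lit 165)))) (XT.nd (nat_lit 78) (nat_lit 0) (nat_lit 0) (XT.lf (nat_lit 0) (nat_lit 28565152976) (nat_lit 152) (nat_lit 34489137558) (nat_lit 0) (nat_lit 18764567040) (nat_lit 3) (nat_lit 5) (nat_lit 5) (nat_lit 4) (nat_lit 3) (nat_lit 4) (nat_lit 398) (nat_lit 218) (nat_lit 164)) (XT.nd (nat_lit 78) (nat_lit 0) (nat_lit 0) (XT.lf (nat_lit 0) (nat_lit 31305147960) (nat_lit 152) (nat_lit 31467310562) (nat_lit 0) (nat_lit 21432003585) (nat_lit 3) (nat_lit 5) (nat_lit 5) (nat_lit 4) (nat_lit 3) (nat_lit 4) (nat_lit 399) (nat_lit 218) (nat_lit 163)) (XT.lf (nat_lit 0) (nat_lit 34108622712) (nat_lit 152) (nat_lit 28388552116) (nat_lit 0) (nat_lit 24165033250) (nat_lit 3) (nat_lit 5) (nat_lit 5) (nat_lit 4) (nat_lit 3) (nat_lit 4) (nat_lit 400) (nat_lit 218) (nat_lit 162))))))) (XT.nd (nat_lit 36660) (nat_lit 0) (nat_lit 456) (XT.nd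 (nat_lit 36192) (nat_lit 0) (nat_lit 760) (XT.nd (nat_lit 156) (nat_lit 0) (nat_lit 0) (XT.nd (nat_lit 78) (nat_lit 0) (nat_lit 0) (XT.lf (nat_lit 0) (nat_lit 36978026870) (nat_lit 152) (nat_lit 25250172045) (nat_lit 0) (nat_lit 26966044119) (nat_lit 3) (nat_lit 5) (nat_lit 5) (nat_lit 4) (nat_lit 3) (nat_lit 4) (nat_lit 401) (nat_lit 218) (nat_lit 161)) (XT.lf (nat_lit 0) (nat_lit 39915867679) (nat_lit 152) (nat_lit 22049428073) (nat_lit 0) (nat_lit 29837483678) (nat_lit 3) (nat_lit 5) (nat_lit 5) (nat_lit 4) (nat_lit 3) (nat_lit 4) (nat_lit 402) (nat_lit 218) (nat_lit 160))) (XT.nd (nat_lit 35880) (nat_lit 0) (nat_lit 1140) (XT.lf (nat_lit 0) (nat_lit 42924712187) (nat_lit 152) (nat_lit 18783523434) (nat_lit 0) (nat_lit 32781860952) (nat_lit 3) (nat_lit 5) (nat_lit 5) (nat_lit 4) (nat_lit 3) (nat_lit 4) (nat_lit 403) (nat_lit 218) (nat_lit 159)) (XT.nd (nat_lit 78) (nat_lit 0) (nat_lit 0) (XT.lf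 (nat_lit 0) (nat_lit 5697882232) (nat_lit 152) (nat_lit 1724577286) (nat_lit 152) (nat_lit 1724577286) (nat_lit 18) (nat_lit 4) (nat_lit 20) (nat_lit 5) (nat_lit 20) (nat_lit 4) (nat_lit 342) (nat_lit 219) (nat_lit 219)) (XT.lf (nat_lit 0) (nat_lit 18282679717) (nat_lit 152) (nat_lit 434065208) (nat_lit 152) (nat_lit 6579681) (nat_lit 18) (nat_lit 4) (nat_lit 20) (nat_lit 5) (nat_lit 20) (nat_lit 4) (nat_lit 343) (nat_lit 219) (nat_lit 218))))) (XT.nd (nat_lit 234) (nat_lit 228) (nat_lit 0) (XT.nd (nat_lit 78) (nat_lit 0) (nat_lit 0) (XT.lf (nat_lit 0) (nat_lit 3480085924) (nat_lit 152) (nat_lit 13022011837) (nat_lit 0) (nat_lit 2662105323) (nat_lit 16) (nat_lit 5) (nat_lit 18) (nat_lit 4) (nat_lit 16) (nat_lit 4) (nat_lit 344) (nat_lit 219) (nat_lit 217)) (XT.nd (nat_lit 78) (nat_lit 0) (nat_lit 0) (XT.lf (nat_lit 0) (nat_lit 7004966928) (nat_lit 152) (nat_lit 6819615067) (nat_lit 0) (nat_lit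 5795776513) (nat_lit 16) (nat_lit 5) (nat_lit 18) (nat_lit 4) (nat_lit 16) (nat_lit 4) (nat_lit 345) (nat_lit 219) (nat_lit 216)) (XT.lf (nat_lit 0) (nat_lit 10562736396) (nat_lit 152) (nat_lit 555980395) (nat_lit 0) (nat_lit 8973730627) (nat_lit 16) (nat_lit 5) (nat_lit 18) (nat_lit 4) (nat_lit 16) (nat_lit 4) (nat_lit 346) (nat_lit 219) (nat_lit 215)))) (XT.nd (nat_lit 78) (nat_lit 76) (nat_lit 0) (XT.lf (nat_lit 0) (nat_lit 5889286449) (nat_lit 152) (nat_lit 8323828034) (nat_lit 152) (nat_lit 6366069494) (nat_lit 14) (nat_lit 4) (nat_lit 16) (nat_lit 5) (nat_lit 16) (nat_lit 4) (nat_lit 347) (nat_lit 219) (nat_lit 214)) (XT.nd (nat_lit 78) (nat_lit 76) (nat_lit 0) (XT.lf (nat_lit 0) (nat_lit 12419298509) (nat_lit 152) (nat_lit 5489490485) (nat_lit 152) (nat_lit 3173719547) (nat_lit 14) (nat_lit 4) (nat_lit 16) (nat_lit 5) (nat_lit 16) (nat_lit 4) (nat_lit 348) (nat_lit 219) (nat_lit 213))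 (XT.lf (nat_lit 0) (nat_lit 43645311) (nat_lit 228) (nat_lit 2574755809) (nat_lit 76) (nat_lit 18984610478) (nat_lit 13) (nat_lit 5) (nat_lit 16) (nat_lit 5) (nat_lit 14) (nat_lit 4) (nat_lit 349) (nat_lit 219) (nat_lit 212)))))) (XT.nd (nat_lit 468) (nat_lit 152) (nat_lit 0) (XT.nd (nat_lit 234) (nat_lit 76) (nat_lit 0) (XT.nd (nat_lit 78) (nat_lit 0) (nat_lit 0) (XT.lf (nat_lit 0) (nat_lit 3265474812) (nat_lit 152) (nat_lit 18521554264) (nat_lit 0) (nat_lit 352060429) (nat_lit 12) (nat_lit 5) (nat_lit 14) (nat_lit 4) (nat_lit 12) (nat_lit 4) (nat_lit 350) (nat_lit 219) (nat_lit 211)) (XT.nd (nat_lit 78) (nat_lit 0) (nat_lit 0) (XT.lf (nat_lit 0) (nat_lit 6570003331) (nat_lit 152) (nat_lit 12783218356) (nat_lit 0) (nat_lit 3338499569) (nat_lit 12) (nat_lit 5) (nat_lit 14) (nat_lit 4) (nat_lit 12) (nat_lit 4) (nat_lit 351) (nat_lit 219) (nat_lit 210)) (XT.lf (nat_lit 0) (nat_lit 9909456016) (nat_lit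 152) (nat_lit 6984325974) (nat_lit 0) (nat_lit 6369127614) (nat_lit 12) (nat_lit 5) (nat_lit 14) (nat_lit 4) (nat_lit 12) (nat_lit 4) (nat_lit 352) (nat_lit 219) (nat_lit 209)))) (XT.nd (nat_lit 78) (nat_lit 76) (nat_lit 0) (XT.lf (nat_lit 0) (nat_lit 13286750834) (nat_lit 152) (nat_lit 1119810125) (nat_lit 0) (nat_lit 9446592685) (nat_lit 12) (nat_lit 5) (nat_lit 14) (nat_lit 4) (nat_lit 12) (nat_lit 4) (nat_lit 353) (nat_lit 219) (nat_lit 208)) (XT.nd (nat_lit 78) (nat_lit 0) (nat_lit 0) (XT.lf (nat_lit 0) (nat_lit 4911290492) (nat_lit 76) (nat_lit 11840758657) (nat_lit 76) (nat_lit 7709503665) (nat_lit 11) (nat_lit 4) (nat_lit 12) (nat_lit 5) (nat_lit 12) (nat_lit 4) (nat_lit 354) (nat_lit 219) (nat_lit 207)) (XT.lf (nat_lit 0) (nat_lit 11042122716) (nat_lit 76) (nat_lit 9230727577) (nat_lit 76) (nat_lit 4816854292) (nat_lit 11) (nat_lit 4) (nat_lit 12) (nat_lit 5) (nat_lit 12) (nat_lit 4)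 (nat_lit 355) (nat_lit 219) (nat_lit 206))))) (XT.nd (nat_lit 234) (nat_lit 0) (nat_lit 0) (XT.nd (nat_lit 78) (nat_lit 152) (nat_lit 0) (XT.lf (nat_lit 0) (nat_lit 17255757166) (nat_lit 76) (nat_lit 6585494996) (nat_lit 76) (nat_lit 1897235018) (nat_lit 11) (nat_lit 4) (nat_lit 12) (nat_lit 5) (nat_lit 12) (nat_lit 4) (nat_lit 356) (nat_lit 219) (nat_lit 205)) (XT.nd (nat_lit 78) (nat_lit 76) (nat_lit 0) (XT.lf (nat_lit 0) (nat_lit 1031378818) (nat_lit 152) (nat_lit 2860955823) (nat_lit 76) (nat_lit 22515829510) (nat_lit 10) (nat_lit 5) (nat_lit 12) (nat_lit 5) (nat_lit 11) (nat_lit 4) (nat_lit 357) (nat_lit 219) (nat_lit 204)) (XT.lf (nat_lit 0) (nat_lit 2870236041) (nat_lit 76) (nat_lit 1111796786) (nat_lit 152) (nat_lit 23116207346) (nat_lit 9) (nat_lit 5) (nat_lit 10) (nat_lit 5) (nat_lit 11) (nat_lit 4) (nat_lit 358) (nat_lit 219) (nat_lit 203)))) (XT.nd (nat_lit 78) (nat_lit 0) (nat_lit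 0) (XT.lf (nat_lit 0) (nat_lit 7012247590) (nat_lit 152) (nat_lit 19090068759) (nat_lit 0) (nat_lit 1707011384) (nat_lit 9) (nat_lit 5) (nat_lit 11) (nat_lit 4) (nat_lit 9) (nat_lit 4) (nat_lit 359) (nat_lit 219) (nat_lit 202)) (XT.nd (nat_lit 78) (nat_lit 0) (nat_lit 0) (XT.lf (nat_lit 0) (nat_lit 10091000222) (nat_lit 152) (nat_lit 13902982424) (nat_lit 0) (nat_lit 4549075644) (nat_lit 9) (nat_lit 5) (nat_lit 11) (nat_lit 4) (nat_lit 9) (nat_lit 4) (nat_lit 360) (nat_lit 219) (nat_lit 201)) (XT.lf (nat_lit 0) (nat_lit 13210293623) (nat_lit 152) (nat_lit 8651525450) (nat_lit 0) (nat_lit 7438574509) (nat_lit 9) (nat_lit 5) (nat_lit 11) (nat_lit 4) (nat_lit 9) (nat_lit 4) (nat_lit 361) (nat_lit 219) (nat_lit 200))))))))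
noncomputable def xc21 : XT := (XT.nd (nat_lit 1794) (nat_lit 152) (nat_lit 0) (XT.nd (nat_lit 858) (nat_lit 76) (nat_lit 0) (XT.nd (nat_lit 390) (nat_lit 152) (nat_lit 0) (XT.nd (nat_lit 156) (nat_lit 0) (nat_lit 0) (XT.nd (nat_lit 78) (nat_lit 76) (nat_lit 0) (XT.lf (nat_lit 0) (nat_lit 16372853390) (nat_lit 152) (nat_lit 3331109187) (nat_lit 0) (nat_lit 10378032786) (nat_lit 9) (nat_lit 5) (nat_lit 11) (nat_lit 4) (nat_lit 9) (nat_lit 4) (nat_lit 362) (nat_lit 219) (nat_lit 199)) (XT.lf (nat_lit 0) (nat_lit 2103971330) (nat_lit 76) (nat_lit 17497696254) (nat_lit 76) (nat_lit 11286272260) (nat_lit 8) (nat_lit 4) (nat_lit 9) (nat_lit 5) (nat_lit 9) (nat_lit 4) (nat_lit 363) (nat_lit 219) (nat_lit 198))) (XT.nd (nat_lit 78) (nat_lit 0) (nat_lit 0) (XT.lf (nat_lit 0) (nat_lit 7685227626) (nat_lit 76) (nat_lit 15227513333) (nat_lit 76) (nat_lit 8805794787) (nat_lit 8) (nat_lit 4) (nat_lit 9) (nat_lit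 5) (nat_lit 9) (nat_lit 4) (nat_lit 364) (nat_lit 219) (nat_lit 197)) (XT.nd (nat_lit 78) (nat_lit 0) (nat_lit 0) (XT.lf (nat_lit 0) (nat_lit 13351240919) (nat_lit 76) (nat_lit 12925067831) (nat_lit 76) (nat_lit 6299179817) (nat_lit 8) (nat_lit 4) (nat_lit 9) (nat_lit 5) (nat_lit 9) (nat_lit 4) (nat_lit 365) (nat_lit 219) (nat_lit 196)) (XT.lf (nat_lit 0) (nat_lit 19106962095) (nat_lit 76) (nat_lit 10588347904) (nat_lit 76) (nat_lit 3764237104) (nat_lit 8) (nat_lit 4) (nat_lit 9) (nat_lit 5) (nat_lit 9) (nat_lit 4) (nat_lit 366) (nat_lit 219) (nat_lit 195))))) (XT.nd (nat_lit 234) (nat_lit 0) (nat_lit 0) (XT.nd (nat_lit 78) (nat_lit 152) (nat_lit 0) (XT.lf (nat_lit 0) (nat_lit 24957420426) (nat_lit 76) (nat_lit 8215311756) (nat_lit 76) (nat_lit 1198751651) (nat_lit 8) (nat_lit 4) (nat_lit 9) (nat_lit 5) (nat_lit 9) (nat_lit 4) (nat_lit 367) (nat_lit 219) (nat_lit 194)) (XT.nd (nat_lit 78) (nat_lit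 76) (nat_lit 0) (XT.lf (nat_lit 0) (nat_lit 1372208587) (nat_lit 152) (nat_lit 4417820658) (nat_lit 76) (nat_lit 29521662759) (nat_lit 7) (nat_lit 5) (nat_lit 9) (nat_lit 5) (nat_lit 8) (nat_lit 4) (nat_lit 368) (nat_lit 219) (nat_lit 193)) (XT.lf (nat_lit 0) (nat_lit 654892885) (nat_lit 76) (nat_lit 3305549924) (nat_lit 152) (nat_lit 32320409630) (nat_lit 6) (nat_lit 5) (nat_lit 7) (nat_lit 5) (nat_lit 8) (nat_lit 4) (nat_lit 369) (nat_lit 219) (nat_lit 192)))) (XT.nd (nat_lit 78) (nat_lit 0) (nat_lit 0) (XT.lf (nat_lit 0) (nat_lit 5896750547) (nat_lit 76) (nat_lit 732645976) (nat_lit 152) (nat_lit 30649627391) (nat_lit 6) (nat_lit 5) (nat_lit 7) (nat_lit 5) (nat_lit 8) (nat_lit 4) (nat_lit 370) (nat_lit 219) (nat_lit 191)) (XT.nd (nat_lit 78) (nat_lit 0) (nat_lit 0) (XT.lf (nat_lit 0) (nat_lit 9356222311) (nat_lit 152) (nat_lit 27102101137) (nat_lit 0) (nat_lit 1849510553) (nat_lit 6) (nat_lit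 5) (nat_lit 8) (nat_lit 4) (nat_lit 6) (nat_lit 4) (nat_lit 371) (nat_lit 219) (nat_lit 190)) (XT.lf (nat_lit 0) (nat_lit 12132661947) (nat_lit 152) (nat_lit 22771062016) (nat_lit 0) (nat_lit 4464776925) (nat_lit 6) (nat_lit 5) (nat_lit 8) (nat_lit 4) (nat_lit 6) (nat_lit 4) (nat_lit 372) (nat_lit 219) (nat_lit 189)))))) (XT.nd (nat_lit 468) (nat_lit 0) (nat_lit 0) (XT.nd (nat_lit 234) (nat_lit 76) (nat_lit 0) (XT.nd (nat_lit 78) (nat_lit 0) (nat_lit 0) (XT.lf (nat_lit 0) (nat_lit 14954098805) (nat_lit 152) (nat_lit 18378328959) (nat_lit 0) (nat_lit 7129734886) (nat_lit 6) (nat_lit 5) (nat_lit 8) (nat_lit 4) (nat_lit 6) (nat_lit 4) (nat_lit 373) (nat_lit 219) (nat_lit 188)) (XT.nd (nat_lit 78) (nat_lit 0) (nat_lit 0) (XT.lf (nat_lit 0) (nat_lit 17822998218) (nat_lit 152) (nat_lit 13920063658) (nat_lit 0) (nat_lit 9846713039) (nat_lit 6) (nat_lit 5) (nat_lit 8) (nat_lit 4) (nat_lit 6) (nat_lit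 4) (nat_lit 374) (nat_lit 219) (nat_lit 187)) (XT.lf (nat_lit 0) (nat_lit 20741866991) (nat_lit 152) (nat_lit 9392370539) (nat_lit 0) (nat_lit 12618085444) (nat_lit 6) (nat_lit 5) (nat_lit 8) (nat_lit 4) (nat_lit 6) (nat_lit 4) (nat_lit 375) (nat_lit 219) (nat_lit 186)))) (XT.nd (nat_lit 78) (nat_lit 76) (nat_lit 0) (XT.lf (nat_lit 0) (nat_lit 23713255592) (nat_lit 152) (nat_lit 4791293366) (nat_lit 0) (nat_lit 15446273688) (nat_lit 6) (nat_lit 5) (nat_lit 8) (nat_lit 4) (nat_lit 6) (nat_lit 4) (nat_lit 376) (nat_lit 219) (nat_lit 185)) (XT.nd (nat_lit 78) (nat_lit 76) (nat_lit 0) (XT.lf (nat_lit 0) (nat_lit 26739760380) (nat_lit 152) (nat_lit 112811781) (nat_lit 0) (nat_lit 18333749003) (nat_lit 6) (nat_lit 5) (nat_lit 8) (nat_lit 4) (nat_lit 6) (nat_lit 4) (nat_lit 377) (nat_lit 219) (nat_lit 184)) (XT.lf (nat_lit 0) (nat_lit 4739649850) (nat_lit 76) (nat_lit 25129936437) (nat_lit 76) (nat_lit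 16588944990) (nat_lit 5) (nat_lit 4) (nat_lit 6) (nat_lit 5) (nat_lit 6) (nat_lit 4) (nat_lit 378) (nat_lit 219) (nat_lit 183))))) (XT.nd (nat_lit 234) (nat_lit 0) (nat_lit 0) (XT.nd (nat_lit 78) (nat_lit 0) (nat_lit 0) (XT.lf (nat_lit 0) (nat_lit 9681712898) (nat_lit 76) (nat_lit 23380100711) (nat_lit 76) (nat_lit 14708060651) (nat_lit 5) (nat_lit 4) (nat_lit 6) (nat_lit 5) (nat_lit 6) (nat_lit 4) (nat_lit 379) (nat_lit 219) (nat_lit 182)) (XT.nd (nat_lit 78) (nat_lit 0) (nat_lit 0) (XT.lf (nat_lit 0) (nat_lit 14715450496) (nat_lit 76) (nat_lit 21602675177) (nat_lit 76) (nat_lit 12803403454) (nat_lit 5) (nat_lit 4) (nat_lit 6) (nat_lit 5) (nat_lit 6) (nat_lit 4) (nat_lit 380) (nat_lit 219) (nat_lit 181)) (XT.lf (nat_lit 0) (nat_lit 19845261054) (nat_lit 76) (nat_lit 19796106745) (nat_lit 76) (nat_lit 10873309136) (nat_lit 5) (nat_lit 4) (nat_lit 6) (nat_lit 5) (nat_lit 6) (nat_lit 4) (nat_lit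 381) (nat_lit 219) (nat_lit 180)))) (XT.nd (nat_lit 78) (nat_lit 0) (nat_lit 0) (XT.lf (nat_lit 0) (nat_lit 25075626932) (nat_lit 76) (nat_lit 17958816861) (nat_lit 76) (nat_lit 8916091207) (nat_lit 5) (nat_lit 4) (nat_lit 6) (nat_lit 5) (nat_lit 6) (nat_lit 4) (nat_lit 382) (nat_lit 219) (nat_lit 179)) (XT.nd (nat_lit 78) (nat_lit 0) (nat_lit 0) (XT.lf (nat_lit 0) (nat_lit 30411118352) (nat_lit 76) (nat_lit 16089200124) (nat_lit 76) (nat_lit 6930039475) (nat_lit 5) (nat_lit 4) (nat_lit 6) (nat_lit 5) (nat_lit 6) (nat_lit 4) (nat_lit 383) (nat_lit 219) (nat_lit 178)) (XT.lf (nat_lit 0) (nat_lit 35856397393) (nat_lit 76) (nat_lit 14185622891) (nat_lit 76) (nat_lit 4913418557) (nat_lit 5) (nat_lit 4) (nat_lit 6) (nat_lit 5) (nat_lit 6) (nat_lit 4) (nat_lit 384) (nat_lit 219) (nat_lit 177))))))) (XT.nd (nat_lit 936) (nat_lit 0) (nat_lit 0) (XT.nd (nat_lit 468) (nat_lit 0) (nat_lit 0) (XT.nd (nat_lit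 234) (nat_lit 76) (nat_lit 0) (XT.nd (nat_lit 78) (nat_lit 76) (nat_lit 0) (XT.lf (nat_lit 0) (nat_lit 41416222068) (nat_lit 76) (nat_lit 12246421840) (nat_lit 76) (nat_lit 2864466356) (nat_lit 5) (nat_lit 4) (nat_lit 6) (nat_lit 5) (nat_lit 6) (nat_lit 4) (nat_lit 385) (nat_lit 219) (nat_lit 176)) (XT.nd (nat_lit 78) (nat_lit 76) (nat_lit 0) (XT.lf (nat_lit 0) (nat_lit 47095450474) (nat_lit 76) (nat_lit 10269902524) (nat_lit 76) (nat_lit 781392526) (nat_lit 5) (nat_lit 4) (nat_lit 6) (nat_lit 5) (nat_lit 6) (nat_lit 4) (nat_lit 386) (nat_lit 219) (nat_lit 175)) (XT.lf (nat_lit 0) (nat_lit 1311521250) (nat_lit 152) (nat_lit 6929572844) (nat_lit 76) (nat_lit 51574280001) (nat_lit 4) (nat_lit 5) (nat_lit 6) (nat_lit 5) (nat_lit 5) (nat_lit 4) (nat_lit 387) (nat_lit 219) (nat_lit 174)))) (XT.nd (nat_lit 78) (nat_lit 76) (nat_lit 0) (XT.lf (nat_lit 0) (nat_lit 3426243117) (nat_lit 152) (nat_lit 2737125302)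 (nat_lit 76) (nat_lit 55371235426) (nat_lit 4) (nat_lit 5) (nat_lit 6) (nat_lit 5) (nat_lit 5) (nat_lit 4) (nat_lit 388) (nat_lit 219) (nat_lit 173)) (XT.nd (nat_lit 78) (nat_lit 0) (nat_lit 0) (XT.lf (nat_lit 0) (nat_lit 1567815835) (nat_lit 76) (nat_lit 4027123643) (nat_lit 152) (nat_lit 57710770750) (nat_lit 3) (nat_lit 5) (nat_lit 4) (nat_lit 5) (nat_lit 5) (nat_lit 4) (nat_lit 389) (nat_lit 219) (nat_lit 172)) (XT.lf (nat_lit 0) (nat_lit 6014570162) (nat_lit 76) (nat_lit 1817525293) (nat_lit 152) (nat_lit 57297767652) (nat_lit 3) (nat_lit 5) (nat_lit 4) (nat_lit 5) (nat_lit 5) (nat_lit 4) (nat_lit 390) (nat_lit 219) (nat_lit 171))))) (XT.nd (nat_lit 234) (nat_lit 0) (nat_lit 0) (XT.nd (nat_lit 78) (nat_lit 0) (nat_lit 0) (XT.lf (nat_lit 0) (nat_lit 10117058118) (nat_lit 152) (nat_lit 56461139244) (nat_lit 0) (nat_lit 431137270) (nat_lit 3) (nat_lit 5) (nat_lit 5) (nat_lit 4) (nat_lit 3)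 (nat_lit 4) (nat_lit 391) (nat_lit 219) (nat_lit 170)) (XT.nd (nat_lit 78) (nat_lit 0) (nat_lit 0) (XT.lf (nat_lit 0) (nat_lit 12465541622) (nat_lit 152) (nat_lit 53786831712) (nat_lit 0) (nat_lit 2692982202) (nat_lit 3) (nat_lit 5) (nat_lit 5) (nat_lit 4) (nat_lit 3) (nat_lit 4) (nat_lit 392) (nat_lit 219) (nat_lit 169)) (XT.lf (nat_lit 0) (nat_lit 14862126873) (nat_lit 152) (nat_lit 51072562409) (nat_lit 0) (nat_lit 5005452336) (nat_lit 3) (nat_lit 5) (nat_lit 5) (nat_lit 4) (nat_lit 3) (nat_lit 4) (nat_lit 393) (nat_lit 219) (nat_lit 168)))) (XT.nd (nat_lit 78) (nat_lit 0) (nat_lit 0) (XT.lf (nat_lit 0) (nat_lit 17308907977) (nat_lit 152) (nat_lit 48315959646) (nat_lit 0) (nat_lit 7370568277) (nat_lit 3) (nat_lit 5) (nat_lit 5) (nat_lit 4) (nat_lit 3) (nat_lit 4) (nat_lit 394) (nat_lit 219) (nat_lit 167)) (XT.nd (nat_lit 78) (nat_lit 0) (nat_lit 0) (XT.lf (nat_lit 0) (nat_lit 19808022897)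 (nat_lit 152) (nat_lit 45514614739) (nat_lit 0) (nat_lit 9790396631) (nat_lit 3) (nat_lit 5) (nat_lit 5) (nat_lit 4) (nat_lit 3) (nat_lit 4) (nat_lit 395) (nat_lit 219) (nat_lit 166)) (XT.lf (nat_lit 0) (nat_lit 22361655325) (nat_lit 152) (nat_lit 42666079911) (nat_lit 0) (nat_lit 12267051811) (nat_lit 3) (nat_lit 5) (nat_lit 5) (nat_lit 4) (nat_lit 3) (nat_lit 4) (nat_lit 396) (nat_lit 219) (nat_lit 165)))))) (XT.nd (nat_lit 468) (nat_lit 0) (nat_lit 0) (XT.nd (nat_lit 234) (nat_lit 0) (nat_lit 0) (XT.nd (nat_lit 78) (nat_lit 0) (nat_lit 0) (XT.lf (nat_lit 0) (nat_lit 24972036592) (nat_lit 152) (nat_lit 39767866152) (nat_lit 0) (nat_lit 14802697885) (nat_lit 3) (nat_lit 5) (nat_lit 5) (nat_lit 4) (nat_lit 3) (nat_lit 4) (nat_lit 397) (nat_lit 219) (nat_lit 164)) (XT.nd (nat_lit 78) (nat_lit 0) (nat_lit 0) (XT.lf (nat_lit 0) (nat_lit 27641447612) (nat_lit 152) (nat_lit 36817441042) (nat_lit 0)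 (nat_lit 17399550466) (nat_lit 3) (nat_lit 5) (nat_lit 5) (nat_lit 4) (nat_lit 3) (nat_lit 4) (nat_lit 398) (nat_lit 219) (nat_lit 163)) (XT.lf (nat_lit 0) (nat_lit 30372220881) (nat_lit 152) (nat_lit 33812226539) (nat_lit 0) (nat_lit 20059878648) (nat_lit 3) (nat_lit 5) (nat_lit 5) (nat_lit 4) (nat_lit 3) (nat_lit 4) (nat_lit 399) (nat_lit 219) (nat_lit 162)))) (XT.nd (nat_lit 78) (nat_lit 0) (nat_lit 0) (XT.lf (nat_lit 0) (nat_lit 33166742511) (nat_lit 152) (nat_lit 30749596727) (nat_lit 0) (nat_lit 22786006990) (nat_lit 3) (nat_lit 5) (nat_lit 5) (nat_lit 4) (nat_lit 3) (nat_lit 4) (nat_lit 400) (nat_lit 219) (nat_lit 161)) (XT.nd (nat_lit 78) (nat_lit 0) (nat_lit 0) (XT.lf (nat_lit 0) (nat_lit 36027454318) (nat_lit 152) (nat_lit 27626875524) (nat_lit 0) (nat_lit 25580317547) (nat_lit 3) (nat_lit 5) (nat_lit 5) (nat_lit 4) (nat_lit 3) (nat_lit 4) (nat_lit 401) (nat_lit 219) (nat_lit 160))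 (XT.lf (nat_lit 0) (nat_lit 38956855952) (nat_lit 152) (nat_lit 24441334336) (nat_lit 0) (nat_lit 28445251947) (nat_lit 3) (nat_lit 5) (nat_lit 5) (nat_lit 4) (nat_lit 3) (nat_lit 4) (nat_lit 402) (nat_lit 219) (nat_lit 159))))) (XT.nd (nat_lit 35880) (nat_lit 0) (nat_lit 988) (XT.nd (nat_lit 35724) (nat_lit 0) (nat_lit 1140) (XT.lf (nat_lit 0) (nat_lit 41957507085) (nat_lit 152) (nat_lit 21190189681) (nat_lit 0) (nat_lit 31383313533) (nat_lit 3) (nat_lit 5) (nat_lit 5) (nat_lit 4) (nat_lit 3) (nat_lit 4) (nat_lit 403) (nat_lit 219) (nat_lit 158)) (XT.nd (nat_lit 78) (nat_lit 152) (nat_lit 0) (XT.lf (nat_lit 0) (nat_lit 3855793710) (nat_lit 152) (nat_lit 1027330721) (nat_lit 0) (nat_lit 3855793710) (nat_lit 20) (nat_lit 5) (nat_lit 22) (nat_lit 4) (nat_lit 20) (nat_lit 4) (nat_lit 340) (nat_lit 220) (nat_lit 220)) (XT.lf (nat_lit 0) (nat_lit 4582973757) (nat_lit 152) (nat_lit 6868485898) (nat_lit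 152) (nat_lit 6428175806) (nat_lit 18) (nat_lit 4) (nat_lit 20) (nat_lit 5) (nat_lit 20) (nat_lit 4) (nat_lit 341) (nat_lit 220) (nat_lit 219)))) (XT.nd (nat_lit 78) (nat_lit 152) (nat_lit 0) (XT.lf (nat_lit 0) (nat_lit 11331597383) (nat_lit 152) (nat_lit 3915722057) (nat_lit 152) (nat_lit 3047926437) (nat_lit 18) (nat_lit 4) (nat_lit 20) (nat_lit 5) (nat_lit 20) (nat_lit 4) (nat_lit 342) (nat_lit 220) (nat_lit 218)) (XT.nd (nat_lit 78) (nat_lit 76) (nat_lit 0) (XT.lf (nat_lit 0) (nat_lit 349744210) (nat_lit 228) (nat_lit 572849363) (nat_lit 76) (nat_lit 17802938556) (nat_lit 17) (nat_lit 5) (nat_lit 20) (nat_lit 5) (nat_lit 18) (nat_lit 4) (nat_lit 343) (nat_lit 220) (nat_lit 217)) (XT.lf (nat_lit 0) (nat_lit 3793309092) (nat_lit 152) (nat_lit 13217787647) (nat_lit 0) (nat_lit 2156633150) (nat_lit 16) (nat_lit 5) (nat_lit 18) (nat_lit 4) (nat_lit 16) (nat_lit 4) (nat_lit 344) (nat_lit 220) (nat_lit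 216))))))))
noncomputable def xc22 : XT := (XT.nd (nat_lit 1794) (nat_lit 380) (nat_lit 0) (XT.nd (nat_lit 858) (nat_lit 228) (nat_lit 0) (XT.nd (nat_lit 390) (nat_lit 152) (nat_lit 0) (XT.nd (nat_lit 156) (nat_lit 228) (nat_lit 0) (XT.nd (nat_lit 78) (nat_lit 0) (nat_lit 0) (XT.lf (nat_lit 0) (nat_lit 7282299472) (nat_lit 152) (nat_lit 7076885459) (nat_lit 0) (nat_lit 5265808176) (nat_lit 16) (nat_lit 5) (nat_lit 18) (nat_lit 4) (nat_lit 16) (nat_lit 4) (nat_lit 345) (nat_lit 220) (nat_lit 215)) (XT.lf (nat_lit 0) (nat_lit 10805223675) (nat_lit 152) (nat_lit 872954264) (nat_lit 0) (nat_lit 8419979608) (nat_lit 16) (nat_lit 5) (nat_lit 18) (nat_lit 4) (nat_lit 16) (nat_lit 4) (nat_lit 346) (nat_lit 220) (nat_lit 214))) (XT.nd (nat_lit 78) (nat_lit 76) (nat_lit 0) (XT.lf (nat_lit 0) (nat_lit 5506886029) (nat_lit 152) (nat_lit 8911209509) (nat_lit 152) (nat_lit 6167953044) (nat_lit 14) (nat_lit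 4) (nat_lit 16) (nat_lit 5) (nat_lit 16) (nat_lit 4) (nat_lit 347) (nat_lit 220) (nat_lit 213)) (XT.nd (nat_lit 78) (nat_lit 76) (nat_lit 0) (XT.lf (nat_lit 0) (nat_lit 11979501829) (nat_lit 152) (nat_lit 6100871489) (nat_lit 152) (nat_lit 3010030171) (nat_lit 14) (nat_lit 4) (nat_lit 16) (nat_lit 5) (nat_lit 16) (nat_lit 4) (nat_lit 348) (nat_lit 220) (nat_lit 212)) (XT.lf (nat_lit 0) (nat_lit 171368404) (nat_lit 228) (nat_lit 3080424480) (nat_lit 76) (nat_lit 18360076426) (nat_lit 13) (nat_lit 5) (nat_lit 16) (nat_lit 5) (nat_lit 14) (nat_lit 4) (nat_lit 349) (nat_lit 220) (nat_lit 211))))) (XT.nd (nat_lit 234) (nat_lit 76) (nat_lit 0) (XT.nd (nat_lit 78) (nat_lit 0) (nat_lit 0) (XT.lf (nat_lit 0) (nat_lit 3049507307) (nat_lit 76) (nat_lit 302927031) (nat_lit 152) (nat_lit 18796761810) (nat_lit 12) (nat_lit 5) (nat_lit 13) (nat_lit 5) (nat_lit 14) (nat_lit 4) (nat_lit 350) (nat_lit 220) (nat_lit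 210)) (XT.nd (nat_lit 78) (nat_lit 0) (nat_lit 0) (XT.lf (nat_lit 0) (nat_lit 6622419564) (nat_lit 152) (nat_lit 13413413233) (nat_lit 0) (nat_lit 2667056670) (nat_lit 12) (nat_lit 5) (nat_lit 14) (nat_lit 4) (nat_lit 12) (nat_lit 4) (nat_lit 351) (nat_lit 220) (nat_lit 209)) (XT.lf (nat_lit 0) (nat_lit 9931162176) (nat_lit 152) (nat_lit 7667891937) (nat_lit 0) (nat_lit 5675969535) (nat_lit 12) (nat_lit 5) (nat_lit 14) (nat_lit 4) (nat_lit 12) (nat_lit 4) (nat_lit 352) (nat_lit 220) (nat_lit 208)))) (XT.nd (nat_lit 78) (nat_lit 76) (nat_lit 0) (XT.lf (nat_lit 0) (nat_lit 13278641391) (nat_lit 152) (nat_lit 1855192676) (nat_lit 0) (nat_lit 8732351907) (nat_lit 12) (nat_lit 5) (nat_lit 14) (nat_lit 4) (nat_lit 12) (nat_lit 4) (nat_lit 353) (nat_lit 220) (nat_lit 207)) (XT.nd (nat_lit 78) (nat_lit 0) (nat_lit 0) (XT.lf (nat_lit 0) (nat_lit 4109963804) (nat_lit 76) (nat_lit 12597325871) (nat_lit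 76) (nat_lit 7768418094) (nat_lit 11) (nat_lit 4) (nat_lit 12) (nat_lit 5) (nat_lit 12) (nat_lit 4) (nat_lit 354) (nat_lit 220) (nat_lit 206)) (XT.lf (nat_lit 0) (nat_lit 10190981870) (nat_lit 76) (nat_lit 10008526038) (nat_lit 76) (nat_lit 4905231568) (nat_lit 11) (nat_lit 4) (nat_lit 12) (nat_lit 5) (nat_lit 12) (nat_lit 4) (nat_lit 355) (nat_lit 220) (nat_lit 205)))))) (XT.nd (nat_lit 468) (nat_lit 76) (nat_lit 0) (XT.nd (nat_lit 234) (nat_lit 0) (nat_lit 0) (XT.nd (nat_lit 78) (nat_lit 152) (nat_lit 0) (XT.lf (nat_lit 0) (nat_lit 16356253061) (nat_lit 76) (nat_lit 7383906318) (nat_lit 76) (nat_lit 2014217000) (nat_lit 11) (nat_lit 4) (nat_lit 12) (nat_lit 5) (nat_lit 12) (nat_lit 4) (nat_lit 356) (nat_lit 220) (nat_lit 204)) (XT.nd (nat_lit 78) (nat_lit 76) (nat_lit 0) (XT.lf (nat_lit 0) (nat_lit 889449939) (nat_lit 152) (nat_lit 3822741714) (nat_lit 76) (nat_lit 21712732866) (nat_lit 10)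 (nat_lit 5) (nat_lit 12) (nat_lit 5) (nat_lit 11) (nat_lit 4) (nat_lit 357) (nat_lit 220) (nat_lit 203)) (XT.lf (nat_lit 0) (nat_lit 1842257489) (nat_lit 76) (nat_lit 1961528360) (nat_lit 152) (nat_lit 23312324182) (nat_lit 9) (nat_lit 5) (nat_lit 10) (nat_lit 5) (nat_lit 11) (nat_lit 4) (nat_lit 358) (nat_lit 220) (nat_lit 202)))) (XT.nd (nat_lit 78) (nat_lit 0) (nat_lit 0) (XT.lf (nat_lit 0) (nat_lit 6799538648) (nat_lit 152) (nat_lit 20174044206) (nat_lit 0) (nat_lit 854667961) (nat_lit 9) (nat_lit 5) (nat_lit 11) (nat_lit 4) (nat_lit 9) (nat_lit 4) (nat_lit 359) (nat_lit 220) (nat_lit 201)) (XT.nd (nat_lit 78) (nat_lit 0) (nat_lit 0) (XT.lf (nat_lit 0) (nat_lit 9852763294) (nat_lit 152) (nat_lit 15031904645) (nat_lit 0) (nat_lit 3678098072) (nat_lit 9) (nat_lit 5) (nat_lit 11) (nat_lit 4) (nat_lit 9) (nat_lit 4) (nat_lit 360) (nat_lit 220) (nat_lit 200)) (XT.lf (nat_lit 0) (nat_lit 12947272244)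 (nat_lit 152) (nat_lit 9824085317) (nat_lit 0) (nat_lit 6549505531) (nat_lit 9) (nat_lit 5) (nat_lit 11) (nat_lit 4) (nat_lit 9) (nat_lit 4) (nat_lit 361) (nat_lit 220) (nat_lit 199))))) (XT.nd (nat_lit 234) (nat_lit 0) (nat_lit 0) (XT.nd (nat_lit 78) (nat_lit 76) (nat_lit 0) (XT.lf (nat_lit 0) (nat_lit 16085769437) (nat_lit 152) (nat_lit 4546035700) (nat_lit 0) (nat_lit 9471399335) (nat_lit 9) (nat_lit 5) (nat_lit 11) (nat_lit 4) (nat_lit 9) (nat_lit 4) (nat_lit 362) (nat_lit 220) (nat_lit 198)) (XT.nd (nat_lit 78) (nat_lit 0) (nat_lit 0) (XT.lf (nat_lit 0) (nat_lit 822914111) (nat_lit 76) (nat_lit 18455993492) (nat_lit 76) (nat_lit 11631328837) (nat_lit 8) (nat_lit 4) (nat_lit 9) (nat_lit 5) (nat_lit 9) (nat_lit 4) (nat_lit 363) (nat_lit 220) (nat_lit 197)) (XT.lf (nat_lit 0) (nat_lit 6363441002) (nat_lit 76) (nat_lit 16203467175) (nat_lit 76) (nat_lit 9174633052) (nat_lit 8) (nat_lit 4) (nat_lit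 9) (nat_lit 5) (nat_lit 9) (nat_lit 4) (nat_lit 364) (nat_lit 220) (nat_lit 196)))) (XT.nd (nat_lit 78) (nat_lit 0) (nat_lit 0) (XT.lf (nat_lit 0) (nat_lit 11989911184) (nat_lit 76) (nat_lit 13918164008) (nat_lit 76) (nat_lit 6691107100) (nat_lit 8) (nat_lit 4) (nat_lit 9) (nat_lit 5) (nat_lit 9) (nat_lit 4) (nat_lit 365) (nat_lit 220) (nat_lit 195)) (XT.nd (nat_lit 78) (nat_lit 0) (nat_lit 0) (XT.lf (nat_lit 0) (nat_lit 17707240991) (nat_lit 76) (nat_lit 11598087124) (nat_lit 76) (nat_lit 4178580910) (nat_lit 8) (nat_lit 4) (nat_lit 9) (nat_lit 5) (nat_lit 9) (nat_lit 4) (nat_lit 366) (nat_lit 220) (nat_lit 194)) (XT.lf (nat_lit 0) (nat_lit 23520426147) (nat_lit 76) (nat_lit 9241209271) (nat_lit 76) (nat_lit 1634859071) (nat_lit 8) (nat_lit 4) (nat_lit 9) (nat_lit 5) (nat_lit 9) (nat_lit 4) (nat_lit 367) (nat_lit 220) (nat_lit 193))))))) (XT.nd (nat_lit 858) (nat_lit 152) (nat_lit 0) (XT.nd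 (nat_lit 390) (nat_lit 76) (nat_lit 0) (XT.nd (nat_lit 156) (nat_lit 76) (nat_lit 0) (XT.nd (nat_lit 78) (nat_lit 0) (nat_lit 0) (XT.lf (nat_lit 0) (nat_lit 923893788) (nat_lit 152) (nat_lit 5912247736) (nat_lit 76) (nat_lit 28501322831) (nat_lit 7) (nat_lit 5) (nat_lit 9) (nat_lit 5) (nat_lit 8) (nat_lit 4) (nat_lit 368) (nat_lit 220) (nat_lit 192)) (XT.lf (nat_lit 0) (nat_lit 3485718795) (nat_lit 152) (nat_lit 887861351) (nat_lit 76) (nat_lit 31933850912) (nat_lit 7) (nat_lit 5) (nat_lit 9) (nat_lit 5) (nat_lit 8) (nat_lit 4) (nat_lit 369) (nat_lit 220) (nat_lit 191))) (XT.nd (nat_lit 78) (nat_lit 0) (nat_lit 0) (XT.lf (nat_lit 0) (nat_lit 4301126796) (nat_lit 76) (nat_lit 1824974689) (nat_lit 152) (nat_lit 31180371760) (nat_lit 6) (nat_lit 5) (nat_lit 7) (nat_lit 5) (nat_lit 8) (nat_lit 4) (nat_lit 370) (nat_lit 220) (nat_lit 190)) (XT.nd (nat_lit 78) (nat_lit 0) (nat_lit 0) (XT.lf (nat_lit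 0) (nat_lit 8822996183) (nat_lit 152) (nat_lit 28749296922) (nat_lit 0) (nat_lit 763901346) (nat_lit 6) (nat_lit 5) (nat_lit 8) (nat_lit 4) (nat_lit 6) (nat_lit 4) (nat_lit 371) (nat_lit 220) (nat_lit 189)) (XT.lf (nat_lit 0) (nat_lit 11580570811) (nat_lit 152) (nat_lit 24451872204) (nat_lit 0) (nat_lit 3364997077) (nat_lit 6) (nat_lit 5) (nat_lit 8) (nat_lit 4) (nat_lit 6) (nat_lit 4) (nat_lit 372) (nat_lit 220) (nat_lit 188))))) (XT.nd (nat_lit 234) (nat_lit 76) (nat_lit 0) (XT.nd (nat_lit 78) (nat_lit 0) (nat_lit 0) (XT.lf (nat_lit 0) (nat_lit 14383692126) (nat_lit 152) (nat_lit 20091774491) (nat_lit 0) (nat_lit 6016197134) (nat_lit 6) (nat_lit 5) (nat_lit 8) (nat_lit 4) (nat_lit 6) (nat_lit 4) (nat_lit 373) (nat_lit 220) (nat_lit 187)) (XT.nd (nat_lit 78) (nat_lit 0) (nat_lit 0) (XT.lf (nat_lit 0) (nat_lit 17234809459) (nat_lit 152) (nat_lit 15665193988) (nat_lit 0) (nat_lit 8719818098) (nat_lit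 6) (nat_lit 5) (nat_lit 8) (nat_lit 4) (nat_lit 6) (nat_lit 4) (nat_lit 374) (nat_lit 220) (nat_lit 186)) (XT.lf (nat_lit 0) (nat_lit 20136414077) (nat_lit 152) (nat_lit 11168262810) (nat_lit 0) (nat_lit 11478222359) (nat_lit 6) (nat_lit 5) (nat_lit 8) (nat_lit 4) (nat_lit 6) (nat_lit 4) (nat_lit 375) (nat_lit 220) (nat_lit 185)))) (XT.nd (nat_lit 78) (nat_lit 76) (nat_lit 0) (XT.lf (nat_lit 0) (nat_lit 23091041362) (nat_lit 152) (nat_lit 6597051599) (nat_lit 0) (nat_lit 14293820171) (nat_lit 6) (nat_lit 5) (nat_lit 8) (nat_lit 4) (nat_lit 6) (nat_lit 4) (nat_lit 376) (nat_lit 220) (nat_lit 184)) (XT.nd (nat_lit 78) (nat_lit 76) (nat_lit 0) (XT.lf (nat_lit 0) (nat_lit 26101273028) (nat_lit 152) (nat_lit 1947566093) (nat_lit 0) (nat_lit 17169071766) (nat_lit 6) (nat_lit 5) (nat_lit 8) (nat_lit 4) (nat_lit 6) (nat_lit 4) (nat_lit 377) (nat_lit 220) (nat_lit 183)) (XT.lf (nat_lit 0) (nat_lit 2839668525)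 (nat_lit 76) (nat_lit 26357367480) (nat_lit 76) (nat_lit 17294117605) (nat_lit 5) (nat_lit 4) (nat_lit 6) (nat_lit 5) (nat_lit 6) (nat_lit 4) (nat_lit 378) (nat_lit 220) (nat_lit 182)))))) (XT.nd (nat_lit 468) (nat_lit 152) (nat_lit 0) (XT.nd (nat_lit 234) (nat_lit 0) (nat_lit 0) (XT.nd (nat_lit 78) (nat_lit 0) (nat_lit 0) (XT.lf (nat_lit 0) (nat_lit 7753856035) (nat_lit 76) (nat_lit 24619800357) (nat_lit 76) (nat_lit 15429318819) (nat_lit 5) (nat_lit 4) (nat_lit 6) (nat_lit 5) (nat_lit 6) (nat_lit 4) (nat_lit 379) (nat_lit 220) (nat_lit 181)) (XT.nd (nat_lit 78) (nat_lit 0) (nat_lit 0) (XT.lf (nat_lit 0) (nat_lit 12760530004) (nat_lit 76) (nat_lit 22854286088) (nat_lit 76) (nat_lit 13540278664) (nat_lit 5) (nat_lit 4) (nat_lit 6) (nat_lit 5) (nat_lit 6) (nat_lit 4) (nat_lit 380) (nat_lit 220) (nat_lit 180)) (XT.lf (nat_lit 0) (nat_lit 17864065194) (nat_lit 76) (nat_lit 21059281991) (nat_lit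 76) (nat_lit 11625346523) (nat_lit 5) (nat_lit 4) (nat_lit 6) (nat_lit 5) (nat_lit 6) (nat_lit 4) (nat_lit 381) (nat_lit 220) (nat_lit 179)))) (XT.nd (nat_lit 78) (nat_lit 0) (nat_lit 0) (XT.lf (nat_lit 0) (nat_lit 23068921006) (nat_lit 76) (nat_lit 19233219616) (nat_lit 76) (nat_lit 9682849153) (nat_lit 5) (nat_lit 4) (nat_lit 6) (nat_lit 5) (nat_lit 6) (nat_lit 4) (nat_lit 382) (nat_lit 220) (nat_lit 178)) (XT.nd (nat_lit 78) (nat_lit 0) (nat_lit 0) (XT.lf (nat_lit 0) (nat_lit 28379645371) (nat_lit 76) (nat_lit 17374503375) (nat_lit 76) (nat_lit 7711089227) (nat_lit 5) (nat_lit 4) (nat_lit 6) (nat_lit 5) (nat_lit 6) (nat_lit 4) (nat_lit 383) (nat_lit 220) (nat_lit 177)) (XT.lf (nat_lit 0) (nat_lit 33800878728) (nat_lit 76) (nat_lit 15481509146) (nat_lit 76) (nat_lit 5708343848) (nat_lit 5) (nat_lit 4) (nat_lit 6) (nat_lit 5) (nat_lit 6) (nat_lit 4) (nat_lit 384) (nat_lit 220) (nat_lit 176)))))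 (XT.nd (nat_lit 234) (nat_lit 76) (nat_lit 0) (XT.nd (nat_lit 78) (nat_lit 76) (nat_lit 0) (XT.lf (nat_lit 0) (nat_lit 39337358078) (nat_lit 76) (nat_lit 13552582857) (nat_lit 76) (nat_lit 3672863045) (nat_lit 5) (nat_lit 4) (nat_lit 6) (nat_lit 5) (nat_lit 6) (nat_lit 4) (nat_lit 385) (nat_lit 220) (nat_lit 175)) (XT.nd (nat_lit 78) (nat_lit 76) (nat_lit 0) (XT.lf (nat_lit 0) (nat_lit 44993921121) (nat_lit 76) (nat_lit 11586039038) (nat_lit 76) (nat_lit 1602868241) (nat_lit 5) (nat_lit 4) (nat_lit 6) (nat_lit 5) (nat_lit 6) (nat_lit 4) (nat_lit 386) (nat_lit 220) (nat_lit 174)) (XT.lf (nat_lit 0) (nat_lit 493625186) (nat_lit 152) (nat_lit 9081549517) (nat_lit 76) (nat_lit 50276900651) (nat_lit 4) (nat_lit 5) (nat_lit 6) (nat_lit 5) (nat_lit 5) (nat_lit 4) (nat_lit 387) (nat_lit 220) (nat_lit 173)))) (XT.nd (nat_lit 78) (nat_lit 76) (nat_lit 0) (XT.lf (nat_lit 0) (nat_lit 2596259385) (nat_lit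 152) (nat_lit 4910714568) (nat_lit 76) (nat_lit 54064701528) (nat_lit 4) (nat_lit 5) (nat_lit 6) (nat_lit 5) (nat_lit 5) (nat_lit 4) (nat_lit 388) (nat_lit 220) (nat_lit 172)) (XT.nd (nat_lit 78) (nat_lit 76) (nat_lit 0) (XT.lf (nat_lit 0) (nat_lit 4738149341) (nat_lit 152) (nat_lit 657350264) (nat_lit 76) (nat_lit 57948093971) (nat_lit 4) (nat_lit 5) (nat_lit 6) (nat_lit 5) (nat_lit 5) (nat_lit 4) (nat_lit 389) (nat_lit 220) (nat_lit 171)) (XT.lf (nat_lit 0) (nat_lit 3755544119) (nat_lit 76) (nat_lit 3201723076) (nat_lit 152) (nat_lit 58211027705) (nat_lit 3) (nat_lit 5) (nat_lit 4) (nat_lit 5) (nat_lit 5) (nat_lit 4) (nat_lit 390) (nat_lit 220) (nat_lit 170))))))))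
noncomputable def xc23 : XT := (XT.nd (nat_lit 37284) (nat_lit 0) (nat_lit 228) (XT.nd (nat_lit 858) (nat_lit 0) (nat_lit 0) (XT.nd (nat_lit 390) (nat_lit 0) (nat_lit 0) (XT.nd (nat_lit 156) (nat_lit 0) (nat_lit 0) (XT.nd (nat_lit 78) (nat_lit 0) (nat_lit 0) (XT.lf (nat_lit 0) (nat_lit 8273350771) (nat_lit 76) (nat_lit 953396414) (nat_lit 152) (nat_lit 57821490809) (nat_lit 3) (nat_lit 5) (nat_lit 4) (nat_lit 5) (nat_lit 5) (nat_lit 4) (nat_lit 391) (nat_lit 220) (nat_lit 169)) (XT.lf (nat_lit 0) (nat_lit 11555054849) (nat_lit 152) (nat_lit 56111251247) (nat_lit 0) (nat_lit 1318564958) (nat_lit 3) (nat_lit 5) (nat_lit 5) (nat_lit 4) (nat_lit 3) (nat_lit 4) (nat_lit 392) (nat_lit 220) (nat_lit 168))) (XT.nd (nat_lit 78) (nat_lit 0) (nat_lit 0) (XT.lf (nat_lit 0) (nat_lit 13940949605) (nat_lit 152) (nat_lit 53416240378) (nat_lit 0) (nat_lit 3622794552) (nat_lit 3) (nat_lit 5) (nat_lit 5) (nat_lit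 4) (nat_lit 3) (nat_lit 4) (nat_lit 393) (nat_lit 220) (nat_lit 167)) (XT.nd (nat_lit 78) (nat_lit 0) (nat_lit 0) (XT.lf (nat_lit 0) (nat_lit 16377351587) (nat_lit 152) (nat_lit 50678335121) (nat_lit 0) (nat_lit 5979909968) (nat_lit 3) (nat_lit 5) (nat_lit 5) (nat_lit 4) (nat_lit 3) (nat_lit 4) (nat_lit 394) (nat_lit 220) (nat_lit 166)) (XT.lf (nat_lit 0) (nat_lit 18866389690) (nat_lit 152) (nat_lit 47895143134) (nat_lit 0) (nat_lit 8391970822) (nat_lit 3) (nat_lit 5) (nat_lit 5) (nat_lit 4) (nat_lit 3) (nat_lit 4) (nat_lit 395) (nat_lit 220) (nat_lit 165))))) (XT.nd (nat_lit 234) (nat_lit 0) (nat_lit 0) (XT.nd (nat_lit 78) (nat_lit 0) (nat_lit 0) (XT.lf (nat_lit 0) (nat_lit 21410238801) (nat_lit 152) (nat_lit 45064232500) (nat_lit 0) (nat_lit 10861084740) (nat_lit 3) (nat_lit 5) (nat_lit 5) (nat_lit 4) (nat_lit 3) (nat_lit 4) (nat_lit 396) (nat_lit 220) (nat_lit 164)) (XT.nd (nat_lit 78) (nat_lit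 0) (nat_lit 0) (XT.lf (nat_lit 0) (nat_lit 24011121701) (nat_lit 152) (nat_lit 42183129608) (nat_lit 0) (nat_lit 13389409201) (nat_lit 3) (nat_lit 5) (nat_lit 5) (nat_lit 4) (nat_lit 3) (nat_lit 4) (nat_lit 397) (nat_lit 220) (nat_lit 163)) (XT.lf (nat_lit 0) (nat_lit 26671311006) (nat_lit 152) (nat_lit 39249316991) (nat_lit 0) (nat_lit 15979153419) (nat_lit 3) (nat_lit 5) (nat_lit 5) (nat_lit 4) (nat_lit 3) (nat_lit 4) (nat_lit 398) (nat_lit 220) (nat_lit 162)))) (XT.nd (nat_lit 78) (nat_lit 0) (nat_lit 0) (XT.lf (nat_lit 0) (nat_lit 29393131153) (nat_lit 152) (nat_lit 36260231122) (nat_lit 0) (nat_lit 18632580278) (nat_lit 3) (nat_lit 5) (nat_lit 5) (nat_lit 4) (nat_lit 3) (nat_lit 4) (nat_lit 399) (nat_lit 220) (nat_lit 161)) (XT.nd (nat_lit 78) (nat_lit 0) (nat_lit 0) (XT.lf (nat_lit 0) (nat_lit 32178960433) (nat_lit 152) (nat_lit 33213260178) (nat_lit 0) (nat_lit 21352008307) (nat_lit 3)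 (nat_lit 5) (nat_lit 5) (nat_lit 4) (nat_lit 3) (nat_lit 4) (nat_lit 400) (nat_lit 220) (nat_lit 160)) (XT.lf (nat_lit 0) (nat_lit 35031233064) (nat_lit 152) (nat_lit 30105741759) (nat_lit 0) (nat_lit 24139813704) (nat_lit 3) (nat_lit 5) (nat_lit 5) (nat_lit 4) (nat_lit 3) (nat_lit 4) (nat_lit 401) (nat_lit 220) (nat_lit 159)))))) (XT.nd (nat_lit 35958) (nat_lit 0) (nat_lit 836) (XT.nd (nat_lit 35724) (nat_lit 0) (nat_lit 1140) (XT.nd (nat_lit 78) (nat_lit 0) (nat_lit 0) (XT.lf (nat_lit 0) (nat_lit 37952441323) (nat_lit 152) (nat_lit 26934960556) (nat_lit 0) (nat_lit 26998432417) (nat_lit 3) (nat_lit 5) (nat_lit 5) (nat_lit 4) (nat_lit 3) (nat_lit 4) (nat_lit 402) (nat_lit 220) (nat_lit 158)) (XT.nd (nat_lit 35568) (nat_lit 0) (nat_lit 1292) (XT.lf (nat_lit 0) (nat_lit 40945137724) (nat_lit 152) (nat_lit 23698145984) (nat_lit 0) (nat_lit 29930362267) (nat_lit 3) (nat_lit 5) (nat_lit 5) (nat_lit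 4) (nat_lit 3) (nat_lit 4) (nat_lit 403) (nat_lit 220) (nat_lit 157)) (XT.lf (nat_lit 0) (nat_lit 452827763) (nat_lit 152) (nat_lit 7450485102) (nat_lit 0) (nat_lit 452827763) (nat_lit 20) (nat_lit 5) (nat_lit 22) (nat_lit 4) (nat_lit 20) (nat_lit 4) (nat_lit 338) (nat_lit 221) (nat_lit 221)))) (XT.nd (nat_lit 78) (nat_lit 152) (nat_lit 0) (XT.lf (nat_lit 0) (nat_lit 4501229567) (nat_lit 152) (nat_lit 8539859252) (nat_lit 0) (nat_lit 4047710172) (nat_lit 20) (nat_lit 5) (nat_lit 22) (nat_lit 4) (nat_lit 20) (nat_lit 4) (nat_lit 339) (nat_lit 221) (nat_lit 220)) (XT.nd (nat_lit 78) (nat_lit 152) (nat_lit 0) (XT.lf (nat_lit 0) (nat_lit 8126695152) (nat_lit 152) (nat_lit 2119463841) (nat_lit 0) (nat_lit 7232865664) (nat_lit 20) (nat_lit 5) (nat_lit 22) (nat_lit 4) (nat_lit 20) (nat_lit 4) (nat_lit 340) (nat_lit 221) (nat_lit 219)) (XT.lf (nat_lit 0) (nat_lit 4452714582) (nat_lit 152) (nat_lit 7375307798)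 (nat_lit 152) (nat_lit 6053992783) (nat_lit 18) (nat_lit 4) (nat_lit 20) (nat_lit 5) (nat_lit 20) (nat_lit 4) (nat_lit 341) (nat_lit 221) (nat_lit 218))))) (XT.nd (nat_lit 234) (nat_lit 152) (nat_lit 0) (XT.nd (nat_lit 78) (nat_lit 152) (nat_lit 0) (XT.lf (nat_lit 0) (nat_lit 11139040070) (nat_lit 152) (nat_lit 4448036570) (nat_lit 152) (nat_lit 2711687063) (nat_lit 18) (nat_lit 4) (nat_lit 20) (nat_lit 5) (nat_lit 20) (nat_lit 4) (nat_lit 342) (nat_lit 221) (nat_lit 217)) (XT.nd (nat_lit 78) (nat_lit 76) (nat_lit 0) (XT.lf (nat_lit 0) (nat_lit 643302703) (nat_lit 228) (nat_lit 833391127) (nat_lit 76) (nat_lit 17253374757) (nat_lit 17) (nat_lit 5) (nat_lit 20) (nat_lit 5) (nat_lit 18) (nat_lit 4) (nat_lit 343) (nat_lit 221) (nat_lit 216)) (XT.lf (nat_lit 0) (nat_lit 4043070988) (nat_lit 152) (nat_lit 13544270732) (nat_lit 0) (nat_lit 1586269600) (nat_lit 16) (nat_lit 5) (nat_lit 18) (nat_lit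 4) (nat_lit 16) (nat_lit 4) (nat_lit 344) (nat_lit 221) (nat_lit 215)))) (XT.nd (nat_lit 78) (nat_lit 152) (nat_lit 0) (XT.lf (nat_lit 0) (nat_lit 7497216103) (nat_lit 152) (nat_lit 7463072021) (nat_lit 0) (nat_lit 4671661944) (nat_lit 16) (nat_lit 5) (nat_lit 18) (nat_lit 4) (nat_lit 16) (nat_lit 4) (nat_lit 345) (nat_lit 221) (nat_lit 214)) (XT.nd (nat_lit 78) (nat_lit 152) (nat_lit 0) (XT.lf (nat_lit 0) (nat_lit 10986309950) (nat_lit 152) (nat_lit 1317105367) (nat_lit 0) (nat_lit 7802743392) (nat_lit 16) (nat_lit 5) (nat_lit 18) (nat_lit 4) (nat_lit 16) (nat_lit 4) (nat_lit 346) (nat_lit 221) (nat_lit 213)) (XT.lf (nat_lit 0) (nat_lit 4996499187) (nat_lit 152) (nat_lit 9564931471) (nat_lit 152) (nat_lit 6033780060) (nat_lit 14) (nat_lit 4) (nat_lit 16) (nat_lit 5) (nat_lit 16) (nat_lit 4) (nat_lit 347) (nat_lit 221) (nat_lit 212))))))) (XT.nd (nat_lit 936) (nat_lit 228) (nat_lit 0) (XT.nd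 (nat_lit 468) (nat_lit 228) (nat_lit 0) (XT.nd (nat_lit 234) (nat_lit 0) (nat_lit 0) (XT.nd (nat_lit 78) (nat_lit 152) (nat_lit 0) (XT.lf (nat_lit 0) (nat_lit 11413390461) (nat_lit 152) (nat_lit 6777893964) (nat_lit 152) (nat_lit 2909281530) (nat_lit 14) (nat_lit 4) (nat_lit 16) (nat_lit 5) (nat_lit 16) (nat_lit 4) (nat_lit 348) (nat_lit 221) (nat_lit 211)) (XT.nd (nat_lit 78) (nat_lit 76) (nat_lit 0) (XT.lf (nat_lit 0) (nat_lit 238333489) (nat_lit 228) (nat_lit 3712427511) (nat_lit 76) (nat_lit 17672222277) (nat_lit 13) (nat_lit 5) (nat_lit 16) (nat_lit 5) (nat_lit 14) (nat_lit 4) (nat_lit 349) (nat_lit 221) (nat_lit 210)) (XT.lf (nat_lit 0) (nat_lit 2350702308) (nat_lit 76) (nat_lit 1031088914) (nat_lit 152) (nat_lit 18779672407) (nat_lit 12) (nat_lit 5) (nat_lit 13) (nat_lit 5) (nat_lit 14) (nat_lit 4) (nat_lit 350) (nat_lit 221) (nat_lit 209)))) (XT.nd (nat_lit 78) (nat_lit 0) (nat_lit 0)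 (XT.lf (nat_lit 0) (nat_lit 6614066837) (nat_lit 152) (nat_lit 14170857260) (nat_lit 0) (nat_lit 1931388669) (nat_lit 12) (nat_lit 5) (nat_lit 14) (nat_lit 4) (nat_lit 12) (nat_lit 4) (nat_lit 351) (nat_lit 221) (nat_lit 208)) (XT.nd (nat_lit 78) (nat_lit 0) (nat_lit 0) (XT.lf (nat_lit 0) (nat_lit 9892993846) (nat_lit 152) (nat_lit 8477152552) (nat_lit 0) (nat_lit 4919218835) (nat_lit 12) (nat_lit 5) (nat_lit 14) (nat_lit 4) (nat_lit 12) (nat_lit 4) (nat_lit 352) (nat_lit 221) (nat_lit 207)) (XT.lf (nat_lit 0) (nat_lit 13211525872) (nat_lit 152) (nat_lit 2714760659) (nat_lit 0) (nat_lit 7955132567) (nat_lit 12) (nat_lit 5) (nat_lit 14) (nat_lit 4) (nat_lit 12) (nat_lit 4) (nat_lit 353) (nat_lit 221) (nat_lit 206))))) (XT.nd (nat_lit 234) (nat_lit 152) (nat_lit 0) (XT.nd (nat_lit 78) (nat_lit 0) (nat_lit 0) (XT.lf (nat_lit 0) (nat_lit 3183474575) (nat_lit 76) (nat_lit 13419689533) (nat_lit 76)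 (nat_lit 7888909536) (nat_lit 11) (nat_lit 4) (nat_lit 12) (nat_lit 5) (nat_lit 12) (nat_lit 4) (nat_lit 354) (nat_lit 221) (nat_lit 205)) (XT.nd (nat_lit 78) (nat_lit 0) (nat_lit 0) (XT.lf (nat_lit 0) (nat_lit 9216129382) (nat_lit 76) (nat_lit 10851502561) (nat_lit 76) (nat_lit 5054327716) (nat_lit 11) (nat_lit 4) (nat_lit 12) (nat_lit 5) (nat_lit 12) (nat_lit 4) (nat_lit 355) (nat_lit 221) (nat_lit 204)) (XT.lf (nat_lit 0) (nat_lit 15334445951) (nat_lit 76) (nat_lit 8246895327) (nat_lit 76) (nat_lit 2191084709) (nat_lit 11) (nat_lit 4) (nat_lit 12) (nat_lit 5) (nat_lit 12) (nat_lit 4) (nat_lit 356) (nat_lit 221) (nat_lit 203)))) (XT.nd (nat_lit 78) (nat_lit 76) (nat_lit 0) (XT.lf (nat_lit 0) (nat_lit 689597016) (nat_lit 152) (nat_lit 4907031367) (nat_lit 76) (nat_lit 20847209791) (nat_lit 10) (nat_lit 5) (nat_lit 12) (nat_lit 5) (nat_lit 11) (nat_lit 4) (nat_lit 357) (nat_lit 221) (nat_lit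 202)) (XT.nd (nat_lit 78) (nat_lit 0) (nat_lit 0) (XT.lf (nat_lit 0) (nat_lit 690707534) (nat_lit 76) (nat_lit 2876489445) (nat_lit 152) (nat_lit 23568948151) (nat_lit 9) (nat_lit 5) (nat_lit 10) (nat_lit 5) (nat_lit 11) (nat_lit 4) (nat_lit 358) (nat_lit 221) (nat_lit 201)) (XT.lf (nat_lit 0) (nat_lit 6466936823) (nat_lit 76) (nat_lit 62288560) (nat_lit 152) (nat_lit 21320091064) (nat_lit 9) (nat_lit 5) (nat_lit 10) (nat_lit 5) (nat_lit 11) (nat_lit 4) (nat_lit 359) (nat_lit 221) (nat_lit 200)))))) (XT.nd (nat_lit 468) (nat_lit 152) (nat_lit 0) (XT.nd (nat_lit 234) (nat_lit 76) (nat_lit 0) (XT.nd (nat_lit 78) (nat_lit 0) (nat_lit 0) (XT.lf (nat_lit 0) (nat_lit 9557066823) (nat_lit 152) (nat_lit 16283278953) (nat_lit 0) (nat_lit 2744265618) (nat_lit 9) (nat_lit 5) (nat_lit 11) (nat_lit 4) (nat_lit 9) (nat_lit 4) (nat_lit 360) (nat_lit 221) (nat_lit 199)) (XT.nd (nat_lit 78) (nat_lit 0) (nat_lit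 0) (XT.lf (nat_lit 0) (nat_lit 12627513199) (nat_lit 152) (nat_lit 11117826271) (nat_lit 0) (nat_lit 5598108605) (nat_lit 9) (nat_lit 5) (nat_lit 11) (nat_lit 4) (nat_lit 9) (nat_lit 4) (nat_lit 361) (nat_lit 221) (nat_lit 198)) (XT.lf (nat_lit 0) (nat_lit 15742648670) (nat_lit 152) (nat_lit 5880909320) (nat_lit 0) (nat_lit 8502949523) (nat_lit 9) (nat_lit 5) (nat_lit 11) (nat_lit 4) (nat_lit 9) (nat_lit 4) (nat_lit 362) (nat_lit 221) (nat_lit 197)))) (XT.nd (nat_lit 78) (nat_lit 76) (nat_lit 0) (XT.lf (nat_lit 0) (nat_lit 18905195198) (nat_lit 152) (nat_lit 567952152) (nat_lit 0) (nat_lit 11461326583) (nat_lit 9) (nat_lit 5) (nat_lit 11) (nat_lit 4) (nat_lit 9) (nat_lit 4) (nat_lit 363) (nat_lit 221) (nat_lit 196)) (XT.nd (nat_lit 78) (nat_lit 0) (nat_lit 0) (XT.lf (nat_lit 0) (nat_lit 4921728265) (nat_lit 76) (nat_lit 17243498572) (nat_lit 76) (nat_lit 9601407172) (nat_lit 8) (nat_lit 4) (nat_lit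 9) (nat_lit 5) (nat_lit 9) (nat_lit 4) (nat_lit 364) (nat_lit 221) (nat_lit 195)) (XT.lf (nat_lit 0) (nat_lit 10509807077) (nat_lit 76) (nat_lit 14974838448) (nat_lit 76) (nat_lit 7140297743) (nat_lit 8) (nat_lit 4) (nat_lit 9) (nat_lit 5) (nat_lit 9) (nat_lit 4) (nat_lit 365) (nat_lit 221) (nat_lit 194))))) (XT.nd (nat_lit 234) (nat_lit 76) (nat_lit 0) (XT.nd (nat_lit 78) (nat_lit 76) (nat_lit 0) (XT.lf (nat_lit 0) (nat_lit 16189863709) (nat_lit 76) (nat_lit 12670919859) (nat_lit 76) (nat_lit 4649535167) (nat_lit 8) (nat_lit 4) (nat_lit 9) (nat_lit 5) (nat_lit 9) (nat_lit 4) (nat_lit 366) (nat_lit 221) (nat_lit 193)) (XT.nd (nat_lit 78) (nat_lit 76) (nat_lit 0) (XT.lf (nat_lit 0) (nat_lit 21966861317) (nat_lit 76) (nat_lit 10329729670) (nat_lit 76) (nat_lit 2126943050) (nat_lit 8) (nat_lit 4) (nat_lit 9) (nat_lit 5) (nat_lit 9) (nat_lit 4) (nat_lit 367) (nat_lit 221) (nat_lit 192)) (XT.lf (nat_lit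 0) (nat_lit 421298155) (nat_lit 152) (nat_lit 7523669742) (nat_lit 76) (nat_lit 27420295323) (nat_lit 7) (nat_lit 5) (nat_lit 9) (nat_lit 5) (nat_lit 8) (nat_lit 4) (nat_lit 368) (nat_lit 221) (nat_lit 191)))) (XT.nd (nat_lit 78) (nat_lit 76) (nat_lit 0) (XT.lf (nat_lit 0) (nat_lit 2963595020) (nat_lit 152) (nat_lit 2533795821) (nat_lit 76) (nat_lit 30838438507) (nat_lit 7) (nat_lit 5) (nat_lit 9) (nat_lit 5) (nat_lit 8) (nat_lit 4) (nat_lit 369) (nat_lit 221) (nat_lit 190)) (XT.nd (nat_lit 78) (nat_lit 0) (nat_lit 0) (XT.lf (nat_lit 0) (nat_lit 2588260894) (nat_lit 76) (nat_lit 2980292341) (nat_lit 152) (nat_lit 31767394222) (nat_lit 6) (nat_lit 5) (nat_lit 7) (nat_lit 5) (nat_lit 8) (nat_lit 4) (nat_lit 370) (nat_lit 221) (nat_lit 189)) (XT.lf (nat_lit 0) (nat_lit 7848566788) (nat_lit 76) (nat_lit 390665835) (nat_lit 152) (nat_lit 30127235303) (nat_lit 6) (nat_lit 5) (nat_lit 7) (nat_lit 5)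 (nat_lit 8) (nat_lit 4) (nat_lit 371) (nat_lit 221) (nat_lit 188))))))))
noncomputable def xc24 : XT := (XT.nd (nat_lit 1794) (nat_lit 0) (nat_lit 0) (XT.nd (nat_lit 858) (nat_lit 152) (nat_lit 0) (XT.nd (nat_lit 390) (nat_lit 76) (nat_lit 0) (XT.nd (nat_lit 156) (nat_lit 0) (nat_lit 0) (XT.nd (nat_lit 78) (nat_lit 0) (nat_lit 0) (XT.lf (nat_lit 0) (nat_lit 10974736389) (nat_lit 152) (nat_lit 26249356444) (nat_lit 0) (nat_lit 2204295288) (nat_lit 6) (nat_lit 5) (nat_lit 8) (nat_lit 4) (nat_lit 6) (nat_lit 4) (nat_lit 372) (nat_lit 221) (nat_lit 187)) (XT.lf (nat_lit 0) (nat_lit 13760075625) (nat_lit 152) (nat_lit 21920943529) (nat_lit 0) (nat_lit 4842138155) (nat_lit 6) (nat_lit 5) (nat_lit 8) (nat_lit 4) (nat_lit 6) (nat_lit 4) (nat_lit 373) (nat_lit 221) (nat_lit 186))) (XT.nd (nat_lit 78) (nat_lit 0) (nat_lit 0) (XT.lf (nat_lit 0) (nat_lit 16593928803) (nat_lit 152) (nat_lit 17525124967) (nat_lit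 0) (nat_lit 7532790976) (nat_lit 6) (nat_lit 5) (nat_lit 8) (nat_lit 4) (nat_lit 6) (nat_lit 4) (nat_lit 374) (nat_lit 221) (nat_lit 185)) (XT.nd (nat_lit 78) (nat_lit 0) (nat_lit 0) (XT.lf (nat_lit 0) (nat_lit 19478772105) (nat_lit 152) (nat_lit 13058059751) (nat_lit 0) (nat_lit 10278604804) (nat_lit 6) (nat_lit 5) (nat_lit 8) (nat_lit 4) (nat_lit 6) (nat_lit 4) (nat_lit 375) (nat_lit 221) (nat_lit 184)) (XT.lf (nat_lit 0) (nat_lit 22417126268) (nat_lit 152) (nat_lit 8515844620) (nat_lit 0) (nat_lit 13081978897) (nat_lit 6) (nat_lit 5) (nat_lit 8) (nat_lit 4) (nat_lit 6) (nat_lit 4) (nat_lit 376) (nat_lit 221) (nat_lit 183))))) (XT.nd (nat_lit 234) (nat_lit 0) (nat_lit 0) (XT.nd (nat_lit 78) (nat_lit 76) (nat_lit 0) (XT.lf (nat_lit 0) (nat_lit 25411558786) (nat_lit 152) (nat_lit 3894510648) (nat_lit 0) (nat_lit 15945362802) (nat_lit 6) (nat_lit 5) (nat_lit 8) (nat_lit 4) (nat_lit 6) (nat_lit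 4) (nat_lit 377) (nat_lit 221) (nat_lit 182)) (XT.nd (nat_lit 78) (nat_lit 0) (nat_lit 0) (XT.lf (nat_lit 0) (nat_lit 826100418) (nat_lit 76) (nat_lit 27646526718) (nat_lit 76) (nat_lit 18053099072) (nat_lit 5) (nat_lit 4) (nat_lit 6) (nat_lit 5) (nat_lit 6) (nat_lit 4) (nat_lit 378) (nat_lit 221) (nat_lit 181)) (XT.lf (nat_lit 0) (nat_lit 5713224299) (nat_lit 76) (nat_lit 25920870860) (nat_lit 76) (nat_lit 16203917328) (nat_lit 5) (nat_lit 4) (nat_lit 6) (nat_lit 5) (nat_lit 6) (nat_lit 4) (nat_lit 379) (nat_lit 221) (nat_lit 180)))) (XT.nd (nat_lit 78) (nat_lit 0) (nat_lit 0) (XT.lf (nat_lit 0) (nat_lit 10693622899) (nat_lit 76) (nat_lit 24166920926) (nat_lit 76) (nat_lit 14330039349) (nat_lit 5) (nat_lit 4) (nat_lit 6) (nat_lit 5) (nat_lit 6) (nat_lit 4) (nat_lit 380) (nat_lit 221) (nat_lit 179)) (XT.nd (nat_lit 78) (nat_lit 0) (nat_lit 0) (XT.lf (nat_lit 0) (nat_lit 15771648024) (nat_lit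 76) (nat_lit 22383144339) (nat_lit 76) (nat_lit 12429827767) (nat_lit 5) (nat_lit 4) (nat_lit 6) (nat_lit 5) (nat_lit 6) (nat_lit 4) (nat_lit 381) (nat_lit 221) (nat_lit 178)) (XT.lf (nat_lit 0) (nat_lit 20951736781) (nat_lit 76) (nat_lit 20567982459) (nat_lit 76) (nat_lit 10501622203) (nat_lit 5) (nat_lit 4) (nat_lit 6) (nat_lit 5) (nat_lit 6) (nat_lit 4) (nat_lit 382) (nat_lit 221) (nat_lit 177)))))) (XT.nd (nat_lit 468) (nat_lit 76) (nat_lit 0) (XT.nd (nat_lit 234) (nat_lit 76) (nat_lit 0) (XT.nd (nat_lit 78) (nat_lit 0) (nat_lit 0) (XT.lf (nat_lit 0) (nat_lit 26238415462) (nat_lit 76) (nat_lit 18719849223) (nat_lit 76) (nat_lit 8543737816) (nat_lit 5) (nat_lit 4) (nat_lit 6) (nat_lit 5) (nat_lit 6) (nat_lit 4) (nat_lit 383) (nat_lit 221) (nat_lit 176)) (XT.nd (nat_lit 78) (nat_lit 0) (nat_lit 0) (XT.lf (nat_lit 0) (nat_lit 31636303495) (nat_lit 76) (nat_lit 16837129756) (nat_lit 76) (nat_lit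 6554463835) (nat_lit 5) (nat_lit 4) (nat_lit 6) (nat_lit 5) (nat_lit 6) (nat_lit 4) (nat_lit 384) (nat_lit 221) (nat_lit 175)) (XT.lf (nat_lit 0) (nat_lit 37150117481) (nat_lit 76) (nat_lit 14918178964) (nat_lit 76) (nat_lit 4532062058) (nat_lit 5) (nat_lit 4) (nat_lit 6) (nat_lit 5) (nat_lit 6) (nat_lit 4) (nat_lit 385) (nat_lit 221) (nat_lit 174)))) (XT.nd (nat_lit 78) (nat_lit 76) (nat_lit 0) (XT.lf (nat_lit 0) (nat_lit 42784675317) (nat_lit 76) (nat_lit 12961320093) (nat_lit 76) (nat_lit 2474765338) (nat_lit 5) (nat_lit 4) (nat_lit 6) (nat_lit 5) (nat_lit 6) (nat_lit 4) (nat_lit 386) (nat_lit 221) (nat_lit 173)) (XT.nd (nat_lit 78) (nat_lit 76) (nat_lit 0) (XT.lf (nat_lit 0) (nat_lit 48544900401) (nat_lit 76) (nat_lit 10964843268) (nat_lit 76) (nat_lit 380776038) (nat_lit 5) (nat_lit 4) (nat_lit 6) (nat_lit 5) (nat_lit 6) (nat_lit 4) (nat_lit 387) (nat_lit 221) (nat_lit 172)) (XT.lf (nat_lit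 0) (nat_lit 1717552872) (nat_lit 152) (nat_lit 7192107205) (nat_lit 76) (nat_lit 52700929153) (nat_lit 4) (nat_lit 5) (nat_lit 6) (nat_lit 5) (nat_lit 5) (nat_lit 4) (nat_lit 388) (nat_lit 221) (nat_lit 171))))) (XT.nd (nat_lit 234) (nat_lit 0) (nat_lit 0) (XT.nd (nat_lit 78) (nat_lit 76) (nat_lit 0) (XT.lf (nat_lit 0) (nat_lit 3848049041) (nat_lit 152) (nat_lit 2959114843) (nat_lit 76) (nat_lit 56575692556) (nat_lit 4) (nat_lit 5) (nat_lit 6) (nat_lit 5) (nat_lit 5) (nat_lit 4) (nat_lit 389) (nat_lit 221) (nat_lit 170)) (XT.nd (nat_lit 78) (nat_lit 0) (nat_lit 0) (XT.lf (nat_lit 0) (nat_lit 1387797695) (nat_lit 76) (nat_lit 4645547043) (nat_lit 152) (nat_lit 59175234778) (nat_lit 3) (nat_lit 5) (nat_lit 4) (nat_lit 5) (nat_lit 5) (nat_lit 4) (nat_lit 390) (nat_lit 221) (nat_lit 169)) (XT.lf (nat_lit 0) (nat_lit 5886019670) (nat_lit 76) (nat_lit 2405877061) (nat_lit 152) (nat_lit 58796960602)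 (nat_lit 3) (nat_lit 5) (nat_lit 4) (nat_lit 5) (nat_lit 5) (nat_lit 4) (nat_lit 391) (nat_lit 221) (nat_lit 168)))) (XT.nd (nat_lit 78) (nat_lit 0) (nat_lit 0) (XT.lf (nat_lit 0) (nat_lit 10480589379) (nat_lit 76) (nat_lit 116078203) (nat_lit 152) (nat_lit 58429535598) (nat_lit 3) (nat_lit 5) (nat_lit 4) (nat_lit 5) (nat_lit 5) (nat_lit 4) (nat_lit 392) (nat_lit 221) (nat_lit 167)) (XT.nd (nat_lit 78) (nat_lit 0) (nat_lit 0) (XT.lf (nat_lit 0) (nat_lit 12971067402) (nat_lit 152) (nat_lit 55868184624) (nat_lit 0) (nat_lit 2182415968) (nat_lit 3) (nat_lit 5) (nat_lit 5) (nat_lit 4) (nat_lit 3) (nat_lit 4) (nat_lit 393) (nat_lit 221) (nat_lit 166)) (XT.lf (nat_lit 0) (nat_lit 15397392567) (nat_lit 152) (nat_lit 53148432287) (nat_lit 0) (nat_lit 4531763885) (nat_lit 3) (nat_lit 5) (nat_lit 5) (nat_lit 4) (nat_lit 3) (nat_lit 4) (nat_lit 394) (nat_lit 221) (nat_lit 165))))))) (XT.nd (nat_lit 36192)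 (nat_lit 0) (nat_lit 760) (XT.nd (nat_lit 390) (nat_lit 0) (nat_lit 0) (XT.nd (nat_lit 156) (nat_lit 0) (nat_lit 0) (XT.nd (nat_lit 78) (nat_lit 0) (nat_lit 0) (XT.lf (nat_lit 0) (nat_lit 17876647352) (nat_lit 152) (nat_lit 50382864494) (nat_lit 0) (nat_lit 6936283477) (nat_lit 3) (nat_lit 5) (nat_lit 5) (nat_lit 4) (nat_lit 3) (nat_lit 4) (nat_lit 395) (nat_lit 221) (nat_lit 164)) (XT.lf (nat_lit 0) (nat_lit 20410998096) (nat_lit 152) (nat_lit 47569064728) (nat_lit 0) (nat_lit 9398075782) (nat_lit 3) (nat_lit 5) (nat_lit 5) (nat_lit 4) (nat_lit 3) (nat_lit 4) (nat_lit 396) (nat_lit 221) (nat_lit 163))) (XT.nd (nat_lit 78) (nat_lit 0) (nat_lit 0) (XT.lf (nat_lit 0) (nat_lit 23002659281) (nat_lit 152) (nat_lit 44704574329) (nat_lit 0) (nat_lit 11919291880) (nat_lit 3) (nat_lit 5) (nat_lit 5) (nat_lit 4) (nat_lit 3) (nat_lit 4) (nat_lit 397) (nat_lit 221) (nat_lit 162)) (XT.nd (nat_lit 78) (nat_lit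 0) (nat_lit 0) (XT.lf (nat_lit 0) (nat_lit 25653895464) (nat_lit 152) (nat_lit 41786890346) (nat_lit 0) (nat_lit 14502134775) (nat_lit 3) (nat_lit 5) (nat_lit 5) (nat_lit 4) (nat_lit 3) (nat_lit 4) (nat_lit 398) (nat_lit 221) (nat_lit 161)) (XT.lf (nat_lit 0) (nat_lit 28367023261) (nat_lit 152) (nat_lit 38813463344) (nat_lit 0) (nat_lit 17148861321) (nat_lit 3) (nat_lit 5) (nat_lit 5) (nat_lit 4) (nat_lit 3) (nat_lit 4) (nat_lit 399) (nat_lit 221) (nat_lit 160))))) (XT.nd (nat_lit 234) (nat_lit 0) (nat_lit 0) (XT.nd (nat_lit 78) (nat_lit 0) (nat_lit 0) (XT.lf (nat_lit 0) (nat_lit 31144413365) (nat_lit 152) (nat_lit 35781695185) (nat_lit 0) (nat_lit 19861784191) (nat_lit 3) (nat_lit 5) (nat_lit 5) (nat_lit 4) (nat_lit 3) (nat_lit 4) (nat_lit 400) (nat_lit 221) (nat_lit 159)) (XT.nd (nat_lit 78) (nat_lit 0) (nat_lit 0) (XT.lf (nat_lit 0) (nat_lit 33988492621) (nat_lit 152) (nat_lit 32688936750)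 (nat_lit 0) (nat_lit 22643273900) (nat_lit 3) (nat_lit 5) (nat_lit 5) (nat_lit 4) (nat_lit 3) (nat_lit 4) (nat_lit 401) (nat_lit 221) (nat_lit 158)) (XT.lf (nat_lit 0) (nat_lit 36901746148) (nat_lit 152) (nat_lit 29532485630) (nat_lit 0) (nat_lit 25495760877) (nat_lit 3) (nat_lit 5) (nat_lit 5) (nat_lit 4) (nat_lit 3) (nat_lit 4) (nat_lit 402) (nat_lit 221) (nat_lit 157)))) (XT.nd (nat_lit 35412) (nat_lit 0) (nat_lit 1444) (XT.lf (nat_lit 0) (nat_lit 39886719507) (nat_lit 152) (nat_lit 26309583759) (nat_lit 0) (nat_lit 28421737585) (nat_lit 3) (nat_lit 5) (nat_lit 5) (nat_lit 4) (nat_lit 3) (nat_lit 4) (nat_lit 403) (nat_lit 221) (nat_lit 156)) (XT.nd (nat_lit 78) (nat_lit 0) (nat_lit 0) (XT.lf (nat_lit 0) (nat_lit 2350999310) (nat_lit 152) (nat_lit 2822299287) (nat_lit 152) (nat_lit 2822299287) (nat_lit 22) (nat_lit 4) (nat_lit 24) (nat_lit 5) (nat_lit 24) (nat_lit 4) (nat_lit 336) (nat_lit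 222) (nat_lit 222)) (XT.lf (nat_lit 0) (nat_lit 11534752584) (nat_lit 152) (nat_lit 2646355937) (nat_lit 152) (nat_lit 2165217210) (nat_lit 22) (nat_lit 4) (nat_lit 24) (nat_lit 5) (nat_lit 24) (nat_lit 4) (nat_lit 337) (nat_lit 222) (nat_lit 221)))))) (XT.nd (nat_lit 468) (nat_lit 304) (nat_lit 0) (XT.nd (nat_lit 234) (nat_lit 228) (nat_lit 0) (XT.nd (nat_lit 78) (nat_lit 0) (nat_lit 0) (XT.lf (nat_lit 0) (nat_lit 1333216491) (nat_lit 152) (nat_lit 14967716677) (nat_lit 0) (nat_lit 412572118) (nat_lit 20) (nat_lit 5) (nat_lit 22) (nat_lit 4) (nat_lit 20) (nat_lit 4) (nat_lit 338) (nat_lit 222) (nat_lit 220)) (XT.nd (nat_lit 78) (nat_lit 0) (nat_lit 0) (XT.lf (nat_lit 0) (nat_lit 4890378868) (nat_lit 152) (nat_lit 8671408123) (nat_lit 0) (nat_lit 3529424402) (nat_lit 20) (nat_lit 5) (nat_lit 22) (nat_lit 4) (nat_lit 20) (nat_lit 4) (nat_lit 339) (nat_lit 222) (nat_lit 219)) (XT.lf (nat_lit 0)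 (nat_lit 8478551576) (nat_lit 152) (nat_lit 2313927662) (nat_lit 0) (nat_lit 6690111583) (nat_lit 20) (nat_lit 5) (nat_lit 22) (nat_lit 4) (nat_lit 20) (nat_lit 4) (nat_lit 340) (nat_lit 222) (nat_lit 218)))) (XT.nd (nat_lit 78) (nat_lit 76) (nat_lit 0) (XT.lf (nat_lit 0) (nat_lit 4192082412) (nat_lit 152) (nat_lit 7949084359) (nat_lit 152) (nat_lit 5745609875) (nat_lit 18) (nat_lit 4) (nat_lit 20) (nat_lit 5) (nat_lit 20) (nat_lit 4) (nat_lit 341) (nat_lit 222) (nat_lit 217)) (XT.nd (nat_lit 78) (nat_lit 76) (nat_lit 0) (XT.lf (nat_lit 0) (nat_lit 10817924271) (nat_lit 152) (nat_lit 5046563240) (nat_lit 152) (nat_lit 2440142647) (nat_lit 18) (nat_lit 4) (nat_lit 20) (nat_lit 5) (nat_lit 20) (nat_lit 4) (nat_lit 342) (nat_lit 222) (nat_lit 216)) (XT.lf (nat_lit 0) (nat_lit 874480696) (nat_lit 228) (nat_lit 1222434593) (nat_lit 76) (nat_lit 16640024551) (nat_lit 17) (nat_lit 5) (nat_lit 20) (nat_lit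 5) (nat_lit 18) (nat_lit 4) (nat_lit 343) (nat_lit 222) (nat_lit 215))))) (XT.nd (nat_lit 234) (nat_lit 228) (nat_lit 0) (XT.nd (nat_lit 78) (nat_lit 0) (nat_lit 0) (XT.lf (nat_lit 0) (nat_lit 4229589852) (nat_lit 152) (nat_lit 14001746368) (nat_lit 0) (nat_lit 950516297) (nat_lit 16) (nat_lit 5) (nat_lit 18) (nat_lit 4) (nat_lit 16) (nat_lit 4) (nat_lit 344) (nat_lit 222) (nat_lit 214)) (XT.nd (nat_lit 78) (nat_lit 0) (nat_lit 0) (XT.lf (nat_lit 0) (nat_lit 7649904612) (nat_lit 152) (nat_lit 7978512198) (nat_lit 0) (nat_lit 4012818658) (nat_lit 16) (nat_lit 5) (nat_lit 18) (nat_lit 4) (nat_lit 16) (nat_lit 4) (nat_lit 345) (nat_lit 222) (nat_lit 213)) (XT.lf (nat_lit 0) (nat_lit 11106153454) (nat_lit 152) (nat_lit 1888821797) (nat_lit 0) (nat_lit 7121482647) (nat_lit 16) (nat_lit 5) (nat_lit 18) (nat_lit 4) (nat_lit 16) (nat_lit 4) (nat_lit 346) (nat_lit 222) (nat_lit 212)))) (XT.nd (nat_lit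 78) (nat_lit 76) (nat_lit 0) (XT.lf (nat_lit 0) (nat_lit 4357679954) (nat_lit 152) (nat_lit 10285565133) (nat_lit 152) (nat_lit 5963433304) (nat_lit 14) (nat_lit 4) (nat_lit 16) (nat_lit 5) (nat_lit 16) (nat_lit 4) (nat_lit 347) (nat_lit 222) (nat_lit 211)) (XT.nd (nat_lit 78) (nat_lit 76) (nat_lit 0) (XT.lf (nat_lit 0) (nat_lit 10720469747) (nat_lit 152) (nat_lit 7521149483) (nat_lit 152) (nat_lit 2871385593) (nat_lit 14) (nat_lit 4) (nat_lit 16) (nat_lit 5) (nat_lit 16) (nat_lit 4) (nat_lit 348) (nat_lit 222) (nat_lit 210)) (XT.lf (nat_lit 0) (nat_lit 244599079) (nat_lit 228) (nat_lit 4471317137) (nat_lit 76) (nat_lit 16920446992) (nat_lit 13) (nat_lit 5) (nat_lit 16) (nat_lit 5) (nat_lit 14) (nat_lit 4) (nat_lit 349) (nat_lit 222) (nat_lit 209))))))))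
noncomputable def xc25 : XT := (XT.nd (nat_lit 1794) (nat_lit 228) (nat_lit 0) (XT.nd (nat_lit 858) (nat_lit 228) (nat_lit 0) (XT.nd (nat_lit 390) (nat_lit 152) (nat_lit 0) (XT.nd (nat_lit 156) (nat_lit 76) (nat_lit 0) (XT.nd (nat_lit 78) (nat_lit 0) (nat_lit 0) (XT.lf (nat_lit 0) (nat_lit 1524064757) (nat_lit 76) (nat_lit 1826054782) (nat_lit 152) (nat_lit 18825886671) (nat_lit 12) (nat_lit 5) (nat_lit 13) (nat_lit 5) (nat_lit 14) (nat_lit 4) (nat_lit 350) (nat_lit 222) (nat_lit 208)) (XT.lf (nat_lit 0) (nat_lit 6544937853) (nat_lit 152) (nat_lit 15056212282) (nat_lit 0) (nat_lit 1130852749) (nat_lit 12) (nat_lit 5) (nat_lit 14) (nat_lit 4) (nat_lit 12) (nat_lit 4) (nat_lit 351) (nat_lit 222) (nat_lit 207))) (XT.nd (nat_lit 78) (nat_lit 76) (nat_lit 0) (XT.lf (nat_lit 0) (nat_lit 9794917672) (nat_lit 152) (nat_lit 9412814942) (nat_lit 0) (nat_lit 4098214275) (nat_lit 12) (nat_lit 5) (nat_lit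 14) (nat_lit 4) (nat_lit 12) (nat_lit 4) (nat_lit 352) (nat_lit 222) (nat_lit 206)) (XT.nd (nat_lit 78) (nat_lit 76) (nat_lit 0) (XT.lf (nat_lit 0) (nat_lit 13085345632) (nat_lit 152) (nat_lit 3699265152) (nat_lit 0) (nat_lit 7114255542) (nat_lit 12) (nat_lit 5) (nat_lit 14) (nat_lit 4) (nat_lit 12) (nat_lit 4) (nat_lit 353) (nat_lit 222) (nat_lit 205)) (XT.lf (nat_lit 0) (nat_lit 2131013252) (nat_lit 76) (nat_lit 14308568213) (nat_lit 76) (nat_lit 8071083275) (nat_lit 11) (nat_lit 4) (nat_lit 12) (nat_lit 5) (nat_lit 12) (nat_lit 4) (nat_lit 354) (nat_lit 222) (nat_lit 204))))) (XT.nd (nat_lit 234) (nat_lit 76) (nat_lit 0) (XT.nd (nat_lit 78) (nat_lit 76) (nat_lit 0) (XT.lf (nat_lit 0) (nat_lit 8116713437) (nat_lit 76) (nat_lit 11760393727) (nat_lit 76) (nat_lit 5264273016) (nat_lit 11) (nat_lit 4) (nat_lit 12) (nat_lit 5) (nat_lit 12) (nat_lit 4) (nat_lit 355) (nat_lit 222) (nat_lit 203)) (XT.nd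 (nat_lit 78) (nat_lit 76) (nat_lit 0) (XT.lf (nat_lit 0) (nat_lit 14189442996) (nat_lit 76) (nat_lit 9175216092) (nat_lit 76) (nat_lit 2427992688) (nat_lit 11) (nat_lit 4) (nat_lit 12) (nat_lit 5) (nat_lit 12) (nat_lit 4) (nat_lit 356) (nat_lit 222) (nat_lit 202)) (XT.lf (nat_lit 0) (nat_lit 431645421) (nat_lit 152) (nat_lit 6114772221) (nat_lit 76) (nat_lit 19918504002) (nat_lit 10) (nat_lit 5) (nat_lit 12) (nat_lit 5) (nat_lit 11) (nat_lit 4) (nat_lit 357) (nat_lit 222) (nat_lit 201)))) (XT.nd (nat_lit 78) (nat_lit 76) (nat_lit 0) (XT.lf (nat_lit 0) (nat_lit 3277686906) (nat_lit 152) (nat_lit 573996378) (nat_lit 76) (nat_lit 23306510871) (nat_lit 10) (nat_lit 5) (nat_lit 12) (nat_lit 5) (nat_lit 11) (nat_lit 4) (nat_lit 358) (nat_lit 222) (nat_lit 200)) (XT.nd (nat_lit 78) (nat_lit 0) (nat_lit 0) (XT.lf (nat_lit 0) (nat_lit 5147750711) (nat_lit 76) (nat_lit 1061730098) (nat_lit 152) (nat_lit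 21662809952) (nat_lit 9) (nat_lit 5) (nat_lit 10) (nat_lit 5) (nat_lit 11) (nat_lit 4) (nat_lit 359) (nat_lit 222) (nat_lit 199)) (XT.lf (nat_lit 0) (nat_lit 9203652432) (nat_lit 152) (nat_lit 17658198781) (nat_lit 0) (nat_lit 1746762311) (nat_lit 9) (nat_lit 5) (nat_lit 11) (nat_lit 4) (nat_lit 9) (nat_lit 4) (nat_lit 360) (nat_lit 222) (nat_lit 198)))))) (XT.nd (nat_lit 468) (nat_lit 152) (nat_lit 0) (XT.nd (nat_lit 234) (nat_lit 76) (nat_lit 0) (XT.nd (nat_lit 78) (nat_lit 0) (nat_lit 0) (XT.lf (nat_lit 0) (nat_lit 12250737086) (nat_lit 152) (nat_lit 12533878765) (nat_lit 0) (nat_lit 4583552412) (nat_lit 9) (nat_lit 5) (nat_lit 11) (nat_lit 4) (nat_lit 9) (nat_lit 4) (nat_lit 361) (nat_lit 222) (nat_lit 197)) (XT.nd (nat_lit 78) (nat_lit 0) (nat_lit 0) (XT.lf (nat_lit 0) (nat_lit 15343191273) (nat_lit 152) (nat_lit 7336896440) (nat_lit 0) (nat_lit 7471837130) (nat_lit 9) (nat_lit 5) (nat_lit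 11) (nat_lit 4) (nat_lit 9) (nat_lit 4) (nat_lit 362) (nat_lit 222) (nat_lit 196)) (XT.lf (nat_lit 0) (nat_lit 18483717137) (nat_lit 152) (nat_lit 2062710756) (nat_lit 0) (nat_lit 10414140210) (nat_lit 9) (nat_lit 5) (nat_lit 11) (nat_lit 4) (nat_lit 9) (nat_lit 4) (nat_lit 363) (nat_lit 222) (nat_lit 195)))) (XT.nd (nat_lit 78) (nat_lit 0) (nat_lit 0) (XT.lf (nat_lit 0) (nat_lit 3358829664) (nat_lit 76) (nat_lit 18348516289) (nat_lit 76) (nat_lit 10086490056) (nat_lit 8) (nat_lit 4) (nat_lit 9) (nat_lit 5) (nat_lit 9) (nat_lit 4) (nat_lit 364) (nat_lit 222) (nat_lit 194)) (XT.nd (nat_lit 78) (nat_lit 0) (nat_lit 0) (XT.lf (nat_lit 0) (nat_lit 8909635302) (nat_lit 76) (nat_lit 16096014459) (nat_lit 76) (nat_lit 7647144241) (nat_lit 8) (nat_lit 4) (nat_lit 9) (nat_lit 5) (nat_lit 9) (nat_lit 4) (nat_lit 365) (nat_lit 222) (nat_lit 193)) (XT.lf (nat_lit 0) (nat_lit 14553504386) (nat_lit 76) (nat_lit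 13807783534) (nat_lit 76) (nat_lit 5177511387) (nat_lit 8) (nat_lit 4) (nat_lit 9) (nat_lit 5) (nat_lit 9) (nat_lit 4) (nat_lit 366) (nat_lit 222) (nat_lit 192))))) (XT.nd (nat_lit 234) (nat_lit 76) (nat_lit 0) (XT.nd (nat_lit 78) (nat_lit 76) (nat_lit 0) (XT.lf (nat_lit 0) (nat_lit 20295368452) (nat_lit 76) (nat_lit 11481824087) (nat_lit 76) (nat_lit 2675433564) (nat_lit 8) (nat_lit 4) (nat_lit 9) (nat_lit 5) (nat_lit 9) (nat_lit 4) (nat_lit 367) (nat_lit 222) (nat_lit 191)) (XT.nd (nat_lit 78) (nat_lit 76) (nat_lit 0) (XT.lf (nat_lit 0) (nat_lit 26140244663) (nat_lit 76) (nat_lit 9116103728) (nat_lit 76) (nat_lit 138724489) (nat_lit 8) (nat_lit 4) (nat_lit 9) (nat_lit 5) (nat_lit 9) (nat_lit 4) (nat_lit 368) (nat_lit 222) (nat_lit 190)) (XT.lf (nat_lit 0) (nat_lit 2387320029) (nat_lit 152) (nat_lit 4297128041) (nat_lit 76) (nat_lit 29681812911) (nat_lit 7) (nat_lit 5) (nat_lit 9) (nat_lit 5)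 (nat_lit 8) (nat_lit 4) (nat_lit 369) (nat_lit 222) (nat_lit 189)))) (XT.nd (nat_lit 78) (nat_lit 0) (nat_lit 0) (XT.lf (nat_lit 0) (nat_lit 756656160) (nat_lit 76) (nat_lit 4199608433) (nat_lit 152) (nat_lit 32411207709) (nat_lit 6) (nat_lit 5) (nat_lit 7) (nat_lit 5) (nat_lit 8) (nat_lit 4) (nat_lit 370) (nat_lit 222) (nat_lit 188)) (XT.nd (nat_lit 78) (nat_lit 0) (nat_lit 0) (XT.lf (nat_lit 0) (nat_lit 5984749679) (nat_lit 76) (nat_lit 1624013641) (nat_lit 152) (nat_lit 30789787301) (nat_lit 6) (nat_lit 5) (nat_lit 7) (nat_lit 5) (nat_lit 8) (nat_lit 4) (nat_lit 371) (nat_lit 222) (nat_lit 187)) (XT.lf (nat_lit 0) (nat_lit 10314629313) (nat_lit 152) (nat_lit 28165085353) (nat_lit 0) (nat_lit 981657351) (nat_lit 6) (nat_lit 5) (nat_lit 8) (nat_lit 4) (nat_lit 6) (nat_lit 4) (nat_lit 372) (nat_lit 222) (nat_lit 186))))))) (XT.nd (nat_lit 936) (nat_lit 152) (nat_lit 0) (XT.nd (nat_lit 468) (nat_lit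 76) (nat_lit 0) (XT.nd (nat_lit 234) (nat_lit 0) (nat_lit 0) (XT.nd (nat_lit 78) (nat_lit 0) (nat_lit 0) (XT.lf (nat_lit 0) (nat_lit 13082704394) (nat_lit 152) (nat_lit 23867434379) (nat_lit 0) (nat_lit 3606532074) (nat_lit 6) (nat_lit 5) (nat_lit 8) (nat_lit 4) (nat_lit 6) (nat_lit 4) (nat_lit 373) (nat_lit 222) (nat_lit 185)) (XT.nd (nat_lit 78) (nat_lit 0) (nat_lit 0) (XT.lf (nat_lit 0) (nat_lit 15899796255) (nat_lit 152) (nat_lit 19501481779) (nat_lit 0) (nat_lit 6284594463) (nat_lit 6) (nat_lit 5) (nat_lit 8) (nat_lit 4) (nat_lit 6) (nat_lit 4) (nat_lit 374) (nat_lit 222) (nat_lit 184)) (XT.lf (nat_lit 0) (nat_lit 18768366435) (nat_lit 152) (nat_lit 15063412643) (nat_lit 0) (nat_lit 9018184572) (nat_lit 6) (nat_lit 5) (nat_lit 8) (nat_lit 4) (nat_lit 6) (nat_lit 4) (nat_lit 375) (nat_lit 222) (nat_lit 183)))) (XT.nd (nat_lit 78) (nat_lit 0) (nat_lit 0) (XT.lf (nat_lit 0) (nat_lit 21690921451)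 (nat_lit 152) (nat_lit 10549349045) (nat_lit 0) (nat_lit 11809690975) (nat_lit 6) (nat_lit 5) (nat_lit 8) (nat_lit 4) (nat_lit 6) (nat_lit 4) (nat_lit 376) (nat_lit 222) (nat_lit 182)) (XT.nd (nat_lit 78) (nat_lit 0) (nat_lit 0) (XT.lf (nat_lit 0) (nat_lit 24670014991) (nat_lit 152) (nat_lit 5955346659) (nat_lit 0) (nat_lit 14661552852) (nat_lit 6) (nat_lit 5) (nat_lit 8) (nat_lit 4) (nat_lit 6) (nat_lit 4) (nat_lit 377) (nat_lit 222) (nat_lit 181)) (XT.lf (nat_lit 0) (nat_lit 27708250147) (nat_lit 152) (nat_lit 1277391307) (nat_lit 0) (nat_lit 17576262122) (nat_lit 6) (nat_lit 5) (nat_lit 8) (nat_lit 4) (nat_lit 6) (nat_lit 4) (nat_lit 378) (nat_lit 222) (nat_lit 180))))) (XT.nd (nat_lit 234) (nat_lit 0) (nat_lit 0) (XT.nd (nat_lit 78) (nat_lit 0) (nat_lit 0) (XT.lf (nat_lit 0) (nat_lit 3558034613) (nat_lit 76) (nat_lit 27284449079) (nat_lit 76) (nat_lit 17032533009) (nat_lit 5) (nat_lit 4)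 (nat_lit 6) (nat_lit 5) (nat_lit 6) (nat_lit 4) (nat_lit 379) (nat_lit 222) (nat_lit 179)) (XT.nd (nat_lit 78) (nat_lit 0) (nat_lit 0) (XT.lf (nat_lit 0) (nat_lit 8512923148) (nat_lit 76) (nat_lit 25541726655) (nat_lit 76) (nat_lit 15173375590) (nat_lit 5) (nat_lit 4) (nat_lit 6) (nat_lit 5) (nat_lit 6) (nat_lit 4) (nat_lit 380) (nat_lit 222) (nat_lit 178)) (XT.lf (nat_lit 0) (nat_lit 13566181217) (nat_lit 76) (nat_lit 23768850563) (nat_lit 76) (nat_lit 13287455814) (nat_lit 5) (nat_lit 4) (nat_lit 6) (nat_lit 5) (nat_lit 6) (nat_lit 4) (nat_lit 381) (nat_lit 222) (nat_lit 177)))) (XT.nd (nat_lit 78) (nat_lit 0) (nat_lit 0) (XT.lf (nat_lit 0) (nat_lit 18722224290) (nat_lit 76) (nat_lit 21964271687) (nat_lit 76) (nat_lit 11373125789) (nat_lit 5) (nat_lit 4) (nat_lit 6) (nat_lit 5) (nat_lit 6) (nat_lit 4) (nat_lit 382) (nat_lit 222) (nat_lit 176)) (XT.nd (nat_lit 78) (nat_lit 0) (nat_lit 0) (XT.lf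 (nat_lit 0) (nat_lit 23985557647) (nat_lit 76) (nat_lit 20126413213) (nat_lit 76) (nat_lit 9428712800) (nat_lit 5) (nat_lit 4) (nat_lit 6) (nat_lit 5) (nat_lit 6) (nat_lit 4) (nat_lit 383) (nat_lit 222) (nat_lit 175)) (XT.lf (nat_lit 0) (nat_lit 29360780317) (nat_lit 76) (nat_lit 18253669243) (nat_lit 76) (nat_lit 7452517845) (nat_lit 5) (nat_lit 4) (nat_lit 6) (nat_lit 5) (nat_lit 6) (nat_lit 4) (nat_lit 384) (nat_lit 222) (nat_lit 174)))))) (XT.nd (nat_lit 468) (nat_lit 76) (nat_lit 0) (XT.nd (nat_lit 234) (nat_lit 76) (nat_lit 0) (XT.nd (nat_lit 78) (nat_lit 0) (nat_lit 0) (XT.lf (nat_lit 0) (nat_lit 34852589096) (nat_lit 76) (nat_lit 16344403399) (nat_lit 76) (nat_lit 5442814152) (nat_lit 5) (nat_lit 4) (nat_lit 6) (nat_lit 5) (nat_lit 6) (nat_lit 4) (nat_lit 385) (nat_lit 222) (nat_lit 173)) (XT.nd (nat_lit 78) (nat_lit 0) (nat_lit 0) (XT.lf (nat_lit 0) (nat_lit 40465782653) (nat_lit 76)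 (nat_lit 14396947392) (nat_lit 76) (nat_lit 3397845669) (nat_lit 5) (nat_lit 4) (nat_lit 6) (nat_lit 5) (nat_lit 6) (nat_lit 4) (nat_lit 386) (nat_lit 222) (nat_lit 172)) (XT.lf (nat_lit 0) (nat_lit 46205265719) (nat_lit 76) (nat_lit 12409599559) (nat_lit 76) (nat_lit 1315825531) (nat_lit 5) (nat_lit 4) (nat_lit 6) (nat_lit 5) (nat_lit 6) (nat_lit 4) (nat_lit 387) (nat_lit 222) (nat_lit 171)))) (XT.nd (nat_lit 78) (nat_lit 0) (nat_lit 0) (XT.lf (nat_lit 0) (nat_lit 789355775) (nat_lit 152) (nat_lit 9583296663) (nat_lit 76) (nat_lit 51278726656) (nat_lit 4) (nat_lit 5) (nat_lit 6) (nat_lit 5) (nat_lit 5) (nat_lit 4) (nat_lit 388) (nat_lit 222) (nat_lit 170)) (XT.nd (nat_lit 78) (nat_lit 0) (nat_lit 0) (XT.lf (nat_lit 0) (nat_lit 2908790015) (nat_lit 152) (nat_lit 5370082885) (nat_lit 76) (nat_lit 55145112351) (nat_lit 4) (nat_lit 5) (nat_lit 6) (nat_lit 5) (nat_lit 5) (nat_lit 4) (nat_lit 389)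 (nat_lit 222) (nat_lit 169)) (XT.lf (nat_lit 0) (nat_lit 5070005616) (nat_lit 152) (nat_lit 1069453787) (nat_lit 76) (nat_lit 59110978210) (nat_lit 4) (nat_lit 5) (nat_lit 6) (nat_lit 5) (nat_lit 5) (nat_lit 4) (nat_lit 390) (nat_lit 222) (nat_lit 168))))) (XT.nd (nat_lit 234) (nat_lit 0) (nat_lit 0) (XT.nd (nat_lit 78) (nat_lit 0) (nat_lit 0) (XT.lf (nat_lit 0) (nat_lit 3388469711) (nat_lit 76) (nat_lit 3918993351) (nat_lit 152) (nat_lit 59823891886) (nat_lit 3) (nat_lit 5) (nat_lit 4) (nat_lit 5) (nat_lit 5) (nat_lit 4) (nat_lit 391) (nat_lit 222) (nat_lit 167)) (XT.nd (nat_lit 78) (nat_lit 0) (nat_lit 0) (XT.lf (nat_lit 0) (nat_lit 7964578983) (nat_lit 76) (nat_lit 1637354244) (nat_lit 152) (nat_lit 59467083075) (nat_lit 3) (nat_lit 5) (nat_lit 4) (nat_lit 5) (nat_lit 5) (nat_lit 4) (nat_lit 392) (nat_lit 222) (nat_lit 166)) (XT.lf (nat_lit 0) (nat_lit 11951632794) (nat_lit 152) (nat_lit 58430537625)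 (nat_lit 0) (nat_lit 683058003) (nat_lit 3) (nat_lit 5) (nat_lit 5) (nat_lit 4) (nat_lit 3) (nat_lit 4) (nat_lit 393) (nat_lit 222) (nat_lit 165)))) (XT.nd (nat_lit 78) (nat_lit 0) (nat_lit 0) (XT.lf (nat_lit 0) (nat_lit 14368174641) (nat_lit 152) (nat_lit 55728409482) (nat_lit 0) (nat_lit 3024864658) (nat_lit 3) (nat_lit 5) (nat_lit 5) (nat_lit 4) (nat_lit 3) (nat_lit 4) (nat_lit 394) (nat_lit 222) (nat_lit 164)) (XT.nd (nat_lit 78) (nat_lit 0) (nat_lit 0) (XT.lf (nat_lit 0) (nat_lit 16837931060) (nat_lit 152) (nat_lit 52979952556) (nat_lit 0) (nat_lit 5422062637) (nat_lit 3) (nat_lit 5) (nat_lit 5) (nat_lit 4) (nat_lit 3) (nat_lit 4) (nat_lit 395) (nat_lit 222) (nat_lit 163)) (XT.lf (nat_lit 0) (nat_lit 19363060089) (nat_lit 152) (nat_lit 50182765283) (nat_lit 0) (nat_lit 7876746579) (nat_lit 3) (nat_lit 5) (nat_lit 5) (nat_lit 4) (nat_lit 3) (nat_lit 4) (nat_lit 396) (nat_lit 222) (nat_lit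 162))))))))
noncomputable def xc26 : XT := (XT.nd (nat_lit 36972) (nat_lit 0) (nat_lit 228) (XT.nd (nat_lit 36036) (nat_lit 0) (nat_lit 760) (XT.nd (nat_lit 390) (nat_lit 0) (nat_lit 0) (XT.nd (nat_lit 156) (nat_lit 0) (nat_lit 0) (XT.nd (nat_lit 78) (nat_lit 0) (nat_lit 0) (XT.lf (nat_lit 0) (nat_lit 21945768152) (nat_lit 152) (nat_lit 47334403518) (nat_lit 0) (nat_lit 10391061354) (nat_lit 3) (nat_lit 5) (nat_lit 5) (nat_lit 4) (nat_lit 3) (nat_lit 4) (nat_lit 397) (nat_lit 222) (nat_lit 161)) (XT.lf (nat_lit 0) (nat_lit 24588311984) (nat_lit 152) (nat_lit 44432378402) (nat_lit 0) (nat_lit 12967203936) (nat_lit 3) (nat_lit 5) (nat_lit 5) (nat_lit 4) (nat_lit 3) (nat_lit 4) (nat_lit 398) (nat_lit 222) (nat_lit 160))) (XT.nd (nat_lit 78) (nat_lit 0) (nat_lit 0) (XT.lf (nat_lit 0) (nat_lit 27293000605) (nat_lit 152) (nat_lit 41474154186) (nat_lit 0) (nat_lit 15607425323) (nat_lit 3) (nat_lit 5)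 (nat_lit 5) (nat_lit 4) (nat_lit 3) (nat_lit 4) (nat_lit 399) (nat_lit 222) (nat_lit 159)) (XT.nd (nat_lit 78) (nat_lit 0) (nat_lit 0) (XT.lf (nat_lit 0) (nat_lit 30062197334) (nat_lit 152) (nat_lit 38457146011) (nat_lit 0) (nat_lit 18314032505) (nat_lit 3) (nat_lit 5) (nat_lit 5) (nat_lit 4) (nat_lit 3) (nat_lit 4) (nat_lit 400) (nat_lit 222) (nat_lit 158)) (XT.lf (nat_lit 0) (nat_lit 32898321858) (nat_lit 152) (nat_lit 35378717659) (nat_lit 0) (nat_lit 21089390478) (nat_lit 3) (nat_lit 5) (nat_lit 5) (nat_lit 4) (nat_lit 3) (nat_lit 4) (nat_lit 401) (nat_lit 222) (nat_lit 157))))) (XT.nd (nat_lit 35412) (nat_lit 0) (nat_lit 1444) (XT.nd (nat_lit 78) (nat_lit 0) (nat_lit 0) (XT.lf (nat_lit 0) (nat_lit 35803852344) (nat_lit 152) (nat_lit 32236179239) (nat_lit 0) (nat_lit 23935924312) (nat_lit 3) (nat_lit 5) (nat_lit 5) (nat_lit 4) (nat_lit 3) (nat_lit 4) (nat_lit 402) (nat_lit 222) (nat_lit 156))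 (XT.nd (nat_lit 35256) (nat_lit 0) (nat_lit 1596) (XT.lf (nat_lit 0) (nat_lit 38781327605) (nat_lit 152) (nat_lit 29026784846) (nat_lit 0) (nat_lit 26856121271) (nat_lit 3) (nat_lit 5) (nat_lit 5) (nat_lit 4) (nat_lit 3) (nat_lit 4) (nat_lit 403) (nat_lit 222) (nat_lit 155)) (XT.lf (nat_lit 0) (nat_lit 1698011446) (nat_lit 228) (nat_lit 4261539809) (nat_lit 0) (nat_lit 1698011446) (nat_lit 24) (nat_lit 5) (nat_lit 27) (nat_lit 4) (nat_lit 24) (nat_lit 4) (nat_lit 334) (nat_lit 223) (nat_lit 223)))) (XT.nd (nat_lit 78) (nat_lit 152) (nat_lit 0) (XT.lf (nat_lit 0) (nat_lit 7061485996) (nat_lit 228) (nat_lit 2020823606) (nat_lit 0) (nat_lit 6565913107) (nat_lit 24) (nat_lit 5) (nat_lit 27) (nat_lit 4) (nat_lit 24) (nat_lit 4) (nat_lit 335) (nat_lit 223) (nat_lit 222)) (XT.nd (nat_lit 78) (nat_lit 0) (nat_lit 0) (XT.lf (nat_lit 0) (nat_lit 4636393776) (nat_lit 152) (nat_lit 6166367617) (nat_lit 152)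 (nat_lit 5189656002) (nat_lit 22) (nat_lit 4) (nat_lit 24) (nat_lit 5) (nat_lit 24) (nat_lit 4) (nat_lit 336) (nat_lit 223) (nat_lit 221)) (XT.lf (nat_lit 0) (nat_lit 11405453718) (nat_lit 152) (nat_lit 3193558139) (nat_lit 152) (nat_lit 1749721546) (nat_lit 22) (nat_lit 4) (nat_lit 24) (nat_lit 5) (nat_lit 24) (nat_lit 4) (nat_lit 337) (nat_lit 223) (nat_lit 220)))))) (XT.nd (nat_lit 468) (nat_lit 304) (nat_lit 0) (XT.nd (nat_lit 234) (nat_lit 228) (nat_lit 0) (XT.nd (nat_lit 78) (nat_lit 0) (nat_lit 0) (XT.lf (nat_lit 0) (nat_lit 1547685018) (nat_lit 76) (nat_lit 149379516) (nat_lit 152) (nat_lit 15020070823) (nat_lit 20) (nat_lit 5) (nat_lit 21) (nat_lit 5) (nat_lit 22) (nat_lit 4) (nat_lit 338) (nat_lit 223) (nat_lit 219)) (XT.nd (nat_lit 78) (nat_lit 0) (nat_lit 0) (XT.lf (nat_lit 0) (nat_lit 5215498107) (nat_lit 152) (nat_lit 8934620809) (nat_lit 0) (nat_lit 2945919388) (nat_lit 20) (nat_lit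 5) (nat_lit 22) (nat_lit 4) (nat_lit 20) (nat_lit 4) (nat_lit 339) (nat_lit 223) (nat_lit 218)) (XT.lf (nat_lit 0) (nat_lit 8767464138) (nat_lit 152) (nat_lit 2638222824) (nat_lit 0) (nat_lit 6082850927) (nat_lit 20) (nat_lit 5) (nat_lit 22) (nat_lit 4) (nat_lit 20) (nat_lit 4) (nat_lit 340) (nat_lit 223) (nat_lit 217)))) (XT.nd (nat_lit 78) (nat_lit 76) (nat_lit 0) (XT.lf (nat_lit 0) (nat_lit 3800849511) (nat_lit 152) (nat_lit 8590316939) (nat_lit 152) (nat_lit 5502757619) (nat_lit 18) (nat_lit 4) (nat_lit 20) (nat_lit 5) (nat_lit 20) (nat_lit 4) (nat_lit 341) (nat_lit 223) (nat_lit 216)) (XT.nd (nat_lit 78) (nat_lit 76) (nat_lit 0) (XT.lf (nat_lit 0) (nat_lit 10367969401) (nat_lit 152) (nat_lit 5711825053) (nat_lit 152) (nat_lit 2233055919) (nat_lit 18) (nat_lit 4) (nat_lit 20) (nat_lit 5) (nat_lit 20) (nat_lit 4) (nat_lit 342) (nat_lit 223) (nat_lit 215)) (XT.lf (nat_lit 0) (nat_lit 1043480190)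 (nat_lit 228) (nat_lit 1740319700) (nat_lit 76) (nat_lit 15962352002) (nat_lit 17) (nat_lit 5) (nat_lit 20) (nat_lit 5) (nat_lit 18) (nat_lit 4) (nat_lit 343) (nat_lit 223) (nat_lit 214))))) (XT.nd (nat_lit 234) (nat_lit 228) (nat_lit 0) (XT.nd (nat_lit 78) (nat_lit 0) (nat_lit 0) (XT.lf (nat_lit 0) (nat_lit 4353028661) (nat_lit 152) (nat_lit 14590614291) (nat_lit 0) (nat_lit 248817730) (nat_lit 16) (nat_lit 5) (nat_lit 18) (nat_lit 4) (nat_lit 16) (nat_lit 4) (nat_lit 344) (nat_lit 223) (nat_lit 213)) (XT.nd (nat_lit 78) (nat_lit 0) (nat_lit 0) (XT.lf (nat_lit 0) (nat_lit 7740498416) (nat_lit 152) (nat_lit 8623656375) (nat_lit 0) (nat_lit 3288702632) (nat_lit 16) (nat_lit 5) (nat_lit 18) (nat_lit 4) (nat_lit 16) (nat_lit 4) (nat_lit 345) (nat_lit 223) (nat_lit 212)) (XT.lf (nat_lit 0) (nat_lit 11164858903) (nat_lit 152) (nat_lit 2588603113) (nat_lit 0) (nat_lit 6375602097) (nat_lit 16) (nat_lit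 5) (nat_lit 18) (nat_lit 4) (nat_lit 16) (nat_lit 4) (nat_lit 346) (nat_lit 223) (nat_lit 211)))) (XT.nd (nat_lit 78) (nat_lit 76) (nat_lit 0) (XT.lf (nat_lit 0) (nat_lit 3589870136) (nat_lit 152) (nat_lit 11073740175) (nat_lit 152) (nat_lit 5956851308) (nat_lit 14) (nat_lit 4) (nat_lit 16) (nat_lit 5) (nat_lit 16) (nat_lit 4) (nat_lit 347) (nat_lit 223) (nat_lit 210)) (XT.nd (nat_lit 78) (nat_lit 76) (nat_lit 0) (XT.lf (nat_lit 0) (nat_lit 9900134220) (nat_lit 152) (nat_lit 8331287492) (nat_lit 152) (nat_lit 2896309246) (nat_lit 14) (nat_lit 4) (nat_lit 16) (nat_lit 5) (nat_lit 16) (nat_lit 4) (nat_lit 348) (nat_lit 223) (nat_lit 209)) (XT.lf (nat_lit 0) (nat_lit 190170649) (nat_lit 228) (nat_lit 5357756466) (nat_lit 76) (nat_lit 16104093681) (nat_lit 13) (nat_lit 5) (nat_lit 16) (nat_lit 5) (nat_lit 14) (nat_lit 4) (nat_lit 349) (nat_lit 223) (nat_lit 208))))))) (XT.nd (nat_lit 858) (nat_lit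 228) (nat_lit 0) (XT.nd (nat_lit 390) (nat_lit 152) (nat_lit 0) (XT.nd (nat_lit 156) (nat_lit 76) (nat_lit 0) (XT.nd (nat_lit 78) (nat_lit 0) (nat_lit 0) (XT.lf (nat_lit 0) (nat_lit 568872350) (nat_lit 76) (nat_lit 2688519267) (nat_lit 152) (nat_lit 18935444983) (nat_lit 12) (nat_lit 5) (nat_lit 13) (nat_lit 5) (nat_lit 14) (nat_lit 4) (nat_lit 350) (nat_lit 223) (nat_lit 207)) (XT.lf (nat_lit 0) (nat_lit 6414972206) (nat_lit 152) (nat_lit 16070251910) (nat_lit 0) (nat_lit 264749413) (nat_lit 12) (nat_lit 5) (nat_lit 14) (nat_lit 4) (nat_lit 12) (nat_lit 4) (nat_lit 351) (nat_lit 223) (nat_lit 206))) (XT.nd (nat_lit 78) (nat_lit 76) (nat_lit 0) (XT.lf (nat_lit 0) (nat_lit 9636847959) (nat_lit 152) (nat_lit 10475696674) (nat_lit 0) (nat_lit 3212238474) (nat_lit 12) (nat_lit 5) (nat_lit 14) (nat_lit 4) (nat_lit 12) (nat_lit 4) (nat_lit 352) (nat_lit 223) (nat_lit 205)) (XT.nd (nat_lit 78) (nat_lit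 76) (nat_lit 0) (XT.lf (nat_lit 0) (nat_lit 12899990417) (nat_lit 152) (nat_lit 4809566402) (nat_lit 0) (nat_lit 6208986084) (nat_lit 12) (nat_lit 5) (nat_lit 14) (nat_lit 4) (nat_lit 12) (nat_lit 4) (nat_lit 353) (nat_lit 223) (nat_lit 204)) (XT.lf (nat_lit 0) (nat_lit 951660209) (nat_lit 76) (nat_lit 15264738600) (nat_lit 76) (nat_lit 8315098494) (nat_lit 11) (nat_lit 4) (nat_lit 12) (nat_lit 5) (nat_lit 12) (nat_lit 4) (nat_lit 354) (nat_lit 223) (nat_lit 203))))) (XT.nd (nat_lit 234) (nat_lit 76) (nat_lit 0) (XT.nd (nat_lit 78) (nat_lit 76) (nat_lit 0) (XT.lf (nat_lit 0) (nat_lit 6891773383) (nat_lit 76) (nat_lit 12735993713) (nat_lit 76) (nat_lit 5535250913) (nat_lit 11) (nat_lit 4) (nat_lit 12) (nat_lit 5) (nat_lit 12) (nat_lit 4) (nat_lit 355) (nat_lit 223) (nat_lit 202)) (XT.nd (nat_lit 78) (nat_lit 76) (nat_lit 0) (XT.lf (nat_lit 0) (nat_lit 12920243707) (nat_lit 76) (nat_lit 10169679767)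 (nat_lit 76) (nat_lit 2725147944) (nat_lit 11) (nat_lit 4) (nat_lit 12) (nat_lit 5) (nat_lit 12) (nat_lit 4) (nat_lit 356) (nat_lit 223) (nat_lit 201)) (XT.lf (nat_lit 0) (nat_lit 115369759) (nat_lit 152) (nat_lit 7447019581) (nat_lit 76) (nat_lit 18925804010) (nat_lit 10) (nat_lit 5) (nat_lit 12) (nat_lit 5) (nat_lit 11) (nat_lit 4) (nat_lit 357) (nat_lit 223) (nat_lit 200)))) (XT.nd (nat_lit 78) (nat_lit 76) (nat_lit 0) (XT.lf (nat_lit 0) (nat_lit 2937218065) (nat_lit 152) (nat_lit 1948462056) (nat_lit 76) (nat_lit 22296529789) (nat_lit 10) (nat_lit 5) (nat_lit 12) (nat_lit 5) (nat_lit 11) (nat_lit 4) (nat_lit 358) (nat_lit 223) (nat_lit 199)) (XT.nd (nat_lit 78) (nat_lit 0) (nat_lit 0) (XT.lf (nat_lit 0) (nat_lit 3704126057) (nat_lit 76) (nat_lit 2127520384) (nat_lit 152) (nat_lit 22065798763) (nat_lit 9) (nat_lit 5) (nat_lit 10) (nat_lit 5) (nat_lit 11) (nat_lit 4) (nat_lit 359) (nat_lit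 223) (nat_lit 198)) (XT.lf (nat_lit 0) (nat_lit 8792211313) (nat_lit 152) (nat_lit 19157865516) (nat_lit 0) (nat_lit 684716547) (nat_lit 9) (nat_lit 5) (nat_lit 11) (nat_lit 4) (nat_lit 9) (nat_lit 4) (nat_lit 360) (nat_lit 223) (nat_lit 197)))))) (XT.nd (nat_lit 468) (nat_lit 152) (nat_lit 0) (XT.nd (nat_lit 234) (nat_lit 76) (nat_lit 0) (XT.nd (nat_lit 78) (nat_lit 0) (nat_lit 0) (XT.lf (nat_lit 0) (nat_lit 11816614683) (nat_lit 152) (nat_lit 14073480126) (nat_lit 0) (nat_lit 3504950448) (nat_lit 9) (nat_lit 5) (nat_lit 11) (nat_lit 4) (nat_lit 9) (nat_lit 4) (nat_lit 361) (nat_lit 223) (nat_lit 196)) (XT.nd (nat_lit 78) (nat_lit 0) (nat_lit 0) (XT.lf (nat_lit 0) (nat_lit 14887048206) (nat_lit 152) (nat_lit 8915269285) (nat_lit 0) (nat_lit 6377161186) (nat_lit 9) (nat_lit 5) (nat_lit 11) (nat_lit 4) (nat_lit 9) (nat_lit 4) (nat_lit 362) (nat_lit 223) (nat_lit 195)) (XT.lf (nat_lit 0) (nat_lit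 18006194785) (nat_lit 152) (nat_lit 3678725816) (nat_lit 0) (nat_lit 9303858460) (nat_lit 9) (nat_lit 5) (nat_lit 11) (nat_lit 4) (nat_lit 9) (nat_lit 4) (nat_lit 363) (nat_lit 223) (nat_lit 194)))) (XT.nd (nat_lit 78) (nat_lit 0) (nat_lit 0) (XT.lf (nat_lit 0) (nat_lit 1673379561) (nat_lit 76) (nat_lit 19519485875) (nat_lit 76) (nat_lit 10630305563) (nat_lit 8) (nat_lit 4) (nat_lit 9) (nat_lit 5) (nat_lit 9) (nat_lit 4) (nat_lit 364) (nat_lit 223) (nat_lit 193)) (XT.nd (nat_lit 78) (nat_lit 0) (nat_lit 0) (XT.lf (nat_lit 0) (nat_lit 7187997651) (nat_lit 76) (nat_lit 17282671710) (nat_lit 76) (nat_lit 8212089470) (nat_lit 8) (nat_lit 4) (nat_lit 9) (nat_lit 5) (nat_lit 9) (nat_lit 4) (nat_lit 365) (nat_lit 223) (nat_lit 192)) (XT.lf (nat_lit 0) (nat_lit 12796733192) (nat_lit 76) (nat_lit 15009671526) (nat_lit 76) (nat_lit 5762970910) (nat_lit 8) (nat_lit 4) (nat_lit 9) (nat_lit 5) (nat_lit 9)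 (nat_lit 4) (nat_lit 366) (nat_lit 223) (nat_lit 191))))) (XT.nd (nat_lit 234) (nat_lit 76) (nat_lit 0) (XT.nd (nat_lit 78) (nat_lit 76) (nat_lit 0) (XT.lf (nat_lit 0) (nat_lit 18504487023) (nat_lit 76) (nat_lit 12698499208) (nat_lit 76) (nat_lit 3280809876) (nat_lit 8) (nat_lit 4) (nat_lit 9) (nat_lit 5) (nat_lit 9) (nat_lit 4) (nat_lit 367) (nat_lit 223) (nat_lit 190)) (XT.nd (nat_lit 78) (nat_lit 76) (nat_lit 0) (XT.lf (nat_lit 0) (nat_lit 24316246501) (nat_lit 76) (nat_lit 10347135284) (nat_lit 76) (nat_lit 763437490) (nat_lit 8) (nat_lit 4) (nat_lit 9) (nat_lit 5) (nat_lit 9) (nat_lit 4) (nat_lit 368) (nat_lit 223) (nat_lit 189)) (XT.lf (nat_lit 0) (nat_lit 1756390282) (nat_lit 152) (nat_lit 6179398784) (nat_lit 76) (nat_lit 28462963483) (nat_lit 7) (nat_lit 5) (nat_lit 9) (nat_lit 5) (nat_lit 8) (nat_lit 4) (nat_lit 369) (nat_lit 223) (nat_lit 188)))) (XT.nd (nat_lit 78) (nat_lit 76) (nat_lit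 0) (XT.lf (nat_lit 0) (nat_lit 4300190389) (nat_lit 152) (nat_lit 1171963464) (nat_lit 76) (nat_lit 31928576780) (nat_lit 7) (nat_lit 5) (nat_lit 9) (nat_lit 5) (nat_lit 8) (nat_lit 4) (nat_lit 370) (nat_lit 223) (nat_lit 187)) (XT.nd (nat_lit 78) (nat_lit 0) (nat_lit 0) (XT.lf (nat_lit 0) (nat_lit 4001531533) (nat_lit 76) (nat_lit 2922016617) (nat_lit 152) (nat_lit 31509147098) (nat_lit 6) (nat_lit 5) (nat_lit 7) (nat_lit 5) (nat_lit 8) (nat_lit 4) (nat_lit 371) (nat_lit 223) (nat_lit 186)) (XT.lf (nat_lit 0) (nat_lit 9292618081) (nat_lit 76) (nat_lit 310034954) (nat_lit 152) (nat_lit 29893678160) (nat_lit 6) (nat_lit 5) (nat_lit 7) (nat_lit 5) (nat_lit 8) (nat_lit 4) (nat_lit 372) (nat_lit 223) (nat_lit 185))))))))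
noncomputable def xc27 : XT := (XT.nd (nat_lit 1794) (nat_lit 0) (nat_lit 0) (XT.nd (nat_lit 858) (nat_lit 152) (nat_lit 0) (XT.nd (nat_lit 390) (nat_lit 76) (nat_lit 0) (XT.nd (nat_lit 156) (nat_lit 0) (nat_lit 0) (XT.nd (nat_lit 78) (nat_lit 0) (nat_lit 0) (XT.lf (nat_lit 0) (nat_lit 12350986554) (nat_lit 152) (nat_lit 25932947857) (nat_lit 0) (nat_lit 2308299235) (nat_lit 6) (nat_lit 5) (nat_lit 8) (nat_lit 4) (nat_lit 6) (nat_lit 4) (nat_lit 373) (nat_lit 223) (nat_lit 184)) (XT.lf (nat_lit 0) (nat_lit 15151805294) (nat_lit 152) (nat_lit 21595991337) (nat_lit 0) (nat_lit 4974137904) (nat_lit 6) (nat_lit 5) (nat_lit 8) (nat_lit 4) (nat_lit 6) (nat_lit 4) (nat_lit 374) (nat_lit 223) (nat_lit 183))) (XT.nd (nat_lit 78) (nat_lit 0) (nat_lit 0) (XT.lf (nat_lit 0) (nat_lit 18004576326) (nat_lit 152) (nat_lit 17186073734) (nat_lit 0) (nat_lit 7695860323) (nat_lit 6) (nat_lit 5) (nat_lit 8) (nat_lit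 4) (nat_lit 6) (nat_lit 4) (nat_lit 375) (nat_lit 223) (nat_lit 182)) (XT.nd (nat_lit 78) (nat_lit 0) (nat_lit 0) (XT.lf (nat_lit 0) (nat_lit 20911792363) (nat_lit 152) (nat_lit 12699341722) (nat_lit 0) (nat_lit 10475844698) (nat_lit 6) (nat_lit 5) (nat_lit 8) (nat_lit 4) (nat_lit 6) (nat_lit 4) (nat_lit 376) (nat_lit 223) (nat_lit 181)) (XT.lf (nat_lit 0) (nat_lit 23875993691) (nat_lit 152) (nat_lit 8131874856) (nat_lit 0) (nat_lit 13316520140) (nat_lit 6) (nat_lit 5) (nat_lit 8) (nat_lit 4) (nat_lit 6) (nat_lit 4) (nat_lit 377) (nat_lit 223) (nat_lit 180))))) (XT.nd (nat_lit 234) (nat_lit 0) (nat_lit 0) (XT.nd (nat_lit 78) (nat_lit 76) (nat_lit 0) (XT.lf (nat_lit 0) (nat_lit 26899770389) (nat_lit 152) (nat_lit 3479682146) (nat_lit 0) (nat_lit 16220368793) (nat_lit 6) (nat_lit 5) (nat_lit 8) (nat_lit 4) (nat_lit 6) (nat_lit 4) (nat_lit 378) (nat_lit 223) (nat_lit 179)) (XT.nd (nat_lit 78) (nat_lit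 0) (nat_lit 0) (XT.lf (nat_lit 0) (nat_lit 1286403803) (nat_lit 76) (nat_lit 28711726489) (nat_lit 76) (nat_lit 17915889897) (nat_lit 5) (nat_lit 4) (nat_lit 6) (nat_lit 5) (nat_lit 6) (nat_lit 4) (nat_lit 379) (nat_lit 223) (nat_lit 178)) (XT.lf (nat_lit 0) (nat_lit 6216525282) (nat_lit 76) (nat_lit 26979904559) (nat_lit 76) (nat_lit 16071024284) (nat_lit 5) (nat_lit 4) (nat_lit 6) (nat_lit 5) (nat_lit 6) (nat_lit 4) (nat_lit 380) (nat_lit 223) (nat_lit 177)))) (XT.nd (nat_lit 78) (nat_lit 0) (nat_lit 0) (XT.lf (nat_lit 0) (nat_lit 11245737668) (nat_lit 76) (nat_lit 25217611472) (nat_lit 76) (nat_lit 14198980047) (nat_lit 5) (nat_lit 4) (nat_lit 6) (nat_lit 5) (nat_lit 6) (nat_lit 4) (nat_lit 381) (nat_lit 223) (nat_lit 176)) (XT.nd (nat_lit 78) (nat_lit 0) (nat_lit 0) (XT.lf (nat_lit 0) (nat_lit 16378435417) (nat_lit 76) (nat_lit 23423307359) (nat_lit 76) (nat_lit 12298121419) (nat_lit 5) (nat_lit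 4) (nat_lit 6) (nat_lit 5) (nat_lit 6) (nat_lit 4) (nat_lit 382) (nat_lit 223) (nat_lit 175)) (XT.lf (nat_lit 0) (nat_lit 21619103410) (nat_lit 76) (nat_lit 21595424381) (nat_lit 76) (nat_lit 10366787456) (nat_lit 5) (nat_lit 4) (nat_lit 6) (nat_lit 5) (nat_lit 6) (nat_lit 4) (nat_lit 383) (nat_lit 223) (nat_lit 174)))))) (XT.nd (nat_lit 468) (nat_lit 76) (nat_lit 0) (XT.nd (nat_lit 234) (nat_lit 76) (nat_lit 0) (XT.nd (nat_lit 78) (nat_lit 0) (nat_lit 0) (XT.lf (nat_lit 0) (nat_lit 26972320873) (nat_lit 76) (nat_lit 19732365360) (nat_lit 76) (nat_lit 8403290585) (nat_lit 5) (nat_lit 4) (nat_lit 6) (nat_lit 5) (nat_lit 6) (nat_lit 4) (nat_lit 384) (nat_lit 223) (nat_lit 173)) (XT.nd (nat_lit 78) (nat_lit 0) (nat_lit 0) (XT.lf (nat_lit 0) (nat_lit 32442765373) (nat_lit 76) (nat_lit 17832502379) (nat_lit 76) (nat_lit 6405915129) (nat_lit 5) (nat_lit 4) (nat_lit 6) (nat_lit 5) (nat_lit 6) (nat_lit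 4) (nat_lit 385) (nat_lit 223) (nat_lit 172)) (XT.lf (nat_lit 0) (nat_lit 38035216912) (nat_lit 76) (nat_lit 15894175364) (nat_lit 76) (nat_lit 4372915809) (nat_lit 5) (nat_lit 4) (nat_lit 6) (nat_lit 5) (nat_lit 6) (nat_lit 4) (nat_lit 386) (nat_lit 223) (nat_lit 171)))) (XT.nd (nat_lit 78) (nat_lit 76) (nat_lit 0) (XT.lf (nat_lit 0) (nat_lit 43754562096) (nat_lit 76) (nat_lit 13915690632) (nat_lit 76) (nat_lit 2302516216) (nat_lit 5) (nat_lit 4) (nat_lit 6) (nat_lit 5) (nat_lit 6) (nat_lit 4) (nat_lit 387) (nat_lit 223) (nat_lit 170)) (XT.nd (nat_lit 78) (nat_lit 76) (nat_lit 0) (XT.lf (nat_lit 0) (nat_lit 49605798413) (nat_lit 76) (nat_lit 11895319409) (nat_lit 76) (nat_lit 192907265) (nat_lit 5) (nat_lit 4) (nat_lit 6) (nat_lit 5) (nat_lit 6) (nat_lit 4) (nat_lit 388) (nat_lit 223) (nat_lit 169)) (XT.lf (nat_lit 0) (nat_lit 1919551553) (nat_lit 152) (nat_lit 7892361062) (nat_lit 76) (nat_lit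 53655103332) (nat_lit 4) (nat_lit 5) (nat_lit 6) (nat_lit 5) (nat_lit 5) (nat_lit 4) (nat_lit 389) (nat_lit 223) (nat_lit 168))))) (XT.nd (nat_lit 234) (nat_lit 0) (nat_lit 0) (XT.nd (nat_lit 78) (nat_lit 76) (nat_lit 0) (XT.lf (nat_lit 0) (nat_lit 4070340224) (nat_lit 152) (nat_lit 3610375176) (nat_lit 76) (nat_lit 57613072398) (nat_lit 4) (nat_lit 5) (nat_lit 6) (nat_lit 5) (nat_lit 5) (nat_lit 4) (nat_lit 390) (nat_lit 223) (nat_lit 167)) (XT.nd (nat_lit 78) (nat_lit 0) (nat_lit 0) (XT.lf (nat_lit 0) (nat_lit 778518567) (nat_lit 76) (nat_lit 5494067424) (nat_lit 152) (nat_lit 60903181980) (nat_lit 3) (nat_lit 5) (nat_lit 4) (nat_lit 5) (nat_lit 5) (nat_lit 4) (nat_lit 391) (nat_lit 223) (nat_lit 166)) (XT.lf (nat_lit 0) (nat_lit 5336705087) (nat_lit 76) (nat_lit 3220350404) (nat_lit 152) (nat_lit 60556680152) (nat_lit 3) (nat_lit 5) (nat_lit 4) (nat_lit 5) (nat_lit 5) (nat_lit 4) (nat_lit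 392) (nat_lit 223) (nat_lit 165)))) (XT.nd (nat_lit 78) (nat_lit 0) (nat_lit 0) (XT.lf (nat_lit 0) (nat_lit 9996313716) (nat_lit 76) (nat_lit 894035311) (nat_lit 152) (nat_lit 60220097032) (nat_lit 3) (nat_lit 5) (nat_lit 4) (nat_lit 5) (nat_lit 5) (nat_lit 4) (nat_lit 393) (nat_lit 223) (nat_lit 164)) (XT.nd (nat_lit 78) (nat_lit 0) (nat_lit 0) (XT.lf (nat_lit 0) (nat_lit 13288798494) (nat_lit 152) (nat_lit 58420521054) (nat_lit 0) (nat_lit 1457895579) (nat_lit 3) (nat_lit 5) (nat_lit 5) (nat_lit 4) (nat_lit 3) (nat_lit 4) (nat_lit 394) (nat_lit 223) (nat_lit 163)) (XT.lf (nat_lit 0) (nat_lit 15749333197) (nat_lit 152) (nat_lit 55688676621) (nat_lit 0) (nat_lit 3847985195) (nat_lit 3) (nat_lit 5) (nat_lit 5) (nat_lit 4) (nat_lit 3) (nat_lit 4) (nat_lit 395) (nat_lit 223) (nat_lit 162))))))) (XT.nd (nat_lit 35958) (nat_lit 0) (nat_lit 836) (XT.nd (nat_lit 468) (nat_lit 0) (nat_lit 0) (XT.nd (nat_lit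 234) (nat_lit 0) (nat_lit 0) (XT.nd (nat_lit 78) (nat_lit 0) (nat_lit 0) (XT.lf (nat_lit 0) (nat_lit 18265509104) (nat_lit 152) (nat_lit 52907617981) (nat_lit 0) (nat_lit 6295767814) (nat_lit 3) (nat_lit 5) (nat_lit 5) (nat_lit 4) (nat_lit 3) (nat_lit 4) (nat_lit 396) (nat_lit 223) (nat_lit 161)) (XT.nd (nat_lit 78) (nat_lit 0) (nat_lit 0) (XT.lf (nat_lit 0) (nat_lit 20839524816) (nat_lit 152) (nat_lit 50074915085) (nat_lit 0) (nat_lit 8803382276) (nat_lit 3) (nat_lit 5) (nat_lit 5) (nat_lit 4) (nat_lit 3) (nat_lit 4) (nat_lit 397) (nat_lit 223) (nat_lit 160)) (XT.lf (nat_lit 0) (nat_lit 23473629473) (nat_lit 152) (nat_lit 47188092753) (nat_lit 0) (nat_lit 11373019699) (nat_lit 3) (nat_lit 5) (nat_lit 5) (nat_lit 4) (nat_lit 3) (nat_lit 4) (nat_lit 398) (nat_lit 223) (nat_lit 159)))) (XT.nd (nat_lit 78) (nat_lit 0) (nat_lit 0) (XT.lf (nat_lit 0) (nat_lit 26170124719) (nat_lit 152) (nat_lit 44244628521)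 (nat_lit 0) (nat_lit 14006925398) (nat_lit 3) (nat_lit 5) (nat_lit 5) (nat_lit 4) (nat_lit 3) (nat_lit 4) (nat_lit 399) (nat_lit 223) (nat_lit 158)) (XT.nd (nat_lit 78) (nat_lit 0) (nat_lit 0) (XT.lf (nat_lit 0) (nat_lit 28931366716) (nat_lit 152) (nat_lit 41241950429) (nat_lit 0) (nat_lit 16707400844) (nat_lit 3) (nat_lit 5) (nat_lit 5) (nat_lit 4) (nat_lit 3) (nat_lit 4) (nat_lit 400) (nat_lit 223) (nat_lit 157)) (XT.lf (nat_lit 0) (nat_lit 31759768199) (nat_lit 152) (nat_lit 38177434778) (nat_lit 0) (nat_lit 19476805675) (nat_lit 3) (nat_lit 5) (nat_lit 5) (nat_lit 4) (nat_lit 3) (nat_lit 4) (nat_lit 401) (nat_lit 223) (nat_lit 156))))) (XT.nd (nat_lit 35256) (nat_lit 0) (nat_lit 1596) (XT.nd (nat_lit 78) (nat_lit 0) (nat_lit 0) (XT.lf (nat_lit 0) (nat_lit 34657800586) (nat_lit 152) (nat_lit 35048403836) (nat_lit 0) (nat_lit 22317559760) (nat_lit 3) (nat_lit 5) (nat_lit 5) (nat_lit 4) (nat_lit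 3) (nat_lit 4) (nat_lit 402) (nat_lit 223) (nat_lit 155)) (XT.nd (nat_lit 35100) (nat_lit 0) (nat_lit 1824) (XT.lf (nat_lit 0) (nat_lit 37627996140) (nat_lit 152) (nat_lit 31852123497) (nat_lit 0) (nat_lit 25232145312) (nat_lit 3) (nat_lit 5) (nat_lit 5) (nat_lit 4) (nat_lit 3) (nat_lit 4) (nat_lit 403) (nat_lit 223) (nat_lit 154)) (XT.lf (nat_lit 0) (nat_lit 4069987093) (nat_lit 152) (nat_lit 1635000429) (nat_lit 152) (nat_lit 1635000429) (nat_lit 27) (nat_lit 4) (nat_lit 29) (nat_lit 5) (nat_lit 29) (nat_lit 4) (nat_lit 332) (nat_lit 224) (nat_lit 224)))) (XT.nd (nat_lit 78) (nat_lit 0) (nat_lit 0) (XT.lf (nat_lit 0) (nat_lit 25205217) (nat_lit 152) (nat_lit 246202908) (nat_lit 228) (nat_lit 14722692332) (nat_lit 24) (nat_lit 5) (nat_lit 26) (nat_lit 5) (nat_lit 27) (nat_lit 4) (nat_lit 333) (nat_lit 224) (nat_lit 223)) (XT.nd (nat_lit 78) (nat_lit 0) (nat_lit 0) (XT.lf (nat_lit 0) (nat_lit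 3866521570) (nat_lit 228) (nat_lit 8589334015) (nat_lit 0) (nat_lit 2860508606) (nat_lit 24) (nat_lit 5) (nat_lit 27) (nat_lit 4) (nat_lit 24) (nat_lit 4) (nat_lit 334) (nat_lit 224) (nat_lit 222)) (XT.lf (nat_lit 0) (nat_lit 7493206618) (nat_lit 228) (nat_lit 2151402658) (nat_lit 0) (nat_lit 6006054928) (nat_lit 24) (nat_lit 5) (nat_lit 27) (nat_lit 4) (nat_lit 24) (nat_lit 4) (nat_lit 335) (nat_lit 224) (nat_lit 221)))))) (XT.nd (nat_lit 468) (nat_lit 304) (nat_lit 0) (XT.nd (nat_lit 234) (nat_lit 152) (nat_lit 0) (XT.nd (nat_lit 78) (nat_lit 152) (nat_lit 0) (XT.lf (nat_lit 0) (nat_lit 4439521922) (nat_lit 152) (nat_lit 6755419044) (nat_lit 152) (nat_lit 4801142376) (nat_lit 22) (nat_lit 4) (nat_lit 24) (nat_lit 5) (nat_lit 24) (nat_lit 4) (nat_lit 336) (nat_lit 224) (nat_lit 220)) (XT.nd (nat_lit 78) (nat_lit 152) (nat_lit 0) (XT.lf (nat_lit 0) (nat_lit 11146743007) (nat_lit 152) (nat_lit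 3807301953) (nat_lit 152) (nat_lit 1399505890) (nat_lit 22) (nat_lit 4) (nat_lit 24) (nat_lit 5) (nat_lit 24) (nat_lit 4) (nat_lit 337) (nat_lit 224) (nat_lit 219)) (XT.lf (nat_lit 0) (nat_lit 1213470375) (nat_lit 76) (nat_lit 787306240) (nat_lit 152) (nat_lit 14722300258) (nat_lit 20) (nat_lit 5) (nat_lit 21) (nat_lit 5) (nat_lit 22) (nat_lit 4) (nat_lit 338) (nat_lit 224) (nat_lit 218)))) (XT.nd (nat_lit 78) (nat_lit 152) (nat_lit 0) (XT.lf (nat_lit 0) (nat_lit 5476871370) (nat_lit 152) (nat_lit 9329727303) (nat_lit 0) (nat_lit 2296685270) (nat_lit 20) (nat_lit 5) (nat_lit 22) (nat_lit 4) (nat_lit 20) (nat_lit 4) (nat_lit 339) (nat_lit 224) (nat_lit 217)) (XT.nd (nat_lit 78) (nat_lit 152) (nat_lit 0) (XT.lf (nat_lit 0) (nat_lit 8993685288) (nat_lit 152) (nat_lit 3092632694) (nat_lit 0) (nat_lit 5410553079) (nat_lit 20) (nat_lit 5) (nat_lit 22) (nat_lit 4) (nat_lit 20) (nat_lit 4) (nat_lit 340)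 (nat_lit 224) (nat_lit 216)) (XT.lf (nat_lit 0) (nat_lit 3278674025) (nat_lit 152) (nat_lit 9299565839) (nat_lit 152) (nat_lit 5325223816) (nat_lit 18) (nat_lit 4) (nat_lit 20) (nat_lit 5) (nat_lit 20) (nat_lit 4) (nat_lit 341) (nat_lit 224) (nat_lit 215))))) (XT.nd (nat_lit 234) (nat_lit 152) (nat_lit 0) (XT.nd (nat_lit 78) (nat_lit 152) (nat_lit 0) (XT.lf (nat_lit 0) (nat_lit 9788782294) (nat_lit 152) (nat_lit 6444403305) (nat_lit 152) (nat_lit 2090245928) (nat_lit 18) (nat_lit 4) (nat_lit 20) (nat_lit 5) (nat_lit 20) (nat_lit 4) (nat_lit 342) (nat_lit 224) (nat_lit 214)) (XT.nd (nat_lit 78) (nat_lit 76) (nat_lit 0) (XT.lf (nat_lit 0) (nat_lit 1150448855) (nat_lit 228) (nat_lit 2387498970) (nat_lit 76) (nat_lit 15219764969) (nat_lit 17) (nat_lit 5) (nat_lit 20) (nat_lit 5) (nat_lit 18) (nat_lit 4) (nat_lit 343) (nat_lit 224) (nat_lit 213)) (XT.lf (nat_lit 0) (nat_lit 3888810720) (nat_lit 76)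 (nat_lit 529777095) (nat_lit 152) (nat_lit 14786704493) (nat_lit 16) (nat_lit 5) (nat_lit 17) (nat_lit 5) (nat_lit 18) (nat_lit 4) (nat_lit 344) (nat_lit 224) (nat_lit 212)))) (XT.nd (nat_lit 78) (nat_lit 152) (nat_lit 0) (XT.lf (nat_lit 0) (nat_lit 7769076674) (nat_lit 152) (nat_lit 9399068269) (nat_lit 0) (nat_lit 2498681141) (nat_lit 16) (nat_lit 5) (nat_lit 18) (nat_lit 4) (nat_lit 16) (nat_lit 4) (nat_lit 345) (nat_lit 224) (nat_lit 211)) (XT.nd (nat_lit 78) (nat_lit 152) (nat_lit 0) (XT.lf (nat_lit 0) (nat_lit 11162477594) (nat_lit 152) (nat_lit 3417060774) (nat_lit 0) (nat_lit 5564450001) (nat_lit 16) (nat_lit 5) (nat_lit 18) (nat_lit 4) (nat_lit 16) (nat_lit 4) (nat_lit 346) (nat_lit 224) (nat_lit 210)) (XT.lf (nat_lit 0) (nat_lit 2692398834) (nat_lit 152) (nat_lit 11930145292) (nat_lit 152) (nat_lit 6014028320) (nat_lit 14) (nat_lit 4) (nat_lit 16) (nat_lit 5) (nat_lit 16) (nat_lit 4)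 (nat_lit 347) (nat_lit 224) (nat_lit 209))))))))
noncomputable def xc28 : XT := (XT.nd (nat_lit 1794) (nat_lit 304) (nat_lit 0) (XT.nd (nat_lit 858) (nat_lit 228) (nat_lit 0) (XT.nd (nat_lit 390) (nat_lit 152) (nat_lit 0) (XT.nd (nat_lit 156) (nat_lit 76) (nat_lit 0) (XT.nd (nat_lit 78) (nat_lit 76) (nat_lit 0) (XT.lf (nat_lit 0) (nat_lit 8951667083) (nat_lit 152) (nat_lit 9209015880) (nat_lit 152) (nat_lit 2984074267) (nat_lit 14) (nat_lit 4) (nat_lit 16) (nat_lit 5) (nat_lit 16) (nat_lit 4) (nat_lit 348) (nat_lit 224) (nat_lit 208)) (XT.lf (nat_lit 0) (nat_lit 75000641) (nat_lit 228) (nat_lit 6372520057) (nat_lit 76) (nat_lit 15222449024) (nat_lit 13) (nat_lit 5) (nat_lit 16) (nat_lit 5) (nat_lit 14) (nat_lit 4) (nat_lit 349) (nat_lit 224) (nat_lit 207))) (XT.nd (nat_lit 78) (nat_lit 76) (nat_lit 0) (XT.lf (nat_lit 0) (nat_lit 3108483747) (nat_lit 228) (nat_lit 505646195) (nat_lit 76) (nat_lit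 18597690844) (nat_lit 13) (nat_lit 5) (nat_lit 16) (nat_lit 5) (nat_lit 14) (nat_lit 4) (nat_lit 350) (nat_lit 224) (nat_lit 206)) (XT.nd (nat_lit 78) (nat_lit 0) (nat_lit 0) (XT.lf (nat_lit 0) (nat_lit 5549635967) (nat_lit 76) (nat_lit 680966231) (nat_lit 152) (nat_lit 16539441831) (nat_lit 12) (nat_lit 5) (nat_lit 13) (nat_lit 5) (nat_lit 14) (nat_lit 4) (nat_lit 351) (nat_lit 224) (nat_lit 205)) (XT.lf (nat_lit 0) (nat_lit 9418646586) (nat_lit 152) (nat_lit 11666726480) (nat_lit 0) (nat_lit 2260517276) (nat_lit 12) (nat_lit 5) (nat_lit 14) (nat_lit 4) (nat_lit 12) (nat_lit 4) (nat_lit 352) (nat_lit 224) (nat_lit 204))))) (XT.nd (nat_lit 234) (nat_lit 76) (nat_lit 0) (XT.nd (nat_lit 78) (nat_lit 76) (nat_lit 0) (XT.lf (nat_lit 0) (nat_lit 12655298266) (nat_lit 152) (nat_lit 6046634576) (nat_lit 0) (nat_lit 5238533182) (nat_lit 12) (nat_lit 5) (nat_lit 14) (nat_lit 4) (nat_lit 12) (nat_lit 4)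 (nat_lit 353) (nat_lit 224) (nat_lit 203)) (XT.nd (nat_lit 78) (nat_lit 76) (nat_lit 0) (XT.lf (nat_lit 0) (nat_lit 15936839516) (nat_lit 152) (nat_lit 348675727) (nat_lit 0) (nat_lit 8268971739) (nat_lit 12) (nat_lit 5) (nat_lit 14) (nat_lit 4) (nat_lit 12) (nat_lit 4) (nat_lit 354) (nat_lit 224) (nat_lit 202)) (XT.lf (nat_lit 0) (nat_lit 5540238882) (nat_lit 76) (nat_lit 13779154986) (nat_lit 76) (nat_lit 5867498186) (nat_lit 11) (nat_lit 4) (nat_lit 12) (nat_lit 5) (nat_lit 12) (nat_lit 4) (nat_lit 355) (nat_lit 224) (nat_lit 201)))) (XT.nd (nat_lit 78) (nat_lit 76) (nat_lit 0) (XT.lf (nat_lit 0) (nat_lit 11525739076) (nat_lit 76) (nat_lit 11231155299) (nat_lit 76) (nat_lit 3082810128) (nat_lit 11) (nat_lit 4) (nat_lit 12) (nat_lit 5) (nat_lit 12) (nat_lit 4) (nat_lit 356) (nat_lit 224) (nat_lit 200)) (XT.nd (nat_lit 78) (nat_lit 76) (nat_lit 0) (XT.lf (nat_lit 0) (nat_lit 17606115574) (nat_lit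 76) (nat_lit 8642810717) (nat_lit 76) (nat_lit 264671010) (nat_lit 11) (nat_lit 4) (nat_lit 12) (nat_lit 5) (nat_lit 12) (nat_lit 4) (nat_lit 357) (nat_lit 224) (nat_lit 199)) (XT.lf (nat_lit 0) (nat_lit 2538853455) (nat_lit 152) (nat_lit 3447368682) (nat_lit 76) (nat_lit 21222190428) (nat_lit 10) (nat_lit 5) (nat_lit 12) (nat_lit 5) (nat_lit 11) (nat_lit 4) (nat_lit 358) (nat_lit 224) (nat_lit 198)))))) (XT.nd (nat_lit 468) (nat_lit 152) (nat_lit 0) (XT.nd (nat_lit 234) (nat_lit 0) (nat_lit 0) (XT.nd (nat_lit 78) (nat_lit 0) (nat_lit 0) (XT.lf (nat_lit 0) (nat_lit 2134801442) (nat_lit 76) (nat_lit 3260590690) (nat_lit 152) (nat_lit 22529409625) (nat_lit 9) (nat_lit 5) (nat_lit 10) (nat_lit 5) (nat_lit 11) (nat_lit 4) (nat_lit 359) (nat_lit 224) (nat_lit 197)) (XT.nd (nat_lit 78) (nat_lit 0) (nat_lit 0) (XT.lf (nat_lit 0) (nat_lit 7875112871) (nat_lit 76) (nat_lit 451612256) (nat_lit 152) (nat_lit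 20336318462) (nat_lit 9) (nat_lit 5) (nat_lit 10) (nat_lit 5) (nat_lit 11) (nat_lit 4) (nat_lit 360) (nat_lit 224) (nat_lit 196)) (XT.lf (nat_lit 0) (nat_lit 11324766660) (nat_lit 152) (nat_lit 15737975638) (nat_lit 0) (nat_lit 2361360245) (nat_lit 9) (nat_lit 5) (nat_lit 11) (nat_lit 4) (nat_lit 9) (nat_lit 4) (nat_lit 361) (nat_lit 224) (nat_lit 195)))) (XT.nd (nat_lit 78) (nat_lit 0) (nat_lit 0) (XT.lf (nat_lit 0) (nat_lit 14373820898) (nat_lit 152) (nat_lit 10617407012) (nat_lit 0) (nat_lit 5217965177) (nat_lit 9) (nat_lit 5) (nat_lit 11) (nat_lit 4) (nat_lit 9) (nat_lit 4) (nat_lit 362) (nat_lit 224) (nat_lit 194)) (XT.nd (nat_lit 78) (nat_lit 0) (nat_lit 0) (XT.lf (nat_lit 0) (nat_lit 17472210889) (nat_lit 152) (nat_lit 5417409385) (nat_lit 0) (nat_lit 8129511182) (nat_lit 9) (nat_lit 5) (nat_lit 11) (nat_lit 4) (nat_lit 9) (nat_lit 4) (nat_lit 363) (nat_lit 224) (nat_lit 193)) (XT.lf (nat_lit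 0) (nat_lit 20622643965) (nat_lit 152) (nat_lit 133439068) (nat_lit 0) (nat_lit 11098542330) (nat_lit 9) (nat_lit 5) (nat_lit 11) (nat_lit 4) (nat_lit 9) (nat_lit 4) (nat_lit 364) (nat_lit 224) (nat_lit 192))))) (XT.nd (nat_lit 234) (nat_lit 76) (nat_lit 0) (XT.nd (nat_lit 78) (nat_lit 0) (nat_lit 0) (XT.lf (nat_lit 0) (nat_lit 5343389779) (nat_lit 76) (nat_lit 18535847084) (nat_lit 76) (nat_lit 8835627072) (nat_lit 8) (nat_lit 4) (nat_lit 9) (nat_lit 5) (nat_lit 9) (nat_lit 4) (nat_lit 365) (nat_lit 224) (nat_lit 191)) (XT.nd (nat_lit 78) (nat_lit 0) (nat_lit 0) (XT.lf (nat_lit 0) (nat_lit 10918015086) (nat_lit 76) (nat_lit 16277634029) (nat_lit 76) (nat_lit 6406425301) (nat_lit 8) (nat_lit 4) (nat_lit 9) (nat_lit 5) (nat_lit 9) (nat_lit 4) (nat_lit 366) (nat_lit 224) (nat_lit 190)) (XT.lf (nat_lit 0) (nat_lit 16592652184) (nat_lit 76) (nat_lit 13980818146) (nat_lit 76) (nat_lit 3943600957)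 (nat_lit 8) (nat_lit 4) (nat_lit 9) (nat_lit 5) (nat_lit 9) (nat_lit 4) (nat_lit 367) (nat_lit 224) (nat_lit 189)))) (XT.nd (nat_lit 78) (nat_lit 76) (nat_lit 0) (XT.lf (nat_lit 0) (nat_lit 22372259494) (nat_lit 76) (nat_lit 11643392509) (nat_lit 76) (nat_lit 1445002056) (nat_lit 8) (nat_lit 4) (nat_lit 9) (nat_lit 5) (nat_lit 9) (nat_lit 4) (nat_lit 368) (nat_lit 224) (nat_lit 188)) (XT.nd (nat_lit 78) (nat_lit 0) (nat_lit 0) (XT.lf (nat_lit 0) (nat_lit 1070254480) (nat_lit 152) (nat_lit 8182252753) (nat_lit 76) (nat_lit 27180825206) (nat_lit 7) (nat_lit 5) (nat_lit 9) (nat_lit 5) (nat_lit 8) (nat_lit 4) (nat_lit 369) (nat_lit 224) (nat_lit 187)) (XT.lf (nat_lit 0) (nat_lit 3596704086) (nat_lit 152) (nat_lit 3205481313) (nat_lit 76) (nat_lit 30633657709) (nat_lit 7) (nat_lit 5) (nat_lit 9) (nat_lit 5) (nat_lit 8) (nat_lit 4) (nat_lit 370) (nat_lit 224) (nat_lit 186))))))) (XT.nd (nat_lit 858)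 (nat_lit 152) (nat_lit 0) (XT.nd (nat_lit 390) (nat_lit 76) (nat_lit 0) (XT.nd (nat_lit 156) (nat_lit 0) (nat_lit 0) (XT.nd (nat_lit 78) (nat_lit 0) (nat_lit 0) (XT.lf (nat_lit 0) (nat_lit 1897179440) (nat_lit 76) (nat_lit 4285808942) (nat_lit 152) (nat_lit 32285943262) (nat_lit 6) (nat_lit 5) (nat_lit 7) (nat_lit 5) (nat_lit 8) (nat_lit 4) (nat_lit 371) (nat_lit 224) (nat_lit 185)) (XT.lf (nat_lit 0) (nat_lit 7158787101) (nat_lit 76) (nat_lit 1686668285) (nat_lit 152) (nat_lit 30687622715) (nat_lit 6) (nat_lit 5) (nat_lit 7) (nat_lit 5) (nat_lit 8) (nat_lit 4) (nat_lit 372) (nat_lit 224) (nat_lit 184))) (XT.nd (nat_lit 78) (nat_lit 0) (nat_lit 0) (XT.lf (nat_lit 0) (nat_lit 11564282742) (nat_lit 152) (nat_lit 28119288781) (nat_lit 0) (nat_lit 946305259) (nat_lit 6) (nat_lit 5) (nat_lit 8) (nat_lit 4) (nat_lit 6) (nat_lit 4) (nat_lit 373) (nat_lit 224) (nat_lit 183)) (XT.nd (nat_lit 78) (nat_lit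 0) (nat_lit 0) (XT.lf (nat_lit 0) (nat_lit 14349302334) (nat_lit 152) (nat_lit 23810483794) (nat_lit 0) (nat_lit 3600276239) (nat_lit 6) (nat_lit 5) (nat_lit 8) (nat_lit 4) (nat_lit 6) (nat_lit 4) (nat_lit 374) (nat_lit 224) (nat_lit 182)) (XT.lf (nat_lit 0) (nat_lit 17186734388) (nat_lit 152) (nat_lit 19427897777) (nat_lit 0) (nat_lit 6310476630) (nat_lit 6) (nat_lit 5) (nat_lit 8) (nat_lit 4) (nat_lit 6) (nat_lit 4) (nat_lit 375) (nat_lit 224) (nat_lit 181))))) (XT.nd (nat_lit 234) (nat_lit 76) (nat_lit 0) (XT.nd (nat_lit 78) (nat_lit 0) (nat_lit 0) (XT.lf (nat_lit 0) (nat_lit 20079058213) (nat_lit 152) (nat_lit 14967701286) (nat_lit 0) (nat_lit 9079274569) (nat_lit 6) (nat_lit 5) (nat_lit 8) (nat_lit 4) (nat_lit 6) (nat_lit 4) (nat_lit 376) (nat_lit 224) (nat_lit 180)) (XT.nd (nat_lit 78) (nat_lit 0) (nat_lit 0) (XT.lf (nat_lit 0) (nat_lit 23028801083) (nat_lit 152) (nat_lit 10425997061) (nat_lit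 0) (nat_lit 11909089394) (nat_lit 6) (nat_lit 5) (nat_lit 8) (nat_lit 4) (nat_lit 6) (nat_lit 4) (nat_lit 377) (nat_lit 224) (nat_lit 179)) (XT.lf (nat_lit 0) (nat_lit 26038540443) (nat_lit 152) (nat_lit 5798816623) (nat_lit 0) (nat_lit 14802393759) (nat_lit 6) (nat_lit 5) (nat_lit 8) (nat_lit 4) (nat_lit 6) (nat_lit 4) (nat_lit 378) (nat_lit 224) (nat_lit 178)))) (XT.nd (nat_lit 78) (nat_lit 76) (nat_lit 0) (XT.lf (nat_lit 0) (nat_lit 29110906161) (nat_lit 152) (nat_lit 1082116806) (nat_lit 0) (nat_lit 17761715793) (nat_lit 6) (nat_lit 5) (nat_lit 8) (nat_lit 4) (nat_lit 6) (nat_lit 4) (nat_lit 379) (nat_lit 224) (nat_lit 177)) (XT.nd (nat_lit 78) (nat_lit 0) (nat_lit 0) (XT.lf (nat_lit 0) (nat_lit 3802422743) (nat_lit 76) (nat_lit 28482711301) (nat_lit 76) (nat_lit 17023769783) (nat_lit 5) (nat_lit 4) (nat_lit 6) (nat_lit 5) (nat_lit 6) (nat_lit 4) (nat_lit 380) (nat_lit 224) (nat_lit 176))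 (XT.lf (nat_lit 0) (nat_lit 8808289804) (nat_lit 76) (nat_lit 26730692976) (nat_lit 76) (nat_lit 15165196943) (nat_lit 5) (nat_lit 4) (nat_lit 6) (nat_lit 5) (nat_lit 6) (nat_lit 4) (nat_lit 381) (nat_lit 224) (nat_lit 175)))))) (XT.nd (nat_lit 468) (nat_lit 152) (nat_lit 0) (XT.nd (nat_lit 234) (nat_lit 0) (nat_lit 0) (XT.nd (nat_lit 78) (nat_lit 0) (nat_lit 0) (XT.lf (nat_lit 0) (nat_lit 13918322189) (nat_lit 76) (nat_lit 24946364360) (nat_lit 76) (nat_lit 13277417342) (nat_lit 5) (nat_lit 4) (nat_lit 6) (nat_lit 5) (nat_lit 6) (nat_lit 4) (nat_lit 382) (nat_lit 224) (nat_lit 174)) (XT.nd (nat_lit 78) (nat_lit 0) (nat_lit 0) (XT.lf (nat_lit 0) (nat_lit 19136984975) (nat_lit 76) (nat_lit 23128166331) (nat_lit 76) (nat_lit 11358781463) (nat_lit 5) (nat_lit 4) (nat_lit 6) (nat_lit 5) (nat_lit 6) (nat_lit 4) (nat_lit 383) (nat_lit 224) (nat_lit 173)) (XT.lf (nat_lit 0) (nat_lit 24468838159) (nat_lit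 76) (nat_lit 21274510172) (nat_lit 76) (nat_lit 9407612829) (nat_lit 5) (nat_lit 4) (nat_lit 6) (nat_lit 5) (nat_lit 6) (nat_lit 4) (nat_lit 384) (nat_lit 224) (nat_lit 172)))) (XT.nd (nat_lit 78) (nat_lit 0) (nat_lit 0) (XT.lf (nat_lit 0) (nat_lit 29918540641) (nat_lit 76) (nat_lit 19383776184) (nat_lit 76) (nat_lit 7422206535) (nat_lit 5) (nat_lit 4) (nat_lit 6) (nat_lit 5) (nat_lit 6) (nat_lit 4) (nat_lit 385) (nat_lit 224) (nat_lit 171)) (XT.nd (nat_lit 78) (nat_lit 0) (nat_lit 0) (XT.lf (nat_lit 0) (nat_lit 35490854298) (nat_lit 76) (nat_lit 17454312269) (nat_lit 76) (nat_lit 5400827760) (nat_lit 5) (nat_lit 4) (nat_lit 6) (nat_lit 5) (nat_lit 6) (nat_lit 4) (nat_lit 386) (nat_lit 224) (nat_lit 170)) (XT.lf (nat_lit 0) (nat_lit 41190648141) (nat_lit 76) (nat_lit 15484432488) (nat_lit 76) (nat_lit 3341710251) (nat_lit 5) (nat_lit 4) (nat_lit 6) (nat_lit 5) (nat_lit 6) (nat_lit 4) (nat_lit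 387) (nat_lit 224) (nat_lit 169))))) (XT.nd (nat_lit 234) (nat_lit 76) (nat_lit 0) (XT.nd (nat_lit 78) (nat_lit 76) (nat_lit 0) (XT.lf (nat_lit 0) (nat_lit 47022902573) (nat_lit 76) (nat_lit 13472415586) (nat_lit 76) (nat_lit 1243054778) (nat_lit 5) (nat_lit 4) (nat_lit 6) (nat_lit 5) (nat_lit 6) (nat_lit 4) (nat_lit 388) (nat_lit 224) (nat_lit 168)) (XT.nd (nat_lit 78) (nat_lit 0) (nat_lit 0) (XT.lf (nat_lit 0) (nat_lit 879469270) (nat_lit 152) (nat_lit 10528153306) (nat_lit 76) (nat_lit 52104363552) (nat_lit 4) (nat_lit 5) (nat_lit 6) (nat_lit 5) (nat_lit 5) (nat_lit 4) (nat_lit 389) (nat_lit 224) (nat_lit 167)) (XT.lf (nat_lit 0) (nat_lit 3020134710) (nat_lit 152) (nat_lit 6264267626) (nat_lit 76) (nat_lit 56054665827) (nat_lit 4) (nat_lit 5) (nat_lit 6) (nat_lit 5) (nat_lit 5) (nat_lit 4) (nat_lit 390) (nat_lit 224) (nat_lit 166)))) (XT.nd (nat_lit 78) (nat_lit 76) (nat_lit 0) (XT.lf (nat_lit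 0) (nat_lit 5205068499) (nat_lit 152) (nat_lit 1908138599) (nat_lit 76) (nat_lit 60108366894) (nat_lit 4) (nat_lit 5) (nat_lit 6) (nat_lit 5) (nat_lit 5) (nat_lit 4) (nat_lit 391) (nat_lit 224) (nat_lit 165)) (XT.nd (nat_lit 78) (nat_lit 0) (nat_lit 0) (XT.lf (nat_lit 0) (nat_lit 2594671488) (nat_lit 76) (nat_lit 4866449886) (nat_lit 152) (nat_lit 61699278904) (nat_lit 3) (nat_lit 5) (nat_lit 4) (nat_lit 5) (nat_lit 5) (nat_lit 4) (nat_lit 392) (nat_lit 224) (nat_lit 164)) (XT.lf (nat_lit 0) (nat_lit 7237386204) (nat_lit 76) (nat_lit 2547602120) (nat_lit 152) (nat_lit 61372411105) (nat_lit 3) (nat_lit 5) (nat_lit 4) (nat_lit 5) (nat_lit 5) (nat_lit 4) (nat_lit 393) (nat_lit 224) (nat_lit 163))))))))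
noncomputable def xc29 : XT := (XT.nd (nat_lit 36660) (nat_lit 0) (nat_lit 380) (XT.nd (nat_lit 35724) (nat_lit 0) (nat_lit 1140) (XT.nd (nat_lit 390) (nat_lit 0) (nat_lit 0) (XT.nd (nat_lit 156) (nat_lit 0) (nat_lit 0) (XT.nd (nat_lit 78) (nat_lit 0) (nat_lit 0) (XT.lf (nat_lit 0) (nat_lit 11986086589) (nat_lit 76) (nat_lit 173906082) (nat_lit 152) (nat_lit 61054884942) (nat_lit 3) (nat_lit 5) (nat_lit 4) (nat_lit 5) (nat_lit 5) (nat_lit 4) (nat_lit 394) (nat_lit 224) (nat_lit 162)) (XT.lf (nat_lit 0) (nat_lit 14609902561) (nat_lit 152) (nat_lit 58511403534) (nat_lit 0) (nat_lit 2212675744) (nat_lit 3) (nat_lit 5) (nat_lit 5) (nat_lit 4) (nat_lit 3) (nat_lit 4) (nat_lit 395) (nat_lit 224) (nat_lit 161))) (XT.nd (nat_lit 78) (nat_lit 0) (nat_lit 0) (XT.lf (nat_lit 0) (nat_lit 17117386118) (nat_lit 152) (nat_lit 55746003763) (nat_lit 0) (nat_lit 4653758050) (nat_lit 3) (nat_lit 5) (nat_lit 5)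 (nat_lit 4) (nat_lit 3) (nat_lit 4) (nat_lit 396) (nat_lit 224) (nat_lit 160)) (XT.nd (nat_lit 78) (nat_lit 0) (nat_lit 0) (XT.lf (nat_lit 0) (nat_lit 19682962654) (nat_lit 152) (nat_lit 52928503650) (nat_lit 0) (nat_lit 7154867353) (nat_lit 3) (nat_lit 5) (nat_lit 5) (nat_lit 4) (nat_lit 3) (nat_lit 4) (nat_lit 397) (nat_lit 224) (nat_lit 159)) (XT.lf (nat_lit 0) (nat_lit 22308873936) (nat_lit 152) (nat_lit 50056441304) (nat_lit 0) (nat_lit 9718189088) (nat_lit 3) (nat_lit 5) (nat_lit 5) (nat_lit 4) (nat_lit 3) (nat_lit 4) (nat_lit 398) (nat_lit 224) (nat_lit 158))))) (XT.nd (nat_lit 234) (nat_lit 0) (nat_lit 0) (XT.nd (nat_lit 78) (nat_lit 0) (nat_lit 0) (XT.lf (nat_lit 0) (nat_lit 24997414450) (nat_lit 152) (nat_lit 47127307154) (nat_lit 0) (nat_lit 12345963051) (nat_lit 3) (nat_lit 5) (nat_lit 5) (nat_lit 4) (nat_lit 3) (nat_lit 4) (nat_lit 399) (nat_lit 224) (nat_lit 157)) (XT.nd (nat_lit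 78) (nat_lit 0) (nat_lit 0) (XT.lf (nat_lit 0) (nat_lit 27750933405) (nat_lit 152) (nat_lit 44138541763) (nat_lit 0) (nat_lit 15040485355) (nat_lit 3) (nat_lit 5) (nat_lit 5) (nat_lit 4) (nat_lit 3) (nat_lit 4) (nat_lit 400) (nat_lit 224) (nat_lit 156)) (XT.lf (nat_lit 0) (nat_lit 30571836790) (nat_lit 152) (nat_lit 41087533589) (nat_lit 0) (nat_lit 17804110437) (nat_lit 3) (nat_lit 5) (nat_lit 5) (nat_lit 4) (nat_lit 3) (nat_lit 4) (nat_lit 401) (nat_lit 224) (nat_lit 155)))) (XT.nd (nat_lit 78) (nat_lit 0) (nat_lit 0) (XT.lf (nat_lit 0) (nat_lit 33462589470) (nat_lit 152) (nat_lit 37971616702) (nat_lit 0) (nat_lit 20639253115) (nat_lit 3) (nat_lit 5) (nat_lit 5) (nat_lit 4) (nat_lit 3) (nat_lit 4) (nat_lit 402) (nat_lit 224) (nat_lit 154)) (XT.nd (nat_lit 34944) (nat_lit 0) (nat_lit 1976) (XT.lf (nat_lit 0) (nat_lit 36425717347) (nat_lit 152) (nat_lit 34788068456) (nat_lit 0) (nat_lit 23548390699)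 (nat_lit 3) (nat_lit 5) (nat_lit 5) (nat_lit 4) (nat_lit 3) (nat_lit 4) (nat_lit 403) (nat_lit 224) (nat_lit 153)) (XT.lf (nat_lit 0) (nat_lit 2210496849) (nat_lit 228) (nat_lit 2620627608) (nat_lit 0) (nat_lit 2210496849) (nat_lit 29) (nat_lit 5) (nat_lit 32) (nat_lit 4) (nat_lit 29) (nat_lit 4) (nat_lit 330) (nat_lit 225) (nat_lit 225)))))) (XT.nd (nat_lit 468) (nat_lit 304) (nat_lit 0) (XT.nd (nat_lit 234) (nat_lit 304) (nat_lit 0) (XT.nd (nat_lit 78) (nat_lit 76) (nat_lit 0) (XT.lf (nat_lit 0) (nat_lit 1330574041) (nat_lit 152) (nat_lit 6794153094) (nat_lit 152) (nat_lit 6252627218) (nat_lit 27) (nat_lit 4) (nat_lit 29) (nat_lit 5) (nat_lit 29) (nat_lit 4) (nat_lit 331) (nat_lit 225) (nat_lit 224)) (XT.nd (nat_lit 78) (nat_lit 76) (nat_lit 0) (XT.lf (nat_lit 0) (nat_lit 8074901775) (nat_lit 152) (nat_lit 3836795207) (nat_lit 152) (nat_lit 2769516054) (nat_lit 27) (nat_lit 4) (nat_lit 29)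 (nat_lit 5) (nat_lit 29) (nat_lit 4) (nat_lit 332) (nat_lit 225) (nat_lit 223)) (XT.lf (nat_lit 0) (nat_lit 722816212) (nat_lit 228) (nat_lit 110402317) (nat_lit 76) (nat_lit 14163194594) (nat_lit 26) (nat_lit 5) (nat_lit 29) (nat_lit 5) (nat_lit 27) (nat_lit 4) (nat_lit 333) (nat_lit 225) (nat_lit 222)))) (XT.nd (nat_lit 78) (nat_lit 152) (nat_lit 0) (XT.lf (nat_lit 0) (nat_lit 4272415756) (nat_lit 228) (nat_lit 8788155096) (nat_lit 0) (nat_lit 2259510789) (nat_lit 24) (nat_lit 5) (nat_lit 27) (nat_lit 4) (nat_lit 24) (nat_lit 4) (nat_lit 334) (nat_lit 225) (nat_lit 221)) (XT.nd (nat_lit 78) (nat_lit 152) (nat_lit 0) (XT.lf (nat_lit 0) (nat_lit 7861452207) (nat_lit 228) (nat_lit 2412674862) (nat_lit 0) (nat_lit 5381422262) (nat_lit 24) (nat_lit 5) (nat_lit 27) (nat_lit 4) (nat_lit 24) (nat_lit 4) (nat_lit 335) (nat_lit 225) (nat_lit 220)) (XT.lf (nat_lit 0) (nat_lit 4111211033) (nat_lit 152)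 (nat_lit 7412267560) (nat_lit 152) (nat_lit 4478718220) (nat_lit 22) (nat_lit 4) (nat_lit 24) (nat_lit 5) (nat_lit 24) (nat_lit 4) (nat_lit 336) (nat_lit 225) (nat_lit 219))))) (XT.nd (nat_lit 234) (nat_lit 152) (nat_lit 0) (XT.nd (nat_lit 78) (nat_lit 152) (nat_lit 0) (XT.lf (nat_lit 0) (nat_lit 10758394393) (nat_lit 152) (nat_lit 4488123661) (nat_lit 152) (nat_lit 1114264229) (nat_lit 22) (nat_lit 4) (nat_lit 24) (nat_lit 5) (nat_lit 24) (nat_lit 4) (nat_lit 337) (nat_lit 225) (nat_lit 218)) (XT.nd (nat_lit 78) (nat_lit 0) (nat_lit 0) (XT.lf (nat_lit 0) (nat_lit 747018819) (nat_lit 76) (nat_lit 1493554470) (nat_lit 152) (nat_lit 14490883084) (nat_lit 20) (nat_lit 5) (nat_lit 21) (nat_lit 5) (nat_lit 22) (nat_lit 4) (nat_lit 338) (nat_lit 225) (nat_lit 217)) (XT.lf (nat_lit 0) (nat_lit 5674727040) (nat_lit 152) (nat_lit 9857072843) (nat_lit 0) (nat_lit 1581154757) (nat_lit 20) (nat_lit 5) (nat_lit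 22) (nat_lit 4) (nat_lit 20) (nat_lit 4) (nat_lit 339) (nat_lit 225) (nat_lit 216)))) (XT.nd (nat_lit 78) (nat_lit 152) (nat_lit 0) (XT.lf (nat_lit 0) (nat_lit 9157412693) (nat_lit 152) (nat_lit 3677554326) (nat_lit 0) (nat_lit 4672630595) (nat_lit 20) (nat_lit 5) (nat_lit 22) (nat_lit 4) (nat_lit 20) (nat_lit 4) (nat_lit 340) (nat_lit 225) (nat_lit 215)) (XT.nd (nat_lit 78) (nat_lit 0) (nat_lit 0) (XT.lf (nat_lit 0) (nat_lit 2625099684) (nat_lit 152) (nat_lit 10077450791) (nat_lit 152) (nat_lit 5212853339) (nat_lit 18) (nat_lit 4) (nat_lit 20) (nat_lit 5) (nat_lit 20) (nat_lit 4) (nat_lit 341) (nat_lit 225) (nat_lit 214)) (XT.lf (nat_lit 0) (nat_lit 9079856865) (nat_lit 152) (nat_lit 7244938113) (nat_lit 152) (nat_lit 2011587890) (nat_lit 18) (nat_lit 4) (nat_lit 20) (nat_lit 5) (nat_lit 20) (nat_lit 4) (nat_lit 342) (nat_lit 225) (nat_lit 213))))))) (XT.nd (nat_lit 936) (nat_lit 304) (nat_lit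 0) (XT.nd (nat_lit 468) (nat_lit 152) (nat_lit 0) (XT.nd (nat_lit 234) (nat_lit 152) (nat_lit 0) (XT.nd (nat_lit 78) (nat_lit 76) (nat_lit 0) (XT.lf (nat_lit 0) (nat_lit 1195480158) (nat_lit 228) (nat_lit 3164537899) (nat_lit 76) (nat_lit 14411614588) (nat_lit 17) (nat_lit 5) (nat_lit 20) (nat_lit 5) (nat_lit 18) (nat_lit 4) (nat_lit 343) (nat_lit 225) (nat_lit 212)) (XT.nd (nat_lit 78) (nat_lit 0) (nat_lit 0) (XT.lf (nat_lit 0) (nat_lit 3042434536) (nat_lit 76) (nat_lit 1381891577) (nat_lit 152) (nat_lit 14796092447) (nat_lit 16) (nat_lit 5) (nat_lit 17) (nat_lit 5) (nat_lit 18) (nat_lit 4) (nat_lit 344) (nat_lit 225) (nat_lit 211)) (XT.lf (nat_lit 0) (nat_lit 7735664358) (nat_lit 152) (nat_lit 10305425426) (nat_lit 0) (nat_lit 1642063876) (nat_lit 16) (nat_lit 5) (nat_lit 18) (nat_lit 4) (nat_lit 16) (nat_lit 4) (nat_lit 345) (nat_lit 225) (nat_lit 210)))) (XT.nd (nat_lit 78) (nat_lit 152)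 (nat_lit 0) (XT.lf (nat_lit 0) (nat_lit 11099007446) (nat_lit 152) (nat_lit 4374918674) (nat_lit 0) (nat_lit 4687317585) (nat_lit 16) (nat_lit 5) (nat_lit 18) (nat_lit 4) (nat_lit 16) (nat_lit 4) (nat_lit 346) (nat_lit 225) (nat_lit 209)) (XT.nd (nat_lit 78) (nat_lit 0) (nat_lit 0) (XT.lf (nat_lit 0) (nat_lit 1664481848) (nat_lit 152) (nat_lit 12855528802) (nat_lit 152) (nat_lit 6135014300) (nat_lit 14) (nat_lit 4) (nat_lit 16) (nat_lit 5) (nat_lit 16) (nat_lit 4) (nat_lit 347) (nat_lit 225) (nat_lit 208)) (XT.lf (nat_lit 0) (nat_lit 7874239578) (nat_lit 152) (nat_lit 10155101593) (nat_lit 152) (nat_lit 3134757344) (nat_lit 14) (nat_lit 4) (nat_lit 16) (nat_lit 5) (nat_lit 16) (nat_lit 4) (nat_lit 348) (nat_lit 225) (nat_lit 207))))) (XT.nd (nat_lit 234) (nat_lit 0) (nat_lit 0) (XT.nd (nat_lit 78) (nat_lit 152) (nat_lit 0) (XT.lf (nat_lit 0) (nat_lit 14172711055) (nat_lit 152) (nat_lit 7414462999)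 (nat_lit 152) (nat_lit 103021907) (nat_lit 14) (nat_lit 4) (nat_lit 16) (nat_lit 5) (nat_lit 16) (nat_lit 4) (nat_lit 349) (nat_lit 225) (nat_lit 206)) (XT.nd (nat_lit 78) (nat_lit 76) (nat_lit 0) (XT.lf (nat_lit 0) (nat_lit 2905025396) (nat_lit 228) (nat_lit 1696857829) (nat_lit 76) (nat_lit 17631039342) (nat_lit 13) (nat_lit 5) (nat_lit 16) (nat_lit 5) (nat_lit 14) (nat_lit 4) (nat_lit 350) (nat_lit 225) (nat_lit 205)) (XT.lf (nat_lit 0) (nat_lit 4287942900) (nat_lit 76) (nat_lit 1700426054) (nat_lit 152) (nat_lit 16803961899) (nat_lit 12) (nat_lit 5) (nat_lit 13) (nat_lit 5) (nat_lit 14) (nat_lit 4) (nat_lit 351) (nat_lit 225) (nat_lit 204)))) (XT.nd (nat_lit 78) (nat_lit 0) (nat_lit 0) (XT.lf (nat_lit 0) (nat_lit 9140122893) (nat_lit 152) (nat_lit 12986945067) (nat_lit 0) (nat_lit 1242219082) (nat_lit 12) (nat_lit 5) (nat_lit 14) (nat_lit 4) (nat_lit 12) (nat_lit 4) (nat_lit 352) (nat_lit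 225) (nat_lit 203)) (XT.nd (nat_lit 78) (nat_lit 0) (nat_lit 0) (XT.lf (nat_lit 0) (nat_lit 12351055371) (nat_lit 152) (nat_lit 7411550607) (nat_lit 0) (nat_lit 4202048867) (nat_lit 12) (nat_lit 5) (nat_lit 14) (nat_lit 4) (nat_lit 12) (nat_lit 4) (nat_lit 353) (nat_lit 225) (nat_lit 202)) (XT.lf (nat_lit 0) (nat_lit 15607626522) (nat_lit 152) (nat_lit 1756987335) (nat_lit 0) (nat_lit 7214830995) (nat_lit 12) (nat_lit 5) (nat_lit 14) (nat_lit 4) (nat_lit 12) (nat_lit 4) (nat_lit 354) (nat_lit 225) (nat_lit 201)))))) (XT.nd (nat_lit 468) (nat_lit 76) (nat_lit 0) (XT.nd (nat_lit 234) (nat_lit 152) (nat_lit 0) (XT.nd (nat_lit 78) (nat_lit 0) (nat_lit 0) (XT.lf (nat_lit 0) (nat_lit 4060928982) (nat_lit 76) (nat_lit 14890789045) (nat_lit 76) (nat_lit 6261305147) (nat_lit 11) (nat_lit 4) (nat_lit 12) (nat_lit 5) (nat_lit 12) (nat_lit 4) (nat_lit 355) (nat_lit 225) (nat_lit 200)) (XT.nd (nat_lit 78)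 (nat_lit 0) (nat_lit 0) (XT.lf (nat_lit 0) (nat_lit 10004710603) (nat_lit 76) (nat_lit 12360570193) (nat_lit 76) (nat_lit 3501291760) (nat_lit 11) (nat_lit 4) (nat_lit 12) (nat_lit 5) (nat_lit 12) (nat_lit 4) (nat_lit 356) (nat_lit 225) (nat_lit 199)) (XT.lf (nat_lit 0) (nat_lit 16044583632) (nat_lit 76) (nat_lit 9789488558) (nat_lit 76) (nat_lit 707108634) (nat_lit 11) (nat_lit 4) (nat_lit 12) (nat_lit 5) (nat_lit 12) (nat_lit 4) (nat_lit 357) (nat_lit 225) (nat_lit 198)))) (XT.nd (nat_lit 78) (nat_lit 76) (nat_lit 0) (XT.lf (nat_lit 0) (nat_lit 2082244991) (nat_lit 152) (nat_lit 5072025979) (nat_lit 76) (nat_lit 20082554044) (nat_lit 10) (nat_lit 5) (nat_lit 12) (nat_lit 5) (nat_lit 11) (nat_lit 4) (nat_lit 358) (nat_lit 225) (nat_lit 197)) (XT.nd (nat_lit 78) (nat_lit 0) (nat_lit 0) (XT.lf (nat_lit 0) (nat_lit 438405610) (nat_lit 76) (nat_lit 4461931077) (nat_lit 152) (nat_lit 23054047634)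 (nat_lit 9) (nat_lit 5) (nat_lit 10) (nat_lit 5) (nat_lit 11) (nat_lit 4) (nat_lit 359) (nat_lit 225) (nat_lit 196)) (XT.lf (nat_lit 0) (nat_lit 6140460079) (nat_lit 76) (nat_lit 1669346528) (nat_lit 152) (nat_lit 20883491657) (nat_lit 9) (nat_lit 5) (nat_lit 10) (nat_lit 5) (nat_lit 11) (nat_lit 4) (nat_lit 360) (nat_lit 225) (nat_lit 195))))) (XT.nd (nat_lit 234) (nat_lit 76) (nat_lit 0) (XT.nd (nat_lit 78) (nat_lit 0) (nat_lit 0) (XT.lf (nat_lit 0) (nat_lit 10774763247) (nat_lit 152) (nat_lit 17528819714) (nat_lit 0) (nat_lit 1151782549) (nat_lit 9) (nat_lit 5) (nat_lit 11) (nat_lit 4) (nat_lit 9) (nat_lit 4) (nat_lit 361) (nat_lit 225) (nat_lit 194)) (XT.nd (nat_lit 78) (nat_lit 0) (nat_lit 0) (XT.lf (nat_lit 0) (nat_lit 13803060897) (nat_lit 152) (nat_lit 12444796929) (nat_lit 0) (nat_lit 3993236213) (nat_lit 9) (nat_lit 5) (nat_lit 11) (nat_lit 4) (nat_lit 9) (nat_lit 4) (nat_lit 362) (nat_lit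 225) (nat_lit 193)) (XT.lf (nat_lit 0) (nat_lit 16881298861) (nat_lit 152) (nat_lit 7280280700) (nat_lit 0) (nat_lit 6890072249) (nat_lit 9) (nat_lit 5) (nat_lit 11) (nat_lit 4) (nat_lit 9) (nat_lit 4) (nat_lit 363) (nat_lit 225) (nat_lit 192)))) (XT.nd (nat_lit 78) (nat_lit 76) (nat_lit 0) (XT.lf (nat_lit 0) (nat_lit 20012166863) (nat_lit 152) (nat_lit 2030758343) (nat_lit 0) (nat_lit 9844821874) (nat_lit 9) (nat_lit 5) (nat_lit 11) (nat_lit 4) (nat_lit 9) (nat_lit 4) (nat_lit 364) (nat_lit 225) (nat_lit 191)) (XT.nd (nat_lit 78) (nat_lit 0) (nat_lit 0) (XT.lf (nat_lit 0) (nat_lit 3374199895) (nat_lit 76) (nat_lit 19856635590) (nat_lit 76) (nat_lit 9518301885) (nat_lit 8) (nat_lit 4) (nat_lit 9) (nat_lit 5) (nat_lit 9) (nat_lit 4) (nat_lit 365) (nat_lit 225) (nat_lit 190)) (XT.lf (nat_lit 0) (nat_lit 8915708469) (nat_lit 76) (nat_lit 17612778970) (nat_lit 76) (nat_lit 7108436804) (nat_lit 8)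 (nat_lit 4) (nat_lit 9) (nat_lit 5) (nat_lit 9) (nat_lit 4) (nat_lit 366) (nat_lit 225) (nat_lit 189))))))))
noncomputable def xc30 : XT := (XT.nd (nat_lit 1794) (nat_lit 152) (nat_lit 0) (XT.nd (nat_lit 858) (nat_lit 76) (nat_lit 0) (XT.nd (nat_lit 390) (nat_lit 76) (nat_lit 0) (XT.nd (nat_lit 156) (nat_lit 76) (nat_lit 0) (XT.nd (nat_lit 78) (nat_lit 0) (nat_lit 0) (XT.lf (nat_lit 0) (nat_lit 14558193399) (nat_lit 76) (nat_lit 15329901374) (nat_lit 76) (nat_lit 4664385944) (nat_lit 8) (nat_lit 4) (nat_lit 9) (nat_lit 5) (nat_lit 9) (nat_lit 4) (nat_lit 367) (nat_lit 225) (nat_lit 188)) (XT.lf (nat_lit 0) (nat_lit 20306585012) (nat_lit 76) (nat_lit 13006008054) (nat_lit 76) (nat_lit 2184013727) (nat_lit 8) (nat_lit 4) (nat_lit 9) (nat_lit 5) (nat_lit 9) (nat_lit 4) (nat_lit 368) (nat_lit 225) (nat_lit 187))) (XT.nd (nat_lit 78) (nat_lit 0) (nat_lit 0) (XT.lf (nat_lit 0) (nat_lit 328313088) (nat_lit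 152) (nat_lit 10307440016) (nat_lit 76) (nat_lit 25834277768) (nat_lit 7) (nat_lit 5) (nat_lit 9) (nat_lit 5) (nat_lit 8) (nat_lit 4) (nat_lit 369) (nat_lit 225) (nat_lit 186)) (XT.nd (nat_lit 78) (nat_lit 0) (nat_lit 0) (XT.lf (nat_lit 0) (nat_lit 2837917547) (nat_lit 152) (nat_lit 5360439331) (nat_lit 76) (nat_lit 29274701731) (nat_lit 7) (nat_lit 5) (nat_lit 9) (nat_lit 5) (nat_lit 8) (nat_lit 4) (nat_lit 370) (nat_lit 225) (nat_lit 185)) (XT.lf (nat_lit 0) (nat_lit 5389610483) (nat_lit 152) (nat_lit 323703029) (nat_lit 76) (nat_lit 32793882750) (nat_lit 7) (nat_lit 5) (nat_lit 9) (nat_lit 5) (nat_lit 8) (nat_lit 4) (nat_lit 371) (nat_lit 225) (nat_lit 184))))) (XT.nd (nat_lit 234) (nat_lit 0) (nat_lit 0) (XT.nd (nat_lit 78) (nat_lit 0) (nat_lit 0) (XT.lf (nat_lit 0) (nat_lit 4902842029) (nat_lit 76) (nat_lit 3129908617) (nat_lit 152) (nat_lit 31539182923) (nat_lit 6) (nat_lit 5) (nat_lit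 7) (nat_lit 5) (nat_lit 8) (nat_lit 4) (nat_lit 372) (nat_lit 225) (nat_lit 183)) (XT.nd (nat_lit 78) (nat_lit 0) (nat_lit 0) (XT.lf (nat_lit 0) (nat_lit 10236412079) (nat_lit 76) (nat_lit 490205622) (nat_lit 152) (nat_lit 29942874080) (nat_lit 6) (nat_lit 5) (nat_lit 7) (nat_lit 5) (nat_lit 8) (nat_lit 4) (nat_lit 373) (nat_lit 225) (nat_lit 182)) (XT.lf (nat_lit 0) (nat_lit 13491586159) (nat_lit 152) (nat_lit 26146894145) (nat_lit 0) (nat_lit 2161809006) (nat_lit 6) (nat_lit 5) (nat_lit 8) (nat_lit 4) (nat_lit 6) (nat_lit 4) (nat_lit 374) (nat_lit 225) (nat_lit 181)))) (XT.nd (nat_lit 78) (nat_lit 0) (nat_lit 0) (XT.lf (nat_lit 0) (nat_lit 16314126001) (nat_lit 152) (nat_lit 21790843648) (nat_lit 0) (nat_lit 4860822961) (nat_lit 6) (nat_lit 5) (nat_lit 8) (nat_lit 4) (nat_lit 6) (nat_lit 4) (nat_lit 375) (nat_lit 225) (nat_lit 180)) (XT.nd (nat_lit 78) (nat_lit 0) (nat_lit 0) (XT.lf (nat_lit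 0) (nat_lit 19191991368) (nat_lit 152) (nat_lit 17356409798) (nat_lit 0) (nat_lit 7618760284) (nat_lit 6) (nat_lit 5) (nat_lit 8) (nat_lit 4) (nat_lit 6) (nat_lit 4) (nat_lit 376) (nat_lit 225) (nat_lit 179)) (XT.lf (nat_lit 0) (nat_lit 22127696900) (nat_lit 152) (nat_lit 12839717846) (nat_lit 0) (nat_lit 10438030820) (nat_lit 6) (nat_lit 5) (nat_lit 8) (nat_lit 4) (nat_lit 6) (nat_lit 4) (nat_lit 377) (nat_lit 225) (nat_lit 178)))))) (XT.nd (nat_lit 468) (nat_lit 0) (nat_lit 0) (XT.nd (nat_lit 234) (nat_lit 0) (nat_lit 0) (XT.nd (nat_lit 78) (nat_lit 76) (nat_lit 0) (XT.lf (nat_lit 0) (nat_lit 25123807776) (nat_lit 152) (nat_lit 8236821168) (nat_lit 0) (nat_lit 13321098012) (nat_lit 6) (nat_lit 5) (nat_lit 8) (nat_lit 4) (nat_lit 6) (nat_lit 4) (nat_lit 378) (nat_lit 225) (nat_lit 177)) (XT.nd (nat_lit 78) (nat_lit 76) (nat_lit 0) (XT.lf (nat_lit 0) (nat_lit 28182941957) (nat_lit 152) (nat_lit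 3543697817) (nat_lit 0) (nat_lit 16270481044) (nat_lit 6) (nat_lit 5) (nat_lit 8) (nat_lit 4) (nat_lit 6) (nat_lit 4) (nat_lit 379) (nat_lit 225) (nat_lit 176)) (XT.lf (nat_lit 0) (nat_lit 1268506119) (nat_lit 76) (nat_lit 30051460012) (nat_lit 76) (nat_lit 18032444584) (nat_lit 5) (nat_lit 4) (nat_lit 6) (nat_lit 5) (nat_lit 6) (nat_lit 4) (nat_lit 380) (nat_lit 225) (nat_lit 175)))) (XT.nd (nat_lit 78) (nat_lit 0) (nat_lit 0) (XT.lf (nat_lit 0) (nat_lit 6251707816) (nat_lit 76) (nat_lit 28309417183) (nat_lit 76) (nat_lit 16186950770) (nat_lit 5) (nat_lit 4) (nat_lit 6) (nat_lit 5) (nat_lit 6) (nat_lit 4) (nat_lit 381) (nat_lit 225) (nat_lit 174)) (XT.nd (nat_lit 78) (nat_lit 0) (nat_lit 0) (XT.lf (nat_lit 0) (nat_lit 11339734994) (nat_lit 76) (nat_lit 26534773516) (nat_lit 76) (nat_lit 14311869253) (nat_lit 5) (nat_lit 4) (nat_lit 6) (nat_lit 5) (nat_lit 6) (nat_lit 4) (nat_lit 382) (nat_lit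 225) (nat_lit 173)) (XT.lf (nat_lit 0) (nat_lit 16537033502) (nat_lit 76) (nat_lit 24725978349) (nat_lit 76) (nat_lit 12405561612) (nat_lit 5) (nat_lit 4) (nat_lit 6) (nat_lit 5) (nat_lit 6) (nat_lit 4) (nat_lit 383) (nat_lit 225) (nat_lit 172))))) (XT.nd (nat_lit 234) (nat_lit 0) (nat_lit 0) (XT.nd (nat_lit 78) (nat_lit 0) (nat_lit 0) (XT.lf (nat_lit 0) (nat_lit 21848144667) (nat_lit 76) (nat_lit 22881451183) (nat_lit 76) (nat_lit 10466362140) (nat_lit 5) (nat_lit 4) (nat_lit 6) (nat_lit 5) (nat_lit 6) (nat_lit 4) (nat_lit 384) (nat_lit 225) (nat_lit 171)) (XT.nd (nat_lit 78) (nat_lit 0) (nat_lit 0) (XT.lf (nat_lit 0) (nat_lit 27277709268) (nat_lit 76) (nat_lit 20999580295) (nat_lit 76) (nat_lit 8492576391) (nat_lit 5) (nat_lit 4) (nat_lit 6) (nat_lit 5) (nat_lit 6) (nat_lit 4) (nat_lit 385) (nat_lit 225) (nat_lit 170)) (XT.lf (nat_lit 0) (nat_lit 32830471583) (nat_lit 76) (nat_lit 19078721332)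 (nat_lit 76) (nat_lit 6482479700) (nat_lit 5) (nat_lit 4) (nat_lit 6) (nat_lit 5) (nat_lit 6) (nat_lit 4) (nat_lit 386) (nat_lit 225) (nat_lit 169)))) (XT.nd (nat_lit 78) (nat_lit 0) (nat_lit 0) (XT.lf (nat_lit 0) (nat_lit 38511283541) (nat_lit 76) (nat_lit 17117195873) (nat_lit 76) (nat_lit 4434315669) (nat_lit 5) (nat_lit 4) (nat_lit 6) (nat_lit 5) (nat_lit 6) (nat_lit 4) (nat_lit 387) (nat_lit 225) (nat_lit 168)) (XT.nd (nat_lit 78) (nat_lit 0) (nat_lit 0) (XT.lf (nat_lit 0) (nat_lit 44325108958) (nat_lit 76) (nat_lit 15113289963) (nat_lit 76) (nat_lit 2346294642) (nat_lit 5) (nat_lit 4) (nat_lit 6) (nat_lit 5) (nat_lit 6) (nat_lit 4) (nat_lit 388) (nat_lit 225) (nat_lit 167)) (XT.lf (nat_lit 0) (nat_lit 50277027876) (nat_lit 76) (nat_lit 13065252618) (nat_lit 76) (nat_lit 216592134) (nat_lit 5) (nat_lit 4) (nat_lit 6) (nat_lit 5) (nat_lit 6) (nat_lit 4) (nat_lit 389) (nat_lit 225) (nat_lit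 166))))))) (XT.nd (nat_lit 936) (nat_lit 0) (nat_lit 0) (XT.nd (nat_lit 468) (nat_lit 0) (nat_lit 0) (XT.nd (nat_lit 234) (nat_lit 76) (nat_lit 0) (XT.nd (nat_lit 78) (nat_lit 0) (nat_lit 0) (XT.lf (nat_lit 0) (nat_lit 1918471417) (nat_lit 152) (nat_lit 9033450072) (nat_lit 76) (nat_lit 54434396783) (nat_lit 4) (nat_lit 5) (nat_lit 6) (nat_lit 5) (nat_lit 5) (nat_lit 4) (nat_lit 390) (nat_lit 225) (nat_lit 165)) (XT.nd (nat_lit 78) (nat_lit 0) (nat_lit 0) (XT.lf (nat_lit 0) (nat_lit 4093863089) (nat_lit 152) (nat_lit 4694382226) (nat_lit 76) (nat_lit 58480871166) (nat_lit 4) (nat_lit 5) (nat_lit 6) (nat_lit 5) (nat_lit 5) (nat_lit 4) (nat_lit 391) (nat_lit 225) (nat_lit 164)) (XT.lf (nat_lit 0) (nat_lit 6315710203) (nat_lit 152) (nat_lit 258767777) (nat_lit 76) (nat_lit 62634496895) (nat_lit 4) (nat_lit 5) (nat_lit 6) (nat_lit 5) (nat_lit 5) (nat_lit 4) (nat_lit 392) (nat_lit 225) (nat_lit 163))))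 (XT.nd (nat_lit 78) (nat_lit 0) (nat_lit 0) (XT.lf (nat_lit 0) (nat_lit 4362395093) (nat_lit 76) (nat_lit 4265493095) (nat_lit 152) (nat_lit 62578442270) (nat_lit 3) (nat_lit 5) (nat_lit 4) (nat_lit 5) (nat_lit 5) (nat_lit 4) (nat_lit 393) (nat_lit 225) (nat_lit 162)) (XT.nd (nat_lit 78) (nat_lit 0) (nat_lit 0) (XT.lf (nat_lit 0) (nat_lit 9095171344) (nat_lit 76) (nat_lit 1898835730) (nat_lit 152) (nat_lit 62270073729) (nat_lit 3) (nat_lit 5) (nat_lit 4) (nat_lit 5) (nat_lit 5) (nat_lit 4) (nat_lit 394) (nat_lit 225) (nat_lit 161)) (XT.lf (nat_lit 0) (nat_lit 13418643534) (nat_lit 152) (nat_lit 61450599757) (nat_lit 0) (nat_lit 514705374) (nat_lit 3) (nat_lit 5) (nat_lit 5) (nat_lit 4) (nat_lit 3) (nat_lit 4) (nat_lit 395) (nat_lit 225) (nat_lit 160))))) (XT.nd (nat_lit 234) (nat_lit 0) (nat_lit 0) (XT.nd (nat_lit 78) (nat_lit 0) (nat_lit 0) (XT.lf (nat_lit 0) (nat_lit 15917687915) (nat_lit 152)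 (nat_lit 58700402770) (nat_lit 0) (nat_lit 2949282521) (nat_lit 3) (nat_lit 5) (nat_lit 5) (nat_lit 4) (nat_lit 3) (nat_lit 4) (nat_lit 396) (nat_lit 225) (nat_lit 159)) (XT.nd (nat_lit 78) (nat_lit 0) (nat_lit 0) (XT.lf (nat_lit 0) (nat_lit 18475071077) (nat_lit 152) (nat_lit 55897662642) (nat_lit 0) (nat_lit 5444076135) (nat_lit 3) (nat_lit 5) (nat_lit 5) (nat_lit 4) (nat_lit 3) (nat_lit 4) (nat_lit 397) (nat_lit 225) (nat_lit 158)) (XT.lf (nat_lit 0) (nat_lit 21093027626) (nat_lit 152) (nat_lit 53039930378) (nat_lit 0) (nat_lit 8001266134) (nat_lit 3) (nat_lit 5) (nat_lit 5) (nat_lit 4) (nat_lit 3) (nat_lit 4) (nat_lit 398) (nat_lit 225) (nat_lit 157)))) (XT.nd (nat_lit 78) (nat_lit 0) (nat_lit 0) (XT.lf (nat_lit 0) (nat_lit 23773845099) (nat_lit 152) (nat_lit 50124708929) (nat_lit 0) (nat_lit 10623086956) (nat_lit 3) (nat_lit 5) (nat_lit 5) (nat_lit 4) (nat_lit 3) (nat_lit 4) (nat_lit 399)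 (nat_lit 225) (nat_lit 156)) (XT.nd (nat_lit 78) (nat_lit 0) (nat_lit 0) (XT.lf (nat_lit 0) (nat_lit 26519865956) (nat_lit 152) (nat_lit 47149451016) (nat_lit 0) (nat_lit 13311829510) (nat_lit 3) (nat_lit 5) (nat_lit 5) (nat_lit 4) (nat_lit 3) (nat_lit 4) (nat_lit 400) (nat_lit 225) (nat_lit 155)) (XT.lf (nat_lit 0) (nat_lit 29333489633) (nat_lit 152) (nat_lit 44111556897) (nat_lit 0) (nat_lit 16069843186) (nat_lit 3) (nat_lit 5) (nat_lit 5) (nat_lit 4) (nat_lit 3) (nat_lit 4) (nat_lit 401) (nat_lit 225) (nat_lit 154)))))) (XT.nd (nat_lit 35178) (nat_lit 0) (nat_lit 1444) (XT.nd (nat_lit 34944) (nat_lit 0) (nat_lit 1824) (XT.nd (nat_lit 78) (nat_lit 0) (nat_lit 0) (XT.lf (nat_lit 0) (nat_lit 32217174636) (nat_lit 152) (nat_lit 41008372102) (nat_lit 0) (nat_lit 18899537896) (nat_lit 3) (nat_lit 5) (nat_lit 5) (nat_lit 4) (nat_lit 3) (nat_lit 4) (nat_lit 402) (nat_lit 225) (nat_lit 153)) (XT.nd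 (nat_lit 34788) (nat_lit 0) (nat_lit 2204) (XT.lf (nat_lit 0) (nat_lit 35173440691) (nat_lit 152) (nat_lit 37837185111) (nat_lit 0) (nat_lit 21803386190) (nat_lit 3) (nat_lit 5) (nat_lit 5) (nat_lit 4) (nat_lit 3) (nat_lit 4) (nat_lit 403) (nat_lit 225) (nat_lit 152)) (XT.lf (nat_lit 0) (nat_lit 4503126860) (nat_lit 152) (nat_lit 1129241491) (nat_lit 152) (nat_lit 1129241491) (nat_lit 32) (nat_lit 4) (nat_lit 34) (nat_lit 5) (nat_lit 34) (nat_lit 4) (nat_lit 328) (nat_lit 226) (nat_lit 226)))) (XT.nd (nat_lit 78) (nat_lit 152) (nat_lit 0) (XT.lf (nat_lit 0) (nat_lit 1315793207) (nat_lit 228) (nat_lit 11725983227) (nat_lit 0) (nat_lit 758021555) (nat_lit 29) (nat_lit 5) (nat_lit 32) (nat_lit 4) (nat_lit 29) (nat_lit 4) (nat_lit 329) (nat_lit 226) (nat_lit 225)) (XT.nd (nat_lit 78) (nat_lit 152) (nat_lit 0) (XT.lf (nat_lit 0) (nat_lit 4938411575) (nat_lit 228) (nat_lit 5306971908) (nat_lit 0) (nat_lit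 3839114048) (nat_lit 29) (nat_lit 5) (nat_lit 32) (nat_lit 4) (nat_lit 29) (nat_lit 4) (nat_lit 330) (nat_lit 226) (nat_lit 224)) (XT.lf (nat_lit 0) (nat_lit 1198477046) (nat_lit 152) (nat_lit 7403219747) (nat_lit 152) (nat_lit 5778168942) (nat_lit 27) (nat_lit 4) (nat_lit 29) (nat_lit 5) (nat_lit 29) (nat_lit 4) (nat_lit 331) (nat_lit 226) (nat_lit 223))))) (XT.nd (nat_lit 234) (nat_lit 152) (nat_lit 0) (XT.nd (nat_lit 78) (nat_lit 228) (nat_lit 0) (XT.lf (nat_lit 0) (nat_lit 7879627683) (nat_lit 152) (nat_lit 4470394359) (nat_lit 152) (nat_lit 2334903479) (nat_lit 27) (nat_lit 4) (nat_lit 29) (nat_lit 5) (nat_lit 29) (nat_lit 4) (nat_lit 332) (nat_lit 226) (nat_lit 222)) (XT.nd (nat_lit 78) (nat_lit 152) (nat_lit 0) (XT.lf (nat_lit 0) (nat_lit 1111017670) (nat_lit 228) (nat_lit 375697896) (nat_lit 76) (nat_lit 13514461980) (nat_lit 26) (nat_lit 5) (nat_lit 29) (nat_lit 5) (nat_lit 27) (nat_lit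 4) (nat_lit 333) (nat_lit 226) (nat_lit 221)) (XT.lf (nat_lit 0) (nat_lit 4614060115) (nat_lit 228) (nat_lit 9119716588) (nat_lit 0) (nat_lit 1592504295) (nat_lit 24) (nat_lit 5) (nat_lit 27) (nat_lit 4) (nat_lit 24) (nat_lit 4) (nat_lit 334) (nat_lit 226) (nat_lit 220)))) (XT.nd (nat_lit 78) (nat_lit 152) (nat_lit 0) (XT.lf (nat_lit 0) (nat_lit 8166544530) (nat_lit 228) (nat_lit 2804868512) (nat_lit 0) (nat_lit 4691469314) (nat_lit 24) (nat_lit 5) (nat_lit 27) (nat_lit 4) (nat_lit 24) (nat_lit 4) (nat_lit 335) (nat_lit 226) (nat_lit 219)) (XT.nd (nat_lit 78) (nat_lit 0) (nat_lit 0) (XT.lf (nat_lit 0) (nat_lit 3651174235) (nat_lit 152) (nat_lit 8137487112) (nat_lit 152) (nat_lit 4222101803) (nat_lit 22) (nat_lit 4) (nat_lit 24) (nat_lit 5) (nat_lit 24) (nat_lit 4) (nat_lit 336) (nat_lit 226) (nat_lit 218)) (XT.lf (nat_lit 0) (nat_lit 10240068542) (nat_lit 152) (nat_lit 5236618156) (nat_lit 152)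 (nat_lit 893747321) (nat_lit 22) (nat_lit 4) (nat_lit 24) (nat_lit 5) (nat_lit 24) (nat_lit 4) (nat_lit 337) (nat_lit 226) (nat_lit 217))))))))
noncomputable def xc31 : XT := (XT.nd (nat_lit 1794) (nat_lit 304) (nat_lit 0) (XT.nd (nat_lit 858) (nat_lit 380) (nat_lit 0) (XT.nd (nat_lit 390) (nat_lit 304) (nat_lit 0) (XT.nd (nat_lit 156) (nat_lit 152) (nat_lit 0) (XT.nd (nat_lit 78) (nat_lit 0) (nat_lit 0) (XT.lf (nat_lit 0) (nat_lit 147922770) (nat_lit 76) (nat_lit 2268741317) (nat_lit 152) (nat_lit 14325617089) (nat_lit 20) (nat_lit 5) (nat_lit 21) (nat_lit 5) (nat_lit 22) (nat_lit 4) (nat_lit 338) (nat_lit 226) (nat_lit 216)) (XT.lf (nat_lit 0) (nat_lit 5809238002) (nat_lit 152) (nat_lit 10517118217) (nat_lit 0) (nat_lit 798702627) (nat_lit 20) (nat_lit 5) (nat_lit 22) (nat_lit 4) (nat_lit 20) (nat_lit 4) (nat_lit 339) (nat_lit 226) (nat_lit 215))) (XT.nd (nat_lit 78) (nat_lit 152) (nat_lit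 0) (XT.lf (nat_lit 0) (nat_lit 9258789416) (nat_lit 152) (nat_lit 4393498819) (nat_lit 0) (nat_lit 3868438688) (nat_lit 20) (nat_lit 5) (nat_lit 22) (nat_lit 4) (nat_lit 20) (nat_lit 4) (nat_lit 340) (nat_lit 226) (nat_lit 214)) (XT.nd (nat_lit 78) (nat_lit 0) (nat_lit 0) (XT.lf (nat_lit 0) (nat_lit 1839555404) (nat_lit 152) (nat_lit 10924651499) (nat_lit 152) (nat_lit 5165547999) (nat_lit 18) (nat_lit 4) (nat_lit 20) (nat_lit 5) (nat_lit 20) (nat_lit 4) (nat_lit 341) (nat_lit 226) (nat_lit 213)) (XT.lf (nat_lit 0) (nat_lit 8240573664) (nat_lit 152) (nat_lit 8114128973) (nat_lit 152) (nat_lit 1997013075) (nat_lit 18) (nat_lit 4) (nat_lit 20) (nat_lit 5) (nat_lit 20) (nat_lit 4) (nat_lit 342) (nat_lit 226) (nat_lit 212))))) (XT.nd (nat_lit 234) (nat_lit 152) (nat_lit 0) (XT.nd (nat_lit 78) (nat_lit 76) (nat_lit 0) (XT.lf (nat_lit 0) (nat_lit 1178613447) (nat_lit 228) (nat_lit 4072115453) (nat_lit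 76) (nat_lit 13537194710) (nat_lit 17) (nat_lit 5) (nat_lit 20) (nat_lit 5) (nat_lit 18) (nat_lit 4) (nat_lit 343) (nat_lit 226) (nat_lit 211)) (XT.nd (nat_lit 78) (nat_lit 0) (nat_lit 0) (XT.lf (nat_lit 0) (nat_lit 2064490858) (nat_lit 76) (nat_lit 2303318320) (nat_lit 152) (nat_lit 14870116659) (nat_lit 16) (nat_lit 5) (nat_lit 17) (nat_lit 5) (nat_lit 18) (nat_lit 4) (nat_lit 344) (nat_lit 226) (nat_lit 210)) (XT.lf (nat_lit 0) (nat_lit 7640232274) (nat_lit 152) (nat_lit 11343519807) (nat_lit 0) (nat_lit 718102337) (nat_lit 16) (nat_lit 5) (nat_lit 18) (nat_lit 4) (nat_lit 16) (nat_lit 4) (nat_lit 345) (nat_lit 226) (nat_lit 209)))) (XT.nd (nat_lit 78) (nat_lit 152) (nat_lit 0) (XT.lf (nat_lit 0) (nat_lit 10974393000) (nat_lit 152) (nat_lit 5463013778) (nat_lit 0) (nat_lit 3743438423) (nat_lit 16) (nat_lit 5) (nat_lit 18) (nat_lit 4) (nat_lit 16) (nat_lit 4) (nat_lit 346) (nat_lit 226) (nat_lit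 208)) (XT.nd (nat_lit 78) (nat_lit 0) (nat_lit 0) (XT.lf (nat_lit 0) (nat_lit 505220999) (nat_lit 152) (nat_lit 13850699290) (nat_lit 152) (nat_lit 6319914966) (nat_lit 14) (nat_lit 4) (nat_lit 16) (nat_lit 5) (nat_lit 16) (nat_lit 4) (nat_lit 347) (nat_lit 226) (nat_lit 207)) (XT.lf (nat_lit 0) (nat_lit 6666910264) (nat_lit 152) (nat_lit 11170371308) (nat_lit 152) (nat_lit 3348490142) (nat_lit 14) (nat_lit 4) (nat_lit 16) (nat_lit 5) (nat_lit 16) (nat_lit 4) (nat_lit 348) (nat_lit 226) (nat_lit 206)))))) (XT.nd (nat_lit 468) (nat_lit 228) (nat_lit 0) (XT.nd (nat_lit 234) (nat_lit 0) (nat_lit 0) (XT.nd (nat_lit 78) (nat_lit 152) (nat_lit 0) (XT.lf (nat_lit 0) (nat_lit 12918713329) (nat_lit 152) (nat_lit 8449246527) (nat_lit 152) (nat_lit 344747067) (nat_lit 14) (nat_lit 4) (nat_lit 16) (nat_lit 5) (nat_lit 16) (nat_lit 4) (nat_lit 349) (nat_lit 226) (nat_lit 205)) (XT.nd (nat_lit 78) (nat_lit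 76) (nat_lit 0) (XT.lf (nat_lit 0) (nat_lit 2641370438) (nat_lit 228) (nat_lit 3016904163) (nat_lit 76) (nat_lit 16598049834) (nat_lit 13) (nat_lit 5) (nat_lit 16) (nat_lit 5) (nat_lit 14) (nat_lit 4) (nat_lit 350) (nat_lit 226) (nat_lit 204)) (XT.lf (nat_lit 0) (nat_lit 2896213420) (nat_lit 76) (nat_lit 2789251811) (nat_lit 152) (nat_lit 17131466113) (nat_lit 12) (nat_lit 5) (nat_lit 13) (nat_lit 5) (nat_lit 14) (nat_lit 4) (nat_lit 351) (nat_lit 226) (nat_lit 203)))) (XT.nd (nat_lit 78) (nat_lit 0) (nat_lit 0) (XT.lf (nat_lit 0) (nat_lit 8801033508) (nat_lit 152) (nat_lit 14437506023) (nat_lit 0) (nat_lit 156454116) (nat_lit 12) (nat_lit 5) (nat_lit 14) (nat_lit 4) (nat_lit 12) (nat_lit 4) (nat_lit 352) (nat_lit 226) (nat_lit 202)) (XT.nd (nat_lit 78) (nat_lit 0) (nat_lit 0) (XT.lf (nat_lit 0) (nat_lit 11986995887) (nat_lit 152) (nat_lit 8905507140) (nat_lit 0) (nat_lit 3098627472) (nat_lit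 12) (nat_lit 5) (nat_lit 14) (nat_lit 4) (nat_lit 12) (nat_lit 4) (nat_lit 353) (nat_lit 226) (nat_lit 201)) (XT.lf (nat_lit 0) (nat_lit 15219324223) (nat_lit 152) (nat_lit 3293075495) (nat_lit 0) (nat_lit 6094267437) (nat_lit 12) (nat_lit 5) (nat_lit 14) (nat_lit 4) (nat_lit 12) (nat_lit 4) (nat_lit 354) (nat_lit 226) (nat_lit 200))))) (XT.nd (nat_lit 234) (nat_lit 152) (nat_lit 0) (XT.nd (nat_lit 78) (nat_lit 0) (nat_lit 0) (XT.lf (nat_lit 0) (nat_lit 2452551082) (nat_lit 76) (nat_lit 16071867221) (nat_lit 76) (nat_lit 6717015899) (nat_lit 11) (nat_lit 4) (nat_lit 12) (nat_lit 5) (nat_lit 12) (nat_lit 4) (nat_lit 355) (nat_lit 226) (nat_lit 199)) (XT.nd (nat_lit 78) (nat_lit 0) (nat_lit 0) (XT.lf (nat_lit 0) (nat_lit 8355829235) (nat_lit 76) (nat_lit 13558911316) (nat_lit 76) (nat_lit 3980958503) (nat_lit 11) (nat_lit 4) (nat_lit 12) (nat_lit 5) (nat_lit 12) (nat_lit 4) (nat_lit 356) (nat_lit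 226) (nat_lit 198)) (XT.lf (nat_lit 0) (nat_lit 14356378508) (nat_lit 76) (nat_lit 11004589823) (nat_lit 76) (nat_lit 1210033622) (nat_lit 11) (nat_lit 4) (nat_lit 12) (nat_lit 5) (nat_lit 12) (nat_lit 4) (nat_lit 357) (nat_lit 226) (nat_lit 197)))) (XT.nd (nat_lit 78) (nat_lit 76) (nat_lit 0) (XT.lf (nat_lit 0) (nat_lit 1566993695) (nat_lit 152) (nat_lit 6823853552) (nat_lit 76) (nat_lit 18876624840) (nat_lit 10) (nat_lit 5) (nat_lit 12) (nat_lit 5) (nat_lit 11) (nat_lit 4) (nat_lit 358) (nat_lit 226) (nat_lit 196)) (XT.nd (nat_lit 78) (nat_lit 76) (nat_lit 0) (XT.lf (nat_lit 0) (nat_lit 4359375842) (nat_lit 152) (nat_lit 1359487263) (nat_lit 76) (nat_lit 22266955792) (nat_lit 10) (nat_lit 5) (nat_lit 12) (nat_lit 5) (nat_lit 11) (nat_lit 4) (nat_lit 359) (nat_lit 226) (nat_lit 195)) (XT.lf (nat_lit 0) (nat_lit 4278368064) (nat_lit 76) (nat_lit 2955923104) (nat_lit 152) (nat_lit 21491494056)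 (nat_lit 9) (nat_lit 5) (nat_lit 10) (nat_lit 5) (nat_lit 11) (nat_lit 4) (nat_lit 360) (nat_lit 226) (nat_lit 194))))))) (XT.nd (nat_lit 936) (nat_lit 76) (nat_lit 0) (XT.nd (nat_lit 468) (nat_lit 152) (nat_lit 0) (XT.nd (nat_lit 234) (nat_lit 76) (nat_lit 0) (XT.nd (nat_lit 78) (nat_lit 0) (nat_lit 0) (XT.lf (nat_lit 0) (nat_lit 10040023673) (nat_lit 76) (nat_lit 127324103) (nat_lit 152) (nat_lit 19321476983) (nat_lit 9) (nat_lit 5) (nat_lit 10) (nat_lit 5) (nat_lit 11) (nat_lit 4) (nat_lit 361) (nat_lit 226) (nat_lit 193)) (XT.nd (nat_lit 78) (nat_lit 0) (nat_lit 0) (XT.lf (nat_lit 0) (nat_lit 13174269482) (nat_lit 152) (nat_lit 14399035783) (nat_lit 0) (nat_lit 2701904143) (nat_lit 9) (nat_lit 5) (nat_lit 11) (nat_lit 4) (nat_lit 9) (nat_lit 4) (nat_lit 362) (nat_lit 226) (nat_lit 192)) (XT.lf (nat_lit 0) (nat_lit 16232942371) (nat_lit 152) (nat_lit 9268967514) (nat_lit 0) (nat_lit 5584458655)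 (nat_lit 9) (nat_lit 5) (nat_lit 11) (nat_lit 4) (nat_lit 9) (nat_lit 4) (nat_lit 363) (nat_lit 226) (nat_lit 191)))) (XT.nd (nat_lit 78) (nat_lit 76) (nat_lit 0) (XT.lf (nat_lit 0) (nat_lit 19344815155) (nat_lit 152) (nat_lit 4052889779) (nat_lit 0) (nat_lit 8525342723) (nat_lit 9) (nat_lit 5) (nat_lit 11) (nat_lit 4) (nat_lit 9) (nat_lit 4) (nat_lit 364) (nat_lit 226) (nat_lit 190)) (XT.nd (nat_lit 78) (nat_lit 0) (nat_lit 0) (XT.lf (nat_lit 0) (nat_lit 1278707346) (nat_lit 76) (nat_lit 21246191315) (nat_lit 76) (nat_lit 10260710422) (nat_lit 8) (nat_lit 4) (nat_lit 9) (nat_lit 5) (nat_lit 9) (nat_lit 4) (nat_lit 365) (nat_lit 226) (nat_lit 189)) (XT.lf (nat_lit 0) (nat_lit 6788063752) (nat_lit 76) (nat_lit 19016272982) (nat_lit 76) (nat_lit 7869618825) (nat_lit 8) (nat_lit 4) (nat_lit 9) (nat_lit 5) (nat_lit 9) (nat_lit 4) (nat_lit 366) (nat_lit 226) (nat_lit 188))))) (XT.nd (nat_lit 234)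 (nat_lit 152) (nat_lit 0) (XT.nd (nat_lit 78) (nat_lit 0) (nat_lit 0) (XT.lf (nat_lit 0) (nat_lit 12399332986) (nat_lit 76) (nat_lit 16746927703) (nat_lit 76) (nat_lit 5443794649) (nat_lit 8) (nat_lit 4) (nat_lit 9) (nat_lit 5) (nat_lit 9) (nat_lit 4) (nat_lit 367) (nat_lit 226) (nat_lit 187)) (XT.nd (nat_lit 78) (nat_lit 0) (nat_lit 0) (XT.lf (nat_lit 0) (nat_lit 18117418097) (nat_lit 76) (nat_lit 14436172554) (nat_lit 76) (nat_lit 2981118242) (nat_lit 8) (nat_lit 4) (nat_lit 9) (nat_lit 5) (nat_lit 9) (nat_lit 4) (nat_lit 368) (nat_lit 226) (nat_lit 186)) (XT.lf (nat_lit 0) (nat_lit 23947315471) (nat_lit 76) (nat_lit 12081988430) (nat_lit 76) (nat_lit 479437750) (nat_lit 8) (nat_lit 4) (nat_lit 9) (nat_lit 5) (nat_lit 9) (nat_lit 4) (nat_lit 369) (nat_lit 226) (nat_lit 185)))) (XT.nd (nat_lit 78) (nat_lit 76) (nat_lit 0) (XT.lf (nat_lit 0) (nat_lit 2023167755) (nat_lit 152) (nat_lit 7638720494)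 (nat_lit 76) (nat_lit 27850521411) (nat_lit 7) (nat_lit 5) (nat_lit 9) (nat_lit 5) (nat_lit 8) (nat_lit 4) (nat_lit 370) (nat_lit 226) (nat_lit 184)) (XT.nd (nat_lit 78) (nat_lit 76) (nat_lit 0) (XT.lf (nat_lit 0) (nat_lit 4558982525) (nat_lit 152) (nat_lit 2630045984) (nat_lit 76) (nat_lit 31358006191) (nat_lit 7) (nat_lit 5) (nat_lit 9) (nat_lit 5) (nat_lit 8) (nat_lit 4) (nat_lit 371) (nat_lit 226) (nat_lit 183)) (XT.lf (nat_lit 0) (nat_lit 2522811649) (nat_lit 76) (nat_lit 4641017035) (nat_lit 152) (nat_lit 32449102865) (nat_lit 6) (nat_lit 5) (nat_lit 7) (nat_lit 5) (nat_lit 8) (nat_lit 4) (nat_lit 372) (nat_lit 226) (nat_lit 182)))))) (XT.nd (nat_lit 468) (nat_lit 76) (nat_lit 0) (XT.nd (nat_lit 234) (nat_lit 0) (nat_lit 0) (XT.nd (nat_lit 78) (nat_lit 0) (nat_lit 0) (XT.lf (nat_lit 0) (nat_lit 7829404343) (nat_lit 76) (nat_lit 2013065379) (nat_lit 152) (nat_lit 30868487229) (nat_lit 6)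 (nat_lit 5) (nat_lit 7) (nat_lit 5) (nat_lit 8) (nat_lit 4) (nat_lit 373) (nat_lit 226) (nat_lit 181)) (XT.nd (nat_lit 78) (nat_lit 0) (nat_lit 0) (XT.lf (nat_lit 0) (nat_lit 12577907309) (nat_lit 152) (nat_lit 28607263912) (nat_lit 0) (nat_lit 657479292) (nat_lit 6) (nat_lit 5) (nat_lit 8) (nat_lit 4) (nat_lit 6) (nat_lit 4) (nat_lit 374) (nat_lit 226) (nat_lit 180)) (XT.lf (nat_lit 0) (nat_lit 15385988692) (nat_lit 152) (nat_lit 24276976056) (nat_lit 0) (nat_lit 3345632631) (nat_lit 6) (nat_lit 5) (nat_lit 8) (nat_lit 4) (nat_lit 6) (nat_lit 4) (nat_lit 375) (nat_lit 226) (nat_lit 179)))) (XT.nd (nat_lit 78) (nat_lit 0) (nat_lit 0) (XT.lf (nat_lit 0) (nat_lit 18249816721) (nat_lit 152) (nat_lit 19867554479) (nat_lit 0) (nat_lit 6093025665) (nat_lit 6) (nat_lit 5) (nat_lit 8) (nat_lit 4) (nat_lit 6) (nat_lit 4) (nat_lit 376) (nat_lit 226) (nat_lit 178)) (XT.nd (nat_lit 78) (nat_lit 0) (nat_lit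 0) (XT.lf (nat_lit 0) (nat_lit 21171893770) (nat_lit 152) (nat_lit 15375146287) (nat_lit 0) (nat_lit 8902059029) (nat_lit 6) (nat_lit 5) (nat_lit 8) (nat_lit 4) (nat_lit 6) (nat_lit 4) (nat_lit 377) (nat_lit 226) (nat_lit 177)) (XT.lf (nat_lit 0) (nat_lit 24154773108) (nat_lit 152) (nat_lit 10795826076) (nat_lit 0) (nat_lit 11775187217) (nat_lit 6) (nat_lit 5) (nat_lit 8) (nat_lit 4) (nat_lit 6) (nat_lit 4) (nat_lit 378) (nat_lit 226) (nat_lit 176))))) (XT.nd (nat_lit 234) (nat_lit 0) (nat_lit 0) (XT.nd (nat_lit 78) (nat_lit 76) (nat_lit 0) (XT.lf (nat_lit 0) (nat_lit 27201061137) (nat_lit 152) (nat_lit 6125592497) (nat_lit 0) (nat_lit 14714920732) (nat_lit 6) (nat_lit 5) (nat_lit 8) (nat_lit 4) (nat_lit 6) (nat_lit 4) (nat_lit 379) (nat_lit 226) (nat_lit 175)) (XT.nd (nat_lit 78) (nat_lit 76) (nat_lit 0) (XT.lf (nat_lit 0) (nat_lit 30313419661) (nat_lit 152) (nat_lit 1360364765) (nat_lit 0)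 (nat_lit 17723828270) (nat_lit 6) (nat_lit 5) (nat_lit 8) (nat_lit 4) (nat_lit 6) (nat_lit 4) (nat_lit 380) (nat_lit 226) (nat_lit 174)) (XT.lf (nat_lit 0) (nat_lit 3573757798) (nat_lit 76) (nat_lit 29955163563) (nat_lit 76) (nat_lit 17265134323) (nat_lit 5) (nat_lit 4) (nat_lit 6) (nat_lit 5) (nat_lit 6) (nat_lit 4) (nat_lit 381) (nat_lit 226) (nat_lit 173)))) (XT.nd (nat_lit 78) (nat_lit 0) (nat_lit 0) (XT.lf (nat_lit 0) (nat_lit 8640420698) (nat_lit 76) (nat_lit 28189922758) (nat_lit 76) (nat_lit 15402381043) (nat_lit 5) (nat_lit 4) (nat_lit 6) (nat_lit 5) (nat_lit 6) (nat_lit 4) (nat_lit 382) (nat_lit 226) (nat_lit 172)) (XT.nd (nat_lit 78) (nat_lit 0) (nat_lit 0) (XT.lf (nat_lit 0) (nat_lit 13816977187) (nat_lit 76) (nat_lit 26390256584) (nat_lit 76) (nat_lit 13508042563) (nat_lit 5) (nat_lit 4) (nat_lit 6) (nat_lit 5) (nat_lit 6) (nat_lit 4) (nat_lit 383) (nat_lit 226) (nat_lit 171)) (XT.lf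 (nat_lit 0) (nat_lit 19107950471) (nat_lit 76) (nat_lit 24554592518) (nat_lit 76) (nat_lit 11580463637) (nat_lit 5) (nat_lit 4) (nat_lit 6) (nat_lit 5) (nat_lit 6) (nat_lit 4) (nat_lit 384) (nat_lit 226) (nat_lit 170))))))))
noncomputable def xc32 : XT := (XT.nd (nat_lit 36348) (nat_lit 0) (nat_lit 684) (XT.nd (nat_lit 858) (nat_lit 0) (nat_lit 0) (XT.nd (nat_lit 390) (nat_lit 152) (nat_lit 0) (XT.nd (nat_lit 156) (nat_lit 0) (nat_lit 0) (XT.nd (nat_lit 78) (nat_lit 0) (nat_lit 0) (XT.lf (nat_lit 0) (nat_lit 24517963729) (nat_lit 76) (nat_lit 22681326582) (nat_lit 76) (nat_lit 9617959972) (nat_lit 5) (nat_lit 4) (nat_lit 6) (nat_lit 5) (nat_lit 6) (nat_lit 4) (nat_lit 385) (nat_lit 226) (nat_lit 169)) (XT.lf (nat_lit 0) (nat_lit 30051744159) (nat_lit 76) (nat_lit 20768821940) (nat_lit 76) (nat_lit 7618816759) (nat_lit 5) (nat_lit 4) (nat_lit 6) (nat_lit 5) (nat_lit 6) (nat_lit 4) (nat_lit 386)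 (nat_lit 226) (nat_lit 168))) (XT.nd (nat_lit 78) (nat_lit 0) (nat_lit 0) (XT.lf (nat_lit 0) (nat_lit 35714127103) (nat_lit 76) (nat_lit 18815407472) (nat_lit 76) (nat_lit 5581287174) (nat_lit 5) (nat_lit 4) (nat_lit 6) (nat_lit 5) (nat_lit 6) (nat_lit 4) (nat_lit 387) (nat_lit 226) (nat_lit 167)) (XT.nd (nat_lit 78) (nat_lit 0) (nat_lit 0) (XT.lf (nat_lit 0) (nat_lit 41510060273) (nat_lit 76) (nat_lit 16819376312) (nat_lit 76) (nat_lit 3503590851) (nat_lit 5) (nat_lit 4) (nat_lit 6) (nat_lit 5) (nat_lit 6) (nat_lit 4) (nat_lit 388) (nat_lit 226) (nat_lit 166)) (XT.lf (nat_lit 0) (nat_lit 47444608077) (nat_lit 76) (nat_lit 14778984355) (nat_lit 76) (nat_lit 1383912328) (nat_lit 5) (nat_lit 4) (nat_lit 6) (nat_lit 5) (nat_lit 6) (nat_lit 4) (nat_lit 389) (nat_lit 226) (nat_lit 165))))) (XT.nd (nat_lit 234) (nat_lit 76) (nat_lit 0) (XT.nd (nat_lit 78) (nat_lit 0) (nat_lit 0) (XT.lf (nat_lit 0)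 (nat_lit 764387727) (nat_lit 152) (nat_lit 11920342188) (nat_lit 76) (nat_lit 52750849497) (nat_lit 4) (nat_lit 5) (nat_lit 6) (nat_lit 5) (nat_lit 5) (nat_lit 4) (nat_lit 390) (nat_lit 226) (nat_lit 164)) (XT.nd (nat_lit 78) (nat_lit 0) (nat_lit 0) (XT.lf (nat_lit 0) (nat_lit 2930515208) (nat_lit 152) (nat_lit 7597838594) (nat_lit 76) (nat_lit 56790307681) (nat_lit 4) (nat_lit 5) (nat_lit 6) (nat_lit 5) (nat_lit 5) (nat_lit 4) (nat_lit 391) (nat_lit 226) (nat_lit 163)) (XT.lf (nat_lit 0) (nat_lit 5143367961) (nat_lit 152) (nat_lit 3178305945) (nat_lit 76) (nat_lit 60937121567) (nat_lit 4) (nat_lit 5) (nat_lit 6) (nat_lit 5) (nat_lit 5) (nat_lit 4) (nat_lit 392) (nat_lit 226) (nat_lit 162)))) (XT.nd (nat_lit 78) (nat_lit 0) (nat_lit 0) (XT.lf (nat_lit 0) (nat_lit 1368828257) (nat_lit 76) (nat_lit 6049209304) (nat_lit 152) (nat_lit 63839244342) (nat_lit 3) (nat_lit 5) (nat_lit 4) (nat_lit 5) (nat_lit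 5) (nat_lit 4) (nat_lit 393) (nat_lit 226) (nat_lit 161)) (XT.nd (nat_lit 78) (nat_lit 0) (nat_lit 0) (XT.lf (nat_lit 0) (nat_lit 6086144183) (nat_lit 76) (nat_lit 3689385602) (nat_lit 152) (nat_lit 63539766694) (nat_lit 3) (nat_lit 5) (nat_lit 4) (nat_lit 5) (nat_lit 5) (nat_lit 4) (nat_lit 394) (nat_lit 226) (nat_lit 160)) (XT.lf (nat_lit 0) (nat_lit 10914509239) (nat_lit 76) (nat_lit 1272235476) (nat_lit 152) (nat_lit 63248827548) (nat_lit 3) (nat_lit 5) (nat_lit 4) (nat_lit 5) (nat_lit 5) (nat_lit 4) (nat_lit 395) (nat_lit 226) (nat_lit 159)))))) (XT.nd (nat_lit 468) (nat_lit 0) (nat_lit 0) (XT.nd (nat_lit 234) (nat_lit 0) (nat_lit 0) (XT.nd (nat_lit 78) (nat_lit 0) (nat_lit 0) (XT.lf (nat_lit 0) (nat_lit 14665366215) (nat_lit 152) (nat_lit 61773396516) (nat_lit 0) (nat_lit 1180851879) (nat_lit 3) (nat_lit 5) (nat_lit 5) (nat_lit 4) (nat_lit 3) (nat_lit 4) (nat_lit 396) (nat_lit 226) (nat_lit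 158)) (XT.nd (nat_lit 78) (nat_lit 0) (nat_lit 0) (XT.lf (nat_lit 0) (nat_lit 17214794645) (nat_lit 152) (nat_lit 58984986471) (nat_lit 0) (nat_lit 3669513758) (nat_lit 3) (nat_lit 5) (nat_lit 5) (nat_lit 4) (nat_lit 3) (nat_lit 4) (nat_lit 397) (nat_lit 226) (nat_lit 157)) (XT.lf (nat_lit 0) (nat_lit 19825028153) (nat_lit 152) (nat_lit 56141166908) (nat_lit 0) (nat_lit 6220750615) (nat_lit 3) (nat_lit 5) (nat_lit 5) (nat_lit 4) (nat_lit 3) (nat_lit 4) (nat_lit 398) (nat_lit 226) (nat_lit 156)))) (XT.nd (nat_lit 78) (nat_lit 0) (nat_lit 0) (XT.lf (nat_lit 0) (nat_lit 22498347527) (nat_lit 152) (nat_lit 53239452936) (nat_lit 0) (nat_lit 8836791687) (nat_lit 3) (nat_lit 5) (nat_lit 5) (nat_lit 4) (nat_lit 3) (nat_lit 4) (nat_lit 399) (nat_lit 226) (nat_lit 155)) (XT.nd (nat_lit 78) (nat_lit 0) (nat_lit 0) (XT.lf (nat_lit 0) (nat_lit 25237088677) (nat_lit 152) (nat_lit 50277309078) (nat_lit 0) (nat_lit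 11519922834) (nat_lit 3) (nat_lit 5) (nat_lit 5) (nat_lit 4) (nat_lit 3) (nat_lit 4) (nat_lit 400) (nat_lit 226) (nat_lit 154)) (XT.lf (nat_lit 0) (nat_lit 28043644677) (nat_lit 152) (nat_lit 47252147052) (nat_lit 0) (nat_lit 14272488542) (nat_lit 3) (nat_lit 5) (nat_lit 5) (nat_lit 4) (nat_lit 3) (nat_lit 4) (nat_lit 401) (nat_lit 226) (nat_lit 153))))) (XT.nd (nat_lit 34788) (nat_lit 0) (nat_lit 1976) (XT.nd (nat_lit 78) (nat_lit 0) (nat_lit 0) (XT.lf (nat_lit 0) (nat_lit 30920467859) (nat_lit 152) (nat_lit 44161323512) (nat_lit 0) (nat_lit 17096893962) (nat_lit 3) (nat_lit 5) (nat_lit 5) (nat_lit 4) (nat_lit 3) (nat_lit 4) (nat_lit 402) (nat_lit 226) (nat_lit 152)) (XT.nd (nat_lit 34632) (nat_lit 0) (nat_lit 2356) (XT.lf (nat_lit 0) (nat_lit 33870071950) (nat_lit 152) (nat_lit 41002137739) (nat_lit 0) (nat_lit 19995607024) (nat_lit 3) (nat_lit 5) (nat_lit 5) (nat_lit 4) (nat_lit 3) (nat_lit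 4) (nat_lit 403) (nat_lit 226) (nat_lit 151)) (XT.lf (nat_lit 0) (nat_lit 2167508445) (nat_lit 228) (nat_lit 2163257163) (nat_lit 0) (nat_lit 2167508445) (nat_lit 34) (nat_lit 5) (nat_lit 37) (nat_lit 4) (nat_lit 34) (nat_lit 4) (nat_lit 326) (nat_lit 227) (nat_lit 227)))) (XT.nd (nat_lit 78) (nat_lit 228) (nat_lit 0) (XT.lf (nat_lit 0) (nat_lit 2230384230) (nat_lit 152) (nat_lit 5808678649) (nat_lit 152) (nat_lit 5216938704) (nat_lit 32) (nat_lit 4) (nat_lit 34) (nat_lit 5) (nat_lit 34) (nat_lit 4) (nat_lit 327) (nat_lit 227) (nat_lit 226)) (XT.nd (nat_lit 78) (nat_lit 228) (nat_lit 0) (XT.lf (nat_lit 0) (nat_lit 8941763112) (nat_lit 152) (nat_lit 2874477700) (nat_lit 152) (nat_lit 1708232953) (nat_lit 32) (nat_lit 4) (nat_lit 34) (nat_lit 5) (nat_lit 34) (nat_lit 4) (nat_lit 328) (nat_lit 227) (nat_lit 225)) (XT.lf (nat_lit 0) (nat_lit 1808379846) (nat_lit 228) (nat_lit 11859388112) (nat_lit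 0) (nat_lit 134577517) (nat_lit 29) (nat_lit 5) (nat_lit 32) (nat_lit 4) (nat_lit 29) (nat_lit 4) (nat_lit 329) (nat_lit 227) (nat_lit 224))))))) (XT.nd (nat_lit 858) (nat_lit 608) (nat_lit 0) (XT.nd (nat_lit 390) (nat_lit 304) (nat_lit 0) (XT.nd (nat_lit 156) (nat_lit 228) (nat_lit 0) (XT.nd (nat_lit 78) (nat_lit 152) (nat_lit 0) (XT.lf (nat_lit 0) (nat_lit 5391819793) (nat_lit 228) (nat_lit 5504179408) (nat_lit 0) (nat_lit 3192264187) (nat_lit 29) (nat_lit 5) (nat_lit 32) (nat_lit 4) (nat_lit 29) (nat_lit 4) (nat_lit 330) (nat_lit 227) (nat_lit 223)) (XT.lf (nat_lit 0) (nat_lit 934167633) (nat_lit 152) (nat_lit 8080359372) (nat_lit 152) (nat_lit 5370363690) (nat_lit 27) (nat_lit 4) (nat_lit 29) (nat_lit 5) (nat_lit 29) (nat_lit 4) (nat_lit 331) (nat_lit 227) (nat_lit 222))) (XT.nd (nat_lit 78) (nat_lit 228) (nat_lit 0) (XT.lf (nat_lit 0) (nat_lit 7553981281) (nat_lit 152) (nat_lit 5171351943)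 (nat_lit 152) (nat_lit 1965783373) (nat_lit 27) (nat_lit 4) (nat_lit 29) (nat_lit 5) (nat_lit 29) (nat_lit 4) (nat_lit 332) (nat_lit 227) (nat_lit 221)) (XT.nd (nat_lit 78) (nat_lit 152) (nat_lit 0) (XT.lf (nat_lit 0) (nat_lit 1436109418) (nat_lit 228) (nat_lit 771405177) (nat_lit 76) (nat_lit 12800890567) (nat_lit 26) (nat_lit 5) (nat_lit 29) (nat_lit 5) (nat_lit 27) (nat_lit 4) (nat_lit 333) (nat_lit 227) (nat_lit 220)) (XT.lf (nat_lit 0) (nat_lit 4891753171) (nat_lit 228) (nat_lit 9584308205) (nat_lit 0) (nat_lit 858906303) (nat_lit 24) (nat_lit 5) (nat_lit 27) (nat_lit 4) (nat_lit 24) (nat_lit 4) (nat_lit 334) (nat_lit 227) (nat_lit 219))))) (XT.nd (nat_lit 234) (nat_lit 152) (nat_lit 0) (XT.nd (nat_lit 78) (nat_lit 152) (nat_lit 0) (XT.lf (nat_lit 0) (nat_lit 8408750172) (nat_lit 228) (nat_lit 3328326302) (nat_lit 0) (nat_lit 3935593212) (nat_lit 24) (nat_lit 5) (nat_lit 27) (nat_lit 4)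 (nat_lit 24) (nat_lit 4) (nat_lit 335) (nat_lit 227) (nat_lit 218)) (XT.nd (nat_lit 78) (nat_lit 0) (nat_lit 0) (XT.lf (nat_lit 0) (nat_lit 3059009555) (nat_lit 152) (nat_lit 8931711385) (nat_lit 152) (nat_lit 4031068898) (nat_lit 22) (nat_lit 4) (nat_lit 24) (nat_lit 5) (nat_lit 24) (nat_lit 4) (nat_lit 336) (nat_lit 227) (nat_lit 217)) (XT.lf (nat_lit 0) (nat_lit 9591312547) (nat_lit 152) (nat_lit 6053439462) (nat_lit 152) (nat_lit 737762483) (nat_lit 22) (nat_lit 4) (nat_lit 24) (nat_lit 5) (nat_lit 24) (nat_lit 4) (nat_lit 337) (nat_lit 227) (nat_lit 216)))) (XT.nd (nat_lit 78) (nat_lit 76) (nat_lit 0) (XT.lf (nat_lit 0) (nat_lit 2534819920) (nat_lit 228) (nat_lit 572938650) (nat_lit 76) (nat_lit 13647633661) (nat_lit 21) (nat_lit 5) (nat_lit 24) (nat_lit 5) (nat_lit 22) (nat_lit 4) (nat_lit 338) (nat_lit 227) (nat_lit 215)) (XT.nd (nat_lit 78) (nat_lit 0) (nat_lit 0) (XT.lf (nat_lit 0) (nat_lit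 5828648392) (nat_lit 76) (nat_lit 52376876) (nat_lit 152) (nat_lit 11258566766) (nat_lit 20) (nat_lit 5) (nat_lit 21) (nat_lit 5) (nat_lit 22) (nat_lit 4) (nat_lit 339) (nat_lit 227) (nat_lit 214)) (XT.lf (nat_lit 0) (nat_lit 9297904040) (nat_lit 152) (nat_lit 5241091755) (nat_lit 0) (nat_lit 2997274665) (nat_lit 20) (nat_lit 5) (nat_lit 22) (nat_lit 4) (nat_lit 20) (nat_lit 4) (nat_lit 340) (nat_lit 227) (nat_lit 213)))))) (XT.nd (nat_lit 468) (nat_lit 304) (nat_lit 0) (XT.nd (nat_lit 234) (nat_lit 76) (nat_lit 0) (XT.nd (nat_lit 78) (nat_lit 76) (nat_lit 0) (XT.lf (nat_lit 0) (nat_lit 921354786) (nat_lit 152) (nat_lit 11841908237) (nat_lit 152) (nat_lit 5183266463) (nat_lit 18) (nat_lit 4) (nat_lit 20) (nat_lit 5) (nat_lit 20) (nat_lit 4) (nat_lit 341) (nat_lit 227) (nat_lit 212)) (XT.nd (nat_lit 78) (nat_lit 76) (nat_lit 0) (XT.lf (nat_lit 0) (nat_lit 7270199337) (nat_lit 152) (nat_lit 9052735373)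 (nat_lit 152) (nat_lit 2046508746) (nat_lit 18) (nat_lit 4) (nat_lit 20) (nat_lit 5) (nat_lit 20) (nat_lit 4) (nat_lit 342) (nat_lit 227) (nat_lit 211)) (XT.lf (nat_lit 0) (nat_lit 1099833984) (nat_lit 228) (nat_lit 5111024661) (nat_lit 76) (nat_lit 12595741278) (nat_lit 17) (nat_lit 5) (nat_lit 20) (nat_lit 5) (nat_lit 18) (nat_lit 4) (nat_lit 343) (nat_lit 227) (nat_lit 210)))) (XT.nd (nat_lit 78) (nat_lit 0) (nat_lit 0) (XT.lf (nat_lit 0) (nat_lit 954125173) (nat_lit 76) (nat_lit 3294862453) (nat_lit 152) (nat_lit 15008841811) (nat_lit 16) (nat_lit 5) (nat_lit 17) (nat_lit 5) (nat_lit 18) (nat_lit 4) (nat_lit 344) (nat_lit 227) (nat_lit 209)) (XT.nd (nat_lit 78) (nat_lit 0) (nat_lit 0) (XT.lf (nat_lit 0) (nat_lit 7205919239) (nat_lit 76) (nat_lit 279464173) (nat_lit 152) (nat_lit 12237480693) (nat_lit 16) (nat_lit 5) (nat_lit 17) (nat_lit 5) (nat_lit 18) (nat_lit 4) (nat_lit 345) (nat_lit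 227) (nat_lit 208)) (XT.lf (nat_lit 0) (nat_lit 10788525369) (nat_lit 152) (nat_lit 6682296848) (nat_lit 0) (nat_lit 2731987767) (nat_lit 16) (nat_lit 5) (nat_lit 18) (nat_lit 4) (nat_lit 16) (nat_lit 4) (nat_lit 346) (nat_lit 227) (nat_lit 207))))) (XT.nd (nat_lit 234) (nat_lit 152) (nat_lit 0) (XT.nd (nat_lit 78) (nat_lit 152) (nat_lit 0) (XT.lf (nat_lit 0) (nat_lit 14137688991) (nat_lit 152) (nat_lit 771051227) (nat_lit 0) (nat_lit 5790054547) (nat_lit 16) (nat_lit 5) (nat_lit 18) (nat_lit 4) (nat_lit 16) (nat_lit 4) (nat_lit 347) (nat_lit 227) (nat_lit 206)) (XT.nd (nat_lit 78) (nat_lit 0) (nat_lit 0) (XT.lf (nat_lit 0) (nat_lit 5328624193) (nat_lit 152) (nat_lit 12255712154) (nat_lit 152) (nat_lit 3625459417) (nat_lit 14) (nat_lit 4) (nat_lit 16) (nat_lit 5) (nat_lit 16) (nat_lit 4) (nat_lit 348) (nat_lit 227) (nat_lit 205)) (XT.lf (nat_lit 0) (nat_lit 11535118119) (nat_lit 152) (nat_lit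 9553532822) (nat_lit 152) (nat_lit 648893392) (nat_lit 14) (nat_lit 4) (nat_lit 16) (nat_lit 5) (nat_lit 16) (nat_lit 4) (nat_lit 349) (nat_lit 227) (nat_lit 204)))) (XT.nd (nat_lit 78) (nat_lit 76) (nat_lit 0) (XT.lf (nat_lit 0) (nat_lit 2317288493) (nat_lit 228) (nat_lit 4466938635) (nat_lit 76) (nat_lit 15497819706) (nat_lit 13) (nat_lit 5) (nat_lit 16) (nat_lit 5) (nat_lit 14) (nat_lit 4) (nat_lit 350) (nat_lit 227) (nat_lit 203)) (XT.nd (nat_lit 78) (nat_lit 0) (nat_lit 0) (XT.lf (nat_lit 0) (nat_lit 1373231451) (nat_lit 76) (nat_lit 3948394904) (nat_lit 152) (nat_lit 17522240641) (nat_lit 12) (nat_lit 5) (nat_lit 13) (nat_lit 5) (nat_lit 14) (nat_lit 4) (nat_lit 351) (nat_lit 227) (nat_lit 202)) (XT.lf (nat_lit 0) (nat_lit 7393280713) (nat_lit 76) (nat_lit 1017583059) (nat_lit 152) (nat_lit 15011875400) (nat_lit 12) (nat_lit 5) (nat_lit 13) (nat_lit 5) (nat_lit 14) (nat_lit 4) (nat_lit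 352) (nat_lit 227) (nat_lit 201))))))))
noncomputable def xc33 : XT := (XT.nd (nat_lit 1794) (nat_lit 228) (nat_lit 0) (XT.nd (nat_lit 858) (nat_lit 228) (nat_lit 0) (XT.nd (nat_lit 390) (nat_lit 152) (nat_lit 0) (XT.nd (nat_lit 156) (nat_lit 76) (nat_lit 0) (XT.nd (nat_lit 78) (nat_lit 0) (nat_lit 0) (XT.lf (nat_lit 0) (nat_lit 11562801705) (nat_lit 152) (nat_lit 10529809573) (nat_lit 0) (nat_lit 1927304844) (nat_lit 12) (nat_lit 5) (nat_lit 14) (nat_lit 4) (nat_lit 12) (nat_lit 4) (nat_lit 353) (nat_lit 227) (nat_lit 200)) (XT.lf (nat_lit 0) (nat_lit 14771593328) (nat_lit 152) (nat_lit 4958282422) (nat_lit 0) (nat_lit 4906301931) (nat_lit 12) (nat_lit 5) (nat_lit 14) (nat_lit 4) (nat_lit 12) (nat_lit 4) (nat_lit 354) (nat_lit 227) (nat_lit 199))) (XT.nd (nat_lit 78) (nat_lit 0) (nat_lit 0) (XT.lf (nat_lit 0) (nat_lit 713699804) (nat_lit 76) (nat_lit 17323421524) (nat_lit 76) (nat_lit 7235028636)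 (nat_lit 11) (nat_lit 4) (nat_lit 12) (nat_lit 5) (nat_lit 12) (nat_lit 4) (nat_lit 355) (nat_lit 227) (nat_lit 198)) (XT.nd (nat_lit 78) (nat_lit 0) (nat_lit 0) (XT.lf (nat_lit 0) (nat_lit 6577654201) (nat_lit 76) (nat_lit 14827225762) (nat_lit 76) (nat_lit 4522229485) (nat_lit 11) (nat_lit 4) (nat_lit 12) (nat_lit 5) (nat_lit 12) (nat_lit 4) (nat_lit 356) (nat_lit 227) (nat_lit 197)) (XT.lf (nat_lit 0) (nat_lit 12540025070) (nat_lit 76) (nat_lit 12289176252) (nat_lit 76) (nat_lit 1773885423) (nat_lit 11) (nat_lit 4) (nat_lit 12) (nat_lit 5) (nat_lit 12) (nat_lit 4) (nat_lit 357) (nat_lit 227) (nat_lit 196))))) (XT.nd (nat_lit 234) (nat_lit 0) (nat_lit 0) (XT.nd (nat_lit 78) (nat_lit 76) (nat_lit 0) (XT.lf (nat_lit 0) (nat_lit 992649347) (nat_lit 152) (nat_lit 8704382122) (nat_lit 76) (nat_lit 17603349090) (nat_lit 10) (nat_lit 5) (nat_lit 12) (nat_lit 5) (nat_lit 11) (nat_lit 4) (nat_lit 358)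 (nat_lit 227) (nat_lit 195)) (XT.nd (nat_lit 78) (nat_lit 76) (nat_lit 0) (XT.lf (nat_lit 0) (nat_lit 3764162244) (nat_lit 152) (nat_lit 3276433725) (nat_lit 76) (nat_lit 20978773222) (nat_lit 10) (nat_lit 5) (nat_lit 12) (nat_lit 5) (nat_lit 11) (nat_lit 4) (nat_lit 359) (nat_lit 227) (nat_lit 194)) (XT.lf (nat_lit 0) (nat_lit 2287209754) (nat_lit 76) (nat_lit 4312466177) (nat_lit 152) (nat_lit 22160856924) (nat_lit 9) (nat_lit 5) (nat_lit 10) (nat_lit 5) (nat_lit 11) (nat_lit 4) (nat_lit 360) (nat_lit 227) (nat_lit 193)))) (XT.nd (nat_lit 78) (nat_lit 0) (nat_lit 0) (XT.lf (nat_lit 0) (nat_lit 8013854826) (nat_lit 76) (nat_lit 1498869903) (nat_lit 152) (nat_lit 20011462738) (nat_lit 9) (nat_lit 5) (nat_lit 10) (nat_lit 5) (nat_lit 11) (nat_lit 4) (nat_lit 361) (nat_lit 227) (nat_lit 192)) (XT.nd (nat_lit 78) (nat_lit 0) (nat_lit 0) (XT.lf (nat_lit 0) (nat_lit 12486897222) (nat_lit 152) (nat_lit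 16481831161) (nat_lit 0) (nat_lit 1342840618) (nat_lit 9) (nat_lit 5) (nat_lit 11) (nat_lit 4) (nat_lit 9) (nat_lit 4) (nat_lit 362) (nat_lit 227) (nat_lit 191)) (XT.lf (nat_lit 0) (nat_lit 15526574894) (nat_lit 152) (nat_lit 11385207514) (nat_lit 0) (nat_lit 4211529574) (nat_lit 9) (nat_lit 5) (nat_lit 11) (nat_lit 4) (nat_lit 9) (nat_lit 4) (nat_lit 363) (nat_lit 227) (nat_lit 190)))))) (XT.nd (nat_lit 468) (nat_lit 152) (nat_lit 0) (XT.nd (nat_lit 234) (nat_lit 0) (nat_lit 0) (XT.nd (nat_lit 78) (nat_lit 76) (nat_lit 0) (XT.lf (nat_lit 0) (nat_lit 18620005718) (nat_lit 152) (nat_lit 6201600284) (nat_lit 0) (nat_lit 7138951936) (nat_lit 9) (nat_lit 5) (nat_lit 11) (nat_lit 4) (nat_lit 9) (nat_lit 4) (nat_lit 364) (nat_lit 227) (nat_lit 189)) (XT.nd (nat_lit 78) (nat_lit 76) (nat_lit 0) (XT.lf (nat_lit 0) (nat_lit 21769892693) (nat_lit 152) (nat_lit 926480108) (nat_lit 0) (nat_lit 10127665647)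 (nat_lit 9) (nat_lit 5) (nat_lit 11) (nat_lit 4) (nat_lit 9) (nat_lit 4) (nat_lit 365) (nat_lit 227) (nat_lit 188)) (XT.lf (nat_lit 0) (nat_lit 4533221829) (nat_lit 76) (nat_lit 20489342417) (nat_lit 76) (nat_lit 8690636475) (nat_lit 8) (nat_lit 4) (nat_lit 9) (nat_lit 5) (nat_lit 9) (nat_lit 4) (nat_lit 366) (nat_lit 227) (nat_lit 187)))) (XT.nd (nat_lit 78) (nat_lit 0) (nat_lit 0) (XT.lf (nat_lit 0) (nat_lit 10114184561) (nat_lit 76) (nat_lit 18233135310) (nat_lit 76) (nat_lit 6282508109) (nat_lit 8) (nat_lit 4) (nat_lit 9) (nat_lit 5) (nat_lit 9) (nat_lit 4) (nat_lit 367) (nat_lit 227) (nat_lit 186)) (XT.nd (nat_lit 78) (nat_lit 0) (nat_lit 0) (XT.lf (nat_lit 0) (nat_lit 15802845883) (nat_lit 76) (nat_lit 15935135669) (nat_lit 76) (nat_lit 3837012100) (nat_lit 8) (nat_lit 4) (nat_lit 9) (nat_lit 5) (nat_lit 9) (nat_lit 4) (nat_lit 368) (nat_lit 227) (nat_lit 185)) (XT.lf (nat_lit 0) (nat_lit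 21604176473) (nat_lit 76) (nat_lit 13593335532) (nat_lit 76) (nat_lit 1352011605) (nat_lit 8) (nat_lit 4) (nat_lit 9) (nat_lit 5) (nat_lit 9) (nat_lit 4) (nat_lit 369) (nat_lit 227) (nat_lit 184))))) (XT.nd (nat_lit 234) (nat_lit 0) (nat_lit 0) (XT.nd (nat_lit 78) (nat_lit 76) (nat_lit 0) (XT.lf (nat_lit 0) (nat_lit 1151742792) (nat_lit 152) (nat_lit 10042315530) (nat_lit 76) (nat_lit 26359872317) (nat_lit 7) (nat_lit 5) (nat_lit 9) (nat_lit 5) (nat_lit 8) (nat_lit 4) (nat_lit 370) (nat_lit 227) (nat_lit 183)) (XT.nd (nat_lit 78) (nat_lit 76) (nat_lit 0) (XT.lf (nat_lit 0) (nat_lit 3672141866) (nat_lit 152) (nat_lit 5060885480) (nat_lit 76) (nat_lit 29856001526) (nat_lit 7) (nat_lit 5) (nat_lit 9) (nat_lit 5) (nat_lit 8) (nat_lit 4) (nat_lit 371) (nat_lit 227) (nat_lit 182)) (XT.lf (nat_lit 0) (nat_lit 16616324) (nat_lit 76) (nat_lit 6221313925) (nat_lit 152) (nat_lit 33418177616) (nat_lit 6)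 (nat_lit 5) (nat_lit 7) (nat_lit 5) (nat_lit 8) (nat_lit 4) (nat_lit 372) (nat_lit 227) (nat_lit 181)))) (XT.nd (nat_lit 78) (nat_lit 0) (nat_lit 0) (XT.lf (nat_lit 0) (nat_lit 5297017410) (nat_lit 76) (nat_lit 3604771336) (nat_lit 152) (nat_lit 31852798104) (nat_lit 6) (nat_lit 5) (nat_lit 7) (nat_lit 5) (nat_lit 8) (nat_lit 4) (nat_lit 373) (nat_lit 227) (nat_lit 180)) (XT.nd (nat_lit 78) (nat_lit 0) (nat_lit 0) (XT.lf (nat_lit 0) (nat_lit 10684210173) (nat_lit 76) (nat_lit 932218301) (nat_lit 152) (nat_lit 30270485685) (nat_lit 6) (nat_lit 5) (nat_lit 7) (nat_lit 5) (nat_lit 8) (nat_lit 4) (nat_lit 374) (nat_lit 227) (nat_lit 179)) (XT.lf (nat_lit 0) (nat_lit 14401511468) (nat_lit 152) (nat_lit 26888467351) (nat_lit 0) (nat_lit 1763581685) (nat_lit 6) (nat_lit 5) (nat_lit 8) (nat_lit 4) (nat_lit 6) (nat_lit 4) (nat_lit 375) (nat_lit 227) (nat_lit 178))))))) (XT.nd (nat_lit 936) (nat_lit 152)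 (nat_lit 0) (XT.nd (nat_lit 468) (nat_lit 0) (nat_lit 0) (XT.nd (nat_lit 234) (nat_lit 76) (nat_lit 0) (XT.nd (nat_lit 78) (nat_lit 0) (nat_lit 0) (XT.lf (nat_lit 0) (nat_lit 17251711014) (nat_lit 152) (nat_lit 22503329534) (nat_lit 0) (nat_lit 4500737546) (nat_lit 6) (nat_lit 5) (nat_lit 8) (nat_lit 4) (nat_lit 6) (nat_lit 4) (nat_lit 376) (nat_lit 227) (nat_lit 177)) (XT.nd (nat_lit 78) (nat_lit 0) (nat_lit 0) (XT.lf (nat_lit 0) (nat_lit 20160556525) (nat_lit 152) (nat_lit 18034497808) (nat_lit 0) (nat_lit 7299831907) (nat_lit 6) (nat_lit 5) (nat_lit 8) (nat_lit 4) (nat_lit 6) (nat_lit 4) (nat_lit 377) (nat_lit 227) (nat_lit 176)) (XT.lf (nat_lit 0) (nat_lit 23130589711) (nat_lit 152) (nat_lit 13478067370) (nat_lit 0) (nat_lit 10163310578) (nat_lit 6) (nat_lit 5) (nat_lit 8) (nat_lit 4) (nat_lit 6) (nat_lit 4) (nat_lit 378) (nat_lit 227) (nat_lit 175)))) (XT.nd (nat_lit 78) (nat_lit 76) (nat_lit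 0) (XT.lf (nat_lit 0) (nat_lit 26164405746) (nat_lit 152) (nat_lit 8830056872) (nat_lit 0) (nat_lit 13093675629) (nat_lit 6) (nat_lit 5) (nat_lit 8) (nat_lit 4) (nat_lit 6) (nat_lit 4) (nat_lit 379) (nat_lit 227) (nat_lit 174)) (XT.nd (nat_lit 78) (nat_lit 76) (nat_lit 0) (XT.lf (nat_lit 0) (nat_lit 29264655538) (nat_lit 152) (nat_lit 4086404946) (nat_lit 0) (nat_lit 16093487572) (nat_lit 6) (nat_lit 5) (nat_lit 8) (nat_lit 4) (nat_lit 6) (nat_lit 4) (nat_lit 380) (nat_lit 227) (nat_lit 173)) (XT.lf (nat_lit 0) (nat_lit 772099794) (nat_lit 76) (nat_lit 31669370145) (nat_lit 76) (nat_lit 18400689703) (nat_lit 5) (nat_lit 4) (nat_lit 6) (nat_lit 5) (nat_lit 6) (nat_lit 4) (nat_lit 381) (nat_lit 227) (nat_lit 172))))) (XT.nd (nat_lit 234) (nat_lit 0) (nat_lit 0) (XT.nd (nat_lit 78) (nat_lit 0) (nat_lit 0) (XT.lf (nat_lit 0) (nat_lit 5818020675) (nat_lit 76) (nat_lit 29913258333) (nat_lit 76) (nat_lit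 16549905585) (nat_lit 5) (nat_lit 4) (nat_lit 6) (nat_lit 5) (nat_lit 6) (nat_lit 4) (nat_lit 382) (nat_lit 227) (nat_lit 171)) (XT.nd (nat_lit 78) (nat_lit 0) (nat_lit 0) (XT.lf (nat_lit 0) (nat_lit 10974439282) (nat_lit 76) (nat_lit 28122455259) (nat_lit 76) (nat_lit 14667187651) (nat_lit 5) (nat_lit 4) (nat_lit 6) (nat_lit 5) (nat_lit 6) (nat_lit 4) (nat_lit 383) (nat_lit 227) (nat_lit 170)) (XT.lf (nat_lit 0) (nat_lit 16245861225) (nat_lit 76) (nat_lit 26295396145) (nat_lit 76) (nat_lit 12750890808) (nat_lit 5) (nat_lit 4) (nat_lit 6) (nat_lit 5) (nat_lit 6) (nat_lit 4) (nat_lit 384) (nat_lit 227) (nat_lit 169)))) (XT.nd (nat_lit 78) (nat_lit 0) (nat_lit 0) (XT.lf (nat_lit 0) (nat_lit 21636892598) (nat_lit 76) (nat_lit 24430484530) (nat_lit 76) (nat_lit 10799340622) (nat_lit 5) (nat_lit 4) (nat_lit 6) (nat_lit 5) (nat_lit 6) (nat_lit 4) (nat_lit 385) (nat_lit 227) (nat_lit 168)) (XT.nd (nat_lit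 78) (nat_lit 0) (nat_lit 0) (XT.lf (nat_lit 0) (nat_lit 27152244014) (nat_lit 76) (nat_lit 22526090880) (nat_lit 76) (nat_lit 8810831855) (nat_lit 5) (nat_lit 4) (nat_lit 6) (nat_lit 5) (nat_lit 6) (nat_lit 4) (nat_lit 386) (nat_lit 227) (nat_lit 167)) (XT.lf (nat_lit 0) (nat_lit 32796734710) (nat_lit 76) (nat_lit 20580551162) (nat_lit 76) (nat_lit 6783626974) (nat_lit 5) (nat_lit 4) (nat_lit 6) (nat_lit 5) (nat_lit 6) (nat_lit 4) (nat_lit 387) (nat_lit 227) (nat_lit 166)))))) (XT.nd (nat_lit 468) (nat_lit 76) (nat_lit 0) (XT.nd (nat_lit 234) (nat_lit 76) (nat_lit 0) (XT.nd (nat_lit 78) (nat_lit 0) (nat_lit 0) (XT.lf (nat_lit 0) (nat_lit 38575296766) (nat_lit 76) (nat_lit 18592165389) (nat_lit 76) (nat_lit 4715954636) (nat_lit 5) (nat_lit 4) (nat_lit 6) (nat_lit 5) (nat_lit 6) (nat_lit 4) (nat_lit 388) (nat_lit 227) (nat_lit 165)) (XT.nd (nat_lit 78) (nat_lit 0) (nat_lit 0) (XT.lf (nat_lit 0)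 (nat_lit 44492979411) (nat_lit 76) (nat_lit 16559196139) (nat_lit 76) (nat_lit 2606008136) (nat_lit 5) (nat_lit 4) (nat_lit 6) (nat_lit 5) (nat_lit 6) (nat_lit 4) (nat_lit 389) (nat_lit 227) (nat_lit 164)) (XT.lf (nat_lit 0) (nat_lit 50554953436) (nat_lit 76) (nat_lit 14479867028) (nat_lit 76) (nat_lit 451943833) (nat_lit 5) (nat_lit 4) (nat_lit 6) (nat_lit 5) (nat_lit 6) (nat_lit 4) (nat_lit 390) (nat_lit 227) (nat_lit 163)))) (XT.nd (nat_lit 78) (nat_lit 0) (nat_lit 0) (XT.lf (nat_lit 0) (nat_lit 1714008338) (nat_lit 152) (nat_lit 10621044706) (nat_lit 76) (nat_lit 55035199248) (nat_lit 4) (nat_lit 5) (nat_lit 6) (nat_lit 5) (nat_lit 5) (nat_lit 4) (nat_lit 391) (nat_lit 227) (nat_lit 162)) (XT.nd (nat_lit 78) (nat_lit 0) (nat_lit 0) (XT.lf (nat_lit 0) (nat_lit 3918128702) (nat_lit 152) (nat_lit 6217125453) (nat_lit 76) (nat_lit 59175399694) (nat_lit 4) (nat_lit 5) (nat_lit 6) (nat_lit 5) (nat_lit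 5) (nat_lit 4) (nat_lit 392) (nat_lit 227) (nat_lit 161)) (XT.lf (nat_lit 0) (nat_lit 6171162241) (nat_lit 152) (nat_lit 1711860658) (nat_lit 76) (nat_lit 63426771896) (nat_lit 4) (nat_lit 5) (nat_lit 6) (nat_lit 5) (nat_lit 5) (nat_lit 4) (nat_lit 393) (nat_lit 227) (nat_lit 160))))) (XT.nd (nat_lit 234) (nat_lit 0) (nat_lit 0) (XT.nd (nat_lit 78) (nat_lit 0) (nat_lit 0) (XT.lf (nat_lit 0) (nat_lit 2956375859) (nat_lit 76) (nat_lit 5547120258) (nat_lit 152) (nat_lit 64865073279) (nat_lit 3) (nat_lit 5) (nat_lit 4) (nat_lit 5) (nat_lit 5) (nat_lit 4) (nat_lit 394) (nat_lit 227) (nat_lit 159)) (XT.nd (nat_lit 78) (nat_lit 0) (nat_lit 0) (XT.lf (nat_lit 0) (nat_lit 7770168076) (nat_lit 76) (nat_lit 3136411514) (nat_lit 152) (nat_lit 64582514654) (nat_lit 3) (nat_lit 5) (nat_lit 4) (nat_lit 5) (nat_lit 5) (nat_lit 4) (nat_lit 395) (nat_lit 227) (nat_lit 158)) (XT.lf (nat_lit 0) (nat_lit 12699652834)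 (nat_lit 76) (nat_lit 666076660) (nat_lit 152) (nat_lit 64307996218) (nat_lit 3) (nat_lit 5) (nat_lit 4) (nat_lit 5) (nat_lit 5) (nat_lit 4) (nat_lit 396) (nat_lit 227) (nat_lit 157)))) (XT.nd (nat_lit 78) (nat_lit 0) (nat_lit 0) (XT.lf (nat_lit 0) (nat_lit 15901032146) (nat_lit 152) (nat_lit 62193172798) (nat_lit 0) (nat_lit 1829629630) (nat_lit 3) (nat_lit 5) (nat_lit 5) (nat_lit 4) (nat_lit 3) (nat_lit 4) (nat_lit 397) (nat_lit 227) (nat_lit 156)) (XT.nd (nat_lit 78) (nat_lit 0) (nat_lit 0) (XT.lf (nat_lit 0) (nat_lit 18503767556) (nat_lit 152) (nat_lit 59362860712) (nat_lit 0) (nat_lit 4375086738) (nat_lit 3) (nat_lit 5) (nat_lit 5) (nat_lit 4) (nat_lit 3) (nat_lit 4) (nat_lit 398) (nat_lit 227) (nat_lit 155)) (XT.lf (nat_lit 0) (nat_lit 21169807223) (nat_lit 152) (nat_lit 56474260796) (nat_lit 0) (nat_lit 6985516403) (nat_lit 3) (nat_lit 5) (nat_lit 5) (nat_lit 4) (nat_lit 3) (nat_lit 4)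 (nat_lit 399) (nat_lit 227) (nat_lit 154))))))))
noncomputable def xc34 : XT := (XT.nd (nat_lit 36192) (nat_lit 0) (nat_lit 456) (XT.nd (nat_lit 35256) (nat_lit 0) (nat_lit 1140) (XT.nd (nat_lit 34788) (nat_lit 0) (nat_lit 1976) (XT.nd (nat_lit 156) (nat_lit 0) (nat_lit 0) (XT.nd (nat_lit 78) (nat_lit 0) (nat_lit 0) (XT.lf (nat_lit 0) (nat_lit 23901480696) (nat_lit 152) (nat_lit 53524849030) (nat_lit 0) (nat_lit 9663199583) (nat_lit 3) (nat_lit 5) (nat_lit 5) (nat_lit 4) (nat_lit 3) (nat_lit 4) (nat_lit 400) (nat_lit 227) (nat_lit 153)) (XT.lf (nat_lit 0) (nat_lit 26701174874) (nat_lit 152) (nat_lit 50512048259) (nat_lit 0) (nat_lit 12410476001) (nat_lit 3) (nat_lit 5) (nat_lit 5) (nat_lit 4) (nat_lit 3) (nat_lit 4) (nat_lit 401) (nat_lit 227) (nat_lit 152))) (XT.nd (nat_lit 78) (nat_lit 0) (nat_lit 0) (XT.lf (nat_lit 0) (nat_lit 29571336092) (nat_lit 152) (nat_lit 47433225937) (nat_lit 0) (nat_lit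 15229746189) (nat_lit 3) (nat_lit 5) (nat_lit 5) (nat_lit 4) (nat_lit 3) (nat_lit 4) (nat_lit 402) (nat_lit 227) (nat_lit 151)) (XT.nd (nat_lit 34476) (nat_lit 0) (nat_lit 2584) (XT.lf (nat_lit 0) (nat_lit 32514472258) (nat_lit 152) (nat_lit 44285691833) (nat_lit 0) (nat_lit 18123473589) (nat_lit 3) (nat_lit 5) (nat_lit 5) (nat_lit 4) (nat_lit 3) (nat_lit 4) (nat_lit 403) (nat_lit 227) (nat_lit 150)) (XT.lf (nat_lit 0) (nat_lit 3972417574) (nat_lit 228) (nat_lit 1139393344) (nat_lit 228) (nat_lit 1139393344) (nat_lit 37) (nat_lit 4) (nat_lit 40) (nat_lit 5) (nat_lit 40) (nat_lit 4) (nat_lit 324) (nat_lit 228) (nat_lit 228))))) (XT.nd (nat_lit 234) (nat_lit 228) (nat_lit 0) (XT.nd (nat_lit 78) (nat_lit 152) (nat_lit 0) (XT.lf (nat_lit 0) (nat_lit 1288742933) (nat_lit 228) (nat_lit 10778541376) (nat_lit 0) (nat_lit 679250789) (nat_lit 34) (nat_lit 5) (nat_lit 37) (nat_lit 4) (nat_lit 34) (nat_lit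 4) (nat_lit 325) (nat_lit 228) (nat_lit 227)) (XT.nd (nat_lit 78) (nat_lit 152) (nat_lit 0) (XT.lf (nat_lit 0) (nat_lit 4903704644) (nat_lit 228) (nat_lit 4391643456) (nat_lit 0) (nat_lit 3702472554) (nat_lit 34) (nat_lit 5) (nat_lit 37) (nat_lit 4) (nat_lit 34) (nat_lit 4) (nat_lit 326) (nat_lit 228) (nat_lit 226)) (XT.lf (nat_lit 0) (nat_lit 2099468295) (nat_lit 152) (nat_lit 6467407980) (nat_lit 152) (nat_lit 4691671090) (nat_lit 32) (nat_lit 4) (nat_lit 34) (nat_lit 5) (nat_lit 34) (nat_lit 4) (nat_lit 327) (nat_lit 228) (nat_lit 225)))) (XT.nd (nat_lit 78) (nat_lit 228) (nat_lit 0) (XT.lf (nat_lit 0) (nat_lit 8748234937) (nat_lit 152) (nat_lit 3556755354) (nat_lit 152) (nat_lit 1223246811) (nat_lit 32) (nat_lit 4) (nat_lit 34) (nat_lit 5) (nat_lit 34) (nat_lit 4) (nat_lit 328) (nat_lit 228) (nat_lit 224)) (XT.nd (nat_lit 78) (nat_lit 0) (nat_lit 0) (XT.lf (nat_lit 0) (nat_lit 1675522970)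 (nat_lit 152) (nat_lit 566130915) (nat_lit 228) (nat_lit 11565625532) (nat_lit 29) (nat_lit 5) (nat_lit 31) (nat_lit 5) (nat_lit 32) (nat_lit 4) (nat_lit 329) (nat_lit 228) (nat_lit 223)) (XT.lf (nat_lit 0) (nat_lit 5781614533) (nat_lit 228) (nat_lit 5833050032) (nat_lit 0) (nat_lit 2479878906) (nat_lit 29) (nat_lit 5) (nat_lit 32) (nat_lit 4) (nat_lit 29) (nat_lit 4) (nat_lit 330) (nat_lit 228) (nat_lit 222)))))) (XT.nd (nat_lit 468) (nat_lit 304) (nat_lit 0) (XT.nd (nat_lit 234) (nat_lit 304) (nat_lit 0) (XT.nd (nat_lit 78) (nat_lit 76) (nat_lit 0) (XT.lf (nat_lit 0) (nat_lit 537414850) (nat_lit 152) (nat_lit 8826163644) (nat_lit 152) (nat_lit 5028855128) (nat_lit 27) (nat_lit 4) (nat_lit 29) (nat_lit 5) (nat_lit 29) (nat_lit 4) (nat_lit 331) (nat_lit 228) (nat_lit 221)) (XT.nd (nat_lit 78) (nat_lit 76) (nat_lit 0) (XT.lf (nat_lit 0) (nat_lit 7097678024) (nat_lit 152) (nat_lit 5940280448) (nat_lit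 152) (nat_lit 1661833206) (nat_lit 27) (nat_lit 4) (nat_lit 29) (nat_lit 5) (nat_lit 29) (nat_lit 4) (nat_lit 332) (nat_lit 228) (nat_lit 220)) (XT.lf (nat_lit 0) (nat_lit 1698375515) (nat_lit 228) (nat_lit 1297869923) (nat_lit 76) (nat_lit 12021856846) (nat_lit 26) (nat_lit 5) (nat_lit 29) (nat_lit 5) (nat_lit 27) (nat_lit 4) (nat_lit 333) (nat_lit 228) (nat_lit 219)))) (XT.nd (nat_lit 78) (nat_lit 152) (nat_lit 0) (XT.lf (nat_lit 0) (nat_lit 5105737569) (nat_lit 228) (nat_lit 10182335902) (nat_lit 0) (nat_lit 58075807) (nat_lit 24) (nat_lit 5) (nat_lit 27) (nat_lit 4) (nat_lit 24) (nat_lit 4) (nat_lit 334) (nat_lit 228) (nat_lit 218)) (XT.nd (nat_lit 78) (nat_lit 152) (nat_lit 0) (XT.lf (nat_lit 0) (nat_lit 8588280770) (nat_lit 228) (nat_lit 3983505623) (nat_lit 0) (nat_lit 3113133481) (nat_lit 24) (nat_lit 5) (nat_lit 27) (nat_lit 4) (nat_lit 24) (nat_lit 4) (nat_lit 335) (nat_lit 228) (nat_lit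 217)) (XT.lf (nat_lit 0) (nat_lit 2334199567) (nat_lit 152) (nat_lit 9795634362) (nat_lit 152) (nat_lit 3905452581) (nat_lit 22) (nat_lit 4) (nat_lit 24) (nat_lit 5) (nat_lit 24) (nat_lit 4) (nat_lit 336) (nat_lit 228) (nat_lit 216))))) (XT.nd (nat_lit 234) (nat_lit 152) (nat_lit 0) (XT.nd (nat_lit 78) (nat_lit 152) (nat_lit 0) (XT.lf (nat_lit 0) (nat_lit 8811559536) (nat_lit 152) (nat_lit 6939301306) (nat_lit 152) (nat_lit 646173416) (nat_lit 22) (nat_lit 4) (nat_lit 24) (nat_lit 5) (nat_lit 24) (nat_lit 4) (nat_lit 337) (nat_lit 228) (nat_lit 215)) (XT.nd (nat_lit 78) (nat_lit 76) (nat_lit 0) (XT.lf (nat_lit 0) (nat_lit 2592230243) (nat_lit 228) (nat_lit 1422110309) (nat_lit 76) (nat_lit 12756547853) (nat_lit 21) (nat_lit 5) (nat_lit 24) (nat_lit 5) (nat_lit 22) (nat_lit 4) (nat_lit 338) (nat_lit 228) (nat_lit 214)) (XT.lf (nat_lit 0) (nat_lit 4909087673) (nat_lit 76) (nat_lit 989060470) (nat_lit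 152) (nat_lit 11258178860) (nat_lit 20) (nat_lit 5) (nat_lit 21) (nat_lit 5) (nat_lit 22) (nat_lit 4) (nat_lit 339) (nat_lit 228) (nat_lit 213)))) (XT.nd (nat_lit 78) (nat_lit 152) (nat_lit 0) (XT.lf (nat_lit 0) (nat_lit 9274790742) (nat_lit 152) (nat_lit 6221073748) (nat_lit 0) (nat_lit 2058377316) (nat_lit 20) (nat_lit 5) (nat_lit 22) (nat_lit 4) (nat_lit 20) (nat_lit 4) (nat_lit 340) (nat_lit 228) (nat_lit 212)) (XT.nd (nat_lit 78) (nat_lit 152) (nat_lit 0) (XT.lf (nat_lit 0) (nat_lit 12700970578) (nat_lit 152) (nat_lit 127761769) (nat_lit 0) (nat_lit 5136972299) (nat_lit 20) (nat_lit 5) (nat_lit 22) (nat_lit 4) (nat_lit 20) (nat_lit 4) (nat_lit 341) (nat_lit 228) (nat_lit 211)) (XT.lf (nat_lit 0) (nat_lit 6167885985) (nat_lit 152) (nat_lit 10061577454) (nat_lit 152) (nat_lit 2160118152) (nat_lit 18) (nat_lit 4) (nat_lit 20) (nat_lit 5) (nat_lit 20) (nat_lit 4) (nat_lit 342) (nat_lit 228)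 (nat_lit 210))))))) (XT.nd (nat_lit 858) (nat_lit 228) (nat_lit 0) (XT.nd (nat_lit 390) (nat_lit 304) (nat_lit 0) (XT.nd (nat_lit 156) (nat_lit 76) (nat_lit 0) (XT.nd (nat_lit 78) (nat_lit 0) (nat_lit 0) (XT.lf (nat_lit 0) (nat_lit 959072932) (nat_lit 228) (nat_lit 6282173308) (nat_lit 76) (nat_lit 11586431662) (nat_lit 17) (nat_lit 5) (nat_lit 20) (nat_lit 5) (nat_lit 18) (nat_lit 4) (nat_lit 343) (nat_lit 228) (nat_lit 209)) (XT.lf (nat_lit 0) (nat_lit 4070541762) (nat_lit 228) (nat_lit 283980962) (nat_lit 76) (nat_lit 14925540505) (nat_lit 17) (nat_lit 5) (nat_lit 20) (nat_lit 5) (nat_lit 18) (nat_lit 4) (nat_lit 344) (nat_lit 228) (nat_lit 208))) (XT.nd (nat_lit 78) (nat_lit 0) (nat_lit 0) (XT.lf (nat_lit 0) (nat_lit 5914296167) (nat_lit 76) (nat_lit 1361714447) (nat_lit 152) (nat_lit 12470039623) (nat_lit 16) (nat_lit 5) (nat_lit 17) (nat_lit 5) (nat_lit 18) (nat_lit 4) (nat_lit 345) (nat_lit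 228) (nat_lit 207)) (XT.nd (nat_lit 78) (nat_lit 0) (nat_lit 0) (XT.lf (nat_lit 0) (nat_lit 10541242144) (nat_lit 152) (nat_lit 8033833276) (nat_lit 0) (nat_lit 1652081825) (nat_lit 16) (nat_lit 5) (nat_lit 18) (nat_lit 4) (nat_lit 16) (nat_lit 4) (nat_lit 346) (nat_lit 228) (nat_lit 206)) (XT.lf (nat_lit 0) (nat_lit 13863699771) (nat_lit 152) (nat_lit 2168345399) (nat_lit 0) (nat_lit 4691921158) (nat_lit 16) (nat_lit 5) (nat_lit 18) (nat_lit 4) (nat_lit 16) (nat_lit 4) (nat_lit 347) (nat_lit 228) (nat_lit 205))))) (XT.nd (nat_lit 234) (nat_lit 76) (nat_lit 0) (XT.nd (nat_lit 78) (nat_lit 76) (nat_lit 0) (XT.lf (nat_lit 0) (nat_lit 3858211988) (nat_lit 152) (nat_lit 13412072488) (nat_lit 152) (nat_lit 3965907182) (nat_lit 14) (nat_lit 4) (nat_lit 16) (nat_lit 5) (nat_lit 16) (nat_lit 4) (nat_lit 348) (nat_lit 228) (nat_lit 204)) (XT.nd (nat_lit 78) (nat_lit 76) (nat_lit 0) (XT.lf (nat_lit 0)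 (nat_lit 10020716459) (nat_lit 152) (nat_lit 10728286795) (nat_lit 152) (nat_lit 1015726642) (nat_lit 14) (nat_lit 4) (nat_lit 16) (nat_lit 5) (nat_lit 16) (nat_lit 4) (nat_lit 349) (nat_lit 228) (nat_lit 203)) (XT.lf (nat_lit 0) (nat_lit 1932496384) (nat_lit 228) (nat_lit 6048228266) (nat_lit 76) (nat_lit 14329387592) (nat_lit 13) (nat_lit 5) (nat_lit 16) (nat_lit 5) (nat_lit 14) (nat_lit 4) (nat_lit 350) (nat_lit 228) (nat_lit 202)))) (XT.nd (nat_lit 78) (nat_lit 76) (nat_lit 0) (XT.lf (nat_lit 0) (nat_lit 4899248375) (nat_lit 228) (nat_lit 276824418) (nat_lit 76) (nat_lit 17697007134) (nat_lit 13) (nat_lit 5) (nat_lit 16) (nat_lit 5) (nat_lit 14) (nat_lit 4) (nat_lit 351) (nat_lit 228) (nat_lit 201)) (XT.nd (nat_lit 78) (nat_lit 0) (nat_lit 0) (XT.lf (nat_lit 0) (nat_lit 5696157414) (nat_lit 76) (nat_lit 2265539658) (nat_lit 152) (nat_lit 15491078058) (nat_lit 12) (nat_lit 5) (nat_lit 13)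 (nat_lit 5) (nat_lit 14) (nat_lit 4) (nat_lit 352) (nat_lit 228) (nat_lit 200)) (XT.lf (nat_lit 0) (nat_lit 11078102170) (nat_lit 152) (nat_lit 12285877201) (nat_lit 0) (nat_lit 687057496) (nat_lit 12) (nat_lit 5) (nat_lit 14) (nat_lit 4) (nat_lit 12) (nat_lit 4) (nat_lit 353) (nat_lit 228) (nat_lit 199)))))) (XT.nd (nat_lit 468) (nat_lit 76) (nat_lit 0) (XT.nd (nat_lit 234) (nat_lit 76) (nat_lit 0) (XT.nd (nat_lit 78) (nat_lit 76) (nat_lit 0) (XT.lf (nat_lit 0) (nat_lit 14264042615) (nat_lit 152) (nat_lit 6754063150) (nat_lit 0) (nat_lit 3649896450) (nat_lit 12) (nat_lit 5) (nat_lit 14) (nat_lit 4) (nat_lit 12) (nat_lit 4) (nat_lit 354) (nat_lit 228) (nat_lit 198)) (XT.nd (nat_lit 78) (nat_lit 76) (nat_lit 0) (XT.lf (nat_lit 0) (nat_lit 17500524487) (nat_lit 152) (nat_lit 1134564185) (nat_lit 0) (nat_lit 6669774932) (nat_lit 12) (nat_lit 5) (nat_lit 14) (nat_lit 4) (nat_lit 12) (nat_lit 4) (nat_lit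 355) (nat_lit 228) (nat_lit 197)) (XT.lf (nat_lit 0) (nat_lit 4668631755) (nat_lit 76) (nat_lit 16166621766) (nat_lit 76) (nat_lit 5125577659) (nat_lit 11) (nat_lit 4) (nat_lit 12) (nat_lit 5) (nat_lit 12) (nat_lit 4) (nat_lit 356) (nat_lit 228) (nat_lit 196)))) (XT.nd (nat_lit 78) (nat_lit 76) (nat_lit 0) (XT.lf (nat_lit 0) (nat_lit 10593936213) (nat_lit 76) (nat_lit 13644370298) (nat_lit 76) (nat_lit 2399156723) (nat_lit 11) (nat_lit 4) (nat_lit 12) (nat_lit 5) (nat_lit 12) (nat_lit 4) (nat_lit 357) (nat_lit 228) (nat_lit 195)) (XT.nd (nat_lit 78) (nat_lit 0) (nat_lit 0) (XT.lf (nat_lit 0) (nat_lit 358710093) (nat_lit 152) (nat_lit 10715254870) (nat_lit 76) (nat_lit 16261614223) (nat_lit 10) (nat_lit 5) (nat_lit 12) (nat_lit 5) (nat_lit 11) (nat_lit 4) (nat_lit 358) (nat_lit 228) (nat_lit 194)) (XT.lf (nat_lit 0) (nat_lit 3109961583) (nat_lit 152) (nat_lit 5322663650) (nat_lit 76) (nat_lit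 19622565715) (nat_lit 10) (nat_lit 5) (nat_lit 12) (nat_lit 5) (nat_lit 11) (nat_lit 4) (nat_lit 359) (nat_lit 228) (nat_lit 193))))) (XT.nd (nat_lit 234) (nat_lit 0) (nat_lit 0) (XT.nd (nat_lit 78) (nat_lit 0) (nat_lit 0) (XT.lf (nat_lit 0) (nat_lit 165245303) (nat_lit 76) (nat_lit 5740161078) (nat_lit 152) (nat_lit 22892165140) (nat_lit 9) (nat_lit 5) (nat_lit 10) (nat_lit 5) (nat_lit 11) (nat_lit 4) (nat_lit 360) (nat_lit 228) (nat_lit 192)) (XT.nd (nat_lit 78) (nat_lit 0) (nat_lit 0) (XT.lf (nat_lit 0) (nat_lit 5857899561) (nat_lit 76) (nat_lit 2941130557) (nat_lit 152) (nat_lit 20762793176) (nat_lit 9) (nat_lit 5) (nat_lit 10) (nat_lit 5) (nat_lit 11) (nat_lit 4) (nat_lit 361) (nat_lit 228) (nat_lit 191)) (XT.lf (nat_lit 0) (nat_lit 11654341844) (nat_lit 76) (nat_lit 86836382) (nat_lit 152) (nat_lit 18609001324) (nat_lit 9) (nat_lit 5) (nat_lit 10) (nat_lit 5) (nat_lit 11) (nat_lit 4) (nat_lit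 362) (nat_lit 228) (nat_lit 190)))) (XT.nd (nat_lit 78) (nat_lit 0) (nat_lit 0) (XT.lf (nat_lit 0) (nat_lit 14761579214) (nat_lit 152) (nat_lit 13630849841) (nat_lit 0) (nat_lit 2770085358) (nat_lit 9) (nat_lit 5) (nat_lit 11) (nat_lit 4) (nat_lit 9) (nat_lit 4) (nat_lit 363) (nat_lit 228) (nat_lit 189)) (XT.nd (nat_lit 78) (nat_lit 0) (nat_lit 0) (XT.lf (nat_lit 0) (nat_lit 17837105224) (nat_lit 152) (nat_lit 8478767375) (nat_lit 0) (nat_lit 5684438103) (nat_lit 9) (nat_lit 5) (nat_lit 11) (nat_lit 4) (nat_lit 9) (nat_lit 4) (nat_lit 364) (nat_lit 228) (nat_lit 188)) (XT.lf (nat_lit 0) (nat_lit 20969608883) (nat_lit 152) (nat_lit 3234253765) (nat_lit 0) (nat_lit 8660462865) (nat_lit 9) (nat_lit 5) (nat_lit 11) (nat_lit 4) (nat_lit 9) (nat_lit 4) (nat_lit 365) (nat_lit 228) (nat_lit 187))))))))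
noncomputable def xc35 : XT := (XT.nd (nat_lit 1794) (nat_lit 152) (nat_lit 0) (XT.nd (nat_lit 858) (nat_lit 76) (nat_lit 0) (XT.nd (nat_lit 390) (nat_lit 76) (nat_lit 0) (XT.nd (nat_lit 156) (nat_lit 76) (nat_lit 0) (XT.nd (nat_lit 78) (nat_lit 0) (nat_lit 0) (XT.lf (nat_lit 0) (nat_lit 2149212450) (nat_lit 76) (nat_lit 22033274425) (nat_lit 76) (nat_lit 9572207149) (nat_lit 8) (nat_lit 4) (nat_lit 9) (nat_lit 5) (nat_lit 9) (nat_lit 4) (nat_lit 366) (nat_lit 228) (nat_lit 186)) (XT.lf (nat_lit 0) (nat_lit 7700751393) (nat_lit 76) (nat_lit 19789822825) (nat_lit 76) (nat_lit 7181259181) (nat_lit 8) (nat_lit 4) (nat_lit 9) (nat_lit 5) (nat_lit 9) (nat_lit 4) (nat_lit 367) (nat_lit 228) (nat_lit 185))) (XT.nd (nat_lit 78) (nat_lit 76) (nat_lit 0) (XT.lf (nat_lit 0) (nat_lit 13360845931) (nat_lit 76) (nat_lit 17504207171) (nat_lit 76) (nat_lit 4752443169) (nat_lit 8) (nat_lit 4) (nat_lit 9) (nat_lit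 5) (nat_lit 9) (nat_lit 4) (nat_lit 368) (nat_lit 228) (nat_lit 184)) (XT.nd (nat_lit 78) (nat_lit 76) (nat_lit 0) (XT.lf (nat_lit 0) (nat_lit 19134441778) (nat_lit 76) (nat_lit 15174430322) (nat_lit 76) (nat_lit 2283636848) (nat_lit 8) (nat_lit 4) (nat_lit 9) (nat_lit 5) (nat_lit 9) (nat_lit 4) (nat_lit 369) (nat_lit 228) (nat_lit 183)) (XT.lf (nat_lit 0) (nat_lit 222881219) (nat_lit 152) (nat_lit 12573324670) (nat_lit 76) (nat_lit 24801451941) (nat_lit 7) (nat_lit 5) (nat_lit 9) (nat_lit 5) (nat_lit 8) (nat_lit 4) (nat_lit 370) (nat_lit 228) (nat_lit 182))))) (XT.nd (nat_lit 234) (nat_lit 0) (nat_lit 0) (XT.nd (nat_lit 78) (nat_lit 76) (nat_lit 0) (XT.lf (nat_lit 0) (nat_lit 2728313599) (nat_lit 152) (nat_lit 7618345551) (nat_lit 76) (nat_lit 28286556324) (nat_lit 7) (nat_lit 5) (nat_lit 9) (nat_lit 5) (nat_lit 8) (nat_lit 4) (nat_lit 371) (nat_lit 228) (nat_lit 181)) (XT.nd (nat_lit 78) (nat_lit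 76) (nat_lit 0) (XT.lf (nat_lit 0) (nat_lit 5279411484) (nat_lit 152) (nat_lit 2566848506) (nat_lit 76) (nat_lit 31854485298) (nat_lit 7) (nat_lit 5) (nat_lit 9) (nat_lit 5) (nat_lit 8) (nat_lit 4) (nat_lit 372) (nat_lit 228) (nat_lit 180)) (XT.lf (nat_lit 0) (nat_lit 2637038514) (nat_lit 76) (nat_lit 5266714303) (nat_lit 152) (nat_lit 32896666783) (nat_lit 6) (nat_lit 5) (nat_lit 7) (nat_lit 5) (nat_lit 8) (nat_lit 4) (nat_lit 373) (nat_lit 228) (nat_lit 179)))) (XT.nd (nat_lit 78) (nat_lit 0) (nat_lit 0) (XT.lf (nat_lit 0) (nat_lit 7999543175) (nat_lit 76) (nat_lit 2604915409) (nat_lit 152) (nat_lit 31328715871) (nat_lit 6) (nat_lit 5) (nat_lit 7) (nat_lit 5) (nat_lit 8) (nat_lit 4) (nat_lit 374) (nat_lit 228) (nat_lit 178)) (XT.nd (nat_lit 78) (nat_lit 0) (nat_lit 0) (XT.lf (nat_lit 0) (nat_lit 13359834106) (nat_lit 152) (nat_lit 29627599418) (nat_lit 0) (nat_lit 113287750) (nat_lit 6) (nat_lit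 5) (nat_lit 8) (nat_lit 4) (nat_lit 6) (nat_lit 4) (nat_lit 375) (nat_lit 228) (nat_lit 177)) (XT.lf (nat_lit 0) (nat_lit 16196802114) (nat_lit 152) (nat_lit 25266038067) (nat_lit 0) (nat_lit 2840504608) (nat_lit 6) (nat_lit 5) (nat_lit 8) (nat_lit 4) (nat_lit 6) (nat_lit 4) (nat_lit 376) (nat_lit 228) (nat_lit 176)))))) (XT.nd (nat_lit 468) (nat_lit 0) (nat_lit 0) (XT.nd (nat_lit 234) (nat_lit 76) (nat_lit 0) (XT.nd (nat_lit 78) (nat_lit 0) (nat_lit 0) (XT.lf (nat_lit 0) (nat_lit 19092801472) (nat_lit 152) (nat_lit 20820096114) (nat_lit 0) (nat_lit 5629949451) (nat_lit 6) (nat_lit 5) (nat_lit 8) (nat_lit 4) (nat_lit 6) (nat_lit 4) (nat_lit 377) (nat_lit 228) (nat_lit 175)) (XT.nd (nat_lit 78) (nat_lit 0) (nat_lit 0) (XT.lf (nat_lit 0) (nat_lit 22050362665) (nat_lit 152) (nat_lit 16285888756) (nat_lit 0) (nat_lit 8484059659) (nat_lit 6) (nat_lit 5) (nat_lit 8) (nat_lit 4) (nat_lit 6) (nat_lit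 4) (nat_lit 378) (nat_lit 228) (nat_lit 174)) (XT.lf (nat_lit 0) (nat_lit 25072069969) (nat_lit 152) (nat_lit 11659454064) (nat_lit 0) (nat_lit 11405329114) (nat_lit 6) (nat_lit 5) (nat_lit 8) (nat_lit 4) (nat_lit 6) (nat_lit 4) (nat_lit 379) (nat_lit 228) (nat_lit 173)))) (XT.nd (nat_lit 78) (nat_lit 76) (nat_lit 0) (XT.lf (nat_lit 0) (nat_lit 28160563712) (nat_lit 152) (nat_lit 6936749523) (nat_lit 0) (nat_lit 14396310382) (nat_lit 6) (nat_lit 5) (nat_lit 8) (nat_lit 4) (nat_lit 6) (nat_lit 4) (nat_lit 380) (nat_lit 228) (nat_lit 172)) (XT.nd (nat_lit 78) (nat_lit 76) (nat_lit 0) (XT.lf (nat_lit 0) (nat_lit 31318542577) (nat_lit 152) (nat_lit 2113648497) (nat_lit 0) (nat_lit 17459616941) (nat_lit 6) (nat_lit 5) (nat_lit 8) (nat_lit 4) (nat_lit 6) (nat_lit 4) (nat_lit 381) (nat_lit 228) (nat_lit 171)) (XT.lf (nat_lit 0) (nat_lit 2870068752) (nat_lit 76) (nat_lit 31706286068) (nat_lit 76) (nat_lit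 17755445572) (nat_lit 5) (nat_lit 4) (nat_lit 6) (nat_lit 5) (nat_lit 6) (nat_lit 4) (nat_lit 382) (nat_lit 228) (nat_lit 170))))) (XT.nd (nat_lit 234) (nat_lit 0) (nat_lit 0) (XT.nd (nat_lit 78) (nat_lit 0) (nat_lit 0) (XT.lf (nat_lit 0) (nat_lit 8006936017) (nat_lit 76) (nat_lit 29924087945) (nat_lit 76) (nat_lit 15884009721) (nat_lit 5) (nat_lit 4) (nat_lit 6) (nat_lit 5) (nat_lit 6) (nat_lit 4) (nat_lit 383) (nat_lit 228) (nat_lit 169)) (XT.nd (nat_lit 78) (nat_lit 0) (nat_lit 0) (XT.lf (nat_lit 0) (nat_lit 13259376074) (nat_lit 76) (nat_lit 28105383153) (nat_lit 76) (nat_lit 13978666357) (nat_lit 5) (nat_lit 4) (nat_lit 6) (nat_lit 5) (nat_lit 6) (nat_lit 4) (nat_lit 384) (nat_lit 228) (nat_lit 168)) (XT.lf (nat_lit 0) (nat_lit 18631978434) (nat_lit 76) (nat_lit 26248582529) (nat_lit 76) (nat_lit 12037750616) (nat_lit 5) (nat_lit 4) (nat_lit 6) (nat_lit 5) (nat_lit 6) (nat_lit 4) (nat_lit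 385) (nat_lit 228) (nat_lit 167)))) (XT.nd (nat_lit 78) (nat_lit 0) (nat_lit 0) (XT.lf (nat_lit 0) (nat_lit 24129437602) (nat_lit 76) (nat_lit 24352063629) (nat_lit 76) (nat_lit 10059566553) (nat_lit 5) (nat_lit 4) (nat_lit 6) (nat_lit 5) (nat_lit 6) (nat_lit 4) (nat_lit 386) (nat_lit 228) (nat_lit 166)) (XT.nd (nat_lit 78) (nat_lit 0) (nat_lit 0) (XT.lf (nat_lit 0) (nat_lit 29756557184) (nat_lit 76) (nat_lit 22414169299) (nat_lit 76) (nat_lit 8042385657) (nat_lit 5) (nat_lit 4) (nat_lit 6) (nat_lit 5) (nat_lit 6) (nat_lit 4) (nat_lit 387) (nat_lit 228) (nat_lit 165)) (XT.lf (nat_lit 0) (nat_lit 35518254082) (nat_lit 76) (nat_lit 20433206233) (nat_lit 76) (nat_lit 5984445343) (nat_lit 5) (nat_lit 4) (nat_lit 6) (nat_lit 5) (nat_lit 6) (nat_lit 4) (nat_lit 388) (nat_lit 228) (nat_lit 164))))))) (XT.nd (nat_lit 936) (nat_lit 0) (nat_lit 0) (XT.nd (nat_lit 468) (nat_lit 76) (nat_lit 0) (XT.nd (nat_lit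 234) (nat_lit 0) (nat_lit 0) (XT.nd (nat_lit 78) (nat_lit 76) (nat_lit 0) (XT.lf (nat_lit 0) (nat_lit 41419562786) (nat_lit 76) (nat_lit 18407443494) (nat_lit 76) (nat_lit 3883947410) (nat_lit 5) (nat_lit 4) (nat_lit 6) (nat_lit 5) (nat_lit 6) (nat_lit 4) (nat_lit 389) (nat_lit 228) (nat_lit 163)) (XT.nd (nat_lit 78) (nat_lit 76) (nat_lit 0) (XT.lf (nat_lit 0) (nat_lit 47465639781) (nat_lit 76) (nat_lit 16335110996) (nat_lit 76) (nat_lit 1739056473) (nat_lit 5) (nat_lit 4) (nat_lit 6) (nat_lit 5) (nat_lit 6) (nat_lit 4) (nat_lit 390) (nat_lit 228) (nat_lit 162)) (XT.lf (nat_lit 0) (nat_lit 443279513) (nat_lit 152) (nat_lit 13766642197) (nat_lit 76) (nat_lit 53214012279) (nat_lit 4) (nat_lit 5) (nat_lit 6) (nat_lit 5) (nat_lit 5) (nat_lit 4) (nat_lit 391) (nat_lit 228) (nat_lit 161)))) (XT.nd (nat_lit 78) (nat_lit 0) (nat_lit 0) (XT.lf (nat_lit 0) (nat_lit 2638921829) (nat_lit 152) (nat_lit 9377881582)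 (nat_lit 76) (nat_lit 57347791908) (nat_lit 4) (nat_lit 5) (nat_lit 6) (nat_lit 5) (nat_lit 5) (nat_lit 4) (nat_lit 392) (nat_lit 228) (nat_lit 160)) (XT.nd (nat_lit 78) (nat_lit 0) (nat_lit 0) (XT.lf (nat_lit 0) (nat_lit 4883724254) (nat_lit 152) (nat_lit 4887333911) (nat_lit 76) (nat_lit 61592930308) (nat_lit 4) (nat_lit 5) (nat_lit 6) (nat_lit 5) (nat_lit 5) (nat_lit 4) (nat_lit 393) (nat_lit 228) (nat_lit 159)) (XT.lf (nat_lit 0) (nat_lit 7179648264) (nat_lit 152) (nat_lit 291075404) (nat_lit 76) (nat_lit 65953136823) (nat_lit 4) (nat_lit 5) (nat_lit 6) (nat_lit 5) (nat_lit 5) (nat_lit 4) (nat_lit 394) (nat_lit 228) (nat_lit 158))))) (XT.nd (nat_lit 234) (nat_lit 0) (nat_lit 0) (XT.nd (nat_lit 78) (nat_lit 0) (nat_lit 0) (XT.lf (nat_lit 0) (nat_lit 4502775453) (nat_lit 76) (nat_lit 5069207986) (nat_lit 152) (nat_lit 65972729321) (nat_lit 3) (nat_lit 5) (nat_lit 4) (nat_lit 5) (nat_lit 5)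 (nat_lit 4) (nat_lit 395) (nat_lit 228) (nat_lit 157)) (XT.nd (nat_lit 78) (nat_lit 0) (nat_lit 0) (XT.lf (nat_lit 0) (nat_lit 9418523913) (nat_lit 76) (nat_lit 2604944753) (nat_lit 152) (nat_lit 65706110329) (nat_lit 3) (nat_lit 5) (nat_lit 4) (nat_lit 5) (nat_lit 5) (nat_lit 4) (nat_lit 396) (nat_lit 228) (nat_lit 156)) (XT.lf (nat_lit 0) (nat_lit 14454672316) (nat_lit 76) (nat_lit 78720022) (nat_lit 152) (nat_lit 65447061576) (nat_lit 3) (nat_lit 5) (nat_lit 4) (nat_lit 5) (nat_lit 5) (nat_lit 4) (nat_lit 397) (nat_lit 228) (nat_lit 155)))) (XT.nd (nat_lit 78) (nat_lit 0) (nat_lit 0) (XT.lf (nat_lit 0) (nat_lit 17128091336) (nat_lit 152) (nat_lit 62707826863) (nat_lit 0) (nat_lit 2462661789) (nat_lit 3) (nat_lit 5) (nat_lit 5) (nat_lit 4) (nat_lit 3) (nat_lit 4) (nat_lit 398) (nat_lit 228) (nat_lit 154)) (XT.nd (nat_lit 78) (nat_lit 0) (nat_lit 0) (XT.lf (nat_lit 0) (nat_lit 19787063326) (nat_lit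 152) (nat_lit 59831959039) (nat_lit 0) (nat_lit 5067643486) (nat_lit 3) (nat_lit 5) (nat_lit 5) (nat_lit 4) (nat_lit 3) (nat_lit 4) (nat_lit 399) (nat_lit 228) (nat_lit 153)) (XT.lf (nat_lit 0) (nat_lit 22511874977) (nat_lit 152) (nat_lit 56894908528) (nat_lit 0) (nat_lit 7740037377) (nat_lit 3) (nat_lit 5) (nat_lit 5) (nat_lit 4) (nat_lit 3) (nat_lit 4) (nat_lit 400) (nat_lit 228) (nat_lit 152)))))) (XT.nd (nat_lit 34710) (nat_lit 0) (nat_lit 1976) (XT.nd (nat_lit 34476) (nat_lit 0) (nat_lit 2584) (XT.nd (nat_lit 78) (nat_lit 0) (nat_lit 0) (XT.lf (nat_lit 0) (nat_lit 25304907192) (nat_lit 152) (nat_lit 53894108975) (nat_lit 0) (nat_lit 10482178562) (nat_lit 3) (nat_lit 5) (nat_lit 5) (nat_lit 4) (nat_lit 3) (nat_lit 4) (nat_lit 401) (nat_lit 228) (nat_lit 151)) (XT.nd (nat_lit 78) (nat_lit 0) (nat_lit 0) (XT.lf (nat_lit 0) (nat_lit 28168600484) (nat_lit 152) (nat_lit 50826938322) (nat_lit 0)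 (nat_lit 13296463088) (nat_lit 3) (nat_lit 5) (nat_lit 5) (nat_lit 4) (nat_lit 3) (nat_lit 4) (nat_lit 402) (nat_lit 228) (nat_lit 150)) (XT.lf (nat_lit 0) (nat_lit 31105457111) (nat_lit 152) (nat_lit 47690716517) (nat_lit 0) (nat_lit 16185350038) (nat_lit 3) (nat_lit 5) (nat_lit 5) (nat_lit 4) (nat_lit 3) (nat_lit 4) (nat_lit 403) (nat_lit 228) (nat_lit 149)))) (XT.nd (nat_lit 78) (nat_lit 228) (nat_lit 0) (XT.lf (nat_lit 0) (nat_lit 1713753462) (nat_lit 228) (nat_lit 2591387241) (nat_lit 0) (nat_lit 1713753462) (nat_lit 40) (nat_lit 5) (nat_lit 43) (nat_lit 4) (nat_lit 40) (nat_lit 4) (nat_lit 322) (nat_lit 229) (nat_lit 229)) (XT.nd (nat_lit 78) (nat_lit 0) (nat_lit 0) (XT.lf (nat_lit 0) (nat_lit 1264091693) (nat_lit 228) (nat_lit 5824655766) (nat_lit 228) (nat_lit 5178045550) (nat_lit 37) (nat_lit 4) (nat_lit 40) (nat_lit 5) (nat_lit 40) (nat_lit 4) (nat_lit 323) (nat_lit 229) (nat_lit 228))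 (XT.lf (nat_lit 0) (nat_lit 7880980292) (nat_lit 228) (nat_lit 2948543978) (nat_lit 228) (nat_lit 1674156854) (nat_lit 37) (nat_lit 4) (nat_lit 40) (nat_lit 5) (nat_lit 40) (nat_lit 4) (nat_lit 324) (nat_lit 229) (nat_lit 227))))) (XT.nd (nat_lit 234) (nat_lit 228) (nat_lit 0) (XT.nd (nat_lit 78) (nat_lit 152) (nat_lit 0) (XT.lf (nat_lit 0) (nat_lit 1833686929) (nat_lit 228) (nat_lit 10910753508) (nat_lit 0) (nat_lit 4677931) (nat_lit 34) (nat_lit 5) (nat_lit 37) (nat_lit 4) (nat_lit 34) (nat_lit 4) (nat_lit 325) (nat_lit 229) (nat_lit 226)) (XT.nd (nat_lit 78) (nat_lit 152) (nat_lit 0) (XT.lf (nat_lit 0) (nat_lit 5409032727) (nat_lit 228) (nat_lit 4587087752) (nat_lit 0) (nat_lit 3005518928) (nat_lit 34) (nat_lit 5) (nat_lit 37) (nat_lit 4) (nat_lit 34) (nat_lit 4) (nat_lit 326) (nat_lit 229) (nat_lit 225)) (XT.lf (nat_lit 0) (nat_lit 1837522034) (nat_lit 152) (nat_lit 7193702286) (nat_lit 152)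 (nat_lit 4232416835) (nat_lit 32) (nat_lit 4) (nat_lit 34) (nat_lit 5) (nat_lit 34) (nat_lit 4) (nat_lit 327) (nat_lit 229) (nat_lit 224)))) (XT.nd (nat_lit 78) (nat_lit 228) (nat_lit 0) (XT.lf (nat_lit 0) (nat_lit 8425500092) (nat_lit 152) (nat_lit 4305912108) (nat_lit 152) (nat_lit 803100782) (nat_lit 32) (nat_lit 4) (nat_lit 34) (nat_lit 5) (nat_lit 34) (nat_lit 4) (nat_lit 328) (nat_lit 229) (nat_lit 223)) (XT.nd (nat_lit 78) (nat_lit 0) (nat_lit 0) (XT.lf (nat_lit 0) (nat_lit 1274854336) (nat_lit 152) (nat_lit 1337667309) (nat_lit 228) (nat_lit 11202186646) (nat_lit 29) (nat_lit 5) (nat_lit 31) (nat_lit 5) (nat_lit 32) (nat_lit 4) (nat_lit 329) (nat_lit 229) (nat_lit 222)) (XT.lf (nat_lit 0) (nat_lit 6108136393) (nat_lit 228) (nat_lit 6293871143) (nat_lit 0) (nat_lit 1701335733) (nat_lit 29) (nat_lit 5) (nat_lit 32) (nat_lit 4) (nat_lit 29) (nat_lit 4) (nat_lit 330) (nat_lit 229) (nat_lit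 221))))))))
noncomputable def xc36 : XT := (XT.nd (nat_lit 1794) (nat_lit 456) (nat_lit 0) (XT.nd (nat_lit 858) (nat_lit 608) (nat_lit 0) (XT.nd (nat_lit 390) (nat_lit 304) (nat_lit 0) (XT.nd (nat_lit 156) (nat_lit 228) (nat_lit 0) (XT.nd (nat_lit 78) (nat_lit 0) (nat_lit 0) (XT.lf (nat_lit 0) (nat_lit 7872021) (nat_lit 152) (nat_lit 9641284236) (nat_lit 152) (nat_lit 4753344850) (nat_lit 27) (nat_lit 4) (nat_lit 29) (nat_lit 5) (nat_lit 29) (nat_lit 4) (nat_lit 331) (nat_lit 229) (nat_lit 220)) (XT.lf (nat_lit 0) (nat_lit 6510319201) (nat_lit 152) (nat_lit 6777851752) (nat_lit 152) (nat_lit 1422787389) (nat_lit 27) (nat_lit 4) (nat_lit 29) (nat_lit 5) (nat_lit 29) (nat_lit 4) (nat_lit 332) (nat_lit 229) (nat_lit 219))) (XT.nd (nat_lit 78) (nat_lit 152) (nat_lit 0) (XT.lf (nat_lit 0) (nat_lit 1898045126) (nat_lit 228) (nat_lit 1955552151) (nat_lit 76) (nat_lit 11176680107) (nat_lit 26) (nat_lit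 5) (nat_lit 29) (nat_lit 5) (nat_lit 27) (nat_lit 4) (nat_lit 333) (nat_lit 229) (nat_lit 218)) (XT.nd (nat_lit 78) (nat_lit 0) (nat_lit 0) (XT.lf (nat_lit 0) (nat_lit 4437326986) (nat_lit 152) (nat_lit 826821209) (nat_lit 228) (nat_lit 10095448928) (nat_lit 24) (nat_lit 5) (nat_lit 26) (nat_lit 5) (nat_lit 27) (nat_lit 4) (nat_lit 334) (nat_lit 229) (nat_lit 217)) (XT.lf (nat_lit 0) (nat_lit 8705293194) (nat_lit 228) (nat_lit 4770978961) (nat_lit 0) (nat_lit 2223371468) (nat_lit 24) (nat_lit 5) (nat_lit 27) (nat_lit 4) (nat_lit 24) (nat_lit 4) (nat_lit 335) (nat_lit 229) (nat_lit 216))))) (XT.nd (nat_lit 234) (nat_lit 76) (nat_lit 0) (XT.nd (nat_lit 78) (nat_lit 76) (nat_lit 0) (XT.lf (nat_lit 0) (nat_lit 1476110942) (nat_lit 152) (nat_lit 10730010928) (nat_lit 152) (nat_lit 3845143093) (nat_lit 22) (nat_lit 4) (nat_lit 24) (nat_lit 5) (nat_lit 24) (nat_lit 4) (nat_lit 336) (nat_lit 229) (nat_lit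 215)) (XT.nd (nat_lit 78) (nat_lit 76) (nat_lit 0) (XT.lf (nat_lit 0) (nat_lit 7900128170) (nat_lit 152) (nat_lit 7894977743) (nat_lit 152) (nat_lit 618900093) (nat_lit 22) (nat_lit 4) (nat_lit 24) (nat_lit 5) (nat_lit 24) (nat_lit 4) (nat_lit 337) (nat_lit 229) (nat_lit 214)) (XT.lf (nat_lit 0) (nat_lit 2587523298) (nat_lit 228) (nat_lit 2403220707) (nat_lit 76) (nat_lit 11798081894) (nat_lit 21) (nat_lit 5) (nat_lit 24) (nat_lit 5) (nat_lit 22) (nat_lit 4) (nat_lit 338) (nat_lit 229) (nat_lit 213)))) (XT.nd (nat_lit 78) (nat_lit 0) (nat_lit 0) (XT.lf (nat_lit 0) (nat_lit 3856520304) (nat_lit 76) (nat_lit 1996270867) (nat_lit 152) (nat_lit 11322722120) (nat_lit 20) (nat_lit 5) (nat_lit 21) (nat_lit 5) (nat_lit 22) (nat_lit 4) (nat_lit 339) (nat_lit 229) (nat_lit 212)) (XT.nd (nat_lit 78) (nat_lit 0) (nat_lit 0) (XT.lf (nat_lit 0) (nat_lit 9189429326) (nat_lit 152) (nat_lit 7334301094) (nat_lit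 0) (nat_lit 1050926245) (nat_lit 20) (nat_lit 5) (nat_lit 22) (nat_lit 4) (nat_lit 20) (nat_lit 4) (nat_lit 340) (nat_lit 229) (nat_lit 211)) (XT.lf (nat_lit 0) (nat_lit 12586169820) (nat_lit 152) (nat_lit 1290654758) (nat_lit 0) (nat_lit 4110205717) (nat_lit 20) (nat_lit 5) (nat_lit 22) (nat_lit 4) (nat_lit 20) (nat_lit 4) (nat_lit 341) (nat_lit 229) (nat_lit 210)))))) (XT.nd (nat_lit 468) (nat_lit 304) (nat_lit 0) (XT.nd (nat_lit 234) (nat_lit 76) (nat_lit 0) (XT.nd (nat_lit 78) (nat_lit 76) (nat_lit 0) (XT.lf (nat_lit 0) (nat_lit 4932670420) (nat_lit 152) (nat_lit 11141536728) (nat_lit 152) (nat_lit 2337940565) (nat_lit 18) (nat_lit 4) (nat_lit 20) (nat_lit 5) (nat_lit 20) (nat_lit 4) (nat_lit 342) (nat_lit 229) (nat_lit 209)) (XT.nd (nat_lit 78) (nat_lit 0) (nat_lit 0) (XT.lf (nat_lit 0) (nat_lit 756207297) (nat_lit 228) (nat_lit 7586584728) (nat_lit 76) (nat_lit 10508383942) (nat_lit 17)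 (nat_lit 5) (nat_lit 20) (nat_lit 5) (nat_lit 18) (nat_lit 4) (nat_lit 343) (nat_lit 229) (nat_lit 208)) (XT.lf (nat_lit 0) (nat_lit 3839993430) (nat_lit 228) (nat_lit 1635323518) (nat_lit 76) (nat_lit 13829099359) (nat_lit 17) (nat_lit 5) (nat_lit 20) (nat_lit 5) (nat_lit 18) (nat_lit 4) (nat_lit 344) (nat_lit 229) (nat_lit 207)))) (XT.nd (nat_lit 78) (nat_lit 0) (nat_lit 0) (XT.lf (nat_lit 0) (nat_lit 4489588217) (nat_lit 76) (nat_lit 2515302495) (nat_lit 152) (nat_lit 12766753567) (nat_lit 16) (nat_lit 5) (nat_lit 17) (nat_lit 5) (nat_lit 18) (nat_lit 4) (nat_lit 345) (nat_lit 229) (nat_lit 206)) (XT.nd (nat_lit 78) (nat_lit 0) (nat_lit 0) (XT.lf (nat_lit 0) (nat_lit 10232327253) (nat_lit 152) (nat_lit 9518804018) (nat_lit 0) (nat_lit 502776989) (nat_lit 16) (nat_lit 5) (nat_lit 18) (nat_lit 4) (nat_lit 16) (nat_lit 4) (nat_lit 346) (nat_lit 229) (nat_lit 205)) (XT.lf (nat_lit 0) (nat_lit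 13528856730) (nat_lit 152) (nat_lit 3697741135) (nat_lit 0) (nat_lit 3524919773) (nat_lit 16) (nat_lit 5) (nat_lit 18) (nat_lit 4) (nat_lit 16) (nat_lit 4) (nat_lit 347) (nat_lit 229) (nat_lit 204))))) (XT.nd (nat_lit 234) (nat_lit 76) (nat_lit 0) (XT.nd (nat_lit 78) (nat_lit 76) (nat_lit 0) (XT.lf (nat_lit 0) (nat_lit 2254388824) (nat_lit 152) (nat_lit 14640462721) (nat_lit 152) (nat_lit 4370130916) (nat_lit 14) (nat_lit 4) (nat_lit 16) (nat_lit 5) (nat_lit 16) (nat_lit 4) (nat_lit 348) (nat_lit 229) (nat_lit 203)) (XT.nd (nat_lit 78) (nat_lit 76) (nat_lit 0) (XT.lf (nat_lit 0) (nat_lit 8374185086) (nat_lit 152) (nat_lit 11974534931) (nat_lit 152) (nat_lit 1445567352) (nat_lit 14) (nat_lit 4) (nat_lit 16) (nat_lit 5) (nat_lit 16) (nat_lit 4) (nat_lit 349) (nat_lit 229) (nat_lit 202)) (XT.lf (nat_lit 0) (nat_lit 1486657884) (nat_lit 228) (nat_lit 7762154766) (nat_lit 76) (nat_lit 13091732533)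 (nat_lit 13) (nat_lit 5) (nat_lit 16) (nat_lit 5) (nat_lit 14) (nat_lit 4) (nat_lit 350) (nat_lit 229) (nat_lit 201)))) (XT.nd (nat_lit 78) (nat_lit 76) (nat_lit 0) (XT.lf (nat_lit 0) (nat_lit 4429734603) (nat_lit 228) (nat_lit 2031498050) (nat_lit 76) (nat_lit 16443009839) (nat_lit 13) (nat_lit 5) (nat_lit 16) (nat_lit 5) (nat_lit 14) (nat_lit 4) (nat_lit 351) (nat_lit 229) (nat_lit 200)) (XT.nd (nat_lit 78) (nat_lit 0) (nat_lit 0) (XT.lf (nat_lit 0) (nat_lit 3866214685) (nat_lit 76) (nat_lit 3585392384) (nat_lit 152) (nat_lit 16033566713) (nat_lit 12) (nat_lit 5) (nat_lit 13) (nat_lit 5) (nat_lit 14) (nat_lit 4) (nat_lit 352) (nat_lit 229) (nat_lit 199)) (XT.lf (nat_lit 0) (nat_lit 9902982395) (nat_lit 76) (nat_lit 635601150) (nat_lit 152) (nat_lit 13545753087) (nat_lit 12) (nat_lit 5) (nat_lit 13) (nat_lit 5) (nat_lit 14) (nat_lit 4) (nat_lit 353) (nat_lit 229) (nat_lit 198))))))) (XT.nd (nat_lit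 858) (nat_lit 228) (nat_lit 0) (XT.nd (nat_lit 390) (nat_lit 152) (nat_lit 0) (XT.nd (nat_lit 156) (nat_lit 76) (nat_lit 0) (XT.nd (nat_lit 78) (nat_lit 0) (nat_lit 0) (XT.lf (nat_lit 0) (nat_lit 13696228593) (nat_lit 152) (nat_lit 8681986807) (nat_lit 0) (nat_lit 2323953164) (nat_lit 12) (nat_lit 5) (nat_lit 14) (nat_lit 4) (nat_lit 12) (nat_lit 4) (nat_lit 354) (nat_lit 229) (nat_lit 197)) (XT.lf (nat_lit 0) (nat_lit 16911171038) (nat_lit 152) (nat_lit 3099921248) (nat_lit 0) (nat_lit 5328601056) (nat_lit 12) (nat_lit 5) (nat_lit 14) (nat_lit 4) (nat_lit 12) (nat_lit 4) (nat_lit 355) (nat_lit 229) (nat_lit 196))) (XT.nd (nat_lit 78) (nat_lit 0) (nat_lit 0) (XT.lf (nat_lit 0) (nat_lit 2627093821) (nat_lit 76) (nat_lit 17578269675) (nat_lit 76) (nat_lit 5791530225) (nat_lit 11) (nat_lit 4) (nat_lit 12) (nat_lit 5) (nat_lit 12) (nat_lit 4) (nat_lit 356) (nat_lit 229) (nat_lit 195)) (XT.nd (nat_lit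 78) (nat_lit 0) (nat_lit 0) (XT.lf (nat_lit 0) (nat_lit 8516411471) (nat_lit 76) (nat_lit 15071356112) (nat_lit 76) (nat_lit 3086393876) (nat_lit 11) (nat_lit 4) (nat_lit 12) (nat_lit 5) (nat_lit 12) (nat_lit 4) (nat_lit 357) (nat_lit 229) (nat_lit 194)) (XT.lf (nat_lit 0) (nat_lit 14511483195) (nat_lit 76) (nat_lit 12519464215) (nat_lit 76) (nat_lit 342052674) (nat_lit 11) (nat_lit 4) (nat_lit 12) (nat_lit 5) (nat_lit 12) (nat_lit 4) (nat_lit 358) (nat_lit 229) (nat_lit 193))))) (XT.nd (nat_lit 234) (nat_lit 0) (nat_lit 0) (XT.nd (nat_lit 78) (nat_lit 76) (nat_lit 0) (XT.lf (nat_lit 0) (nat_lit 2396202226) (nat_lit 152) (nat_lit 7499965006) (nat_lit 76) (nat_lit 18197148235) (nat_lit 10) (nat_lit 5) (nat_lit 12) (nat_lit 5) (nat_lit 11) (nat_lit 4) (nat_lit 359) (nat_lit 229) (nat_lit 192)) (XT.nd (nat_lit 78) (nat_lit 76) (nat_lit 0) (XT.lf (nat_lit 0) (nat_lit 5170960266) (nat_lit 152) (nat_lit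 2048608113) (nat_lit 76) (nat_lit 21616762672) (nat_lit 10) (nat_lit 5) (nat_lit 12) (nat_lit 5) (nat_lit 11) (nat_lit 4) (nat_lit 360) (nat_lit 229) (nat_lit 191)) (XT.lf (nat_lit 0) (nat_lit 3570274036) (nat_lit 76) (nat_lit 4455366293) (nat_lit 152) (nat_lit 21576124797) (nat_lit 9) (nat_lit 5) (nat_lit 10) (nat_lit 5) (nat_lit 11) (nat_lit 4) (nat_lit 361) (nat_lit 229) (nat_lit 190)))) (XT.nd (nat_lit 78) (nat_lit 0) (nat_lit 0) (XT.lf (nat_lit 0) (nat_lit 9334676716) (nat_lit 76) (nat_lit 1614801738) (nat_lit 152) (nat_lit 19441205809) (nat_lit 9) (nat_lit 5) (nat_lit 10) (nat_lit 5) (nat_lit 11) (nat_lit 4) (nat_lit 362) (nat_lit 229) (nat_lit 189)) (XT.nd (nat_lit 78) (nat_lit 0) (nat_lit 0) (XT.lf (nat_lit 0) (nat_lit 13937286890) (nat_lit 152) (nat_lit 16007856707) (nat_lit 0) (nat_lit 1258866492) (nat_lit 9) (nat_lit 5) (nat_lit 11) (nat_lit 4) (nat_lit 9) (nat_lit 4) (nat_lit 363)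 (nat_lit 229) (nat_lit 188)) (XT.lf (nat_lit 0) (nat_lit 16995429584) (nat_lit 152) (nat_lit 10886380808) (nat_lit 0) (nat_lit 4160530289) (nat_lit 9) (nat_lit 5) (nat_lit 11) (nat_lit 4) (nat_lit 9) (nat_lit 4) (nat_lit 364) (nat_lit 229) (nat_lit 187)))))) (XT.nd (nat_lit 468) (nat_lit 152) (nat_lit 0) (XT.nd (nat_lit 234) (nat_lit 0) (nat_lit 0) (XT.nd (nat_lit 78) (nat_lit 76) (nat_lit 0) (XT.lf (nat_lit 0) (nat_lit 20111056238) (nat_lit 152) (nat_lit 5671582310) (nat_lit 0) (nat_lit 7124235684) (nat_lit 9) (nat_lit 5) (nat_lit 11) (nat_lit 4) (nat_lit 9) (nat_lit 4) (nat_lit 365) (nat_lit 229) (nat_lit 186)) (XT.nd (nat_lit 78) (nat_lit 76) (nat_lit 0) (XT.lf (nat_lit 0) (nat_lit 23286889244) (nat_lit 152) (nat_lit 358904595) (nat_lit 0) (nat_lit 10152572322) (nat_lit 9) (nat_lit 5) (nat_lit 11) (nat_lit 4) (nat_lit 9) (nat_lit 4) (nat_lit 366) (nat_lit 229) (nat_lit 185)) (XT.lf (nat_lit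 0) (nat_lit 5156924657) (nat_lit 76) (nat_lit 21418350459) (nat_lit 76) (nat_lit 8140833180) (nat_lit 8) (nat_lit 4) (nat_lit 9) (nat_lit 5) (nat_lit 9) (nat_lit 4) (nat_lit 367) (nat_lit 229) (nat_lit 184)))) (XT.nd (nat_lit 78) (nat_lit 0) (nat_lit 0) (XT.lf (nat_lit 0) (nat_lit 10789284452) (nat_lit 76) (nat_lit 19144758093) (nat_lit 76) (nat_lit 5728211341) (nat_lit 8) (nat_lit 4) (nat_lit 9) (nat_lit 5) (nat_lit 9) (nat_lit 4) (nat_lit 368) (nat_lit 229) (nat_lit 183)) (XT.nd (nat_lit 78) (nat_lit 0) (nat_lit 0) (XT.lf (nat_lit 0) (nat_lit 16535953365) (nat_lit 76) (nat_lit 16826654341) (nat_lit 76) (nat_lit 3275127518) (nat_lit 8) (nat_lit 4) (nat_lit 9) (nat_lit 5) (nat_lit 9) (nat_lit 4) (nat_lit 369) (nat_lit 229) (nat_lit 182)) (XT.lf (nat_lit 0) (nat_lit 22401952756) (nat_lit 76) (nat_lit 14462013674) (nat_lit 76) (nat_lit 779438238) (nat_lit 8) (nat_lit 4) (nat_lit 9) (nat_lit 5)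 (nat_lit 9) (nat_lit 4) (nat_lit 370) (nat_lit 229) (nat_lit 181))))) (XT.nd (nat_lit 234) (nat_lit 76) (nat_lit 0) (XT.nd (nat_lit 78) (nat_lit 0) (nat_lit 0) (XT.lf (nat_lit 0) (nat_lit 1726673017) (nat_lit 152) (nat_lit 10304660872) (nat_lit 76) (nat_lit 26648299225) (nat_lit 7) (nat_lit 5) (nat_lit 9) (nat_lit 5) (nat_lit 8) (nat_lit 4) (nat_lit 371) (nat_lit 229) (nat_lit 180)) (XT.nd (nat_lit 78) (nat_lit 0) (nat_lit 0) (XT.lf (nat_lit 0) (nat_lit 4263663358) (nat_lit 152) (nat_lit 5278096366) (nat_lit 76) (nat_lit 30205836243) (nat_lit 7) (nat_lit 5) (nat_lit 9) (nat_lit 5) (nat_lit 8) (nat_lit 4) (nat_lit 372) (nat_lit 229) (nat_lit 179)) (XT.lf (nat_lit 0) (nat_lit 6848959219) (nat_lit 152) (nat_lit 149873814) (nat_lit 76) (nat_lit 33849618138) (nat_lit 7) (nat_lit 5) (nat_lit 9) (nat_lit 5) (nat_lit 8) (nat_lit 4) (nat_lit 373) (nat_lit 229) (nat_lit 178)))) (XT.nd (nat_lit 78) (nat_lit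 0) (nat_lit 0) (XT.lf (nat_lit 0) (nat_lit 5185679031) (nat_lit 76) (nat_lit 4348988483) (nat_lit 152) (nat_lit 32446997684) (nat_lit 6) (nat_lit 5) (nat_lit 7) (nat_lit 5) (nat_lit 8) (nat_lit 4) (nat_lit 374) (nat_lit 229) (nat_lit 177)) (XT.nd (nat_lit 78) (nat_lit 0) (nat_lit 0) (XT.lf (nat_lit 0) (nat_lit 10637130792) (nat_lit 76) (nat_lit 1638667483) (nat_lit 152) (nat_lit 30873850063) (nat_lit 6) (nat_lit 5) (nat_lit 7) (nat_lit 5) (nat_lit 8) (nat_lit 4) (nat_lit 375) (nat_lit 229) (nat_lit 176)) (XT.lf (nat_lit 0) (nat_lit 15084168257) (nat_lit 152) (nat_lit 28158094094) (nat_lit 0) (nat_lit 1110876161) (nat_lit 6) (nat_lit 5) (nat_lit 8) (nat_lit 4) (nat_lit 6) (nat_lit 4) (nat_lit 376) (nat_lit 229) (nat_lit 175))))))))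
noncomputable def xc37 : XT := (XT.nd (nat_lit 1794) (nat_lit 0) (nat_lit 0) (XT.nd (nat_lit 858) (nat_lit 152) (nat_lit 0) (XT.nd (nat_lit 390) (nat_lit 76) (nat_lit 0) (XT.nd (nat_lit 156) (nat_lit 0) (nat_lit 0) (XT.nd (nat_lit 78) (nat_lit 0) (nat_lit 0) (XT.lf (nat_lit 0) (nat_lit 17967695622) (nat_lit 152) (nat_lit 23734375222) (nat_lit 0) (nat_lit 3890952541) (nat_lit 6) (nat_lit 5) (nat_lit 8) (nat_lit 4) (nat_lit 6) (nat_lit 4) (nat_lit 377) (nat_lit 229) (nat_lit 174)) (XT.lf (nat_lit 0) (nat_lit 20913148084) (nat_lit 152) (nat_lit 19221743671) (nat_lit 0) (nat_lit 6735967154) (nat_lit 6) (nat_lit 5) (nat_lit 8) (nat_lit 4) (nat_lit 6) (nat_lit 4) (nat_lit 378) (nat_lit 229) (nat_lit 173))) (XT.nd (nat_lit 78) (nat_lit 0) (nat_lit 0) (XT.lf (nat_lit 0) (nat_lit 23923099338) (nat_lit 152) (nat_lit 14616256364) (nat_lit 0) (nat_lit 9648405933) (nat_lit 6) (nat_lit 5) (nat_lit 8) (nat_lit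 4) (nat_lit 6) (nat_lit 4) (nat_lit 379) (nat_lit 229) (nat_lit 172)) (XT.nd (nat_lit 78) (nat_lit 0) (nat_lit 0) (XT.lf (nat_lit 0) (nat_lit 27000179441) (nat_lit 152) (nat_lit 9913889089) (nat_lit 0) (nat_lit 12630813729) (nat_lit 6) (nat_lit 5) (nat_lit 8) (nat_lit 4) (nat_lit 6) (nat_lit 4) (nat_lit 380) (nat_lit 229) (nat_lit 171)) (XT.lf (nat_lit 0) (nat_lit 30147077101) (nat_lit 152) (nat_lit 5110532983) (nat_lit 0) (nat_lit 15685796530) (nat_lit 6) (nat_lit 5) (nat_lit 8) (nat_lit 4) (nat_lit 6) (nat_lit 4) (nat_lit 381) (nat_lit 229) (nat_lit 170))))) (XT.nd (nat_lit 234) (nat_lit 0) (nat_lit 0) (XT.nd (nat_lit 78) (nat_lit 76) (nat_lit 0) (XT.lf (nat_lit 0) (nat_lit 33366542037) (nat_lit 152) (nat_lit 201990936) (nat_lit 0) (nat_lit 18816023737) (nat_lit 6) (nat_lit 5) (nat_lit 8) (nat_lit 4) (nat_lit 6) (nat_lit 4) (nat_lit 382) (nat_lit 229) (nat_lit 169)) (XT.nd (nat_lit 78) (nat_lit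 0) (nat_lit 0) (XT.lf (nat_lit 0) (nat_lit 4911874428) (nat_lit 76) (nat_lit 31796728885) (nat_lit 76) (nat_lit 17159572014) (nat_lit 5) (nat_lit 4) (nat_lit 6) (nat_lit 5) (nat_lit 6) (nat_lit 4) (nat_lit 383) (nat_lit 229) (nat_lit 168)) (XT.lf (nat_lit 0) (nat_lit 10145885470) (nat_lit 76) (nat_lit 29986135084) (nat_lit 76) (nat_lit 15264863096) (nat_lit 5) (nat_lit 4) (nat_lit 6) (nat_lit 5) (nat_lit 6) (nat_lit 4) (nat_lit 384) (nat_lit 229) (nat_lit 167)))) (XT.nd (nat_lit 78) (nat_lit 0) (nat_lit 0) (XT.lf (nat_lit 0) (nat_lit 15500595582) (nat_lit 76) (nat_lit 28137209211) (nat_lit 76) (nat_lit 13334272059) (nat_lit 5) (nat_lit 4) (nat_lit 6) (nat_lit 5) (nat_lit 6) (nat_lit 4) (nat_lit 385) (nat_lit 229) (nat_lit 166)) (XT.nd (nat_lit 78) (nat_lit 0) (nat_lit 0) (XT.lf (nat_lit 0) (nat_lit 20980683637) (nat_lit 76) (nat_lit 26248335698) (nat_lit 76) (nat_lit 11366111981) (nat_lit 5)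 (nat_lit 4) (nat_lit 6) (nat_lit 5) (nat_lit 6) (nat_lit 4) (nat_lit 386) (nat_lit 229) (nat_lit 165)) (XT.lf (nat_lit 0) (nat_lit 26590938060) (nat_lit 76) (nat_lit 24317864075) (nat_lit 76) (nat_lit 9358663109) (nat_lit 5) (nat_lit 4) (nat_lit 6) (nat_lit 5) (nat_lit 6) (nat_lit 4) (nat_lit 387) (nat_lit 229) (nat_lit 164)))))) (XT.nd (nat_lit 468) (nat_lit 76) (nat_lit 0) (XT.nd (nat_lit 234) (nat_lit 76) (nat_lit 0) (XT.nd (nat_lit 78) (nat_lit 0) (nat_lit 0) (XT.lf (nat_lit 0) (nat_lit 32336261017) (nat_lit 76) (nat_lit 22344107520) (nat_lit 76) (nat_lit 7310171362) (nat_lit 5) (nat_lit 4) (nat_lit 6) (nat_lit 5) (nat_lit 6) (nat_lit 4) (nat_lit 388) (nat_lit 229) (nat_lit 163)) (XT.nd (nat_lit 78) (nat_lit 0) (nat_lit 0) (XT.lf (nat_lit 0) (nat_lit 38221672691) (nat_lit 76) (nat_lit 20325341394) (nat_lit 76) (nat_lit 5218846796) (nat_lit 5) (nat_lit 4) (nat_lit 6) (nat_lit 5) (nat_lit 6)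 (nat_lit 4) (nat_lit 389) (nat_lit 229) (nat_lit 162)) (XT.lf (nat_lit 0) (nat_lit 44252315676) (nat_lit 76) (nat_lit 18259801724) (nat_lit 76) (nat_lit 3082862039) (nat_lit 5) (nat_lit 4) (nat_lit 6) (nat_lit 5) (nat_lit 6) (nat_lit 4) (nat_lit 390) (nat_lit 229) (nat_lit 161)))) (XT.nd (nat_lit 78) (nat_lit 76) (nat_lit 0) (XT.lf (nat_lit 0) (nat_lit 50433459466) (nat_lit 76) (nat_lit 16145683671) (nat_lit 76) (nat_lit 900350698) (nat_lit 5) (nat_lit 4) (nat_lit 6) (nat_lit 5) (nat_lit 6) (nat_lit 4) (nat_lit 391) (nat_lit 229) (nat_lit 160)) (XT.nd (nat_lit 78) (nat_lit 0) (nat_lit 0) (XT.lf (nat_lit 0) (nat_lit 1304629588) (nat_lit 152) (nat_lit 12663336158) (nat_lit 76) (nat_lit 55452701271) (nat_lit 4) (nat_lit 5) (nat_lit 6) (nat_lit 5) (nat_lit 5) (nat_lit 4) (nat_lit 392) (nat_lit 229) (nat_lit 159)) (XT.lf (nat_lit 0) (nat_lit 3541440640) (nat_lit 152) (nat_lit 8187076956) (nat_lit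 76) (nat_lit 59691787436) (nat_lit 4) (nat_lit 5) (nat_lit 6) (nat_lit 5) (nat_lit 5) (nat_lit 4) (nat_lit 393) (nat_lit 229) (nat_lit 158))))) (XT.nd (nat_lit 234) (nat_lit 0) (nat_lit 0) (XT.nd (nat_lit 78) (nat_lit 76) (nat_lit 0) (XT.lf (nat_lit 0) (nat_lit 5829606035) (nat_lit 152) (nat_lit 3604690751) (nat_lit 76) (nat_lit 64046117994) (nat_lit 4) (nat_lit 5) (nat_lit 6) (nat_lit 5) (nat_lit 5) (nat_lit 4) (nat_lit 394) (nat_lit 229) (nat_lit 157)) (XT.nd (nat_lit 78) (nat_lit 0) (nat_lit 0) (XT.lf (nat_lit 0) (nat_lit 1109476366) (nat_lit 76) (nat_lit 7072313742) (nat_lit 152) (nat_lit 67420686301) (nat_lit 3) (nat_lit 5) (nat_lit 4) (nat_lit 5) (nat_lit 5) (nat_lit 4) (nat_lit 395) (nat_lit 229) (nat_lit 156)) (XT.lf (nat_lit 0) (nat_lit 6011888614) (nat_lit 76) (nat_lit 4613945287) (nat_lit 152) (nat_lit 67161736673) (nat_lit 3) (nat_lit 5) (nat_lit 4) (nat_lit 5) (nat_lit 5) (nat_lit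 4) (nat_lit 396) (nat_lit 229) (nat_lit 155)))) (XT.nd (nat_lit 78) (nat_lit 0) (nat_lit 0) (XT.lf (nat_lit 0) (nat_lit 11035089239) (nat_lit 76) (nat_lit 2093443641) (nat_lit 152) (nat_lit 66910133903) (nat_lit 3) (nat_lit 5) (nat_lit 4) (nat_lit 5) (nat_lit 5) (nat_lit 4) (nat_lit 397) (nat_lit 229) (nat_lit 154)) (XT.nd (nat_lit 78) (nat_lit 0) (nat_lit 0) (XT.lf (nat_lit 0) (nat_lit 15696797445) (nat_lit 152) (nat_lit 66178988146) (nat_lit 0) (nat_lit 481804717) (nat_lit 3) (nat_lit 5) (nat_lit 5) (nat_lit 4) (nat_lit 3) (nat_lit 4) (nat_lit 398) (nat_lit 229) (nat_lit 153)) (XT.lf (nat_lit 0) (nat_lit 18348907613) (nat_lit 152) (nat_lit 63315481577) (nat_lit 0) (nat_lit 3081497124) (nat_lit 3) (nat_lit 5) (nat_lit 5) (nat_lit 4) (nat_lit 3) (nat_lit 4) (nat_lit 399) (nat_lit 229) (nat_lit 152))))))) (XT.nd (nat_lit 35022) (nat_lit 0) (nat_lit 1292) (XT.nd (nat_lit 34554) (nat_lit 0) (nat_lit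 2204) (XT.nd (nat_lit 234) (nat_lit 0) (nat_lit 0) (XT.nd (nat_lit 78) (nat_lit 0) (nat_lit 0) (XT.lf (nat_lit 0) (nat_lit 21067057301) (nat_lit 152) (nat_lit 60390432284) (nat_lit 0) (nat_lit 5748755782) (nat_lit 3) (nat_lit 5) (nat_lit 5) (nat_lit 4) (nat_lit 3) (nat_lit 4) (nat_lit 400) (nat_lit 229) (nat_lit 151)) (XT.nd (nat_lit 78) (nat_lit 0) (nat_lit 0) (XT.lf (nat_lit 0) (nat_lit 23853621590) (nat_lit 152) (nat_lit 57401284399) (nat_lit 0) (nat_lit 8485911305) (nat_lit 3) (nat_lit 5) (nat_lit 5) (nat_lit 4) (nat_lit 3) (nat_lit 4) (nat_lit 401) (nat_lit 229) (nat_lit 150)) (XT.lf (nat_lit 0) (nat_lit 26711035343) (nat_lit 152) (nat_lit 54345426046) (nat_lit 0) (nat_lit 11295355382) (nat_lit 3) (nat_lit 5) (nat_lit 5) (nat_lit 4) (nat_lit 3) (nat_lit 4) (nat_lit 402) (nat_lit 229) (nat_lit 149)))) (XT.nd (nat_lit 34164) (nat_lit 0) (nat_lit 2812) (XT.lf (nat_lit 0) (nat_lit 29641795330)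 (nat_lit 152) (nat_lit 51220187056) (nat_lit 0) (nat_lit 14179542868) (nat_lit 3) (nat_lit 5) (nat_lit 5) (nat_lit 4) (nat_lit 3) (nat_lit 4) (nat_lit 403) (nat_lit 229) (nat_lit 148)) (XT.nd (nat_lit 78) (nat_lit 228) (nat_lit 0) (XT.lf (nat_lit 0) (nat_lit 2740497989) (nat_lit 228) (nat_lit 1530156970) (nat_lit 228) (nat_lit 1530156970) (nat_lit 43) (nat_lit 4) (nat_lit 46) (nat_lit 5) (nat_lit 46) (nat_lit 4) (nat_lit 320) (nat_lit 230) (nat_lit 230)) (XT.lf (nat_lit 0) (nat_lit 270644358) (nat_lit 152) (nat_lit 200603491) (nat_lit 228) (nat_lit 11346340064) (nat_lit 40) (nat_lit 5) (nat_lit 42) (nat_lit 5) (nat_lit 43) (nat_lit 4) (nat_lit 321) (nat_lit 230) (nat_lit 229))))) (XT.nd (nat_lit 234) (nat_lit 380) (nat_lit 0) (XT.nd (nat_lit 78) (nat_lit 228) (nat_lit 0) (XT.lf (nat_lit 0) (nat_lit 4052218655) (nat_lit 228) (nat_lit 5247261565) (nat_lit 0) (nat_lit 2739599918) (nat_lit 40) (nat_lit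 5) (nat_lit 43) (nat_lit 4) (nat_lit 40) (nat_lit 4) (nat_lit 322) (nat_lit 230) (nat_lit 228)) (XT.nd (nat_lit 78) (nat_lit 0) (nat_lit 0) (XT.lf (nat_lit 0) (nat_lit 1134466334) (nat_lit 228) (nat_lit 6537652846) (nat_lit 228) (nat_lit 4597257200) (nat_lit 37) (nat_lit 4) (nat_lit 40) (nat_lit 5) (nat_lit 40) (nat_lit 4) (nat_lit 323) (nat_lit 230) (nat_lit 227)) (XT.lf (nat_lit 0) (nat_lit 7689359928) (nat_lit 228) (nat_lit 3684013944) (nat_lit 228) (nat_lit 1134126155) (nat_lit 37) (nat_lit 4) (nat_lit 40) (nat_lit 5) (nat_lit 40) (nat_lit 4) (nat_lit 324) (nat_lit 230) (nat_lit 226)))) (XT.nd (nat_lit 78) (nat_lit 152) (nat_lit 0) (XT.lf (nat_lit 0) (nat_lit 1571566104) (nat_lit 152) (nat_lit 750204260) (nat_lit 228) (nat_lit 10432300459) (nat_lit 34) (nat_lit 5) (nat_lit 36) (nat_lit 5) (nat_lit 37) (nat_lit 4) (nat_lit 325) (nat_lit 230) (nat_lit 225)) (XT.nd (nat_lit 78) (nat_lit 152)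 (nat_lit 0) (XT.lf (nat_lit 0) (nat_lit 5851442688) (nat_lit 228) (nat_lit 4913017992) (nat_lit 0) (nat_lit 2243547021) (nat_lit 34) (nat_lit 5) (nat_lit 37) (nat_lit 4) (nat_lit 34) (nat_lit 4) (nat_lit 326) (nat_lit 230) (nat_lit 224)) (XT.lf (nat_lit 0) (nat_lit 1444316560) (nat_lit 152) (nat_lit 7988196192) (nat_lit 152) (nat_lit 3838774650) (nat_lit 32) (nat_lit 4) (nat_lit 34) (nat_lit 5) (nat_lit 34) (nat_lit 4) (nat_lit 327) (nat_lit 230) (nat_lit 223)))))) (XT.nd (nat_lit 468) (nat_lit 456) (nat_lit 0) (XT.nd (nat_lit 234) (nat_lit 228) (nat_lit 0) (XT.nd (nat_lit 78) (nat_lit 228) (nat_lit 0) (XT.lf (nat_lit 0) (nat_lit 7973276576) (nat_lit 152) (nat_lit 5122602567) (nat_lit 152) (nat_lit 447427747) (nat_lit 32) (nat_lit 4) (nat_lit 34) (nat_lit 5) (nat_lit 34) (nat_lit 4) (nat_lit 328) (nat_lit 230) (nat_lit 222)) (XT.nd (nat_lit 78) (nat_lit 0) (nat_lit 0) (XT.lf (nat_lit 0) (nat_lit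 741960332) (nat_lit 152) (nat_lit 2178027464) (nat_lit 228) (nat_lit 10904690374) (nat_lit 29) (nat_lit 5) (nat_lit 31) (nat_lit 5) (nat_lit 32) (nat_lit 4) (nat_lit 329) (nat_lit 230) (nat_lit 221)) (XT.lf (nat_lit 0) (nat_lit 6371670682) (nat_lit 228) (nat_lit 6887045400) (nat_lit 0) (nat_lit 855954388) (nat_lit 29) (nat_lit 5) (nat_lit 32) (nat_lit 4) (nat_lit 29) (nat_lit 4) (nat_lit 330) (nat_lit 230) (nat_lit 220)))) (XT.nd (nat_lit 78) (nat_lit 228) (nat_lit 0) (XT.lf (nat_lit 0) (nat_lit 9877805357) (nat_lit 228) (nat_lit 642143642) (nat_lit 0) (nat_lit 3894964085) (nat_lit 29) (nat_lit 5) (nat_lit 32) (nat_lit 4) (nat_lit 29) (nat_lit 4) (nat_lit 331) (nat_lit 230) (nat_lit 219)) (XT.nd (nat_lit 78) (nat_lit 76) (nat_lit 0) (XT.lf (nat_lit 0) (nat_lit 5791391585) (nat_lit 152) (nat_lit 7684797714) (nat_lit 152) (nat_lit 1248437047) (nat_lit 27) (nat_lit 4) (nat_lit 29) (nat_lit 5) (nat_lit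 29) (nat_lit 4) (nat_lit 332) (nat_lit 230) (nat_lit 218)) (XT.lf (nat_lit 0) (nat_lit 2035292720) (nat_lit 228) (nat_lit 2745026537) (nat_lit 76) (nat_lit 10264621846) (nat_lit 26) (nat_lit 5) (nat_lit 29) (nat_lit 5) (nat_lit 27) (nat_lit 4) (nat_lit 333) (nat_lit 230) (nat_lit 217))))) (XT.nd (nat_lit 234) (nat_lit 152) (nat_lit 0) (XT.nd (nat_lit 78) (nat_lit 152) (nat_lit 0) (XT.lf (nat_lit 0) (nat_lit 3577478914) (nat_lit 152) (nat_lit 1782932514) (nat_lit 228) (nat_lit 10015112902) (nat_lit 24) (nat_lit 5) (nat_lit 26) (nat_lit 5) (nat_lit 27) (nat_lit 4) (nat_lit 334) (nat_lit 230) (nat_lit 216)) (XT.nd (nat_lit 78) (nat_lit 152) (nat_lit 0) (XT.lf (nat_lit 0) (nat_lit 8759889689) (nat_lit 228) (nat_lit 5691434400) (nat_lit 0) (nat_lit 1265529710) (nat_lit 24) (nat_lit 5) (nat_lit 27) (nat_lit 4) (nat_lit 24) (nat_lit 4) (nat_lit 335) (nat_lit 230) (nat_lit 215)) (XT.lf (nat_lit 0) (nat_lit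 483993894) (nat_lit 152) (nat_lit 11735657528) (nat_lit 152) (nat_lit 3850087735) (nat_lit 22) (nat_lit 4) (nat_lit 24) (nat_lit 5) (nat_lit 24) (nat_lit 4) (nat_lit 336) (nat_lit 230) (nat_lit 214)))) (XT.nd (nat_lit 78) (nat_lit 152) (nat_lit 0) (XT.lf (nat_lit 0) (nat_lit 6856222053) (nat_lit 152) (nat_lit 8921303828) (nat_lit 152) (nat_lit 655918681) (nat_lit 22) (nat_lit 4) (nat_lit 24) (nat_lit 5) (nat_lit 24) (nat_lit 4) (nat_lit 337) (nat_lit 230) (nat_lit 213)) (XT.nd (nat_lit 78) (nat_lit 76) (nat_lit 0) (XT.lf (nat_lit 0) (nat_lit 2520694971) (nat_lit 228) (nat_lit 3517127126) (nat_lit 76) (nat_lit 10771398290) (nat_lit 21) (nat_lit 5) (nat_lit 24) (nat_lit 5) (nat_lit 22) (nat_lit 4) (nat_lit 338) (nat_lit 230) (nat_lit 212)) (XT.lf (nat_lit 0) (nat_lit 2670026565) (nat_lit 76) (nat_lit 3074888154) (nat_lit 152) (nat_lit 11452252940) (nat_lit 20) (nat_lit 5) (nat_lit 21) (nat_lit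 5) (nat_lit 22) (nat_lit 4) (nat_lit 339) (nat_lit 230) (nat_lit 211))))))))
noncomputable def xc38 : XT := (XT.nd (nat_lit 1794) (nat_lit 304) (nat_lit 0) (XT.nd (nat_lit 858) (nat_lit 304) (nat_lit 0) (XT.nd (nat_lit 390) (nat_lit 304) (nat_lit 0) (XT.nd (nat_lit 156) (nat_lit 228) (nat_lit 0) (XT.nd (nat_lit 78) (nat_lit 0) (nat_lit 0) (XT.lf (nat_lit 0) (nat_lit 9015524226) (nat_lit 76) (nat_lit 26475475) (nat_lit 152) (nat_lit 8555525539) (nat_lit 20) (nat_lit 5) (nat_lit 21) (nat_lit 5) (nat_lit 22) (nat_lit 4) (nat_lit 340) (nat_lit 230) (nat_lit 210)) (XT.lf (nat_lit 0) (nat_lit 12409903813) (nat_lit 152) (nat_lit 2586319251) (nat_lit 0) (nat_lit 3014567704) (nat_lit 20) (nat_lit 5) (nat_lit 22) (nat_lit 4) (nat_lit 20) (nat_lit 4) (nat_lit 341) (nat_lit 230) (nat_lit 209))) (XT.nd (nat_lit 78) (nat_lit 76) (nat_lit 0) (XT.lf (nat_lit 0) (nat_lit 3563473328) (nat_lit 152) (nat_lit 12293556850)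 (nat_lit 152) (nat_lit 2580131362) (nat_lit 18) (nat_lit 4) (nat_lit 20) (nat_lit 5) (nat_lit 20) (nat_lit 4) (nat_lit 342) (nat_lit 230) (nat_lit 208)) (XT.nd (nat_lit 78) (nat_lit 0) (nat_lit 0) (XT.lf (nat_lit 0) (nat_lit 491059818) (nat_lit 228) (nat_lit 9025398697) (nat_lit 76) (nat_lit 9360656135) (nat_lit 17) (nat_lit 5) (nat_lit 20) (nat_lit 5) (nat_lit 18) (nat_lit 4) (nat_lit 343) (nat_lit 230) (nat_lit 207)) (XT.lf (nat_lit 0) (nat_lit 3547969545) (nat_lit 228) (nat_lit 3119701698) (nat_lit 76) (nat_lit 12663513856) (nat_lit 17) (nat_lit 5) (nat_lit 20) (nat_lit 5) (nat_lit 18) (nat_lit 4) (nat_lit 344) (nat_lit 230) (nat_lit 206))))) (XT.nd (nat_lit 234) (nat_lit 228) (nat_lit 0) (XT.nd (nat_lit 78) (nat_lit 0) (nat_lit 0) (XT.lf (nat_lit 0) (nat_lit 2930550499) (nat_lit 76) (nat_lit 3741236307) (nat_lit 152) (nat_lit 13127881788) (nat_lit 16) (nat_lit 5) (nat_lit 17) (nat_lit 5)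 (nat_lit 18) (nat_lit 4) (nat_lit 345) (nat_lit 230) (nat_lit 205)) (XT.nd (nat_lit 78) (nat_lit 0) (nat_lit 0) (XT.lf (nat_lit 0) (nat_lit 9137340186) (nat_lit 76) (nat_lit 731199320) (nat_lit 152) (nat_lit 10414336034) (nat_lit 16) (nat_lit 5) (nat_lit 17) (nat_lit 5) (nat_lit 18) (nat_lit 4) (nat_lit 346) (nat_lit 230) (nat_lit 204)) (XT.lf (nat_lit 0) (nat_lit 13132867287) (nat_lit 152) (nat_lit 5360574798) (nat_lit 0) (nat_lit 2288030680) (nat_lit 16) (nat_lit 5) (nat_lit 18) (nat_lit 4) (nat_lit 16) (nat_lit 4) (nat_lit 347) (nat_lit 230) (nat_lit 203)))) (XT.nd (nat_lit 78) (nat_lit 76) (nat_lit 0) (XT.lf (nat_lit 0) (nat_lit 515753301) (nat_lit 152) (nat_lit 15941956203) (nat_lit 152) (nat_lit 4838483822) (nat_lit 14) (nat_lit 4) (nat_lit 16) (nat_lit 5) (nat_lit 16) (nat_lit 4) (nat_lit 348) (nat_lit 230) (nat_lit 202)) (XT.nd (nat_lit 78) (nat_lit 76) (nat_lit 0) (XT.lf (nat_lit 0)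 (nat_lit 6594085283) (nat_lit 152) (nat_lit 13293366183) (nat_lit 152) (nat_lit 1938791109) (nat_lit 14) (nat_lit 4) (nat_lit 16) (nat_lit 5) (nat_lit 16) (nat_lit 4) (nat_lit 349) (nat_lit 230) (nat_lit 201)) (XT.lf (nat_lit 0) (nat_lit 979383427) (nat_lit 228) (nat_lit 9610215739) (nat_lit 76) (nat_lit 11783773082) (nat_lit 13) (nat_lit 5) (nat_lit 16) (nat_lit 5) (nat_lit 14) (nat_lit 4) (nat_lit 350) (nat_lit 230) (nat_lit 200)))))) (XT.nd (nat_lit 468) (nat_lit 152) (nat_lit 0) (XT.nd (nat_lit 234) (nat_lit 76) (nat_lit 0) (XT.nd (nat_lit 78) (nat_lit 76) (nat_lit 0) (XT.lf (nat_lit 0) (nat_lit 3899474444) (nat_lit 228) (nat_lit 3919119346) (nat_lit 76) (nat_lit 15119184139) (nat_lit 13) (nat_lit 5) (nat_lit 16) (nat_lit 5) (nat_lit 14) (nat_lit 4) (nat_lit 351) (nat_lit 230) (nat_lit 199)) (XT.nd (nat_lit 78) (nat_lit 0) (nat_lit 0) (XT.lf (nat_lit 0) (nat_lit 1901853547) (nat_lit 76) (nat_lit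 4978294506) (nat_lit 152) (nat_lit 16639815385) (nat_lit 12) (nat_lit 5) (nat_lit 13) (nat_lit 5) (nat_lit 14) (nat_lit 4) (nat_lit 352) (nat_lit 230) (nat_lit 198)) (XT.lf (nat_lit 0) (nat_lit 7900589726) (nat_lit 76) (nat_lit 2044502993) (nat_lit 152) (nat_lit 14174712246) (nat_lit 12) (nat_lit 5) (nat_lit 13) (nat_lit 5) (nat_lit 14) (nat_lit 4) (nat_lit 353) (nat_lit 230) (nat_lit 197)))) (XT.nd (nat_lit 78) (nat_lit 76) (nat_lit 0) (XT.lf (nat_lit 0) (nat_lit 13067655114) (nat_lit 152) (nat_lit 10743737988) (nat_lit 0) (nat_lit 927313480) (nat_lit 12) (nat_lit 5) (nat_lit 14) (nat_lit 4) (nat_lit 12) (nat_lit 4) (nat_lit 354) (nat_lit 230) (nat_lit 196)) (XT.nd (nat_lit 78) (nat_lit 76) (nat_lit 0) (XT.lf (nat_lit 0) (nat_lit 16261685494) (nat_lit 152) (nat_lit 5198015542) (nat_lit 0) (nat_lit 3917174391) (nat_lit 12) (nat_lit 5) (nat_lit 14) (nat_lit 4) (nat_lit 12) (nat_lit 4) (nat_lit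 355) (nat_lit 230) (nat_lit 195)) (XT.lf (nat_lit 0) (nat_lit 451256530) (nat_lit 76) (nat_lit 19063402968) (nat_lit 76) (nat_lit 6520669080) (nat_lit 11) (nat_lit 4) (nat_lit 12) (nat_lit 5) (nat_lit 12) (nat_lit 4) (nat_lit 356) (nat_lit 230) (nat_lit 194))))) (XT.nd (nat_lit 234) (nat_lit 76) (nat_lit 0) (XT.nd (nat_lit 78) (nat_lit 76) (nat_lit 0) (XT.lf (nat_lit 0) (nat_lit 6305635532) (nat_lit 76) (nat_lit 16571380574) (nat_lit 76) (nat_lit 3836197381) (nat_lit 11) (nat_lit 4) (nat_lit 12) (nat_lit 5) (nat_lit 12) (nat_lit 4) (nat_lit 357) (nat_lit 230) (nat_lit 193)) (XT.nd (nat_lit 78) (nat_lit 76) (nat_lit 0) (XT.lf (nat_lit 0) (nat_lit 12266786239) (nat_lit 76) (nat_lit 14033946123) (nat_lit 76) (nat_lit 1111918944) (nat_lit 11) (nat_lit 4) (nat_lit 12) (nat_lit 5) (nat_lit 12) (nat_lit 4) (nat_lit 358) (nat_lit 230) (nat_lit 192)) (XT.lf (nat_lit 0) (nat_lit 1622260501) (nat_lit 152)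 (nat_lit 9810240289) (nat_lit 76) (nat_lit 16701275271) (nat_lit 10) (nat_lit 5) (nat_lit 12) (nat_lit 5) (nat_lit 11) (nat_lit 4) (nat_lit 359) (nat_lit 230) (nat_lit 191)))) (XT.nd (nat_lit 78) (nat_lit 76) (nat_lit 0) (XT.lf (nat_lit 0) (nat_lit 4378476483) (nat_lit 152) (nat_lit 4391240222) (nat_lit 76) (nat_lit 20107645192) (nat_lit 10) (nat_lit 5) (nat_lit 12) (nat_lit 5) (nat_lit 11) (nat_lit 4) (nat_lit 360) (nat_lit 230) (nat_lit 190)) (XT.nd (nat_lit 78) (nat_lit 0) (nat_lit 0) (XT.lf (nat_lit 0) (nat_lit 1148979353) (nat_lit 76) (nat_lit 6042900229) (nat_lit 152) (nat_lit 22452168280) (nat_lit 9) (nat_lit 5) (nat_lit 10) (nat_lit 5) (nat_lit 11) (nat_lit 4) (nat_lit 361) (nat_lit 230) (nat_lit 189)) (XT.lf (nat_lit 0) (nat_lit 6882275624) (nat_lit 76) (nat_lit 3215665403) (nat_lit 152) (nat_lit 20335572461) (nat_lit 9) (nat_lit 5) (nat_lit 10) (nat_lit 5) (nat_lit 11) (nat_lit 4) (nat_lit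 362) (nat_lit 230) (nat_lit 188))))))) (XT.nd (nat_lit 858) (nat_lit 152) (nat_lit 0) (XT.nd (nat_lit 390) (nat_lit 76) (nat_lit 0) (XT.nd (nat_lit 156) (nat_lit 76) (nat_lit 0) (XT.nd (nat_lit 78) (nat_lit 0) (nat_lit 0) (XT.lf (nat_lit 0) (nat_lit 12726263976) (nat_lit 76) (nat_lit 329884743) (nat_lit 152) (nat_lit 18191591420) (nat_lit 9) (nat_lit 5) (nat_lit 10) (nat_lit 5) (nat_lit 11) (nat_lit 4) (nat_lit 363) (nat_lit 230) (nat_lit 187)) (XT.lf (nat_lit 0) (nat_lit 16094243354) (nat_lit 152) (nat_lit 13426544323) (nat_lit 0) (nat_lit 2565896925) (nat_lit 9) (nat_lit 5) (nat_lit 11) (nat_lit 4) (nat_lit 9) (nat_lit 4) (nat_lit 364) (nat_lit 230) (nat_lit 186))) (XT.nd (nat_lit 78) (nat_lit 76) (nat_lit 0) (XT.lf (nat_lit 0) (nat_lit 19193484566) (nat_lit 152) (nat_lit 8240595450) (nat_lit 0) (nat_lit 5517641769) (nat_lit 9) (nat_lit 5) (nat_lit 11) (nat_lit 4) (nat_lit 9) (nat_lit 4) (nat_lit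 365) (nat_lit 230) (nat_lit 185)) (XT.nd (nat_lit 78) (nat_lit 76) (nat_lit 0) (XT.lf (nat_lit 0) (nat_lit 22353409376) (nat_lit 152) (nat_lit 2955927079) (nat_lit 0) (nat_lit 8534366221) (nat_lit 9) (nat_lit 5) (nat_lit 11) (nat_lit 4) (nat_lit 9) (nat_lit 4) (nat_lit 366) (nat_lit 230) (nat_lit 184)) (XT.lf (nat_lit 0) (nat_lit 2480481591) (nat_lit 76) (nat_lit 23120141198) (nat_lit 76) (nat_lit 9162068570) (nat_lit 8) (nat_lit 4) (nat_lit 9) (nat_lit 5) (nat_lit 9) (nat_lit 4) (nat_lit 367) (nat_lit 230) (nat_lit 183))))) (XT.nd (nat_lit 234) (nat_lit 76) (nat_lit 0) (XT.nd (nat_lit 78) (nat_lit 0) (nat_lit 0) (XT.lf (nat_lit 0) (nat_lit 8085914452) (nat_lit 76) (nat_lit 20858221928) (nat_lit 76) (nat_lit 6765169229) (nat_lit 8) (nat_lit 4) (nat_lit 9) (nat_lit 5) (nat_lit 9) (nat_lit 4) (nat_lit 368) (nat_lit 230) (nat_lit 182)) (XT.nd (nat_lit 78) (nat_lit 0) (nat_lit 0) (XT.lf (nat_lit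 0) (nat_lit 13806440710) (nat_lit 76) (nat_lit 18551451278) (nat_lit 76) (nat_lit 4327349966) (nat_lit 8) (nat_lit 4) (nat_lit 9) (nat_lit 5) (nat_lit 9) (nat_lit 4) (nat_lit 369) (nat_lit 230) (nat_lit 181)) (XT.lf (nat_lit 0) (nat_lit 19647058883) (nat_lit 76) (nat_lit 16197813623) (nat_lit 76) (nat_lit 1846480649) (nat_lit 8) (nat_lit 4) (nat_lit 9) (nat_lit 5) (nat_lit 9) (nat_lit 4) (nat_lit 370) (nat_lit 230) (nat_lit 180)))) (XT.nd (nat_lit 78) (nat_lit 0) (nat_lit 0) (XT.lf (nat_lit 0) (nat_lit 666344902) (nat_lit 152) (nat_lit 13122178707) (nat_lit 76) (nat_lit 24939798743) (nat_lit 7) (nat_lit 5) (nat_lit 9) (nat_lit 5) (nat_lit 8) (nat_lit 4) (nat_lit 371) (nat_lit 230) (nat_lit 179)) (XT.nd (nat_lit 78) (nat_lit 0) (nat_lit 0) (XT.lf (nat_lit 0) (nat_lit 3189638598) (nat_lit 152) (nat_lit 8119820550) (nat_lit 76) (nat_lit 28487246483) (nat_lit 7) (nat_lit 5) (nat_lit 9) (nat_lit 5)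 (nat_lit 8) (nat_lit 4) (nat_lit 372) (nat_lit 230) (nat_lit 178)) (XT.lf (nat_lit 0) (nat_lit 5761636744) (nat_lit 152) (nat_lit 3015099308) (nat_lit 76) (nat_lit 32121232963) (nat_lit 7) (nat_lit 5) (nat_lit 9) (nat_lit 5) (nat_lit 8) (nat_lit 4) (nat_lit 373) (nat_lit 230) (nat_lit 177)))))) (XT.nd (nat_lit 468) (nat_lit 76) (nat_lit 0) (XT.nd (nat_lit 234) (nat_lit 0) (nat_lit 0) (XT.nd (nat_lit 78) (nat_lit 0) (nat_lit 0) (XT.lf (nat_lit 0) (nat_lit 2240159027) (nat_lit 76) (nat_lit 6165961470) (nat_lit 152) (nat_lit 33626308261) (nat_lit 6) (nat_lit 5) (nat_lit 7) (nat_lit 5) (nat_lit 8) (nat_lit 4) (nat_lit 374) (nat_lit 230) (nat_lit 176)) (XT.nd (nat_lit 78) (nat_lit 0) (nat_lit 0) (XT.lf (nat_lit 0) (nat_lit 7669017676) (nat_lit 76) (nat_lit 3465482032) (nat_lit 152) (nat_lit 32066303455) (nat_lit 6) (nat_lit 5) (nat_lit 7) (nat_lit 5) (nat_lit 8) (nat_lit 4) (nat_lit 375) (nat_lit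 230) (nat_lit 175)) (XT.lf (nat_lit 0) (nat_lit 13216213914) (nat_lit 76) (nat_lit 703384687) (nat_lit 152) (nat_lit 30485401332) (nat_lit 6) (nat_lit 5) (nat_lit 7) (nat_lit 5) (nat_lit 8) (nat_lit 4) (nat_lit 376) (nat_lit 230) (nat_lit 174)))) (XT.nd (nat_lit 78) (nat_lit 0) (nat_lit 0) (XT.lf (nat_lit 0) (nat_lit 16784255872) (nat_lit 152) (nat_lit 26779881591) (nat_lit 0) (nat_lit 2081321665) (nat_lit 6) (nat_lit 5) (nat_lit 8) (nat_lit 4) (nat_lit 6) (nat_lit 4) (nat_lit 377) (nat_lit 230) (nat_lit 173)) (XT.nd (nat_lit 78) (nat_lit 0) (nat_lit 0) (XT.lf (nat_lit 0) (nat_lit 19717952284) (nat_lit 152) (nat_lit 22288197424) (nat_lit 0) (nat_lit 4917505602) (nat_lit 6) (nat_lit 5) (nat_lit 8) (nat_lit 4) (nat_lit 6) (nat_lit 4) (nat_lit 378) (nat_lit 230) (nat_lit 172)) (XT.lf (nat_lit 0) (nat_lit 22716489898) (nat_lit 152) (nat_lit 17703047384) (nat_lit 0) (nat_lit 7821370910) (nat_lit 6)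 (nat_lit 5) (nat_lit 8) (nat_lit 4) (nat_lit 6) (nat_lit 4) (nat_lit 379) (nat_lit 230) (nat_lit 171))))) (XT.nd (nat_lit 234) (nat_lit 76) (nat_lit 0) (XT.nd (nat_lit 78) (nat_lit 0) (nat_lit 0) (XT.lf (nat_lit 0) (nat_lit 25782488797) (nat_lit 152) (nat_lit 13020425028) (nat_lit 0) (nat_lit 10795454948) (nat_lit 6) (nat_lit 5) (nat_lit 8) (nat_lit 4) (nat_lit 6) (nat_lit 4) (nat_lit 380) (nat_lit 230) (nat_lit 170)) (XT.nd (nat_lit 78) (nat_lit 0) (nat_lit 0) (XT.lf (nat_lit 0) (nat_lit 28918628006) (nat_lit 152) (nat_lit 8236238746) (nat_lit 0) (nat_lit 13842356429) (nat_lit 6) (nat_lit 5) (nat_lit 8) (nat_lit 4) (nat_lit 6) (nat_lit 4) (nat_lit 381) (nat_lit 230) (nat_lit 169)) (XT.lf (nat_lit 0) (nat_lit 32127647844) (nat_lit 152) (nat_lit 3346308180) (nat_lit 0) (nat_lit 16964737696) (nat_lit 6) (nat_lit 5) (nat_lit 8) (nat_lit 4) (nat_lit 6) (nat_lit 4) (nat_lit 382) (nat_lit 230) (nat_lit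 168)))) (XT.nd (nat_lit 78) (nat_lit 0) (nat_lit 0) (XT.lf (nat_lit 0) (nat_lit 1686550091) (nat_lit 76) (nat_lit 33742014367) (nat_lit 76) (nat_lit 18494989101) (nat_lit 5) (nat_lit 4) (nat_lit 6) (nat_lit 5) (nat_lit 6) (nat_lit 4) (nat_lit 383) (nat_lit 230) (nat_lit 167)) (XT.nd (nat_lit 78) (nat_lit 0) (nat_lit 0) (XT.lf (nat_lit 0) (nat_lit 6902668886) (nat_lit 76) (nat_lit 31939295316) (nat_lit 76) (nat_lit 16610604887) (nat_lit 5) (nat_lit 4) (nat_lit 6) (nat_lit 5) (nat_lit 6) (nat_lit 4) (nat_lit 384) (nat_lit 230) (nat_lit 166)) (XT.lf (nat_lit 0) (nat_lit 12240007885) (nat_lit 76) (nat_lit 30098014830) (nat_lit 76) (nat_lit 14690037835) (nat_lit 5) (nat_lit 4) (nat_lit 6) (nat_lit 5) (nat_lit 6) (nat_lit 4) (nat_lit 385) (nat_lit 230) (nat_lit 165))))))))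
noncomputable def xc39 : XT := (XT.nd (nat_lit 35724) (nat_lit 0) (nat_lit 988) (XT.nd (nat_lit 858) (nat_lit 0) (nat_lit 0) (XT.nd (nat_lit 390) (nat_lit 152) (nat_lit 0) (XT.nd (nat_lit 156) (nat_lit 0) (nat_lit 0) (XT.nd (nat_lit 78) (nat_lit 0) (nat_lit 0) (XT.lf (nat_lit 0) (nat_lit 17703230780) (nat_lit 76) (nat_lit 28216564024) (nat_lit 76) (nat_lit 12731609781) (nat_lit 5) (nat_lit 4) (nat_lit 6) (nat_lit 5) (nat_lit 6) (nat_lit 4) (nat_lit 386) (nat_lit 230) (nat_lit 164)) (XT.lf (nat_lit 0) (nat_lit 23297111263) (nat_lit 76) (nat_lit 26293298912) (nat_lit 76) (nat_lit 10733609476) (nat_lit 5) (nat_lit 4) (nat_lit 6) (nat_lit 5) (nat_lit 6) (nat_lit 4) (nat_lit 387) (nat_lit 230) (nat_lit 163))) (XT.nd (nat_lit 78) (nat_lit 0) (nat_lit 0) (XT.lf (nat_lit 0) (nat_lit 29026537189) (nat_lit 76) (nat_lit 24326538970) (nat_lit 76) (nat_lit 8694291095) (nat_lit 5) (nat_lit 4) (nat_lit 6) (nat_lit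 5) (nat_lit 6) (nat_lit 4) (nat_lit 388) (nat_lit 230) (nat_lit 162)) (XT.nd (nat_lit 78) (nat_lit 0) (nat_lit 0) (XT.lf (nat_lit 0) (nat_lit 34896514854) (nat_lit 76) (nat_lit 22314565671) (nat_lit 76) (nat_lit 6611872710) (nat_lit 5) (nat_lit 4) (nat_lit 6) (nat_lit 5) (nat_lit 6) (nat_lit 4) (nat_lit 389) (nat_lit 230) (nat_lit 161)) (XT.lf (nat_lit 0) (nat_lit 40912173364) (nat_lit 76) (nat_lit 20255620981) (nat_lit 76) (nat_lit 4484534731) (nat_lit 5) (nat_lit 4) (nat_lit 6) (nat_lit 5) (nat_lit 6) (nat_lit 4) (nat_lit 390) (nat_lit 230) (nat_lit 160))))) (XT.nd (nat_lit 234) (nat_lit 76) (nat_lit 0) (XT.nd (nat_lit 78) (nat_lit 76) (nat_lit 0) (XT.lf (nat_lit 0) (nat_lit 47078769120) (nat_lit 76) (nat_lit 18147905820) (nat_lit 76) (nat_lit 2310418319) (nat_lit 5) (nat_lit 4) (nat_lit 6) (nat_lit 5) (nat_lit 6) (nat_lit 4) (nat_lit 391) (nat_lit 230) (nat_lit 159)) (XT.nd (nat_lit 78) (nat_lit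 76) (nat_lit 0) (XT.lf (nat_lit 0) (nat_lit 53401690408) (nat_lit 76) (nat_lit 15989578496) (nat_lit 76) (nat_lit 87623761) (nat_lit 5) (nat_lit 4) (nat_lit 6) (nat_lit 5) (nat_lit 6) (nat_lit 4) (nat_lit 392) (nat_lit 230) (nat_lit 158)) (XT.lf (nat_lit 0) (nat_lit 2143138530) (nat_lit 152) (nat_lit 11613973064) (nat_lit 76) (nat_lit 57721682086) (nat_lit 4) (nat_lit 5) (nat_lit 6) (nat_lit 5) (nat_lit 5) (nat_lit 4) (nat_lit 393) (nat_lit 230) (nat_lit 157)))) (XT.nd (nat_lit 78) (nat_lit 76) (nat_lit 0) (XT.lf (nat_lit 0) (nat_lit 4423771290) (nat_lit 152) (nat_lit 7045055112) (nat_lit 76) (nat_lit 62070307833) (nat_lit 4) (nat_lit 5) (nat_lit 6) (nat_lit 5) (nat_lit 5) (nat_lit 4) (nat_lit 394) (nat_lit 230) (nat_lit 156)) (XT.nd (nat_lit 78) (nat_lit 76) (nat_lit 0) (XT.lf (nat_lit 0) (nat_lit 6757977159) (nat_lit 152) (nat_lit 2365613848) (nat_lit 76) (nat_lit 66538148888) (nat_lit 4) (nat_lit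 5) (nat_lit 6) (nat_lit 5) (nat_lit 5) (nat_lit 4) (nat_lit 395) (nat_lit 230) (nat_lit 155)) (XT.lf (nat_lit 0) (nat_lit 2476770266) (nat_lit 76) (nat_lit 6694833699) (nat_lit 152) (nat_lit 68676147154) (nat_lit 3) (nat_lit 5) (nat_lit 4) (nat_lit 5) (nat_lit 5) (nat_lit 4) (nat_lit 396) (nat_lit 230) (nat_lit 154)))))) (XT.nd (nat_lit 468) (nat_lit 0) (nat_lit 0) (XT.nd (nat_lit 234) (nat_lit 0) (nat_lit 0) (XT.nd (nat_lit 78) (nat_lit 0) (nat_lit 0) (XT.lf (nat_lit 0) (nat_lit 7487400232) (nat_lit 76) (nat_lit 4179888447) (nat_lit 152) (nat_lit 68431773495) (nat_lit 3) (nat_lit 5) (nat_lit 4) (nat_lit 5) (nat_lit 5) (nat_lit 4) (nat_lit 397) (nat_lit 230) (nat_lit 153)) (XT.nd (nat_lit 78) (nat_lit 0) (nat_lit 0) (XT.lf (nat_lit 0) (nat_lit 12623573916) (nat_lit 76) (nat_lit 1600445786) (nat_lit 152) (nat_lit 68194316292) (nat_lit 3) (nat_lit 5) (nat_lit 4) (nat_lit 5) (nat_lit 5) (nat_lit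 4) (nat_lit 398) (nat_lit 230) (nat_lit 152)) (XT.lf (nat_lit 0) (nat_lit 16854083443) (nat_lit 152) (nat_lit 66927872264) (nat_lit 0) (nat_lit 1025341850) (nat_lit 3) (nat_lit 5) (nat_lit 5) (nat_lit 4) (nat_lit 3) (nat_lit 4) (nat_lit 399) (nat_lit 230) (nat_lit 151)))) (XT.nd (nat_lit 78) (nat_lit 0) (nat_lit 0) (XT.lf (nat_lit 0) (nat_lit 19565765205) (nat_lit 152) (nat_lit 64014474640) (nat_lit 0) (nat_lit 3687614845) (nat_lit 3) (nat_lit 5) (nat_lit 5) (nat_lit 4) (nat_lit 3) (nat_lit 4) (nat_lit 400) (nat_lit 230) (nat_lit 150)) (XT.nd (nat_lit 78) (nat_lit 0) (nat_lit 0) (XT.lf (nat_lit 0) (nat_lit 22346049955) (nat_lit 152) (nat_lit 61036639054) (nat_lit 0) (nat_lit 6419929919) (nat_lit 3) (nat_lit 5) (nat_lit 5) (nat_lit 4) (nat_lit 3) (nat_lit 4) (nat_lit 401) (nat_lit 230) (nat_lit 149)) (XT.lf (nat_lit 0) (nat_lit 25197367069) (nat_lit 152) (nat_lit 57991763515) (nat_lit 0) (nat_lit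 9224674531) (nat_lit 3) (nat_lit 5) (nat_lit 5) (nat_lit 4) (nat_lit 3) (nat_lit 4) (nat_lit 402) (nat_lit 230) (nat_lit 148))))) (XT.nd (nat_lit 34164) (nat_lit 0) (nat_lit 2812) (XT.nd (nat_lit 34008) (nat_lit 0) (nat_lit 3268) (XT.lf (nat_lit 0) (nat_lit 28122207987) (nat_lit 152) (nat_lit 54877187452) (nat_lit 0) (nat_lit 12104299429) (nat_lit 3) (nat_lit 5) (nat_lit 5) (nat_lit 4) (nat_lit 3) (nat_lit 4) (nat_lit 403) (nat_lit 230) (nat_lit 147)) (XT.nd (nat_lit 78) (nat_lit 0) (nat_lit 0) (XT.lf (nat_lit 0) (nat_lit 967134770) (nat_lit 304) (nat_lit 3661795824) (nat_lit 0) (nat_lit 967134770) (nat_lit 46) (nat_lit 5) (nat_lit 50) (nat_lit 4) (nat_lit 46) (nat_lit 4) (nat_lit 318) (nat_lit 231) (nat_lit 231)) (XT.lf (nat_lit 0) (nat_lit 5531686773) (nat_lit 304) (nat_lit 1037178272) (nat_lit 0) (nat_lit 4825118332) (nat_lit 46) (nat_lit 5) (nat_lit 50) (nat_lit 4) (nat_lit 46) (nat_lit 4)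 (nat_lit 319) (nat_lit 231) (nat_lit 230)))) (XT.nd (nat_lit 78) (nat_lit 228) (nat_lit 0) (XT.lf (nat_lit 0) (nat_lit 5417835824) (nat_lit 228) (nat_lit 3788819042) (nat_lit 228) (nat_lit 2396261823) (nat_lit 43) (nat_lit 4) (nat_lit 46) (nat_lit 5) (nat_lit 46) (nat_lit 4) (nat_lit 320) (nat_lit 231) (nat_lit 229)) (XT.nd (nat_lit 78) (nat_lit 0) (nat_lit 0) (XT.lf (nat_lit 0) (nat_lit 134981912) (nat_lit 152) (nat_lit 945583433) (nat_lit 228) (nat_lit 10739430103) (nat_lit 40) (nat_lit 5) (nat_lit 42) (nat_lit 5) (nat_lit 43) (nat_lit 4) (nat_lit 321) (nat_lit 231) (nat_lit 228)) (XT.lf (nat_lit 0) (nat_lit 4614280977) (nat_lit 228) (nat_lit 5440779161) (nat_lit 0) (nat_lit 1987896554) (nat_lit 40) (nat_lit 5) (nat_lit 43) (nat_lit 4) (nat_lit 40) (nat_lit 4) (nat_lit 322) (nat_lit 231) (nat_lit 227))))))) (XT.nd (nat_lit 936) (nat_lit 608) (nat_lit 0) (XT.nd (nat_lit 468) (nat_lit 608) (nat_lit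 0) (XT.nd (nat_lit 234) (nat_lit 152) (nat_lit 0) (XT.nd (nat_lit 78) (nat_lit 228) (nat_lit 0) (XT.lf (nat_lit 0) (nat_lit 875102353) (nat_lit 228) (nat_lit 7317659798) (nat_lit 228) (nat_lit 4081783231) (nat_lit 37) (nat_lit 4) (nat_lit 40) (nat_lit 5) (nat_lit 40) (nat_lit 4) (nat_lit 323) (nat_lit 231) (nat_lit 226)) (XT.nd (nat_lit 78) (nat_lit 228) (nat_lit 0) (XT.lf (nat_lit 0) (nat_lit 7369806620) (nat_lit 228) (nat_lit 4485839233) (nat_lit 228) (nat_lit 658222720) (nat_lit 37) (nat_lit 4) (nat_lit 40) (nat_lit 5) (nat_lit 40) (nat_lit 4) (nat_lit 324) (nat_lit 231) (nat_lit 225)) (XT.lf (nat_lit 0) (nat_lit 1174081673) (nat_lit 152) (nat_lit 1572816349) (nat_lit 228) (nat_lit 10014694417) (nat_lit 34) (nat_lit 5) (nat_lit 36) (nat_lit 5) (nat_lit 37) (nat_lit 4) (nat_lit 325) (nat_lit 231) (nat_lit 224)))) (XT.nd (nat_lit 78) (nat_lit 152) (nat_lit 0) (XT.lf (nat_lit 0) (nat_lit 6231321099)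 (nat_lit 228) (nat_lit 5369718968) (nat_lit 0) (nat_lit 1415891035) (nat_lit 34) (nat_lit 5) (nat_lit 37) (nat_lit 4) (nat_lit 34) (nat_lit 4) (nat_lit 326) (nat_lit 231) (nat_lit 223)) (XT.nd (nat_lit 78) (nat_lit 0) (nat_lit 0) (XT.lf (nat_lit 0) (nat_lit 919508297) (nat_lit 152) (nat_lit 8851583916) (nat_lit 152) (nat_lit 3510400575) (nat_lit 32) (nat_lit 4) (nat_lit 34) (nat_lit 5) (nat_lit 34) (nat_lit 4) (nat_lit 327) (nat_lit 231) (nat_lit 222)) (XT.lf (nat_lit 0) (nat_lit 7391169242) (nat_lit 152) (nat_lit 6007540342) (nat_lit 152) (nat_lit 155916925) (nat_lit 32) (nat_lit 4) (nat_lit 34) (nat_lit 5) (nat_lit 34) (nat_lit 4) (nat_lit 328) (nat_lit 231) (nat_lit 221))))) (XT.nd (nat_lit 234) (nat_lit 380) (nat_lit 0) (XT.nd (nat_lit 78) (nat_lit 0) (nat_lit 0) (XT.lf (nat_lit 0) (nat_lit 76375323) (nat_lit 152) (nat_lit 3087945675) (nat_lit 228) (nat_lit 10672876768) (nat_lit 29) (nat_lit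 5) (nat_lit 31) (nat_lit 5) (nat_lit 32) (nat_lit 4) (nat_lit 329) (nat_lit 231) (nat_lit 220)) (XT.nd (nat_lit 78) (nat_lit 0) (nat_lit 0) (XT.lf (nat_lit 0) (nat_lit 6514868235) (nat_lit 152) (nat_lit 58138300) (nat_lit 228) (nat_lit 7555511671) (nat_lit 29) (nat_lit 5) (nat_lit 31) (nat_lit 5) (nat_lit 32) (nat_lit 4) (nat_lit 330) (nat_lit 231) (nat_lit 219)) (XT.lf (nat_lit 0) (nat_lit 10044786698) (nat_lit 228) (nat_lit 1423226048) (nat_lit 0) (nat_lit 2961815815) (nat_lit 29) (nat_lit 5) (nat_lit 32) (nat_lit 4) (nat_lit 29) (nat_lit 4) (nat_lit 331) (nat_lit 231) (nat_lit 218)))) (XT.nd (nat_lit 78) (nat_lit 228) (nat_lit 0) (XT.lf (nat_lit 0) (nat_lit 4940266987) (nat_lit 152) (nat_lit 8661910811) (nat_lit 152) (nat_lit 1138629836) (nat_lit 27) (nat_lit 4) (nat_lit 29) (nat_lit 5) (nat_lit 29) (nat_lit 4) (nat_lit 332) (nat_lit 231) (nat_lit 217)) (XT.nd (nat_lit 78) (nat_lit 152) (nat_lit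 0) (XT.lf (nat_lit 0) (nat_lit 2110238222) (nat_lit 228) (nat_lit 3666982911) (nat_lit 76) (nat_lit 9284885119) (nat_lit 26) (nat_lit 5) (nat_lit 29) (nat_lit 5) (nat_lit 27) (nat_lit 4) (nat_lit 333) (nat_lit 231) (nat_lit 216)) (XT.lf (nat_lit 0) (nat_lit 2584104287) (nat_lit 152) (nat_lit 2809937723) (nat_lit 228) (nat_lit 9999919885) (nat_lit 24) (nat_lit 5) (nat_lit 26) (nat_lit 5) (nat_lit 27) (nat_lit 4) (nat_lit 334) (nat_lit 231) (nat_lit 215)))))) (XT.nd (nat_lit 468) (nat_lit 304) (nat_lit 0) (XT.nd (nat_lit 234) (nat_lit 152) (nat_lit 0) (XT.nd (nat_lit 78) (nat_lit 152) (nat_lit 0) (XT.lf (nat_lit 0) (nat_lit 8752117961) (nat_lit 228) (nat_lit 6745676221) (nat_lit 0) (nat_lit 238771259) (nat_lit 24) (nat_lit 5) (nat_lit 27) (nat_lit 4) (nat_lit 24) (nat_lit 4) (nat_lit 335) (nat_lit 231) (nat_lit 214)) (XT.nd (nat_lit 78) (nat_lit 152) (nat_lit 0) (XT.lf (nat_lit 0) (nat_lit 12176615494)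 (nat_lit 228) (nat_lit 630470869) (nat_lit 0) (nat_lit 3283453438) (nat_lit 24) (nat_lit 5) (nat_lit 27) (nat_lit 4) (nat_lit 24) (nat_lit 4) (nat_lit 336) (nat_lit 231) (nat_lit 213)) (XT.lf (nat_lit 0) (nat_lit 5678929033) (nat_lit 152) (nat_lit 10019176353) (nat_lit 152) (nat_lit 757261527) (nat_lit 22) (nat_lit 4) (nat_lit 24) (nat_lit 5) (nat_lit 24) (nat_lit 4) (nat_lit 337) (nat_lit 231) (nat_lit 212)))) (XT.nd (nat_lit 78) (nat_lit 76) (nat_lit 0) (XT.lf (nat_lit 0) (nat_lit 2391686868) (nat_lit 228) (nat_lit 4764802881) (nat_lit 76) (nat_lit 9675599937) (nat_lit 21) (nat_lit 5) (nat_lit 24) (nat_lit 5) (nat_lit 22) (nat_lit 4) (nat_lit 338) (nat_lit 231) (nat_lit 211)) (XT.nd (nat_lit 78) (nat_lit 0) (nat_lit 0) (XT.lf (nat_lit 0) (nat_lit 1348569715) (nat_lit 76) (nat_lit 4225854813) (nat_lit 152) (nat_lit 11646884505) (nat_lit 20) (nat_lit 5) (nat_lit 21) (nat_lit 5) (nat_lit 22) (nat_lit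 4) (nat_lit 339) (nat_lit 231) (nat_lit 210)) (XT.lf (nat_lit 0) (nat_lit 7646543200) (nat_lit 76) (nat_lit 1196568277) (nat_lit 152) (nat_lit 8779433883) (nat_lit 20) (nat_lit 5) (nat_lit 21) (nat_lit 5) (nat_lit 22) (nat_lit 4) (nat_lit 340) (nat_lit 231) (nat_lit 209))))) (XT.nd (nat_lit 234) (nat_lit 76) (nat_lit 0) (XT.nd (nat_lit 78) (nat_lit 228) (nat_lit 0) (XT.lf (nat_lit 0) (nat_lit 12172018538) (nat_lit 152) (nat_lit 4015887382) (nat_lit 0) (nat_lit 1849100906) (nat_lit 20) (nat_lit 5) (nat_lit 22) (nat_lit 4) (nat_lit 20) (nat_lit 4) (nat_lit 341) (nat_lit 231) (nat_lit 208)) (XT.nd (nat_lit 78) (nat_lit 76) (nat_lit 0) (XT.lf (nat_lit 0) (nat_lit 2059098323) (nat_lit 152) (nat_lit 13518644439) (nat_lit 152) (nat_lit 2886902167) (nat_lit 18) (nat_lit 4) (nat_lit 20) (nat_lit 5) (nat_lit 20) (nat_lit 4) (nat_lit 342) (nat_lit 231) (nat_lit 207)) (XT.lf (nat_lit 0) (nat_lit 163398811)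 (nat_lit 228) (nat_lit 10599872432) (nat_lit 76) (nat_lit 8142245371) (nat_lit 17) (nat_lit 5) (nat_lit 20) (nat_lit 5) (nat_lit 18) (nat_lit 4) (nat_lit 343) (nat_lit 231) (nat_lit 206)))) (XT.nd (nat_lit 78) (nat_lit 76) (nat_lit 0) (XT.lf (nat_lit 0) (nat_lit 3194214941) (nat_lit 228) (nat_lit 4738412530) (nat_lit 76) (nat_lit 11427765523) (nat_lit 17) (nat_lit 5) (nat_lit 20) (nat_lit 5) (nat_lit 18) (nat_lit 4) (nat_lit 344) (nat_lit 231) (nat_lit 205)) (XT.nd (nat_lit 78) (nat_lit 0) (nat_lit 0) (XT.lf (nat_lit 0) (nat_lit 1235820747) (nat_lit 76) (nat_lit 5040587086) (nat_lit 152) (nat_lit 13553739838) (nat_lit 16) (nat_lit 5) (nat_lit 17) (nat_lit 5) (nat_lit 18) (nat_lit 4) (nat_lit 345) (nat_lit 231) (nat_lit 204)) (XT.lf (nat_lit 0) (nat_lit 7400082861) (nat_lit 76) (nat_lit 2048073153) (nat_lit 152) (nat_lit 10865970534) (nat_lit 16) (nat_lit 5) (nat_lit 17) (nat_lit 5) (nat_lit 18)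 (nat_lit 4) (nat_lit 346) (nat_lit 231) (nat_lit 203))))))))
noncomputable def xc40 : XT := (XT.nd (nat_lit 1794) (nat_lit 228) (nat_lit 0) (XT.nd (nat_lit 858) (nat_lit 228) (nat_lit 0) (XT.nd (nat_lit 390) (nat_lit 152) (nat_lit 0) (XT.nd (nat_lit 156) (nat_lit 228) (nat_lit 0) (XT.nd (nat_lit 78) (nat_lit 0) (nat_lit 0) (XT.lf (nat_lit 0) (nat_lit 12675385430) (nat_lit 152) (nat_lit 7158299352) (nat_lit 0) (nat_lit 980173103) (nat_lit 16) (nat_lit 5) (nat_lit 18) (nat_lit 4) (nat_lit 16) (nat_lit 4) (nat_lit 347) (nat_lit 231) (nat_lit 202)) (XT.lf (nat_lit 0) (nat_lit 15971541980) (nat_lit 152) (nat_lit 1332690619) (nat_lit 0) (nat_lit 4025226961) (nat_lit 16) (nat_lit 5) (nat_lit 18) (nat_lit 4) (nat_lit 16) (nat_lit 4) (nat_lit 348) (nat_lit 231) (nat_lit 201))) (XT.nd (nat_lit 78) (nat_lit 76) (nat_lit 0) (XT.lf (nat_lit 0) (nat_lit 4678861623) (nat_lit 152) (nat_lit 14685932929) (nat_lit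 152) (nat_lit 2495828887) (nat_lit 14) (nat_lit 4) (nat_lit 16) (nat_lit 5) (nat_lit 16) (nat_lit 4) (nat_lit 349) (nat_lit 231) (nat_lit 200)) (XT.nd (nat_lit 78) (nat_lit 0) (nat_lit 0) (XT.lf (nat_lit 0) (nat_lit 410229761) (nat_lit 228) (nat_lit 11594025997) (nat_lit 76) (nat_lit 10404366363) (nat_lit 13) (nat_lit 5) (nat_lit 16) (nat_lit 5) (nat_lit 14) (nat_lit 4) (nat_lit 350) (nat_lit 231) (nat_lit 199)) (XT.lf (nat_lit 0) (nat_lit 3308004563) (nat_lit 228) (nat_lit 5941337685) (nat_lit 76) (nat_lit 13724373294) (nat_lit 13) (nat_lit 5) (nat_lit 16) (nat_lit 5) (nat_lit 14) (nat_lit 4) (nat_lit 351) (nat_lit 231) (nat_lit 198))))) (XT.nd (nat_lit 234) (nat_lit 76) (nat_lit 0) (XT.nd (nat_lit 78) (nat_lit 76) (nat_lit 0) (XT.lf (nat_lit 0) (nat_lit 6248730166) (nat_lit 228) (nat_lit 194766201) (nat_lit 76) (nat_lit 17113620847) (nat_lit 13) (nat_lit 5) (nat_lit 16) (nat_lit 5) (nat_lit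 14) (nat_lit 4) (nat_lit 352) (nat_lit 231) (nat_lit 197)) (XT.nd (nat_lit 78) (nat_lit 0) (nat_lit 0) (XT.lf (nat_lit 0) (nat_lit 5763169931) (nat_lit 76) (nat_lit 3527205320) (nat_lit 152) (nat_lit 14867299684) (nat_lit 12) (nat_lit 5) (nat_lit 13) (nat_lit 5) (nat_lit 14) (nat_lit 4) (nat_lit 353) (nat_lit 231) (nat_lit 196)) (XT.lf (nat_lit 0) (nat_lit 11831064483) (nat_lit 76) (nat_lit 552014760) (nat_lit 152) (nat_lit 12394409766) (nat_lit 12) (nat_lit 5) (nat_lit 13) (nat_lit 5) (nat_lit 14) (nat_lit 4) (nat_lit 354) (nat_lit 231) (nat_lit 195)))) (XT.nd (nat_lit 78) (nat_lit 76) (nat_lit 0) (XT.lf (nat_lit 0) (nat_lit 15551500343) (nat_lit 152) (nat_lit 7430680352) (nat_lit 0) (nat_lit 2434261654) (nat_lit 12) (nat_lit 5) (nat_lit 14) (nat_lit 4) (nat_lit 12) (nat_lit 4) (nat_lit 355) (nat_lit 231) (nat_lit 194)) (XT.nd (nat_lit 78) (nat_lit 76) (nat_lit 0) (XT.lf (nat_lit 0) (nat_lit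 18780424967) (nat_lit 152) (nat_lit 1824470788) (nat_lit 0) (nat_lit 5470736972) (nat_lit 12) (nat_lit 5) (nat_lit 14) (nat_lit 4) (nat_lit 12) (nat_lit 4) (nat_lit 356) (nat_lit 231) (nat_lit 193)) (XT.lf (nat_lit 0) (nat_lit 3959676649) (nat_lit 76) (nat_lit 18145754385) (nat_lit 76) (nat_lit 4649222405) (nat_lit 11) (nat_lit 4) (nat_lit 12) (nat_lit 5) (nat_lit 12) (nat_lit 4) (nat_lit 357) (nat_lit 231) (nat_lit 192)))))) (XT.nd (nat_lit 468) (nat_lit 76) (nat_lit 0) (XT.nd (nat_lit 234) (nat_lit 76) (nat_lit 0) (XT.nd (nat_lit 78) (nat_lit 76) (nat_lit 0) (XT.lf (nat_lit 0) (nat_lit 9887894329) (nat_lit 76) (nat_lit 15622356290) (nat_lit 76) (nat_lit 1944422381) (nat_lit 11) (nat_lit 4) (nat_lit 12) (nat_lit 5) (nat_lit 12) (nat_lit 4) (nat_lit 358) (nat_lit 231) (nat_lit 191)) (XT.nd (nat_lit 78) (nat_lit 0) (nat_lit 0) (XT.lf (nat_lit 0) (nat_lit 787460147) (nat_lit 152) (nat_lit 12255508187)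 (nat_lit 76) (nat_lit 15133639751) (nat_lit 10) (nat_lit 5) (nat_lit 12) (nat_lit 5) (nat_lit 11) (nat_lit 4) (nat_lit 359) (nat_lit 231) (nat_lit 190)) (XT.lf (nat_lit 0) (nat_lit 3525674131) (nat_lit 152) (nat_lit 6867922513) (nat_lit 76) (nat_lit 18527150918) (nat_lit 10) (nat_lit 5) (nat_lit 12) (nat_lit 5) (nat_lit 11) (nat_lit 4) (nat_lit 360) (nat_lit 231) (nat_lit 189)))) (XT.nd (nat_lit 78) (nat_lit 76) (nat_lit 0) (XT.lf (nat_lit 0) (nat_lit 6310554871) (nat_lit 152) (nat_lit 1380623075) (nat_lit 76) (nat_lit 21997124440) (nat_lit 10) (nat_lit 5) (nat_lit 12) (nat_lit 5) (nat_lit 11) (nat_lit 4) (nat_lit 361) (nat_lit 231) (nat_lit 188)) (XT.nd (nat_lit 78) (nat_lit 0) (nat_lit 0) (XT.lf (nat_lit 0) (nat_lit 4294995692) (nat_lit 76) (nat_lit 4890826188) (nat_lit 152) (nat_lit 21292882766) (nat_lit 9) (nat_lit 5) (nat_lit 10) (nat_lit 5) (nat_lit 11) (nat_lit 4) (nat_lit 362) (nat_lit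 231) (nat_lit 187)) (XT.lf (nat_lit 0) (nat_lit 10109663270) (nat_lit 76) (nat_lit 2017610076) (nat_lit 152) (nat_lit 19166173069) (nat_lit 9) (nat_lit 5) (nat_lit 10) (nat_lit 5) (nat_lit 11) (nat_lit 4) (nat_lit 363) (nat_lit 231) (nat_lit 186))))) (XT.nd (nat_lit 234) (nat_lit 76) (nat_lit 0) (XT.nd (nat_lit 78) (nat_lit 0) (nat_lit 0) (XT.lf (nat_lit 0) (nat_lit 15132759090) (nat_lit 152) (nat_lit 16101477481) (nat_lit 0) (nat_lit 899144641) (nat_lit 9) (nat_lit 5) (nat_lit 11) (nat_lit 4) (nat_lit 9) (nat_lit 4) (nat_lit 364) (nat_lit 231) (nat_lit 185)) (XT.nd (nat_lit 78) (nat_lit 0) (nat_lit 0) (XT.lf (nat_lit 0) (nat_lit 18216092106) (nat_lit 152) (nat_lit 10943537951) (nat_lit 0) (nat_lit 3839277299) (nat_lit 9) (nat_lit 5) (nat_lit 11) (nat_lit 4) (nat_lit 9) (nat_lit 4) (nat_lit 365) (nat_lit 231) (nat_lit 184)) (XT.lf (nat_lit 0) (nat_lit 21360572065) (nat_lit 152) (nat_lit 5686063118)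 (nat_lit 0) (nat_lit 6844727786) (nat_lit 9) (nat_lit 5) (nat_lit 11) (nat_lit 4) (nat_lit 9) (nat_lit 4) (nat_lit 366) (nat_lit 231) (nat_lit 183)))) (XT.nd (nat_lit 78) (nat_lit 76) (nat_lit 0) (XT.lf (nat_lit 0) (nat_lit 24568946572) (nat_lit 152) (nat_lit 324459070) (nat_lit 0) (nat_lit 9918122221) (nat_lit 9) (nat_lit 5) (nat_lit 11) (nat_lit 4) (nat_lit 9) (nat_lit 4) (nat_lit 367) (nat_lit 231) (nat_lit 182)) (XT.nd (nat_lit 78) (nat_lit 0) (nat_lit 0) (XT.lf (nat_lit 0) (nat_lit 5248373763) (nat_lit 76) (nat_lit 22646095875) (nat_lit 76) (nat_lit 7864222912) (nat_lit 8) (nat_lit 4) (nat_lit 9) (nat_lit 5) (nat_lit 9) (nat_lit 4) (nat_lit 368) (nat_lit 231) (nat_lit 181)) (XT.lf (nat_lit 0) (nat_lit 10943518803) (nat_lit 76) (nat_lit 20350328238) (nat_lit 76) (nat_lit 5441223612) (nat_lit 8) (nat_lit 4) (nat_lit 9) (nat_lit 5) (nat_lit 9) (nat_lit 4) (nat_lit 369) (nat_lit 231) (nat_lit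 180))))))) (XT.nd (nat_lit 858) (nat_lit 76) (nat_lit 0) (XT.nd (nat_lit 390) (nat_lit 76) (nat_lit 0) (XT.nd (nat_lit 156) (nat_lit 76) (nat_lit 0) (XT.nd (nat_lit 78) (nat_lit 0) (nat_lit 0) (XT.lf (nat_lit 0) (nat_lit 16759495016) (nat_lit 76) (nat_lit 18007373119) (nat_lit 76) (nat_lit 2974742607) (nat_lit 8) (nat_lit 4) (nat_lit 9) (nat_lit 5) (nat_lit 9) (nat_lit 4) (nat_lit 370) (nat_lit 231) (nat_lit 179)) (XT.lf (nat_lit 0) (nat_lit 22701384323) (nat_lit 76) (nat_lit 15615183277) (nat_lit 76) (nat_lit 462624720) (nat_lit 8) (nat_lit 4) (nat_lit 9) (nat_lit 5) (nat_lit 9) (nat_lit 4) (nat_lit 371) (nat_lit 231) (nat_lit 178))) (XT.nd (nat_lit 78) (nat_lit 0) (nat_lit 0) (XT.lf (nat_lit 0) (nat_lit 2056398735) (nat_lit 152) (nat_lit 11094504119) (nat_lit 76) (nat_lit 26697214337) (nat_lit 7) (nat_lit 5) (nat_lit 9) (nat_lit 5) (nat_lit 8) (nat_lit 4) (nat_lit 372) (nat_lit 231) (nat_lit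 177)) (XT.nd (nat_lit 78) (nat_lit 0) (nat_lit 0) (XT.lf (nat_lit 0) (nat_lit 4615486479) (nat_lit 152) (nat_lit 6012599682) (nat_lit 76) (nat_lit 30321690705) (nat_lit 7) (nat_lit 5) (nat_lit 9) (nat_lit 5) (nat_lit 8) (nat_lit 4) (nat_lit 373) (nat_lit 231) (nat_lit 176)) (XT.lf (nat_lit 0) (nat_lit 7225902083) (nat_lit 152) (nat_lit 823207156) (nat_lit 76) (nat_lit 34036158133) (nat_lit 7) (nat_lit 5) (nat_lit 9) (nat_lit 5) (nat_lit 8) (nat_lit 4) (nat_lit 374) (nat_lit 231) (nat_lit 175))))) (XT.nd (nat_lit 234) (nat_lit 0) (nat_lit 0) (XT.nd (nat_lit 78) (nat_lit 0) (nat_lit 0) (XT.lf (nat_lit 0) (nat_lit 4567332996) (nat_lit 76) (nat_lit 5366497494) (nat_lit 152) (nat_lit 33320433276) (nat_lit 6) (nat_lit 5) (nat_lit 7) (nat_lit 5) (nat_lit 8) (nat_lit 4) (nat_lit 375) (nat_lit 231) (nat_lit 174)) (XT.nd (nat_lit 78) (nat_lit 0) (nat_lit 0) (XT.lf (nat_lit 0) (nat_lit 10093233059) (nat_lit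 76) (nat_lit 2613676765) (nat_lit 152) (nat_lit 31751919517) (nat_lit 6) (nat_lit 5) (nat_lit 7) (nat_lit 5) (nat_lit 8) (nat_lit 4) (nat_lit 376) (nat_lit 231) (nat_lit 173)) (XT.lf (nat_lit 0) (nat_lit 15541448149) (nat_lit 152) (nat_lit 29959276341) (nat_lit 0) (nat_lit 199475591) (nat_lit 6) (nat_lit 5) (nat_lit 8) (nat_lit 4) (nat_lit 6) (nat_lit 4) (nat_lit 377) (nat_lit 231) (nat_lit 172)))) (XT.nd (nat_lit 78) (nat_lit 0) (nat_lit 0) (XT.lf (nat_lit 0) (nat_lit 18463730921) (nat_lit 152) (nat_lit 25487929441) (nat_lit 0) (nat_lit 3027086056) (nat_lit 6) (nat_lit 5) (nat_lit 8) (nat_lit 4) (nat_lit 6) (nat_lit 4) (nat_lit 378) (nat_lit 231) (nat_lit 171)) (XT.nd (nat_lit 78) (nat_lit 0) (nat_lit 0) (XT.lf (nat_lit 0) (nat_lit 21451187331) (nat_lit 152) (nat_lit 20922524320) (nat_lit 0) (nat_lit 5922627606) (nat_lit 6) (nat_lit 5) (nat_lit 8) (nat_lit 4) (nat_lit 6) (nat_lit 4) (nat_lit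 379) (nat_lit 231) (nat_lit 170)) (XT.lf (nat_lit 0) (nat_lit 24506427778) (nat_lit 152) (nat_lit 16259071790) (nat_lit 0) (nat_lit 8888630325) (nat_lit 6) (nat_lit 5) (nat_lit 8) (nat_lit 4) (nat_lit 6) (nat_lit 4) (nat_lit 380) (nat_lit 231) (nat_lit 169)))))) (XT.nd (nat_lit 468) (nat_lit 0) (nat_lit 0) (XT.nd (nat_lit 234) (nat_lit 76) (nat_lit 0) (XT.nd (nat_lit 78) (nat_lit 0) (nat_lit 0) (XT.lf (nat_lit 0) (nat_lit 27632121890) (nat_lit 152) (nat_lit 11493496987) (nat_lit 0) (nat_lit 11927685866) (nat_lit 6) (nat_lit 5) (nat_lit 8) (nat_lit 4) (nat_lit 6) (nat_lit 4) (nat_lit 381) (nat_lit 231) (nat_lit 168)) (XT.nd (nat_lit 78) (nat_lit 0) (nat_lit 0) (XT.lf (nat_lit 0) (nat_lit 30831000856) (nat_lit 152) (nat_lit 6621635819) (nat_lit 0) (nat_lit 15042449714) (nat_lit 6) (nat_lit 5) (nat_lit 8) (nat_lit 4) (nat_lit 6) (nat_lit 4) (nat_lit 382) (nat_lit 231) (nat_lit 167)) (XT.lf (nat_lit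 0) (nat_lit 34105859813) (nat_lit 152) (nat_lit 1639231319) (nat_lit 0) (nat_lit 18235643508) (nat_lit 6) (nat_lit 5) (nat_lit 8) (nat_lit 4) (nat_lit 6) (nat_lit 4) (nat_lit 383) (nat_lit 231) (nat_lit 166)))) (XT.nd (nat_lit 78) (nat_lit 0) (nat_lit 0) (XT.lf (nat_lit 0) (nat_lit 3526892444) (nat_lit 76) (nat_lit 33966570491) (nat_lit 76) (nat_lit 18017067621) (nat_lit 5) (nat_lit 4) (nat_lit 6) (nat_lit 5) (nat_lit 6) (nat_lit 4) (nat_lit 384) (nat_lit 231) (nat_lit 165)) (XT.nd (nat_lit 78) (nat_lit 0) (nat_lit 0) (XT.lf (nat_lit 0) (nat_lit 8847366283) (nat_lit 76) (nat_lit 32132712712) (nat_lit 76) (nat_lit 16106232593) (nat_lit 5) (nat_lit 4) (nat_lit 6) (nat_lit 5) (nat_lit 6) (nat_lit 4) (nat_lit 385) (nat_lit 231) (nat_lit 164)) (XT.lf (nat_lit 0) (nat_lit 14294215238) (nat_lit 76) (nat_lit 30258468417) (nat_lit 76) (nat_lit 14157253106) (nat_lit 5) (nat_lit 4) (nat_lit 6) (nat_lit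 5) (nat_lit 6) (nat_lit 4) (nat_lit 386) (nat_lit 231) (nat_lit 163))))) (XT.nd (nat_lit 234) (nat_lit 0) (nat_lit 0) (XT.nd (nat_lit 78) (nat_lit 0) (nat_lit 0) (XT.lf (nat_lit 0) (nat_lit 19872198691) (nat_lit 76) (nat_lit 28342199918) (nat_lit 76) (nat_lit 12168426167) (nat_lit 5) (nat_lit 4) (nat_lit 6) (nat_lit 5) (nat_lit 6) (nat_lit 4) (nat_lit 387) (nat_lit 231) (nat_lit 162)) (XT.nd (nat_lit 78) (nat_lit 0) (nat_lit 0) (XT.lf (nat_lit 0) (nat_lit 25586190608) (nat_lit 76) (nat_lit 26382232804) (nat_lit 76) (nat_lit 10138013967) (nat_lit 5) (nat_lit 4) (nat_lit 6) (nat_lit 5) (nat_lit 6) (nat_lit 4) (nat_lit 388) (nat_lit 231) (nat_lit 161)) (XT.lf (nat_lit 0) (nat_lit 31441183797) (nat_lit 76) (nat_lit 24376854484) (nat_lit 76) (nat_lit 8064242359) (nat_lit 5) (nat_lit 4) (nat_lit 6) (nat_lit 5) (nat_lit 6) (nat_lit 4) (nat_lit 389) (nat_lit 231) (nat_lit 160)))) (XT.nd (nat_lit 78)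 (nat_lit 0) (nat_lit 0) (XT.lf (nat_lit 0) (nat_lit 37442294273) (nat_lit 76) (nat_lit 22324312685) (nat_lit 76) (nat_lit 5945299309) (nat_lit 5) (nat_lit 4) (nat_lit 6) (nat_lit 5) (nat_lit 6) (nat_lit 4) (nat_lit 390) (nat_lit 231) (nat_lit 159)) (XT.nd (nat_lit 78) (nat_lit 0) (nat_lit 0) (XT.lf (nat_lit 0) (nat_lit 43594765723) (nat_lit 76) (nat_lit 20222813924) (nat_lit 76) (nat_lit 3779333314) (nat_lit 5) (nat_lit 4) (nat_lit 6) (nat_lit 5) (nat_lit 6) (nat_lit 4) (nat_lit 391) (nat_lit 231) (nat_lit 158)) (XT.lf (nat_lit 0) (nat_lit 49903974095) (nat_lit 76) (nat_lit 18070521940) (nat_lit 76) (nat_lit 1564451783) (nat_lit 5) (nat_lit 4) (nat_lit 6) (nat_lit 5) (nat_lit 6) (nat_lit 4) (nat_lit 392) (nat_lit 231) (nat_lit 157))))))))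
noncomputable def xc41 : XT := (XT.nd (nat_lit 35568) (nat_lit 0) (nat_lit 760) (XT.nd (nat_lit 34632) (nat_lit 0) (nat_lit 2204) (XT.nd (nat_lit 390) (nat_lit 0) (nat_lit 0) (XT.nd (nat_lit 156) (nat_lit 76) (nat_lit 0) (XT.nd (nat_lit 78) (nat_lit 0) (nat_lit 0) (XT.lf (nat_lit 0) (nat_lit 687596107) (nat_lit 152) (nat_lit 15171016610) (nat_lit 76) (nat_lit 55680892807) (nat_lit 4) (nat_lit 5) (nat_lit 6) (nat_lit 5) (nat_lit 5) (nat_lit 4) (nat_lit 393) (nat_lit 231) (nat_lit 156)) (XT.lf (nat_lit 0) (nat_lit 2960915629) (nat_lit 152) (nat_lit 10615174631) (nat_lit 76) (nat_lit 60023979902) (nat_lit 4) (nat_lit 5) (nat_lit 6) (nat_lit 5) (nat_lit 5) (nat_lit 4) (nat_lit 394) (nat_lit 231) (nat_lit 155))) (XT.nd (nat_lit 78) (nat_lit 76) (nat_lit 0) (XT.lf (nat_lit 0) (nat_lit 5288021267) (nat_lit 152) (nat_lit 5948428489) (nat_lit 76) (nat_lit 64486443624) (nat_lit 4) (nat_lit 5) (nat_lit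 6) (nat_lit 5) (nat_lit 5) (nat_lit 4) (nat_lit 395) (nat_lit 231) (nat_lit 154)) (XT.nd (nat_lit 78) (nat_lit 76) (nat_lit 0) (XT.lf (nat_lit 0) (nat_lit 7670946414) (nat_lit 152) (nat_lit 1166700442) (nat_lit 76) (nat_lit 69072183215) (nat_lit 4) (nat_lit 5) (nat_lit 6) (nat_lit 5) (nat_lit 5) (nat_lit 4) (nat_lit 396) (nat_lit 231) (nat_lit 153)) (XT.lf (nat_lit 0) (nat_lit 3808505374) (nat_lit 76) (nat_lit 6339877547) (nat_lit 152) (nat_lit 70013309940) (nat_lit 3) (nat_lit 5) (nat_lit 4) (nat_lit 5) (nat_lit 5) (nat_lit 4) (nat_lit 397) (nat_lit 231) (nat_lit 152))))) (XT.nd (nat_lit 234) (nat_lit 0) (nat_lit 0) (XT.nd (nat_lit 78) (nat_lit 0) (nat_lit 0) (XT.lf (nat_lit 0) (nat_lit 8932830006) (nat_lit 76) (nat_lit 3765672320) (nat_lit 152) (nat_lit 69782666867) (nat_lit 3) (nat_lit 5) (nat_lit 4) (nat_lit 5) (nat_lit 5) (nat_lit 4) (nat_lit 398) (nat_lit 231) (nat_lit 151)) (XT.nd (nat_lit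 78) (nat_lit 0) (nat_lit 0) (XT.lf (nat_lit 0) (nat_lit 14187531393) (nat_lit 76) (nat_lit 1124563256) (nat_lit 152) (nat_lit 69558534292) (nat_lit 3) (nat_lit 5) (nat_lit 4) (nat_lit 5) (nat_lit 5) (nat_lit 4) (nat_lit 399) (nat_lit 231) (nat_lit 150)) (XT.lf (nat_lit 0) (nat_lit 18006686882) (nat_lit 152) (nat_lit 67770202233) (nat_lit 0) (nat_lit 1554813569) (nat_lit 3) (nat_lit 5) (nat_lit 5) (nat_lit 4) (nat_lit 3) (nat_lit 4) (nat_lit 400) (nat_lit 231) (nat_lit 149)))) (XT.nd (nat_lit 78) (nat_lit 0) (nat_lit 0) (XT.lf (nat_lit 0) (nat_lit 20780874992) (nat_lit 152) (nat_lit 64803349463) (nat_lit 0) (nat_lit 4282429178) (nat_lit 3) (nat_lit 5) (nat_lit 5) (nat_lit 4) (nat_lit 3) (nat_lit 4) (nat_lit 401) (nat_lit 231) (nat_lit 148)) (XT.nd (nat_lit 78) (nat_lit 0) (nat_lit 0) (XT.lf (nat_lit 0) (nat_lit 23626273037) (nat_lit 152) (nat_lit 61769136851) (nat_lit 0) (nat_lit 7082611202) (nat_lit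 3) (nat_lit 5) (nat_lit 5) (nat_lit 4) (nat_lit 3) (nat_lit 4) (nat_lit 402) (nat_lit 231) (nat_lit 147)) (XT.lf (nat_lit 0) (nat_lit 26545367288) (nat_lit 152) (nat_lit 58664913144) (nat_lit 0) (nat_lit 9957806403) (nat_lit 3) (nat_lit 5) (nat_lit 5) (nat_lit 4) (nat_lit 3) (nat_lit 4) (nat_lit 403) (nat_lit 231) (nat_lit 146)))))) (XT.nd (nat_lit 468) (nat_lit 760) (nat_lit 0) (XT.nd (nat_lit 234) (nat_lit 304) (nat_lit 0) (XT.nd (nat_lit 78) (nat_lit 304) (nat_lit 0) (XT.lf (nat_lit 0) (nat_lit 1021127679) (nat_lit 228) (nat_lit 2191229457) (nat_lit 228) (nat_lit 2191229457) (nat_lit 50) (nat_lit 4) (nat_lit 53) (nat_lit 5) (nat_lit 53) (nat_lit 4) (nat_lit 316) (nat_lit 232) (nat_lit 232)) (XT.nd (nat_lit 78) (nat_lit 304) (nat_lit 0) (XT.lf (nat_lit 0) (nat_lit 8468428315) (nat_lit 228) (nat_lit 1639217250) (nat_lit 228) (nat_lit 889618791) (nat_lit 50) (nat_lit 4) (nat_lit 53) (nat_lit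 5) (nat_lit 53) (nat_lit 4) (nat_lit 317) (nat_lit 232) (nat_lit 231)) (XT.lf (nat_lit 0) (nat_lit 2620200184) (nat_lit 304) (nat_lit 7387377150) (nat_lit 0) (nat_lit 1185866249) (nat_lit 46) (nat_lit 5) (nat_lit 50) (nat_lit 4) (nat_lit 46) (nat_lit 4) (nat_lit 318) (nat_lit 232) (nat_lit 230)))) (XT.nd (nat_lit 78) (nat_lit 304) (nat_lit 0) (XT.lf (nat_lit 0) (nat_lit 6177001059) (nat_lit 304) (nat_lit 1162891444) (nat_lit 0) (nat_lit 4056678346) (nat_lit 46) (nat_lit 5) (nat_lit 50) (nat_lit 4) (nat_lit 46) (nat_lit 4) (nat_lit 319) (nat_lit 232) (nat_lit 229)) (XT.nd (nat_lit 78) (nat_lit 76) (nat_lit 0) (XT.lf (nat_lit 0) (nat_lit 5228300176) (nat_lit 228) (nat_lit 4582413685) (nat_lit 228) (nat_lit 1796082451) (nat_lit 43) (nat_lit 4) (nat_lit 46) (nat_lit 5) (nat_lit 46) (nat_lit 4) (nat_lit 320) (nat_lit 232) (nat_lit 228)) (XT.lf (nat_lit 0) (nat_lit 1628441837) (nat_lit 304) (nat_lit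 127204520) (nat_lit 76) (nat_lit 10069324735) (nat_lit 42) (nat_lit 5) (nat_lit 46) (nat_lit 5) (nat_lit 43) (nat_lit 4) (nat_lit 321) (nat_lit 232) (nat_lit 227))))) (XT.nd (nat_lit 234) (nat_lit 380) (nat_lit 0) (XT.nd (nat_lit 78) (nat_lit 228) (nat_lit 0) (XT.lf (nat_lit 0) (nat_lit 5114185011) (nat_lit 228) (nat_lit 5763496363) (nat_lit 0) (nat_lit 1171740003) (nat_lit 40) (nat_lit 5) (nat_lit 43) (nat_lit 4) (nat_lit 40) (nat_lit 4) (nat_lit 322) (nat_lit 232) (nat_lit 226)) (XT.nd (nat_lit 78) (nat_lit 0) (nat_lit 0) (XT.lf (nat_lit 0) (nat_lit 485773119) (nat_lit 228) (nat_lit 8165358182) (nat_lit 228) (nat_lit 3631173228) (nat_lit 37) (nat_lit 4) (nat_lit 40) (nat_lit 5) (nat_lit 40) (nat_lit 4) (nat_lit 323) (nat_lit 232) (nat_lit 225)) (XT.lf (nat_lit 0) (nat_lit 6922041147) (nat_lit 228) (nat_lit 5354720467) (nat_lit 228) (nat_lit 246030712) (nat_lit 37) (nat_lit 4) (nat_lit 40) (nat_lit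 5) (nat_lit 40) (nat_lit 4) (nat_lit 324) (nat_lit 232) (nat_lit 224)))) (XT.nd (nat_lit 78) (nat_lit 152) (nat_lit 0) (XT.lf (nat_lit 0) (nat_lit 645611490) (nat_lit 152) (nat_lit 2463784025) (nat_lit 228) (nat_lit 9662295652) (nat_lit 34) (nat_lit 5) (nat_lit 36) (nat_lit 5) (nat_lit 37) (nat_lit 4) (nat_lit 325) (nat_lit 232) (nat_lit 223)) (XT.nd (nat_lit 78) (nat_lit 152) (nat_lit 0) (XT.lf (nat_lit 0) (nat_lit 6548999893) (nat_lit 228) (nat_lit 5957589740) (nat_lit 0) (nat_lit 521827774) (nat_lit 34) (nat_lit 5) (nat_lit 37) (nat_lit 4) (nat_lit 34) (nat_lit 4) (nat_lit 326) (nat_lit 232) (nat_lit 222)) (XT.lf (nat_lit 0) (nat_lit 262638673) (nat_lit 152) (nat_lit 9784619876) (nat_lit 152) (nat_lit 3247007682) (nat_lit 32) (nat_lit 4) (nat_lit 34) (nat_lit 5) (nat_lit 34) (nat_lit 4) (nat_lit 327) (nat_lit 232) (nat_lit 221))))))) (XT.nd (nat_lit 936) (nat_lit 608) (nat_lit 0) (XT.nd (nat_lit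 468) (nat_lit 380) (nat_lit 0) (XT.nd (nat_lit 234) (nat_lit 228) (nat_lit 0) (XT.nd (nat_lit 78) (nat_lit 152) (nat_lit 0) (XT.lf (nat_lit 0) (nat_lit 70287541) (nat_lit 228) (nat_lit 6890501373) (nat_lit 76) (nat_lit 6607672146) (nat_lit 31) (nat_lit 5) (nat_lit 34) (nat_lit 5) (nat_lit 32) (nat_lit 4) (nat_lit 328) (nat_lit 232) (nat_lit 220)) (XT.nd (nat_lit 78) (nat_lit 152) (nat_lit 0) (XT.lf (nat_lit 0) (nat_lit 3352679689) (nat_lit 228) (nat_lit 708384038) (nat_lit 76) (nat_lit 9791005943) (nat_lit 31) (nat_lit 5) (nat_lit 34) (nat_lit 5) (nat_lit 32) (nat_lit 4) (nat_lit 329) (nat_lit 232) (nat_lit 219)) (XT.lf (nat_lit 0) (nat_lit 5661821042) (nat_lit 152) (nat_lit 1059001533) (nat_lit 228) (nat_lit 7423820921) (nat_lit 29) (nat_lit 5) (nat_lit 31) (nat_lit 5) (nat_lit 32) (nat_lit 4) (nat_lit 330) (nat_lit 232) (nat_lit 218)))) (XT.nd (nat_lit 78) (nat_lit 228) (nat_lit 0) (XT.lf (nat_lit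 0) (nat_lit 10150170517) (nat_lit 228) (nat_lit 2336211307) (nat_lit 0) (nat_lit 1960881020) (nat_lit 29) (nat_lit 5) (nat_lit 32) (nat_lit 4) (nat_lit 29) (nat_lit 4) (nat_lit 331) (nat_lit 232) (nat_lit 217)) (XT.nd (nat_lit 78) (nat_lit 76) (nat_lit 0) (XT.lf (nat_lit 0) (nat_lit 3956201707) (nat_lit 152) (nat_lit 9710044831) (nat_lit 152) (nat_lit 1093269807) (nat_lit 27) (nat_lit 4) (nat_lit 29) (nat_lit 5) (nat_lit 29) (nat_lit 4) (nat_lit 332) (nat_lit 232) (nat_lit 216)) (XT.lf (nat_lit 0) (nat_lit 2122947118) (nat_lit 228) (nat_lit 4722226866) (nat_lit 76) (nat_lit 8236613846) (nat_lit 26) (nat_lit 5) (nat_lit 29) (nat_lit 5) (nat_lit 27) (nat_lit 4) (nat_lit 333) (nat_lit 232) (nat_lit 215))))) (XT.nd (nat_lit 234) (nat_lit 228) (nat_lit 0) (XT.nd (nat_lit 78) (nat_lit 0) (nat_lit 0) (XT.lf (nat_lit 0) (nat_lit 1456335108) (nat_lit 152) (nat_lit 3908734218) (nat_lit 228) (nat_lit 10049856602)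 (nat_lit 24) (nat_lit 5) (nat_lit 26) (nat_lit 5) (nat_lit 27) (nat_lit 4) (nat_lit 334) (nat_lit 232) (nat_lit 214)) (XT.nd (nat_lit 78) (nat_lit 0) (nat_lit 0) (XT.lf (nat_lit 0) (nat_lit 7815508057) (nat_lit 152) (nat_lit 874872975) (nat_lit 228) (nat_lit 7068162446) (nat_lit 24) (nat_lit 5) (nat_lit 26) (nat_lit 5) (nat_lit 27) (nat_lit 4) (nat_lit 335) (nat_lit 232) (nat_lit 213)) (XT.lf (nat_lit 0) (nat_lit 12076748601) (nat_lit 228) (nat_lit 1868719747) (nat_lit 0) (nat_lit 2168223559) (nat_lit 24) (nat_lit 5) (nat_lit 27) (nat_lit 4) (nat_lit 24) (nat_lit 4) (nat_lit 336) (nat_lit 232) (nat_lit 212)))) (XT.nd (nat_lit 78) (nat_lit 76) (nat_lit 0) (XT.lf (nat_lit 0) (nat_lit 4367220409) (nat_lit 152) (nat_lit 11189554623) (nat_lit 152) (nat_lit 923017183) (nat_lit 22) (nat_lit 4) (nat_lit 24) (nat_lit 5) (nat_lit 24) (nat_lit 4) (nat_lit 337) (nat_lit 232) (nat_lit 211)) (XT.nd (nat_lit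 78) (nat_lit 0) (nat_lit 0) (XT.lf (nat_lit 0) (nat_lit 2200386265) (nat_lit 228) (nat_lit 6147338175) (nat_lit 76) (nat_lit 8509729343) (nat_lit 21) (nat_lit 5) (nat_lit 24) (nat_lit 5) (nat_lit 22) (nat_lit 4) (nat_lit 338) (nat_lit 232) (nat_lit 210)) (XT.lf (nat_lit 0) (nat_lit 5342219446) (nat_lit 228) (nat_lit 106877838) (nat_lit 76) (nat_lit 11798829784) (nat_lit 21) (nat_lit 5) (nat_lit 24) (nat_lit 5) (nat_lit 22) (nat_lit 4) (nat_lit 339) (nat_lit 232) (nat_lit 209)))))) (XT.nd (nat_lit 468) (nat_lit 304) (nat_lit 0) (XT.nd (nat_lit 234) (nat_lit 76) (nat_lit 0) (XT.nd (nat_lit 78) (nat_lit 152) (nat_lit 0) (XT.lf (nat_lit 0) (nat_lit 6142828591) (nat_lit 76) (nat_lit 2439459077) (nat_lit 152) (nat_lit 9067760317) (nat_lit 20) (nat_lit 5) (nat_lit 21) (nat_lit 5) (nat_lit 22) (nat_lit 4) (nat_lit 340) (nat_lit 232) (nat_lit 208)) (XT.nd (nat_lit 78) (nat_lit 152) (nat_lit 0) (XT.lf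 (nat_lit 0) (nat_lit 11872306134) (nat_lit 152) (nat_lit 5580608287) (nat_lit 0) (nat_lit 612786954) (nat_lit 20) (nat_lit 5) (nat_lit 22) (nat_lit 4) (nat_lit 20) (nat_lit 4) (nat_lit 341) (nat_lit 232) (nat_lit 207)) (XT.lf (nat_lit 0) (nat_lit 418230904) (nat_lit 152) (nat_lit 14817869959) (nat_lit 152) (nat_lit 3258521031) (nat_lit 18) (nat_lit 4) (nat_lit 20) (nat_lit 5) (nat_lit 20) (nat_lit 4) (nat_lit 342) (nat_lit 232) (nat_lit 206)))) (XT.nd (nat_lit 78) (nat_lit 76) (nat_lit 0) (XT.lf (nat_lit 0) (nat_lit 6622732110) (nat_lit 152) (nat_lit 12082026777) (nat_lit 152) (nat_lit 231581007) (nat_lit 18) (nat_lit 4) (nat_lit 20) (nat_lit 5) (nat_lit 20) (nat_lit 4) (nat_lit 343) (nat_lit 232) (nat_lit 205)) (XT.nd (nat_lit 78) (nat_lit 0) (nat_lit 0) (XT.lf (nat_lit 0) (nat_lit 2778420512) (nat_lit 228) (nat_lit 6492870423) (nat_lit 76) (nat_lit 10120774580) (nat_lit 17) (nat_lit 5) (nat_lit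 20) (nat_lit 5) (nat_lit 18) (nat_lit 4) (nat_lit 344) (nat_lit 232) (nat_lit 204)) (XT.lf (nat_lit 0) (nat_lit 5824138222) (nat_lit 228) (nat_lit 584450166) (nat_lit 76) (nat_lit 13454347856) (nat_lit 17) (nat_lit 5) (nat_lit 20) (nat_lit 5) (nat_lit 18) (nat_lit 4) (nat_lit 345) (nat_lit 232) (nat_lit 203))))) (XT.nd (nat_lit 234) (nat_lit 228) (nat_lit 0) (XT.nd (nat_lit 78) (nat_lit 0) (nat_lit 0) (XT.lf (nat_lit 0) (nat_lit 5526891338) (nat_lit 76) (nat_lit 3438988929) (nat_lit 152) (nat_lit 11381956200) (nat_lit 16) (nat_lit 5) (nat_lit 17) (nat_lit 5) (nat_lit 18) (nat_lit 4) (nat_lit 346) (nat_lit 232) (nat_lit 202)) (XT.nd (nat_lit 78) (nat_lit 0) (nat_lit 0) (XT.lf (nat_lit 0) (nat_lit 11752178520) (nat_lit 76) (nat_lit 407752464) (nat_lit 152) (nat_lit 8688652725) (nat_lit 16) (nat_lit 5) (nat_lit 17) (nat_lit 5) (nat_lit 18) (nat_lit 4) (nat_lit 347) (nat_lit 232) (nat_lit 201)) (XT.lf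 (nat_lit 0) (nat_lit 15429131143) (nat_lit 152) (nat_lit 3306347922) (nat_lit 0) (nat_lit 2629534957) (nat_lit 16) (nat_lit 5) (nat_lit 18) (nat_lit 4) (nat_lit 16) (nat_lit 4) (nat_lit 348) (nat_lit 232) (nat_lit 200)))) (XT.nd (nat_lit 78) (nat_lit 76) (nat_lit 0) (XT.lf (nat_lit 0) (nat_lit 2626840609) (nat_lit 152) (nat_lit 16153451974) (nat_lit 152) (nat_lit 3117167416) (nat_lit 14) (nat_lit 4) (nat_lit 16) (nat_lit 5) (nat_lit 16) (nat_lit 4) (nat_lit 349) (nat_lit 232) (nat_lit 199)) (XT.nd (nat_lit 78) (nat_lit 76) (nat_lit 0) (XT.lf (nat_lit 0) (nat_lit 8728771936) (nat_lit 152) (nat_lit 13491783835) (nat_lit 152) (nat_lit 225704742) (nat_lit 14) (nat_lit 4) (nat_lit 16) (nat_lit 5) (nat_lit 16) (nat_lit 4) (nat_lit 350) (nat_lit 232) (nat_lit 198)) (XT.lf (nat_lit 0) (nat_lit 2654808143) (nat_lit 228) (nat_lit 8099920052) (nat_lit 76) (nat_lit 12257358537) (nat_lit 13) (nat_lit 5) (nat_lit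 16) (nat_lit 5) (nat_lit 14) (nat_lit 4) (nat_lit 351) (nat_lit 232) (nat_lit 197))))))))
noncomputable def xc42 : XT := (XT.nd (nat_lit 1794) (nat_lit 228) (nat_lit 0) (XT.nd (nat_lit 858) (nat_lit 152) (nat_lit 0) (XT.nd (nat_lit 390) (nat_lit 228) (nat_lit 0) (XT.nd (nat_lit 156) (nat_lit 0) (nat_lit 0) (XT.nd (nat_lit 78) (nat_lit 76) (nat_lit 0) (XT.lf (nat_lit 0) (nat_lit 5574498573) (nat_lit 228) (nat_lit 2389551869) (nat_lit 76) (nat_lit 15632086225) (nat_lit 13) (nat_lit 5) (nat_lit 16) (nat_lit 5) (nat_lit 14) (nat_lit 4) (nat_lit 352) (nat_lit 232) (nat_lit 196)) (XT.lf (nat_lit 0) (nat_lit 3488855360) (nat_lit 76) (nat_lit 5085003696) (nat_lit 152) (nat_lit 15624120572) (nat_lit 12) (nat_lit 5) (nat_lit 13) (nat_lit 5) (nat_lit 14) (nat_lit 4) (nat_lit 353) (nat_lit 232) (nat_lit 195))) (XT.nd (nat_lit 78) (nat_lit 0) (nat_lit 0) (XT.lf (nat_lit 0) (nat_lit 9521945674) (nat_lit 76)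 (nat_lit 2124455147) (nat_lit 152) (nat_lit 13172013968) (nat_lit 12) (nat_lit 5) (nat_lit 13) (nat_lit 5) (nat_lit 14) (nat_lit 4) (nat_lit 354) (nat_lit 232) (nat_lit 194)) (XT.nd (nat_lit 78) (nat_lit 0) (nat_lit 0) (XT.lf (nat_lit 0) (nat_lit 14779995036) (nat_lit 152) (nat_lit 9799866550) (nat_lit 0) (nat_lit 878567096) (nat_lit 12) (nat_lit 5) (nat_lit 14) (nat_lit 4) (nat_lit 12) (nat_lit 4) (nat_lit 355) (nat_lit 232) (nat_lit 193)) (XT.lf (nat_lit 0) (nat_lit 17989782158) (nat_lit 152) (nat_lit 4226916083) (nat_lit 0) (nat_lit 3901510231) (nat_lit 12) (nat_lit 5) (nat_lit 14) (nat_lit 4) (nat_lit 12) (nat_lit 4) (nat_lit 356) (nat_lit 232) (nat_lit 192))))) (XT.nd (nat_lit 234) (nat_lit 152) (nat_lit 0) (XT.nd (nat_lit 78) (nat_lit 0) (nat_lit 0) (XT.lf (nat_lit 0) (nat_lit 1476484956) (nat_lit 76) (nat_lit 19795853213) (nat_lit 76) (nat_lit 5526179358) (nat_lit 11) (nat_lit 4) (nat_lit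 12) (nat_lit 5) (nat_lit 12) (nat_lit 4) (nat_lit 357) (nat_lit 232) (nat_lit 191)) (XT.nd (nat_lit 78) (nat_lit 0) (nat_lit 0) (XT.lf (nat_lit 0) (nat_lit 7372728824) (nat_lit 76) (nat_lit 17286082647) (nat_lit 76) (nat_lit 2840290416) (nat_lit 11) (nat_lit 4) (nat_lit 12) (nat_lit 5) (nat_lit 12) (nat_lit 4) (nat_lit 358) (nat_lit 232) (nat_lit 190)) (XT.lf (nat_lit 0) (nat_lit 13382843660) (nat_lit 76) (nat_lit 14727877106) (nat_lit 76) (nat_lit 111096159) (nat_lit 11) (nat_lit 4) (nat_lit 12) (nat_lit 5) (nat_lit 12) (nat_lit 4) (nat_lit 359) (nat_lit 232) (nat_lit 189)))) (XT.nd (nat_lit 78) (nat_lit 76) (nat_lit 0) (XT.lf (nat_lit 0) (nat_lit 2611808044) (nat_lit 152) (nat_lit 9480819078) (nat_lit 76) (nat_lit 16873898835) (nat_lit 10) (nat_lit 5) (nat_lit 12) (nat_lit 5) (nat_lit 11) (nat_lit 4) (nat_lit 360) (nat_lit 232) (nat_lit 188)) (XT.nd (nat_lit 78) (nat_lit 76) (nat_lit 0) (XT.lf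 (nat_lit 0) (nat_lit 5379720174) (nat_lit 152) (nat_lit 4023130719) (nat_lit 76) (nat_lit 20331751749) (nat_lit 10) (nat_lit 5) (nat_lit 12) (nat_lit 5) (nat_lit 11) (nat_lit 4) (nat_lit 361) (nat_lit 232) (nat_lit 187)) (XT.lf (nat_lit 0) (nat_lit 1570576190) (nat_lit 76) (nat_lit 6641747829) (nat_lit 152) (nat_lit 22313973208) (nat_lit 9) (nat_lit 5) (nat_lit 10) (nat_lit 5) (nat_lit 11) (nat_lit 4) (nat_lit 362) (nat_lit 232) (nat_lit 186)))))) (XT.nd (nat_lit 468) (nat_lit 76) (nat_lit 0) (XT.nd (nat_lit 234) (nat_lit 76) (nat_lit 0) (XT.nd (nat_lit 78) (nat_lit 0) (nat_lit 0) (XT.lf (nat_lit 0) (nat_lit 7356776997) (nat_lit 76) (nat_lit 3780730305) (nat_lit 152) (nat_lit 20204031807) (nat_lit 9) (nat_lit 5) (nat_lit 10) (nat_lit 5) (nat_lit 11) (nat_lit 4) (nat_lit 363) (nat_lit 232) (nat_lit 185)) (XT.nd (nat_lit 78) (nat_lit 0) (nat_lit 0) (XT.lf (nat_lit 0) (nat_lit 13260459415) (nat_lit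 76) (nat_lit 857924137) (nat_lit 152) (nat_lit 18063840356) (nat_lit 9) (nat_lit 5) (nat_lit 10) (nat_lit 5) (nat_lit 11) (nat_lit 4) (nat_lit 364) (nat_lit 232) (nat_lit 184)) (XT.lf (nat_lit 0) (nat_lit 17178024825) (nat_lit 152) (nat_lit 13782771610) (nat_lit 0) (nat_lit 2087675744) (nat_lit 9) (nat_lit 5) (nat_lit 11) (nat_lit 4) (nat_lit 9) (nat_lit 4) (nat_lit 365) (nat_lit 232) (nat_lit 183)))) (XT.nd (nat_lit 78) (nat_lit 76) (nat_lit 0) (XT.lf (nat_lit 0) (nat_lit 20307509784) (nat_lit 152) (nat_lit 8551698269) (nat_lit 0) (nat_lit 5082180632) (nat_lit 9) (nat_lit 5) (nat_lit 11) (nat_lit 4) (nat_lit 9) (nat_lit 4) (nat_lit 366) (nat_lit 232) (nat_lit 182)) (XT.nd (nat_lit 78) (nat_lit 76) (nat_lit 0) (XT.lf (nat_lit 0) (nat_lit 23501326038) (nat_lit 152) (nat_lit 3215726739) (nat_lit 0) (nat_lit 8144948273) (nat_lit 9) (nat_lit 5) (nat_lit 11) (nat_lit 4) (nat_lit 9) (nat_lit 4) (nat_lit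 367) (nat_lit 232) (nat_lit 181)) (XT.lf (nat_lit 0) (nat_lit 2274182981) (nat_lit 76) (nat_lit 24509942156) (nat_lit 76) (nat_lit 9026332729) (nat_lit 8) (nat_lit 4) (nat_lit 9) (nat_lit 5) (nat_lit 9) (nat_lit 4) (nat_lit 368) (nat_lit 232) (nat_lit 180))))) (XT.nd (nat_lit 234) (nat_lit 76) (nat_lit 0) (XT.nd (nat_lit 78) (nat_lit 0) (nat_lit 0) (XT.lf (nat_lit 0) (nat_lit 7944686061) (nat_lit 76) (nat_lit 22224857055) (nat_lit 76) (nat_lit 6617721741) (nat_lit 8) (nat_lit 4) (nat_lit 9) (nat_lit 5) (nat_lit 9) (nat_lit 4) (nat_lit 369) (nat_lit 232) (nat_lit 179)) (XT.nd (nat_lit 78) (nat_lit 0) (nat_lit 0) (XT.lf (nat_lit 0) (nat_lit 13736738041) (nat_lit 76) (nat_lit 19892273330) (nat_lit 76) (nat_lit 4165209972) (nat_lit 8) (nat_lit 4) (nat_lit 9) (nat_lit 5) (nat_lit 9) (nat_lit 4) (nat_lit 370) (nat_lit 232) (nat_lit 178)) (XT.lf (nat_lit 0) (nat_lit 19655399939) (nat_lit 76) (nat_lit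 17510152803) (nat_lit 76) (nat_lit 1666654450) (nat_lit 8) (nat_lit 4) (nat_lit 9) (nat_lit 5) (nat_lit 9) (nat_lit 4) (nat_lit 371) (nat_lit 232) (nat_lit 177)))) (XT.nd (nat_lit 78) (nat_lit 0) (nat_lit 0) (XT.lf (nat_lit 0) (nat_lit 862953559) (nat_lit 152) (nat_lit 14204746311) (nat_lit 76) (nat_lit 24834175700) (nat_lit 7) (nat_lit 5) (nat_lit 9) (nat_lit 5) (nat_lit 8) (nat_lit 4) (nat_lit 372) (nat_lit 232) (nat_lit 176)) (XT.nd (nat_lit 78) (nat_lit 0) (nat_lit 0) (XT.lf (nat_lit 0) (nat_lit 3409506933) (nat_lit 152) (nat_lit 9144994112) (nat_lit 76) (nat_lit 28449418949) (nat_lit 7) (nat_lit 5) (nat_lit 9) (nat_lit 5) (nat_lit 8) (nat_lit 4) (nat_lit 373) (nat_lit 232) (nat_lit 175)) (XT.lf (nat_lit 0) (nat_lit 6007753245) (nat_lit 152) (nat_lit 3977108614) (nat_lit 76) (nat_lit 32154922185) (nat_lit 7) (nat_lit 5) (nat_lit 9) (nat_lit 5) (nat_lit 8) (nat_lit 4) (nat_lit 374) (nat_lit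 232) (nat_lit 174))))))) (XT.nd (nat_lit 858) (nat_lit 76) (nat_lit 0) (XT.nd (nat_lit 390) (nat_lit 76) (nat_lit 0) (XT.nd (nat_lit 156) (nat_lit 0) (nat_lit 0) (XT.nd (nat_lit 78) (nat_lit 0) (nat_lit 0) (XT.lf (nat_lit 0) (nat_lit 1329366541) (nat_lit 76) (nat_lit 7343374950) (nat_lit 152) (nat_lit 34637335369) (nat_lit 6) (nat_lit 5) (nat_lit 7) (nat_lit 5) (nat_lit 8) (nat_lit 4) (nat_lit 375) (nat_lit 232) (nat_lit 173)) (XT.lf (nat_lit 0) (nat_lit 6834590707) (nat_lit 76) (nat_lit 4599560644) (nat_lit 152) (nat_lit 33080849146) (nat_lit 6) (nat_lit 5) (nat_lit 7) (nat_lit 5) (nat_lit 8) (nat_lit 4) (nat_lit 376) (nat_lit 232) (nat_lit 172))) (XT.nd (nat_lit 78) (nat_lit 0) (nat_lit 0) (XT.lf (nat_lit 0) (nat_lit 12464222013) (nat_lit 76) (nat_lit 1791182432) (nat_lit 152) (nat_lit 31501373095) (nat_lit 6) (nat_lit 5) (nat_lit 7) (nat_lit 5) (nat_lit 8) (nat_lit 4) (nat_lit 377) (nat_lit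 232) (nat_lit 171)) (XT.nd (nat_lit 78) (nat_lit 0) (nat_lit 0) (XT.lf (nat_lit 0) (nat_lit 17149388071) (nat_lit 152) (nat_lit 28823735605) (nat_lit 0) (nat_lit 1063056695) (nat_lit 6) (nat_lit 5) (nat_lit 8) (nat_lit 4) (nat_lit 6) (nat_lit 4) (nat_lit 378) (nat_lit 232) (nat_lit 170)) (XT.lf (nat_lit 0) (nat_lit 20126086031) (nat_lit 152) (nat_lit 24277500309) (nat_lit 0) (nat_lit 3950516926) (nat_lit 6) (nat_lit 5) (nat_lit 8) (nat_lit 4) (nat_lit 6) (nat_lit 4) (nat_lit 379) (nat_lit 232) (nat_lit 169))))) (XT.nd (nat_lit 234) (nat_lit 76) (nat_lit 0) (XT.nd (nat_lit 78) (nat_lit 0) (nat_lit 0) (XT.lf (nat_lit 0) (nat_lit 23170881380) (nat_lit 152) (nat_lit 19632659258) (nat_lit 0) (nat_lit 6908673704) (nat_lit 6) (nat_lit 5) (nat_lit 8) (nat_lit 4) (nat_lit 6) (nat_lit 4) (nat_lit 380) (nat_lit 232) (nat_lit 168)) (XT.nd (nat_lit 78) (nat_lit 0) (nat_lit 0) (XT.lf (nat_lit 0) (nat_lit 26286434621)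 (nat_lit 152) (nat_lit 14885153854) (nat_lit 0) (nat_lit 9940111827) (nat_lit 6) (nat_lit 5) (nat_lit 8) (nat_lit 4) (nat_lit 6) (nat_lit 4) (nat_lit 381) (nat_lit 232) (nat_lit 167)) (XT.lf (nat_lit 0) (nat_lit 29475468080) (nat_lit 152) (nat_lit 10030835791) (nat_lit 0) (nat_lit 13047480124) (nat_lit 6) (nat_lit 5) (nat_lit 8) (nat_lit 4) (nat_lit 6) (nat_lit 4) (nat_lit 382) (nat_lit 232) (nat_lit 166)))) (XT.nd (nat_lit 78) (nat_lit 76) (nat_lit 0) (XT.lf (nat_lit 0) (nat_lit 32740768293) (nat_lit 152) (nat_lit 5065463432) (nat_lit 0) (nat_lit 16233493771) (nat_lit 6) (nat_lit 5) (nat_lit 8) (nat_lit 4) (nat_lit 6) (nat_lit 4) (nat_lit 383) (nat_lit 232) (nat_lit 165)) (XT.nd (nat_lit 78) (nat_lit 0) (nat_lit 0) (XT.lf (nat_lit 0) (nat_lit 15606435) (nat_lit 76) (nat_lit 36069732016) (nat_lit 76) (nat_lit 19485480246) (nat_lit 5) (nat_lit 4) (nat_lit 6) (nat_lit 5) (nat_lit 6) (nat_lit 4)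 (nat_lit 384) (nat_lit 232) (nat_lit 164)) (XT.lf (nat_lit 0) (nat_lit 5319706334) (nat_lit 76) (nat_lit 34243080748) (nat_lit 76) (nat_lit 17584093785) (nat_lit 5) (nat_lit 4) (nat_lit 6) (nat_lit 5) (nat_lit 6) (nat_lit 4) (nat_lit 385) (nat_lit 232) (nat_lit 163)))))) (XT.nd (nat_lit 468) (nat_lit 76) (nat_lit 0) (XT.nd (nat_lit 234) (nat_lit 0) (nat_lit 0) (XT.nd (nat_lit 78) (nat_lit 0) (nat_lit 0) (XT.lf (nat_lit 0) (nat_lit 10750658259) (nat_lit 76) (nat_lit 32375833067) (nat_lit 76) (nat_lit 15644287664) (nat_lit 5) (nat_lit 4) (nat_lit 6) (nat_lit 5) (nat_lit 6) (nat_lit 4) (nat_lit 386) (nat_lit 232) (nat_lit 162)) (XT.nd (nat_lit 78) (nat_lit 0) (nat_lit 0) (XT.lf (nat_lit 0) (nat_lit 16313207702) (nat_lit 76) (nat_lit 30466357395) (nat_lit 76) (nat_lit 13664366906) (nat_lit 5) (nat_lit 4) (nat_lit 6) (nat_lit 5) (nat_lit 6) (nat_lit 4) (nat_lit 387) (nat_lit 232) (nat_lit 161)) (XT.lf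 (nat_lit 0) (nat_lit 22012215144) (nat_lit 76) (nat_lit 28512985261) (nat_lit 76) (nat_lit 11642601483) (nat_lit 5) (nat_lit 4) (nat_lit 6) (nat_lit 5) (nat_lit 6) (nat_lit 4) (nat_lit 388) (nat_lit 232) (nat_lit 160)))) (XT.nd (nat_lit 78) (nat_lit 0) (nat_lit 0) (XT.lf (nat_lit 0) (nat_lit 27852660299) (nat_lit 76) (nat_lit 26514009832) (nat_lit 76) (nat_lit 9577224804) (nat_lit 5) (nat_lit 4) (nat_lit 6) (nat_lit 5) (nat_lit 6) (nat_lit 4) (nat_lit 389) (nat_lit 232) (nat_lit 159)) (XT.nd (nat_lit 78) (nat_lit 0) (nat_lit 0) (XT.lf (nat_lit 0) (nat_lit 33839646469) (nat_lit 76) (nat_lit 24467684433) (nat_lit 76) (nat_lit 7466432172) (nat_lit 5) (nat_lit 4) (nat_lit 6) (nat_lit 5) (nat_lit 6) (nat_lit 4) (nat_lit 390) (nat_lit 232) (nat_lit 158)) (XT.lf (nat_lit 0) (nat_lit 39978405002) (nat_lit 76) (nat_lit 22372221012) (nat_lit 76) (nat_lit 5308379203) (nat_lit 5) (nat_lit 4) (nat_lit 6)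 (nat_lit 5) (nat_lit 6) (nat_lit 4) (nat_lit 391) (nat_lit 232) (nat_lit 157))))) (XT.nd (nat_lit 234) (nat_lit 0) (nat_lit 0) (XT.nd (nat_lit 78) (nat_lit 76) (nat_lit 0) (XT.lf (nat_lit 0) (nat_lit 46274299861) (nat_lit 76) (nat_lit 20225788581) (nat_lit 76) (nat_lit 3101180221) (nat_lit 5) (nat_lit 4) (nat_lit 6) (nat_lit 5) (nat_lit 6) (nat_lit 4) (nat_lit 392) (nat_lit 232) (nat_lit 156)) (XT.nd (nat_lit 78) (nat_lit 76) (nat_lit 0) (XT.lf (nat_lit 0) (nat_lit 52732832314) (nat_lit 76) (nat_lit 18026511617) (nat_lit 76) (nat_lit 842906606) (nat_lit 5) (nat_lit 4) (nat_lit 6) (nat_lit 5) (nat_lit 6) (nat_lit 4) (nat_lit 393) (nat_lit 232) (nat_lit 155)) (XT.lf (nat_lit 0) (nat_lit 1439760828) (nat_lit 152) (nat_lit 14318168831) (nat_lit 76) (nat_lit 57905346148) (nat_lit 4) (nat_lit 5) (nat_lit 6) (nat_lit 5) (nat_lit 5) (nat_lit 4) (nat_lit 394) (nat_lit 232) (nat_lit 154)))) (XT.nd (nat_lit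 78) (nat_lit 0) (nat_lit 0) (XT.lf (nat_lit 0) (nat_lit 3759973037) (nat_lit 152) (nat_lit 9663748048) (nat_lit 76) (nat_lit 62362589159) (nat_lit 4) (nat_lit 5) (nat_lit 6) (nat_lit 5) (nat_lit 5) (nat_lit 4) (nat_lit 395) (nat_lit 232) (nat_lit 153)) (XT.nd (nat_lit 78) (nat_lit 0) (nat_lit 0) (XT.lf (nat_lit 0) (nat_lit 6136205535) (nat_lit 152) (nat_lit 4893986371) (nat_lit 76) (nat_lit 66943260099) (nat_lit 4) (nat_lit 5) (nat_lit 6) (nat_lit 5) (nat_lit 5) (nat_lit 4) (nat_lit 396) (nat_lit 232) (nat_lit 152)) (XT.lf (nat_lit 0) (nat_lit 8570534642) (nat_lit 152) (nat_lit 4716045) (nat_lit 76) (nat_lit 71651361494) (nat_lit 4) (nat_lit 5) (nat_lit 6) (nat_lit 5) (nat_lit 5) (nat_lit 4) (nat_lit 397) (nat_lit 232) (nat_lit 151))))))))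
noncomputable def xc43 : XT := (XT.nd (nat_lit 35412) (nat_lit 0) (nat_lit 684) (XT.nd (nat_lit 34476) (nat_lit 0) (nat_lit 1976) (XT.nd (nat_lit 390) (nat_lit 0) (nat_lit 0) (XT.nd (nat_lit 156) (nat_lit 0) (nat_lit 0) (XT.nd (nat_lit 78) (nat_lit 0) (nat_lit 0) (XT.lf (nat_lit 0) (nat_lit 5108010795) (nat_lit 76) (nat_lit 6006177970) (nat_lit 152) (nat_lit 71432097749) (nat_lit 3) (nat_lit 5) (nat_lit 4) (nat_lit 5) (nat_lit 5) (nat_lit 4) (nat_lit 398) (nat_lit 232) (nat_lit 150)) (XT.lf (nat_lit 0) (nat_lit 10351543314) (nat_lit 76) (nat_lit 3370005690) (nat_lit 152) (nat_lit 71214388145) (nat_lit 3) (nat_lit 5) (nat_lit 4) (nat_lit 5) (nat_lit 5) (nat_lit 4) (nat_lit 399) (nat_lit 232) (nat_lit 149))) (XT.nd (nat_lit 78) (nat_lit 0) (nat_lit 0) (XT.lf (nat_lit 0) (nat_lit 15730369380) (nat_lit 76) (nat_lit 664478019) (nat_lit 152) (nat_lit 71002806119) (nat_lit 3) (nat_lit 5) (nat_lit 4)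 (nat_lit 5) (nat_lit 5) (nat_lit 4) (nat_lit 400) (nat_lit 232) (nat_lit 148)) (XT.nd (nat_lit 78) (nat_lit 0) (nat_lit 0) (XT.lf (nat_lit 0) (nat_lit 19156729072) (nat_lit 152) (nat_lit 68704706926) (nat_lit 0) (nat_lit 2071541361) (nat_lit 3) (nat_lit 5) (nat_lit 5) (nat_lit 4) (nat_lit 3) (nat_lit 4) (nat_lit 401) (nat_lit 232) (nat_lit 147)) (XT.lf (nat_lit 0) (nat_lit 21996380449) (nat_lit 152) (nat_lit 65680846670) (nat_lit 0) (nat_lit 4867293689) (nat_lit 3) (nat_lit 5) (nat_lit 5) (nat_lit 4) (nat_lit 3) (nat_lit 4) (nat_lit 402) (nat_lit 232) (nat_lit 146))))) (XT.nd (nat_lit 33852) (nat_lit 0) (nat_lit 3268) (XT.nd (nat_lit 33696) (nat_lit 0) (nat_lit 3800) (XT.lf (nat_lit 0) (nat_lit 24909895410) (nat_lit 152) (nat_lit 62586673795) (nat_lit 0) (nat_lit 7738188214) (nat_lit 3) (nat_lit 5) (nat_lit 5) (nat_lit 4) (nat_lit 3) (nat_lit 4) (nat_lit 403) (nat_lit 232) (nat_lit 145)) (XT.nd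 (nat_lit 78) (nat_lit 0) (nat_lit 0) (XT.lf (nat_lit 0) (nat_lit 23509468) (nat_lit 304) (nat_lit 5176389658) (nat_lit 0) (nat_lit 23509468) (nat_lit 53) (nat_lit 5) (nat_lit 57) (nat_lit 4) (nat_lit 53) (nat_lit 4) (nat_lit 314) (nat_lit 233) (nat_lit 233)) (XT.lf (nat_lit 0) (nat_lit 3580306199) (nat_lit 304) (nat_lit 4235438537) (nat_lit 0) (nat_lit 2808219786) (nat_lit 53) (nat_lit 5) (nat_lit 57) (nat_lit 4) (nat_lit 53) (nat_lit 4) (nat_lit 315) (nat_lit 233) (nat_lit 232)))) (XT.nd (nat_lit 78) (nat_lit 304) (nat_lit 0) (XT.lf (nat_lit 0) (nat_lit 1979854326) (nat_lit 228) (nat_lit 5175159337) (nat_lit 228) (nat_lit 3653474466) (nat_lit 50) (nat_lit 4) (nat_lit 53) (nat_lit 5) (nat_lit 53) (nat_lit 4) (nat_lit 316) (nat_lit 233) (nat_lit 231)) (XT.nd (nat_lit 78) (nat_lit 304) (nat_lit 0) (XT.lf (nat_lit 0) (nat_lit 8345443756) (nat_lit 228) (nat_lit 2451931275) (nat_lit 228) (nat_lit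 202480909) (nat_lit 50) (nat_lit 4) (nat_lit 53) (nat_lit 5) (nat_lit 53) (nat_lit 4) (nat_lit 317) (nat_lit 233) (nat_lit 230)) (XT.lf (nat_lit 0) (nat_lit 3244257540) (nat_lit 304) (nat_lit 7578789389) (nat_lit 0) (nat_lit 374336369) (nat_lit 46) (nat_lit 5) (nat_lit 50) (nat_lit 4) (nat_lit 46) (nat_lit 4) (nat_lit 318) (nat_lit 233) (nat_lit 229)))))) (XT.nd (nat_lit 468) (nat_lit 532) (nat_lit 0) (XT.nd (nat_lit 234) (nat_lit 456) (nat_lit 0) (XT.nd (nat_lit 78) (nat_lit 304) (nat_lit 0) (XT.lf (nat_lit 0) (nat_lit 6761625057) (nat_lit 304) (nat_lit 1414427635) (nat_lit 0) (nat_lit 3225695363) (nat_lit 46) (nat_lit 5) (nat_lit 50) (nat_lit 4) (nat_lit 46) (nat_lit 4) (nat_lit 319) (nat_lit 233) (nat_lit 228)) (XT.nd (nat_lit 78) (nat_lit 76) (nat_lit 0) (XT.lf (nat_lit 0) (nat_lit 4912223420) (nat_lit 228) (nat_lit 5441791303) (nat_lit 228) (nat_lit 1259251394) (nat_lit 43) (nat_lit 4) (nat_lit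 46) (nat_lit 5) (nat_lit 46) (nat_lit 4) (nat_lit 320) (nat_lit 233) (nat_lit 227)) (XT.lf (nat_lit 0) (nat_lit 2116648171) (nat_lit 304) (nat_lit 513521029) (nat_lit 76) (nat_lit 9202311231) (nat_lit 42) (nat_lit 5) (nat_lit 46) (nat_lit 5) (nat_lit 43) (nat_lit 4) (nat_lit 321) (nat_lit 233) (nat_lit 226)))) (XT.nd (nat_lit 78) (nat_lit 304) (nat_lit 0) (XT.lf (nat_lit 0) (nat_lit 5552367567) (nat_lit 228) (nat_lit 6215695158) (nat_lit 0) (nat_lit 290417120) (nat_lit 40) (nat_lit 5) (nat_lit 43) (nat_lit 4) (nat_lit 40) (nat_lit 4) (nat_lit 322) (nat_lit 233) (nat_lit 225)) (XT.nd (nat_lit 78) (nat_lit 304) (nat_lit 0) (XT.lf (nat_lit 0) (nat_lit 9047952646) (nat_lit 228) (nat_lit 33200795) (nat_lit 0) (nat_lit 3211497397) (nat_lit 40) (nat_lit 5) (nat_lit 43) (nat_lit 4) (nat_lit 40) (nat_lit 4) (nat_lit 323) (nat_lit 233) (nat_lit 224)) (XT.lf (nat_lit 0) (nat_lit 100803841) (nat_lit 304)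 (nat_lit 6189595101) (nat_lit 76) (nat_lit 6243850495) (nat_lit 36) (nat_lit 5) (nat_lit 40) (nat_lit 5) (nat_lit 37) (nat_lit 4) (nat_lit 324) (nat_lit 233) (nat_lit 223))))) (XT.nd (nat_lit 234) (nat_lit 380) (nat_lit 0) (XT.nd (nat_lit 78) (nat_lit 152) (nat_lit 0) (XT.lf (nat_lit 0) (nat_lit 3409717107) (nat_lit 304) (nat_lit 14027049) (nat_lit 76) (nat_lit 9360627550) (nat_lit 36) (nat_lit 5) (nat_lit 40) (nat_lit 5) (nat_lit 37) (nat_lit 4) (nat_lit 325) (nat_lit 233) (nat_lit 222)) (XT.nd (nat_lit 78) (nat_lit 0) (nat_lit 0) (XT.lf (nat_lit 0) (nat_lit 6360895351) (nat_lit 152) (nat_lit 448169380) (nat_lit 228) (nat_lit 6233282680) (nat_lit 34) (nat_lit 5) (nat_lit 36) (nat_lit 5) (nat_lit 37) (nat_lit 4) (nat_lit 326) (nat_lit 233) (nat_lit 221)) (XT.lf (nat_lit 0) (nat_lit 10266317631) (nat_lit 228) (nat_lit 516585215) (nat_lit 0) (nat_lit 2526564108) (nat_lit 34) (nat_lit 5) (nat_lit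 37) (nat_lit 4) (nat_lit 34) (nat_lit 4) (nat_lit 327) (nat_lit 233) (nat_lit 220)))) (XT.nd (nat_lit 78) (nat_lit 152) (nat_lit 0) (XT.lf (nat_lit 0) (nat_lit 230984074) (nat_lit 228) (nat_lit 7751994578) (nat_lit 76) (nat_lit 5601838076) (nat_lit 31) (nat_lit 5) (nat_lit 34) (nat_lit 5) (nat_lit 32) (nat_lit 4) (nat_lit 328) (nat_lit 233) (nat_lit 219)) (XT.nd (nat_lit 78) (nat_lit 152) (nat_lit 0) (XT.lf (nat_lit 0) (nat_lit 3480299418) (nat_lit 228) (nat_lit 1623009408) (nat_lit 76) (nat_lit 8766145924) (nat_lit 31) (nat_lit 5) (nat_lit 34) (nat_lit 5) (nat_lit 32) (nat_lit 4) (nat_lit 329) (nat_lit 233) (nat_lit 218)) (XT.lf (nat_lit 0) (nat_lit 4676381571) (nat_lit 152) (nat_lit 2130474681) (nat_lit 228) (nat_lit 7356455929) (nat_lit 29) (nat_lit 5) (nat_lit 31) (nat_lit 5) (nat_lit 32) (nat_lit 4) (nat_lit 330) (nat_lit 233) (nat_lit 217))))))) (XT.nd (nat_lit 936) (nat_lit 608) (nat_lit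 0) (XT.nd (nat_lit 468) (nat_lit 304) (nat_lit 0) (XT.nd (nat_lit 234) (nat_lit 152) (nat_lit 0) (XT.nd (nat_lit 78) (nat_lit 228) (nat_lit 0) (XT.lf (nat_lit 0) (nat_lit 10194048898) (nat_lit 228) (nat_lit 3381897171) (nat_lit 0) (nat_lit 891285096) (nat_lit 29) (nat_lit 5) (nat_lit 32) (nat_lit 4) (nat_lit 29) (nat_lit 4) (nat_lit 331) (nat_lit 233) (nat_lit 216)) (XT.nd (nat_lit 78) (nat_lit 76) (nat_lit 0) (XT.lf (nat_lit 0) (nat_lit 2838335881) (nat_lit 152) (nat_lit 10830115619) (nat_lit 152) (nat_lit 1112317325) (nat_lit 27) (nat_lit 4) (nat_lit 29) (nat_lit 5) (nat_lit 29) (nat_lit 4) (nat_lit 332) (nat_lit 233) (nat_lit 215)) (XT.lf (nat_lit 0) (nat_lit 2073430512) (nat_lit 228) (nat_lit 5911680461) (nat_lit 76) (nat_lit 7118892061) (nat_lit 26) (nat_lit 5) (nat_lit 29) (nat_lit 5) (nat_lit 27) (nat_lit 4) (nat_lit 333) (nat_lit 233) (nat_lit 214)))) (XT.nd (nat_lit 78) (nat_lit 0) (nat_lit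 0) (XT.lf (nat_lit 0) (nat_lit 193185948) (nat_lit 152) (nat_lit 5080282113) (nat_lit 228) (nat_lit 10164966687) (nat_lit 24) (nat_lit 5) (nat_lit 26) (nat_lit 5) (nat_lit 27) (nat_lit 4) (nat_lit 334) (nat_lit 233) (nat_lit 213)) (XT.nd (nat_lit 78) (nat_lit 0) (nat_lit 0) (XT.lf (nat_lit 0) (nat_lit 6503792775) (nat_lit 152) (nat_lit 2065449759) (nat_lit 228) (nat_lit 7213726053) (nat_lit 24) (nat_lit 5) (nat_lit 26) (nat_lit 5) (nat_lit 27) (nat_lit 4) (nat_lit 335) (nat_lit 233) (nat_lit 212)) (XT.lf (nat_lit 0) (nat_lit 11915311035) (nat_lit 228) (nat_lit 3241279171) (nat_lit 0) (nat_lit 982765073) (nat_lit 24) (nat_lit 5) (nat_lit 27) (nat_lit 4) (nat_lit 24) (nat_lit 4) (nat_lit 336) (nat_lit 233) (nat_lit 211))))) (XT.nd (nat_lit 234) (nat_lit 76) (nat_lit 0) (XT.nd (nat_lit 78) (nat_lit 76) (nat_lit 0) (XT.lf (nat_lit 0) (nat_lit 2919950027) (nat_lit 152) (nat_lit 12433461299) (nat_lit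 152) (nat_lit 1153330484) (nat_lit 22) (nat_lit 4) (nat_lit 24) (nat_lit 5) (nat_lit 24) (nat_lit 4) (nat_lit 337) (nat_lit 233) (nat_lit 210)) (XT.nd (nat_lit 78) (nat_lit 0) (nat_lit 0) (XT.lf (nat_lit 0) (nat_lit 1946626004) (nat_lit 228) (nat_lit 7665941048) (nat_lit 76) (nat_lit 7272767785) (nat_lit 21) (nat_lit 5) (nat_lit 24) (nat_lit 5) (nat_lit 22) (nat_lit 4) (nat_lit 338) (nat_lit 233) (nat_lit 209)) (XT.lf (nat_lit 0) (nat_lit 5061331806) (nat_lit 228) (nat_lit 1670720331) (nat_lit 76) (nat_lit 10544595834) (nat_lit 21) (nat_lit 5) (nat_lit 24) (nat_lit 5) (nat_lit 22) (nat_lit 4) (nat_lit 339) (nat_lit 233) (nat_lit 208)))) (XT.nd (nat_lit 78) (nat_lit 0) (nat_lit 0) (XT.lf (nat_lit 0) (nat_lit 4503066473) (nat_lit 76) (nat_lit 3756233896) (nat_lit 152) (nat_lit 9420756774) (nat_lit 20) (nat_lit 5) (nat_lit 21) (nat_lit 5) (nat_lit 22) (nat_lit 4) (nat_lit 340) (nat_lit 233) (nat_lit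 207)) (XT.nd (nat_lit 78) (nat_lit 0) (nat_lit 0) (XT.lf (nat_lit 0) (nat_lit 10808027564) (nat_lit 76) (nat_lit 709295333) (nat_lit 152) (nat_lit 6579372047) (nat_lit 20) (nat_lit 5) (nat_lit 21) (nat_lit 5) (nat_lit 22) (nat_lit 4) (nat_lit 341) (nat_lit 233) (nat_lit 206)) (XT.lf (nat_lit 0) (nat_lit 14844884520) (nat_lit 152) (nat_lit 1334013218) (nat_lit 0) (nat_lit 2347828534) (nat_lit 20) (nat_lit 5) (nat_lit 22) (nat_lit 4) (nat_lit 20) (nat_lit 4) (nat_lit 342) (nat_lit 233) (nat_lit 205)))))) (XT.nd (nat_lit 468) (nat_lit 304) (nat_lit 0) (XT.nd (nat_lit 234) (nat_lit 76) (nat_lit 0) (XT.nd (nat_lit 78) (nat_lit 76) (nat_lit 0) (XT.lf (nat_lit 0) (nat_lit 4801516508) (nat_lit 152) (nat_lit 13473884704) (nat_lit 152) (nat_lit 694210425) (nat_lit 18) (nat_lit 4) (nat_lit 20) (nat_lit 5) (nat_lit 20) (nat_lit 4) (nat_lit 343) (nat_lit 233) (nat_lit 204)) (XT.nd (nat_lit 78) (nat_lit 0)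 (nat_lit 0) (XT.lf (nat_lit 0) (nat_lit 2300222943) (nat_lit 228) (nat_lit 8384608397) (nat_lit 76) (nat_lit 8741398997) (nat_lit 17) (nat_lit 5) (nat_lit 20) (nat_lit 5) (nat_lit 18) (nat_lit 4) (nat_lit 344) (nat_lit 233) (nat_lit 203)) (XT.lf (nat_lit 0) (nat_lit 5322061314) (nat_lit 228) (nat_lit 2516671350) (nat_lit 76) (nat_lit 12059105942) (nat_lit 17) (nat_lit 5) (nat_lit 20) (nat_lit 5) (nat_lit 18) (nat_lit 4) (nat_lit 345) (nat_lit 233) (nat_lit 202)))) (XT.nd (nat_lit 78) (nat_lit 0) (nat_lit 0) (XT.lf (nat_lit 0) (nat_lit 3516128846) (nat_lit 76) (nat_lit 4905162010) (nat_lit 152) (nat_lit 11962743892) (nat_lit 16) (nat_lit 5) (nat_lit 17) (nat_lit 5) (nat_lit 18) (nat_lit 4) (nat_lit 346) (nat_lit 233) (nat_lit 201)) (XT.nd (nat_lit 78) (nat_lit 0) (nat_lit 0) (XT.lf (nat_lit 0) (nat_lit 9702497275) (nat_lit 76) (nat_lit 1889961622) (nat_lit 152) (nat_lit 9293029521) (nat_lit 16)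 (nat_lit 5) (nat_lit 17) (nat_lit 5) (nat_lit 18) (nat_lit 4) (nat_lit 347) (nat_lit 233) (nat_lit 200)) (XT.lf (nat_lit 0) (nat_lit 14825045305) (nat_lit 152) (nat_lit 5417007366) (nat_lit 0) (nat_lit 1160983839) (nat_lit 16) (nat_lit 5) (nat_lit 18) (nat_lit 4) (nat_lit 16) (nat_lit 4) (nat_lit 348) (nat_lit 233) (nat_lit 199))))) (XT.nd (nat_lit 234) (nat_lit 76) (nat_lit 0) (XT.nd (nat_lit 78) (nat_lit 76) (nat_lit 0) (XT.lf (nat_lit 0) (nat_lit 436229214) (nat_lit 152) (nat_lit 17697205616) (nat_lit 152) (nat_lit 3803349615) (nat_lit 14) (nat_lit 4) (nat_lit 16) (nat_lit 5) (nat_lit 16) (nat_lit 4) (nat_lit 349) (nat_lit 233) (nat_lit 198)) (XT.nd (nat_lit 78) (nat_lit 76) (nat_lit 0) (XT.lf (nat_lit 0) (nat_lit 6501320065) (nat_lit 152) (nat_lit 15050941862) (nat_lit 152) (nat_lit 933984370) (nat_lit 14) (nat_lit 4) (nat_lit 16) (nat_lit 5) (nat_lit 16) (nat_lit 4) (nat_lit 350) (nat_lit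 233) (nat_lit 197)) (XT.lf (nat_lit 0) (nat_lit 1939314429) (nat_lit 228) (nat_lit 10396752589) (nat_lit 76) (nat_lit 10716858011) (nat_lit 13) (nat_lit 5) (nat_lit 16) (nat_lit 5) (nat_lit 14) (nat_lit 4) (nat_lit 351) (nat_lit 233) (nat_lit 196)))) (XT.nd (nat_lit 78) (nat_lit 76) (nat_lit 0) (XT.lf (nat_lit 0) (nat_lit 4838582361) (nat_lit 228) (nat_lit 4721533240) (nat_lit 76) (nat_lit 14077488742) (nat_lit 13) (nat_lit 5) (nat_lit 16) (nat_lit 5) (nat_lit 14) (nat_lit 4) (nat_lit 352) (nat_lit 233) (nat_lit 195)) (XT.nd (nat_lit 78) (nat_lit 0) (nat_lit 0) (XT.lf (nat_lit 0) (nat_lit 1075658749) (nat_lit 76) (nat_lit 6719259305) (nat_lit 152) (nat_lit 16445836213) (nat_lit 12) (nat_lit 5) (nat_lit 13) (nat_lit 5) (nat_lit 14) (nat_lit 4) (nat_lit 353) (nat_lit 233) (nat_lit 194)) (XT.lf (nat_lit 0) (nat_lit 7074958541) (nat_lit 76) (nat_lit 3772926300) (nat_lit 152) (nat_lit 14013907581)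 (nat_lit 12) (nat_lit 5) (nat_lit 13) (nat_lit 5) (nat_lit 14) (nat_lit 4) (nat_lit 354) (nat_lit 233) (nat_lit 193))))))))
noncomputable def xc44 : XT := (XT.nd (nat_lit 1794) (nat_lit 228) (nat_lit 0) (XT.nd (nat_lit 858) (nat_lit 228) (nat_lit 0) (XT.nd (nat_lit 390) (nat_lit 152) (nat_lit 0) (XT.nd (nat_lit 156) (nat_lit 76) (nat_lit 0) (XT.nd (nat_lit 78) (nat_lit 0) (nat_lit 0) (XT.lf (nat_lit 0) (nat_lit 13187640471) (nat_lit 76) (nat_lit 766220348) (nat_lit 152) (nat_lit 11548789330) (nat_lit 12) (nat_lit 5) (nat_lit 13) (nat_lit 5) (nat_lit 14) (nat_lit 4) (nat_lit 355) (nat_lit 233) (nat_lit 192)) (XT.lf (nat_lit 0) (nat_lit 17137702464) (nat_lit 152) (nat_lit 6766984217) (nat_lit 0) (nat_lit 2258536465) (nat_lit 12) (nat_lit 5) (nat_lit 14) (nat_lit 4) (nat_lit 12) (nat_lit 4) (nat_lit 356) (nat_lit 233) (nat_lit 191))) (XT.nd (nat_lit 78) (nat_lit 76) (nat_lit 0) (XT.lf (nat_lit 0)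 (nat_lit 20388026668) (nat_lit 152) (nat_lit 1123744605) (nat_lit 0) (nat_lit 5332742292) (nat_lit 12) (nat_lit 5) (nat_lit 14) (nat_lit 4) (nat_lit 12) (nat_lit 4) (nat_lit 357) (nat_lit 233) (nat_lit 190)) (XT.nd (nat_lit 78) (nat_lit 0) (nat_lit 0) (XT.lf (nat_lit 0) (nat_lit 4719092005) (nat_lit 76) (nat_lit 19026578936) (nat_lit 76) (nat_lit 3800305845) (nat_lit 11) (nat_lit 4) (nat_lit 12) (nat_lit 5) (nat_lit 12) (nat_lit 4) (nat_lit 358) (nat_lit 233) (nat_lit 189)) (XT.lf (nat_lit 0) (nat_lit 10699068456) (nat_lit 76) (nat_lit 16481218648) (nat_lit 76) (nat_lit 1088937095) (nat_lit 11) (nat_lit 4) (nat_lit 12) (nat_lit 5) (nat_lit 12) (nat_lit 4) (nat_lit 359) (nat_lit 233) (nat_lit 188))))) (XT.nd (nat_lit 234) (nat_lit 76) (nat_lit 0) (XT.nd (nat_lit 78) (nat_lit 0) (nat_lit 0) (XT.lf (nat_lit 0) (nat_lit 1636079697) (nat_lit 152) (nat_lit 12232213031) (nat_lit 76) (nat_lit 15146444354)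 (nat_lit 10) (nat_lit 5) (nat_lit 12) (nat_lit 5) (nat_lit 11) (nat_lit 4) (nat_lit 360) (nat_lit 233) (nat_lit 187)) (XT.nd (nat_lit 78) (nat_lit 0) (nat_lit 0) (XT.lf (nat_lit 0) (nat_lit 4387517448) (nat_lit 152) (nat_lit 6803273291) (nat_lit 76) (nat_lit 18592529687) (nat_lit 10) (nat_lit 5) (nat_lit 12) (nat_lit 5) (nat_lit 11) (nat_lit 4) (nat_lit 361) (nat_lit 233) (nat_lit 186)) (XT.lf (nat_lit 0) (nat_lit 7189029413) (nat_lit 152) (nat_lit 1268125262) (nat_lit 76) (nat_lit 22118805162) (nat_lit 10) (nat_lit 5) (nat_lit 12) (nat_lit 5) (nat_lit 11) (nat_lit 4) (nat_lit 362) (nat_lit 233) (nat_lit 185)))) (XT.nd (nat_lit 78) (nat_lit 0) (nat_lit 0) (XT.lf (nat_lit 0) (nat_lit 4465199723) (nat_lit 76) (nat_lit 5620786022) (nat_lit 152) (nat_lit 21306074499) (nat_lit 9) (nat_lit 5) (nat_lit 10) (nat_lit 5) (nat_lit 11) (nat_lit 4) (nat_lit 363) (nat_lit 233) (nat_lit 184)) (XT.nd (nat_lit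 78) (nat_lit 0) (nat_lit 0) (XT.lf (nat_lit 0) (nat_lit 10342049479) (nat_lit 76) (nat_lit 2709478194) (nat_lit 152) (nat_lit 19181688775) (nat_lit 9) (nat_lit 5) (nat_lit 10) (nat_lit 5) (nat_lit 11) (nat_lit 4) (nat_lit 364) (nat_lit 233) (nat_lit 183)) (XT.lf (nat_lit 0) (nat_lit 16078375675) (nat_lit 152) (nat_lit 16760777309) (nat_lit 0) (nat_lit 261306577) (nat_lit 9) (nat_lit 5) (nat_lit 11) (nat_lit 4) (nat_lit 9) (nat_lit 4) (nat_lit 365) (nat_lit 233) (nat_lit 182)))))) (XT.nd (nat_lit 468) (nat_lit 152) (nat_lit 0) (XT.nd (nat_lit 234) (nat_lit 76) (nat_lit 0) (XT.nd (nat_lit 78) (nat_lit 0) (nat_lit 0) (XT.lf (nat_lit 0) (nat_lit 19193302381) (nat_lit 152) (nat_lit 11555336486) (nat_lit 0) (nat_lit 3245184670) (nat_lit 9) (nat_lit 5) (nat_lit 11) (nat_lit 4) (nat_lit 9) (nat_lit 4) (nat_lit 366) (nat_lit 233) (nat_lit 181)) (XT.nd (nat_lit 78) (nat_lit 0) (nat_lit 0) (XT.lf (nat_lit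 0) (nat_lit 22372984408) (nat_lit 152) (nat_lit 6244250895) (nat_lit 0) (nat_lit 6297635035) (nat_lit 9) (nat_lit 5) (nat_lit 11) (nat_lit 4) (nat_lit 9) (nat_lit 4) (nat_lit 367) (nat_lit 233) (nat_lit 180)) (XT.lf (nat_lit 0) (nat_lit 25620200120) (nat_lit 152) (nat_lit 822879781) (nat_lit 0) (nat_lit 9421324861) (nat_lit 9) (nat_lit 5) (nat_lit 11) (nat_lit 4) (nat_lit 9) (nat_lit 4) (nat_lit 368) (nat_lit 233) (nat_lit 179)))) (XT.nd (nat_lit 78) (nat_lit 0) (nat_lit 0) (XT.lf (nat_lit 0) (nat_lit 4807322144) (nat_lit 76) (nat_lit 24176675667) (nat_lit 76) (nat_lit 7857872363) (nat_lit 8) (nat_lit 4) (nat_lit 9) (nat_lit 5) (nat_lit 9) (nat_lit 4) (nat_lit 369) (nat_lit 233) (nat_lit 178)) (XT.nd (nat_lit 78) (nat_lit 0) (nat_lit 0) (XT.lf (nat_lit 0) (nat_lit 10576146715) (nat_lit 76) (nat_lit 21854161257) (nat_lit 76) (nat_lit 5418922958) (nat_lit 8) (nat_lit 4) (nat_lit 9) (nat_lit 5)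 (nat_lit 9) (nat_lit 4) (nat_lit 370) (nat_lit 233) (nat_lit 177)) (XT.lf (nat_lit 0) (nat_lit 16472257728) (nat_lit 76) (nat_lit 19481816764) (nat_lit 76) (nat_lit 2933534781) (nat_lit 8) (nat_lit 4) (nat_lit 9) (nat_lit 5) (nat_lit 9) (nat_lit 4) (nat_lit 371) (nat_lit 233) (nat_lit 176))))) (XT.nd (nat_lit 234) (nat_lit 76) (nat_lit 0) (XT.nd (nat_lit 78) (nat_lit 76) (nat_lit 0) (XT.lf (nat_lit 0) (nat_lit 22500807127) (nat_lit 76) (nat_lit 17057569265) (nat_lit 76) (nat_lit 399536132) (nat_lit 8) (nat_lit 4) (nat_lit 9) (nat_lit 5) (nat_lit 9) (nat_lit 4) (nat_lit 372) (nat_lit 233) (nat_lit 175)) (XT.nd (nat_lit 78) (nat_lit 0) (nat_lit 0) (XT.lf (nat_lit 0) (nat_lit 2142644338) (nat_lit 152) (nat_lit 12415019641) (nat_lit 76) (nat_lit 26502781730) (nat_lit 7) (nat_lit 5) (nat_lit 9) (nat_lit 5) (nat_lit 8) (nat_lit 4) (nat_lit 373) (nat_lit 233) (nat_lit 174)) (XT.lf (nat_lit 0) (nat_lit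 4729075802) (nat_lit 152) (nat_lit 7268014752) (nat_lit 76) (nat_lit 30199581866) (nat_lit 7) (nat_lit 5) (nat_lit 9) (nat_lit 5) (nat_lit 8) (nat_lit 4) (nat_lit 374) (nat_lit 233) (nat_lit 173)))) (XT.nd (nat_lit 78) (nat_lit 76) (nat_lit 0) (XT.lf (nat_lit 0) (nat_lit 7369814640) (nat_lit 152) (nat_lit 2007752762) (nat_lit 76) (nat_lit 33990133296) (nat_lit 7) (nat_lit 5) (nat_lit 9) (nat_lit 5) (nat_lit 8) (nat_lit 4) (nat_lit 375) (nat_lit 233) (nat_lit 172)) (XT.nd (nat_lit 78) (nat_lit 0) (nat_lit 0) (XT.lf (nat_lit 0) (nat_lit 3437439499) (nat_lit 76) (nat_lit 6662771562) (nat_lit 152) (nat_lit 34473351422) (nat_lit 6) (nat_lit 5) (nat_lit 7) (nat_lit 5) (nat_lit 8) (nat_lit 4) (nat_lit 376) (nat_lit 233) (nat_lit 171)) (XT.lf (nat_lit 0) (nat_lit 9047581789) (nat_lit 76) (nat_lit 3862882768) (nat_lit 152) (nat_lit 32905212478) (nat_lit 6) (nat_lit 5) (nat_lit 7) (nat_lit 5) (nat_lit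 8) (nat_lit 4) (nat_lit 377) (nat_lit 233) (nat_lit 170))))))) (XT.nd (nat_lit 858) (nat_lit 152) (nat_lit 0) (XT.nd (nat_lit 390) (nat_lit 76) (nat_lit 0) (XT.nd (nat_lit 156) (nat_lit 0) (nat_lit 0) (XT.nd (nat_lit 78) (nat_lit 0) (nat_lit 0) (XT.lf (nat_lit 0) (nat_lit 14787617956) (nat_lit 76) (nat_lit 995728880) (nat_lit 152) (nat_lit 31312373372) (nat_lit 6) (nat_lit 5) (nat_lit 7) (nat_lit 5) (nat_lit 8) (nat_lit 4) (nat_lit 378) (nat_lit 233) (nat_lit 169)) (XT.lf (nat_lit 0) (nat_lit 18740028143) (nat_lit 152) (nat_lit 27770906881) (nat_lit 0) (nat_lit 1903315666) (nat_lit 6) (nat_lit 5) (nat_lit 8) (nat_lit 4) (nat_lit 6) (nat_lit 4) (nat_lit 379) (nat_lit 233) (nat_lit 168))) (XT.nd (nat_lit 78) (nat_lit 0) (nat_lit 0) (XT.lf (nat_lit 0) (nat_lit 21774682621) (nat_lit 152) (nat_lit 23144135229) (nat_lit 0) (nat_lit 4853855026) (nat_lit 6) (nat_lit 5) (nat_lit 8) (nat_lit 4) (nat_lit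 6) (nat_lit 4) (nat_lit 380) (nat_lit 233) (nat_lit 167)) (XT.nd (nat_lit 78) (nat_lit 0) (nat_lit 0) (XT.lf (nat_lit 0) (nat_lit 24880390355) (nat_lit 152) (nat_lit 18414172930) (nat_lit 0) (nat_lit 7877897597) (nat_lit 6) (nat_lit 5) (nat_lit 8) (nat_lit 4) (nat_lit 6) (nat_lit 4) (nat_lit 381) (nat_lit 233) (nat_lit 166)) (XT.lf (nat_lit 0) (nat_lit 28059865070) (nat_lit 152) (nat_lit 13576887007) (nat_lit 0) (nat_lit 10978085747) (nat_lit 6) (nat_lit 5) (nat_lit 8) (nat_lit 4) (nat_lit 6) (nat_lit 4) (nat_lit 382) (nat_lit 233) (nat_lit 165))))) (XT.nd (nat_lit 234) (nat_lit 0) (nat_lit 0) (XT.nd (nat_lit 78) (nat_lit 76) (nat_lit 0) (XT.lf (nat_lit 0) (nat_lit 31315884949) (nat_lit 152) (nat_lit 8628050707) (nat_lit 0) (nat_lit 14157128377) (nat_lit 6) (nat_lit 5) (nat_lit 8) (nat_lit 4) (nat_lit 6) (nat_lit 4) (nat_lit 383) (nat_lit 233) (nat_lit 164)) (XT.nd (nat_lit 78) (nat_lit 76) (nat_lit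 0) (XT.lf (nat_lit 0) (nat_lit 34651295056) (nat_lit 152) (nat_lit 3563339803) (nat_lit 0) (nat_lit 17417803292) (nat_lit 6) (nat_lit 5) (nat_lit 8) (nat_lit 4) (nat_lit 6) (nat_lit 4) (nat_lit 384) (nat_lit 233) (nat_lit 163)) (XT.lf (nat_lit 0) (nat_lit 1653945616) (nat_lit 76) (nat_lit 36430962950) (nat_lit 76) (nat_lit 19124912746) (nat_lit 5) (nat_lit 4) (nat_lit 6) (nat_lit 5) (nat_lit 6) (nat_lit 4) (nat_lit 385) (nat_lit 233) (nat_lit 162)))) (XT.nd (nat_lit 78) (nat_lit 0) (nat_lit 0) (XT.lf (nat_lit 0) (nat_lit 7069463531) (nat_lit 76) (nat_lit 34570508096) (nat_lit 76) (nat_lit 17194012805) (nat_lit 5) (nat_lit 4) (nat_lit 6) (nat_lit 5) (nat_lit 6) (nat_lit 4) (nat_lit 386) (nat_lit 233) (nat_lit 161)) (XT.nd (nat_lit 78) (nat_lit 0) (nat_lit 0) (XT.lf (nat_lit 0) (nat_lit 12617028499) (nat_lit 76) (nat_lit 32667627404) (nat_lit 76) (nat_lit 15222738825) (nat_lit 5) (nat_lit 4) (nat_lit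 6) (nat_lit 5) (nat_lit 6) (nat_lit 4) (nat_lit 387) (nat_lit 233) (nat_lit 160)) (XT.lf (nat_lit 0) (nat_lit 18301487906) (nat_lit 76) (nat_lit 30720658161) (nat_lit 76) (nat_lit 13209368331) (nat_lit 5) (nat_lit 4) (nat_lit 6) (nat_lit 5) (nat_lit 6) (nat_lit 4) (nat_lit 388) (nat_lit 233) (nat_lit 159)))))) (XT.nd (nat_lit 468) (nat_lit 152) (nat_lit 0) (XT.nd (nat_lit 234) (nat_lit 0) (nat_lit 0) (XT.nd (nat_lit 78) (nat_lit 0) (nat_lit 0) (XT.lf (nat_lit 0) (nat_lit 24127808756) (nat_lit 76) (nat_lit 28727899133) (nat_lit 76) (nat_lit 11152142069) (nat_lit 5) (nat_lit 4) (nat_lit 6) (nat_lit 5) (nat_lit 6) (nat_lit 4) (nat_lit 389) (nat_lit 233) (nat_lit 158)) (XT.nd (nat_lit 78) (nat_lit 0) (nat_lit 0) (XT.lf (nat_lit 0) (nat_lit 30101082009) (nat_lit 76) (nat_lit 26687609073) (nat_lit 76) (nat_lit 9049262463) (nat_lit 5) (nat_lit 4) (nat_lit 6) (nat_lit 5) (nat_lit 6) (nat_lit 4) (nat_lit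 390) (nat_lit 233) (nat_lit 157)) (XT.lf (nat_lit 0) (nat_lit 36226527030) (nat_lit 76) (nat_lit 24598005205) (nat_lit 76) (nat_lit 6898892044) (nat_lit 5) (nat_lit 4) (nat_lit 6) (nat_lit 5) (nat_lit 6) (nat_lit 4) (nat_lit 391) (nat_lit 233) (nat_lit 156)))) (XT.nd (nat_lit 78) (nat_lit 0) (nat_lit 0) (XT.lf (nat_lit 0) (nat_lit 42509496149) (nat_lit 76) (nat_lit 22457261661) (nat_lit 76) (nat_lit 4699151848) (nat_lit 5) (nat_lit 4) (nat_lit 6) (nat_lit 5) (nat_lit 6) (nat_lit 4) (nat_lit 392) (nat_lit 233) (nat_lit 155)) (XT.nd (nat_lit 78) (nat_lit 0) (nat_lit 0) (XT.lf (nat_lit 0) (nat_lit 48955479339) (nat_lit 76) (nat_lit 20263507887) (nat_lit 76) (nat_lit 2448119773) (nat_lit 5) (nat_lit 4) (nat_lit 6) (nat_lit 5) (nat_lit 6) (nat_lit 4) (nat_lit 393) (nat_lit 233) (nat_lit 154)) (XT.lf (nat_lit 0) (nat_lit 55570109013) (nat_lit 76) (nat_lit 18014827013) (nat_lit 76) (nat_lit 143828896)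 (nat_lit 5) (nat_lit 4) (nat_lit 6) (nat_lit 5) (nat_lit 6) (nat_lit 4) (nat_lit 394) (nat_lit 233) (nat_lit 153))))) (XT.nd (nat_lit 234) (nat_lit 76) (nat_lit 0) (XT.nd (nat_lit 78) (nat_lit 0) (nat_lit 0) (XT.lf (nat_lit 0) (nat_lit 2172497283) (nat_lit 152) (nat_lit 13514818924) (nat_lit 76) (nat_lit 60164729698) (nat_lit 4) (nat_lit 5) (nat_lit 6) (nat_lit 5) (nat_lit 5) (nat_lit 4) (nat_lit 395) (nat_lit 233) (nat_lit 152)) (XT.nd (nat_lit 78) (nat_lit 0) (nat_lit 0) (XT.lf (nat_lit 0) (nat_lit 4542232064) (nat_lit 152) (nat_lit 8756675080) (nat_lit 76) (nat_lit 64740479617) (nat_lit 4) (nat_lit 5) (nat_lit 6) (nat_lit 5) (nat_lit 5) (nat_lit 4) (nat_lit 396) (nat_lit 233) (nat_lit 151)) (XT.lf (nat_lit 0) (nat_lit 6970252706) (nat_lit 152) (nat_lit 3878684204) (nat_lit 76) (nat_lit 69443803321) (nat_lit 4) (nat_lit 5) (nat_lit 6) (nat_lit 5) (nat_lit 5) (nat_lit 4) (nat_lit 397) (nat_lit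 233) (nat_lit 150)))) (XT.nd (nat_lit 78) (nat_lit 0) (nat_lit 0) (XT.lf (nat_lit 0) (nat_lit 1145774206) (nat_lit 76) (nat_lit 8323920460) (nat_lit 152) (nat_lit 73144050190) (nat_lit 3) (nat_lit 5) (nat_lit 4) (nat_lit 5) (nat_lit 5) (nat_lit 4) (nat_lit 398) (nat_lit 233) (nat_lit 149)) (XT.nd (nat_lit 78) (nat_lit 0) (nat_lit 0) (XT.lf (nat_lit 0) (nat_lit 6378463164) (nat_lit 76) (nat_lit 5692541173) (nat_lit 152) (nat_lit 72932576480) (nat_lit 3) (nat_lit 5) (nat_lit 4) (nat_lit 5) (nat_lit 5) (nat_lit 4) (nat_lit 399) (nat_lit 233) (nat_lit 148)) (XT.lf (nat_lit 0) (nat_lit 11746761502) (nat_lit 76) (nat_lit 2991666894) (nat_lit 152) (nat_lit 72727048721) (nat_lit 3) (nat_lit 5) (nat_lit 4) (nat_lit 5) (nat_lit 5) (nat_lit 4) (nat_lit 400) (nat_lit 233) (nat_lit 147))))))))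
noncomputable def xc45 : XT := (XT.nd (nat_lit 35256) (nat_lit 0) (nat_lit 684) (XT.nd (nat_lit 34320) (nat_lit 0) (nat_lit 1976) (XT.nd (nat_lit 33852) (nat_lit 0) (nat_lit 3268) (XT.nd (nat_lit 156) (nat_lit 0) (nat_lit 0) (XT.nd (nat_lit 78) (nat_lit 0) (nat_lit 0) (XT.lf (nat_lit 0) (nat_lit 17255359966) (nat_lit 76) (nat_lit 218937635) (nat_lit 152) (nat_lit 72527287323) (nat_lit 3) (nat_lit 5) (nat_lit 4) (nat_lit 5) (nat_lit 5) (nat_lit 4) (nat_lit 401) (nat_lit 233) (nat_lit 146)) (XT.lf (nat_lit 0) (nat_lit 20306265126) (nat_lit 152) (nat_lit 69730310972) (nat_lit 0) (nat_lit 2576786278) (nat_lit 3) (nat_lit 5) (nat_lit 5) (nat_lit 4) (nat_lit 3) (nat_lit 4) (nat_lit 402) (nat_lit 233) (nat_lit 145))) (XT.nd (nat_lit 33540) (nat_lit 0) (nat_lit 4104) (XT.lf (nat_lit 0) (nat_lit 23214363301) (nat_lit 152) (nat_lit 66645896185) (nat_lit 0) (nat_lit 5443505389) (nat_lit 3) (nat_lit 5) (nat_lit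 5) (nat_lit 4) (nat_lit 3) (nat_lit 4) (nat_lit 403) (nat_lit 233) (nat_lit 144)) (XT.nd (nat_lit 78) (nat_lit 304) (nat_lit 0) (XT.lf (nat_lit 0) (nat_lit 2030505280) (nat_lit 304) (nat_lit 992334609) (nat_lit 0) (nat_lit 2030505280) (nat_lit 61) (nat_lit 5) (nat_lit 65) (nat_lit 4) (nat_lit 61) (nat_lit 4) (nat_lit 312) (nat_lit 234) (nat_lit 234)) (XT.lf (nat_lit 0) (nat_lit 4195402013) (nat_lit 304) (nat_lit 3448804174) (nat_lit 304) (nat_lit 2629697698) (nat_lit 57) (nat_lit 4) (nat_lit 61) (nat_lit 5) (nat_lit 61) (nat_lit 4) (nat_lit 313) (nat_lit 234) (nat_lit 233))))) (XT.nd (nat_lit 234) (nat_lit 304) (nat_lit 0) (XT.nd (nat_lit 78) (nat_lit 228) (nat_lit 0) (XT.lf (nat_lit 0) (nat_lit 24604717) (nat_lit 228) (nat_lit 782764838) (nat_lit 304) (nat_lit 9640557758) (nat_lit 53) (nat_lit 5) (nat_lit 56) (nat_lit 5) (nat_lit 57) (nat_lit 4) (nat_lit 314) (nat_lit 234) (nat_lit 232)) (XT.nd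 (nat_lit 78) (nat_lit 228) (nat_lit 0) (XT.lf (nat_lit 0) (nat_lit 4291945218) (nat_lit 304) (nat_lit 4359640765) (nat_lit 0) (nat_lit 1975011341) (nat_lit 53) (nat_lit 5) (nat_lit 57) (nat_lit 4) (nat_lit 53) (nat_lit 4) (nat_lit 315) (nat_lit 234) (nat_lit 231)) (XT.lf (nat_lit 0) (nat_lit 1792596704) (nat_lit 228) (nat_lit 6032268385) (nat_lit 228) (nat_lit 2987569014) (nat_lit 50) (nat_lit 4) (nat_lit 53) (nat_lit 5) (nat_lit 53) (nat_lit 4) (nat_lit 316) (nat_lit 234) (nat_lit 230)))) (XT.nd (nat_lit 78) (nat_lit 228) (nat_lit 0) (XT.lf (nat_lit 0) (nat_lit 414546519) (nat_lit 304) (nat_lit 2909738377) (nat_lit 76) (nat_lit 7680634549) (nat_lit 49) (nat_lit 5) (nat_lit 53) (nat_lit 5) (nat_lit 50) (nat_lit 4) (nat_lit 317) (nat_lit 234) (nat_lit 229)) (XT.nd (nat_lit 78) (nat_lit 0) (nat_lit 0) (XT.lf (nat_lit 0) (nat_lit 3300898282) (nat_lit 228) (nat_lit 511000669) (nat_lit 304) (nat_lit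 7391907000) (nat_lit 46) (nat_lit 5) (nat_lit 49) (nat_lit 5) (nat_lit 50) (nat_lit 4) (nat_lit 318) (nat_lit 234) (nat_lit 228)) (XT.lf (nat_lit 0) (nat_lit 7286069603) (nat_lit 304) (nat_lit 1792006634) (nat_lit 0) (nat_lit 2331443281) (nat_lit 46) (nat_lit 5) (nat_lit 50) (nat_lit 4) (nat_lit 46) (nat_lit 4) (nat_lit 319) (nat_lit 234) (nat_lit 227)))))) (XT.nd (nat_lit 468) (nat_lit 532) (nat_lit 0) (XT.nd (nat_lit 234) (nat_lit 304) (nat_lit 0) (XT.nd (nat_lit 78) (nat_lit 228) (nat_lit 0) (XT.lf (nat_lit 0) (nat_lit 4469329371) (nat_lit 228) (nat_lit 6367702808) (nat_lit 228) (nat_lit 785299578) (nat_lit 43) (nat_lit 4) (nat_lit 46) (nat_lit 5) (nat_lit 46) (nat_lit 4) (nat_lit 320) (nat_lit 234) (nat_lit 226)) (XT.nd (nat_lit 78) (nat_lit 152) (nat_lit 0) (XT.lf (nat_lit 0) (nat_lit 2544313407) (nat_lit 304) (nat_lit 1026939156) (nat_lit 76) (nat_lit 8271316387) (nat_lit 42) (nat_lit 5)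 (nat_lit 46) (nat_lit 5) (nat_lit 43) (nat_lit 4) (nat_lit 321) (nat_lit 234) (nat_lit 225)) (XT.lf (nat_lit 0) (nat_lit 5265736521) (nat_lit 152) (nat_lit 669914631) (nat_lit 228) (nat_lit 6134295667) (nat_lit 40) (nat_lit 5) (nat_lit 42) (nat_lit 5) (nat_lit 43) (nat_lit 4) (nat_lit 322) (nat_lit 234) (nat_lit 224)))) (XT.nd (nat_lit 78) (nat_lit 304) (nat_lit 0) (XT.lf (nat_lit 0) (nat_lit 9389173628) (nat_lit 228) (nat_lit 670903430) (nat_lit 0) (nat_lit 2245348268) (nat_lit 40) (nat_lit 5) (nat_lit 43) (nat_lit 4) (nat_lit 40) (nat_lit 4) (nat_lit 323) (nat_lit 234) (nat_lit 223)) (XT.nd (nat_lit 78) (nat_lit 0) (nat_lit 0) (XT.lf (nat_lit 0) (nat_lit 381021268) (nat_lit 304) (nat_lit 6911878061) (nat_lit 76) (nat_lit 5255327494) (nat_lit 36) (nat_lit 5) (nat_lit 40) (nat_lit 5) (nat_lit 37) (nat_lit 4) (nat_lit 324) (nat_lit 234) (nat_lit 222)) (XT.lf (nat_lit 0) (nat_lit 3655462683) (nat_lit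 304) (nat_lit 790515266) (nat_lit 76) (nat_lit 8353447060) (nat_lit 36) (nat_lit 5) (nat_lit 40) (nat_lit 5) (nat_lit 37) (nat_lit 4) (nat_lit 325) (nat_lit 234) (nat_lit 221))))) (XT.nd (nat_lit 234) (nat_lit 152) (nat_lit 0) (XT.nd (nat_lit 78) (nat_lit 228) (nat_lit 0) (XT.lf (nat_lit 0) (nat_lit 5515279663) (nat_lit 152) (nat_lit 1497934253) (nat_lit 228) (nat_lit 6045475237) (nat_lit 34) (nat_lit 5) (nat_lit 36) (nat_lit 5) (nat_lit 37) (nat_lit 4) (nat_lit 326) (nat_lit 234) (nat_lit 220)) (XT.nd (nat_lit 78) (nat_lit 228) (nat_lit 0) (XT.lf (nat_lit 0) (nat_lit 10427198131) (nat_lit 228) (nat_lit 1421407605) (nat_lit 0) (nat_lit 1478540386) (nat_lit 34) (nat_lit 5) (nat_lit 37) (nat_lit 4) (nat_lit 34) (nat_lit 4) (nat_lit 327) (nat_lit 234) (nat_lit 219)) (XT.lf (nat_lit 0) (nat_lit 329355589) (nat_lit 228) (nat_lit 8747190875) (nat_lit 76) (nat_lit 4527206307) (nat_lit 31) (nat_lit 5)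 (nat_lit 34) (nat_lit 5) (nat_lit 32) (nat_lit 4) (nat_lit 328) (nat_lit 234) (nat_lit 218)))) (XT.nd (nat_lit 78) (nat_lit 152) (nat_lit 0) (XT.lf (nat_lit 0) (nat_lit 3546557529) (nat_lit 228) (nat_lit 2669790332) (nat_lit 76) (nat_lit 7673042358) (nat_lit 31) (nat_lit 5) (nat_lit 34) (nat_lit 5) (nat_lit 32) (nat_lit 4) (nat_lit 329) (nat_lit 234) (nat_lit 217)) (XT.nd (nat_lit 78) (nat_lit 0) (nat_lit 0) (XT.lf (nat_lit 0) (nat_lit 3557688760) (nat_lit 152) (nat_lit 3273493983) (nat_lit 228) (nat_lit 7353357832) (nat_lit 29) (nat_lit 5) (nat_lit 31) (nat_lit 5) (nat_lit 32) (nat_lit 4) (nat_lit 330) (nat_lit 234) (nat_lit 216)) (XT.lf (nat_lit 0) (nat_lit 9926050254) (nat_lit 152) (nat_lit 252840381) (nat_lit 228) (nat_lit 4310787423) (nat_lit 29) (nat_lit 5) (nat_lit 31) (nat_lit 5) (nat_lit 32) (nat_lit 4) (nat_lit 331) (nat_lit 234) (nat_lit 215))))))) (XT.nd (nat_lit 936) (nat_lit 456)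 (nat_lit 0) (XT.nd (nat_lit 468) (nat_lit 304) (nat_lit 0) (XT.nd (nat_lit 234) (nat_lit 304) (nat_lit 0) (XT.nd (nat_lit 78) (nat_lit 76) (nat_lit 0) (XT.lf (nat_lit 0) (nat_lit 1585692734) (nat_lit 152) (nat_lit 12023101878) (nat_lit 152) (nat_lit 1195789035) (nat_lit 27) (nat_lit 4) (nat_lit 29) (nat_lit 5) (nat_lit 29) (nat_lit 4) (nat_lit 332) (nat_lit 234) (nat_lit 214)) (XT.nd (nat_lit 78) (nat_lit 0) (nat_lit 0) (XT.lf (nat_lit 0) (nat_lit 1961645139) (nat_lit 228) (nat_lit 7236383023) (nat_lit 76) (nat_lit 5930743114) (nat_lit 26) (nat_lit 5) (nat_lit 29) (nat_lit 5) (nat_lit 27) (nat_lit 4) (nat_lit 333) (nat_lit 234) (nat_lit 213)) (XT.lf (nat_lit 0) (nat_lit 5130755281) (nat_lit 228) (nat_lit 1182904790) (nat_lit 76) (nat_lit 9150500913) (nat_lit 26) (nat_lit 5) (nat_lit 29) (nat_lit 5) (nat_lit 27) (nat_lit 4) (nat_lit 334) (nat_lit 234) (nat_lit 212)))) (XT.nd (nat_lit 78) (nat_lit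 152) (nat_lit 0) (XT.lf (nat_lit 0) (nat_lit 5057008336) (nat_lit 152) (nat_lit 3329247387) (nat_lit 228) (nat_lit 7423676613) (nat_lit 24) (nat_lit 5) (nat_lit 26) (nat_lit 5) (nat_lit 27) (nat_lit 4) (nat_lit 335) (nat_lit 234) (nat_lit 211)) (XT.nd (nat_lit 78) (nat_lit 152) (nat_lit 0) (XT.lf (nat_lit 0) (nat_lit 11415437441) (nat_lit 152) (nat_lit 279410155) (nat_lit 228) (nat_lit 4472624169) (nat_lit 24) (nat_lit 5) (nat_lit 26) (nat_lit 5) (nat_lit 27) (nat_lit 4) (nat_lit 336) (nat_lit 234) (nat_lit 210)) (XT.lf (nat_lit 0) (nat_lit 1335853282) (nat_lit 152) (nat_lit 13751983290) (nat_lit 152) (nat_lit 1448402674) (nat_lit 22) (nat_lit 4) (nat_lit 24) (nat_lit 5) (nat_lit 24) (nat_lit 4) (nat_lit 337) (nat_lit 234) (nat_lit 209))))) (XT.nd (nat_lit 234) (nat_lit 152) (nat_lit 0) (XT.nd (nat_lit 78) (nat_lit 76) (nat_lit 0) (XT.lf (nat_lit 0) (nat_lit 1630184355) (nat_lit 228) (nat_lit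 9321938434) (nat_lit 76) (nat_lit 5963634424) (nat_lit 21) (nat_lit 5) (nat_lit 24) (nat_lit 5) (nat_lit 22) (nat_lit 4) (nat_lit 338) (nat_lit 234) (nat_lit 208)) (XT.nd (nat_lit 78) (nat_lit 76) (nat_lit 0) (XT.lf (nat_lit 0) (nat_lit 4718552895) (nat_lit 228) (nat_lit 3370639677) (nat_lit 76) (nat_lit 9218693159) (nat_lit 21) (nat_lit 5) (nat_lit 24) (nat_lit 5) (nat_lit 22) (nat_lit 4) (nat_lit 339) (nat_lit 234) (nat_lit 207)) (XT.lf (nat_lit 0) (nat_lit 2725824045) (nat_lit 76) (nat_lit 5148043314) (nat_lit 152) (nat_lit 9838731700) (nat_lit 20) (nat_lit 5) (nat_lit 21) (nat_lit 5) (nat_lit 22) (nat_lit 4) (nat_lit 340) (nat_lit 234) (nat_lit 206)))) (XT.nd (nat_lit 78) (nat_lit 152) (nat_lit 0) (XT.lf (nat_lit 0) (nat_lit 8988560521) (nat_lit 76) (nat_lit 2118098081) (nat_lit 152) (nat_lit 7023359012) (nat_lit 20) (nat_lit 5) (nat_lit 21) (nat_lit 5) (nat_lit 22) (nat_lit 4) (nat_lit 341)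 (nat_lit 234) (nat_lit 205)) (XT.nd (nat_lit 78) (nat_lit 152) (nat_lit 0) (XT.lf (nat_lit 0) (nat_lit 14396022967) (nat_lit 152) (nat_lit 3214854853) (nat_lit 0) (nat_lit 950340166) (nat_lit 20) (nat_lit 5) (nat_lit 22) (nat_lit 4) (nat_lit 20) (nat_lit 4) (nat_lit 342) (nat_lit 234) (nat_lit 204)) (XT.lf (nat_lit 0) (nat_lit 2842056029) (nat_lit 152) (nat_lit 14941711218) (nat_lit 152) (nat_lit 1221641724) (nat_lit 18) (nat_lit 4) (nat_lit 20) (nat_lit 5) (nat_lit 20) (nat_lit 4) (nat_lit 343) (nat_lit 234) (nat_lit 203)))))) (XT.nd (nat_lit 468) (nat_lit 304) (nat_lit 0) (XT.nd (nat_lit 234) (nat_lit 0) (nat_lit 0) (XT.nd (nat_lit 78) (nat_lit 76) (nat_lit 0) (XT.lf (nat_lit 0) (nat_lit 1759204390) (nat_lit 228) (nat_lit 10415279428) (nat_lit 76) (nat_lit 7288433494) (nat_lit 17) (nat_lit 5) (nat_lit 20) (nat_lit 5) (nat_lit 18) (nat_lit 4) (nat_lit 344) (nat_lit 234) (nat_lit 202)) (XT.nd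 (nat_lit 78) (nat_lit 76) (nat_lit 0) (XT.lf (nat_lit 0) (nat_lit 4757858938) (nat_lit 228) (nat_lit 4586646469) (nat_lit 76) (nat_lit 10590736233) (nat_lit 17) (nat_lit 5) (nat_lit 20) (nat_lit 5) (nat_lit 18) (nat_lit 4) (nat_lit 345) (nat_lit 234) (nat_lit 201)) (XT.lf (nat_lit 0) (nat_lit 1366038410) (nat_lit 76) (nat_lit 6447873520) (nat_lit 152) (nat_lit 12608841096) (nat_lit 16) (nat_lit 5) (nat_lit 17) (nat_lit 5) (nat_lit 18) (nat_lit 4) (nat_lit 346) (nat_lit 234) (nat_lit 200)))) (XT.nd (nat_lit 78) (nat_lit 0) (nat_lit 0) (XT.lf (nat_lit 0) (nat_lit 7514621641) (nat_lit 76) (nat_lit 3448242138) (nat_lit 152) (nat_lit 9962028768) (nat_lit 16) (nat_lit 5) (nat_lit 17) (nat_lit 5) (nat_lit 18) (nat_lit 4) (nat_lit 347) (nat_lit 234) (nat_lit 199)) (XT.nd (nat_lit 78) (nat_lit 0) (nat_lit 0) (XT.lf (nat_lit 0) (nat_lit 13773192513) (nat_lit 76) (nat_lit 389306361) (nat_lit 152) (nat_lit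 7280949105) (nat_lit 16) (nat_lit 5) (nat_lit 17) (nat_lit 5) (nat_lit 18) (nat_lit 4) (nat_lit 348) (nat_lit 234) (nat_lit 198)) (XT.lf (nat_lit 0) (nat_lit 17441870888) (nat_lit 152) (nat_lit 1857910624) (nat_lit 0) (nat_lit 2678303181) (nat_lit 16) (nat_lit 5) (nat_lit 18) (nat_lit 4) (nat_lit 16) (nat_lit 4) (nat_lit 349) (nat_lit 234) (nat_lit 197))))) (XT.nd (nat_lit 234) (nat_lit 76) (nat_lit 0) (XT.nd (nat_lit 78) (nat_lit 76) (nat_lit 0) (XT.lf (nat_lit 0) (nat_lit 4134436709) (nat_lit 152) (nat_lit 16687234726) (nat_lit 152) (nat_lit 1707063629) (nat_lit 14) (nat_lit 4) (nat_lit 16) (nat_lit 5) (nat_lit 16) (nat_lit 4) (nat_lit 350) (nat_lit 234) (nat_lit 196)) (XT.nd (nat_lit 78) (nat_lit 0) (nat_lit 0) (XT.lf (nat_lit 0) (nat_lit 1160898232) (nat_lit 228) (nat_lit 12833842235) (nat_lit 76) (nat_lit 9101525647) (nat_lit 13) (nat_lit 5) (nat_lit 16) (nat_lit 5) (nat_lit 14) (nat_lit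 4) (nat_lit 351) (nat_lit 234) (nat_lit 195)) (XT.lf (nat_lit 0) (nat_lit 4040338496) (nat_lit 228) (nat_lit 7192747968) (nat_lit 76) (nat_lit 12448470012) (nat_lit 13) (nat_lit 5) (nat_lit 16) (nat_lit 5) (nat_lit 14) (nat_lit 4) (nat_lit 352) (nat_lit 234) (nat_lit 194)))) (XT.nd (nat_lit 78) (nat_lit 76) (nat_lit 0) (XT.lf (nat_lit 0) (nat_lit 6967084137) (nat_lit 228) (nat_lit 1449677103) (nat_lit 76) (nat_lit 15868848609) (nat_lit 13) (nat_lit 5) (nat_lit 16) (nat_lit 5) (nat_lit 14) (nat_lit 4) (nat_lit 353) (nat_lit 234) (nat_lit 193)) (XT.nd (nat_lit 78) (nat_lit 0) (nat_lit 0) (XT.lf (nat_lit 0) (nat_lit 4487964939) (nat_lit 76) (nat_lit 5498868630) (nat_lit 152) (nat_lit 14920826242) (nat_lit 12) (nat_lit 5) (nat_lit 13) (nat_lit 5) (nat_lit 14) (nat_lit 4) (nat_lit 354) (nat_lit 234) (nat_lit 192)) (XT.lf (nat_lit 0) (nat_lit 10568796061) (nat_lit 76) (nat_lit 2505562192) (nat_lit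 152) (nat_lit 12474727667) (nat_lit 12) (nat_lit 5) (nat_lit 13) (nat_lit 5) (nat_lit 14) (nat_lit 4) (nat_lit 355) (nat_lit 234) (nat_lit 191))))))))
noncomputable def xc46 : XT := (XT.nd (nat_lit 1794) (nat_lit 228) (nat_lit 0) (XT.nd (nat_lit 858) (nat_lit 228) (nat_lit 0) (XT.nd (nat_lit 390) (nat_lit 76) (nat_lit 0) (XT.nd (nat_lit 156) (nat_lit 152) (nat_lit 0) (XT.nd (nat_lit 78) (nat_lit 0) (nat_lit 0) (XT.lf (nat_lit 0) (nat_lit 16223441349) (nat_lit 152) (nat_lit 9446894668) (nat_lit 0) (nat_lit 540380065) (nat_lit 12) (nat_lit 5) (nat_lit 14) (nat_lit 4) (nat_lit 12) (nat_lit 4) (nat_lit 356) (nat_lit 234) (nat_lit 190)) (XT.lf (nat_lit 0) (nat_lit 19456252028) (nat_lit 152) (nat_lit 3834091840) (nat_lit 0) (nat_lit 3602202029) (nat_lit 12) (nat_lit 5) (nat_lit 14) (nat_lit 4) (nat_lit 12) (nat_lit 4) (nat_lit 357) (nat_lit 234) (nat_lit 189))) (XT.nd (nat_lit 78) (nat_lit 76) (nat_lit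 0) (XT.lf (nat_lit 0) (nat_lit 1924665161) (nat_lit 76) (nat_lit 20845365978) (nat_lit 76) (nat_lit 4825307517) (nat_lit 11) (nat_lit 4) (nat_lit 12) (nat_lit 5) (nat_lit 12) (nat_lit 4) (nat_lit 358) (nat_lit 234) (nat_lit 188)) (XT.nd (nat_lit 78) (nat_lit 76) (nat_lit 0) (XT.lf (nat_lit 0) (nat_lit 7875381044) (nat_lit 76) (nat_lit 18312476810) (nat_lit 76) (nat_lit 2131245085) (nat_lit 11) (nat_lit 4) (nat_lit 12) (nat_lit 5) (nat_lit 12) (nat_lit 4) (nat_lit 359) (nat_lit 234) (nat_lit 187)) (XT.lf (nat_lit 0) (nat_lit 597636512) (nat_lit 152) (nat_lit 15124508501) (nat_lit 76) (nat_lit 13343278049) (nat_lit 10) (nat_lit 5) (nat_lit 12) (nat_lit 5) (nat_lit 11) (nat_lit 4) (nat_lit 360) (nat_lit 234) (nat_lit 186))))) (XT.nd (nat_lit 234) (nat_lit 0) (nat_lit 0) (XT.nd (nat_lit 78) (nat_lit 76) (nat_lit 0) (XT.lf (nat_lit 0) (nat_lit 3333079722) (nat_lit 152) (nat_lit 9723480044) (nat_lit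 76) (nat_lit 16777938546) (nat_lit 10) (nat_lit 5) (nat_lit 12) (nat_lit 5) (nat_lit 11) (nat_lit 4) (nat_lit 361) (nat_lit 234) (nat_lit 185)) (XT.nd (nat_lit 78) (nat_lit 76) (nat_lit 0) (XT.lf (nat_lit 0) (nat_lit 6119063005) (nat_lit 152) (nat_lit 4215430347) (nat_lit 76) (nat_lit 20293121947) (nat_lit 10) (nat_lit 5) (nat_lit 12) (nat_lit 5) (nat_lit 11) (nat_lit 4) (nat_lit 362) (nat_lit 234) (nat_lit 184)) (XT.lf (nat_lit 0) (nat_lit 1432404826) (nat_lit 76) (nat_lit 7539385041) (nat_lit 152) (nat_lit 22473264097) (nat_lit 9) (nat_lit 5) (nat_lit 10) (nat_lit 5) (nat_lit 11) (nat_lit 4) (nat_lit 363) (nat_lit 234) (nat_lit 183)))) (XT.nd (nat_lit 78) (nat_lit 0) (nat_lit 0) (XT.lf (nat_lit 0) (nat_lit 7283203454) (nat_lit 76) (nat_lit 4639240650) (nat_lit 152) (nat_lit 20364223738) (nat_lit 9) (nat_lit 5) (nat_lit 10) (nat_lit 5) (nat_lit 11) (nat_lit 4) (nat_lit 364) (nat_lit 234) (nat_lit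 182)) (XT.nd (nat_lit 78) (nat_lit 0) (nat_lit 0) (XT.lf (nat_lit 0) (nat_lit 13258182555) (nat_lit 76) (nat_lit 1674093654) (nat_lit 152) (nat_lit 18222155947) (nat_lit 9) (nat_lit 5) (nat_lit 10) (nat_lit 5) (nat_lit 11) (nat_lit 4) (nat_lit 365) (nat_lit 234) (nat_lit 181)) (XT.lf (nat_lit 0) (nat_lit 18016976276) (nat_lit 152) (nat_lit 14699602305) (nat_lit 0) (nat_lit 1332134759) (nat_lit 9) (nat_lit 5) (nat_lit 11) (nat_lit 4) (nat_lit 9) (nat_lit 4) (nat_lit 366) (nat_lit 234) (nat_lit 180)))))) (XT.nd (nat_lit 468) (nat_lit 152) (nat_lit 0) (XT.nd (nat_lit 234) (nat_lit 0) (nat_lit 0) (XT.nd (nat_lit 78) (nat_lit 76) (nat_lit 0) (XT.lf (nat_lit 0) (nat_lit 21182935753) (nat_lit 152) (nat_lit 9412677820) (nat_lit 0) (nat_lit 4374568350) (nat_lit 9) (nat_lit 5) (nat_lit 11) (nat_lit 4) (nat_lit 9) (nat_lit 4) (nat_lit 367) (nat_lit 234) (nat_lit 179)) (XT.nd (nat_lit 78) (nat_lit 76) (nat_lit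 0) (XT.lf (nat_lit 0) (nat_lit 24416828602) (nat_lit 152) (nat_lit 4014764091) (nat_lit 0) (nat_lit 7488533154) (nat_lit 9) (nat_lit 5) (nat_lit 11) (nat_lit 4) (nat_lit 9) (nat_lit 4) (nat_lit 368) (nat_lit 234) (nat_lit 178)) (XT.lf (nat_lit 0) (nat_lit 1528685668) (nat_lit 76) (nat_lit 26207489546) (nat_lit 76) (nat_lit 9162759104) (nat_lit 8) (nat_lit 4) (nat_lit 9) (nat_lit 5) (nat_lit 9) (nat_lit 4) (nat_lit 369) (nat_lit 234) (nat_lit 177)))) (XT.nd (nat_lit 78) (nat_lit 0) (nat_lit 0) (XT.lf (nat_lit 0) (nat_lit 7274959354) (nat_lit 76) (nat_lit 23894751171) (nat_lit 76) (nat_lit 6736977043) (nat_lit 8) (nat_lit 4) (nat_lit 9) (nat_lit 5) (nat_lit 9) (nat_lit 4) (nat_lit 370) (nat_lit 234) (nat_lit 176)) (XT.nd (nat_lit 78) (nat_lit 0) (nat_lit 0) (XT.lf (nat_lit 0) (nat_lit 13149176306) (nat_lit 76) (nat_lit 21531897972) (nat_lit 76) (nat_lit 4264372695) (nat_lit 8) (nat_lit 4) (nat_lit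 9) (nat_lit 5) (nat_lit 9) (nat_lit 4) (nat_lit 371) (nat_lit 234) (nat_lit 175)) (XT.lf (nat_lit 0) (nat_lit 19156469334) (nat_lit 76) (nat_lit 19116865323) (nat_lit 76) (nat_lit 1742785531) (nat_lit 8) (nat_lit 4) (nat_lit 9) (nat_lit 5) (nat_lit 9) (nat_lit 4) (nat_lit 372) (nat_lit 234) (nat_lit 174))))) (XT.nd (nat_lit 234) (nat_lit 76) (nat_lit 0) (XT.nd (nat_lit 78) (nat_lit 0) (nat_lit 0) (XT.lf (nat_lit 0) (nat_lit 813791725) (nat_lit 152) (nat_lit 15825533573) (nat_lit 76) (nat_lit 24480078102) (nat_lit 7) (nat_lit 5) (nat_lit 9) (nat_lit 5) (nat_lit 8) (nat_lit 4) (nat_lit 373) (nat_lit 234) (nat_lit 173)) (XT.nd (nat_lit 78) (nat_lit 0) (nat_lit 0) (XT.lf (nat_lit 0) (nat_lit 3388752465) (nat_lit 152) (nat_lit 10698801120) (nat_lit 76) (nat_lit 28168428627) (nat_lit 7) (nat_lit 5) (nat_lit 9) (nat_lit 5) (nat_lit 8) (nat_lit 4) (nat_lit 374) (nat_lit 234) (nat_lit 172)) (XT.lf (nat_lit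 0) (nat_lit 6018354676) (nat_lit 152) (nat_lit 5458221107) (nat_lit 76) (nat_lit 31950776550) (nat_lit 7) (nat_lit 5) (nat_lit 9) (nat_lit 5) (nat_lit 8) (nat_lit 4) (nat_lit 375) (nat_lit 234) (nat_lit 171)))) (XT.nd (nat_lit 78) (nat_lit 76) (nat_lit 0) (XT.lf (nat_lit 0) (nat_lit 8704896069) (nat_lit 152) (nat_lit 99214386) (nat_lit 76) (nat_lit 35830426837) (nat_lit 7) (nat_lit 5) (nat_lit 9) (nat_lit 5) (nat_lit 8) (nat_lit 4) (nat_lit 376) (nat_lit 234) (nat_lit 170)) (XT.nd (nat_lit 78) (nat_lit 0) (nat_lit 0) (XT.lf (nat_lit 0) (nat_lit 5490031967) (nat_lit 76) (nat_lit 6013465685) (nat_lit 152) (nat_lit 34373511049) (nat_lit 6) (nat_lit 5) (nat_lit 7) (nat_lit 5) (nat_lit 8) (nat_lit 4) (nat_lit 377) (nat_lit 234) (nat_lit 169)) (XT.lf (nat_lit 0) (nat_lit 11211697867) (nat_lit 76) (nat_lit 3154313887) (nat_lit 152) (nat_lit 32791358254) (nat_lit 6) (nat_lit 5) (nat_lit 7) (nat_lit 5)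 (nat_lit 8) (nat_lit 4) (nat_lit 378) (nat_lit 234) (nat_lit 168))))))) (XT.nd (nat_lit 936) (nat_lit 152) (nat_lit 0) (XT.nd (nat_lit 468) (nat_lit 76) (nat_lit 0) (XT.nd (nat_lit 234) (nat_lit 0) (nat_lit 0) (XT.nd (nat_lit 78) (nat_lit 0) (nat_lit 0) (XT.lf (nat_lit 0) (nat_lit 17068808266) (nat_lit 76) (nat_lit 225158646) (nat_lit 152) (nat_lit 31182802245) (nat_lit 6) (nat_lit 5) (nat_lit 7) (nat_lit 5) (nat_lit 8) (nat_lit 4) (nat_lit 379) (nat_lit 234) (nat_lit 167)) (XT.nd (nat_lit 78) (nat_lit 0) (nat_lit 0) (XT.lf (nat_lit 0) (nat_lit 20316611521) (nat_lit 152) (nat_lit 26796567982) (nat_lit 0) (nat_lit 2722378818) (nat_lit 6) (nat_lit 5) (nat_lit 8) (nat_lit 4) (nat_lit 6) (nat_lit 4) (nat_lit 380) (nat_lit 234) (nat_lit 166)) (XT.lf (nat_lit 0) (nat_lit 23412760511) (nat_lit 152) (nat_lit 22083637823) (nat_lit 0) (nat_lit 5739241242) (nat_lit 6) (nat_lit 5) (nat_lit 8) (nat_lit 4)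 (nat_lit 6) (nat_lit 4) (nat_lit 381) (nat_lit 234) (nat_lit 165)))) (XT.nd (nat_lit 78) (nat_lit 0) (nat_lit 0) (XT.lf (nat_lit 0) (nat_lit 26582954892) (nat_lit 152) (nat_lit 17262887960) (nat_lit 0) (nat_lit 8832458374) (nat_lit 6) (nat_lit 5) (nat_lit 8) (nat_lit 4) (nat_lit 6) (nat_lit 4) (nat_lit 382) (nat_lit 234) (nat_lit 164)) (XT.nd (nat_lit 78) (nat_lit 0) (nat_lit 0) (XT.lf (nat_lit 0) (nat_lit 29829964737) (nat_lit 152) (nat_lit 12330106086) (nat_lit 0) (nat_lit 12004733027) (nat_lit 6) (nat_lit 5) (nat_lit 8) (nat_lit 4) (nat_lit 6) (nat_lit 4) (nat_lit 383) (nat_lit 234) (nat_lit 163)) (XT.lf (nat_lit 0) (nat_lit 33156627240) (nat_lit 152) (nat_lit 7280982003) (nat_lit 0) (nat_lit 15258837090) (nat_lit 6) (nat_lit 5) (nat_lit 8) (nat_lit 4) (nat_lit 6) (nat_lit 4) (nat_lit 384) (nat_lit 234) (nat_lit 162))))) (XT.nd (nat_lit 234) (nat_lit 0) (nat_lit 0) (XT.nd (nat_lit 78) (nat_lit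 76) (nat_lit 0) (XT.lf (nat_lit 0) (nat_lit 36565849192) (nat_lit 152) (nat_lit 2111103856) (nat_lit 0) (nat_lit 18597613956) (nat_lit 6) (nat_lit 5) (nat_lit 8) (nat_lit 4) (nat_lit 6) (nat_lit 4) (nat_lit 385) (nat_lit 234) (nat_lit 161)) (XT.nd (nat_lit 78) (nat_lit 0) (nat_lit 0) (XT.lf (nat_lit 0) (nat_lit 3247414476) (nat_lit 76) (nat_lit 36844411184) (nat_lit 76) (nat_lit 18807782659) (nat_lit 5) (nat_lit 4) (nat_lit 6) (nat_lit 5) (nat_lit 6) (nat_lit 4) (nat_lit 386) (nat_lit 234) (nat_lit 160)) (XT.lf (nat_lit 0) (nat_lit 8780431410) (nat_lit 76) (nat_lit 34947933383) (nat_lit 76) (nat_lit 16844903608) (nat_lit 5) (nat_lit 4) (nat_lit 6) (nat_lit 5) (nat_lit 6) (nat_lit 4) (nat_lit 387) (nat_lit 234) (nat_lit 159)))) (XT.nd (nat_lit 78) (nat_lit 0) (nat_lit 0) (XT.lf (nat_lit 0) (nat_lit 14450766512) (nat_lit 76) (nat_lit 33007180540) (nat_lit 76) (nat_lit 14839683531) (nat_lit 5) (nat_lit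 4) (nat_lit 6) (nat_lit 5) (nat_lit 6) (nat_lit 4) (nat_lit 388) (nat_lit 234) (nat_lit 158)) (XT.nd (nat_lit 78) (nat_lit 0) (nat_lit 0) (XT.lf (nat_lit 0) (nat_lit 20263374445) (nat_lit 76) (nat_lit 31020456852) (nat_lit 76) (nat_lit 12790370296) (nat_lit 5) (nat_lit 4) (nat_lit 6) (nat_lit 5) (nat_lit 6) (nat_lit 4) (nat_lit 389) (nat_lit 234) (nat_lit 157)) (XT.lf (nat_lit 0) (nat_lit 26223334185) (nat_lit 76) (nat_lit 28986026346) (nat_lit 76) (nat_lit 10695173239) (nat_lit 5) (nat_lit 4) (nat_lit 6) (nat_lit 5) (nat_lit 6) (nat_lit 4) (nat_lit 390) (nat_lit 234) (nat_lit 156)))))) (XT.nd (nat_lit 468) (nat_lit 76) (nat_lit 0) (XT.nd (nat_lit 234) (nat_lit 76) (nat_lit 0) (XT.nd (nat_lit 78) (nat_lit 0) (nat_lit 0) (XT.lf (nat_lit 0) (nat_lit 32335853466) (nat_lit 76) (nat_lit 26902111364) (nat_lit 76) (nat_lit 8552261606) (nat_lit 5) (nat_lit 4) (nat_lit 6) (nat_lit 5) (nat_lit 6) (nat_lit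 4) (nat_lit 391) (nat_lit 234) (nat_lit 155)) (XT.nd (nat_lit 78) (nat_lit 0) (nat_lit 0) (XT.lf (nat_lit 0) (nat_lit 38606273323) (nat_lit 76) (nat_lit 24766891010) (nat_lit 76) (nat_lit 6359762950) (nat_lit 5) (nat_lit 4) (nat_lit 6) (nat_lit 5) (nat_lit 6) (nat_lit 4) (nat_lit 392) (nat_lit 234) (nat_lit 154)) (XT.lf (nat_lit 0) (nat_lit 45040072763) (nat_lit 76) (nat_lit 22578499558) (nat_lit 76) (nat_lit 4115761496) (nat_lit 5) (nat_lit 4) (nat_lit 6) (nat_lit 5) (nat_lit 6) (nat_lit 4) (nat_lit 393) (nat_lit 234) (nat_lit 153)))) (XT.nd (nat_lit 78) (nat_lit 76) (nat_lit 0) (XT.lf (nat_lit 0) (nat_lit 51642873554) (nat_lit 76) (nat_lit 20335024820) (nat_lit 76) (nat_lit 1818296465) (nat_lit 5) (nat_lit 4) (nat_lit 6) (nat_lit 5) (nat_lit 6) (nat_lit 4) (nat_lit 394) (nat_lit 234) (nat_lit 152)) (XT.nd (nat_lit 78) (nat_lit 0) (nat_lit 0) (XT.lf (nat_lit 0) (nat_lit 524206890) (nat_lit 152)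 (nat_lit 17505006128) (nat_lit 76) (nat_lit 57890944781) (nat_lit 4) (nat_lit 5) (nat_lit 6) (nat_lit 5) (nat_lit 5) (nat_lit 4) (nat_lit 395) (nat_lit 234) (nat_lit 151)) (XT.lf (nat_lit 0) (nat_lit 2887633207) (nat_lit 152) (nat_lit 12758141734) (nat_lit 76) (nat_lit 62461917009) (nat_lit 4) (nat_lit 5) (nat_lit 6) (nat_lit 5) (nat_lit 5) (nat_lit 4) (nat_lit 396) (nat_lit 234) (nat_lit 150))))) (XT.nd (nat_lit 234) (nat_lit 0) (nat_lit 0) (XT.nd (nat_lit 78) (nat_lit 76) (nat_lit 0) (XT.lf (nat_lit 0) (nat_lit 5309529128) (nat_lit 152) (nat_lit 7891101781) (nat_lit 76) (nat_lit 67160602180) (nat_lit 4) (nat_lit 5) (nat_lit 6) (nat_lit 5) (nat_lit 5) (nat_lit 4) (nat_lit 397) (nat_lit 234) (nat_lit 149)) (XT.nd (nat_lit 78) (nat_lit 76) (nat_lit 0) (XT.lf (nat_lit 0) (nat_lit 7792010872) (nat_lit 152) (nat_lit 2899633516) (nat_lit 76) (nat_lit 71991105940) (nat_lit 4) (nat_lit 5) (nat_lit 6)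 (nat_lit 5) (nat_lit 5) (nat_lit 4) (nat_lit 398) (nat_lit 234) (nat_lit 148)) (XT.lf (nat_lit 0) (nat_lit 2264819321) (nat_lit 76) (nat_lit 8094199107) (nat_lit 152) (nat_lit 74714600626) (nat_lit 3) (nat_lit 5) (nat_lit 4) (nat_lit 5) (nat_lit 5) (nat_lit 4) (nat_lit 399) (nat_lit 234) (nat_lit 147)))) (XT.nd (nat_lit 78) (nat_lit 0) (nat_lit 0) (XT.lf (nat_lit 0) (nat_lit 7622896563) (nat_lit 76) (nat_lit 5397842684) (nat_lit 152) (nat_lit 74514950795) (nat_lit 3) (nat_lit 5) (nat_lit 4) (nat_lit 5) (nat_lit 5) (nat_lit 4) (nat_lit 400) (nat_lit 234) (nat_lit 146)) (XT.nd (nat_lit 78) (nat_lit 0) (nat_lit 0) (XT.lf (nat_lit 0) (nat_lit 13121571632) (nat_lit 76) (nat_lit 2629499693) (nat_lit 152) (nat_lit 74320896124) (nat_lit 3) (nat_lit 5) (nat_lit 4) (nat_lit 5) (nat_lit 5) (nat_lit 4) (nat_lit 401) (nat_lit 234) (nat_lit 145)) (XT.lf (nat_lit 0) (nat_lit 18554450268) (nat_lit 152) (nat_lit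 73921068123) (nat_lit 0) (nat_lit 209087554) (nat_lit 3) (nat_lit 5) (nat_lit 5) (nat_lit 4) (nat_lit 3) (nat_lit 4) (nat_lit 402) (nat_lit 234) (nat_lit 144))))))))
noncomputable def xc47 : XT := (XT.nd (nat_lit 35100) (nat_lit 0) (nat_lit 684) (XT.nd (nat_lit 34164) (nat_lit 0) (nat_lit 1976) (XT.nd (nat_lit 33696) (nat_lit 0) (nat_lit 3268) (XT.nd (nat_lit 33462) (nat_lit 0) (nat_lit 4104) (XT.nd (nat_lit 33384) (nat_lit 0) (nat_lit 4712) (XT.lf (nat_lit 0) (nat_lit 21457289428) (nat_lit 152) (nat_lit 70846127209) (nat_lit 0) (nat_lit 3071752865) (nat_lit 3) (nat_lit 5) (nat_lit 5) (nat_lit 4) (nat_lit 3) (nat_lit 4) (nat_lit 403) (nat_lit 234) (nat_lit 143)) (XT.lf (nat_lit 0) (nat_lit 2835912868) (nat_lit 304) (nat_lit 1029158878) (nat_lit 304) (nat_lit 1029158878) (nat_lit 65) (nat_lit 4) (nat_lit 69) (nat_lit 5) (nat_lit 69) (nat_lit 4) (nat_lit 310) (nat_lit 235) (nat_lit 235))) (XT.nd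 (nat_lit 78) (nat_lit 304) (nat_lit 0) (XT.lf (nat_lit 0) (nat_lit 1382609580) (nat_lit 304) (nat_lit 8024237185) (nat_lit 0) (nat_lit 538929910) (nat_lit 61) (nat_lit 5) (nat_lit 65) (nat_lit 4) (nat_lit 61) (nat_lit 4) (nat_lit 311) (nat_lit 235) (nat_lit 234)) (XT.nd (nat_lit 78) (nat_lit 304) (nat_lit 0) (XT.lf (nat_lit 0) (nat_lit 4862879287) (nat_lit 304) (nat_lit 2045039257) (nat_lit 0) (nat_lit 3200093143) (nat_lit 61) (nat_lit 5) (nat_lit 65) (nat_lit 4) (nat_lit 61) (nat_lit 4) (nat_lit 312) (nat_lit 235) (nat_lit 233)) (XT.lf (nat_lit 0) (nat_lit 4074052318) (nat_lit 304) (nat_lit 4330262959) (nat_lit 304) (nat_lit 1872227809) (nat_lit 57) (nat_lit 4) (nat_lit 61) (nat_lit 5) (nat_lit 61) (nat_lit 4) (nat_lit 313) (nat_lit 235) (nat_lit 232))))) (XT.nd (nat_lit 234) (nat_lit 304) (nat_lit 0) (XT.nd (nat_lit 78) (nat_lit 456) (nat_lit 0) (XT.lf (nat_lit 0) (nat_lit 1509395583) (nat_lit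 380) (nat_lit 166048528) (nat_lit 76) (nat_lit 8776185182) (nat_lit 56) (nat_lit 5) (nat_lit 61) (nat_lit 5) (nat_lit 57) (nat_lit 4) (nat_lit 314) (nat_lit 235) (nat_lit 231)) (XT.nd (nat_lit 78) (nat_lit 228) (nat_lit 0) (XT.lf (nat_lit 0) (nat_lit 4943758663) (nat_lit 304) (nat_lit 4608153747) (nat_lit 0) (nat_lit 1079952817) (nat_lit 53) (nat_lit 5) (nat_lit 57) (nat_lit 4) (nat_lit 53) (nat_lit 4) (nat_lit 315) (nat_lit 235) (nat_lit 230)) (XT.lf (nat_lit 0) (nat_lit 1480318869) (nat_lit 228) (nat_lit 6954534987) (nat_lit 228) (nat_lit 2384160700) (nat_lit 50) (nat_lit 4) (nat_lit 53) (nat_lit 5) (nat_lit 53) (nat_lit 4) (nat_lit 316) (nat_lit 235) (nat_lit 229)))) (XT.nd (nat_lit 78) (nat_lit 228) (nat_lit 0) (XT.lf (nat_lit 0) (nat_lit 967505463) (nat_lit 304) (nat_lit 3292326973) (nat_lit 76) (nat_lit 6752708185) (nat_lit 49) (nat_lit 5) (nat_lit 53) (nat_lit 5) (nat_lit 50) (nat_lit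 4) (nat_lit 317) (nat_lit 235) (nat_lit 228)) (XT.nd (nat_lit 78) (nat_lit 0) (nat_lit 0) (XT.lf (nat_lit 0) (nat_lit 2853333386) (nat_lit 228) (nat_lit 1469673989) (nat_lit 304) (nat_lit 6889728172) (nat_lit 46) (nat_lit 5) (nat_lit 49) (nat_lit 5) (nat_lit 50) (nat_lit 4) (nat_lit 318) (nat_lit 235) (nat_lit 227)) (XT.lf (nat_lit 0) (nat_lit 7750792951) (nat_lit 304) (nat_lit 2295958364) (nat_lit 0) (nat_lit 1373140716) (nat_lit 46) (nat_lit 5) (nat_lit 50) (nat_lit 4) (nat_lit 46) (nat_lit 4) (nat_lit 319) (nat_lit 235) (nat_lit 226)))))) (XT.nd (nat_lit 468) (nat_lit 532) (nat_lit 0) (XT.nd (nat_lit 234) (nat_lit 304) (nat_lit 0) (XT.nd (nat_lit 78) (nat_lit 228) (nat_lit 0) (XT.lf (nat_lit 0) (nat_lit 3899231035) (nat_lit 228) (nat_lit 7360957249) (nat_lit 228) (nat_lit 373812870) (nat_lit 43) (nat_lit 4) (nat_lit 46) (nat_lit 5) (nat_lit 46) (nat_lit 4) (nat_lit 320) (nat_lit 235) (nat_lit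 225)) (XT.nd (nat_lit 78) (nat_lit 152) (nat_lit 0) (XT.lf (nat_lit 0) (nat_lit 2911811234) (nat_lit 304) (nat_lit 1667907519) (nat_lit 76) (nat_lit 7275526715) (nat_lit 42) (nat_lit 5) (nat_lit 46) (nat_lit 5) (nat_lit 43) (nat_lit 4) (nat_lit 321) (nat_lit 235) (nat_lit 224)) (XT.lf (nat_lit 0) (nat_lit 4557308082) (nat_lit 152) (nat_lit 1704119113) (nat_lit 228) (nat_lit 5822493429) (nat_lit 40) (nat_lit 5) (nat_lit 42) (nat_lit 5) (nat_lit 43) (nat_lit 4) (nat_lit 322) (nat_lit 235) (nat_lit 223)))) (XT.nd (nat_lit 78) (nat_lit 304) (nat_lit 0) (XT.lf (nat_lit 0) (nat_lit 9670422853) (nat_lit 228) (nat_lit 1437371186) (nat_lit 0) (nat_lit 1212985205) (nat_lit 40) (nat_lit 5) (nat_lit 43) (nat_lit 4) (nat_lit 40) (nat_lit 4) (nat_lit 323) (nat_lit 235) (nat_lit 222)) (XT.nd (nat_lit 78) (nat_lit 0) (nat_lit 0) (XT.lf (nat_lit 0) (nat_lit 599667361) (nat_lit 304) (nat_lit 7765866182) (nat_lit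 76) (nat_lit 4199274101) (nat_lit 36) (nat_lit 5) (nat_lit 40) (nat_lit 5) (nat_lit 37) (nat_lit 4) (nat_lit 324) (nat_lit 235) (nat_lit 221)) (XT.lf (nat_lit 0) (nat_lit 3840640960) (nat_lit 304) (nat_lit 1697129850) (nat_lit 76) (nat_lit 7279279601) (nat_lit 36) (nat_lit 5) (nat_lit 40) (nat_lit 5) (nat_lit 37) (nat_lit 4) (nat_lit 325) (nat_lit 235) (nat_lit 220))))) (XT.nd (nat_lit 234) (nat_lit 152) (nat_lit 0) (XT.nd (nat_lit 78) (nat_lit 228) (nat_lit 0) (XT.lf (nat_lit 0) (nat_lit 4538511152) (nat_lit 152) (nat_lit 2617998720) (nat_lit 228) (nat_lit 5921100519) (nat_lit 34) (nat_lit 5) (nat_lit 36) (nat_lit 5) (nat_lit 37) (nat_lit 4) (nat_lit 326) (nat_lit 235) (nat_lit 219)) (XT.nd (nat_lit 78) (nat_lit 228) (nat_lit 0) (XT.lf (nat_lit 0) (nat_lit 10527515979) (nat_lit 228) (nat_lit 2457744144) (nat_lit 0) (nat_lit 362134799) (nat_lit 34) (nat_lit 5) (nat_lit 37) (nat_lit 4) (nat_lit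 34) (nat_lit 4) (nat_lit 327) (nat_lit 235) (nat_lit 218)) (XT.lf (nat_lit 0) (nat_lit 365488040) (nat_lit 228) (nat_lit 9876959852) (nat_lit 76) (nat_lit 3382837838) (nat_lit 31) (nat_lit 5) (nat_lit 34) (nat_lit 5) (nat_lit 32) (nat_lit 4) (nat_lit 328) (nat_lit 235) (nat_lit 217)))) (XT.nd (nat_lit 78) (nat_lit 152) (nat_lit 0) (XT.lf (nat_lit 0) (nat_lit 3551511919) (nat_lit 228) (nat_lit 3849641471) (nat_lit 76) (nat_lit 6510740106) (nat_lit 31) (nat_lit 5) (nat_lit 34) (nat_lit 5) (nat_lit 32) (nat_lit 4) (nat_lit 329) (nat_lit 235) (nat_lit 216)) (XT.nd (nat_lit 78) (nat_lit 0) (nat_lit 0) (XT.lf (nat_lit 0) (nat_lit 2304765109) (nat_lit 152) (nat_lit 4489058193) (nat_lit 228) (nat_lit 7414523924) (nat_lit 29) (nat_lit 5) (nat_lit 31) (nat_lit 5) (nat_lit 32) (nat_lit 4) (nat_lit 330) (nat_lit 235) (nat_lit 215)) (XT.lf (nat_lit 0) (nat_lit 8624979846) (nat_lit 152) (nat_lit 1486700219)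 (nat_lit 228) (nat_lit 4402733147) (nat_lit 29) (nat_lit 5) (nat_lit 31) (nat_lit 5) (nat_lit 32) (nat_lit 4) (nat_lit 331) (nat_lit 235) (nat_lit 214))))))) (XT.nd (nat_lit 936) (nat_lit 456) (nat_lit 0) (XT.nd (nat_lit 468) (nat_lit 456) (nat_lit 0) (XT.nd (nat_lit 234) (nat_lit 152) (nat_lit 0) (XT.nd (nat_lit 78) (nat_lit 76) (nat_lit 0) (XT.lf (nat_lit 0) (nat_lit 197177722) (nat_lit 152) (nat_lit 13290046023) (nat_lit 152) (nat_lit 1343757871) (nat_lit 27) (nat_lit 4) (nat_lit 29) (nat_lit 5) (nat_lit 29) (nat_lit 4) (nat_lit 332) (nat_lit 235) (nat_lit 213)) (XT.nd (nat_lit 78) (nat_lit 0) (nat_lit 0) (XT.lf (nat_lit 0) (nat_lit 1787493322) (nat_lit 228) (nat_lit 8697492061) (nat_lit 76) (nat_lit 4671128817) (nat_lit 26) (nat_lit 5) (nat_lit 29) (nat_lit 5) (nat_lit 27) (nat_lit 4) (nat_lit 333) (nat_lit 235) (nat_lit 212)) (XT.lf (nat_lit 0) (nat_lit 4928379788) (nat_lit 228) (nat_lit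 2690245305) (nat_lit 76) (nat_lit 7873754816) (nat_lit 26) (nat_lit 5) (nat_lit 29) (nat_lit 5) (nat_lit 27) (nat_lit 4) (nat_lit 334) (nat_lit 235) (nat_lit 211)))) (XT.nd (nat_lit 78) (nat_lit 0) (nat_lit 0) (XT.lf (nat_lit 0) (nat_lit 3473890560) (nat_lit 152) (nat_lit 4667370146) (nat_lit 228) (nat_lit 7698197579) (nat_lit 24) (nat_lit 5) (nat_lit 26) (nat_lit 5) (nat_lit 27) (nat_lit 4) (nat_lit 335) (nat_lit 235) (nat_lit 210)) (XT.nd (nat_lit 78) (nat_lit 0) (nat_lit 0) (XT.lf (nat_lit 0) (nat_lit 9787874783) (nat_lit 152) (nat_lit 1634947044) (nat_lit 228) (nat_lit 4775014421) (nat_lit 24) (nat_lit 5) (nat_lit 26) (nat_lit 5) (nat_lit 27) (nat_lit 4) (nat_lit 336) (nat_lit 235) (nat_lit 209)) (XT.lf (nat_lit 0) (nat_lit 14763533546) (nat_lit 228) (nat_lit 378912878) (nat_lit 0) (nat_lit 1425752429) (nat_lit 24) (nat_lit 5) (nat_lit 27) (nat_lit 4) (nat_lit 24) (nat_lit 4) (nat_lit 337)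 (nat_lit 235) (nat_lit 208))))) (XT.nd (nat_lit 234) (nat_lit 152) (nat_lit 0) (XT.nd (nat_lit 78) (nat_lit 76) (nat_lit 0) (XT.lf (nat_lit 0) (nat_lit 1250784814) (nat_lit 228) (nat_lit 11116777322) (nat_lit 76) (nat_lit 4581185356) (nat_lit 21) (nat_lit 5) (nat_lit 24) (nat_lit 5) (nat_lit 22) (nat_lit 4) (nat_lit 338) (nat_lit 235) (nat_lit 207)) (XT.nd (nat_lit 78) (nat_lit 76) (nat_lit 0) (XT.lf (nat_lit 0) (nat_lit 4313583197) (nat_lit 228) (nat_lit 5208121246) (nat_lit 76) (nat_lit 7819963205) (nat_lit 21) (nat_lit 5) (nat_lit 24) (nat_lit 5) (nat_lit 22) (nat_lit 4) (nat_lit 339) (nat_lit 235) (nat_lit 206)) (XT.lf (nat_lit 0) (nat_lit 809548376) (nat_lit 76) (nat_lit 6616103475) (nat_lit 152) (nat_lit 10322050314) (nat_lit 20) (nat_lit 5) (nat_lit 21) (nat_lit 5) (nat_lit 22) (nat_lit 4) (nat_lit 340) (nat_lit 235) (nat_lit 205)))) (XT.nd (nat_lit 78) (nat_lit 152) (nat_lit 0) (XT.lf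 (nat_lit 0) (nat_lit 7031290081) (nat_lit 76) (nat_lit 3602656622) (nat_lit 152) (nat_lit 7531932034) (nat_lit 20) (nat_lit 5) (nat_lit 21) (nat_lit 5) (nat_lit 22) (nat_lit 4) (nat_lit 341) (nat_lit 235) (nat_lit 204)) (XT.nd (nat_lit 78) (nat_lit 152) (nat_lit 0) (XT.lf (nat_lit 0) (nat_lit 13358888516) (nat_lit 76) (nat_lit 531322585) (nat_lit 152) (nat_lit 4707883455) (nat_lit 20) (nat_lit 5) (nat_lit 21) (nat_lit 5) (nat_lit 22) (nat_lit 4) (nat_lit 342) (nat_lit 235) (nat_lit 203)) (XT.lf (nat_lit 0) (nat_lit 742638525) (nat_lit 152) (nat_lit 16486788885) (nat_lit 152) (nat_lit 1814335766) (nat_lit 18) (nat_lit 4) (nat_lit 20) (nat_lit 5) (nat_lit 20) (nat_lit 4) (nat_lit 343) (nat_lit 235) (nat_lit 202)))))) (XT.nd (nat_lit 468) (nat_lit 304) (nat_lit 0) (XT.nd (nat_lit 234) (nat_lit 76) (nat_lit 0) (XT.nd (nat_lit 78) (nat_lit 0) (nat_lit 0) (XT.lf (nat_lit 0) (nat_lit 1154892120) (nat_lit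 228) (nat_lit 12586657888) (nat_lit 76) (nat_lit 5760608489) (nat_lit 17) (nat_lit 5) (nat_lit 20) (nat_lit 5) (nat_lit 18) (nat_lit 4) (nat_lit 344) (nat_lit 235) (nat_lit 201)) (XT.nd (nat_lit 78) (nat_lit 0) (nat_lit 0) (XT.lf (nat_lit 0) (nat_lit 4131038102) (nat_lit 228) (nat_lit 6796184238) (nat_lit 76) (nat_lit 9047955689) (nat_lit 17) (nat_lit 5) (nat_lit 20) (nat_lit 5) (nat_lit 18) (nat_lit 4) (nat_lit 345) (nat_lit 235) (nat_lit 200)) (XT.lf (nat_lit 0) (nat_lit 7152106920) (nat_lit 228) (nat_lit 907203560) (nat_lit 76) (nat_lit 12404447825) (nat_lit 17) (nat_lit 5) (nat_lit 20) (nat_lit 5) (nat_lit 18) (nat_lit 4) (nat_lit 346) (nat_lit 235) (nat_lit 199)))) (XT.nd (nat_lit 78) (nat_lit 0) (nat_lit 0) (XT.lf (nat_lit 0) (nat_lit 5186639882) (nat_lit 76) (nat_lit 5083955616) (nat_lit 152) (nat_lit 10696235027) (nat_lit 16) (nat_lit 5) (nat_lit 17) (nat_lit 5) (nat_lit 18) (nat_lit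 4) (nat_lit 347) (nat_lit 235) (nat_lit 198)) (XT.nd (nat_lit 78) (nat_lit 0) (nat_lit 0) (XT.lf (nat_lit 0) (nat_lit 11409594581) (nat_lit 76) (nat_lit 2039695121) (nat_lit 152) (nat_lit 8036742736) (nat_lit 16) (nat_lit 5) (nat_lit 17) (nat_lit 5) (nat_lit 18) (nat_lit 4) (nat_lit 348) (nat_lit 235) (nat_lit 197)) (XT.lf (nat_lit 0) (nat_lit 16692329249) (nat_lit 152) (nat_lit 4283297970) (nat_lit 0) (nat_lit 1046149631) (nat_lit 16) (nat_lit 5) (nat_lit 18) (nat_lit 4) (nat_lit 16) (nat_lit 4) (nat_lit 349) (nat_lit 235) (nat_lit 196))))) (XT.nd (nat_lit 234) (nat_lit 76) (nat_lit 0) (XT.nd (nat_lit 78) (nat_lit 76) (nat_lit 0) (XT.lf (nat_lit 0) (nat_lit 1626053718) (nat_lit 152) (nat_lit 18402092197) (nat_lit 152) (nat_lit 2545618026) (nat_lit 14) (nat_lit 4) (nat_lit 16) (nat_lit 5) (nat_lit 16) (nat_lit 4) (nat_lit 350) (nat_lit 235) (nat_lit 195)) (XT.nd (nat_lit 78) (nat_lit 0) (nat_lit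 0) (XT.lf (nat_lit 0) (nat_lit 318879384) (nat_lit 228) (nat_lit 15413318488) (nat_lit 76) (nat_lit 7409949990) (nat_lit 13) (nat_lit 5) (nat_lit 16) (nat_lit 5) (nat_lit 14) (nat_lit 4) (nat_lit 351) (nat_lit 235) (nat_lit 194)) (XT.lf (nat_lit 0) (nat_lit 3179069485) (nat_lit 228) (nat_lit 9805355368) (nat_lit 76) (nat_lit 10743606621) (nat_lit 13) (nat_lit 5) (nat_lit 16) (nat_lit 5) (nat_lit 14) (nat_lit 4) (nat_lit 352) (nat_lit 235) (nat_lit 193)))) (XT.nd (nat_lit 78) (nat_lit 76) (nat_lit 0) (XT.lf (nat_lit 0) (nat_lit 6087125647) (nat_lit 228) (nat_lit 4094450665) (nat_lit 76) (nat_lit 14151084505) (nat_lit 13) (nat_lit 5) (nat_lit 16) (nat_lit 5) (nat_lit 14) (nat_lit 4) (nat_lit 353) (nat_lit 235) (nat_lit 192)) (XT.nd (nat_lit 78) (nat_lit 0) (nat_lit 0) (XT.lf (nat_lit 0) (nat_lit 1758704388) (nat_lit 76) (nat_lit 7303790244) (nat_lit 152) (nat_lit 15893562404) (nat_lit 12) (nat_lit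 5) (nat_lit 13) (nat_lit 5) (nat_lit 14) (nat_lit 4) (nat_lit 354) (nat_lit 235) (nat_lit 191)) (XT.lf (nat_lit 0) (nat_lit 7808612396) (nat_lit 76) (nat_lit 4323493042) (nat_lit 152) (nat_lit 13465929533) (nat_lit 12) (nat_lit 5) (nat_lit 13) (nat_lit 5) (nat_lit 14) (nat_lit 4) (nat_lit 355) (nat_lit 235) (nat_lit 190))))))))
noncomputable def xc48 : XT := (XT.nd (nat_lit 1794) (nat_lit 228) (nat_lit 0) (XT.nd (nat_lit 858) (nat_lit 228) (nat_lit 0) (XT.nd (nat_lit 390) (nat_lit 152) (nat_lit 0) (XT.nd (nat_lit 156) (nat_lit 76) (nat_lit 0) (XT.nd (nat_lit 78) (nat_lit 0) (nat_lit 0) (XT.lf (nat_lit 0) (nat_lit 13979072087) (nat_lit 76) (nat_lit 1279426487) (nat_lit 152) (nat_lit 11001861247) (nat_lit 12) (nat_lit 5) (nat_lit 13) (nat_lit 5) (nat_lit 14) (nat_lit 4) (nat_lit 356) (nat_lit 235) (nat_lit 189)) (XT.lf (nat_lit 0) (nat_lit 18462007202) (nat_lit 152) (nat_lit 6685736553) (nat_lit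 0) (nat_lit 1795338526) (nat_lit 12) (nat_lit 5) (nat_lit 14) (nat_lit 4) (nat_lit 12) (nat_lit 4) (nat_lit 357) (nat_lit 235) (nat_lit 188))) (XT.nd (nat_lit 78) (nat_lit 76) (nat_lit 0) (XT.lf (nat_lit 0) (nat_lit 21740777077) (nat_lit 152) (nat_lit 993226290) (nat_lit 0) (nat_lit 4912935137) (nat_lit 12) (nat_lit 5) (nat_lit 14) (nat_lit 4) (nat_lit 12) (nat_lit 4) (nat_lit 358) (nat_lit 235) (nat_lit 187)) (XT.nd (nat_lit 78) (nat_lit 0) (nat_lit 0) (XT.lf (nat_lit 0) (nat_lit 4909314124) (nat_lit 76) (nat_lit 20223251720) (nat_lit 76) (nat_lit 3238930883) (nat_lit 11) (nat_lit 4) (nat_lit 12) (nat_lit 5) (nat_lit 12) (nat_lit 4) (nat_lit 359) (nat_lit 235) (nat_lit 186)) (XT.lf (nat_lit 0) (nat_lit 10953301707) (nat_lit 76) (nat_lit 17650710107) (nat_lit 76) (nat_lit 514468012) (nat_lit 11) (nat_lit 4) (nat_lit 12) (nat_lit 5) (nat_lit 12) (nat_lit 4) (nat_lit 360) (nat_lit 235) (nat_lit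 185))))) (XT.nd (nat_lit 234) (nat_lit 76) (nat_lit 0) (XT.nd (nat_lit 78) (nat_lit 0) (nat_lit 0) (XT.lf (nat_lit 0) (nat_lit 2215485640) (nat_lit 152) (nat_lit 12786302613) (nat_lit 76) (nat_lit 14886392760) (nat_lit 10) (nat_lit 5) (nat_lit 12) (nat_lit 5) (nat_lit 11) (nat_lit 4) (nat_lit 361) (nat_lit 235) (nat_lit 184)) (XT.nd (nat_lit 78) (nat_lit 0) (nat_lit 0) (XT.lf (nat_lit 0) (nat_lit 4986392534) (nat_lit 152) (nat_lit 7304561976) (nat_lit 76) (nat_lit 18390807158) (nat_lit 10) (nat_lit 5) (nat_lit 12) (nat_lit 5) (nat_lit 11) (nat_lit 4) (nat_lit 362) (nat_lit 235) (nat_lit 183)) (XT.lf (nat_lit 0) (nat_lit 7810712974) (nat_lit 152) (nat_lit 1710220956) (nat_lit 76) (nat_lit 21979129640) (nat_lit 10) (nat_lit 5) (nat_lit 12) (nat_lit 5) (nat_lit 11) (nat_lit 4) (nat_lit 363) (nat_lit 235) (nat_lit 182)))) (XT.nd (nat_lit 78) (nat_lit 0) (nat_lit 0) (XT.lf (nat_lit 0) (nat_lit 4081248562)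 (nat_lit 76) (nat_lit 6648897707) (nat_lit 152) (nat_lit 21612478529) (nat_lit 9) (nat_lit 5) (nat_lit 10) (nat_lit 5) (nat_lit 11) (nat_lit 4) (nat_lit 364) (nat_lit 235) (nat_lit 181)) (XT.nd (nat_lit 78) (nat_lit 0) (nat_lit 0) (XT.lf (nat_lit 0) (nat_lit 10031671977) (nat_lit 76) (nat_lit 3694273320) (nat_lit 152) (nat_lit 19484875216) (nat_lit 9) (nat_lit 5) (nat_lit 10) (nat_lit 5) (nat_lit 11) (nat_lit 4) (nat_lit 365) (nat_lit 235) (nat_lit 180)) (XT.lf (nat_lit 0) (nat_lit 16112211933) (nat_lit 76) (nat_lit 671748940) (nat_lit 152) (nat_lit 17321951466) (nat_lit 9) (nat_lit 5) (nat_lit 10) (nat_lit 5) (nat_lit 11) (nat_lit 4) (nat_lit 366) (nat_lit 235) (nat_lit 179)))))) (XT.nd (nat_lit 468) (nat_lit 152) (nat_lit 0) (XT.nd (nat_lit 234) (nat_lit 76) (nat_lit 0) (XT.nd (nat_lit 78) (nat_lit 0) (nat_lit 0) (XT.lf (nat_lit 0) (nat_lit 19930140226) (nat_lit 152) (nat_lit 12723776044) (nat_lit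 0) (nat_lit 2374067870) (nat_lit 9) (nat_lit 5) (nat_lit 11) (nat_lit 4) (nat_lit 9) (nat_lit 4) (nat_lit 367) (nat_lit 235) (nat_lit 178)) (XT.nd (nat_lit 78) (nat_lit 0) (nat_lit 0) (XT.lf (nat_lit 0) (nat_lit 23151098255) (nat_lit 152) (nat_lit 7348636475) (nat_lit 0) (nat_lit 5478590904) (nat_lit 9) (nat_lit 5) (nat_lit 11) (nat_lit 4) (nat_lit 9) (nat_lit 4) (nat_lit 368) (nat_lit 235) (nat_lit 177)) (XT.lf (nat_lit 0) (nat_lit 26443192129) (nat_lit 152) (nat_lit 1857127713) (nat_lit 0) (nat_lit 8657641093) (nat_lit 9) (nat_lit 5) (nat_lit 11) (nat_lit 4) (nat_lit 9) (nat_lit 4) (nat_lit 369) (nat_lit 235) (nat_lit 176)))) (XT.nd (nat_lit 78) (nat_lit 0) (nat_lit 0) (XT.lf (nat_lit 0) (nat_lit 3830291428) (nat_lit 76) (nat_lit 26015826110) (nat_lit 76) (nat_lit 8120523925) (nat_lit 8) (nat_lit 4) (nat_lit 9) (nat_lit 5) (nat_lit 9) (nat_lit 4) (nat_lit 370) (nat_lit 235) (nat_lit 175)) (XT.nd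 (nat_lit 78) (nat_lit 0) (nat_lit 0) (XT.lf (nat_lit 0) (nat_lit 9683252009) (nat_lit 76) (nat_lit 23662187762) (nat_lit 76) (nat_lit 5660331062) (nat_lit 8) (nat_lit 4) (nat_lit 9) (nat_lit 5) (nat_lit 9) (nat_lit 4) (nat_lit 371) (nat_lit 235) (nat_lit 174)) (XT.lf (nat_lit 0) (nat_lit 15669907783) (nat_lit 76) (nat_lit 21256101568) (nat_lit 76) (nat_lit 3150793883) (nat_lit 8) (nat_lit 4) (nat_lit 9) (nat_lit 5) (nat_lit 9) (nat_lit 4) (nat_lit 372) (nat_lit 235) (nat_lit 173))))) (XT.nd (nat_lit 234) (nat_lit 76) (nat_lit 0) (XT.nd (nat_lit 78) (nat_lit 76) (nat_lit 0) (XT.lf (nat_lit 0) (nat_lit 21795489810) (nat_lit 76) (nat_lit 18795465124) (nat_lit 76) (nat_lit 589719589) (nat_lit 8) (nat_lit 4) (nat_lit 9) (nat_lit 5) (nat_lit 9) (nat_lit 4) (nat_lit 373) (nat_lit 235) (nat_lit 172)) (XT.nd (nat_lit 78) (nat_lit 0) (nat_lit 0) (XT.lf (nat_lit 0) (nat_lit 1985612077) (nat_lit 152) (nat_lit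 14272465492) (nat_lit 76) (nat_lit 26059687673) (nat_lit 7) (nat_lit 5) (nat_lit 9) (nat_lit 5) (nat_lit 8) (nat_lit 4) (nat_lit 374) (nat_lit 235) (nat_lit 171)) (XT.lf (nat_lit 0) (nat_lit 4604402029) (nat_lit 152) (nat_lit 9050994195) (nat_lit 76) (nat_lit 29834071028) (nat_lit 7) (nat_lit 5) (nat_lit 9) (nat_lit 5) (nat_lit 8) (nat_lit 4) (nat_lit 375) (nat_lit 235) (nat_lit 170)))) (XT.nd (nat_lit 78) (nat_lit 76) (nat_lit 0) (XT.lf (nat_lit 0) (nat_lit 7280446083) (nat_lit 152) (nat_lit 3710539625) (nat_lit 76) (nat_lit 33705988723) (nat_lit 7) (nat_lit 5) (nat_lit 9) (nat_lit 5) (nat_lit 8) (nat_lit 4) (nat_lit 376) (nat_lit 235) (nat_lit 169)) (XT.nd (nat_lit 78) (nat_lit 0) (nat_lit 0) (XT.lf (nat_lit 0) (nat_lit 1788464008) (nat_lit 76) (nat_lit 8244810332) (nat_lit 152) (nat_lit 35907551789) (nat_lit 6) (nat_lit 5) (nat_lit 7) (nat_lit 5) (nat_lit 8) (nat_lit 4) (nat_lit 377) (nat_lit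 235) (nat_lit 168)) (XT.lf (nat_lit 0) (nat_lit 7492294697) (nat_lit 76) (nat_lit 5393427555) (nat_lit 152) (nat_lit 34335774053) (nat_lit 6) (nat_lit 5) (nat_lit 7) (nat_lit 5) (nat_lit 8) (nat_lit 4) (nat_lit 378) (nat_lit 235) (nat_lit 167))))))) (XT.nd (nat_lit 858) (nat_lit 152) (nat_lit 0) (XT.nd (nat_lit 390) (nat_lit 76) (nat_lit 0) (XT.nd (nat_lit 156) (nat_lit 0) (nat_lit 0) (XT.nd (nat_lit 78) (nat_lit 0) (nat_lit 0) (XT.lf (nat_lit 0) (nat_lit 13332089357) (nat_lit 76) (nat_lit 2471815051) (nat_lit 152) (nat_lit 32737290917) (nat_lit 6) (nat_lit 5) (nat_lit 7) (nat_lit 5) (nat_lit 8) (nat_lit 4) (nat_lit 379) (nat_lit 235) (nat_lit 166)) (XT.lf (nat_lit 0) (nat_lit 18795394037) (nat_lit 152) (nat_lit 30593148963) (nat_lit 0) (nat_lit 512382624) (nat_lit 6) (nat_lit 5) (nat_lit 8) (nat_lit 4) (nat_lit 6) (nat_lit 4) (nat_lit 380) (nat_lit 235) (nat_lit 165))) (XT.nd (nat_lit 78) (nat_lit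 0) (nat_lit 0) (XT.lf (nat_lit 0) (nat_lit 21882262693) (nat_lit 152) (nat_lit 25896754864) (nat_lit 0) (nat_lit 3522274031) (nat_lit 6) (nat_lit 5) (nat_lit 8) (nat_lit 4) (nat_lit 6) (nat_lit 4) (nat_lit 381) (nat_lit 235) (nat_lit 164)) (XT.nd (nat_lit 78) (nat_lit 0) (nat_lit 0) (XT.lf (nat_lit 0) (nat_lit 25043447041) (nat_lit 152) (nat_lit 21092059426) (nat_lit 0) (nat_lit 6608723187) (nat_lit 6) (nat_lit 5) (nat_lit 8) (nat_lit 4) (nat_lit 6) (nat_lit 4) (nat_lit 382) (nat_lit 235) (nat_lit 163)) (XT.lf (nat_lit 0) (nat_lit 28281709281) (nat_lit 152) (nat_lit 16174864374) (nat_lit 0) (nat_lit 9774426988) (nat_lit 6) (nat_lit 5) (nat_lit 8) (nat_lit 4) (nat_lit 6) (nat_lit 4) (nat_lit 383) (nat_lit 235) (nat_lit 162))))) (XT.nd (nat_lit 234) (nat_lit 76) (nat_lit 0) (XT.nd (nat_lit 78) (nat_lit 0) (nat_lit 0) (XT.lf (nat_lit 0) (nat_lit 31599878964) (nat_lit 152) (nat_lit 11140873128) (nat_lit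 0) (nat_lit 13022151583) (nat_lit 6) (nat_lit 5) (nat_lit 8) (nat_lit 4) (nat_lit 6) (nat_lit 4) (nat_lit 384) (nat_lit 235) (nat_lit 161)) (XT.nd (nat_lit 78) (nat_lit 0) (nat_lit 0) (XT.lf (nat_lit 0) (nat_lit 35000855459) (nat_lit 152) (nat_lit 5985687055) (nat_lit 0) (nat_lit 16354734791) (nat_lit 6) (nat_lit 5) (nat_lit 8) (nat_lit 4) (nat_lit 6) (nat_lit 4) (nat_lit 385) (nat_lit 235) (nat_lit 160)) (XT.lf (nat_lit 0) (nat_lit 38487610495) (nat_lit 152) (nat_lit 704801624) (nat_lit 0) (nat_lit 19775088576) (nat_lit 6) (nat_lit 5) (nat_lit 8) (nat_lit 4) (nat_lit 6) (nat_lit 4) (nat_lit 386) (nat_lit 235) (nat_lit 159)))) (XT.nd (nat_lit 78) (nat_lit 0) (nat_lit 0) (XT.lf (nat_lit 0) (nat_lit 4800064069) (nat_lit 76) (nat_lit 37309267834) (nat_lit 76) (nat_lit 18532278681) (nat_lit 5) (nat_lit 4) (nat_lit 6) (nat_lit 5) (nat_lit 6) (nat_lit 4) (nat_lit 387) (nat_lit 235) (nat_lit 158)) (XT.nd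 (nat_lit 78) (nat_lit 0) (nat_lit 0) (XT.lf (nat_lit 0) (nat_lit 10456686254) (nat_lit 76) (nat_lit 35374550331) (nat_lit 76) (nat_lit 16534971631) (nat_lit 5) (nat_lit 4) (nat_lit 6) (nat_lit 5) (nat_lit 6) (nat_lit 4) (nat_lit 388) (nat_lit 235) (nat_lit 157)) (XT.lf (nat_lit 0) (nat_lit 16255980674) (nat_lit 76) (nat_lit 33393686195) (nat_lit 76) (nat_lit 14493340945) (nat_lit 5) (nat_lit 4) (nat_lit 6) (nat_lit 5) (nat_lit 6) (nat_lit 4) (nat_lit 389) (nat_lit 235) (nat_lit 156)))))) (XT.nd (nat_lit 468) (nat_lit 152) (nat_lit 0) (XT.nd (nat_lit 234) (nat_lit 0) (nat_lit 0) (XT.nd (nat_lit 78) (nat_lit 0) (nat_lit 0) (XT.lf (nat_lit 0) (nat_lit 22203014674) (nat_lit 76) (nat_lit 31364944576) (nat_lit 76) (nat_lit 12405602674) (nat_lit 5) (nat_lit 4) (nat_lit 6) (nat_lit 5) (nat_lit 6) (nat_lit 4) (nat_lit 390) (nat_lit 235) (nat_lit 155)) (XT.nd (nat_lit 78) (nat_lit 0) (nat_lit 0) (XT.lf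 (nat_lit 0) (nat_lit 28302984693) (nat_lit 76) (nat_lit 29286552785) (nat_lit 76) (nat_lit 10269932581) (nat_lit 5) (nat_lit 4) (nat_lit 6) (nat_lit 5) (nat_lit 6) (nat_lit 4) (nat_lit 391) (nat_lit 235) (nat_lit 154)) (XT.lf (nat_lit 0) (nat_lit 34561220800) (nat_lit 76) (nat_lit 27156694752) (nat_lit 76) (nat_lit 8084464546) (nat_lit 5) (nat_lit 4) (nat_lit 6) (nat_lit 5) (nat_lit 6) (nat_lit 4) (nat_lit 392) (nat_lit 235) (nat_lit 153)))) (XT.nd (nat_lit 78) (nat_lit 0) (nat_lit 0) (XT.lf (nat_lit 0) (nat_lit 40983191357) (nat_lit 76) (nat_lit 24973509437) (nat_lit 76) (nat_lit 5847288938) (nat_lit 5) (nat_lit 4) (nat_lit 6) (nat_lit 5) (nat_lit 6) (nat_lit 4) (nat_lit 393) (nat_lit 235) (nat_lit 152)) (XT.nd (nat_lit 78) (nat_lit 0) (nat_lit 0) (XT.lf (nat_lit 0) (nat_lit 47574507796) (nat_lit 76) (nat_lit 22735089202) (nat_lit 76) (nat_lit 3556450942) (nat_lit 5) (nat_lit 4) (nat_lit 6)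 (nat_lit 5) (nat_lit 6) (nat_lit 4) (nat_lit 394) (nat_lit 235) (nat_lit 151)) (XT.lf (nat_lit 0) (nat_lit 54340929517) (nat_lit 76) (nat_lit 20439478144) (nat_lit 76) (nat_lit 1209948855) (nat_lit 5) (nat_lit 4) (nat_lit 6) (nat_lit 5) (nat_lit 6) (nat_lit 4) (nat_lit 395) (nat_lit 235) (nat_lit 150))))) (XT.nd (nat_lit 234) (nat_lit 76) (nat_lit 0) (XT.nd (nat_lit 78) (nat_lit 0) (nat_lit 0) (XT.lf (nat_lit 0) (nat_lit 1170963199) (nat_lit 152) (nat_lit 16901882760) (nat_lit 76) (nat_lit 60105581299) (nat_lit 4) (nat_lit 5) (nat_lit 6) (nat_lit 5) (nat_lit 5) (nat_lit 4) (nat_lit 396) (nat_lit 235) (nat_lit 149)) (XT.nd (nat_lit 78) (nat_lit 0) (nat_lit 0) (XT.lf (nat_lit 0) (nat_lit 3586912788) (nat_lit 152) (nat_lit 12045474771) (nat_lit 76) (nat_lit 64799763038) (nat_lit 4) (nat_lit 5) (nat_lit 6) (nat_lit 5) (nat_lit 5) (nat_lit 4) (nat_lit 397) (nat_lit 235) (nat_lit 148)) (XT.lf (nat_lit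 0) (nat_lit 6063621395) (nat_lit 152) (nat_lit 7064328801) (nat_lit 76) (nat_lit 69625894535) (nat_lit 4) (nat_lit 5) (nat_lit 6) (nat_lit 5) (nat_lit 5) (nat_lit 4) (nat_lit 398) (nat_lit 235) (nat_lit 147)))) (XT.nd (nat_lit 78) (nat_lit 76) (nat_lit 0) (XT.lf (nat_lit 0) (nat_lit 8603253133) (nat_lit 152) (nat_lit 1954092391) (nat_lit 76) (nat_lit 74588192798) (nat_lit 4) (nat_lit 5) (nat_lit 6) (nat_lit 5) (nat_lit 5) (nat_lit 4) (nat_lit 399) (nat_lit 235) (nat_lit 146)) (XT.nd (nat_lit 78) (nat_lit 0) (nat_lit 0) (XT.lf (nat_lit 0) (nat_lit 3355171186) (nat_lit 76) (nat_lit 7885107872) (nat_lit 152) (nat_lit 76368074587) (nat_lit 3) (nat_lit 5) (nat_lit 4) (nat_lit 5) (nat_lit 5) (nat_lit 4) (nat_lit 400) (nat_lit 235) (nat_lit 145)) (XT.lf (nat_lit 0) (nat_lit 8844211892) (nat_lit 76) (nat_lit 5121023393) (nat_lit 152) (nat_lit 76179560428) (nat_lit 3) (nat_lit 5) (nat_lit 4) (nat_lit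 5) (nat_lit 5) (nat_lit 4) (nat_lit 401) (nat_lit 235) (nat_lit 144))))))))
noncomputable def xc49 : XT := (XT.nd (nat_lit 34944) (nat_lit 0) (nat_lit 760) (XT.nd (nat_lit 34008) (nat_lit 0) (nat_lit 2128) (XT.nd (nat_lit 33540) (nat_lit 0) (nat_lit 3572) (XT.nd (nat_lit 33306) (nat_lit 0) (nat_lit 4712) (XT.nd (nat_lit 78) (nat_lit 0) (nat_lit 0) (XT.lf (nat_lit 0) (nat_lit 14478935706) (nat_lit 76) (nat_lit 2282409372) (nat_lit 152) (nat_lit 75996310492) (nat_lit 3) (nat_lit 5) (nat_lit 4) (nat_lit 5) (nat_lit 5) (nat_lit 4) (nat_lit 402) (nat_lit 235) (nat_lit 143)) (XT.lf (nat_lit 0) (nat_lit 19637138483) (nat_lit 152) (nat_lit 75191036970) (nat_lit 0) (nat_lit 620858238) (nat_lit 3) (nat_lit 5) (nat_lit 5) (nat_lit 4) (nat_lit 3) (nat_lit 4) (nat_lit 403) (nat_lit 235) (nat_lit 142))) (XT.nd (nat_lit 78) (nat_lit 304) (nat_lit 0) (XT.lf (nat_lit 0) (nat_lit 794678958) (nat_lit 380) (nat_lit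 3155607436) (nat_lit 0) (nat_lit 794678958) (nat_lit 69) (nat_lit 5) (nat_lit 74) (nat_lit 4) (nat_lit 69) (nat_lit 4) (nat_lit 308) (nat_lit 236) (nat_lit 236)) (XT.nd (nat_lit 78) (nat_lit 304) (nat_lit 0) (XT.lf (nat_lit 0) (nat_lit 5049366202) (nat_lit 380) (nat_lit 433459130) (nat_lit 0) (nat_lit 4154306441) (nat_lit 69) (nat_lit 5) (nat_lit 74) (nat_lit 4) (nat_lit 69) (nat_lit 4) (nat_lit 309) (nat_lit 236) (nat_lit 235)) (XT.lf (nat_lit 0) (nat_lit 5612927590) (nat_lit 304) (nat_lit 2970454606) (nat_lit 304) (nat_lit 1206404785) (nat_lit 65) (nat_lit 4) (nat_lit 69) (nat_lit 5) (nat_lit 69) (nat_lit 4) (nat_lit 310) (nat_lit 236) (nat_lit 234))))) (XT.nd (nat_lit 234) (nat_lit 532) (nat_lit 0) (XT.nd (nat_lit 78) (nat_lit 304) (nat_lit 0) (XT.lf (nat_lit 0) (nat_lit 1797984328) (nat_lit 228) (nat_lit 372318045) (nat_lit 304) (nat_lit 7778049266) (nat_lit 61) (nat_lit 5) (nat_lit 64) (nat_lit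 5) (nat_lit 65) (nat_lit 4) (nat_lit 311) (nat_lit 236) (nat_lit 233)) (XT.nd (nat_lit 78) (nat_lit 304) (nat_lit 0) (XT.lf (nat_lit 0) (nat_lit 5606399983) (nat_lit 304) (nat_lit 2226202122) (nat_lit 0) (nat_lit 2279374774) (nat_lit 61) (nat_lit 5) (nat_lit 65) (nat_lit 4) (nat_lit 61) (nat_lit 4) (nat_lit 312) (nat_lit 236) (nat_lit 232)) (XT.lf (nat_lit 0) (nat_lit 3831246893) (nat_lit 304) (nat_lit 5274844262) (nat_lit 304) (nat_lit 1175732640) (nat_lit 57) (nat_lit 4) (nat_lit 61) (nat_lit 5) (nat_lit 61) (nat_lit 4) (nat_lit 313) (nat_lit 236) (nat_lit 231)))) (XT.nd (nat_lit 78) (nat_lit 456) (nat_lit 0) (XT.lf (nat_lit 0) (nat_lit 2153050711) (nat_lit 380) (nat_lit 478017136) (nat_lit 76) (nat_lit 7826878311) (nat_lit 56) (nat_lit 5) (nat_lit 61) (nat_lit 5) (nat_lit 57) (nat_lit 4) (nat_lit 314) (nat_lit 236) (nat_lit 230)) (XT.nd (nat_lit 78) (nat_lit 228) (nat_lit 0) (XT.lf (nat_lit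 0) (nat_lit 5536316080) (nat_lit 304) (nat_lit 4981194629) (nat_lit 0) (nat_lit 122262124) (nat_lit 53) (nat_lit 5) (nat_lit 57) (nat_lit 4) (nat_lit 53) (nat_lit 4) (nat_lit 315) (nat_lit 236) (nat_lit 229)) (XT.lf (nat_lit 0) (nat_lit 1042747957) (nat_lit 228) (nat_lit 7942765008) (nat_lit 228) (nat_lit 1842722274) (nat_lit 50) (nat_lit 4) (nat_lit 53) (nat_lit 5) (nat_lit 53) (nat_lit 4) (nat_lit 316) (nat_lit 236) (nat_lit 228)))))) (XT.nd (nat_lit 468) (nat_lit 684) (nat_lit 0) (XT.nd (nat_lit 234) (nat_lit 456) (nat_lit 0) (XT.nd (nat_lit 78) (nat_lit 228) (nat_lit 0) (XT.lf (nat_lit 0) (nat_lit 1460830223) (nat_lit 304) (nat_lit 3800565903) (nat_lit 76) (nat_lit 5761388392) (nat_lit 49) (nat_lit 5) (nat_lit 53) (nat_lit 5) (nat_lit 50) (nat_lit 4) (nat_lit 317) (nat_lit 236) (nat_lit 227)) (XT.nd (nat_lit 78) (nat_lit 0) (nat_lit 0) (XT.lf (nat_lit 0) (nat_lit 2279288206) (nat_lit 228)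 (nat_lit 2495071240) (nat_lit 304) (nat_lit 6449930541) (nat_lit 46) (nat_lit 5) (nat_lit 49) (nat_lit 5) (nat_lit 50) (nat_lit 4) (nat_lit 318) (nat_lit 236) (nat_lit 226)) (XT.lf (nat_lit 0) (nat_lit 8156201168) (nat_lit 304) (nat_lit 2926723171) (nat_lit 0) (nat_lit 349950314) (nat_lit 46) (nat_lit 5) (nat_lit 50) (nat_lit 4) (nat_lit 46) (nat_lit 4) (nat_lit 319) (nat_lit 236) (nat_lit 225)))) (XT.nd (nat_lit 78) (nat_lit 228) (nat_lit 0) (XT.lf (nat_lit 0) (nat_lit 3201430269) (nat_lit 228) (nat_lit 8422422517) (nat_lit 228) (nat_lit 24431718) (nat_lit 43) (nat_lit 4) (nat_lit 46) (nat_lit 5) (nat_lit 46) (nat_lit 4) (nat_lit 320) (nat_lit 236) (nat_lit 224)) (XT.nd (nat_lit 78) (nat_lit 152) (nat_lit 0) (XT.lf (nat_lit 0) (nat_lit 3219462765) (nat_lit 304) (nat_lit 2436986187) (nat_lit 76) (nat_lit 6214072105) (nat_lit 42) (nat_lit 5) (nat_lit 46) (nat_lit 5) (nat_lit 43) (nat_lit 4) (nat_lit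 321) (nat_lit 236) (nat_lit 223)) (XT.lf (nat_lit 0) (nat_lit 3719812999) (nat_lit 152) (nat_lit 2807320129) (nat_lit 228) (nat_lit 5573365761) (nat_lit 40) (nat_lit 5) (nat_lit 42) (nat_lit 5) (nat_lit 43) (nat_lit 4) (nat_lit 322) (nat_lit 236) (nat_lit 222))))) (XT.nd (nat_lit 234) (nat_lit 380) (nat_lit 0) (XT.nd (nat_lit 78) (nat_lit 304) (nat_lit 0) (XT.lf (nat_lit 0) (nat_lit 9891946073) (nat_lit 228) (nat_lit 2333273789) (nat_lit 0) (nat_lit 113506142) (nat_lit 40) (nat_lit 5) (nat_lit 43) (nat_lit 4) (nat_lit 40) (nat_lit 4) (nat_lit 323) (nat_lit 236) (nat_lit 221)) (XT.nd (nat_lit 78) (nat_lit 0) (nat_lit 0) (XT.lf (nat_lit 0) (nat_lit 756933171) (nat_lit 304) (nat_lit 8752305668) (nat_lit 76) (nat_lit 3074767551) (nat_lit 36) (nat_lit 5) (nat_lit 40) (nat_lit 5) (nat_lit 37) (nat_lit 4) (nat_lit 324) (nat_lit 236) (nat_lit 220)) (XT.lf (nat_lit 0) (nat_lit 3965413745) (nat_lit 304)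 (nat_lit 2734662990) (nat_lit 76) (nat_lit 6137186578) (nat_lit 36) (nat_lit 5) (nat_lit 40) (nat_lit 5) (nat_lit 37) (nat_lit 4) (nat_lit 325) (nat_lit 236) (nat_lit 219)))) (XT.nd (nat_lit 78) (nat_lit 228) (nat_lit 0) (XT.lf (nat_lit 0) (nat_lit 3429736332) (nat_lit 152) (nat_lit 3809341476) (nat_lit 228) (nat_lit 5860049850) (nat_lit 34) (nat_lit 5) (nat_lit 36) (nat_lit 5) (nat_lit 37) (nat_lit 4) (nat_lit 326) (nat_lit 236) (nat_lit 218)) (XT.nd (nat_lit 78) (nat_lit 228) (nat_lit 0) (XT.lf (nat_lit 0) (nat_lit 9735413649) (nat_lit 152) (nat_lit 840019970) (nat_lit 228) (nat_lit 2794555186) (nat_lit 34) (nat_lit 5) (nat_lit 36) (nat_lit 5) (nat_lit 37) (nat_lit 4) (nat_lit 327) (nat_lit 236) (nat_lit 217)) (XT.lf (nat_lit 0) (nat_lit 339413001) (nat_lit 228) (nat_lit 11142288688) (nat_lit 76) (nat_lit 2167732736) (nat_lit 31) (nat_lit 5) (nat_lit 34) (nat_lit 5) (nat_lit 32) (nat_lit 4)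 (nat_lit 328) (nat_lit 236) (nat_lit 216))))))) (XT.nd (nat_lit 936) (nat_lit 608) (nat_lit 0) (XT.nd (nat_lit 468) (nat_lit 380) (nat_lit 0) (XT.nd (nat_lit 234) (nat_lit 228) (nat_lit 0) (XT.nd (nat_lit 78) (nat_lit 152) (nat_lit 0) (XT.lf (nat_lit 0) (nat_lit 3495166917) (nat_lit 228) (nat_lit 5163593765) (nat_lit 76) (nat_lit 5278223566) (nat_lit 31) (nat_lit 5) (nat_lit 34) (nat_lit 5) (nat_lit 32) (nat_lit 4) (nat_lit 329) (nat_lit 236) (nat_lit 215)) (XT.nd (nat_lit 78) (nat_lit 0) (nat_lit 0) (XT.lf (nat_lit 0) (nat_lit 916515831) (nat_lit 152) (nat_lit 5778229455) (nat_lit 228) (nat_lit 7540007650) (nat_lit 29) (nat_lit 5) (nat_lit 31) (nat_lit 5) (nat_lit 32) (nat_lit 4) (nat_lit 330) (nat_lit 236) (nat_lit 214)) (XT.lf (nat_lit 0) (nat_lit 7189986143) (nat_lit 152) (nat_lit 2793634227) (nat_lit 228) (nat_lit 4558100010) (nat_lit 29) (nat_lit 5) (nat_lit 31) (nat_lit 5) (nat_lit 32)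 (nat_lit 4) (nat_lit 331) (nat_lit 236) (nat_lit 213)))) (XT.nd (nat_lit 78) (nat_lit 228) (nat_lit 0) (XT.lf (nat_lit 0) (nat_lit 13316402283) (nat_lit 228) (nat_lit 1302500112) (nat_lit 0) (nat_lit 240700318) (nat_lit 29) (nat_lit 5) (nat_lit 32) (nat_lit 4) (nat_lit 29) (nat_lit 4) (nat_lit 332) (nat_lit 236) (nat_lit 212)) (XT.nd (nat_lit 78) (nat_lit 0) (nat_lit 0) (XT.lf (nat_lit 0) (nat_lit 1550822889) (nat_lit 228) (nat_lit 10296284270) (nat_lit 76) (nat_lit 3338948537) (nat_lit 26) (nat_lit 5) (nat_lit 29) (nat_lit 5) (nat_lit 27) (nat_lit 4) (nat_lit 333) (nat_lit 236) (nat_lit 211)) (XT.lf (nat_lit 0) (nat_lit 4664307728) (nat_lit 228) (nat_lit 4333922445) (nat_lit 76) (nat_lit 6524941719) (nat_lit 26) (nat_lit 5) (nat_lit 29) (nat_lit 5) (nat_lit 27) (nat_lit 4) (nat_lit 334) (nat_lit 236) (nat_lit 210))))) (XT.nd (nat_lit 234) (nat_lit 228) (nat_lit 0) (XT.nd (nat_lit 78) (nat_lit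 0) (nat_lit 0) (XT.lf (nat_lit 0) (nat_lit 1753056140) (nat_lit 152) (nat_lit 6080987272) (nat_lit 228) (nat_lit 8037528824) (nat_lit 24) (nat_lit 5) (nat_lit 26) (nat_lit 5) (nat_lit 27) (nat_lit 4) (nat_lit 335) (nat_lit 236) (nat_lit 209)) (XT.nd (nat_lit 78) (nat_lit 0) (nat_lit 0) (XT.lf (nat_lit 0) (nat_lit 8023889992) (nat_lit 152) (nat_lit 3065471092) (nat_lit 228) (nat_lit 5141403224) (nat_lit 24) (nat_lit 5) (nat_lit 26) (nat_lit 5) (nat_lit 27) (nat_lit 4) (nat_lit 336) (nat_lit 236) (nat_lit 208)) (XT.lf (nat_lit 0) (nat_lit 14390684868) (nat_lit 228) (nat_lit 2204600832) (nat_lit 0) (nat_lit 7048877) (nat_lit 24) (nat_lit 5) (nat_lit 27) (nat_lit 4) (nat_lit 24) (nat_lit 4) (nat_lit 337) (nat_lit 236) (nat_lit 207)))) (XT.nd (nat_lit 78) (nat_lit 0) (nat_lit 0) (XT.lf (nat_lit 0) (nat_lit 808095868) (nat_lit 228) (nat_lit 13052026017) (nat_lit 76) (nat_lit 3124212616) (nat_lit 21)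 (nat_lit 5) (nat_lit 24) (nat_lit 5) (nat_lit 22) (nat_lit 4) (nat_lit 338) (nat_lit 236) (nat_lit 206)) (XT.nd (nat_lit 78) (nat_lit 0) (nat_lit 0) (XT.lf (nat_lit 0) (nat_lit 3846068855) (nat_lit 228) (nat_lit 7184770601) (nat_lit 76) (nat_lit 6347183779) (nat_lit 21) (nat_lit 5) (nat_lit 24) (nat_lit 5) (nat_lit 22) (nat_lit 4) (nat_lit 339) (nat_lit 236) (nat_lit 205)) (XT.lf (nat_lit 0) (nat_lit 6926253310) (nat_lit 228) (nat_lit 1223092999) (nat_lit 76) (nat_lit 9635691093) (nat_lit 21) (nat_lit 5) (nat_lit 24) (nat_lit 5) (nat_lit 22) (nat_lit 4) (nat_lit 340) (nat_lit 236) (nat_lit 204)))))) (XT.nd (nat_lit 468) (nat_lit 304) (nat_lit 0) (XT.nd (nat_lit 234) (nat_lit 228) (nat_lit 0) (XT.nd (nat_lit 78) (nat_lit 0) (nat_lit 0) (XT.lf (nat_lit 0) (nat_lit 4934506006) (nat_lit 76) (nat_lit 5164268141) (nat_lit 152) (nat_lit 8105535496) (nat_lit 20) (nat_lit 5) (nat_lit 21) (nat_lit 5) (nat_lit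 22) (nat_lit 4) (nat_lit 341) (nat_lit 236) (nat_lit 203)) (XT.nd (nat_lit 78) (nat_lit 0) (nat_lit 0) (XT.lf (nat_lit 0) (nat_lit 11223462937) (nat_lit 76) (nat_lit 2108485409) (nat_lit 152) (nat_lit 5305291619) (nat_lit 20) (nat_lit 5) (nat_lit 21) (nat_lit 5) (nat_lit 22) (nat_lit 4) (nat_lit 342) (nat_lit 236) (nat_lit 202)) (XT.lf (nat_lit 0) (nat_lit 16626302503) (nat_lit 152) (nat_lit 1469327940) (nat_lit 0) (nat_lit 988645168) (nat_lit 20) (nat_lit 5) (nat_lit 22) (nat_lit 4) (nat_lit 20) (nat_lit 4) (nat_lit 343) (nat_lit 236) (nat_lit 201)))) (XT.nd (nat_lit 78) (nat_lit 0) (nat_lit 0) (XT.lf (nat_lit 0) (nat_lit 486758092) (nat_lit 228) (nat_lit 14900641099) (nat_lit 76) (nat_lit 4156588990) (nat_lit 17) (nat_lit 5) (nat_lit 20) (nat_lit 5) (nat_lit 18) (nat_lit 4) (nat_lit 344) (nat_lit 236) (nat_lit 200)) (XT.nd (nat_lit 78) (nat_lit 0) (nat_lit 0) (XT.lf (nat_lit 0) (nat_lit 3441051097)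 (nat_lit 228) (nat_lit 9147215322) (nat_lit 76) (nat_lit 7429416249) (nat_lit 17) (nat_lit 5) (nat_lit 20) (nat_lit 5) (nat_lit 18) (nat_lit 4) (nat_lit 345) (nat_lit 236) (nat_lit 199)) (XT.lf (nat_lit 0) (nat_lit 6440903433) (nat_lit 228) (nat_lit 3294203452) (nat_lit 76) (nat_lit 10771811355) (nat_lit 17) (nat_lit 5) (nat_lit 20) (nat_lit 5) (nat_lit 18) (nat_lit 4) (nat_lit 346) (nat_lit 236) (nat_lit 198))))) (XT.nd (nat_lit 234) (nat_lit 228) (nat_lit 0) (XT.nd (nat_lit 78) (nat_lit 0) (nat_lit 0) (XT.lf (nat_lit 0) (nat_lit 2716517839) (nat_lit 76) (nat_lit 6798531321) (nat_lit 152) (nat_lit 11496289839) (nat_lit 16) (nat_lit 5) (nat_lit 17) (nat_lit 5) (nat_lit 18) (nat_lit 4) (nat_lit 347) (nat_lit 236) (nat_lit 197)) (XT.nd (nat_lit 78) (nat_lit 0) (nat_lit 0) (XT.lf (nat_lit 0) (nat_lit 8904893730) (nat_lit 76) (nat_lit 3768518672) (nat_lit 152) (nat_lit 8857756161) (nat_lit 16) (nat_lit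 5) (nat_lit 17) (nat_lit 5) (nat_lit 18) (nat_lit 4) (nat_lit 348) (nat_lit 236) (nat_lit 196)) (XT.lf (nat_lit 0) (nat_lit 15210770430) (nat_lit 76) (nat_lit 675686351) (nat_lit 152) (nat_lit 6181373253) (nat_lit 16) (nat_lit 5) (nat_lit 17) (nat_lit 5) (nat_lit 18) (nat_lit 4) (nat_lit 349) (nat_lit 236) (nat_lit 195)))) (XT.nd (nat_lit 78) (nat_lit 228) (nat_lit 0) (XT.lf (nat_lit 0) (nat_lit 19180854736) (nat_lit 152) (nat_lit 1005999338) (nat_lit 0) (nat_lit 2434222319) (nat_lit 16) (nat_lit 5) (nat_lit 18) (nat_lit 4) (nat_lit 16) (nat_lit 4) (nat_lit 350) (nat_lit 236) (nat_lit 194)) (XT.nd (nat_lit 78) (nat_lit 76) (nat_lit 0) (XT.lf (nat_lit 0) (nat_lit 5047242728) (nat_lit 152) (nat_lit 17544025023) (nat_lit 152) (nat_lit 599169821) (nat_lit 14) (nat_lit 4) (nat_lit 16) (nat_lit 5) (nat_lit 16) (nat_lit 4) (nat_lit 351) (nat_lit 236) (nat_lit 193)) (XT.lf (nat_lit 0) (nat_lit 2254022761)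 (nat_lit 228) (nat_lit 12561638301) (nat_lit 76) (nat_lit 8961408882) (nat_lit 13) (nat_lit 5) (nat_lit 16) (nat_lit 5) (nat_lit 14) (nat_lit 4) (nat_lit 352) (nat_lit 236) (nat_lit 192))))))))
noncomputable def xc50 : XT := (XT.nd (nat_lit 1794) (nat_lit 228) (nat_lit 0) (XT.nd (nat_lit 858) (nat_lit 228) (nat_lit 0) (XT.nd (nat_lit 390) (nat_lit 152) (nat_lit 0) (XT.nd (nat_lit 156) (nat_lit 76) (nat_lit 0) (XT.nd (nat_lit 78) (nat_lit 0) (nat_lit 0) (XT.lf (nat_lit 0) (nat_lit 5143933798) (nat_lit 228) (nat_lit 6881962882) (nat_lit 76) (nat_lit 12356361803) (nat_lit 13) (nat_lit 5) (nat_lit 16) (nat_lit 5) (nat_lit 14) (nat_lit 4) (nat_lit 353) (nat_lit 236) (nat_lit 191)) (XT.lf (nat_lit 0) (nat_lit 8084780415) (nat_lit 228) (nat_lit 1093446178) (nat_lit 76) (nat_lit 15828478189) (nat_lit 13) (nat_lit 5) (nat_lit 16) (nat_lit 5) (nat_lit 14) (nat_lit 4) (nat_lit 354) (nat_lit 236) (nat_lit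 190))) (XT.nd (nat_lit 78) (nat_lit 0) (nat_lit 0) (XT.lf (nat_lit 0) (nat_lit 4904677664) (nat_lit 76) (nat_lit 6221601381) (nat_lit 152) (nat_lit 14523261027) (nat_lit 12) (nat_lit 5) (nat_lit 13) (nat_lit 5) (nat_lit 14) (nat_lit 4) (nat_lit 355) (nat_lit 236) (nat_lit 189)) (XT.nd (nat_lit 78) (nat_lit 0) (nat_lit 0) (XT.lf (nat_lit 0) (nat_lit 11045989354) (nat_lit 76) (nat_lit 3189797280) (nat_lit 152) (nat_lit 12076598438) (nat_lit 12) (nat_lit 5) (nat_lit 13) (nat_lit 5) (nat_lit 14) (nat_lit 4) (nat_lit 356) (nat_lit 236) (nat_lit 188)) (XT.lf (nat_lit 0) (nat_lit 17314093364) (nat_lit 76) (nat_lit 91206803) (nat_lit 152) (nat_lit 9590840404) (nat_lit 12) (nat_lit 5) (nat_lit 13) (nat_lit 5) (nat_lit 14) (nat_lit 4) (nat_lit 357) (nat_lit 236) (nat_lit 187))))) (XT.nd (nat_lit 234) (nat_lit 76) (nat_lit 0) (XT.nd (nat_lit 78) (nat_lit 76) (nat_lit 0) (XT.lf (nat_lit 0) (nat_lit 20667165950)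 (nat_lit 152) (nat_lit 4016514178) (nat_lit 0) (nat_lit 3016836591) (nat_lit 12) (nat_lit 5) (nat_lit 14) (nat_lit 4) (nat_lit 12) (nat_lit 4) (nat_lit 358) (nat_lit 236) (nat_lit 186)) (XT.nd (nat_lit 78) (nat_lit 0) (nat_lit 0) (XT.lf (nat_lit 0) (nat_lit 1798275987) (nat_lit 76) (nat_lit 22215212988) (nat_lit 76) (nat_lit 4412962370) (nat_lit 11) (nat_lit 4) (nat_lit 12) (nat_lit 5) (nat_lit 12) (nat_lit 4) (nat_lit 359) (nat_lit 236) (nat_lit 185)) (XT.lf (nat_lit 0) (nat_lit 7815486006) (nat_lit 76) (nat_lit 19654084217) (nat_lit 76) (nat_lit 1704337231) (nat_lit 11) (nat_lit 4) (nat_lit 12) (nat_lit 5) (nat_lit 12) (nat_lit 4) (nat_lit 360) (nat_lit 236) (nat_lit 184)))) (XT.nd (nat_lit 78) (nat_lit 0) (nat_lit 0) (XT.lf (nat_lit 0) (nat_lit 1033758665) (nat_lit 152) (nat_lit 15994417251) (nat_lit 76) (nat_lit 12916239524) (nat_lit 10) (nat_lit 5) (nat_lit 12) (nat_lit 5) (nat_lit 11) (nat_lit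 4) (nat_lit 361) (nat_lit 236) (nat_lit 183)) (XT.nd (nat_lit 78) (nat_lit 0) (nat_lit 0) (XT.lf (nat_lit 0) (nat_lit 3790028288) (nat_lit 152) (nat_lit 10538219390) (nat_lit 76) (nat_lit 16410198578) (nat_lit 10) (nat_lit 5) (nat_lit 12) (nat_lit 5) (nat_lit 11) (nat_lit 4) (nat_lit 362) (nat_lit 236) (nat_lit 182)) (XT.lf (nat_lit 0) (nat_lit 6600137784) (nat_lit 152) (nat_lit 4968677184) (nat_lit 76) (nat_lit 19988370241) (nat_lit 10) (nat_lit 5) (nat_lit 12) (nat_lit 5) (nat_lit 11) (nat_lit 4) (nat_lit 363) (nat_lit 236) (nat_lit 181)))))) (XT.nd (nat_lit 468) (nat_lit 152) (nat_lit 0) (XT.nd (nat_lit 234) (nat_lit 0) (nat_lit 0) (XT.nd (nat_lit 78) (nat_lit 0) (nat_lit 0) (XT.lf (nat_lit 0) (nat_lit 733386980) (nat_lit 76) (nat_lit 8740205374) (nat_lit 152) (nat_lit 22927543855) (nat_lit 9) (nat_lit 5) (nat_lit 10) (nat_lit 5) (nat_lit 11) (nat_lit 4) (nat_lit 364) (nat_lit 236) (nat_lit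 180)) (XT.nd (nat_lit 78) (nat_lit 0) (nat_lit 0) (XT.lf (nat_lit 0) (nat_lit 6659969921) (nat_lit 76) (nat_lit 5795797114) (nat_lit 152) (nat_lit 20813983726) (nat_lit 9) (nat_lit 5) (nat_lit 10) (nat_lit 5) (nat_lit 11) (nat_lit 4) (nat_lit 365) (nat_lit 236) (nat_lit 179)) (XT.lf (nat_lit 0) (nat_lit 12717363788) (nat_lit 76) (nat_lit 2783191303) (nat_lit 152) (nat_lit 18664694134) (nat_lit 9) (nat_lit 5) (nat_lit 10) (nat_lit 5) (nat_lit 11) (nat_lit 4) (nat_lit 366) (nat_lit 236) (nat_lit 178)))) (XT.nd (nat_lit 78) (nat_lit 0) (nat_lit 0) (XT.lf (nat_lit 0) (nat_lit 18613503149) (nat_lit 152) (nat_lit 16180438759) (nat_lit 0) (nat_lit 294385583) (nat_lit 9) (nat_lit 5) (nat_lit 11) (nat_lit 4) (nat_lit 9) (nat_lit 4) (nat_lit 367) (nat_lit 236) (nat_lit 177)) (XT.nd (nat_lit 78) (nat_lit 0) (nat_lit 0) (XT.lf (nat_lit 0) (nat_lit 21821903101) (nat_lit 152) (nat_lit 10827410025) (nat_lit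 0) (nat_lit 3389741850) (nat_lit 9) (nat_lit 5) (nat_lit 11) (nat_lit 4) (nat_lit 9) (nat_lit 4) (nat_lit 368) (nat_lit 236) (nat_lit 176)) (XT.lf (nat_lit 0) (nat_lit 25101804667) (nat_lit 152) (nat_lit 5357368093) (nat_lit 0) (nat_lit 6559892266) (nat_lit 9) (nat_lit 5) (nat_lit 11) (nat_lit 4) (nat_lit 9) (nat_lit 4) (nat_lit 369) (nat_lit 236) (nat_lit 175))))) (XT.nd (nat_lit 234) (nat_lit 76) (nat_lit 0) (XT.nd (nat_lit 78) (nat_lit 0) (nat_lit 0) (XT.lf (nat_lit 0) (nat_lit 239133031) (nat_lit 76) (nat_lit 28219239442) (nat_lit 76) (nat_lit 9570772527) (nat_lit 8) (nat_lit 4) (nat_lit 9) (nat_lit 5) (nat_lit 9) (nat_lit 4) (nat_lit 370) (nat_lit 236) (nat_lit 174)) (XT.nd (nat_lit 78) (nat_lit 0) (nat_lit 0) (XT.lf (nat_lit 0) (nat_lit 6071456359) (nat_lit 76) (nat_lit 25874547550) (nat_lit 76) (nat_lit 7122629650) (nat_lit 8) (nat_lit 4) (nat_lit 9) (nat_lit 5) (nat_lit 9) (nat_lit 4)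 (nat_lit 371) (nat_lit 236) (nat_lit 173)) (XT.lf (nat_lit 0) (nat_lit 12038075965) (nat_lit 76) (nat_lit 23477147235) (nat_lit 76) (nat_lit 4624791486) (nat_lit 8) (nat_lit 4) (nat_lit 9) (nat_lit 5) (nat_lit 9) (nat_lit 4) (nat_lit 372) (nat_lit 236) (nat_lit 172)))) (XT.nd (nat_lit 78) (nat_lit 76) (nat_lit 0) (XT.lf (nat_lit 0) (nat_lit 18144205401) (nat_lit 76) (nat_lit 21024943684) (nat_lit 76) (nat_lit 2075075459) (nat_lit 8) (nat_lit 4) (nat_lit 9) (nat_lit 5) (nat_lit 9) (nat_lit 4) (nat_lit 373) (nat_lit 236) (nat_lit 171)) (XT.nd (nat_lit 78) (nat_lit 0) (nat_lit 0) (XT.lf (nat_lit 0) (nat_lit 518428592) (nat_lit 152) (nat_lit 17992130488) (nat_lit 76) (nat_lit 23871516416) (nat_lit 7) (nat_lit 5) (nat_lit 9) (nat_lit 5) (nat_lit 8) (nat_lit 4) (nat_lit 374) (nat_lit 236) (nat_lit 170)) (XT.lf (nat_lit 0) (nat_lit 3126721206) (nat_lit 152) (nat_lit 12789211342) (nat_lit 76) (nat_lit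 27638167179) (nat_lit 7) (nat_lit 5) (nat_lit 9) (nat_lit 5) (nat_lit 8) (nat_lit 4) (nat_lit 375) (nat_lit 236) (nat_lit 169))))))) (XT.nd (nat_lit 858) (nat_lit 152) (nat_lit 0) (XT.nd (nat_lit 390) (nat_lit 0) (nat_lit 0) (XT.nd (nat_lit 156) (nat_lit 76) (nat_lit 0) (XT.nd (nat_lit 78) (nat_lit 0) (nat_lit 0) (XT.lf (nat_lit 0) (nat_lit 5792573669) (nat_lit 152) (nat_lit 7466768569) (nat_lit 76) (nat_lit 31502577504) (nat_lit 7) (nat_lit 5) (nat_lit 9) (nat_lit 5) (nat_lit 8) (nat_lit 4) (nat_lit 376) (nat_lit 236) (nat_lit 168)) (XT.lf (nat_lit 0) (nat_lit 8518315368) (nat_lit 152) (nat_lit 2020151492) (nat_lit 76) (nat_lit 35468124059) (nat_lit 7) (nat_lit 5) (nat_lit 9) (nat_lit 5) (nat_lit 8) (nat_lit 4) (nat_lit 377) (nat_lit 236) (nat_lit 167))) (XT.nd (nat_lit 78) (nat_lit 0) (nat_lit 0) (XT.lf (nat_lit 0) (nat_lit 3626158482) (nat_lit 76) (nat_lit 7715026389) (nat_lit 152) (nat_lit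 35946970257) (nat_lit 6) (nat_lit 5) (nat_lit 7) (nat_lit 5) (nat_lit 8) (nat_lit 4) (nat_lit 378) (nat_lit 236) (nat_lit 166)) (XT.nd (nat_lit 78) (nat_lit 0) (nat_lit 0) (XT.lf (nat_lit 0) (nat_lit 9449141746) (nat_lit 76) (nat_lit 4800736932) (nat_lit 152) (nat_lit 34358266609) (nat_lit 6) (nat_lit 5) (nat_lit 7) (nat_lit 5) (nat_lit 8) (nat_lit 4) (nat_lit 379) (nat_lit 236) (nat_lit 165)) (XT.lf (nat_lit 0) (nat_lit 15413681366) (nat_lit 76) (nat_lit 1813451590) (nat_lit 152) (nat_lit 32741175989) (nat_lit 6) (nat_lit 5) (nat_lit 7) (nat_lit 5) (nat_lit 8) (nat_lit 4) (nat_lit 380) (nat_lit 236) (nat_lit 164))))) (XT.nd (nat_lit 234) (nat_lit 0) (nat_lit 0) (XT.nd (nat_lit 78) (nat_lit 0) (nat_lit 0) (XT.lf (nat_lit 0) (nat_lit 20287559573) (nat_lit 152) (nat_lit 29856855900) (nat_lit 0) (nat_lit 1225058811) (nat_lit 6) (nat_lit 5) (nat_lit 8) (nat_lit 4) (nat_lit 6) (nat_lit 4) (nat_lit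 381) (nat_lit 236) (nat_lit 163)) (XT.nd (nat_lit 78) (nat_lit 0) (nat_lit 0) (XT.lf (nat_lit 0) (nat_lit 23439996316) (nat_lit 152) (nat_lit 25067747285) (nat_lit 0) (nat_lit 4304937115) (nat_lit 6) (nat_lit 5) (nat_lit 8) (nat_lit 4) (nat_lit 6) (nat_lit 4) (nat_lit 382) (nat_lit 236) (nat_lit 162)) (XT.lf (nat_lit 0) (nat_lit 26669765736) (nat_lit 152) (nat_lit 20165685069) (nat_lit 0) (nat_lit 7464261448) (nat_lit 6) (nat_lit 5) (nat_lit 8) (nat_lit 4) (nat_lit 6) (nat_lit 4) (nat_lit 383) (nat_lit 236) (nat_lit 161)))) (XT.nd (nat_lit 78) (nat_lit 0) (nat_lit 0) (XT.lf (nat_lit 0) (nat_lit 29979689962) (nat_lit 152) (nat_lit 15146385897) (nat_lit 0) (nat_lit 10705792385) (nat_lit 6) (nat_lit 5) (nat_lit 8) (nat_lit 4) (nat_lit 6) (nat_lit 4) (nat_lit 384) (nat_lit 236) (nat_lit 160)) (XT.nd (nat_lit 78) (nat_lit 0) (nat_lit 0) (XT.lf (nat_lit 0) (nat_lit 33372661160) (nat_lit 152) (nat_lit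 10005463974) (nat_lit 0) (nat_lit 14032362332) (nat_lit 6) (nat_lit 5) (nat_lit 8) (nat_lit 4) (nat_lit 6) (nat_lit 4) (nat_lit 385) (nat_lit 236) (nat_lit 159)) (XT.lf (nat_lit 0) (nat_lit 36851644062) (nat_lit 152) (nat_lit 4738427232) (nat_lit 0) (nat_lit 17446878001) (nat_lit 6) (nat_lit 5) (nat_lit 8) (nat_lit 4) (nat_lit 6) (nat_lit 4) (nat_lit 386) (nat_lit 236) (nat_lit 158)))))) (XT.nd (nat_lit 468) (nat_lit 76) (nat_lit 0) (XT.nd (nat_lit 234) (nat_lit 0) (nat_lit 0) (XT.nd (nat_lit 78) (nat_lit 0) (nat_lit 0) (XT.lf (nat_lit 0) (nat_lit 672448485) (nat_lit 76) (nat_lit 39753694057) (nat_lit 76) (nat_lit 20286338449) (nat_lit 5) (nat_lit 4) (nat_lit 6) (nat_lit 5) (nat_lit 6) (nat_lit 4) (nat_lit 387) (nat_lit 236) (nat_lit 157)) (XT.nd (nat_lit 78) (nat_lit 0) (nat_lit 0) (XT.lf (nat_lit 0) (nat_lit 6315757157) (nat_lit 76) (nat_lit 37824836107) (nat_lit 76) (nat_lit 18296713949) (nat_lit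 5) (nat_lit 4) (nat_lit 6) (nat_lit 5) (nat_lit 6) (nat_lit 4) (nat_lit 388) (nat_lit 236) (nat_lit 156)) (XT.lf (nat_lit 0) (nat_lit 12102125837) (nat_lit 76) (nat_lit 35849660859) (nat_lit 76) (nat_lit 16262542049) (nat_lit 5) (nat_lit 4) (nat_lit 6) (nat_lit 5) (nat_lit 6) (nat_lit 4) (nat_lit 389) (nat_lit 236) (nat_lit 155)))) (XT.nd (nat_lit 78) (nat_lit 0) (nat_lit 0) (XT.lf (nat_lit 0) (nat_lit 18036610576) (nat_lit 76) (nat_lit 33826442430) (nat_lit 76) (nat_lit 14182045318) (nat_lit 5) (nat_lit 4) (nat_lit 6) (nat_lit 5) (nat_lit 6) (nat_lit 4) (nat_lit 390) (nat_lit 236) (nat_lit 154)) (XT.nd (nat_lit 78) (nat_lit 0) (nat_lit 0) (XT.lf (nat_lit 0) (nat_lit 24124396845) (nat_lit 76) (nat_lit 31753412960) (nat_lit 76) (nat_lit 12053405846) (nat_lit 5) (nat_lit 4) (nat_lit 6) (nat_lit 5) (nat_lit 6) (nat_lit 4) (nat_lit 391) (nat_lit 236) (nat_lit 153)) (XT.lf (nat_lit 0) (nat_lit 30370804068)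 (nat_lit 76) (nat_lit 29628761065) (nat_lit 76) (nat_lit 9874763658) (nat_lit 5) (nat_lit 4) (nat_lit 6) (nat_lit 5) (nat_lit 6) (nat_lit 4) (nat_lit 392) (nat_lit 236) (nat_lit 152))))) (XT.nd (nat_lit 234) (nat_lit 76) (nat_lit 0) (XT.nd (nat_lit 78) (nat_lit 0) (nat_lit 0) (XT.lf (nat_lit 0) (nat_lit 36781290273) (nat_lit 76) (nat_lit 27450630252) (nat_lit 76) (nat_lit 7644215084) (nat_lit 5) (nat_lit 4) (nat_lit 6) (nat_lit 5) (nat_lit 6) (nat_lit 4) (nat_lit 393) (nat_lit 236) (nat_lit 151)) (XT.nd (nat_lit 78) (nat_lit 0) (nat_lit 0) (XT.lf (nat_lit 0) (nat_lit 43361456855) (nat_lit 76) (nat_lit 25217117300) (nat_lit 76) (nat_lit 5359811102) (nat_lit 5) (nat_lit 4) (nat_lit 6) (nat_lit 5) (nat_lit 6) (nat_lit 4) (nat_lit 394) (nat_lit 236) (nat_lit 150)) (XT.lf (nat_lit 0) (nat_lit 50117053473) (nat_lit 76) (nat_lit 22926270596) (nat_lit 76) (nat_lit 3019555632) (nat_lit 5) (nat_lit 4)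 (nat_lit 6) (nat_lit 5) (nat_lit 6) (nat_lit 4) (nat_lit 395) (nat_lit 236) (nat_lit 149)))) (XT.nd (nat_lit 78) (nat_lit 76) (nat_lit 0) (XT.lf (nat_lit 0) (nat_lit 57053983076) (nat_lit 76) (nat_lit 20576088429) (nat_lit 76) (nat_lit 621403788) (nat_lit 5) (nat_lit 4) (nat_lit 6) (nat_lit 5) (nat_lit 6) (nat_lit 4) (nat_lit 396) (nat_lit 236) (nat_lit 148)) (XT.nd (nat_lit 78) (nat_lit 0) (nat_lit 0) (XT.lf (nat_lit 0) (nat_lit 1800898488) (nat_lit 152) (nat_lit 16345433210) (nat_lit 76) (nat_lit 62359223028) (nat_lit 4) (nat_lit 5) (nat_lit 6) (nat_lit 5) (nat_lit 5) (nat_lit 4) (nat_lit 397) (nat_lit 236) (nat_lit 147)) (XT.lf (nat_lit 0) (nat_lit 4272002106) (nat_lit 152) (nat_lit 11374308885) (nat_lit 76) (nat_lit 67181109609) (nat_lit 4) (nat_lit 5) (nat_lit 6) (nat_lit 5) (nat_lit 5) (nat_lit 4) (nat_lit 398) (nat_lit 236) (nat_lit 146))))))))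
noncomputable def xc51 : XT := (XT.nd (nat_lit 34788) (nat_lit 0) (nat_lit 988) (XT.nd (nat_lit 33852) (nat_lit 0) (nat_lit 2812) (XT.nd (nat_lit 33384) (nat_lit 0) (nat_lit 4408) (XT.nd (nat_lit 156) (nat_lit 76) (nat_lit 0) (XT.nd (nat_lit 78) (nat_lit 0) (nat_lit 0) (XT.lf (nat_lit 0) (nat_lit 6806192109) (nat_lit 152) (nat_lit 6273802228) (nat_lit 76) (nat_lit 72139286594) (nat_lit 4) (nat_lit 5) (nat_lit 6) (nat_lit 5) (nat_lit 5) (nat_lit 4) (nat_lit 399) (nat_lit 236) (nat_lit 145)) (XT.lf (nat_lit 0) (nat_lit 9405682837) (nat_lit 152) (nat_lit 1039456487) (nat_lit 76) (nat_lit 77238086371) (nat_lit 4) (nat_lit 5) (nat_lit 6) (nat_lit 5) (nat_lit 5) (nat_lit 4) (nat_lit 400) (nat_lit 236) (nat_lit 144))) (XT.nd (nat_lit 78) (nat_lit 0) (nat_lit 0) (XT.lf (nat_lit 0) (nat_lit 4419543246) (nat_lit 76) (nat_lit 7695685796) (nat_lit 152) (nat_lit 78104904309) (nat_lit 3) (nat_lit 5) (nat_lit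 4) (nat_lit 5) (nat_lit 5) (nat_lit 4) (nat_lit 401) (nat_lit 236) (nat_lit 143)) (XT.nd (nat_lit 78) (nat_lit 0) (nat_lit 0) (XT.lf (nat_lit 0) (nat_lit 10045185749) (nat_lit 76) (nat_lit 4861085831) (nat_lit 152) (nat_lit 77926876837) (nat_lit 3) (nat_lit 5) (nat_lit 4) (nat_lit 5) (nat_lit 5) (nat_lit 4) (nat_lit 402) (nat_lit 236) (nat_lit 142)) (XT.lf (nat_lit 0) (nat_lit 15821699408) (nat_lit 76) (nat_lit 1949359066) (nat_lit 152) (nat_lit 77753801357) (nat_lit 3) (nat_lit 5) (nat_lit 4) (nat_lit 5) (nat_lit 5) (nat_lit 4) (nat_lit 403) (nat_lit 236) (nat_lit 141))))) (XT.nd (nat_lit 234) (nat_lit 608) (nat_lit 0) (XT.nd (nat_lit 78) (nat_lit 380) (nat_lit 0) (XT.lf (nat_lit 0) (nat_lit 330345514) (nat_lit 304) (nat_lit 2137288572) (nat_lit 304) (nat_lit 2137288572) (nat_lit 74) (nat_lit 4) (nat_lit 78) (nat_lit 5) (nat_lit 78) (nat_lit 4) (nat_lit 306) (nat_lit 237) (nat_lit 237)) (XT.nd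 (nat_lit 78) (nat_lit 380) (nat_lit 0) (XT.lf (nat_lit 0) (nat_lit 6590036225) (nat_lit 304) (nat_lit 1853795955) (nat_lit 304) (nat_lit 904227054) (nat_lit 74) (nat_lit 4) (nat_lit 78) (nat_lit 5) (nat_lit 78) (nat_lit 4) (nat_lit 307) (nat_lit 237) (nat_lit 236)) (XT.lf (nat_lit 0) (nat_lit 2468776931) (nat_lit 380) (nat_lit 6370696168) (nat_lit 0) (nat_lit 651805615) (nat_lit 69) (nat_lit 5) (nat_lit 74) (nat_lit 4) (nat_lit 69) (nat_lit 4) (nat_lit 308) (nat_lit 237) (nat_lit 235)))) (XT.nd (nat_lit 78) (nat_lit 608) (nat_lit 0) (XT.lf (nat_lit 0) (nat_lit 5887530323) (nat_lit 380) (nat_lit 550689257) (nat_lit 0) (nat_lit 3201568948) (nat_lit 69) (nat_lit 5) (nat_lit 74) (nat_lit 4) (nat_lit 69) (nat_lit 4) (nat_lit 309) (nat_lit 237) (nat_lit 234)) (XT.nd (nat_lit 78) (nat_lit 304) (nat_lit 0) (XT.lf (nat_lit 0) (nat_lit 5436181688) (nat_lit 304) (nat_lit 3943612344) (nat_lit 304) (nat_lit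 413971300) (nat_lit 65) (nat_lit 4) (nat_lit 69) (nat_lit 5) (nat_lit 69) (nat_lit 4) (nat_lit 310) (nat_lit 237) (nat_lit 233)) (XT.lf (nat_lit 0) (nat_lit 1548396526) (nat_lit 228) (nat_lit 1356600540) (nat_lit 304) (nat_lit 7048437736) (nat_lit 61) (nat_lit 5) (nat_lit 64) (nat_lit 5) (nat_lit 65) (nat_lit 4) (nat_lit 311) (nat_lit 237) (nat_lit 232)))))) (XT.nd (nat_lit 468) (nat_lit 684) (nat_lit 0) (XT.nd (nat_lit 234) (nat_lit 532) (nat_lit 0) (XT.nd (nat_lit 78) (nat_lit 380) (nat_lit 0) (XT.lf (nat_lit 0) (nat_lit 6292222328) (nat_lit 304) (nat_lit 2528316112) (nat_lit 0) (nat_lit 1298050944) (nat_lit 61) (nat_lit 5) (nat_lit 65) (nat_lit 4) (nat_lit 61) (nat_lit 4) (nat_lit 312) (nat_lit 237) (nat_lit 231)) (XT.nd (nat_lit 78) (nat_lit 76) (nat_lit 0) (XT.lf (nat_lit 0) (nat_lit 3466773579) (nat_lit 304) (nat_lit 6283373444) (nat_lit 304) (nat_lit 539603601) (nat_lit 57) (nat_lit 4)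 (nat_lit 61) (nat_lit 5) (nat_lit 61) (nat_lit 4) (nat_lit 313) (nat_lit 237) (nat_lit 230)) (XT.lf (nat_lit 0) (nat_lit 2738660841) (nat_lit 380) (nat_lit 912053829) (nat_lit 76) (nat_lit 6816175855) (nat_lit 56) (nat_lit 5) (nat_lit 61) (nat_lit 5) (nat_lit 57) (nat_lit 4) (nat_lit 314) (nat_lit 237) (nat_lit 229)))) (XT.nd (nat_lit 78) (nat_lit 304) (nat_lit 0) (XT.lf (nat_lit 0) (nat_lit 5162160581) (nat_lit 228) (nat_lit 916787378) (nat_lit 304) (nat_lit 4571114714) (nat_lit 53) (nat_lit 5) (nat_lit 56) (nat_lit 5) (nat_lit 57) (nat_lit 4) (nat_lit 315) (nat_lit 237) (nat_lit 228)) (XT.nd (nat_lit 78) (nat_lit 76) (nat_lit 0) (XT.lf (nat_lit 0) (nat_lit 479501624) (nat_lit 228) (nat_lit 8997821950) (nat_lit 228) (nat_lit 1362780634) (nat_lit 50) (nat_lit 4) (nat_lit 53) (nat_lit 5) (nat_lit 53) (nat_lit 4) (nat_lit 316) (nat_lit 237) (nat_lit 227)) (XT.lf (nat_lit 0) (nat_lit 1894951858)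 (nat_lit 304) (nat_lit 4434899258) (nat_lit 76) (nat_lit 4705808968) (nat_lit 49) (nat_lit 5) (nat_lit 53) (nat_lit 5) (nat_lit 50) (nat_lit 4) (nat_lit 317) (nat_lit 237) (nat_lit 226))))) (XT.nd (nat_lit 234) (nat_lit 152) (nat_lit 0) (XT.nd (nat_lit 78) (nat_lit 304) (nat_lit 0) (XT.lf (nat_lit 0) (nat_lit 1578261152) (nat_lit 228) (nat_lit 3588088400) (nat_lit 304) (nat_lit 6072129816) (nat_lit 46) (nat_lit 5) (nat_lit 49) (nat_lit 5) (nat_lit 50) (nat_lit 4) (nat_lit 318) (nat_lit 237) (nat_lit 225)) (XT.nd (nat_lit 78) (nat_lit 304) (nat_lit 0) (XT.lf (nat_lit 0) (nat_lit 7756163850) (nat_lit 228) (nat_lit 753729959) (nat_lit 304) (nat_lit 2938367564) (nat_lit 46) (nat_lit 5) (nat_lit 49) (nat_lit 5) (nat_lit 50) (nat_lit 4) (nat_lit 319) (nat_lit 237) (nat_lit 224)) (XT.lf (nat_lit 0) (nat_lit 258014174) (nat_lit 304) (nat_lit 9292406496) (nat_lit 76) (nat_lit 2114697731) (nat_lit 42)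 (nat_lit 5) (nat_lit 46) (nat_lit 5) (nat_lit 43) (nat_lit 4) (nat_lit 320) (nat_lit 237) (nat_lit 223)))) (XT.nd (nat_lit 78) (nat_lit 152) (nat_lit 0) (XT.lf (nat_lit 0) (nat_lit 3467536823) (nat_lit 304) (nat_lit 3334847170) (nat_lit 76) (nat_lit 5086025074) (nat_lit 42) (nat_lit 5) (nat_lit 46) (nat_lit 5) (nat_lit 43) (nat_lit 4) (nat_lit 321) (nat_lit 237) (nat_lit 222)) (XT.nd (nat_lit 78) (nat_lit 0) (nat_lit 0) (XT.lf (nat_lit 0) (nat_lit 2752519480) (nat_lit 152) (nat_lit 3980481641) (nat_lit 228) (nat_lit 5386694976) (nat_lit 40) (nat_lit 5) (nat_lit 42) (nat_lit 5) (nat_lit 43) (nat_lit 4) (nat_lit 322) (nat_lit 237) (nat_lit 221)) (XT.lf (nat_lit 0) (nat_lit 8989243390) (nat_lit 152) (nat_lit 1075027282) (nat_lit 228) (nat_lit 2294700606) (nat_lit 40) (nat_lit 5) (nat_lit 42) (nat_lit 5) (nat_lit 43) (nat_lit 4) (nat_lit 323) (nat_lit 237) (nat_lit 220))))))) (XT.nd (nat_lit 936)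 (nat_lit 760) (nat_lit 0) (XT.nd (nat_lit 468) (nat_lit 380) (nat_lit 0) (XT.nd (nat_lit 234) (nat_lit 228) (nat_lit 0) (XT.nd (nat_lit 78) (nat_lit 152) (nat_lit 0) (XT.lf (nat_lit 0) (nat_lit 852956114) (nat_lit 304) (nat_lit 9872058456) (nat_lit 76) (nat_lit 1880825265) (nat_lit 36) (nat_lit 5) (nat_lit 40) (nat_lit 5) (nat_lit 37) (nat_lit 4) (nat_lit 324) (nat_lit 237) (nat_lit 219)) (XT.nd (nat_lit 78) (nat_lit 152) (nat_lit 0) (XT.lf (nat_lit 0) (nat_lit 4029890062) (nat_lit 304) (nat_lit 3904021268) (nat_lit 76) (nat_lit 4926170047) (nat_lit 36) (nat_lit 5) (nat_lit 40) (nat_lit 5) (nat_lit 37) (nat_lit 4) (nat_lit 325) (nat_lit 237) (nat_lit 218)) (XT.lf (nat_lit 0) (nat_lit 2187986371) (nat_lit 152) (nat_lit 5073003502) (nat_lit 228) (nat_lit 5862269883) (nat_lit 34) (nat_lit 5) (nat_lit 36) (nat_lit 5) (nat_lit 37) (nat_lit 4) (nat_lit 326) (nat_lit 237) (nat_lit 217)))) (XT.nd (nat_lit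 78) (nat_lit 228) (nat_lit 0) (XT.lf (nat_lit 0) (nat_lit 8445975182) (nat_lit 152) (nat_lit 2121176370) (nat_lit 228) (nat_lit 2827911201) (nat_lit 34) (nat_lit 5) (nat_lit 36) (nat_lit 5) (nat_lit 37) (nat_lit 4) (nat_lit 327) (nat_lit 237) (nat_lit 216)) (XT.nd (nat_lit 78) (nat_lit 0) (nat_lit 0) (XT.lf (nat_lit 0) (nat_lit 251107686) (nat_lit 228) (nat_lit 12544283009) (nat_lit 76) (nat_lit 880829260) (nat_lit 31) (nat_lit 5) (nat_lit 34) (nat_lit 5) (nat_lit 32) (nat_lit 4) (nat_lit 328) (nat_lit 237) (nat_lit 215)) (XT.lf (nat_lit 0) (nat_lit 3377473289) (nat_lit 228) (nat_lit 6612795326) (nat_lit 76) (nat_lit 3974415780) (nat_lit 31) (nat_lit 5) (nat_lit 34) (nat_lit 5) (nat_lit 32) (nat_lit 4) (nat_lit 329) (nat_lit 237) (nat_lit 214))))) (XT.nd (nat_lit 234) (nat_lit 228) (nat_lit 0) (XT.nd (nat_lit 78) (nat_lit 152) (nat_lit 0) (XT.lf (nat_lit 0) (nat_lit 6539709205) (nat_lit 228)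 (nat_lit 596402527) (nat_lit 76) (nat_lit 7127493633) (nat_lit 31) (nat_lit 5) (nat_lit 34) (nat_lit 5) (nat_lit 32) (nat_lit 4) (nat_lit 330) (nat_lit 237) (nat_lit 213)) (XT.nd (nat_lit 78) (nat_lit 0) (nat_lit 0) (XT.lf (nat_lit 0) (nat_lit 5619815267) (nat_lit 152) (nat_lit 4174784385) (nat_lit 228) (nat_lit 4777023771) (nat_lit 29) (nat_lit 5) (nat_lit 31) (nat_lit 5) (nat_lit 32) (nat_lit 4) (nat_lit 331) (nat_lit 237) (nat_lit 212)) (XT.lf (nat_lit 0) (nat_lit 11945301224) (nat_lit 152) (nat_lit 1152402522) (nat_lit 228) (nat_lit 1792722516) (nat_lit 29) (nat_lit 5) (nat_lit 31) (nat_lit 5) (nat_lit 32) (nat_lit 4) (nat_lit 332) (nat_lit 237) (nat_lit 211)))) (XT.nd (nat_lit 78) (nat_lit 0) (nat_lit 0) (XT.lf (nat_lit 0) (nat_lit 1251427040) (nat_lit 228) (nat_lit 12034156654) (nat_lit 76) (nat_lit 1933038231) (nat_lit 26) (nat_lit 5) (nat_lit 29) (nat_lit 5) (nat_lit 27) (nat_lit 4) (nat_lit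 333) (nat_lit 237) (nat_lit 210)) (XT.nd (nat_lit 78) (nat_lit 0) (nat_lit 0) (XT.lf (nat_lit 0) (nat_lit 4338308358) (nat_lit 228) (nat_lit 6115372432) (nat_lit 76) (nat_lit 5102883049) (nat_lit 26) (nat_lit 5) (nat_lit 29) (nat_lit 5) (nat_lit 27) (nat_lit 4) (nat_lit 334) (nat_lit 237) (nat_lit 209)) (XT.lf (nat_lit 0) (nat_lit 7465363933) (nat_lit 228) (nat_lit 104910637) (nat_lit 76) (nat_lit 8335996821) (nat_lit 26) (nat_lit 5) (nat_lit 29) (nat_lit 5) (nat_lit 27) (nat_lit 4) (nat_lit 335) (nat_lit 237) (nat_lit 208)))))) (XT.nd (nat_lit 468) (nat_lit 304) (nat_lit 0) (XT.nd (nat_lit 234) (nat_lit 76) (nat_lit 0) (XT.nd (nat_lit 78) (nat_lit 228) (nat_lit 0) (XT.lf (nat_lit 0) (nat_lit 6121941723) (nat_lit 152) (nat_lit 4572232269) (nat_lit 228) (nat_lit 5572110725) (nat_lit 24) (nat_lit 5) (nat_lit 26) (nat_lit 5) (nat_lit 27) (nat_lit 4) (nat_lit 336) (nat_lit 237) (nat_lit 207)) (XT.nd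 (nat_lit 78) (nat_lit 228) (nat_lit 0) (XT.lf (nat_lit 0) (nat_lit 12455183293) (nat_lit 152) (nat_lit 1515508409) (nat_lit 228) (nat_lit 2667932735) (nat_lit 24) (nat_lit 5) (nat_lit 26) (nat_lit 5) (nat_lit 27) (nat_lit 4) (nat_lit 337) (nat_lit 237) (nat_lit 206)) (XT.lf (nat_lit 0) (nat_lit 301730700) (nat_lit 228) (nat_lit 15129375514) (nat_lit 76) (nat_lit 1591443121) (nat_lit 21) (nat_lit 5) (nat_lit 24) (nat_lit 5) (nat_lit 22) (nat_lit 4) (nat_lit 338) (nat_lit 237) (nat_lit 205)))) (XT.nd (nat_lit 78) (nat_lit 76) (nat_lit 0) (XT.lf (nat_lit 0) (nat_lit 3315601361) (nat_lit 228) (nat_lit 9302314914) (nat_lit 76) (nat_lit 4799067987) (nat_lit 21) (nat_lit 5) (nat_lit 24) (nat_lit 5) (nat_lit 22) (nat_lit 4) (nat_lit 339) (nat_lit 237) (nat_lit 204)) (XT.nd (nat_lit 78) (nat_lit 76) (nat_lit 0) (XT.lf (nat_lit 0) (nat_lit 6372385501) (nat_lit 228) (nat_lit 3379661405) (nat_lit 76) (nat_lit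 8072675984) (nat_lit 21) (nat_lit 5) (nat_lit 24) (nat_lit 5) (nat_lit 22) (nat_lit 4) (nat_lit 340) (nat_lit 237) (nat_lit 203)) (XT.lf (nat_lit 0) (nat_lit 2696376157) (nat_lit 76) (nat_lit 6804297154) (nat_lit 152) (nat_lit 8744670606) (nat_lit 20) (nat_lit 5) (nat_lit 21) (nat_lit 5) (nat_lit 22) (nat_lit 4) (nat_lit 341) (nat_lit 237) (nat_lit 202))))) (XT.nd (nat_lit 234) (nat_lit 152) (nat_lit 0) (XT.nd (nat_lit 78) (nat_lit 152) (nat_lit 0) (XT.lf (nat_lit 0) (nat_lit 8947817064) (nat_lit 76) (nat_lit 3763612776) (nat_lit 152) (nat_lit 5967538089) (nat_lit 20) (nat_lit 5) (nat_lit 21) (nat_lit 5) (nat_lit 22) (nat_lit 4) (nat_lit 342) (nat_lit 237) (nat_lit 201)) (XT.nd (nat_lit 78) (nat_lit 152) (nat_lit 0) (XT.lf (nat_lit 0) (nat_lit 15312861853) (nat_lit 76) (nat_lit 661464817) (nat_lit 152) (nat_lit 3152641171) (nat_lit 20) (nat_lit 5) (nat_lit 21) (nat_lit 5) (nat_lit 22) (nat_lit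 4) (nat_lit 343) (nat_lit 237) (nat_lit 200)) (XT.lf (nat_lit 0) (nat_lit 2226710015) (nat_lit 152) (nat_lit 17110987577) (nat_lit 152) (nat_lit 250673032) (nat_lit 18) (nat_lit 4) (nat_lit 20) (nat_lit 5) (nat_lit 20) (nat_lit 4) (nat_lit 344) (nat_lit 237) (nat_lit 199)))) (XT.nd (nat_lit 78) (nat_lit 76) (nat_lit 0) (XT.lf (nat_lit 0) (nat_lit 2687295023) (nat_lit 228) (nat_lit 11641794018) (nat_lit 76) (nat_lit 5733703655) (nat_lit 17) (nat_lit 5) (nat_lit 20) (nat_lit 5) (nat_lit 18) (nat_lit 4) (nat_lit 345) (nat_lit 237) (nat_lit 198)) (XT.nd (nat_lit 78) (nat_lit 76) (nat_lit 0) (XT.lf (nat_lit 0) (nat_lit 5666548832) (nat_lit 228) (nat_lit 5823703321) (nat_lit 76) (nat_lit 9062412324) (nat_lit 17) (nat_lit 5) (nat_lit 20) (nat_lit 5) (nat_lit 18) (nat_lit 4) (nat_lit 346) (nat_lit 237) (nat_lit 197)) (XT.lf (nat_lit 0) (nat_lit 102097154) (nat_lit 76) (nat_lit 8593467425) (nat_lit 152)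 (nat_lit 12362892279) (nat_lit 16) (nat_lit 5) (nat_lit 17) (nat_lit 5) (nat_lit 18) (nat_lit 4) (nat_lit 347) (nat_lit 237) (nat_lit 196))))))))
noncomputable def xc52 : XT := (XT.nd (nat_lit 1794) (nat_lit 304) (nat_lit 0) (XT.nd (nat_lit 858) (nat_lit 228) (nat_lit 0) (XT.nd (nat_lit 390) (nat_lit 76) (nat_lit 0) (XT.nd (nat_lit 156) (nat_lit 228) (nat_lit 0) (XT.nd (nat_lit 78) (nat_lit 0) (nat_lit 0) (XT.lf (nat_lit 0) (nat_lit 6256901386) (nat_lit 76) (nat_lit 5577287637) (nat_lit 152) (nat_lit 9744706769) (nat_lit 16) (nat_lit 5) (nat_lit 17) (nat_lit 5) (nat_lit 18) (nat_lit 4) (nat_lit 348) (nat_lit 237) (nat_lit 195)) (XT.lf (nat_lit 0) (nat_lit 12530184242) (nat_lit 76) (nat_lit 2497885277) (nat_lit 152) (nat_lit 7088079365) (nat_lit 16) (nat_lit 5) (nat_lit 17) (nat_lit 5) (nat_lit 18) (nat_lit 4) (nat_lit 349) (nat_lit 237) (nat_lit 194))) (XT.nd (nat_lit 78) (nat_lit 228) (nat_lit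 0) (XT.lf (nat_lit 0) (nat_lit 18286220336) (nat_lit 152) (nat_lit 3749481846) (nat_lit 0) (nat_lit 634796694) (nat_lit 16) (nat_lit 5) (nat_lit 18) (nat_lit 4) (nat_lit 16) (nat_lit 4) (nat_lit 350) (nat_lit 237) (nat_lit 193)) (XT.nd (nat_lit 78) (nat_lit 76) (nat_lit 0) (XT.lf (nat_lit 0) (nat_lit 2217380621) (nat_lit 152) (nat_lit 19433864882) (nat_lit 152) (nat_lit 1589991933) (nat_lit 14) (nat_lit 4) (nat_lit 16) (nat_lit 5) (nat_lit 16) (nat_lit 4) (nat_lit 351) (nat_lit 237) (nat_lit 192)) (XT.lf (nat_lit 0) (nat_lit 1264390032) (nat_lit 228) (nat_lit 15464005168) (nat_lit 76) (nat_lit 7100319535) (nat_lit 13) (nat_lit 5) (nat_lit 16) (nat_lit 5) (nat_lit 14) (nat_lit 4) (nat_lit 352) (nat_lit 237) (nat_lit 191))))) (XT.nd (nat_lit 234) (nat_lit 0) (nat_lit 0) (XT.nd (nat_lit 78) (nat_lit 76) (nat_lit 0) (XT.lf (nat_lit 0) (nat_lit 4136684443) (nat_lit 228) (nat_lit 9814649442) (nat_lit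 76) (nat_lit 10483112297) (nat_lit 13) (nat_lit 5) (nat_lit 16) (nat_lit 5) (nat_lit 14) (nat_lit 4) (nat_lit 353) (nat_lit 237) (nat_lit 190)) (XT.nd (nat_lit 78) (nat_lit 76) (nat_lit 0) (XT.lf (nat_lit 0) (nat_lit 7060427539) (nat_lit 228) (nat_lit 4055569334) (nat_lit 76) (nat_lit 13943422704) (nat_lit 13) (nat_lit 5) (nat_lit 16) (nat_lit 5) (nat_lit 14) (nat_lit 4) (nat_lit 354) (nat_lit 237) (nat_lit 189)) (XT.lf (nat_lit 0) (nat_lit 1854454448) (nat_lit 76) (nat_lit 8201545750) (nat_lit 152) (nat_lit 15647646031) (nat_lit 12) (nat_lit 5) (nat_lit 13) (nat_lit 5) (nat_lit 14) (nat_lit 4) (nat_lit 355) (nat_lit 237) (nat_lit 188)))) (XT.nd (nat_lit 78) (nat_lit 0) (nat_lit 0) (XT.lf (nat_lit 0) (nat_lit 7967467108) (nat_lit 76) (nat_lit 5181646943) (nat_lit 152) (nat_lit 13217882177) (nat_lit 12) (nat_lit 5) (nat_lit 13) (nat_lit 5) (nat_lit 14) (nat_lit 4) (nat_lit 356) (nat_lit 237) (nat_lit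 187)) (XT.nd (nat_lit 78) (nat_lit 0) (nat_lit 0) (XT.lf (nat_lit 0) (nat_lit 14208096330) (nat_lit 76) (nat_lit 2094615005) (nat_lit 152) (nat_lit 10748530683) (nat_lit 12) (nat_lit 5) (nat_lit 13) (nat_lit 5) (nat_lit 14) (nat_lit 4) (nat_lit 357) (nat_lit 237) (nat_lit 186)) (XT.lf (nat_lit 0) (nat_lit 19529758592) (nat_lit 152) (nat_lit 7185397362) (nat_lit 0) (nat_lit 1041519197) (nat_lit 12) (nat_lit 5) (nat_lit 14) (nat_lit 4) (nat_lit 12) (nat_lit 4) (nat_lit 358) (nat_lit 237) (nat_lit 185)))))) (XT.nd (nat_lit 468) (nat_lit 76) (nat_lit 0) (XT.nd (nat_lit 234) (nat_lit 76) (nat_lit 0) (XT.nd (nat_lit 78) (nat_lit 76) (nat_lit 0) (XT.lf (nat_lit 0) (nat_lit 22843688169) (nat_lit 152) (nat_lit 1431953074) (nat_lit 0) (nat_lit 4207952406) (nat_lit 12) (nat_lit 5) (nat_lit 14) (nat_lit 4) (nat_lit 12) (nat_lit 4) (nat_lit 359) (nat_lit 237) (nat_lit 184)) (XT.nd (nat_lit 78) (nat_lit 0)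 (nat_lit 0) (XT.lf (nat_lit 0) (nat_lit 4530760634) (nat_lit 76) (nat_lit 21740052819) (nat_lit 76) (nat_lit 2961116699) (nat_lit 11) (nat_lit 4) (nat_lit 12) (nat_lit 5) (nat_lit 12) (nat_lit 4) (nat_lit 360) (nat_lit 237) (nat_lit 183)) (XT.lf (nat_lit 0) (nat_lit 10650471331) (nat_lit 76) (nat_lit 19135341153) (nat_lit 76) (nat_lit 217375559) (nat_lit 11) (nat_lit 4) (nat_lit 12) (nat_lit 5) (nat_lit 12) (nat_lit 4) (nat_lit 361) (nat_lit 237) (nat_lit 182)))) (XT.nd (nat_lit 78) (nat_lit 0) (nat_lit 0) (XT.lf (nat_lit 0) (nat_lit 2528924900) (nat_lit 152) (nat_lit 13919228117) (nat_lit 76) (nat_lit 14349565578) (nat_lit 10) (nat_lit 5) (nat_lit 12) (nat_lit 5) (nat_lit 11) (nat_lit 4) (nat_lit 362) (nat_lit 237) (nat_lit 181)) (XT.nd (nat_lit 78) (nat_lit 0) (nat_lit 0) (XT.lf (nat_lit 0) (nat_lit 5325237364) (nat_lit 152) (nat_lit 8373762428) (nat_lit 76) (nat_lit 17917882078) (nat_lit 10)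 (nat_lit 5) (nat_lit 12) (nat_lit 5) (nat_lit 11) (nat_lit 4) (nat_lit 363) (nat_lit 237) (nat_lit 180)) (XT.lf (nat_lit 0) (nat_lit 8178246993) (nat_lit 152) (nat_lit 2709384543) (nat_lit 76) (nat_lit 21573824788) (nat_lit 10) (nat_lit 5) (nat_lit 12) (nat_lit 5) (nat_lit 11) (nat_lit 4) (nat_lit 364) (nat_lit 237) (nat_lit 179))))) (XT.nd (nat_lit 234) (nat_lit 0) (nat_lit 0) (XT.nd (nat_lit 78) (nat_lit 0) (nat_lit 0) (XT.lf (nat_lit 0) (nat_lit 3140130242) (nat_lit 76) (nat_lit 7980501318) (nat_lit 152) (nat_lit 22210642832) (nat_lit 9) (nat_lit 5) (nat_lit 10) (nat_lit 5) (nat_lit 11) (nat_lit 4) (nat_lit 365) (nat_lit 237) (nat_lit 178)) (XT.nd (nat_lit 78) (nat_lit 0) (nat_lit 0) (XT.lf (nat_lit 0) (nat_lit 9175052177) (nat_lit 76) (nat_lit 4977525186) (nat_lit 152) (nat_lit 20074590287) (nat_lit 9) (nat_lit 5) (nat_lit 10) (nat_lit 5) (nat_lit 11) (nat_lit 4) (nat_lit 366) (nat_lit 237)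 (nat_lit 177)) (XT.lf (nat_lit 0) (nat_lit 15346732428) (nat_lit 76) (nat_lit 1903438652) (nat_lit 152) (nat_lit 17900544714) (nat_lit 9) (nat_lit 5) (nat_lit 10) (nat_lit 5) (nat_lit 11) (nat_lit 4) (nat_lit 367) (nat_lit 237) (nat_lit 176)))) (XT.nd (nat_lit 78) (nat_lit 0) (nat_lit 0) (XT.lf (nat_lit 0) (nat_lit 20428081708) (nat_lit 152) (nat_lit 14454124445) (nat_lit 0) (nat_lit 1220160786) (nat_lit 9) (nat_lit 5) (nat_lit 11) (nat_lit 4) (nat_lit 9) (nat_lit 4) (nat_lit 368) (nat_lit 237) (nat_lit 175)) (XT.nd (nat_lit 78) (nat_lit 0) (nat_lit 0) (XT.lf (nat_lit 0) (nat_lit 23696146082) (nat_lit 152) (nat_lit 9004924096) (nat_lit 0) (nat_lit 4381670645) (nat_lit 9) (nat_lit 5) (nat_lit 11) (nat_lit 4) (nat_lit 9) (nat_lit 4) (nat_lit 369) (nat_lit 237) (nat_lit 174)) (XT.lf (nat_lit 0) (nat_lit 27038922776) (nat_lit 152) (nat_lit 3433323864) (nat_lit 0) (nat_lit 7620996354) (nat_lit 9)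 (nat_lit 5) (nat_lit 11) (nat_lit 4) (nat_lit 9) (nat_lit 4) (nat_lit 370) (nat_lit 237) (nat_lit 173))))))) (XT.nd (nat_lit 858) (nat_lit 76) (nat_lit 0) (XT.nd (nat_lit 390) (nat_lit 76) (nat_lit 0) (XT.nd (nat_lit 156) (nat_lit 76) (nat_lit 0) (XT.nd (nat_lit 78) (nat_lit 0) (nat_lit 0) (XT.lf (nat_lit 0) (nat_lit 2310633418) (nat_lit 76) (nat_lit 28170910467) (nat_lit 76) (nat_lit 8652546195) (nat_lit 8) (nat_lit 4) (nat_lit 9) (nat_lit 5) (nat_lit 9) (nat_lit 4) (nat_lit 371) (nat_lit 237) (nat_lit 172)) (XT.lf (nat_lit 0) (nat_lit 8257800434) (nat_lit 76) (nat_lit 25781943045) (nat_lit 76) (nat_lit 6166066298) (nat_lit 8) (nat_lit 4) (nat_lit 9) (nat_lit 5) (nat_lit 9) (nat_lit 4) (nat_lit 372) (nat_lit 237) (nat_lit 171))) (XT.nd (nat_lit 78) (nat_lit 76) (nat_lit 0) (XT.lf (nat_lit 0) (nat_lit 14345043860) (nat_lit 76) (nat_lit 23337926768) (nat_lit 76) (nat_lit 3627377715) (nat_lit 8)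 (nat_lit 4) (nat_lit 9) (nat_lit 5) (nat_lit 9) (nat_lit 4) (nat_lit 373) (nat_lit 237) (nat_lit 170)) (XT.nd (nat_lit 78) (nat_lit 76) (nat_lit 0) (XT.lf (nat_lit 0) (nat_lit 20577682647) (nat_lit 76) (nat_lit 20836726087) (nat_lit 76) (nat_lit 1034262174) (nat_lit 8) (nat_lit 4) (nat_lit 9) (nat_lit 5) (nat_lit 9) (nat_lit 4) (nat_lit 374) (nat_lit 237) (nat_lit 169)) (XT.lf (nat_lit 0) (nat_lit 1584021029) (nat_lit 152) (nat_lit 16676138951) (nat_lit 76) (nat_lit 25361146254) (nat_lit 7) (nat_lit 5) (nat_lit 9) (nat_lit 5) (nat_lit 8) (nat_lit 4) (nat_lit 375) (nat_lit 237) (nat_lit 168))))) (XT.nd (nat_lit 234) (nat_lit 76) (nat_lit 0) (XT.nd (nat_lit 78) (nat_lit 0) (nat_lit 0) (XT.lf (nat_lit 0) (nat_lit 4239978744) (nat_lit 152) (nat_lit 11371183360) (nat_lit 76) (nat_lit 29218267870) (nat_lit 7) (nat_lit 5) (nat_lit 9) (nat_lit 5) (nat_lit 8) (nat_lit 4) (nat_lit 376) (nat_lit 237) (nat_lit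 167)) (XT.nd (nat_lit 78) (nat_lit 0) (nat_lit 0) (XT.lf (nat_lit 0) (nat_lit 6956113892) (nat_lit 152) (nat_lit 5941544129) (nat_lit 76) (nat_lit 33176738009) (nat_lit 7) (nat_lit 5) (nat_lit 9) (nat_lit 5) (nat_lit 8) (nat_lit 4) (nat_lit 377) (nat_lit 237) (nat_lit 166)) (XT.lf (nat_lit 0) (nat_lit 9734799792) (nat_lit 152) (nat_lit 382476913) (nat_lit 76) (nat_lit 37240015529) (nat_lit 7) (nat_lit 5) (nat_lit 9) (nat_lit 5) (nat_lit 8) (nat_lit 4) (nat_lit 378) (nat_lit 237) (nat_lit 165)))) (XT.nd (nat_lit 78) (nat_lit 0) (nat_lit 0) (XT.lf (nat_lit 0) (nat_lit 5416572565) (nat_lit 76) (nat_lit 7213959269) (nat_lit 152) (nat_lit 36047145709) (nat_lit 6) (nat_lit 5) (nat_lit 7) (nat_lit 5) (nat_lit 8) (nat_lit 4) (nat_lit 379) (nat_lit 237) (nat_lit 164)) (XT.nd (nat_lit 78) (nat_lit 0) (nat_lit 0) (XT.lf (nat_lit 0) (nat_lit 11365265831) (nat_lit 76) (nat_lit 4233576601) (nat_lit 152) (nat_lit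 34439273194) (nat_lit 6) (nat_lit 5) (nat_lit 7) (nat_lit 5) (nat_lit 8) (nat_lit 4) (nat_lit 380) (nat_lit 237) (nat_lit 163)) (XT.lf (nat_lit 0) (nat_lit 17461188732) (nat_lit 76) (nat_lit 1177386751) (nat_lit 152) (nat_lit 32801332226) (nat_lit 6) (nat_lit 5) (nat_lit 7) (nat_lit 5) (nat_lit 8) (nat_lit 4) (nat_lit 381) (nat_lit 237) (nat_lit 162)))))) (XT.nd (nat_lit 468) (nat_lit 76) (nat_lit 0) (XT.nd (nat_lit 234) (nat_lit 0) (nat_lit 0) (XT.nd (nat_lit 78) (nat_lit 0) (nat_lit 0) (XT.lf (nat_lit 0) (nat_lit 21771201644) (nat_lit 152) (nat_lit 29193425437) (nat_lit 0) (nat_lit 1919087140) (nat_lit 6) (nat_lit 5) (nat_lit 8) (nat_lit 4) (nat_lit 6) (nat_lit 4) (nat_lit 382) (nat_lit 237) (nat_lit 161)) (XT.nd (nat_lit 78) (nat_lit 0) (nat_lit 0) (XT.lf (nat_lit 0) (nat_lit 24992725608) (nat_lit 152) (nat_lit 24306055295) (nat_lit 0) (nat_lit 5072217816) (nat_lit 6) (nat_lit 5) (nat_lit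 8) (nat_lit 4) (nat_lit 6) (nat_lit 4) (nat_lit 383) (nat_lit 237) (nat_lit 160)) (XT.lf (nat_lit 0) (nat_lit 28294644535) (nat_lit 152) (nat_lit 19301020273) (nat_lit 0) (nat_lit 8307735493) (nat_lit 6) (nat_lit 5) (nat_lit 8) (nat_lit 4) (nat_lit 6) (nat_lit 4) (nat_lit 384) (nat_lit 237) (nat_lit 159)))) (XT.nd (nat_lit 78) (nat_lit 0) (nat_lit 0) (XT.lf (nat_lit 0) (nat_lit 31679843600) (nat_lit 152) (nat_lit 14173947039) (nat_lit 0) (nat_lit 11628467323) (nat_lit 6) (nat_lit 5) (nat_lit 8) (nat_lit 4) (nat_lit 6) (nat_lit 4) (nat_lit 385) (nat_lit 237) (nat_lit 158)) (XT.nd (nat_lit 78) (nat_lit 0) (nat_lit 0) (XT.lf (nat_lit 0) (nat_lit 35151280741) (nat_lit 152) (nat_lit 8920355626) (nat_lit 0) (nat_lit 15037314917) (nat_lit 6) (nat_lit 5) (nat_lit 8) (nat_lit 4) (nat_lit 6) (nat_lit 4) (nat_lit 386) (nat_lit 237) (nat_lit 157)) (XT.lf (nat_lit 0) (nat_lit 38711989254) (nat_lit 152) (nat_lit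 3535655518) (nat_lit 0) (nat_lit 18537256880) (nat_lit 6) (nat_lit 5) (nat_lit 8) (nat_lit 4) (nat_lit 6) (nat_lit 4) (nat_lit 387) (nat_lit 237) (nat_lit 156))))) (XT.nd (nat_lit 234) (nat_lit 0) (nat_lit 0) (XT.nd (nat_lit 78) (nat_lit 0) (nat_lit 0) (XT.lf (nat_lit 0) (nat_lit 2024360936) (nat_lit 76) (nat_lit 40360178897) (nat_lit 76) (nat_lit 20126449872) (nat_lit 5) (nat_lit 4) (nat_lit 6) (nat_lit 5) (nat_lit 6) (nat_lit 4) (nat_lit 388) (nat_lit 237) (nat_lit 155)) (XT.nd (nat_lit 78) (nat_lit 0) (nat_lit 0) (XT.lf (nat_lit 0) (nat_lit 7798180354) (nat_lit 76) (nat_lit 38390526840) (nat_lit 76) (nat_lit 18099519512) (nat_lit 5) (nat_lit 4) (nat_lit 6) (nat_lit 5) (nat_lit 6) (nat_lit 4) (nat_lit 389) (nat_lit 237) (nat_lit 154)) (XT.lf (nat_lit 0) (nat_lit 13720481343) (nat_lit 76) (nat_lit 36372670732) (nat_lit 76) (nat_lit 16026053402) (nat_lit 5) (nat_lit 4) (nat_lit 6) (nat_lit 5)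 (nat_lit 6) (nat_lit 4) (nat_lit 390) (nat_lit 237) (nat_lit 153)))) (XT.nd (nat_lit 78) (nat_lit 0) (nat_lit 0) (XT.lf (nat_lit 0) (nat_lit 19796438728) (nat_lit 76) (nat_lit 34304847399) (nat_lit 76) (nat_lit 13904239777) (nat_lit 5) (nat_lit 4) (nat_lit 6) (nat_lit 5) (nat_lit 6) (nat_lit 4) (nat_lit 391) (nat_lit 237) (nat_lit 152)) (XT.nd (nat_lit 78) (nat_lit 0) (nat_lit 0) (XT.lf (nat_lit 0) (nat_lit 26031361599) (nat_lit 76) (nat_lit 32185250006) (nat_lit 76) (nat_lit 11732224623) (nat_lit 5) (nat_lit 4) (nat_lit 6) (nat_lit 5) (nat_lit 6) (nat_lit 4) (nat_lit 392) (nat_lit 237) (nat_lit 151)) (XT.lf (nat_lit 0) (nat_lit 32430697947) (nat_lit 76) (nat_lit 30012026476) (nat_lit 76) (nat_lit 9508110063) (nat_lit 5) (nat_lit 4) (nat_lit 6) (nat_lit 5) (nat_lit 6) (nat_lit 4) (nat_lit 393) (nat_lit 237) (nat_lit 150))))))))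
noncomputable def xc53 : XT := (XT.nd (nat_lit 34710) (nat_lit 0) (nat_lit 1292) (XT.nd (nat_lit 33774) (nat_lit 0) (nat_lit 3496) (XT.nd (nat_lit 390) (nat_lit 76) (nat_lit 0) (XT.nd (nat_lit 156) (nat_lit 76) (nat_lit 0) (XT.nd (nat_lit 78) (nat_lit 0) (nat_lit 0) (XT.lf (nat_lit 0) (nat_lit 39000039425) (nat_lit 76) (nat_lit 27783277877) (nat_lit 76) (nat_lit 7229952698) (nat_lit 5) (nat_lit 4) (nat_lit 6) (nat_lit 5) (nat_lit 6) (nat_lit 4) (nat_lit 394) (nat_lit 237) (nat_lit 149)) (XT.lf (nat_lit 0) (nat_lit 45745126234) (nat_lit 76) (nat_lit 25497056758) (nat_lit 76) (nat_lit 4895761903) (nat_lit 5) (nat_lit 4) (nat_lit 6) (nat_lit 5) (nat_lit 6) (nat_lit 4) (nat_lit 395) (nat_lit 237) (nat_lit 148))) (XT.nd (nat_lit 78) (nat_lit 76) (nat_lit 0) (XT.lf (nat_lit 0) (nat_lit 52671852138) (nat_lit 76) (nat_lit 23151365451) (nat_lit 76) (nat_lit 2503498094) (nat_lit 5) (nat_lit 4) (nat_lit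 6) (nat_lit 5) (nat_lit 6) (nat_lit 4) (nat_lit 396) (nat_lit 237) (nat_lit 147)) (XT.nd (nat_lit 78) (nat_lit 76) (nat_lit 0) (XT.lf (nat_lit 0) (nat_lit 59786269618) (nat_lit 76) (nat_lit 20744154322) (nat_lit 76) (nat_lit 51070944) (nat_lit 5) (nat_lit 4) (nat_lit 6) (nat_lit 5) (nat_lit 6) (nat_lit 4) (nat_lit 397) (nat_lit 237) (nat_lit 146)) (XT.lf (nat_lit 0) (nat_lit 2415587515) (nat_lit 152) (nat_lit 15833339769) (nat_lit 76) (nat_lit 64654614942) (nat_lit 4) (nat_lit 5) (nat_lit 6) (nat_lit 5) (nat_lit 5) (nat_lit 4) (nat_lit 398) (nat_lit 237) (nat_lit 145))))) (XT.nd (nat_lit 234) (nat_lit 76) (nat_lit 0) (XT.nd (nat_lit 78) (nat_lit 0) (nat_lit 0) (XT.lf (nat_lit 0) (nat_lit 4944494279) (nat_lit 152) (nat_lit 10742279475) (nat_lit 76) (nat_lit 69608790687) (nat_lit 4) (nat_lit 5) (nat_lit 6) (nat_lit 5) (nat_lit 5) (nat_lit 4) (nat_lit 399) (nat_lit 237) (nat_lit 144)) (XT.nd (nat_lit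 78) (nat_lit 0) (nat_lit 0) (XT.lf (nat_lit 0) (nat_lit 7538855649) (nat_lit 152) (nat_lit 5517104959) (nat_lit 76) (nat_lit 74703705764) (nat_lit 4) (nat_lit 5) (nat_lit 6) (nat_lit 5) (nat_lit 5) (nat_lit 4) (nat_lit 400) (nat_lit 237) (nat_lit 143)) (XT.lf (nat_lit 0) (nat_lit 10200938542) (nat_lit 152) (nat_lit 153250534) (nat_lit 76) (nat_lit 79943812042) (nat_lit 4) (nat_lit 5) (nat_lit 6) (nat_lit 5) (nat_lit 5) (nat_lit 4) (nat_lit 401) (nat_lit 237) (nat_lit 142)))) (XT.nd (nat_lit 32994) (nat_lit 0) (nat_lit 5700) (XT.lf (nat_lit 0) (nat_lit 5460525174) (nat_lit 76) (nat_lit 7525033784) (nat_lit 152) (nat_lit 79925652988) (nat_lit 3) (nat_lit 5) (nat_lit 4) (nat_lit 5) (nat_lit 5) (nat_lit 4) (nat_lit 402) (nat_lit 237) (nat_lit 141)) (XT.nd (nat_lit 78) (nat_lit 380) (nat_lit 0) (XT.lf (nat_lit 0) (nat_lit 3580206741) (nat_lit 380) (nat_lit 446841643) (nat_lit 380) (nat_lit 446841643)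 (nat_lit 83) (nat_lit 4) (nat_lit 88) (nat_lit 5) (nat_lit 88) (nat_lit 4) (nat_lit 304) (nat_lit 238) (nat_lit 238)) (XT.lf (nat_lit 0) (nat_lit 2473203413) (nat_lit 380) (nat_lit 5108471747) (nat_lit 0) (nat_lit 1495147445) (nat_lit 78) (nat_lit 5) (nat_lit 83) (nat_lit 4) (nat_lit 78) (nat_lit 4) (nat_lit 305) (nat_lit 238) (nat_lit 237)))))) (XT.nd (nat_lit 468) (nat_lit 912) (nat_lit 0) (XT.nd (nat_lit 234) (nat_lit 608) (nat_lit 0) (XT.nd (nat_lit 78) (nat_lit 380) (nat_lit 0) (XT.lf (nat_lit 0) (nat_lit 602754513) (nat_lit 304) (nat_lit 5268034705) (nat_lit 304) (nat_lit 3340409837) (nat_lit 74) (nat_lit 4) (nat_lit 78) (nat_lit 5) (nat_lit 78) (nat_lit 4) (nat_lit 306) (nat_lit 238) (nat_lit 236)) (XT.nd (nat_lit 78) (nat_lit 380) (nat_lit 0) (XT.lf (nat_lit 0) (nat_lit 6475850667) (nat_lit 304) (nat_lit 2862206520) (nat_lit 304) (nat_lit 12670097) (nat_lit 74) (nat_lit 4) (nat_lit 78)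 (nat_lit 5) (nat_lit 78) (nat_lit 4) (nat_lit 307) (nat_lit 238) (nat_lit 235)) (XT.lf (nat_lit 0) (nat_lit 2942651102) (nat_lit 304) (nat_lit 351559383) (nat_lit 380) (nat_lit 6201012050) (nat_lit 69) (nat_lit 5) (nat_lit 73) (nat_lit 5) (nat_lit 74) (nat_lit 4) (nat_lit 308) (nat_lit 238) (nat_lit 234)))) (XT.nd (nat_lit 78) (nat_lit 608) (nat_lit 0) (XT.lf (nat_lit 0) (nat_lit 6669531179) (nat_lit 380) (nat_lit 785251945) (nat_lit 0) (nat_lit 2190321234) (nat_lit 69) (nat_lit 5) (nat_lit 74) (nat_lit 4) (nat_lit 69) (nat_lit 4) (nat_lit 309) (nat_lit 238) (nat_lit 233)) (XT.nd (nat_lit 78) (nat_lit 228) (nat_lit 0) (XT.lf (nat_lit 0) (nat_lit 313437102) (nat_lit 380) (nat_lit 4662039102) (nat_lit 76) (nat_lit 4824831388) (nat_lit 64) (nat_lit 5) (nat_lit 69) (nat_lit 5) (nat_lit 65) (nat_lit 4) (nat_lit 310) (nat_lit 238) (nat_lit 232)) (XT.lf (nat_lit 0) (nat_lit 1178000135) (nat_lit 228)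 (nat_lit 2404051865) (nat_lit 304) (nat_lit 6379137115) (nat_lit 61) (nat_lit 5) (nat_lit 64) (nat_lit 5) (nat_lit 65) (nat_lit 4) (nat_lit 311) (nat_lit 238) (nat_lit 231))))) (XT.nd (nat_lit 234) (nat_lit 532) (nat_lit 0) (XT.nd (nat_lit 78) (nat_lit 380) (nat_lit 0) (XT.lf (nat_lit 0) (nat_lit 6920945582) (nat_lit 304) (nat_lit 2951645210) (nat_lit 0) (nat_lit 255264185) (nat_lit 61) (nat_lit 5) (nat_lit 65) (nat_lit 4) (nat_lit 61) (nat_lit 4) (nat_lit 312) (nat_lit 238) (nat_lit 230)) (XT.nd (nat_lit 78) (nat_lit 0) (nat_lit 0) (XT.lf (nat_lit 0) (nat_lit 35998701) (nat_lit 380) (nat_lit 7320369527) (nat_lit 76) (nat_lit 2943951686) (nat_lit 56) (nat_lit 5) (nat_lit 61) (nat_lit 5) (nat_lit 57) (nat_lit 4) (nat_lit 313) (nat_lit 238) (nat_lit 229)) (XT.lf (nat_lit 0) (nat_lit 3266737670) (nat_lit 380) (nat_lit 1468537861) (nat_lit 76) (nat_lit 5743194676) (nat_lit 56) (nat_lit 5) (nat_lit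 61) (nat_lit 5) (nat_lit 57) (nat_lit 4) (nat_lit 314) (nat_lit 238) (nat_lit 228)))) (XT.nd (nat_lit 78) (nat_lit 304) (nat_lit 0) (XT.lf (nat_lit 0) (nat_lit 4541225351) (nat_lit 228) (nat_lit 2023912313) (nat_lit 304) (nat_lit 4097815796) (nat_lit 53) (nat_lit 5) (nat_lit 56) (nat_lit 5) (nat_lit 57) (nat_lit 4) (nat_lit 315) (nat_lit 238) (nat_lit 227)) (XT.nd (nat_lit 78) (nat_lit 304) (nat_lit 0) (XT.lf (nat_lit 0) (nat_lit 9912733227) (nat_lit 304) (nat_lit 205816140) (nat_lit 0) (nat_lit 736021934) (nat_lit 53) (nat_lit 5) (nat_lit 57) (nat_lit 4) (nat_lit 53) (nat_lit 4) (nat_lit 316) (nat_lit 238) (nat_lit 226)) (XT.lf (nat_lit 0) (nat_lit 2270249699) (nat_lit 304) (nat_lit 5195881311) (nat_lit 76) (nat_lit 3585047562) (nat_lit 49) (nat_lit 5) (nat_lit 53) (nat_lit 5) (nat_lit 50) (nat_lit 4) (nat_lit 317) (nat_lit 238) (nat_lit 225))))))) (XT.nd (nat_lit 936) (nat_lit 836) (nat_lit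 0) (XT.nd (nat_lit 468) (nat_lit 684) (nat_lit 0) (XT.nd (nat_lit 234) (nat_lit 152) (nat_lit 0) (XT.nd (nat_lit 78) (nat_lit 304) (nat_lit 0) (XT.lf (nat_lit 0) (nat_lit 749639674) (nat_lit 228) (nat_lit 4749680532) (nat_lit 304) (nat_lit 5755995881) (nat_lit 46) (nat_lit 5) (nat_lit 49) (nat_lit 5) (nat_lit 50) (nat_lit 4) (nat_lit 318) (nat_lit 238) (nat_lit 224)) (XT.nd (nat_lit 78) (nat_lit 304) (nat_lit 0) (XT.lf (nat_lit 0) (nat_lit 6876576945) (nat_lit 228) (nat_lit 1932436470) (nat_lit 304) (nat_lit 2657147212) (nat_lit 46) (nat_lit 5) (nat_lit 49) (nat_lit 5) (nat_lit 50) (nat_lit 4) (nat_lit 319) (nat_lit 238) (nat_lit 223)) (XT.lf (nat_lit 0) (nat_lit 479635370) (nat_lit 304) (nat_lit 10269277179) (nat_lit 76) (nat_lit 935691662) (nat_lit 42) (nat_lit 5) (nat_lit 46) (nat_lit 5) (nat_lit 43) (nat_lit 4) (nat_lit 320) (nat_lit 238) (nat_lit 222)))) (XT.nd (nat_lit 78) (nat_lit 152)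 (nat_lit 0) (XT.lf (nat_lit 0) (nat_lit 3656250172) (nat_lit 304) (nat_lit 4362275007) (nat_lit 76) (nat_lit 3890399950) (nat_lit 42) (nat_lit 5) (nat_lit 46) (nat_lit 5) (nat_lit 43) (nat_lit 4) (nat_lit 321) (nat_lit 238) (nat_lit 221)) (XT.nd (nat_lit 78) (nat_lit 0) (nat_lit 0) (XT.lf (nat_lit 0) (nat_lit 1654582318) (nat_lit 152) (nat_lit 5224628742) (nat_lit 228) (nat_lit 5262317965) (nat_lit 40) (nat_lit 5) (nat_lit 42) (nat_lit 5) (nat_lit 43) (nat_lit 4) (nat_lit 322) (nat_lit 238) (nat_lit 220)) (XT.lf (nat_lit 0) (nat_lit 7842702833) (nat_lit 152) (nat_lit 2336291769) (nat_lit 228) (nat_lit 2202794731) (nat_lit 40) (nat_lit 5) (nat_lit 42) (nat_lit 5) (nat_lit 43) (nat_lit 4) (nat_lit 323) (nat_lit 238) (nat_lit 219))))) (XT.nd (nat_lit 234) (nat_lit 228) (nat_lit 0) (XT.nd (nat_lit 78) (nat_lit 152) (nat_lit 0) (XT.lf (nat_lit 0) (nat_lit 887820095) (nat_lit 304) (nat_lit 11126102972)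 (nat_lit 76) (nat_lit 616403993) (nat_lit 36) (nat_lit 5) (nat_lit 40) (nat_lit 5) (nat_lit 37) (nat_lit 4) (nat_lit 324) (nat_lit 238) (nat_lit 218)) (XT.nd (nat_lit 78) (nat_lit 152) (nat_lit 0) (XT.lf (nat_lit 0) (nat_lit 4034126251) (nat_lit 304) (nat_lit 5206226453) (nat_lit 76) (nat_lit 3645171839) (nat_lit 36) (nat_lit 5) (nat_lit 40) (nat_lit 5) (nat_lit 37) (nat_lit 4) (nat_lit 325) (nat_lit 238) (nat_lit 217)) (XT.lf (nat_lit 0) (nat_lit 812176244) (nat_lit 152) (nat_lit 6410088968) (nat_lit 228) (nat_lit 5927762559) (nat_lit 34) (nat_lit 5) (nat_lit 36) (nat_lit 5) (nat_lit 37) (nat_lit 4) (nat_lit 326) (nat_lit 238) (nat_lit 216)))) (XT.nd (nat_lit 78) (nat_lit 228) (nat_lit 0) (XT.lf (nat_lit 0) (nat_lit 7023865535) (nat_lit 152) (nat_lit 3475246665) (nat_lit 228) (nat_lit 2923632985) (nat_lit 34) (nat_lit 5) (nat_lit 36) (nat_lit 5) (nat_lit 37) (nat_lit 4) (nat_lit 327) (nat_lit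 238) (nat_lit 215)) (XT.nd (nat_lit 78) (nat_lit 152) (nat_lit 0) (XT.lf (nat_lit 0) (nat_lit 108875876) (nat_lit 228) (nat_lit 375858737) (nat_lit 76) (nat_lit 13220679684) (nat_lit 33) (nat_lit 5) (nat_lit 36) (nat_lit 5) (nat_lit 34) (nat_lit 5) (nat_lit 328) (nat_lit 238) (nat_lit 214)) (XT.lf (nat_lit 0) (nat_lit 3198328197) (nat_lit 228) (nat_lit 8198512448) (nat_lit 76) (nat_lit 2598177498) (nat_lit 31) (nat_lit 5) (nat_lit 34) (nat_lit 5) (nat_lit 32) (nat_lit 4) (nat_lit 329) (nat_lit 238) (nat_lit 213)))))) (XT.nd (nat_lit 468) (nat_lit 456) (nat_lit 0) (XT.nd (nat_lit 234) (nat_lit 228) (nat_lit 0) (XT.nd (nat_lit 78) (nat_lit 152) (nat_lit 0) (XT.lf (nat_lit 0) (nat_lit 6332862809) (nat_lit 228) (nat_lit 2226617001) (nat_lit 76) (nat_lit 5735321418) (nat_lit 31) (nat_lit 5) (nat_lit 34) (nat_lit 5) (nat_lit 32) (nat_lit 4) (nat_lit 330) (nat_lit 238) (nat_lit 212)) (XT.nd (nat_lit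 78) (nat_lit 0) (nat_lit 0) (XT.lf (nat_lit 0) (nat_lit 3913095226) (nat_lit 152) (nat_lit 5631357524) (nat_lit 228) (nat_lit 5059695723) (nat_lit 29) (nat_lit 5) (nat_lit 31) (nat_lit 5) (nat_lit 32) (nat_lit 4) (nat_lit 331) (nat_lit 238) (nat_lit 211)) (XT.lf (nat_lit 0) (nat_lit 10195803412) (nat_lit 152) (nat_lit 2625231090) (nat_lit 228) (nat_lit 2102741772) (nat_lit 29) (nat_lit 5) (nat_lit 31) (nat_lit 5) (nat_lit 32) (nat_lit 4) (nat_lit 332) (nat_lit 238) (nat_lit 210)))) (XT.nd (nat_lit 78) (nat_lit 0) (nat_lit 0) (XT.lf (nat_lit 0) (nat_lit 889044168) (nat_lit 228) (nat_lit 13912627743) (nat_lit 76) (nat_lit 452169435) (nat_lit 26) (nat_lit 5) (nat_lit 29) (nat_lit 5) (nat_lit 27) (nat_lit 4) (nat_lit 333) (nat_lit 238) (nat_lit 209)) (XT.nd (nat_lit 78) (nat_lit 0) (nat_lit 0) (XT.lf (nat_lit 0) (nat_lit 3950096825) (nat_lit 228) (nat_lit 8036151872) (nat_lit 76) (nat_lit 3606336228)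 (nat_lit 26) (nat_lit 5) (nat_lit 29) (nat_lit 5) (nat_lit 27) (nat_lit 4) (nat_lit 334) (nat_lit 238) (nat_lit 208)) (XT.lf (nat_lit 0) (nat_lit 7052076029) (nat_lit 228) (nat_lit 2066766147) (nat_lit 76) (nat_lit 6824228618) (nat_lit 26) (nat_lit 5) (nat_lit 29) (nat_lit 5) (nat_lit 27) (nat_lit 4) (nat_lit 335) (nat_lit 238) (nat_lit 207))))) (XT.nd (nat_lit 234) (nat_lit 304) (nat_lit 0) (XT.nd (nat_lit 78) (nat_lit 0) (nat_lit 0) (XT.lf (nat_lit 0) (nat_lit 4080368078) (nat_lit 152) (nat_lit 6156547165) (nat_lit 228) (nat_lit 6067513270) (nat_lit 24) (nat_lit 5) (nat_lit 26) (nat_lit 5) (nat_lit 27) (nat_lit 4) (nat_lit 336) (nat_lit 238) (nat_lit 206)) (XT.nd (nat_lit 78) (nat_lit 0) (nat_lit 0) (XT.lf (nat_lit 0) (nat_lit 10374120946) (nat_lit 152) (nat_lit 3115295533) (nat_lit 228) (nat_lit 3188096779) (nat_lit 24) (nat_lit 5) (nat_lit 26) (nat_lit 5) (nat_lit 27) (nat_lit 4) (nat_lit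 337) (nat_lit 238) (nat_lit 205)) (XT.lf (nat_lit 0) (nat_lit 16778859152) (nat_lit 152) (nat_lit 13300161) (nat_lit 228) (nat_lit 271099584) (nat_lit 24) (nat_lit 5) (nat_lit 26) (nat_lit 5) (nat_lit 27) (nat_lit 4) (nat_lit 338) (nat_lit 238) (nat_lit 204)))) (XT.nd (nat_lit 78) (nat_lit 76) (nat_lit 0) (XT.lf (nat_lit 0) (nat_lit 2721717201) (nat_lit 228) (nat_lit 11562604465) (nat_lit 76) (nat_lit 3174263106) (nat_lit 21) (nat_lit 5) (nat_lit 24) (nat_lit 5) (nat_lit 22) (nat_lit 4) (nat_lit 339) (nat_lit 238) (nat_lit 203)) (XT.nd (nat_lit 78) (nat_lit 76) (nat_lit 0) (XT.lf (nat_lit 0) (nat_lit 5755782587) (nat_lit 228) (nat_lit 5677838425) (nat_lit 76) (nat_lit 6433405746) (nat_lit 21) (nat_lit 5) (nat_lit 24) (nat_lit 5) (nat_lit 22) (nat_lit 4) (nat_lit 340) (nat_lit 238) (nat_lit 202)) (XT.lf (nat_lit 0) (nat_lit 314944884) (nat_lit 76) (nat_lit 8524176696) (nat_lit 152) (nat_lit 9449895831)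 (nat_lit 20) (nat_lit 5) (nat_lit 21) (nat_lit 5) (nat_lit 22) (nat_lit 4) (nat_lit 341) (nat_lit 238) (nat_lit 201))))))))
noncomputable def xc54 : XT := (XT.nd (nat_lit 1794) (nat_lit 304) (nat_lit 0) (XT.nd (nat_lit 858) (nat_lit 228) (nat_lit 0) (XT.nd (nat_lit 390) (nat_lit 304) (nat_lit 0) (XT.nd (nat_lit 156) (nat_lit 228) (nat_lit 0) (XT.nd (nat_lit 78) (nat_lit 0) (nat_lit 0) (XT.lf (nat_lit 0) (nat_lit 6529962468) (nat_lit 76) (nat_lit 5498150914) (nat_lit 152) (nat_lit 6695201528) (nat_lit 20) (nat_lit 5) (nat_lit 21) (nat_lit 5) (nat_lit 22) (nat_lit 4) (nat_lit 342) (nat_lit 238) (nat_lit 200)) (XT.lf (nat_lit 0) (nat_lit 12859644807) (nat_lit 76) (nat_lit 2410234601) (nat_lit 152) (nat_lit 3902089284) (nat_lit 20) (nat_lit 5) (nat_lit 21) (nat_lit 5) (nat_lit 22) (nat_lit 4) (nat_lit 343) (nat_lit 238) (nat_lit 199))) (XT.nd (nat_lit 78) (nat_lit 228) (nat_lit 0) (XT.lf (nat_lit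 0) (nat_lit 18574387426) (nat_lit 152) (nat_lit 332983252) (nat_lit 0) (nat_lit 727786051) (nat_lit 20) (nat_lit 5) (nat_lit 22) (nat_lit 4) (nat_lit 20) (nat_lit 4) (nat_lit 344) (nat_lit 238) (nat_lit 198)) (XT.nd (nat_lit 78) (nat_lit 0) (nat_lit 0) (XT.lf (nat_lit 0) (nat_lit 1869111257) (nat_lit 228) (nat_lit 14282100057) (nat_lit 76) (nat_lit 3959336216) (nat_lit 17) (nat_lit 5) (nat_lit 20) (nat_lit 5) (nat_lit 18) (nat_lit 4) (nat_lit 345) (nat_lit 238) (nat_lit 197)) (XT.lf (nat_lit 0) (nat_lit 4828366496) (nat_lit 228) (nat_lit 8497913412) (nat_lit 76) (nat_lit 7274757082) (nat_lit 17) (nat_lit 5) (nat_lit 20) (nat_lit 5) (nat_lit 18) (nat_lit 4) (nat_lit 346) (nat_lit 238) (nat_lit 196))))) (XT.nd (nat_lit 234) (nat_lit 228) (nat_lit 0) (XT.nd (nat_lit 78) (nat_lit 76) (nat_lit 0) (XT.lf (nat_lit 0) (nat_lit 7836984736) (nat_lit 228) (nat_lit 2607021773) (nat_lit 76) (nat_lit 10663451992)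 (nat_lit 17) (nat_lit 5) (nat_lit 20) (nat_lit 5) (nat_lit 18) (nat_lit 4) (nat_lit 347) (nat_lit 238) (nat_lit 195)) (XT.nd (nat_lit 78) (nat_lit 0) (nat_lit 0) (XT.lf (nat_lit 0) (nat_lit 3463303769) (nat_lit 76) (nat_lit 7467582492) (nat_lit 152) (nat_lit 10698369567) (nat_lit 16) (nat_lit 5) (nat_lit 17) (nat_lit 5) (nat_lit 18) (nat_lit 4) (nat_lit 348) (nat_lit 238) (nat_lit 194)) (XT.lf (nat_lit 0) (nat_lit 9704942117) (nat_lit 76) (nat_lit 4401218931) (nat_lit 152) (nat_lit 8060922263) (nat_lit 16) (nat_lit 5) (nat_lit 17) (nat_lit 5) (nat_lit 18) (nat_lit 4) (nat_lit 349) (nat_lit 238) (nat_lit 193)))) (XT.nd (nat_lit 78) (nat_lit 228) (nat_lit 0) (XT.lf (nat_lit 0) (nat_lit 16071462283) (nat_lit 76) (nat_lit 1268562287) (nat_lit 152) (nat_lit 5382153097) (nat_lit 16) (nat_lit 5) (nat_lit 17) (nat_lit 5) (nat_lit 18) (nat_lit 4) (nat_lit 350) (nat_lit 238) (nat_lit 192)) (XT.nd (nat_lit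 78) (nat_lit 228) (nat_lit 0) (XT.lf (nat_lit 0) (nat_lit 20653884913) (nat_lit 152) (nat_lit 745179061) (nat_lit 0) (nat_lit 1895402485) (nat_lit 16) (nat_lit 5) (nat_lit 18) (nat_lit 4) (nat_lit 16) (nat_lit 4) (nat_lit 351) (nat_lit 238) (nat_lit 191)) (XT.lf (nat_lit 0) (nat_lit 209306570) (nat_lit 228) (nat_lit 18514992018) (nat_lit 76) (nat_lit 5158712386) (nat_lit 13) (nat_lit 5) (nat_lit 16) (nat_lit 5) (nat_lit 14) (nat_lit 4) (nat_lit 352) (nat_lit 238) (nat_lit 190)))))) (XT.nd (nat_lit 468) (nat_lit 152) (nat_lit 0) (XT.nd (nat_lit 234) (nat_lit 76) (nat_lit 0) (XT.nd (nat_lit 78) (nat_lit 0) (nat_lit 0) (XT.lf (nat_lit 0) (nat_lit 3064497460) (nat_lit 228) (nat_lit 12895072888) (nat_lit 76) (nat_lit 8529699169) (nat_lit 13) (nat_lit 5) (nat_lit 16) (nat_lit 5) (nat_lit 14) (nat_lit 4) (nat_lit 353) (nat_lit 238) (nat_lit 189)) (XT.nd (nat_lit 78) (nat_lit 0) (nat_lit 0) (XT.lf (nat_lit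 0) (nat_lit 5971635196) (nat_lit 228) (nat_lit 7164571999) (nat_lit 76) (nat_lit 11978547460) (nat_lit 13) (nat_lit 5) (nat_lit 16) (nat_lit 5) (nat_lit 14) (nat_lit 4) (nat_lit 354) (nat_lit 238) (nat_lit 188)) (XT.lf (nat_lit 0) (nat_lit 8933259997) (nat_lit 228) (nat_lit 1318482116) (nat_lit 76) (nat_lit 15508270816) (nat_lit 13) (nat_lit 5) (nat_lit 16) (nat_lit 5) (nat_lit 14) (nat_lit 4) (nat_lit 355) (nat_lit 238) (nat_lit 187)))) (XT.nd (nat_lit 78) (nat_lit 0) (nat_lit 0) (XT.lf (nat_lit 0) (nat_lit 4740815376) (nat_lit 76) (nat_lit 7256715929) (nat_lit 152) (nat_lit 14426709703) (nat_lit 12) (nat_lit 5) (nat_lit 13) (nat_lit 5) (nat_lit 14) (nat_lit 4) (nat_lit 356) (nat_lit 238) (nat_lit 186)) (XT.nd (nat_lit 78) (nat_lit 0) (nat_lit 0) (XT.lf (nat_lit 0) (nat_lit 10954770048) (nat_lit 76) (nat_lit 4180905872) (nat_lit 152) (nat_lit 11973286887) (nat_lit 12) (nat_lit 5) (nat_lit 13)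 (nat_lit 5) (nat_lit 14) (nat_lit 4) (nat_lit 357) (nat_lit 238) (nat_lit 185)) (XT.lf (nat_lit 0) (nat_lit 17302571187) (nat_lit 76) (nat_lit 1034938426) (nat_lit 152) (nat_lit 9477654801) (nat_lit 12) (nat_lit 5) (nat_lit 13) (nat_lit 5) (nat_lit 14) (nat_lit 4) (nat_lit 358) (nat_lit 238) (nat_lit 184))))) (XT.nd (nat_lit 234) (nat_lit 76) (nat_lit 0) (XT.nd (nat_lit 78) (nat_lit 76) (nat_lit 0) (XT.lf (nat_lit 0) (nat_lit 21626823428) (nat_lit 152) (nat_lit 4774690808) (nat_lit 0) (nat_lit 2141318867) (nat_lit 12) (nat_lit 5) (nat_lit 14) (nat_lit 4) (nat_lit 12) (nat_lit 4) (nat_lit 359) (nat_lit 238) (nat_lit 183)) (XT.nd (nat_lit 78) (nat_lit 0) (nat_lit 0) (XT.lf (nat_lit 0) (nat_lit 1096255443) (nat_lit 76) (nat_lit 23910438606) (nat_lit 76) (nat_lit 4285904572) (nat_lit 11) (nat_lit 4) (nat_lit 12) (nat_lit 5) (nat_lit 12) (nat_lit 4) (nat_lit 360) (nat_lit 238) (nat_lit 182)) (XT.lf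 (nat_lit 0) (nat_lit 7191460875) (nat_lit 76) (nat_lit 21316171306) (nat_lit 76) (nat_lit 1556657201) (nat_lit 11) (nat_lit 4) (nat_lit 12) (nat_lit 5) (nat_lit 12) (nat_lit 4) (nat_lit 361) (nat_lit 238) (nat_lit 181)))) (XT.nd (nat_lit 78) (nat_lit 0) (nat_lit 0) (XT.lf (nat_lit 0) (nat_lit 1201980434) (nat_lit 152) (nat_lit 17450542435) (nat_lit 76) (nat_lit 12207107606) (nat_lit 10) (nat_lit 5) (nat_lit 12) (nat_lit 5) (nat_lit 11) (nat_lit 4) (nat_lit 362) (nat_lit 238) (nat_lit 180)) (XT.nd (nat_lit 78) (nat_lit 0) (nat_lit 0) (XT.lf (nat_lit 0) (nat_lit 3984897722) (nat_lit 152) (nat_lit 11928452005) (nat_lit 76) (nat_lit 15765855985) (nat_lit 10) (nat_lit 5) (nat_lit 12) (nat_lit 5) (nat_lit 11) (nat_lit 4) (nat_lit 363) (nat_lit 238) (nat_lit 179)) (XT.lf (nat_lit 0) (nat_lit 6824902324) (nat_lit 152) (nat_lit 6286768547) (nat_lit 76) (nat_lit 19412509258) (nat_lit 10) (nat_lit 5) (nat_lit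 12) (nat_lit 5) (nat_lit 11) (nat_lit 4) (nat_lit 364) (nat_lit 238) (nat_lit 178))))))) (XT.nd (nat_lit 858) (nat_lit 152) (nat_lit 0) (XT.nd (nat_lit 390) (nat_lit 76) (nat_lit 0) (XT.nd (nat_lit 156) (nat_lit 0) (nat_lit 0) (XT.nd (nat_lit 78) (nat_lit 76) (nat_lit 0) (XT.lf (nat_lit 0) (nat_lit 9724475800) (nat_lit 152) (nat_lit 520562436) (nat_lit 76) (nat_lit 23150253820) (nat_lit 10) (nat_lit 5) (nat_lit 12) (nat_lit 5) (nat_lit 11) (nat_lit 4) (nat_lit 365) (nat_lit 238) (nat_lit 177)) (XT.lf (nat_lit 0) (nat_lit 5482181875) (nat_lit 76) (nat_lit 7256667967) (nat_lit 152) (nat_lit 21552871873) (nat_lit 9) (nat_lit 5) (nat_lit 10) (nat_lit 5) (nat_lit 11) (nat_lit 4) (nat_lit 366) (nat_lit 238) (nat_lit 176))) (XT.nd (nat_lit 78) (nat_lit 0) (nat_lit 0) (XT.lf (nat_lit 0) (nat_lit 11632680175) (nat_lit 76) (nat_lit 4191658330) (nat_lit 152) (nat_lit 19391303487) (nat_lit 9) (nat_lit 5)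 (nat_lit 10) (nat_lit 5) (nat_lit 11) (nat_lit 4) (nat_lit 367) (nat_lit 238) (nat_lit 175)) (XT.nd (nat_lit 78) (nat_lit 0) (nat_lit 0) (XT.lf (nat_lit 0) (nat_lit 17925946472) (nat_lit 76) (nat_lit 1052587820) (nat_lit 152) (nat_lit 17189479009) (nat_lit 9) (nat_lit 5) (nat_lit 10) (nat_lit 5) (nat_lit 11) (nat_lit 4) (nat_lit 368) (nat_lit 238) (nat_lit 174)) (XT.lf (nat_lit 0) (nat_lit 22224988129) (nat_lit 152) (nat_lit 12802982907) (nat_lit 0) (nat_lit 2121072929) (nat_lit 9) (nat_lit 5) (nat_lit 11) (nat_lit 4) (nat_lit 9) (nat_lit 4) (nat_lit 369) (nat_lit 238) (nat_lit 173))))) (XT.nd (nat_lit 234) (nat_lit 0) (nat_lit 0) (XT.nd (nat_lit 78) (nat_lit 76) (nat_lit 0) (XT.lf (nat_lit 0) (nat_lit 25556607134) (nat_lit 152) (nat_lit 7251027866) (nat_lit 0) (nat_lit 5352254085) (nat_lit 9) (nat_lit 5) (nat_lit 11) (nat_lit 4) (nat_lit 9) (nat_lit 4) (nat_lit 370) (nat_lit 238) (nat_lit 172))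 (XT.nd (nat_lit 78) (nat_lit 76) (nat_lit 0) (XT.lf (nat_lit 0) (nat_lit 28966184313) (nat_lit 152) (nat_lit 1571232364) (nat_lit 0) (nat_lit 8664318789) (nat_lit 9) (nat_lit 5) (nat_lit 11) (nat_lit 4) (nat_lit 9) (nat_lit 4) (nat_lit 371) (nat_lit 238) (nat_lit 171)) (XT.lf (nat_lit 0) (nat_lit 4325778036) (nat_lit 76) (nat_lit 28172502896) (nat_lit 76) (nat_lit 7775965066) (nat_lit 8) (nat_lit 4) (nat_lit 9) (nat_lit 5) (nat_lit 9) (nat_lit 4) (nat_lit 372) (nat_lit 238) (nat_lit 170)))) (XT.nd (nat_lit 78) (nat_lit 0) (nat_lit 0) (XT.lf (nat_lit 0) (nat_lit 10394685531) (nat_lit 76) (nat_lit 25736435429) (nat_lit 76) (nat_lit 5247982739) (nat_lit 8) (nat_lit 4) (nat_lit 9) (nat_lit 5) (nat_lit 9) (nat_lit 4) (nat_lit 373) (nat_lit 238) (nat_lit 169)) (XT.nd (nat_lit 78) (nat_lit 0) (nat_lit 0) (XT.lf (nat_lit 0) (nat_lit 16609522442) (nat_lit 76) (nat_lit 23242952039) (nat_lit 76) (nat_lit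 2665261621) (nat_lit 8) (nat_lit 4) (nat_lit 9) (nat_lit 5) (nat_lit 9) (nat_lit 4) (nat_lit 374) (nat_lit 238) (nat_lit 168)) (XT.lf (nat_lit 0) (nat_lit 22975719210) (nat_lit 76) (nat_lit 20689873955) (nat_lit 76) (nat_lit 25544965) (nat_lit 8) (nat_lit 4) (nat_lit 9) (nat_lit 5) (nat_lit 9) (nat_lit 4) (nat_lit 375) (nat_lit 238) (nat_lit 167)))))) (XT.nd (nat_lit 468) (nat_lit 0) (nat_lit 0) (XT.nd (nat_lit 234) (nat_lit 76) (nat_lit 0) (XT.nd (nat_lit 78) (nat_lit 0) (nat_lit 0) (XT.lf (nat_lit 0) (nat_lit 2621304672) (nat_lit 152) (nat_lit 15427195623) (nat_lit 76) (nat_lit 26851063821) (nat_lit 7) (nat_lit 5) (nat_lit 9) (nat_lit 5) (nat_lit 8) (nat_lit 4) (nat_lit 376) (nat_lit 238) (nat_lit 166)) (XT.nd (nat_lit 78) (nat_lit 0) (nat_lit 0) (XT.lf (nat_lit 0) (nat_lit 5328113070) (nat_lit 152) (nat_lit 10014039737) (nat_lit 76) (nat_lit 30802663653) (nat_lit 7) (nat_lit 5) (nat_lit 9)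 (nat_lit 5) (nat_lit 8) (nat_lit 4) (nat_lit 377) (nat_lit 238) (nat_lit 165)) (XT.lf (nat_lit 0) (nat_lit 8097743874) (nat_lit 152) (nat_lit 4470975770) (nat_lit 76) (nat_lit 34859270972) (nat_lit 7) (nat_lit 5) (nat_lit 9) (nat_lit 5) (nat_lit 8) (nat_lit 4) (nat_lit 378) (nat_lit 238) (nat_lit 164)))) (XT.nd (nat_lit 78) (nat_lit 0) (nat_lit 0) (XT.lf (nat_lit 0) (nat_lit 1230858210) (nat_lit 76) (nat_lit 9713590703) (nat_lit 152) (nat_lit 37805403937) (nat_lit 6) (nat_lit 5) (nat_lit 7) (nat_lit 5) (nat_lit 8) (nat_lit 4) (nat_lit 379) (nat_lit 238) (nat_lit 163)) (XT.nd (nat_lit 78) (nat_lit 0) (nat_lit 0) (XT.lf (nat_lit 0) (nat_lit 7164166667) (nat_lit 76) (nat_lit 6739909659) (nat_lit 152) (nat_lit 36206481039) (nat_lit 6) (nat_lit 5) (nat_lit 7) (nat_lit 5) (nat_lit 8) (nat_lit 4) (nat_lit 380) (nat_lit 238) (nat_lit 162)) (XT.lf (nat_lit 0) (nat_lit 13245152860) (nat_lit 76) (nat_lit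 3690226241) (nat_lit 152) (nat_lit 34577229019) (nat_lit 6) (nat_lit 5) (nat_lit 7) (nat_lit 5) (nat_lit 8) (nat_lit 4) (nat_lit 381) (nat_lit 238) (nat_lit 161))))) (XT.nd (nat_lit 234) (nat_lit 0) (nat_lit 0) (XT.nd (nat_lit 78) (nat_lit 0) (nat_lit 0) (XT.lf (nat_lit 0) (nat_lit 19479130272) (nat_lit 76) (nat_lit 561875676) (nat_lit 152) (nat_lit 32916224260) (nat_lit 6) (nat_lit 5) (nat_lit 7) (nat_lit 5) (nat_lit 8) (nat_lit 4) (nat_lit 382) (nat_lit 238) (nat_lit 160)) (XT.nd (nat_lit 78) (nat_lit 0) (nat_lit 0) (XT.lf (nat_lit 0) (nat_lit 23249123521) (nat_lit 152) (nat_lit 28599592852) (nat_lit 0) (nat_lit 2596205956) (nat_lit 6) (nat_lit 5) (nat_lit 8) (nat_lit 4) (nat_lit 6) (nat_lit 4) (nat_lit 383) (nat_lit 238) (nat_lit 159)) (XT.lf (nat_lit 0) (nat_lit 26543270315) (nat_lit 152) (nat_lit 23608406519) (nat_lit 0) (nat_lit 5825885517) (nat_lit 6) (nat_lit 5) (nat_lit 8) (nat_lit 4)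 (nat_lit 6) (nat_lit 4) (nat_lit 384) (nat_lit 238) (nat_lit 158)))) (XT.nd (nat_lit 78) (nat_lit 0) (nat_lit 0) (XT.lf (nat_lit 0) (nat_lit 29920923618) (nat_lit 152) (nat_lit 18494778614) (nat_lit 0) (nat_lit 9140949273) (nat_lit 6) (nat_lit 5) (nat_lit 8) (nat_lit 4) (nat_lit 6) (nat_lit 4) (nat_lit 385) (nat_lit 238) (nat_lit 157)) (XT.nd (nat_lit 78) (nat_lit 0) (nat_lit 0) (XT.lf (nat_lit 0) (nat_lit 33385034778) (nat_lit 152) (nat_lit 13254240919) (nat_lit 0) (nat_lit 12544293882) (nat_lit 6) (nat_lit 5) (nat_lit 8) (nat_lit 4) (nat_lit 6) (nat_lit 4) (nat_lit 386) (nat_lit 238) (nat_lit 156)) (XT.lf (nat_lit 0) (nat_lit 36938630688) (nat_lit 152) (nat_lit 7882214323) (nat_lit 0) (nat_lit 16038893141) (nat_lit 6) (nat_lit 5) (nat_lit 8) (nat_lit 4) (nat_lit 6) (nat_lit 4) (nat_lit 387) (nat_lit 238) (nat_lit 155))))))))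
noncomputable def xc55 : XT := (XT.nd (nat_lit 34554) (nat_lit 0) (nat_lit 1900) (XT.nd (nat_lit 858) (nat_lit 76) (nat_lit 0) (XT.nd (nat_lit 390) (nat_lit 76) (nat_lit 0) (XT.nd (nat_lit 156) (nat_lit 0) (nat_lit 0) (XT.nd (nat_lit 78) (nat_lit 76) (nat_lit 0) (XT.lf (nat_lit 0) (nat_lit 40584816432) (nat_lit 152) (nat_lit 2374004823) (nat_lit 0) (nat_lit 19627800582) (nat_lit 6) (nat_lit 5) (nat_lit 8) (nat_lit 4) (nat_lit 6) (nat_lit 4) (nat_lit 388) (nat_lit 238) (nat_lit 154)) (XT.lf (nat_lit 0) (nat_lit 3340383494) (nat_lit 76) (nat_lit 41018504312) (nat_lit 76) (nat_lit 20005878460) (nat_lit 5) (nat_lit 4) (nat_lit 6) (nat_lit 5) (nat_lit 6) (nat_lit 4) (nat_lit 389) (nat_lit 238) (nat_lit 153))) (XT.nd (nat_lit 78) (nat_lit 0) (nat_lit 0) (XT.lf (nat_lit 0) (nat_lit 9250855599) (nat_lit 76) (nat_lit 39005854341) (nat_lit 76) (nat_lit 17939238196) (nat_lit 5) (nat_lit 4) (nat_lit 6) (nat_lit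 5) (nat_lit 6) (nat_lit 4) (nat_lit 390) (nat_lit 238) (nat_lit 152)) (XT.nd (nat_lit 78) (nat_lit 0) (nat_lit 0) (XT.lf (nat_lit 0) (nat_lit 15315328632) (nat_lit 76) (nat_lit 36943085511) (nat_lit 76) (nat_lit 15824051606) (nat_lit 5) (nat_lit 4) (nat_lit 6) (nat_lit 5) (nat_lit 6) (nat_lit 4) (nat_lit 391) (nat_lit 238) (nat_lit 151)) (XT.lf (nat_lit 0) (nat_lit 21539101647) (nat_lit 76) (nat_lit 34828395401) (nat_lit 76) (nat_lit 13658470466) (nat_lit 5) (nat_lit 4) (nat_lit 6) (nat_lit 5) (nat_lit 6) (nat_lit 4) (nat_lit 392) (nat_lit 238) (nat_lit 150))))) (XT.nd (nat_lit 234) (nat_lit 76) (nat_lit 0) (XT.nd (nat_lit 78) (nat_lit 0) (nat_lit 0) (XT.lf (nat_lit 0) (nat_lit 27927612891) (nat_lit 76) (nat_lit 32659936224) (nat_lit 76) (nat_lit 11440602523) (nat_lit 5) (nat_lit 4) (nat_lit 6) (nat_lit 5) (nat_lit 6) (nat_lit 4) (nat_lit 393) (nat_lit 238) (nat_lit 149)) (XT.nd (nat_lit 78)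 (nat_lit 0) (nat_lit 0) (XT.lf (nat_lit 0) (nat_lit 34486444559) (nat_lit 76) (nat_lit 30435813210) (nat_lit 76) (nat_lit 9168509833) (nat_lit 5) (nat_lit 4) (nat_lit 6) (nat_lit 5) (nat_lit 6) (nat_lit 4) (nat_lit 394) (nat_lit 238) (nat_lit 148)) (XT.lf (nat_lit 0) (nat_lit 41221327669) (nat_lit 76) (nat_lit 28154082951) (nat_lit 76) (nat_lit 6840207072) (nat_lit 5) (nat_lit 4) (nat_lit 6) (nat_lit 5) (nat_lit 6) (nat_lit 4) (nat_lit 395) (nat_lit 238) (nat_lit 147)))) (XT.nd (nat_lit 78) (nat_lit 76) (nat_lit 0) (XT.lf (nat_lit 0) (nat_lit 48138147071) (nat_lit 76) (nat_lit 25812751702) (nat_lit 76) (nat_lit 4453659802) (nat_lit 5) (nat_lit 4) (nat_lit 6) (nat_lit 5) (nat_lit 6) (nat_lit 4) (nat_lit 396) (nat_lit 238) (nat_lit 146)) (XT.nd (nat_lit 78) (nat_lit 76) (nat_lit 0) (XT.lf (nat_lit 0) (nat_lit 55242946586) (nat_lit 76) (nat_lit 23409773638) (nat_lit 76) (nat_lit 2006782690) (nat_lit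 5) (nat_lit 4) (nat_lit 6) (nat_lit 5) (nat_lit 6) (nat_lit 4) (nat_lit 397) (nat_lit 238) (nat_lit 145)) (XT.lf (nat_lit 0) (nat_lit 492755511) (nat_lit 152) (nat_lit 20445317695) (nat_lit 76) (nat_lit 62044202917) (nat_lit 4) (nat_lit 5) (nat_lit 6) (nat_lit 5) (nat_lit 5) (nat_lit 4) (nat_lit 398) (nat_lit 238) (nat_lit 144)))))) (XT.nd (nat_lit 33228) (nat_lit 0) (nat_lit 5016) (XT.nd (nat_lit 234) (nat_lit 76) (nat_lit 0) (XT.nd (nat_lit 78) (nat_lit 0) (nat_lit 0) (XT.lf (nat_lit 0) (nat_lit 3016532917) (nat_lit 152) (nat_lit 15363428626) (nat_lit 76) (nat_lit 66994493962) (nat_lit 4) (nat_lit 5) (nat_lit 6) (nat_lit 5) (nat_lit 5) (nat_lit 4) (nat_lit 399) (nat_lit 238) (nat_lit 143)) (XT.nd (nat_lit 78) (nat_lit 0) (nat_lit 0) (XT.lf (nat_lit 0) (nat_lit 5605914327) (nat_lit 152) (nat_lit 10147158212) (nat_lit 76) (nat_lit 72085637487) (nat_lit 4) (nat_lit 5) (nat_lit 6) (nat_lit 5) (nat_lit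 5) (nat_lit 4) (nat_lit 400) (nat_lit 238) (nat_lit 142)) (XT.lf (nat_lit 0) (nat_lit 8263162308) (nat_lit 152) (nat_lit 4791948547) (nat_lit 76) (nat_lit 77322082063) (nat_lit 4) (nat_lit 5) (nat_lit 6) (nat_lit 5) (nat_lit 5) (nat_lit 4) (nat_lit 401) (nat_lit 238) (nat_lit 141)))) (XT.nd (nat_lit 32838) (nat_lit 0) (nat_lit 6080) (XT.lf (nat_lit 0) (nat_lit 720947968) (nat_lit 76) (nat_lit 10276580951) (nat_lit 152) (nat_lit 81994385449) (nat_lit 3) (nat_lit 5) (nat_lit 4) (nat_lit 5) (nat_lit 5) (nat_lit 4) (nat_lit 402) (nat_lit 238) (nat_lit 140)) (XT.nd (nat_lit 78) (nat_lit 380) (nat_lit 0) (XT.lf (nat_lit 0) (nat_lit 1121518678) (nat_lit 456) (nat_lit 2107854744) (nat_lit 0) (nat_lit 1121518678) (nat_lit 88) (nat_lit 5) (nat_lit 94) (nat_lit 4) (nat_lit 88) (nat_lit 4) (nat_lit 302) (nat_lit 239) (nat_lit 239)) (XT.lf (nat_lit 0) (nat_lit 1373744094) (nat_lit 380) (nat_lit 4243393541)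 (nat_lit 380) (nat_lit 3205773965) (nat_lit 83) (nat_lit 4) (nat_lit 88) (nat_lit 5) (nat_lit 88) (nat_lit 4) (nat_lit 303) (nat_lit 239) (nat_lit 238))))) (XT.nd (nat_lit 234) (nat_lit 380) (nat_lit 0) (XT.nd (nat_lit 78) (nat_lit 608) (nat_lit 0) (XT.lf (nat_lit 0) (nat_lit 98577013) (nat_lit 456) (nat_lit 1844905886) (nat_lit 76) (nat_lit 7005612188) (nat_lit 82) (nat_lit 5) (nat_lit 88) (nat_lit 5) (nat_lit 83) (nat_lit 4) (nat_lit 304) (nat_lit 239) (nat_lit 237)) (XT.nd (nat_lit 78) (nat_lit 304) (nat_lit 0) (XT.lf (nat_lit 0) (nat_lit 3395385720) (nat_lit 380) (nat_lit 5223787854) (nat_lit 0) (nat_lit 460363205) (nat_lit 78) (nat_lit 5) (nat_lit 83) (nat_lit 4) (nat_lit 78) (nat_lit 4) (nat_lit 305) (nat_lit 239) (nat_lit 236)) (XT.lf (nat_lit 0) (nat_lit 428894346) (nat_lit 304) (nat_lit 6321650591) (nat_lit 304) (nat_lit 2464716521) (nat_lit 74) (nat_lit 4) (nat_lit 78) (nat_lit 5) (nat_lit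 78) (nat_lit 4) (nat_lit 306) (nat_lit 239) (nat_lit 235)))) (XT.nd (nat_lit 78) (nat_lit 304) (nat_lit 0) (XT.lf (nat_lit 0) (nat_lit 805620519) (nat_lit 380) (nat_lit 3116584177) (nat_lit 76) (nat_lit 5433624072) (nat_lit 73) (nat_lit 5) (nat_lit 78) (nat_lit 5) (nat_lit 74) (nat_lit 4) (nat_lit 307) (nat_lit 239) (nat_lit 234)) (XT.nd (nat_lit 78) (nat_lit 0) (nat_lit 0) (XT.lf (nat_lit 0) (nat_lit 2641063797) (nat_lit 304) (nat_lit 1428910433) (nat_lit 380) (nat_lit 5431683553) (nat_lit 69) (nat_lit 5) (nat_lit 73) (nat_lit 5) (nat_lit 74) (nat_lit 4) (nat_lit 308) (nat_lit 239) (nat_lit 233)) (XT.lf (nat_lit 0) (nat_lit 7396052073) (nat_lit 380) (nat_lit 1137352152) (nat_lit 0) (nat_lit 1119679684) (nat_lit 69) (nat_lit 5) (nat_lit 74) (nat_lit 4) (nat_lit 69) (nat_lit 4) (nat_lit 309) (nat_lit 239) (nat_lit 232))))))) (XT.nd (nat_lit 936) (nat_lit 1064) (nat_lit 0) (XT.nd (nat_lit 468)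 (nat_lit 836) (nat_lit 0) (XT.nd (nat_lit 234) (nat_lit 608) (nat_lit 0) (XT.nd (nat_lit 78) (nat_lit 228) (nat_lit 0) (XT.lf (nat_lit 0) (nat_lit 975756053) (nat_lit 380) (nat_lit 5090836605) (nat_lit 76) (nat_lit 3742816476) (nat_lit 64) (nat_lit 5) (nat_lit 69) (nat_lit 5) (nat_lit 65) (nat_lit 4) (nat_lit 310) (nat_lit 239) (nat_lit 231)) (XT.nd (nat_lit 78) (nat_lit 0) (nat_lit 0) (XT.lf (nat_lit 0) (nat_lit 686471507) (nat_lit 228) (nat_lit 3515587268) (nat_lit 304) (nat_lit 5769562578) (nat_lit 61) (nat_lit 5) (nat_lit 64) (nat_lit 5) (nat_lit 65) (nat_lit 4) (nat_lit 311) (nat_lit 239) (nat_lit 230)) (XT.lf (nat_lit 0) (nat_lit 6634640152) (nat_lit 228) (nat_lit 866811284) (nat_lit 304) (nat_lit 2638080351) (nat_lit 61) (nat_lit 5) (nat_lit 64) (nat_lit 5) (nat_lit 65) (nat_lit 4) (nat_lit 312) (nat_lit 239) (nat_lit 229)))) (XT.nd (nat_lit 78) (nat_lit 228) (nat_lit 0) (XT.lf (nat_lit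 0) (nat_lit 542921971) (nat_lit 380) (nat_lit 7947452631) (nat_lit 76) (nat_lit 1823038386) (nat_lit 56) (nat_lit 5) (nat_lit 61) (nat_lit 5) (nat_lit 57) (nat_lit 4) (nat_lit 313) (nat_lit 239) (nat_lit 228)) (XT.nd (nat_lit 78) (nat_lit 228) (nat_lit 0) (XT.lf (nat_lit 0) (nat_lit 3737742625) (nat_lit 380) (nat_lit 2147955480) (nat_lit 76) (nat_lit 4606997217) (nat_lit 56) (nat_lit 5) (nat_lit 61) (nat_lit 5) (nat_lit 57) (nat_lit 4) (nat_lit 314) (nat_lit 239) (nat_lit 227)) (XT.lf (nat_lit 0) (nat_lit 3796464557) (nat_lit 228) (nat_lit 3197646816) (nat_lit 304) (nat_lit 3684381044) (nat_lit 53) (nat_lit 5) (nat_lit 56) (nat_lit 5) (nat_lit 57) (nat_lit 4) (nat_lit 315) (nat_lit 239) (nat_lit 226))))) (XT.nd (nat_lit 234) (nat_lit 532) (nat_lit 0) (XT.nd (nat_lit 78) (nat_lit 304) (nat_lit 0) (XT.lf (nat_lit 0) (nat_lit 9861114676) (nat_lit 228) (nat_lit 439036271) (nat_lit 304) (nat_lit 571257355)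 (nat_lit 53) (nat_lit 5) (nat_lit 56) (nat_lit 5) (nat_lit 57) (nat_lit 4) (nat_lit 316) (nat_lit 239) (nat_lit 225)) (XT.nd (nat_lit 78) (nat_lit 0) (nat_lit 0) (XT.lf (nat_lit 0) (nat_lit 2587051675) (nat_lit 304) (nat_lit 6084176997) (nat_lit 76) (nat_lit 2398124869) (nat_lit 49) (nat_lit 5) (nat_lit 53) (nat_lit 5) (nat_lit 50) (nat_lit 4) (nat_lit 317) (nat_lit 239) (nat_lit 224)) (XT.lf (nat_lit 0) (nat_lit 5775555051) (nat_lit 304) (nat_lit 203255090) (nat_lit 76) (nat_lit 5295944934) (nat_lit 49) (nat_lit 5) (nat_lit 53) (nat_lit 5) (nat_lit 50) (nat_lit 4) (nat_lit 318) (nat_lit 239) (nat_lit 223)))) (XT.nd (nat_lit 78) (nat_lit 304) (nat_lit 0) (XT.lf (nat_lit 0) (nat_lit 5870156009) (nat_lit 228) (nat_lit 3180234461) (nat_lit 304) (nat_lit 2436300517) (nat_lit 46) (nat_lit 5) (nat_lit 49) (nat_lit 5) (nat_lit 50) (nat_lit 4) (nat_lit 319) (nat_lit 239) (nat_lit 222)) (XT.nd (nat_lit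 78) (nat_lit 0) (nat_lit 0) (XT.lf (nat_lit 0) (nat_lit 325526158) (nat_lit 228) (nat_lit 318639067) (nat_lit 304) (nat_lit 11062508892) (nat_lit 42) (nat_lit 5) (nat_lit 45) (nat_lit 5) (nat_lit 46) (nat_lit 5) (nat_lit 320) (nat_lit 239) (nat_lit 221)) (XT.lf (nat_lit 0) (nat_lit 3785767706) (nat_lit 304) (nat_lit 5520167451) (nat_lit 76) (nat_lit 2626152011) (nat_lit 42) (nat_lit 5) (nat_lit 46) (nat_lit 5) (nat_lit 43) (nat_lit 4) (nat_lit 321) (nat_lit 239) (nat_lit 220)))))) (XT.nd (nat_lit 468) (nat_lit 456) (nat_lit 0) (XT.nd (nat_lit 234) (nat_lit 152) (nat_lit 0) (XT.nd (nat_lit 78) (nat_lit 304) (nat_lit 0) (XT.lf (nat_lit 0) (nat_lit 425042149) (nat_lit 152) (nat_lit 6540848550) (nat_lit 228) (nat_lit 5200126049) (nat_lit 40) (nat_lit 5) (nat_lit 42) (nat_lit 5) (nat_lit 43) (nat_lit 4) (nat_lit 322) (nat_lit 239) (nat_lit 219)) (XT.nd (nat_lit 78) (nat_lit 304) (nat_lit 0) (XT.lf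 (nat_lit 0) (nat_lit 6565974902) (nat_lit 152) (nat_lit 3669130399) (nat_lit 228) (nat_lit 2172128189) (nat_lit 40) (nat_lit 5) (nat_lit 42) (nat_lit 5) (nat_lit 43) (nat_lit 4) (nat_lit 323) (nat_lit 239) (nat_lit 218)) (XT.lf (nat_lit 0) (nat_lit 134687918) (nat_lit 228) (nat_lit 733922570) (nat_lit 304) (nat_lit 11788667323) (nat_lit 36) (nat_lit 5) (nat_lit 39) (nat_lit 5) (nat_lit 40) (nat_lit 5) (nat_lit 324) (nat_lit 239) (nat_lit 217)))) (XT.nd (nat_lit 78) (nat_lit 152) (nat_lit 0) (XT.lf (nat_lit 0) (nat_lit 3978126011) (nat_lit 304) (nat_lit 6642416394) (nat_lit 76) (nat_lit 2293072633) (nat_lit 36) (nat_lit 5) (nat_lit 40) (nat_lit 5) (nat_lit 37) (nat_lit 4) (nat_lit 325) (nat_lit 239) (nat_lit 216)) (XT.nd (nat_lit 78) (nat_lit 152) (nat_lit 0) (XT.lf (nat_lit 0) (nat_lit 7129588207) (nat_lit 304) (nat_lit 685258230) (nat_lit 76) (nat_lit 5364407111) (nat_lit 36) (nat_lit 5) (nat_lit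 40) (nat_lit 5) (nat_lit 37) (nat_lit 4) (nat_lit 326) (nat_lit 239) (nat_lit 215)) (XT.lf (nat_lit 0) (nat_lit 5467842087) (nat_lit 152) (nat_lit 4903414023) (nat_lit 228) (nat_lit 3081804179) (nat_lit 34) (nat_lit 5) (nat_lit 36) (nat_lit 5) (nat_lit 37) (nat_lit 4) (nat_lit 327) (nat_lit 239) (nat_lit 214))))) (XT.nd (nat_lit 234) (nat_lit 228) (nat_lit 0) (XT.nd (nat_lit 78) (nat_lit 228) (nat_lit 0) (XT.lf (nat_lit 0) (nat_lit 11730989807) (nat_lit 152) (nat_lit 1930011235) (nat_lit 228) (nat_lit 75622307) (nat_lit 34) (nat_lit 5) (nat_lit 36) (nat_lit 5) (nat_lit 37) (nat_lit 4) (nat_lit 328) (nat_lit 239) (nat_lit 213)) (XT.nd (nat_lit 78) (nat_lit 0) (nat_lit 0) (XT.lf (nat_lit 0) (nat_lit 2957575105) (nat_lit 228) (nat_lit 9922130708) (nat_lit 76) (nat_lit 1148306184) (nat_lit 31) (nat_lit 5) (nat_lit 34) (nat_lit 5) (nat_lit 32) (nat_lit 4) (nat_lit 329) (nat_lit 239) (nat_lit 212))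 (XT.lf (nat_lit 0) (nat_lit 6065215247) (nat_lit 228) (nat_lit 3993436574) (nat_lit 76) (nat_lit 4269980265) (nat_lit 31) (nat_lit 5) (nat_lit 34) (nat_lit 5) (nat_lit 32) (nat_lit 4) (nat_lit 330) (nat_lit 239) (nat_lit 211)))) (XT.nd (nat_lit 78) (nat_lit 76) (nat_lit 0) (XT.lf (nat_lit 0) (nat_lit 2068334709) (nat_lit 152) (nat_lit 7164626378) (nat_lit 228) (nat_lit 5406362860) (nat_lit 29) (nat_lit 5) (nat_lit 31) (nat_lit 5) (nat_lit 32) (nat_lit 4) (nat_lit 331) (nat_lit 239) (nat_lit 210)) (XT.nd (nat_lit 78) (nat_lit 76) (nat_lit 0) (XT.lf (nat_lit 0) (nat_lit 8309511079) (nat_lit 152) (nat_lit 4174281913) (nat_lit 228) (nat_lit 2475959689) (nat_lit 29) (nat_lit 5) (nat_lit 31) (nat_lit 5) (nat_lit 32) (nat_lit 4) (nat_lit 332) (nat_lit 239) (nat_lit 209)) (XT.lf (nat_lit 0) (nat_lit 480465140) (nat_lit 228) (nat_lit 640014489) (nat_lit 76) (nat_lit 14170751877) (nat_lit 28) (nat_lit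 5) (nat_lit 31) (nat_lit 5) (nat_lit 29) (nat_lit 5) (nat_lit 333) (nat_lit 239) (nat_lit 208))))))))
noncomputable def xc56 : XT := (XT.nd (nat_lit 1794) (nat_lit 380) (nat_lit 0) (XT.nd (nat_lit 858) (nat_lit 608) (nat_lit 0) (XT.nd (nat_lit 390) (nat_lit 304) (nat_lit 0) (XT.nd (nat_lit 156) (nat_lit 152) (nat_lit 0) (XT.nd (nat_lit 78) (nat_lit 0) (nat_lit 0) (XT.lf (nat_lit 0) (nat_lit 3499333914) (nat_lit 228) (nat_lit 10097939117) (nat_lit 76) (nat_lit 2033993596) (nat_lit 26) (nat_lit 5) (nat_lit 29) (nat_lit 5) (nat_lit 27) (nat_lit 4) (nat_lit 334) (nat_lit 239) (nat_lit 207)) (XT.lf (nat_lit 0) (nat_lit 6576967128) (nat_lit 228) (nat_lit 4168433071) (nat_lit 76) (nat_lit 5237107944) (nat_lit 26) (nat_lit 5) (nat_lit 29) (nat_lit 5) (nat_lit 27) (nat_lit 4) (nat_lit 335) (nat_lit 239) (nat_lit 206))) (XT.nd (nat_lit 78) (nat_lit 0) (nat_lit 0) (XT.lf (nat_lit 0) (nat_lit 1897385159)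 (nat_lit 152) (nat_lit 7819800132) (nat_lit 228) (nat_lit 6628043735) (nat_lit 24) (nat_lit 5) (nat_lit 26) (nat_lit 5) (nat_lit 27) (nat_lit 4) (nat_lit 336) (nat_lit 239) (nat_lit 205)) (XT.nd (nat_lit 78) (nat_lit 0) (nat_lit 0) (XT.lf (nat_lit 0) (nat_lit 8152799481) (nat_lit 152) (nat_lit 4793570080) (nat_lit 228) (nat_lit 3772667535) (nat_lit 24) (nat_lit 5) (nat_lit 26) (nat_lit 5) (nat_lit 27) (nat_lit 4) (nat_lit 337) (nat_lit 239) (nat_lit 204)) (XT.lf (nat_lit 0) (nat_lit 14520315798) (nat_lit 152) (nat_lit 1706158768) (nat_lit 228) (nat_lit 879010427) (nat_lit 24) (nat_lit 5) (nat_lit 26) (nat_lit 5) (nat_lit 27) (nat_lit 4) (nat_lit 338) (nat_lit 239) (nat_lit 203))))) (XT.nd (nat_lit 234) (nat_lit 76) (nat_lit 0) (XT.nd (nat_lit 78) (nat_lit 0) (nat_lit 0) (XT.lf (nat_lit 0) (nat_lit 2063897447) (nat_lit 228) (nat_lit 13967614265) (nat_lit 76) (nat_lit 1471349405) (nat_lit 21) (nat_lit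 5) (nat_lit 24) (nat_lit 5) (nat_lit 22) (nat_lit 4) (nat_lit 339) (nat_lit 239) (nat_lit 202)) (XT.nd (nat_lit 78) (nat_lit 0) (nat_lit 0) (XT.lf (nat_lit 0) (nat_lit 5075905790) (nat_lit 228) (nat_lit 8119632176) (nat_lit 76) (nat_lit 4716448009) (nat_lit 21) (nat_lit 5) (nat_lit 24) (nat_lit 5) (nat_lit 22) (nat_lit 4) (nat_lit 340) (nat_lit 239) (nat_lit 201)) (XT.lf (nat_lit 0) (nat_lit 8134802737) (nat_lit 228) (nat_lit 2168707148) (nat_lit 76) (nat_lit 8031220550) (nat_lit 21) (nat_lit 5) (nat_lit 24) (nat_lit 5) (nat_lit 22) (nat_lit 4) (nat_lit 341) (nat_lit 239) (nat_lit 200)))) (XT.nd (nat_lit 78) (nat_lit 0) (nat_lit 0) (XT.lf (nat_lit 0) (nat_lit 3967786461) (nat_lit 76) (nat_lit 7313615440) (nat_lit 152) (nat_lit 7488917759) (nat_lit 20) (nat_lit 5) (nat_lit 21) (nat_lit 5) (nat_lit 22) (nat_lit 4) (nat_lit 342) (nat_lit 239) (nat_lit 199)) (XT.nd (nat_lit 78) (nat_lit 0) (nat_lit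 0) (XT.lf (nat_lit 0) (nat_lit 10263136323) (nat_lit 76) (nat_lit 4239516259) (nat_lit 152) (nat_lit 4716955683) (nat_lit 20) (nat_lit 5) (nat_lit 21) (nat_lit 5) (nat_lit 22) (nat_lit 4) (nat_lit 343) (nat_lit 239) (nat_lit 198)) (XT.lf (nat_lit 0) (nat_lit 16679681705) (nat_lit 76) (nat_lit 1100425929) (nat_lit 152) (nat_lit 1903519059) (nat_lit 20) (nat_lit 5) (nat_lit 21) (nat_lit 5) (nat_lit 22) (nat_lit 4) (nat_lit 344) (nat_lit 239) (nat_lit 197)))))) (XT.nd (nat_lit 468) (nat_lit 304) (nat_lit 0) (XT.nd (nat_lit 234) (nat_lit 76) (nat_lit 0) (XT.nd (nat_lit 78) (nat_lit 0) (nat_lit 0) (XT.lf (nat_lit 0) (nat_lit 985784882) (nat_lit 228) (nat_lit 17070440501) (nat_lit 76) (nat_lit 2104763514) (nat_lit 17) (nat_lit 5) (nat_lit 20) (nat_lit 5) (nat_lit 18) (nat_lit 4) (nat_lit 345) (nat_lit 239) (nat_lit 196)) (XT.nd (nat_lit 78) (nat_lit 0) (nat_lit 0) (XT.lf (nat_lit 0) (nat_lit 3925624035)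 (nat_lit 228) (nat_lit 11319170411) (nat_lit 76) (nat_lit 5407283601) (nat_lit 17) (nat_lit 5) (nat_lit 20) (nat_lit 5) (nat_lit 18) (nat_lit 4) (nat_lit 346) (nat_lit 239) (nat_lit 195)) (XT.lf (nat_lit 0) (nat_lit 6915391705) (nat_lit 228) (nat_lit 5460236593) (nat_lit 76) (nat_lit 8783453483) (nat_lit 17) (nat_lit 5) (nat_lit 20) (nat_lit 5) (nat_lit 18) (nat_lit 4) (nat_lit 347) (nat_lit 239) (nat_lit 194)))) (XT.nd (nat_lit 78) (nat_lit 0) (nat_lit 0) (XT.lf (nat_lit 0) (nat_lit 521659871) (nat_lit 76) (nat_lit 9441054953) (nat_lit 152) (nat_lit 11719577853) (nat_lit 16) (nat_lit 5) (nat_lit 17) (nat_lit 5) (nat_lit 18) (nat_lit 4) (nat_lit 348) (nat_lit 239) (nat_lit 193)) (XT.nd (nat_lit 78) (nat_lit 0) (nat_lit 0) (XT.lf (nat_lit 0) (nat_lit 6732575396) (nat_lit 76) (nat_lit 6387350418) (nat_lit 152) (nat_lit 9100752005) (nat_lit 16) (nat_lit 5) (nat_lit 17) (nat_lit 5) (nat_lit 18) (nat_lit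 4) (nat_lit 349) (nat_lit 239) (nat_lit 192)) (XT.lf (nat_lit 0) (nat_lit 13069267578) (nat_lit 76) (nat_lit 3266984092) (nat_lit 152) (nat_lit 6440061922) (nat_lit 16) (nat_lit 5) (nat_lit 17) (nat_lit 5) (nat_lit 18) (nat_lit 4) (nat_lit 350) (nat_lit 239) (nat_lit 191))))) (XT.nd (nat_lit 234) (nat_lit 76) (nat_lit 0) (XT.nd (nat_lit 78) (nat_lit 228) (nat_lit 0) (XT.lf (nat_lit 0) (nat_lit 19537273334) (nat_lit 76) (nat_lit 77229440) (nat_lit 152) (nat_lit 3735182729) (nat_lit 16) (nat_lit 5) (nat_lit 17) (nat_lit 5) (nat_lit 18) (nat_lit 4) (nat_lit 351) (nat_lit 239) (nat_lit 190)) (XT.nd (nat_lit 78) (nat_lit 76) (nat_lit 0) (XT.lf (nat_lit 0) (nat_lit 2213530420) (nat_lit 152) (nat_lit 20795904299) (nat_lit 152) (nat_lit 930303106) (nat_lit 14) (nat_lit 4) (nat_lit 16) (nat_lit 5) (nat_lit 16) (nat_lit 4) (nat_lit 352) (nat_lit 239) (nat_lit 189)) (XT.lf (nat_lit 0) (nat_lit 1926435987)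 (nat_lit 228) (nat_lit 16125924852) (nat_lit 76) (nat_lit 6494415551) (nat_lit 13) (nat_lit 5) (nat_lit 16) (nat_lit 5) (nat_lit 14) (nat_lit 4) (nat_lit 353) (nat_lit 239) (nat_lit 188)))) (XT.nd (nat_lit 78) (nat_lit 76) (nat_lit 0) (XT.lf (nat_lit 0) (nat_lit 4817452015) (nat_lit 228) (nat_lit 10423170778) (nat_lit 76) (nat_lit 9932135574) (nat_lit 13) (nat_lit 5) (nat_lit 16) (nat_lit 5) (nat_lit 14) (nat_lit 4) (nat_lit 354) (nat_lit 239) (nat_lit 187)) (XT.nd (nat_lit 78) (nat_lit 76) (nat_lit 0) (XT.lf (nat_lit 0) (nat_lit 7763424671) (nat_lit 228) (nat_lit 4604019550) (nat_lit 76) (nat_lit 13451054787) (nat_lit 13) (nat_lit 5) (nat_lit 16) (nat_lit 5) (nat_lit 14) (nat_lit 4) (nat_lit 355) (nat_lit 239) (nat_lit 186)) (XT.lf (nat_lit 0) (nat_lit 1363214755) (nat_lit 76) (nat_lit 9416817404) (nat_lit 152) (nat_lit 15704137272) (nat_lit 12) (nat_lit 5) (nat_lit 13) (nat_lit 5) (nat_lit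 14) (nat_lit 4) (nat_lit 356) (nat_lit 239) (nat_lit 185))))))) (XT.nd (nat_lit 858) (nat_lit 152) (nat_lit 0) (XT.nd (nat_lit 390) (nat_lit 152) (nat_lit 0) (XT.nd (nat_lit 156) (nat_lit 76) (nat_lit 0) (XT.nd (nat_lit 78) (nat_lit 0) (nat_lit 0) (XT.lf (nat_lit 0) (nat_lit 7551271805) (nat_lit 76) (nat_lit 6351902379) (nat_lit 152) (nat_lit 13266179192) (nat_lit 12) (nat_lit 5) (nat_lit 13) (nat_lit 5) (nat_lit 14) (nat_lit 4) (nat_lit 357) (nat_lit 239) (nat_lit 184)) (XT.lf (nat_lit 0) (nat_lit 13873929623) (nat_lit 76) (nat_lit 3216512633) (nat_lit 152) (nat_lit 10785561414) (nat_lit 12) (nat_lit 5) (nat_lit 13) (nat_lit 5) (nat_lit 14) (nat_lit 4) (nat_lit 358) (nat_lit 239) (nat_lit 183))) (XT.nd (nat_lit 78) (nat_lit 76) (nat_lit 0) (XT.lf (nat_lit 0) (nat_lit 20336712861) (nat_lit 76) (nat_lit 7908506) (nat_lit 152) (nat_lit 8260116407) (nat_lit 12) (nat_lit 5) (nat_lit 13) (nat_lit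 5) (nat_lit 14) (nat_lit 4) (nat_lit 359) (nat_lit 239) (nat_lit 182)) (XT.nd (nat_lit 78) (nat_lit 76) (nat_lit 0) (XT.lf (nat_lit 0) (nat_lit 23700052750) (nat_lit 152) (nat_lit 2442421611) (nat_lit 0) (nat_lit 3212773151) (nat_lit 12) (nat_lit 5) (nat_lit 14) (nat_lit 4) (nat_lit 12) (nat_lit 4) (nat_lit 360) (nat_lit 239) (nat_lit 181)) (XT.lf (nat_lit 0) (nat_lit 3580383322) (nat_lit 76) (nat_lit 23583010893) (nat_lit 76) (nat_lit 2964682681) (nat_lit 11) (nat_lit 4) (nat_lit 12) (nat_lit 5) (nat_lit 12) (nat_lit 4) (nat_lit 361) (nat_lit 239) (nat_lit 180))))) (XT.nd (nat_lit 234) (nat_lit 76) (nat_lit 0) (XT.nd (nat_lit 78) (nat_lit 76) (nat_lit 0) (XT.lf (nat_lit 0) (nat_lit 9787049571) (nat_lit 76) (nat_lit 20941344920) (nat_lit 76) (nat_lit 195785044) (nat_lit 11) (nat_lit 4) (nat_lit 12) (nat_lit 5) (nat_lit 12) (nat_lit 4) (nat_lit 362) (nat_lit 239) (nat_lit 179)) (XT.nd (nat_lit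 78) (nat_lit 0) (nat_lit 0) (XT.lf (nat_lit 0) (nat_lit 2577947687) (nat_lit 152) (nat_lit 15635851955) (nat_lit 76) (nat_lit 13530411552) (nat_lit 10) (nat_lit 5) (nat_lit 12) (nat_lit 5) (nat_lit 11) (nat_lit 4) (nat_lit 363) (nat_lit 239) (nat_lit 178)) (XT.lf (nat_lit 0) (nat_lit 5405326051) (nat_lit 152) (nat_lit 10016201921) (nat_lit 76) (nat_lit 17168045953) (nat_lit 10) (nat_lit 5) (nat_lit 12) (nat_lit 5) (nat_lit 11) (nat_lit 4) (nat_lit 364) (nat_lit 239) (nat_lit 177)))) (XT.nd (nat_lit 78) (nat_lit 76) (nat_lit 0) (XT.lf (nat_lit 0) (nat_lit 8292641043) (nat_lit 152) (nat_lit 4271387483) (nat_lit 76) (nat_lit 20897034330) (nat_lit 10) (nat_lit 5) (nat_lit 12) (nat_lit 5) (nat_lit 11) (nat_lit 4) (nat_lit 365) (nat_lit 239) (nat_lit 176)) (XT.nd (nat_lit 78) (nat_lit 0) (nat_lit 0) (XT.lf (nat_lit 0) (nat_lit 1635526104) (nat_lit 76) (nat_lit 9622611131) (nat_lit 152) (nat_lit 23100830595)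 (nat_lit 9) (nat_lit 5) (nat_lit 10) (nat_lit 5) (nat_lit 11) (nat_lit 4) (nat_lit 366) (nat_lit 239) (nat_lit 175)) (XT.lf (nat_lit 0) (nat_lit 7765459403) (nat_lit 76) (nat_lit 6566414014) (nat_lit 152) (nat_lit 20951375983) (nat_lit 9) (nat_lit 5) (nat_lit 10) (nat_lit 5) (nat_lit 11) (nat_lit 4) (nat_lit 367) (nat_lit 239) (nat_lit 174)))))) (XT.nd (nat_lit 468) (nat_lit 76) (nat_lit 0) (XT.nd (nat_lit 234) (nat_lit 76) (nat_lit 0) (XT.nd (nat_lit 78) (nat_lit 0) (nat_lit 0) (XT.lf (nat_lit 0) (nat_lit 14038759679) (nat_lit 76) (nat_lit 3435899349) (nat_lit 152) (nat_lit 18761312449) (nat_lit 9) (nat_lit 5) (nat_lit 10) (nat_lit 5) (nat_lit 11) (nat_lit 4) (nat_lit 368) (nat_lit 239) (nat_lit 173)) (XT.nd (nat_lit 78) (nat_lit 0) (nat_lit 0) (XT.lf (nat_lit 0) (nat_lit 20460908456) (nat_lit 76) (nat_lit 228331736) (nat_lit 152) (nat_lit 16528726348) (nat_lit 9) (nat_lit 5) (nat_lit 10) (nat_lit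 5) (nat_lit 11) (nat_lit 4) (nat_lit 369) (nat_lit 239) (nat_lit 172)) (XT.lf (nat_lit 0) (nat_lit 24007831626) (nat_lit 152) (nat_lit 11221981178) (nat_lit 0) (nat_lit 2999397661) (nat_lit 9) (nat_lit 5) (nat_lit 11) (nat_lit 4) (nat_lit 9) (nat_lit 4) (nat_lit 370) (nat_lit 239) (nat_lit 171)))) (XT.nd (nat_lit 78) (nat_lit 76) (nat_lit 0) (XT.lf (nat_lit 0) (nat_lit 27406891613) (nat_lit 152) (nat_lit 5560703152) (nat_lit 0) (nat_lit 6303785342) (nat_lit 9) (nat_lit 5) (nat_lit 11) (nat_lit 4) (nat_lit 9) (nat_lit 4) (nat_lit 371) (nat_lit 239) (nat_lit 170)) (XT.nd (nat_lit 78) (nat_lit 0) (nat_lit 0) (XT.lf (nat_lit 0) (nat_lit 238573025) (nat_lit 76) (nat_lit 30650915627) (nat_lit 76) (nat_lit 9455894496) (nat_lit 8) (nat_lit 4) (nat_lit 9) (nat_lit 5) (nat_lit 9) (nat_lit 4) (nat_lit 372) (nat_lit 239) (nat_lit 169)) (XT.lf (nat_lit 0) (nat_lit 6289678643) (nat_lit 76) (nat_lit 28222565451)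 (nat_lit 76) (nat_lit 6938306592) (nat_lit 8) (nat_lit 4) (nat_lit 9) (nat_lit 5) (nat_lit 9) (nat_lit 4) (nat_lit 373) (nat_lit 239) (nat_lit 168))))) (XT.nd (nat_lit 234) (nat_lit 0) (nat_lit 0) (XT.nd (nat_lit 78) (nat_lit 76) (nat_lit 0) (XT.lf (nat_lit 0) (nat_lit 12487232180) (nat_lit 76) (nat_lit 25736574578) (nat_lit 76) (nat_lit 4365677147) (nat_lit 8) (nat_lit 4) (nat_lit 9) (nat_lit 5) (nat_lit 9) (nat_lit 4) (nat_lit 374) (nat_lit 239) (nat_lit 167)) (XT.nd (nat_lit 78) (nat_lit 76) (nat_lit 0) (XT.lf (nat_lit 0) (nat_lit 18836648973) (nat_lit 76) (nat_lit 23190770781) (nat_lit 76) (nat_lit 1735758233) (nat_lit 8) (nat_lit 4) (nat_lit 9) (nat_lit 5) (nat_lit 9) (nat_lit 4) (nat_lit 375) (nat_lit 239) (nat_lit 166)) (XT.lf (nat_lit 0) (nat_lit 935137076) (nat_lit 152) (nat_lit 19638349445) (nat_lit 76) (nat_lit 24398896928) (nat_lit 7) (nat_lit 5) (nat_lit 9) (nat_lit 5) (nat_lit 8)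 (nat_lit 4) (nat_lit 376) (nat_lit 239) (nat_lit 165)))) (XT.nd (nat_lit 78) (nat_lit 0) (nat_lit 0) (XT.lf (nat_lit 0) (nat_lit 3632890378) (nat_lit 152) (nat_lit 14241196808) (nat_lit 76) (nat_lit 28343826559) (nat_lit 7) (nat_lit 5) (nat_lit 9) (nat_lit 5) (nat_lit 8) (nat_lit 4) (nat_lit 377) (nat_lit 239) (nat_lit 164)) (XT.nd (nat_lit 78) (nat_lit 0) (nat_lit 0) (XT.lf (nat_lit 0) (nat_lit 6393729827) (nat_lit 152) (nat_lit 8713669975) (nat_lit 76) (nat_lit 32393957954) (nat_lit 7) (nat_lit 5) (nat_lit 9) (nat_lit 5) (nat_lit 8) (nat_lit 4) (nat_lit 378) (nat_lit 239) (nat_lit 163)) (XT.lf (nat_lit 0) (nat_lit 9220067807) (nat_lit 152) (nat_lit 3050939068) (nat_lit 76) (nat_lit 36552830063) (nat_lit 7) (nat_lit 5) (nat_lit 9) (nat_lit 5) (nat_lit 8) (nat_lit 4) (nat_lit 379) (nat_lit 239) (nat_lit 162))))))))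
noncomputable def xc57 : XT := (XT.nd (nat_lit 34398) (nat_lit 0) (nat_lit 2736) (XT.nd (nat_lit 858) (nat_lit 76) (nat_lit 0) (XT.nd (nat_lit 390) (nat_lit 76) (nat_lit 0) (XT.nd (nat_lit 156) (nat_lit 0) (nat_lit 0) (XT.nd (nat_lit 78) (nat_lit 0) (nat_lit 0) (XT.lf (nat_lit 0) (nat_lit 2806713010) (nat_lit 76) (nat_lit 9334640766) (nat_lit 152) (nat_lit 38044343684) (nat_lit 6) (nat_lit 5) (nat_lit 7) (nat_lit 5) (nat_lit 8) (nat_lit 4) (nat_lit 380) (nat_lit 239) (nat_lit 161)) (XT.lf (nat_lit 0) (nat_lit 8873197544) (nat_lit 76) (nat_lit 6291274272) (nat_lit 152) (nat_lit 36423527537) (nat_lit 6) (nat_lit 5) (nat_lit 7) (nat_lit 5) (nat_lit 8) (nat_lit 4) (nat_lit 381) (nat_lit 239) (nat_lit 160))) (XT.nd (nat_lit 78) (nat_lit 0) (nat_lit 0) (XT.lf (nat_lit 0) (nat_lit 15093095676) (nat_lit 76) (nat_lit 3169056643) (nat_lit 152) (nat_lit 34770712945) (nat_lit 6) (nat_lit 5) (nat_lit 7) (nat_lit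 5) (nat_lit 8) (nat_lit 4) (nat_lit 382) (nat_lit 239) (nat_lit 159)) (XT.nd (nat_lit 78) (nat_lit 0) (nat_lit 0) (XT.lf (nat_lit 0) (nat_lit 21437435940) (nat_lit 152) (nat_lit 33050049374) (nat_lit 0) (nat_lit 34062364) (nat_lit 6) (nat_lit 5) (nat_lit 8) (nat_lit 4) (nat_lit 6) (nat_lit 4) (nat_lit 383) (nat_lit 239) (nat_lit 158)) (XT.lf (nat_lit 0) (nat_lit 24724036973) (nat_lit 152) (nat_lit 28072308371) (nat_lit 0) (nat_lit 3258073850) (nat_lit 6) (nat_lit 5) (nat_lit 8) (nat_lit 4) (nat_lit 6) (nat_lit 4) (nat_lit 384) (nat_lit 239) (nat_lit 157))))) (XT.nd (nat_lit 234) (nat_lit 76) (nat_lit 0) (XT.nd (nat_lit 78) (nat_lit 0) (nat_lit 0) (XT.lf (nat_lit 0) (nat_lit 28094364295) (nat_lit 152) (nat_lit 22971734183) (nat_lit 0) (nat_lit 6567634621) (nat_lit 6) (nat_lit 5) (nat_lit 8) (nat_lit 4) (nat_lit 6) (nat_lit 4) (nat_lit 385) (nat_lit 239) (nat_lit 156)) (XT.nd (nat_lit 78) (nat_lit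 0) (nat_lit 0) (XT.lf (nat_lit 0) (nat_lit 31551362851) (nat_lit 152) (nat_lit 17743870001) (nat_lit 0) (nat_lit 9965636526) (nat_lit 6) (nat_lit 5) (nat_lit 8) (nat_lit 4) (nat_lit 6) (nat_lit 4) (nat_lit 386) (nat_lit 239) (nat_lit 155)) (XT.lf (nat_lit 0) (nat_lit 35098053321) (nat_lit 152) (nat_lit 12384147786) (nat_lit 0) (nat_lit 13455048694) (nat_lit 6) (nat_lit 5) (nat_lit 8) (nat_lit 4) (nat_lit 6) (nat_lit 4) (nat_lit 387) (nat_lit 239) (nat_lit 154)))) (XT.nd (nat_lit 78) (nat_lit 76) (nat_lit 0) (XT.lf (nat_lit 0) (nat_lit 38737534754) (nat_lit 152) (nat_lit 6887884286) (nat_lit 0) (nat_lit 17038920125) (nat_lit 6) (nat_lit 5) (nat_lit 8) (nat_lit 4) (nat_lit 6) (nat_lit 4) (nat_lit 388) (nat_lit 239) (nat_lit 153)) (XT.nd (nat_lit 78) (nat_lit 76) (nat_lit 0) (XT.lf (nat_lit 0) (nat_lit 42472987279) (nat_lit 152) (nat_lit 1250276941) (nat_lit 0) (nat_lit 20720382357) (nat_lit 6)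 (nat_lit 5) (nat_lit 8) (nat_lit 4) (nat_lit 6) (nat_lit 4) (nat_lit 389) (nat_lit 239) (nat_lit 152)) (XT.lf (nat_lit 0) (nat_lit 4623827848) (nat_lit 76) (nat_lit 41728294098) (nat_lit 76) (nat_lit 19923271415) (nat_lit 5) (nat_lit 4) (nat_lit 6) (nat_lit 5) (nat_lit 6) (nat_lit 4) (nat_lit 390) (nat_lit 239) (nat_lit 151)))))) (XT.nd (nat_lit 468) (nat_lit 76) (nat_lit 0) (XT.nd (nat_lit 234) (nat_lit 0) (nat_lit 0) (XT.nd (nat_lit 78) (nat_lit 0) (nat_lit 0) (XT.lf (nat_lit 0) (nat_lit 10677151024) (nat_lit 76) (nat_lit 39670432551) (nat_lit 76) (nat_lit 17814518839) (nat_lit 5) (nat_lit 4) (nat_lit 6) (nat_lit 5) (nat_lit 6) (nat_lit 4) (nat_lit 391) (nat_lit 239) (nat_lit 150)) (XT.nd (nat_lit 78) (nat_lit 0) (nat_lit 0) (XT.lf (nat_lit 0) (nat_lit 16890098935) (nat_lit 76) (nat_lit 37560506794) (nat_lit 76) (nat_lit 15655184315) (nat_lit 5) (nat_lit 4) (nat_lit 6) (nat_lit 5) (nat_lit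 6) (nat_lit 4) (nat_lit 392) (nat_lit 239) (nat_lit 149)) (XT.lf (nat_lit 0) (nat_lit 23268100369) (nat_lit 76) (nat_lit 35396673203) (nat_lit 76) (nat_lit 13443381047) (nat_lit 5) (nat_lit 4) (nat_lit 6) (nat_lit 5) (nat_lit 6) (nat_lit 4) (nat_lit 393) (nat_lit 239) (nat_lit 148)))) (XT.nd (nat_lit 78) (nat_lit 0) (nat_lit 0) (XT.lf (nat_lit 0) (nat_lit 29816728339) (nat_lit 76) (nat_lit 33177041048) (nat_lit 76) (nat_lit 11177176392) (nat_lit 5) (nat_lit 4) (nat_lit 6) (nat_lit 5) (nat_lit 6) (nat_lit 4) (nat_lit 394) (nat_lit 239) (nat_lit 147)) (XT.nd (nat_lit 78) (nat_lit 0) (nat_lit 0) (XT.lf (nat_lit 0) (nat_lit 36541704946) (nat_lit 76) (nat_lit 30899670847) (nat_lit 76) (nat_lit 8854590170) (nat_lit 5) (nat_lit 4) (nat_lit 6) (nat_lit 5) (nat_lit 6) (nat_lit 4) (nat_lit 395) (nat_lit 239) (nat_lit 146)) (XT.lf (nat_lit 0) (nat_lit 43448906383) (nat_lit 76) (nat_lit 28562572663) (nat_lit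 76) (nat_lit 6473592937) (nat_lit 5) (nat_lit 4) (nat_lit 6) (nat_lit 5) (nat_lit 6) (nat_lit 4) (nat_lit 396) (nat_lit 239) (nat_lit 145))))) (XT.nd (nat_lit 234) (nat_lit 0) (nat_lit 0) (XT.nd (nat_lit 78) (nat_lit 76) (nat_lit 0) (XT.lf (nat_lit 0) (nat_lit 50544368068) (nat_lit 76) (nat_lit 26163704373) (nat_lit 76) (nat_lit 4032104211) (nat_lit 5) (nat_lit 4) (nat_lit 6) (nat_lit 5) (nat_lit 6) (nat_lit 4) (nat_lit 397) (nat_lit 239) (nat_lit 144)) (XT.nd (nat_lit 78) (nat_lit 76) (nat_lit 0) (XT.lf (nat_lit 0) (nat_lit 57834289921) (nat_lit 76) (nat_lit 23700969877) (nat_lit 76) (nat_lit 1527990650) (nat_lit 5) (nat_lit 4) (nat_lit 6) (nat_lit 5) (nat_lit 6) (nat_lit 4) (nat_lit 398) (nat_lit 239) (nat_lit 143)) (XT.lf (nat_lit 0) (nat_lit 1020623396) (nat_lit 152) (nat_lit 20141287579) (nat_lit 76) (nat_lit 64294112084) (nat_lit 4) (nat_lit 5) (nat_lit 6) (nat_lit 5) (nat_lit 5) (nat_lit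 4) (nat_lit 399) (nat_lit 239) (nat_lit 142)))) (XT.nd (nat_lit 78) (nat_lit 0) (nat_lit 0) (XT.lf (nat_lit 0) (nat_lit 3605169894) (nat_lit 152) (nat_lit 14933661925) (nat_lit 76) (nat_lit 69381593907) (nat_lit 4) (nat_lit 5) (nat_lit 6) (nat_lit 5) (nat_lit 5) (nat_lit 4) (nat_lit 400) (nat_lit 239) (nat_lit 141)) (XT.nd (nat_lit 78) (nat_lit 0) (nat_lit 0) (XT.lf (nat_lit 0) (nat_lit 6257723786) (nat_lit 152) (nat_lit 9586845230) (nat_lit 76) (nat_lit 74614483433) (nat_lit 4) (nat_lit 5) (nat_lit 6) (nat_lit 5) (nat_lit 5) (nat_lit 4) (nat_lit 401) (nat_lit 239) (nat_lit 140)) (XT.lf (nat_lit 0) (nat_lit 8980602836) (nat_lit 152) (nat_lit 4096165520) (nat_lit 76) (nat_lit 79997353090) (nat_lit 4) (nat_lit 5) (nat_lit 6) (nat_lit 5) (nat_lit 5) (nat_lit 4) (nat_lit 402) (nat_lit 239) (nat_lit 139))))))) (XT.nd (nat_lit 936) (nat_lit 1596) (nat_lit 0) (XT.nd (nat_lit 468) (nat_lit 1292) (nat_lit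 0) (XT.nd (nat_lit 234) (nat_lit 760) (nat_lit 0) (XT.nd (nat_lit 78) (nat_lit 456) (nat_lit 0) (XT.lf (nat_lit 0) (nat_lit 940586468) (nat_lit 380) (nat_lit 1647725686) (nat_lit 380) (nat_lit 1647725686) (nat_lit 94) (nat_lit 4) (nat_lit 99) (nat_lit 5) (nat_lit 99) (nat_lit 4) (nat_lit 300) (nat_lit 240) (nat_lit 240)) (XT.nd (nat_lit 78) (nat_lit 456) (nat_lit 0) (XT.lf (nat_lit 0) (nat_lit 7457241578) (nat_lit 380) (nat_lit 1114702273) (nat_lit 380) (nat_lit 13891664) (nat_lit 94) (nat_lit 4) (nat_lit 99) (nat_lit 5) (nat_lit 99) (nat_lit 4) (nat_lit 301) (nat_lit 240) (nat_lit 239)) (XT.lf (nat_lit 0) (nat_lit 3269017362) (nat_lit 456) (nat_lit 4271485158) (nat_lit 0) (nat_lit 1162649622) (nat_lit 88) (nat_lit 5) (nat_lit 94) (nat_lit 4) (nat_lit 88) (nat_lit 4) (nat_lit 302) (nat_lit 240) (nat_lit 238)))) (XT.nd (nat_lit 78) (nat_lit 380) (nat_lit 0) (XT.lf (nat_lit 0) (nat_lit 1261629532)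 (nat_lit 380) (nat_lit 5338887913) (nat_lit 380) (nat_lit 2225122526) (nat_lit 83) (nat_lit 4) (nat_lit 88) (nat_lit 5) (nat_lit 88) (nat_lit 4) (nat_lit 303) (nat_lit 240) (nat_lit 237)) (XT.nd (nat_lit 78) (nat_lit 304) (nat_lit 0) (XT.lf (nat_lit 0) (nat_lit 1018781185) (nat_lit 456) (nat_lit 2023695547) (nat_lit 76) (nat_lit 5910380954) (nat_lit 82) (nat_lit 5) (nat_lit 88) (nat_lit 5) (nat_lit 83) (nat_lit 4) (nat_lit 304) (nat_lit 240) (nat_lit 236)) (XT.lf (nat_lit 0) (nat_lit 3624064170) (nat_lit 304) (nat_lit 644632591) (nat_lit 380) (nat_lit 4816084842) (nat_lit 78) (nat_lit 5) (nat_lit 82) (nat_lit 5) (nat_lit 83) (nat_lit 4) (nat_lit 305) (nat_lit 240) (nat_lit 235))))) (XT.nd (nat_lit 234) (nat_lit 608) (nat_lit 0) (XT.nd (nat_lit 78) (nat_lit 380) (nat_lit 0) (XT.lf (nat_lit 0) (nat_lit 138958609) (nat_lit 304) (nat_lit 7436345435) (nat_lit 304) (nat_lit 1646732027) (nat_lit 74)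 (nat_lit 4) (nat_lit 78) (nat_lit 5) (nat_lit 78) (nat_lit 4) (nat_lit 306) (nat_lit 240) (nat_lit 234)) (XT.nd (nat_lit 78) (nat_lit 304) (nat_lit 0) (XT.lf (nat_lit 0) (nat_lit 1568262598) (nat_lit 380) (nat_lit 3475030392) (nat_lit 76) (nat_lit 4320324948) (nat_lit 73) (nat_lit 5) (nat_lit 78) (nat_lit 5) (nat_lit 74) (nat_lit 4) (nat_lit 307) (nat_lit 240) (nat_lit 233)) (XT.lf (nat_lit 0) (nat_lit 2222139068) (nat_lit 304) (nat_lit 2568216697) (nat_lit 380) (nat_lit 4720426022) (nat_lit 69) (nat_lit 5) (nat_lit 73) (nat_lit 5) (nat_lit 74) (nat_lit 4) (nat_lit 308) (nat_lit 240) (nat_lit 232)))) (XT.nd (nat_lit 78) (nat_lit 608) (nat_lit 0) (XT.lf (nat_lit 0) (nat_lit 8056322596) (nat_lit 304) (nat_lit 11515929) (nat_lit 380) (nat_lit 1595892306) (nat_lit 69) (nat_lit 5) (nat_lit 73) (nat_lit 5) (nat_lit 74) (nat_lit 4) (nat_lit 309) (nat_lit 240) (nat_lit 231)) (XT.nd (nat_lit 78) (nat_lit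 228) (nat_lit 0) (XT.lf (nat_lit 0) (nat_lit 1581642348) (nat_lit 380) (nat_lit 5640371485) (nat_lit 76) (nat_lit 2599183457) (nat_lit 64) (nat_lit 5) (nat_lit 69) (nat_lit 5) (nat_lit 65) (nat_lit 4) (nat_lit 310) (nat_lit 240) (nat_lit 230)) (XT.lf (nat_lit 0) (nat_lit 73381150) (nat_lit 228) (nat_lit 4692177993) (nat_lit 304) (nat_lit 5219181487) (nat_lit 61) (nat_lit 5) (nat_lit 64) (nat_lit 5) (nat_lit 65) (nat_lit 4) (nat_lit 311) (nat_lit 240) (nat_lit 229)))))) (XT.nd (nat_lit 468) (nat_lit 684) (nat_lit 0) (XT.nd (nat_lit 234) (nat_lit 532) (nat_lit 0) (XT.nd (nat_lit 78) (nat_lit 380) (nat_lit 0) (XT.lf (nat_lit 0) (nat_lit 5970463723) (nat_lit 228) (nat_lit 2058567375) (nat_lit 304) (nat_lit 2124755399) (nat_lit 61) (nat_lit 5) (nat_lit 64) (nat_lit 5) (nat_lit 65) (nat_lit 4) (nat_lit 312) (nat_lit 240) (nat_lit 228)) (XT.nd (nat_lit 78) (nat_lit 0) (nat_lit 0) (XT.lf (nat_lit 0)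 (nat_lit 992138760) (nat_lit 380) (nat_lit 8699587294) (nat_lit 76) (nat_lit 637470843) (nat_lit 56) (nat_lit 5) (nat_lit 61) (nat_lit 5) (nat_lit 57) (nat_lit 4) (nat_lit 313) (nat_lit 240) (nat_lit 227)) (XT.lf (nat_lit 0) (nat_lit 4152087264) (nat_lit 380) (nat_lit 2950900353) (nat_lit 76) (nat_lit 3406590684) (nat_lit 56) (nat_lit 5) (nat_lit 61) (nat_lit 5) (nat_lit 57) (nat_lit 4) (nat_lit 314) (nat_lit 240) (nat_lit 226)))) (XT.nd (nat_lit 78) (nat_lit 304) (nat_lit 0) (XT.lf (nat_lit 0) (nat_lit 2927227437) (nat_lit 228) (nat_lit 4439016480) (nat_lit 304) (nat_lit 3330449206) (nat_lit 53) (nat_lit 5) (nat_lit 56) (nat_lit 5) (nat_lit 57) (nat_lit 4) (nat_lit 315) (nat_lit 240) (nat_lit 225)) (XT.nd (nat_lit 78) (nat_lit 304) (nat_lit 0) (XT.lf (nat_lit 0) (nat_lit 8943030886) (nat_lit 228) (nat_lit 1695912714) (nat_lit 304) (nat_lit 251715471) (nat_lit 53) (nat_lit 5) (nat_lit 56) (nat_lit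 5) (nat_lit 57) (nat_lit 4) (nat_lit 316) (nat_lit 240) (nat_lit 224)) (XT.lf (nat_lit 0) (nat_lit 2845634604) (nat_lit 304) (nat_lit 7100562498) (nat_lit 76) (nat_lit 1144003771) (nat_lit 49) (nat_lit 5) (nat_lit 53) (nat_lit 5) (nat_lit 50) (nat_lit 4) (nat_lit 317) (nat_lit 240) (nat_lit 223))))) (XT.nd (nat_lit 234) (nat_lit 380) (nat_lit 0) (XT.nd (nat_lit 78) (nat_lit 304) (nat_lit 0) (XT.lf (nat_lit 0) (nat_lit 6001748528) (nat_lit 304) (nat_lit 1268156035) (nat_lit 76) (nat_lit 4026715164) (nat_lit 49) (nat_lit 5) (nat_lit 53) (nat_lit 5) (nat_lit 50) (nat_lit 4) (nat_lit 318) (nat_lit 240) (nat_lit 222)) (XT.nd (nat_lit 78) (nat_lit 76) (nat_lit 0) (XT.lf (nat_lit 0) (nat_lit 4736021644) (nat_lit 228) (nat_lit 4498214238) (nat_lit 304) (nat_lit 2275634504) (nat_lit 46) (nat_lit 5) (nat_lit 49) (nat_lit 5) (nat_lit 50) (nat_lit 4) (nat_lit 319) (nat_lit 240) (nat_lit 221)) (XT.lf (nat_lit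 0) (nat_lit 767239511) (nat_lit 304) (nat_lit 886990039) (nat_lit 76) (nat_lit 10076653094) (nat_lit 45) (nat_lit 5) (nat_lit 49) (nat_lit 5) (nat_lit 46) (nat_lit 5) (nat_lit 320) (nat_lit 240) (nat_lit 220)))) (XT.nd (nat_lit 78) (nat_lit 152) (nat_lit 0) (XT.lf (nat_lit 0) (nat_lit 3856202597) (nat_lit 304) (nat_lit 6809536252) (nat_lit 76) (nat_lit 1292176575) (nat_lit 42) (nat_lit 5) (nat_lit 46) (nat_lit 5) (nat_lit 43) (nat_lit 4) (nat_lit 321) (nat_lit 240) (nat_lit 219)) (XT.nd (nat_lit 78) (nat_lit 152) (nat_lit 0) (XT.lf (nat_lit 0) (nat_lit 7002124483) (nat_lit 304) (nat_lit 918887713) (nat_lit 76) (nat_lit 4271898207) (nat_lit 42) (nat_lit 5) (nat_lit 46) (nat_lit 5) (nat_lit 43) (nat_lit 4) (nat_lit 322) (nat_lit 240) (nat_lit 218)) (XT.lf (nat_lit 0) (nat_lit 5157944010) (nat_lit 152) (nat_lit 5074707788) (nat_lit 228) (nat_lit 2202674185) (nat_lit 40) (nat_lit 5) (nat_lit 42)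 (nat_lit 5) (nat_lit 43) (nat_lit 4) (nat_lit 323) (nat_lit 240) (nat_lit 217))))))))
noncomputable def xc58 : XT := (XT.nd (nat_lit 1794) (nat_lit 608) (nat_lit 0) (XT.nd (nat_lit 858) (nat_lit 684) (nat_lit 0) (XT.nd (nat_lit 390) (nat_lit 608) (nat_lit 0) (XT.nd (nat_lit 156) (nat_lit 152) (nat_lit 0) (XT.nd (nat_lit 78) (nat_lit 228) (nat_lit 0) (XT.lf (nat_lit 0) (nat_lit 808230024) (nat_lit 228) (nat_lit 1348864962) (nat_lit 76) (nat_lit 10529233068) (nat_lit 39) (nat_lit 5) (nat_lit 42) (nat_lit 5) (nat_lit 40) (nat_lit 5) (nat_lit 324) (nat_lit 240) (nat_lit 216)) (XT.lf (nat_lit 0) (nat_lit 3861840412) (nat_lit 304) (nat_lit 8213846014) (nat_lit 76) (nat_lit 868690985) (nat_lit 36) (nat_lit 5) (nat_lit 40) (nat_lit 5) (nat_lit 37) (nat_lit 4) (nat_lit 325) (nat_lit 240) (nat_lit 215))) (XT.nd (nat_lit 78) (nat_lit 152) (nat_lit 0) (XT.lf (nat_lit 0) (nat_lit 6985273839) (nat_lit 304)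 (nat_lit 2300761685) (nat_lit 76) (nat_lit 3924855217) (nat_lit 36) (nat_lit 5) (nat_lit 40) (nat_lit 5) (nat_lit 37) (nat_lit 4) (nat_lit 326) (nat_lit 240) (nat_lit 214)) (XT.nd (nat_lit 78) (nat_lit 0) (nat_lit 0) (XT.lf (nat_lit 0) (nat_lit 3776545207) (nat_lit 152) (nat_lit 6406926358) (nat_lit 228) (nat_lit 3302562991) (nat_lit 34) (nat_lit 5) (nat_lit 36) (nat_lit 5) (nat_lit 37) (nat_lit 4) (nat_lit 327) (nat_lit 240) (nat_lit 213)) (XT.lf (nat_lit 0) (nat_lit 9997322308) (nat_lit 152) (nat_lit 3449067094) (nat_lit 228) (nat_lit 324045035) (nat_lit 34) (nat_lit 5) (nat_lit 36) (nat_lit 5) (nat_lit 37) (nat_lit 4) (nat_lit 328) (nat_lit 240) (nat_lit 212))))) (XT.nd (nat_lit 234) (nat_lit 228) (nat_lit 0) (XT.nd (nat_lit 78) (nat_lit 152) (nat_lit 0) (XT.lf (nat_lit 0) (nat_lit 2274737047) (nat_lit 152) (nat_lit 383957434) (nat_lit 228) (nat_lit 11404889580) (nat_lit 31) (nat_lit 5) (nat_lit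 33) (nat_lit 5) (nat_lit 34) (nat_lit 5) (nat_lit 329) (nat_lit 240) (nat_lit 211)) (XT.nd (nat_lit 78) (nat_lit 152) (nat_lit 0) (XT.lf (nat_lit 0) (nat_lit 5736532654) (nat_lit 228) (nat_lit 5898405069) (nat_lit 76) (nat_lit 2730189779) (nat_lit 31) (nat_lit 5) (nat_lit 34) (nat_lit 5) (nat_lit 32) (nat_lit 4) (nat_lit 330) (nat_lit 240) (nat_lit 210)) (XT.lf (nat_lit 0) (nat_lit 83921790) (nat_lit 152) (nat_lit 8775930695) (nat_lit 228) (nat_lit 5817328095) (nat_lit 29) (nat_lit 5) (nat_lit 31) (nat_lit 5) (nat_lit 32) (nat_lit 4) (nat_lit 331) (nat_lit 240) (nat_lit 209)))) (XT.nd (nat_lit 78) (nat_lit 228) (nat_lit 0) (XT.lf (nat_lit 0) (nat_lit 6284776009) (nat_lit 152) (nat_lit 5800908531) (nat_lit 228) (nat_lit 2912702381) (nat_lit 29) (nat_lit 5) (nat_lit 31) (nat_lit 5) (nat_lit 32) (nat_lit 4) (nat_lit 332) (nat_lit 240) (nat_lit 208)) (XT.nd (nat_lit 78) (nat_lit 152) (nat_lit 0)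 (XT.lf (nat_lit 0) (nat_lit 27706574) (nat_lit 228) (nat_lit 2738847667) (nat_lit 76) (nat_lit 12564199626) (nat_lit 28) (nat_lit 5) (nat_lit 31) (nat_lit 5) (nat_lit 29) (nat_lit 5) (nat_lit 333) (nat_lit 240) (nat_lit 207)) (XT.lf (nat_lit 0) (nat_lit 2985625755) (nat_lit 228) (nat_lit 12302535729) (nat_lit 76) (nat_lit 384481260) (nat_lit 26) (nat_lit 5) (nat_lit 29) (nat_lit 5) (nat_lit 27) (nat_lit 4) (nat_lit 334) (nat_lit 240) (nat_lit 206)))))) (XT.nd (nat_lit 468) (nat_lit 304) (nat_lit 0) (XT.nd (nat_lit 234) (nat_lit 228) (nat_lit 0) (XT.nd (nat_lit 78) (nat_lit 152) (nat_lit 0) (XT.lf (nat_lit 0) (nat_lit 6039622085) (nat_lit 228) (nat_lit 6411747818) (nat_lit 76) (nat_lit 3573247995) (nat_lit 26) (nat_lit 5) (nat_lit 29) (nat_lit 5) (nat_lit 27) (nat_lit 4) (nat_lit 335) (nat_lit 240) (nat_lit 205)) (XT.nd (nat_lit 78) (nat_lit 152) (nat_lit 0) (XT.lf (nat_lit 0) (nat_lit 9138652991)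 (nat_lit 228) (nat_lit 420544827) (nat_lit 76) (nat_lit 6829400397) (nat_lit 26) (nat_lit 5) (nat_lit 29) (nat_lit 5) (nat_lit 27) (nat_lit 4) (nat_lit 336) (nat_lit 240) (nat_lit 204)) (XT.lf (nat_lit 0) (nat_lit 5789277938) (nat_lit 152) (nat_lit 6551798505) (nat_lit 228) (nat_lit 4422155791) (nat_lit 24) (nat_lit 5) (nat_lit 26) (nat_lit 5) (nat_lit 27) (nat_lit 4) (nat_lit 337) (nat_lit 240) (nat_lit 203)))) (XT.nd (nat_lit 78) (nat_lit 228) (nat_lit 0) (XT.lf (nat_lit 0) (nat_lit 12120656499) (nat_lit 152) (nat_lit 3478546473) (nat_lit 228) (nat_lit 1551158963) (nat_lit 24) (nat_lit 5) (nat_lit 26) (nat_lit 5) (nat_lit 27) (nat_lit 4) (nat_lit 338) (nat_lit 240) (nat_lit 202)) (XT.nd (nat_lit 78) (nat_lit 0) (nat_lit 0) (XT.lf (nat_lit 0) (nat_lit 1027264087) (nat_lit 152) (nat_lit 317353815) (nat_lit 228) (nat_lit 16205142562) (nat_lit 21) (nat_lit 5) (nat_lit 23) (nat_lit 5) (nat_lit 24)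 (nat_lit 5) (nat_lit 339) (nat_lit 240) (nat_lit 201)) (XT.lf (nat_lit 0) (nat_lit 4332161042) (nat_lit 228) (nat_lit 10707176263) (nat_lit 76) (nat_lit 2920302518) (nat_lit 21) (nat_lit 5) (nat_lit 24) (nat_lit 5) (nat_lit 22) (nat_lit 4) (nat_lit 340) (nat_lit 240) (nat_lit 200))))) (XT.nd (nat_lit 234) (nat_lit 228) (nat_lit 0) (XT.nd (nat_lit 78) (nat_lit 76) (nat_lit 0) (XT.lf (nat_lit 0) (nat_lit 7370267112) (nat_lit 228) (nat_lit 4790923636) (nat_lit 76) (nat_lit 6221837207) (nat_lit 21) (nat_lit 5) (nat_lit 24) (nat_lit 5) (nat_lit 22) (nat_lit 4) (nat_lit 341) (nat_lit 240) (nat_lit 199)) (XT.nd (nat_lit 78) (nat_lit 0) (nat_lit 0) (XT.lf (nat_lit 0) (nat_lit 1259050247) (nat_lit 76) (nat_lit 9211592680) (nat_lit 152) (nat_lit 8349380318) (nat_lit 20) (nat_lit 5) (nat_lit 21) (nat_lit 5) (nat_lit 22) (nat_lit 4) (nat_lit 342) (nat_lit 240) (nat_lit 198)) (XT.lf (nat_lit 0) (nat_lit 7521067609)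 (nat_lit 76) (nat_lit 6150908192) (nat_lit 152) (nat_lit 5597952388) (nat_lit 20) (nat_lit 5) (nat_lit 21) (nat_lit 5) (nat_lit 22) (nat_lit 4) (nat_lit 343) (nat_lit 240) (nat_lit 197)))) (XT.nd (nat_lit 78) (nat_lit 228) (nat_lit 0) (XT.lf (nat_lit 0) (nat_lit 13905251339) (nat_lit 76) (nat_lit 3024841834) (nat_lit 152) (nat_lit 2804451826) (nat_lit 20) (nat_lit 5) (nat_lit 21) (nat_lit 5) (nat_lit 22) (nat_lit 4) (nat_lit 344) (nat_lit 240) (nat_lit 196)) (XT.nd (nat_lit 78) (nat_lit 0) (nat_lit 0) (XT.lf (nat_lit 0) (nat_lit 36544060) (nat_lit 228) (nat_lit 20009251765) (nat_lit 76) (nat_lit 168365049) (nat_lit 17) (nat_lit 5) (nat_lit 20) (nat_lit 5) (nat_lit 18) (nat_lit 4) (nat_lit 345) (nat_lit 240) (nat_lit 195)) (XT.lf (nat_lit 0) (nat_lit 2957532642) (nat_lit 228) (nat_lit 14289939495) (nat_lit 76) (nat_lit 3458360108) (nat_lit 17) (nat_lit 5) (nat_lit 20) (nat_lit 5) (nat_lit 18)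 (nat_lit 4) (nat_lit 346) (nat_lit 240) (nat_lit 194))))))) (XT.nd (nat_lit 858) (nat_lit 228) (nat_lit 0) (XT.nd (nat_lit 390) (nat_lit 304) (nat_lit 0) (XT.nd (nat_lit 156) (nat_lit 76) (nat_lit 0) (XT.nd (nat_lit 78) (nat_lit 0) (nat_lit 0) (XT.lf (nat_lit 0) (nat_lit 5928998788) (nat_lit 228) (nat_lit 8462032687) (nat_lit 76) (nat_lit 6822369768) (nat_lit 17) (nat_lit 5) (nat_lit 20) (nat_lit 5) (nat_lit 18) (nat_lit 4) (nat_lit 347) (nat_lit 240) (nat_lit 193)) (XT.lf (nat_lit 0) (nat_lit 8953538924) (nat_lit 228) (nat_lit 2520438996) (nat_lit 76) (nat_lit 10263333455) (nat_lit 17) (nat_lit 5) (nat_lit 20) (nat_lit 5) (nat_lit 18) (nat_lit 4) (nat_lit 348) (nat_lit 240) (nat_lit 192))) (XT.nd (nat_lit 78) (nat_lit 0) (nat_lit 0) (XT.lf (nat_lit 0) (nat_lit 3610486866) (nat_lit 76) (nat_lit 8458015195) (nat_lit 152) (nat_lit 10208477179) (nat_lit 16) (nat_lit 5) (nat_lit 17) (nat_lit 5) (nat_lit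 18) (nat_lit 4) (nat_lit 349) (nat_lit 240) (nat_lit 191)) (XT.nd (nat_lit 78) (nat_lit 0) (nat_lit 0) (XT.lf (nat_lit 0) (nat_lit 9918219840) (nat_lit 76) (nat_lit 5349581216) (nat_lit 152) (nat_lit 7565339605) (nat_lit 16) (nat_lit 5) (nat_lit 17) (nat_lit 5) (nat_lit 18) (nat_lit 4) (nat_lit 350) (nat_lit 240) (nat_lit 190)) (XT.lf (nat_lit 0) (nat_lit 16358109861) (nat_lit 76) (nat_lit 2171411367) (nat_lit 152) (nat_lit 4877501682) (nat_lit 16) (nat_lit 5) (nat_lit 17) (nat_lit 5) (nat_lit 18) (nat_lit 4) (nat_lit 351) (nat_lit 240) (nat_lit 189))))) (XT.nd (nat_lit 234) (nat_lit 76) (nat_lit 0) (XT.nd (nat_lit 78) (nat_lit 228) (nat_lit 0) (XT.lf (nat_lit 0) (nat_lit 21866887240) (nat_lit 152) (nat_lit 1073718040) (nat_lit 0) (nat_lit 1058210919) (nat_lit 16) (nat_lit 5) (nat_lit 18) (nat_lit 4) (nat_lit 16) (nat_lit 4) (nat_lit 352) (nat_lit 240) (nat_lit 188)) (XT.nd (nat_lit 78) (nat_lit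 0) (nat_lit 0) (XT.lf (nat_lit 0) (nat_lit 721505602) (nat_lit 228) (nat_lit 19510028409) (nat_lit 76) (nat_lit 4375483041) (nat_lit 13) (nat_lit 5) (nat_lit 16) (nat_lit 5) (nat_lit 14) (nat_lit 4) (nat_lit 353) (nat_lit 240) (nat_lit 187)) (XT.lf (nat_lit 0) (nat_lit 3596869486) (nat_lit 228) (nat_lit 13834212989) (nat_lit 76) (nat_lit 7802398921) (nat_lit 13) (nat_lit 5) (nat_lit 16) (nat_lit 5) (nat_lit 14) (nat_lit 4) (nat_lit 354) (nat_lit 240) (nat_lit 186)))) (XT.nd (nat_lit 78) (nat_lit 76) (nat_lit 0) (XT.lf (nat_lit 0) (nat_lit 6527645885) (nat_lit 228) (nat_lit 8041215795) (nat_lit 76) (nat_lit 11310828674) (nat_lit 13) (nat_lit 5) (nat_lit 16) (nat_lit 5) (nat_lit 14) (nat_lit 4) (nat_lit 355) (nat_lit 240) (nat_lit 185)) (XT.nd (nat_lit 78) (nat_lit 76) (nat_lit 0) (XT.lf (nat_lit 0) (nat_lit 9516395673) (nat_lit 228) (nat_lit 2125974985) (nat_lit 76) (nat_lit 14903837919) (nat_lit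 13) (nat_lit 5) (nat_lit 16) (nat_lit 5) (nat_lit 14) (nat_lit 4) (nat_lit 356) (nat_lit 240) (nat_lit 184)) (XT.lf (nat_lit 0) (nat_lit 3994627671) (nat_lit 76) (nat_lit 8609501511) (nat_lit 152) (nat_lit 14628337310) (nat_lit 12) (nat_lit 5) (nat_lit 13) (nat_lit 5) (nat_lit 14) (nat_lit 4) (nat_lit 357) (nat_lit 240) (nat_lit 183)))))) (XT.nd (nat_lit 468) (nat_lit 76) (nat_lit 0) (XT.nd (nat_lit 234) (nat_lit 152) (nat_lit 0) (XT.nd (nat_lit 78) (nat_lit 0) (nat_lit 0) (XT.lf (nat_lit 0) (nat_lit 10292874497) (nat_lit 76) (nat_lit 5484381376) (nat_lit 152) (nat_lit 12162296529) (nat_lit 12) (nat_lit 5) (nat_lit 13) (nat_lit 5) (nat_lit 14) (nat_lit 4) (nat_lit 358) (nat_lit 240) (nat_lit 182)) (XT.nd (nat_lit 78) (nat_lit 0) (nat_lit 0) (XT.lf (nat_lit 0) (nat_lit 16731957742) (nat_lit 76) (nat_lit 2285747746) (nat_lit 152) (nat_lit 9651003947) (nat_lit 12) (nat_lit 5) (nat_lit 13) (nat_lit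 5) (nat_lit 14) (nat_lit 4) (nat_lit 359) (nat_lit 240) (nat_lit 181)) (XT.lf (nat_lit 0) (nat_lit 22337818229) (nat_lit 152) (nat_lit 6112579669) (nat_lit 0) (nat_lit 969891558) (nat_lit 12) (nat_lit 5) (nat_lit 14) (nat_lit 4) (nat_lit 12) (nat_lit 4) (nat_lit 360) (nat_lit 240) (nat_lit 180)))) (XT.nd (nat_lit 78) (nat_lit 152) (nat_lit 0) (XT.lf (nat_lit 0) (nat_lit 25753711152) (nat_lit 152) (nat_lit 182288735) (nat_lit 0) (nat_lit 4258552818) (nat_lit 12) (nat_lit 5) (nat_lit 14) (nat_lit 4) (nat_lit 12) (nat_lit 4) (nat_lit 361) (nat_lit 240) (nat_lit 179)) (XT.nd (nat_lit 78) (nat_lit 76) (nat_lit 0) (XT.lf (nat_lit 0) (nat_lit 5998323821) (nat_lit 76) (nat_lit 23305732748) (nat_lit 76) (nat_lit 1687048528) (nat_lit 11) (nat_lit 4) (nat_lit 12) (nat_lit 5) (nat_lit 12) (nat_lit 4) (nat_lit 362) (nat_lit 240) (nat_lit 178)) (XT.lf (nat_lit 0) (nat_lit 1103157887) (nat_lit 152) (nat_lit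 19499201754) (nat_lit 76) (nat_lit 11209595477) (nat_lit 10) (nat_lit 5) (nat_lit 12) (nat_lit 5) (nat_lit 11) (nat_lit 4) (nat_lit 363) (nat_lit 240) (nat_lit 177))))) (XT.nd (nat_lit 234) (nat_lit 76) (nat_lit 0) (XT.nd (nat_lit 78) (nat_lit 0) (nat_lit 0) (XT.lf (nat_lit 0) (nat_lit 3918277766) (nat_lit 152) (nat_lit 13900943393) (nat_lit 76) (nat_lit 14838473693) (nat_lit 10) (nat_lit 5) (nat_lit 12) (nat_lit 5) (nat_lit 11) (nat_lit 4) (nat_lit 364) (nat_lit 240) (nat_lit 176)) (XT.nd (nat_lit 78) (nat_lit 0) (nat_lit 0) (XT.lf (nat_lit 0) (nat_lit 6793691317) (nat_lit 152) (nat_lit 8176897570) (nat_lit 76) (nat_lit 18558960920) (nat_lit 10) (nat_lit 5) (nat_lit 12) (nat_lit 5) (nat_lit 11) (nat_lit 4) (nat_lit 365) (nat_lit 240) (nat_lit 175)) (XT.lf (nat_lit 0) (nat_lit 9731911035) (nat_lit 152) (nat_lit 2322062692) (nat_lit 76) (nat_lit 22374308067) (nat_lit 10) (nat_lit 5) (nat_lit 12)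 (nat_lit 5) (nat_lit 11) (nat_lit 4) (nat_lit 366) (nat_lit 240) (nat_lit 174)))) (XT.nd (nat_lit 78) (nat_lit 0) (nat_lit 0) (XT.lf (nat_lit 0) (nat_lit 3741690985) (nat_lit 76) (nat_lit 9029780735) (nat_lit 152) (nat_lit 22582125371) (nat_lit 9) (nat_lit 5) (nat_lit 10) (nat_lit 5) (nat_lit 11) (nat_lit 4) (nat_lit 367) (nat_lit 240) (nat_lit 173)) (XT.nd (nat_lit 78) (nat_lit 0) (nat_lit 0) (XT.lf (nat_lit 0) (nat_lit 9995606775) (nat_lit 76) (nat_lit 5907572716) (nat_lit 152) (nat_lit 20403480231) (nat_lit 9) (nat_lit 5) (nat_lit 10) (nat_lit 5) (nat_lit 11) (nat_lit 4) (nat_lit 368) (nat_lit 240) (nat_lit 172)) (XT.lf (nat_lit 0) (nat_lit 16398935663) (nat_lit 76) (nat_lit 2708069807) (nat_lit 152) (nat_lit 18181979947) (nat_lit 9) (nat_lit 5) (nat_lit 10) (nat_lit 5) (nat_lit 11) (nat_lit 4) (nat_lit 369) (nat_lit 240) (nat_lit 171))))))))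
noncomputable def xc59 : XT := (XT.nd (nat_lit 1794) (nat_lit 76) (nat_lit 0) (XT.nd (nat_lit 858) (nat_lit 152) (nat_lit 0) (XT.nd (nat_lit 390) (nat_lit 76) (nat_lit 0) (XT.nd (nat_lit 156) (nat_lit 76) (nat_lit 0) (XT.nd (nat_lit 78) (nat_lit 0) (nat_lit 0) (XT.lf (nat_lit 0) (nat_lit 22391242953) (nat_lit 152) (nat_lit 15349653566) (nat_lit 0) (nat_lit 560371188) (nat_lit 9) (nat_lit 5) (nat_lit 11) (nat_lit 4) (nat_lit 9) (nat_lit 4) (nat_lit 370) (nat_lit 240) (nat_lit 170)) (XT.lf (nat_lit 0) (nat_lit 25780092075) (nat_lit 152) (nat_lit 9706353672) (nat_lit 0) (nat_lit 3857305449) (nat_lit 9) (nat_lit 5) (nat_lit 11) (nat_lit 4) (nat_lit 9) (nat_lit 4) (nat_lit 371) (nat_lit 240) (nat_lit 169))) (XT.nd (nat_lit 78) (nat_lit 76) (nat_lit 0) (XT.lf (nat_lit 0) (nat_lit 29250482343) (nat_lit 152) (nat_lit 3929187410) (nat_lit 0) (nat_lit 7238457989) (nat_lit 9) (nat_lit 5) (nat_lit 11) (nat_lit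 4) (nat_lit 9) (nat_lit 4) (nat_lit 372) (nat_lit 240) (nat_lit 168)) (XT.nd (nat_lit 78) (nat_lit 0) (nat_lit 0) (XT.lf (nat_lit 0) (nat_lit 2026436299) (nat_lit 76) (nat_lit 30798489182) (nat_lit 76) (nat_lit 8699826257) (nat_lit 8) (nat_lit 4) (nat_lit 9) (nat_lit 5) (nat_lit 9) (nat_lit 4) (nat_lit 373) (nat_lit 240) (nat_lit 167)) (XT.lf (nat_lit 0) (nat_lit 8207209860) (nat_lit 76) (nat_lit 28319772596) (nat_lit 76) (nat_lit 6136994553) (nat_lit 8) (nat_lit 4) (nat_lit 9) (nat_lit 5) (nat_lit 9) (nat_lit 4) (nat_lit 374) (nat_lit 240) (nat_lit 166))))) (XT.nd (nat_lit 234) (nat_lit 0) (nat_lit 0) (XT.nd (nat_lit 78) (nat_lit 76) (nat_lit 0) (XT.lf (nat_lit 0) (nat_lit 14540335415) (nat_lit 76) (nat_lit 25781031214) (nat_lit 76) (nat_lit 3516588008) (nat_lit 8) (nat_lit 4) (nat_lit 9) (nat_lit 5) (nat_lit 9) (nat_lit 4) (nat_lit 375) (nat_lit 240) (nat_lit 165)) (XT.nd (nat_lit 78) (nat_lit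 76) (nat_lit 0) (XT.lf (nat_lit 0) (nat_lit 21031346762) (nat_lit 76) (nat_lit 23180046719) (nat_lit 76) (nat_lit 836316947) (nat_lit 8) (nat_lit 4) (nat_lit 9) (nat_lit 5) (nat_lit 9) (nat_lit 4) (nat_lit 376) (nat_lit 240) (nat_lit 164)) (XT.lf (nat_lit 0) (nat_lit 1868964554) (nat_lit 152) (nat_lit 18626708974) (nat_lit 76) (nat_lit 25798078227) (nat_lit 7) (nat_lit 5) (nat_lit 9) (nat_lit 5) (nat_lit 8) (nat_lit 4) (nat_lit 377) (nat_lit 240) (nat_lit 163)))) (XT.nd (nat_lit 78) (nat_lit 0) (nat_lit 0) (XT.lf (nat_lit 0) (nat_lit 4621268706) (nat_lit 152) (nat_lit 13114266737) (nat_lit 76) (nat_lit 29841922317) (nat_lit 7) (nat_lit 5) (nat_lit 9) (nat_lit 5) (nat_lit 8) (nat_lit 4) (nat_lit 378) (nat_lit 240) (nat_lit 162)) (XT.nd (nat_lit 78) (nat_lit 0) (nat_lit 0) (XT.lf (nat_lit 0) (nat_lit 7439319991) (nat_lit 152) (nat_lit 7466181069) (nat_lit 76) (nat_lit 33994690248) (nat_lit 7) (nat_lit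 5) (nat_lit 9) (nat_lit 5) (nat_lit 8) (nat_lit 4) (nat_lit 379) (nat_lit 240) (nat_lit 161)) (XT.lf (nat_lit 0) (nat_lit 10325580782) (nat_lit 152) (nat_lit 1677516750) (nat_lit 76) (nat_lit 38260010650) (nat_lit 7) (nat_lit 5) (nat_lit 9) (nat_lit 5) (nat_lit 8) (nat_lit 4) (nat_lit 380) (nat_lit 240) (nat_lit 160)))))) (XT.nd (nat_lit 468) (nat_lit 76) (nat_lit 0) (XT.nd (nat_lit 234) (nat_lit 0) (nat_lit 0) (XT.nd (nat_lit 78) (nat_lit 0) (nat_lit 0) (XT.lf (nat_lit 0) (nat_lit 4341502631) (nat_lit 76) (nat_lit 8982803604) (nat_lit 152) (nat_lit 38341841050) (nat_lit 6) (nat_lit 5) (nat_lit 7) (nat_lit 5) (nat_lit 8) (nat_lit 4) (nat_lit 381) (nat_lit 240) (nat_lit 159)) (XT.nd (nat_lit 78) (nat_lit 0) (nat_lit 0) (XT.lf (nat_lit 0) (nat_lit 10547731559) (nat_lit 76) (nat_lit 5866540281) (nat_lit 152) (nat_lit 36696978077) (nat_lit 6) (nat_lit 5) (nat_lit 7) (nat_lit 5) (nat_lit 8) (nat_lit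 4) (nat_lit 382) (nat_lit 240) (nat_lit 158)) (XT.lf (nat_lit 0) (nat_lit 16913207078) (nat_lit 76) (nat_lit 2668524246) (nat_lit 152) (nat_lit 35018440852) (nat_lit 6) (nat_lit 5) (nat_lit 7) (nat_lit 5) (nat_lit 8) (nat_lit 4) (nat_lit 383) (nat_lit 240) (nat_lit 157)))) (XT.nd (nat_lit 78) (nat_lit 0) (nat_lit 0) (XT.lf (nat_lit 0) (nat_lit 22835354889) (nat_lit 152) (nat_lit 32696626325) (nat_lit 0) (nat_lit 602056774) (nat_lit 6) (nat_lit 5) (nat_lit 8) (nat_lit 4) (nat_lit 6) (nat_lit 4) (nat_lit 384) (nat_lit 240) (nat_lit 156)) (XT.nd (nat_lit 78) (nat_lit 0) (nat_lit 0) (XT.lf (nat_lit 0) (nat_lit 26198569607) (nat_lit 152) (nat_lit 27608725650) (nat_lit 0) (nat_lit 3906274841) (nat_lit 6) (nat_lit 5) (nat_lit 8) (nat_lit 4) (nat_lit 6) (nat_lit 4) (nat_lit 385) (nat_lit 240) (nat_lit 155)) (XT.lf (nat_lit 0) (nat_lit 29648662723) (nat_lit 152) (nat_lit 22393165848) (nat_lit 0) (nat_lit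 7299089655) (nat_lit 6) (nat_lit 5) (nat_lit 8) (nat_lit 4) (nat_lit 6) (nat_lit 4) (nat_lit 386) (nat_lit 240) (nat_lit 154))))) (XT.nd (nat_lit 234) (nat_lit 76) (nat_lit 0) (XT.nd (nat_lit 78) (nat_lit 0) (nat_lit 0) (XT.lf (nat_lit 0) (nat_lit 33188648882) (nat_lit 152) (nat_lit 17045389634) (nat_lit 0) (nat_lit 10783465812) (nat_lit 6) (nat_lit 5) (nat_lit 8) (nat_lit 4) (nat_lit 6) (nat_lit 4) (nat_lit 387) (nat_lit 240) (nat_lit 153)) (XT.nd (nat_lit 78) (nat_lit 0) (nat_lit 0) (XT.lf (nat_lit 0) (nat_lit 36821621276) (nat_lit 152) (nat_lit 11560724193) (nat_lit 0) (nat_lit 14362447912) (nat_lit 6) (nat_lit 5) (nat_lit 8) (nat_lit 4) (nat_lit 6) (nat_lit 4) (nat_lit 388) (nat_lit 240) (nat_lit 152)) (XT.lf (nat_lit 0) (nat_lit 40550754345) (nat_lit 152) (nat_lit 5934377100) (nat_lit 0) (nat_lit 18039163221) (nat_lit 6) (nat_lit 5) (nat_lit 8) (nat_lit 4) (nat_lit 6) (nat_lit 4) (nat_lit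 389) (nat_lit 240) (nat_lit 151)))) (XT.nd (nat_lit 78) (nat_lit 76) (nat_lit 0) (XT.lf (nat_lit 0) (nat_lit 44379306556) (nat_lit 152) (nat_lit 161432128) (nat_lit 0) (nat_lit 21816824403) (nat_lit 6) (nat_lit 5) (nat_lit 8) (nat_lit 4) (nat_lit 6) (nat_lit 4) (nat_lit 390) (nat_lit 240) (nat_lit 150)) (XT.nd (nat_lit 78) (nat_lit 0) (nat_lit 0) (XT.lf (nat_lit 0) (nat_lit 5877853127) (nat_lit 76) (nat_lit 42489271639) (nat_lit 76) (nat_lit 19877380719) (nat_lit 5) (nat_lit 4) (nat_lit 6) (nat_lit 5) (nat_lit 6) (nat_lit 4) (nat_lit 391) (nat_lit 240) (nat_lit 149)) (XT.lf (nat_lit 0) (nat_lit 12080291228) (nat_lit 76) (nat_lit 40383971467) (nat_lit 76) (nat_lit 17724110871) (nat_lit 5) (nat_lit 4) (nat_lit 6) (nat_lit 5) (nat_lit 6) (nat_lit 4) (nat_lit 392) (nat_lit 240) (nat_lit 148))))))) (XT.nd (nat_lit 33384) (nat_lit 0) (nat_lit 4560) (XT.nd (nat_lit 468) (nat_lit 76) (nat_lit 0) (XT.nd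 (nat_lit 234) (nat_lit 0) (nat_lit 0) (XT.nd (nat_lit 78) (nat_lit 0) (nat_lit 0) (XT.lf (nat_lit 0) (nat_lit 18448088964) (nat_lit 76) (nat_lit 38224628735) (nat_lit 76) (nat_lit 15518195638) (nat_lit 5) (nat_lit 4) (nat_lit 6) (nat_lit 5) (nat_lit 6) (nat_lit 4) (nat_lit 393) (nat_lit 240) (nat_lit 147)) (XT.nd (nat_lit 78) (nat_lit 0) (nat_lit 0) (XT.lf (nat_lit 0) (nat_lit 24986810430) (nat_lit 76) (nat_lit 36009356639) (nat_lit 76) (nat_lit 13257707521) (nat_lit 5) (nat_lit 4) (nat_lit 6) (nat_lit 5) (nat_lit 6) (nat_lit 4) (nat_lit 394) (nat_lit 240) (nat_lit 146)) (XT.lf (nat_lit 0) (nat_lit 31702169073) (nat_lit 76) (nat_lit 33736219504) (nat_lit 76) (nat_lit 10940671337) (nat_lit 5) (nat_lit 4) (nat_lit 6) (nat_lit 5) (nat_lit 6) (nat_lit 4) (nat_lit 395) (nat_lit 240) (nat_lit 145)))) (XT.nd (nat_lit 78) (nat_lit 0) (nat_lit 0) (XT.lf (nat_lit 0) (nat_lit 38600032680) (nat_lit 76) (nat_lit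 31403231093) (nat_lit 76) (nat_lit 8565062489) (nat_lit 5) (nat_lit 4) (nat_lit 6) (nat_lit 5) (nat_lit 6) (nat_lit 4) (nat_lit 396) (nat_lit 240) (nat_lit 144)) (XT.nd (nat_lit 78) (nat_lit 0) (nat_lit 0) (XT.lf (nat_lit 0) (nat_lit 45686428512) (nat_lit 76) (nat_lit 29008352872) (nat_lit 76) (nat_lit 6128805205) (nat_lit 5) (nat_lit 4) (nat_lit 6) (nat_lit 5) (nat_lit 6) (nat_lit 4) (nat_lit 397) (nat_lit 240) (nat_lit 143)) (XT.lf (nat_lit 0) (nat_lit 52967548565) (nat_lit 76) (nat_lit 26549492231) (nat_lit 76) (nat_lit 3629770715) (nat_lit 5) (nat_lit 4) (nat_lit 6) (nat_lit 5) (nat_lit 6) (nat_lit 4) (nat_lit 398) (nat_lit 240) (nat_lit 142))))) (XT.nd (nat_lit 234) (nat_lit 0) (nat_lit 0) (XT.nd (nat_lit 78) (nat_lit 76) (nat_lit 0) (XT.lf (nat_lit 0) (nat_lit 60449754982) (nat_lit 76) (nat_lit 24024500650) (nat_lit 76) (nat_lit 1065775397) (nat_lit 5) (nat_lit 4) (nat_lit 6) (nat_lit 5)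 (nat_lit 6) (nat_lit 4) (nat_lit 399) (nat_lit 240) (nat_lit 141)) (XT.nd (nat_lit 78) (nat_lit 0) (nat_lit 0) (XT.lf (nat_lit 0) (nat_lit 1534874127) (nat_lit 152) (nat_lit 19880798479) (nat_lit 76) (nat_lit 66589212268) (nat_lit 4) (nat_lit 5) (nat_lit 6) (nat_lit 5) (nat_lit 5) (nat_lit 4) (nat_lit 400) (nat_lit 240) (nat_lit 140)) (XT.lf (nat_lit 0) (nat_lit 4182870650) (nat_lit 152) (nat_lit 14542130299) (nat_lit 76) (nat_lit 71818650289) (nat_lit 4) (nat_lit 5) (nat_lit 6) (nat_lit 5) (nat_lit 5) (nat_lit 4) (nat_lit 401) (nat_lit 240) (nat_lit 139)))) (XT.nd (nat_lit 32526) (nat_lit 0) (nat_lit 7220) (XT.lf (nat_lit 0) (nat_lit 6901325071) (nat_lit 152) (nat_lit 9059361768) (nat_lit 76) (nat_lit 77198168970) (nat_lit 4) (nat_lit 5) (nat_lit 6) (nat_lit 5) (nat_lit 5) (nat_lit 4) (nat_lit 402) (nat_lit 240) (nat_lit 138)) (XT.nd (nat_lit 78) (nat_lit 456) (nat_lit 0) (XT.lf (nat_lit 0)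 (nat_lit 3823298458) (nat_lit 456) (nat_lit 152889352) (nat_lit 456) (nat_lit 152889352) (nat_lit 105) (nat_lit 4) (nat_lit 111) (nat_lit 5) (nat_lit 111) (nat_lit 4) (nat_lit 298) (nat_lit 241) (nat_lit 241)) (XT.lf (nat_lit 0) (nat_lit 2964501198) (nat_lit 456) (nat_lit 3568125221) (nat_lit 0) (nat_lit 1830666271) (nat_lit 99) (nat_lit 5) (nat_lit 105) (nat_lit 4) (nat_lit 99) (nat_lit 4) (nat_lit 299) (nat_lit 241) (nat_lit 240)))))) (XT.nd (nat_lit 468) (nat_lit 1064) (nat_lit 0) (XT.nd (nat_lit 234) (nat_lit 760) (nat_lit 0) (XT.nd (nat_lit 78) (nat_lit 456) (nat_lit 0) (XT.lf (nat_lit 0) (nat_lit 1827058882) (nat_lit 380) (nat_lit 4440519415) (nat_lit 380) (nat_lit 2205873879) (nat_lit 94) (nat_lit 4) (nat_lit 99) (nat_lit 5) (nat_lit 99) (nat_lit 4) (nat_lit 300) (nat_lit 241) (nat_lit 239)) (XT.nd (nat_lit 78) (nat_lit 380) (nat_lit 0) (XT.lf (nat_lit 0) (nat_lit 1012565410) (nat_lit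 456) (nat_lit 1247885915) (nat_lit 76) (nat_lit 6327799273) (nat_lit 93) (nat_lit 5) (nat_lit 99) (nat_lit 5) (nat_lit 94) (nat_lit 4) (nat_lit 301) (nat_lit 241) (nat_lit 238)) (XT.lf (nat_lit 0) (nat_lit 4241486128) (nat_lit 456) (nat_lit 4438860899) (nat_lit 0) (nat_lit 26910133) (nat_lit 88) (nat_lit 5) (nat_lit 94) (nat_lit 4) (nat_lit 88) (nat_lit 4) (nat_lit 302) (nat_lit 241) (nat_lit 237)))) (XT.nd (nat_lit 78) (nat_lit 380) (nat_lit 0) (XT.lf (nat_lit 0) (nat_lit 1037302445) (nat_lit 380) (nat_lit 6493214307) (nat_lit 380) (nat_lit 1300582343) (nat_lit 83) (nat_lit 4) (nat_lit 88) (nat_lit 5) (nat_lit 88) (nat_lit 4) (nat_lit 303) (nat_lit 241) (nat_lit 236)) (XT.nd (nat_lit 78) (nat_lit 304) (nat_lit 0) (XT.lf (nat_lit 0) (nat_lit 1885172273) (nat_lit 456) (nat_lit 2315301148) (nat_lit 76) (nat_lit 4758855442) (nat_lit 82) (nat_lit 5) (nat_lit 88) (nat_lit 5) (nat_lit 83) (nat_lit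 4) (nat_lit 304) (nat_lit 241) (nat_lit 235)) (XT.lf (nat_lit 0) (nat_lit 3274241845) (nat_lit 304) (nat_lit 1818543505) (nat_lit 380) (nat_lit 3999809735) (nat_lit 78) (nat_lit 5) (nat_lit 82) (nat_lit 5) (nat_lit 83) (nat_lit 4) (nat_lit 305) (nat_lit 241) (nat_lit 234))))) (XT.nd (nat_lit 234) (nat_lit 380) (nat_lit 0) (XT.nd (nat_lit 78) (nat_lit 684) (nat_lit 0) (XT.lf (nat_lit 0) (nat_lit 8348356713) (nat_lit 380) (nat_lit 262089934) (nat_lit 0) (nat_lit 621005083) (nat_lit 78) (nat_lit 5) (nat_lit 83) (nat_lit 4) (nat_lit 78) (nat_lit 4) (nat_lit 306) (nat_lit 241) (nat_lit 233)) (XT.nd (nat_lit 78) (nat_lit 304) (nat_lit 0) (XT.lf (nat_lit 0) (nat_lit 2276169766) (nat_lit 380) (nat_lit 3950406674) (nat_lit 76) (nat_lit 3147528815) (nat_lit 73) (nat_lit 5) (nat_lit 78) (nat_lit 5) (nat_lit 74) (nat_lit 4) (nat_lit 307) (nat_lit 241) (nat_lit 232)) (XT.lf (nat_lit 0) (nat_lit 1685510864)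 (nat_lit 304) (nat_lit 3770473687) (nat_lit 380) (nat_lit 4066617971) (nat_lit 69) (nat_lit 5) (nat_lit 73) (nat_lit 5) (nat_lit 74) (nat_lit 4) (nat_lit 308) (nat_lit 241) (nat_lit 231)))) (XT.nd (nat_lit 78) (nat_lit 380) (nat_lit 0) (XT.lf (nat_lit 0) (nat_lit 7469411866) (nat_lit 304) (nat_lit 1227533279) (nat_lit 380) (nat_lit 979765256) (nat_lit 69) (nat_lit 5) (nat_lit 73) (nat_lit 5) (nat_lit 74) (nat_lit 4) (nat_lit 309) (nat_lit 241) (nat_lit 230)) (XT.nd (nat_lit 78) (nat_lit 0) (nat_lit 0) (XT.lf (nat_lit 0) (nat_lit 2131625403) (nat_lit 380) (nat_lit 6311123919) (nat_lit 76) (nat_lit 1392933039) (nat_lit 64) (nat_lit 5) (nat_lit 69) (nat_lit 5) (nat_lit 65) (nat_lit 4) (nat_lit 310) (nat_lit 241) (nat_lit 229)) (XT.lf (nat_lit 0) (nat_lit 5279407177) (nat_lit 380) (nat_lit 648892413) (nat_lit 76) (nat_lit 4072067973) (nat_lit 64) (nat_lit 5) (nat_lit 69) (nat_lit 5) (nat_lit 65)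 (nat_lit 4) (nat_lit 311) (nat_lit 241) (nat_lit 228))))))))
noncomputable def xc60 : XT := (XT.nd (nat_lit 1794) (nat_lit 1064) (nat_lit 0) (XT.nd (nat_lit 858) (nat_lit 1216) (nat_lit 0) (XT.nd (nat_lit 390) (nat_lit 760) (nat_lit 0) (XT.nd (nat_lit 156) (nat_lit 304) (nat_lit 0) (XT.nd (nat_lit 78) (nat_lit 380) (nat_lit 0) (XT.lf (nat_lit 0) (nat_lit 5185677799) (nat_lit 228) (nat_lit 3315965167) (nat_lit 304) (nat_lit 1669063674) (nat_lit 61) (nat_lit 5) (nat_lit 64) (nat_lit 5) (nat_lit 65) (nat_lit 4) (nat_lit 312) (nat_lit 241) (nat_lit 227)) (XT.lf (nat_lit 0) (nat_lit 764056669) (nat_lit 304) (nat_lit 626002437) (nat_lit 380) (nat_lit 8957445803) (nat_lit 56) (nat_lit 5) (nat_lit 60) (nat_lit 5) (nat_lit 61) (nat_lit 5) (nat_lit 313) (nat_lit 241) (nat_lit 226))) (XT.nd (nat_lit 78) (nat_lit 304) (nat_lit 0) (XT.lf (nat_lit 0) (nat_lit 4510133635) (nat_lit 380) (nat_lit 3878074081)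 (nat_lit 76) (nat_lit 2140926178) (nat_lit 56) (nat_lit 5) (nat_lit 61) (nat_lit 5) (nat_lit 57) (nat_lit 4) (nat_lit 314) (nat_lit 241) (nat_lit 225)) (XT.nd (nat_lit 78) (nat_lit 76) (nat_lit 0) (XT.lf (nat_lit 0) (nat_lit 1932754464) (nat_lit 228) (nat_lit 5749105996) (nat_lit 304) (nat_lit 3035711020) (nat_lit 53) (nat_lit 5) (nat_lit 56) (nat_lit 5) (nat_lit 57) (nat_lit 4) (nat_lit 315) (nat_lit 241) (nat_lit 224)) (XT.lf (nat_lit 0) (nat_lit 9446407) (nat_lit 304) (nat_lit 3011515559) (nat_lit 76) (nat_lit 7891592164) (nat_lit 52) (nat_lit 5) (nat_lit 56) (nat_lit 5) (nat_lit 53) (nat_lit 5) (nat_lit 316) (nat_lit 241) (nat_lit 223))))) (XT.nd (nat_lit 234) (nat_lit 304) (nat_lit 0) (XT.nd (nat_lit 78) (nat_lit 228) (nat_lit 0) (XT.lf (nat_lit 0) (nat_lit 2866011261) (nat_lit 228) (nat_lit 181962304) (nat_lit 304) (nat_lit 8065712744) (nat_lit 49) (nat_lit 5) (nat_lit 52) (nat_lit 5) (nat_lit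 53) (nat_lit 5) (nat_lit 317) (nat_lit 241) (nat_lit 222)) (XT.nd (nat_lit 78) (nat_lit 228) (nat_lit 0) (XT.lf (nat_lit 0) (nat_lit 6170892285) (nat_lit 304) (nat_lit 2460621826) (nat_lit 76) (nat_lit 2689631213) (nat_lit 49) (nat_lit 5) (nat_lit 53) (nat_lit 5) (nat_lit 50) (nat_lit 4) (nat_lit 318) (nat_lit 241) (nat_lit 221)) (XT.lf (nat_lit 0) (nat_lit 3473182859) (nat_lit 228) (nat_lit 5887527436) (nat_lit 304) (nat_lit 2175008786) (nat_lit 46) (nat_lit 5) (nat_lit 49) (nat_lit 5) (nat_lit 50) (nat_lit 4) (nat_lit 319) (nat_lit 241) (nat_lit 220)))) (XT.nd (nat_lit 78) (nat_lit 228) (nat_lit 0) (XT.lf (nat_lit 0) (nat_lit 835486709) (nat_lit 304) (nat_lit 2222572781) (nat_lit 76) (nat_lit 8699595826) (nat_lit 45) (nat_lit 5) (nat_lit 49) (nat_lit 5) (nat_lit 46) (nat_lit 5) (nat_lit 320) (nat_lit 241) (nat_lit 219)) (XT.nd (nat_lit 78) (nat_lit 0) (nat_lit 0) (XT.lf (nat_lit 0) (nat_lit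 3753786453) (nat_lit 228) (nat_lit 114934759) (nat_lit 304) (nat_lit 8117678108) (nat_lit 42) (nat_lit 5) (nat_lit 45) (nat_lit 5) (nat_lit 46) (nat_lit 5) (nat_lit 321) (nat_lit 241) (nat_lit 218)) (XT.lf (nat_lit 0) (nat_lit 6984300078) (nat_lit 304) (nat_lit 2385778883) (nat_lit 76) (nat_lit 2852263848) (nat_lit 42) (nat_lit 5) (nat_lit 46) (nat_lit 5) (nat_lit 43) (nat_lit 4) (nat_lit 322) (nat_lit 241) (nat_lit 217)))))) (XT.nd (nat_lit 468) (nat_lit 608) (nat_lit 0) (XT.nd (nat_lit 234) (nat_lit 152) (nat_lit 0) (XT.nd (nat_lit 78) (nat_lit 304) (nat_lit 0) (XT.lf (nat_lit 0) (nat_lit 3617379839) (nat_lit 152) (nat_lit 6554252110) (nat_lit 228) (nat_lit 2294459409) (nat_lit 40) (nat_lit 5) (nat_lit 42) (nat_lit 5) (nat_lit 43) (nat_lit 4) (nat_lit 323) (nat_lit 241) (nat_lit 216)) (XT.nd (nat_lit 78) (nat_lit 228) (nat_lit 0) (XT.lf (nat_lit 0) (nat_lit 689948648) (nat_lit 228) (nat_lit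 2963093646) (nat_lit 76) (nat_lit 9064961196) (nat_lit 39) (nat_lit 5) (nat_lit 42) (nat_lit 5) (nat_lit 40) (nat_lit 5) (nat_lit 324) (nat_lit 241) (nat_lit 215)) (XT.lf (nat_lit 0) (nat_lit 3049596269) (nat_lit 228) (nat_lit 641740376) (nat_lit 304) (nat_lit 9286316832) (nat_lit 36) (nat_lit 5) (nat_lit 39) (nat_lit 5) (nat_lit 40) (nat_lit 5) (nat_lit 325) (nat_lit 241) (nat_lit 214)))) (XT.nd (nat_lit 78) (nat_lit 152) (nat_lit 0) (XT.lf (nat_lit 0) (nat_lit 6781388874) (nat_lit 304) (nat_lit 4051594209) (nat_lit 76) (nat_lit 2412218127) (nat_lit 36) (nat_lit 5) (nat_lit 40) (nat_lit 5) (nat_lit 37) (nat_lit 4) (nat_lit 326) (nat_lit 241) (nat_lit 213)) (XT.nd (nat_lit 78) (nat_lit 0) (nat_lit 0) (XT.lf (nat_lit 0) (nat_lit 1948497063) (nat_lit 152) (nat_lit 7987097418) (nat_lit 228) (nat_lit 3586102317) (nat_lit 34) (nat_lit 5) (nat_lit 36) (nat_lit 5) (nat_lit 37) (nat_lit 4) (nat_lit 327)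 (nat_lit 241) (nat_lit 212)) (XT.lf (nat_lit 0) (nat_lit 8128137639) (nat_lit 152) (nat_lit 5044328955) (nat_lit 228) (nat_lit 634442532) (nat_lit 34) (nat_lit 5) (nat_lit 36) (nat_lit 5) (nat_lit 37) (nat_lit 4) (nat_lit 328) (nat_lit 241) (nat_lit 211))))) (XT.nd (nat_lit 234) (nat_lit 380) (nat_lit 0) (XT.nd (nat_lit 78) (nat_lit 0) (nat_lit 0) (XT.lf (nat_lit 0) (nat_lit 292912383) (nat_lit 152) (nat_lit 2016824003) (nat_lit 228) (nat_lit 11791779695) (nat_lit 31) (nat_lit 5) (nat_lit 33) (nat_lit 5) (nat_lit 34) (nat_lit 5) (nat_lit 329) (nat_lit 241) (nat_lit 210)) (XT.nd (nat_lit 78) (nat_lit 0) (nat_lit 0) (XT.lf (nat_lit 0) (nat_lit 5346527830) (nat_lit 228) (nat_lit 7943187021) (nat_lit 76) (nat_lit 1114604511) (nat_lit 31) (nat_lit 5) (nat_lit 34) (nat_lit 5) (nat_lit 32) (nat_lit 4) (nat_lit 330) (nat_lit 241) (nat_lit 209)) (XT.lf (nat_lit 0) (nat_lit 8444428705) (nat_lit 228) (nat_lit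 2002033099) (nat_lit 76) (nat_lit 4270700816) (nat_lit 31) (nat_lit 5) (nat_lit 34) (nat_lit 5) (nat_lit 32) (nat_lit 4) (nat_lit 331) (nat_lit 241) (nat_lit 208)))) (XT.nd (nat_lit 78) (nat_lit 228) (nat_lit 0) (XT.lf (nat_lit 0) (nat_lit 4119829015) (nat_lit 152) (nat_lit 7506532269) (nat_lit 228) (nat_lit 3413351468) (nat_lit 29) (nat_lit 5) (nat_lit 31) (nat_lit 5) (nat_lit 32) (nat_lit 4) (nat_lit 332) (nat_lit 241) (nat_lit 207)) (XT.nd (nat_lit 78) (nat_lit 228) (nat_lit 0) (XT.lf (nat_lit 0) (nat_lit 10389231494) (nat_lit 152) (nat_lit 4486900499) (nat_lit 228) (nat_lit 496688821) (nat_lit 29) (nat_lit 5) (nat_lit 31) (nat_lit 5) (nat_lit 32) (nat_lit 4) (nat_lit 333) (nat_lit 241) (nat_lit 206)) (XT.lf (nat_lit 0) (nat_lit 1051313226) (nat_lit 152) (nat_lit 1370383211) (nat_lit 228) (nat_lit 13294657802) (nat_lit 26) (nat_lit 5) (nat_lit 28) (nat_lit 5) (nat_lit 29) (nat_lit 5) (nat_lit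 334) (nat_lit 241) (nat_lit 205))))))) (XT.nd (nat_lit 858) (nat_lit 608) (nat_lit 0) (XT.nd (nat_lit 390) (nat_lit 228) (nat_lit 0) (XT.nd (nat_lit 156) (nat_lit 228) (nat_lit 0) (XT.nd (nat_lit 78) (nat_lit 0) (nat_lit 0) (XT.lf (nat_lit 0) (nat_lit 5439571376) (nat_lit 228) (nat_lit 8798670564) (nat_lit 76) (nat_lit 1831194913) (nat_lit 26) (nat_lit 5) (nat_lit 29) (nat_lit 5) (nat_lit 27) (nat_lit 4) (nat_lit 335) (nat_lit 241) (nat_lit 204)) (XT.lf (nat_lit 0) (nat_lit 8516322251) (nat_lit 228) (nat_lit 2843963130) (nat_lit 76) (nat_lit 5073823314) (nat_lit 26) (nat_lit 5) (nat_lit 29) (nat_lit 5) (nat_lit 27) (nat_lit 4) (nat_lit 336) (nat_lit 241) (nat_lit 203))) (XT.nd (nat_lit 78) (nat_lit 76) (nat_lit 0) (XT.lf (nat_lit 0) (nat_lit 3281491103) (nat_lit 152) (nat_lit 8391517122) (nat_lit 228) (nat_lit 5137129062) (nat_lit 24) (nat_lit 5) (nat_lit 26) (nat_lit 5) (nat_lit 27) (nat_lit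 4) (nat_lit 337) (nat_lit 241) (nat_lit 202)) (XT.nd (nat_lit 78) (nat_lit 76) (nat_lit 0) (XT.lf (nat_lit 0) (nat_lit 9577784463) (nat_lit 152) (nat_lit 5332011965) (nat_lit 228) (nat_lit 2288132505) (nat_lit 24) (nat_lit 5) (nat_lit 26) (nat_lit 5) (nat_lit 27) (nat_lit 4) (nat_lit 338) (nat_lit 241) (nat_lit 201)) (XT.lf (nat_lit 0) (nat_lit 591207991) (nat_lit 228) (nat_lit 1610636976) (nat_lit 76) (nat_lit 15396640090) (nat_lit 23) (nat_lit 5) (nat_lit 26) (nat_lit 5) (nat_lit 24) (nat_lit 5) (nat_lit 339) (nat_lit 241) (nat_lit 200))))) (XT.nd (nat_lit 234) (nat_lit 76) (nat_lit 0) (XT.nd (nat_lit 78) (nat_lit 0) (nat_lit 0) (XT.lf (nat_lit 0) (nat_lit 3523898470) (nat_lit 228) (nat_lit 13442731647) (nat_lit 76) (nat_lit 1043399825) (nat_lit 21) (nat_lit 5) (nat_lit 24) (nat_lit 5) (nat_lit 22) (nat_lit 4) (nat_lit 340) (nat_lit 241) (nat_lit 199)) (XT.nd (nat_lit 78) (nat_lit 0) (nat_lit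 0) (XT.lf (nat_lit 0) (nat_lit 6541819221) (nat_lit 228) (nat_lit 7560141545) (nat_lit 76) (nat_lit 4332082232) (nat_lit 21) (nat_lit 5) (nat_lit 24) (nat_lit 5) (nat_lit 22) (nat_lit 4) (nat_lit 341) (nat_lit 241) (nat_lit 198)) (XT.lf (nat_lit 0) (nat_lit 9610494880) (nat_lit 228) (nat_lit 1567418330) (nat_lit 76) (nat_lit 7694094886) (nat_lit 21) (nat_lit 5) (nat_lit 24) (nat_lit 5) (nat_lit 22) (nat_lit 4) (nat_lit 342) (nat_lit 241) (nat_lit 197)))) (XT.nd (nat_lit 78) (nat_lit 0) (nat_lit 0) (XT.lf (nat_lit 0) (nat_lit 4631042681) (nat_lit 76) (nat_lit 8146080547) (nat_lit 152) (nat_lit 6545849200) (nat_lit 20) (nat_lit 5) (nat_lit 21) (nat_lit 5) (nat_lit 22) (nat_lit 4) (nat_lit 343) (nat_lit 241) (nat_lit 196)) (XT.nd (nat_lit 78) (nat_lit 0) (nat_lit 0) (XT.lf (nat_lit 0) (nat_lit 10983807333) (nat_lit 76) (nat_lit 5032658822) (nat_lit 152) (nat_lit 3771704039) (nat_lit 20) (nat_lit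 5) (nat_lit 21) (nat_lit 5) (nat_lit 22) (nat_lit 4) (nat_lit 344) (nat_lit 241) (nat_lit 195)) (XT.lf (nat_lit 0) (nat_lit 17465231885) (nat_lit 76) (nat_lit 1850755423) (nat_lit 152) (nat_lit 952481575) (nat_lit 20) (nat_lit 5) (nat_lit 21) (nat_lit 5) (nat_lit 22) (nat_lit 4) (nat_lit 345) (nat_lit 241) (nat_lit 194)))))) (XT.nd (nat_lit 468) (nat_lit 304) (nat_lit 0) (XT.nd (nat_lit 234) (nat_lit 76) (nat_lit 0) (XT.nd (nat_lit 78) (nat_lit 0) (nat_lit 0) (XT.lf (nat_lit 0) (nat_lit 1923246414) (nat_lit 228) (nat_lit 17412816482) (nat_lit 76) (nat_lit 1426283659) (nat_lit 17) (nat_lit 5) (nat_lit 20) (nat_lit 5) (nat_lit 18) (nat_lit 4) (nat_lit 346) (nat_lit 241) (nat_lit 193)) (XT.nd (nat_lit 78) (nat_lit 0) (nat_lit 0) (XT.lf (nat_lit 0) (nat_lit 4876944090) (nat_lit 228) (nat_lit 11615032985) (nat_lit 76) (nat_lit 4778487279) (nat_lit 17) (nat_lit 5) (nat_lit 20) (nat_lit 5) (nat_lit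 18) (nat_lit 4) (nat_lit 347) (nat_lit 241) (nat_lit 192)) (XT.lf (nat_lit 0) (nat_lit 7884233284) (nat_lit 228) (nat_lit 5702685226) (nat_lit 76) (nat_lit 8207988790) (nat_lit 17) (nat_lit 5) (nat_lit 20) (nat_lit 5) (nat_lit 18) (nat_lit 4) (nat_lit 348) (nat_lit 241) (nat_lit 191)))) (XT.nd (nat_lit 78) (nat_lit 0) (nat_lit 0) (XT.lf (nat_lit 0) (nat_lit 335948488) (nat_lit 76) (nat_lit 10615022580) (nat_lit 152) (nat_lit 11385065701) (nat_lit 16) (nat_lit 5) (nat_lit 17) (nat_lit 5) (nat_lit 18) (nat_lit 4) (nat_lit 349) (nat_lit 241) (nat_lit 190)) (XT.nd (nat_lit 78) (nat_lit 0) (nat_lit 0) (XT.lf (nat_lit 0) (nat_lit 6615565727) (nat_lit 76) (nat_lit 7518173403) (nat_lit 152) (nat_lit 8758969397) (nat_lit 16) (nat_lit 5) (nat_lit 17) (nat_lit 5) (nat_lit 18) (nat_lit 4) (nat_lit 350) (nat_lit 241) (nat_lit 189)) (XT.lf (nat_lit 0) (nat_lit 13028158916) (nat_lit 76) (nat_lit 4351250936)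 (nat_lit 152) (nat_lit 6087676397) (nat_lit 16) (nat_lit 5) (nat_lit 17) (nat_lit 5) (nat_lit 18) (nat_lit 4) (nat_lit 351) (nat_lit 241) (nat_lit 188))))) (XT.nd (nat_lit 234) (nat_lit 76) (nat_lit 0) (XT.nd (nat_lit 78) (nat_lit 228) (nat_lit 0) (XT.lf (nat_lit 0) (nat_lit 19579331293) (nat_lit 76) (nat_lit 1111487965) (nat_lit 152) (nat_lit 3368852562) (nat_lit 16) (nat_lit 5) (nat_lit 17) (nat_lit 5) (nat_lit 18) (nat_lit 4) (nat_lit 352) (nat_lit 241) (nat_lit 187)) (XT.nd (nat_lit 78) (nat_lit 76) (nat_lit 0) (XT.lf (nat_lit 0) (nat_lit 1614136079) (nat_lit 152) (nat_lit 22493426475) (nat_lit 152) (nat_lit 562319424) (nat_lit 14) (nat_lit 4) (nat_lit 16) (nat_lit 5) (nat_lit 16) (nat_lit 4) (nat_lit 353) (nat_lit 241) (nat_lit 186)) (XT.lf (nat_lit 0) (nat_lit 2308821080) (nat_lit 228) (nat_lit 17400679155) (nat_lit 76) (nat_lit 5587476565) (nat_lit 13) (nat_lit 5) (nat_lit 16) (nat_lit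 5) (nat_lit 14) (nat_lit 4) (nat_lit 354) (nat_lit 241) (nat_lit 185)))) (XT.nd (nat_lit 78) (nat_lit 76) (nat_lit 0) (XT.lf (nat_lit 0) (nat_lit 5224843832) (nat_lit 228) (nat_lit 11633074227) (nat_lit 76) (nat_lit 9085722377) (nat_lit 13) (nat_lit 5) (nat_lit 16) (nat_lit 5) (nat_lit 14) (nat_lit 4) (nat_lit 355) (nat_lit 241) (nat_lit 184)) (XT.nd (nat_lit 78) (nat_lit 76) (nat_lit 0) (XT.lf (nat_lit 0) (nat_lit 8199269690) (nat_lit 228) (nat_lit 5742486102) (nat_lit 76) (nat_lit 12668844299) (nat_lit 13) (nat_lit 5) (nat_lit 16) (nat_lit 5) (nat_lit 14) (nat_lit 4) (nat_lit 356) (nat_lit 241) (nat_lit 183)) (XT.lf (nat_lit 0) (nat_lit 281729899) (nat_lit 76) (nat_lit 10955675928) (nat_lit 152) (nat_lit 16060951477) (nat_lit 12) (nat_lit 5) (nat_lit 13) (nat_lit 5) (nat_lit 14) (nat_lit 4) (nat_lit 357) (nat_lit 241) (nat_lit 182))))))))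
noncomputable def xc61 : XT := (XT.nd (nat_lit 1794) (nat_lit 228) (nat_lit 0) (XT.nd (nat_lit 858) (nat_lit 152) (nat_lit 0) (XT.nd (nat_lit 390) (nat_lit 152) (nat_lit 0) (XT.nd (nat_lit 156) (nat_lit 76) (nat_lit 0) (XT.nd (nat_lit 78) (nat_lit 0) (nat_lit 0) (XT.lf (nat_lit 0) (nat_lit 6556276732) (nat_lit 76) (nat_lit 7840526291) (nat_lit 152) (nat_lit 13609063121) (nat_lit 12) (nat_lit 5) (nat_lit 13) (nat_lit 5) (nat_lit 14) (nat_lit 4) (nat_lit 358) (nat_lit 241) (nat_lit 181)) (XT.lf (nat_lit 0) (nat_lit 12972350276) (nat_lit 76) (nat_lit 4651572754) (nat_lit 152) (nat_lit 11111510756) (nat_lit 12) (nat_lit 5) (nat_lit 13) (nat_lit 5) (nat_lit 14) (nat_lit 4) (nat_lit 359) (nat_lit 241) (nat_lit 180))) (XT.nd (nat_lit 78) (nat_lit 76) (nat_lit 0) (XT.lf (nat_lit 0) (nat_lit 19535556809) (nat_lit 76) (nat_lit 1386028855) (nat_lit 152) (nat_lit 8566112057) (nat_lit 12) (nat_lit 5) (nat_lit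 13) (nat_lit 5) (nat_lit 14) (nat_lit 4) (nat_lit 360) (nat_lit 241) (nat_lit 179)) (XT.nd (nat_lit 78) (nat_lit 76) (nat_lit 0) (XT.lf (nat_lit 0) (nat_lit 24311503086) (nat_lit 152) (nat_lit 4030514802) (nat_lit 0) (nat_lit 1920732453) (nat_lit 12) (nat_lit 5) (nat_lit 14) (nat_lit 4) (nat_lit 12) (nat_lit 4) (nat_lit 361) (nat_lit 241) (nat_lit 178)) (XT.lf (nat_lit 0) (nat_lit 2051737899) (nat_lit 76) (nat_lit 25759889971) (nat_lit 76) (nat_lit 3249191293) (nat_lit 11) (nat_lit 4) (nat_lit 12) (nat_lit 5) (nat_lit 12) (nat_lit 4) (nat_lit 362) (nat_lit 241) (nat_lit 177))))) (XT.nd (nat_lit 234) (nat_lit 76) (nat_lit 0) (XT.nd (nat_lit 78) (nat_lit 76) (nat_lit 0) (XT.lf (nat_lit 0) (nat_lit 8356168718) (nat_lit 76) (nat_lit 23076665998) (nat_lit 76) (nat_lit 449532325) (nat_lit 11) (nat_lit 4) (nat_lit 12) (nat_lit 5) (nat_lit 12) (nat_lit 4) (nat_lit 363) (nat_lit 241) (nat_lit 176)) (XT.nd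 (nat_lit 78) (nat_lit 0) (nat_lit 0) (XT.lf (nat_lit 0) (nat_lit 2362458107) (nat_lit 152) (nat_lit 17944387398) (nat_lit 76) (nat_lit 12421756929) (nat_lit 10) (nat_lit 5) (nat_lit 12) (nat_lit 5) (nat_lit 11) (nat_lit 4) (nat_lit 364) (nat_lit 241) (nat_lit 175)) (XT.lf (nat_lit 0) (nat_lit 5226316860) (nat_lit 152) (nat_lit 12240505279) (nat_lit 76) (nat_lit 16133990611) (nat_lit 10) (nat_lit 5) (nat_lit 12) (nat_lit 5) (nat_lit 11) (nat_lit 4) (nat_lit 365) (nat_lit 241) (nat_lit 174)))) (XT.nd (nat_lit 78) (nat_lit 76) (nat_lit 0) (XT.lf (nat_lit 0) (nat_lit 8153318329) (nat_lit 152) (nat_lit 6405246812) (nat_lit 76) (nat_lit 19941324608) (nat_lit 10) (nat_lit 5) (nat_lit 12) (nat_lit 5) (nat_lit 11) (nat_lit 4) (nat_lit 366) (nat_lit 241) (nat_lit 173)) (XT.nd (nat_lit 78) (nat_lit 76) (nat_lit 0) (XT.lf (nat_lit 0) (nat_lit 11146020087) (nat_lit 152) (nat_lit 433513228) (nat_lit 76) (nat_lit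 23847085717) (nat_lit 10) (nat_lit 5) (nat_lit 12) (nat_lit 5) (nat_lit 11) (nat_lit 4) (nat_lit 367) (nat_lit 241) (nat_lit 172)) (XT.lf (nat_lit 0) (nat_lit 5792954909) (nat_lit 76) (nat_lit 8469767635) (nat_lit 152) (nat_lit 22117417257) (nat_lit 9) (nat_lit 5) (nat_lit 10) (nat_lit 5) (nat_lit 11) (nat_lit 4) (nat_lit 368) (nat_lit 241) (nat_lit 171)))))) (XT.nd (nat_lit 468) (nat_lit 76) (nat_lit 0) (XT.nd (nat_lit 234) (nat_lit 76) (nat_lit 0) (XT.nd (nat_lit 78) (nat_lit 0) (nat_lit 0) (XT.lf (nat_lit 0) (nat_lit 12178012060) (nat_lit 76) (nat_lit 5278094536) (nat_lit 152) (nat_lit 19906679904) (nat_lit 9) (nat_lit 5) (nat_lit 10) (nat_lit 5) (nat_lit 11) (nat_lit 4) (nat_lit 369) (nat_lit 241) (nat_lit 170)) (XT.nd (nat_lit 78) (nat_lit 0) (nat_lit 0) (XT.lf (nat_lit 0) (nat_lit 18718609638) (nat_lit 76) (nat_lit 2006102812) (nat_lit 152) (nat_lit 17650832809) (nat_lit 9) (nat_lit 5)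 (nat_lit 10) (nat_lit 5) (nat_lit 11) (nat_lit 4) (nat_lit 370) (nat_lit 241) (nat_lit 169)) (XT.lf (nat_lit 0) (nat_lit 24084364223) (nat_lit 152) (nat_lit 14011806337) (nat_lit 0) (nat_lit 1322741410) (nat_lit 9) (nat_lit 5) (nat_lit 11) (nat_lit 4) (nat_lit 9) (nat_lit 4) (nat_lit 371) (nat_lit 241) (nat_lit 168)))) (XT.nd (nat_lit 78) (nat_lit 76) (nat_lit 0) (XT.lf (nat_lit 0) (nat_lit 27545129770) (nat_lit 152) (nat_lit 8251586189) (nat_lit 0) (nat_lit 4696868386) (nat_lit 9) (nat_lit 5) (nat_lit 11) (nat_lit 4) (nat_lit 9) (nat_lit 4) (nat_lit 372) (nat_lit 241) (nat_lit 167)) (XT.nd (nat_lit 78) (nat_lit 76) (nat_lit 0) (XT.lf (nat_lit 0) (nat_lit 31090749175) (nat_lit 152) (nat_lit 2351958087) (nat_lit 0) (nat_lit 8158372673) (nat_lit 9) (nat_lit 5) (nat_lit 11) (nat_lit 4) (nat_lit 9) (nat_lit 4) (nat_lit 373) (nat_lit 241) (nat_lit 166)) (XT.lf (nat_lit 0) (nat_lit 3765715657) (nat_lit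 76) (nat_lit 30994803256) (nat_lit 76) (nat_lit 7980761592) (nat_lit 8) (nat_lit 4) (nat_lit 9) (nat_lit 5) (nat_lit 9) (nat_lit 4) (nat_lit 374) (nat_lit 241) (nat_lit 165))))) (XT.nd (nat_lit 234) (nat_lit 0) (nat_lit 0) (XT.nd (nat_lit 78) (nat_lit 76) (nat_lit 0) (XT.lf (nat_lit 0) (nat_lit 10083024476) (nat_lit 76) (nat_lit 28462918588) (nat_lit 76) (nat_lit 5369590357) (nat_lit 8) (nat_lit 4) (nat_lit 9) (nat_lit 5) (nat_lit 9) (nat_lit 4) (nat_lit 375) (nat_lit 241) (nat_lit 164)) (XT.nd (nat_lit 78) (nat_lit 76) (nat_lit 0) (XT.lf (nat_lit 0) (nat_lit 16558679768) (nat_lit 76) (nat_lit 25868591096) (nat_lit 76) (nat_lit 2698285617) (nat_lit 8) (nat_lit 4) (nat_lit 9) (nat_lit 5) (nat_lit 9) (nat_lit 4) (nat_lit 376) (nat_lit 241) (nat_lit 163)) (XT.lf (nat_lit 0) (nat_lit 34794302) (nat_lit 152) (nat_lit 23174408236) (nat_lit 76) (nat_lit 23163194217) (nat_lit 7) (nat_lit 5) (nat_lit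 9) (nat_lit 5) (nat_lit 8) (nat_lit 4) (nat_lit 377) (nat_lit 241) (nat_lit 162)))) (XT.nd (nat_lit 78) (nat_lit 0) (nat_lit 0) (XT.lf (nat_lit 0) (nat_lit 2778811759) (nat_lit 152) (nat_lit 17676611238) (nat_lit 76) (nat_lit 27200934129) (nat_lit 7) (nat_lit 5) (nat_lit 9) (nat_lit 5) (nat_lit 8) (nat_lit 4) (nat_lit 378) (nat_lit 241) (nat_lit 161)) (XT.nd (nat_lit 78) (nat_lit 0) (nat_lit 0) (XT.lf (nat_lit 0) (nat_lit 5588817708) (nat_lit 152) (nat_lit 12042744249) (nat_lit 76) (nat_lit 31347775672) (nat_lit 7) (nat_lit 5) (nat_lit 9) (nat_lit 5) (nat_lit 8) (nat_lit 4) (nat_lit 379) (nat_lit 241) (nat_lit 160)) (XT.lf (nat_lit 0) (nat_lit 8467267494) (nat_lit 152) (nat_lit 6267884472) (nat_lit 76) (nat_lit 35607342300) (nat_lit 7) (nat_lit 5) (nat_lit 9) (nat_lit 5) (nat_lit 8) (nat_lit 4) (nat_lit 380) (nat_lit 241) (nat_lit 159))))))) (XT.nd (nat_lit 936) (nat_lit 76) (nat_lit 0) (XT.nd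 (nat_lit 468) (nat_lit 76) (nat_lit 0) (XT.nd (nat_lit 234) (nat_lit 0) (nat_lit 0) (XT.nd (nat_lit 78) (nat_lit 76) (nat_lit 0) (XT.lf (nat_lit 0) (nat_lit 11416676267) (nat_lit 152) (nat_lit 346985913) (nat_lit 76) (nat_lit 39983355964) (nat_lit 7) (nat_lit 5) (nat_lit 9) (nat_lit 5) (nat_lit 8) (nat_lit 4) (nat_lit 381) (nat_lit 241) (nat_lit 158)) (XT.nd (nat_lit 78) (nat_lit 0) (nat_lit 0) (XT.lf (nat_lit 0) (nat_lit 5839066242) (nat_lit 76) (nat_lit 8656683615) (nat_lit 152) (nat_lit 38696702800) (nat_lit 6) (nat_lit 5) (nat_lit 7) (nat_lit 5) (nat_lit 8) (nat_lit 4) (nat_lit 382) (nat_lit 241) (nat_lit 157)) (XT.lf (nat_lit 0) (nat_lit 12191657226) (nat_lit 76) (nat_lit 5464280085) (nat_lit 152) (nat_lit 37025660738) (nat_lit 6) (nat_lit 5) (nat_lit 7) (nat_lit 5) (nat_lit 8) (nat_lit 4) (nat_lit 383) (nat_lit 241) (nat_lit 156)))) (XT.nd (nat_lit 78) (nat_lit 0) (nat_lit 0) (XT.lf (nat_lit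 0) (nat_lit 18709432145) (nat_lit 76) (nat_lit 2187165988) (nat_lit 152) (nat_lit 35319259436) (nat_lit 6) (nat_lit 5) (nat_lit 7) (nat_lit 5) (nat_lit 8) (nat_lit 4) (nat_lit 384) (nat_lit 241) (nat_lit 155)) (XT.nd (nat_lit 78) (nat_lit 0) (nat_lit 0) (XT.lf (nat_lit 0) (nat_lit 24231883035) (nat_lit 152) (nat_lit 32409804753) (nat_lit 0) (nat_lit 1154544473) (nat_lit 6) (nat_lit 5) (nat_lit 8) (nat_lit 4) (nat_lit 6) (nat_lit 4) (nat_lit 385) (nat_lit 241) (nat_lit 154)) (XT.lf (nat_lit 0) (nat_lit 27675271841) (nat_lit 152) (nat_lit 27206190952) (nat_lit 0) (nat_lit 4542323276) (nat_lit 6) (nat_lit 5) (nat_lit 8) (nat_lit 4) (nat_lit 6) (nat_lit 4) (nat_lit 386) (nat_lit 241) (nat_lit 153))))) (XT.nd (nat_lit 234) (nat_lit 76) (nat_lit 0) (XT.nd (nat_lit 78) (nat_lit 0) (nat_lit 0) (XT.lf (nat_lit 0) (nat_lit 31208748960) (nat_lit 152) (nat_lit 21870012797) (nat_lit 0) (nat_lit 8021810102)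 (nat_lit 6) (nat_lit 5) (nat_lit 8) (nat_lit 4) (nat_lit 6) (nat_lit 4) (nat_lit 387) (nat_lit 241) (nat_lit 152)) (XT.nd (nat_lit 78) (nat_lit 0) (nat_lit 0) (XT.lf (nat_lit 0) (nat_lit 34835401897) (nat_lit 152) (nat_lit 16396607608) (nat_lit 0) (nat_lit 11596045279) (nat_lit 6) (nat_lit 5) (nat_lit 8) (nat_lit 4) (nat_lit 6) (nat_lit 4) (nat_lit 388) (nat_lit 241) (nat_lit 151)) (XT.lf (nat_lit 0) (nat_lit 38558399572) (nat_lit 152) (nat_lit 10781192798) (nat_lit 0) (nat_lit 15268151925) (nat_lit 6) (nat_lit 5) (nat_lit 8) (nat_lit 4) (nat_lit 6) (nat_lit 4) (nat_lit 389) (nat_lit 241) (nat_lit 150)))) (XT.nd (nat_lit 78) (nat_lit 76) (nat_lit 0) (XT.lf (nat_lit 0) (nat_lit 42380995090) (nat_lit 152) (nat_lit 5018861693) (nat_lit 0) (nat_lit 19041338676) (nat_lit 6) (nat_lit 5) (nat_lit 8) (nat_lit 4) (nat_lit 6) (nat_lit 4) (nat_lit 390) (nat_lit 241) (nat_lit 149)) (XT.nd (nat_lit 78) (nat_lit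 0) (nat_lit 0) (XT.lf (nat_lit 0) (nat_lit 913241380) (nat_lit 76) (nat_lit 45402065838) (nat_lit 76) (nat_lit 22014439747) (nat_lit 5) (nat_lit 4) (nat_lit 6) (nat_lit 5) (nat_lit 6) (nat_lit 4) (nat_lit 391) (nat_lit 241) (nat_lit 148)) (XT.lf (nat_lit 0) (nat_lit 7105475782) (nat_lit 76) (nat_lit 43301256526) (nat_lit 76) (nat_lit 19867057934) (nat_lit 5) (nat_lit 4) (nat_lit 6) (nat_lit 5) (nat_lit 6) (nat_lit 4) (nat_lit 392) (nat_lit 241) (nat_lit 147)))))) (XT.nd (nat_lit 468) (nat_lit 76) (nat_lit 0) (XT.nd (nat_lit 234) (nat_lit 0) (nat_lit 0) (XT.nd (nat_lit 78) (nat_lit 0) (nat_lit 0) (XT.lf (nat_lit 0) (nat_lit 13463367015) (nat_lit 76) (nat_lit 41146273852) (nat_lit 76) (nat_lit 17666859240) (nat_lit 5) (nat_lit 4) (nat_lit 6) (nat_lit 5) (nat_lit 6) (nat_lit 4) (nat_lit 393) (nat_lit 241) (nat_lit 146)) (XT.nd (nat_lit 78) (nat_lit 0) (nat_lit 0) (XT.lf (nat_lit 0) (nat_lit 19992470517)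 (nat_lit 76) (nat_lit 38935234821) (nat_lit 76) (nat_lit 15411921160) (nat_lit 5) (nat_lit 4) (nat_lit 6) (nat_lit 5) (nat_lit 6) (nat_lit 4) (nat_lit 394) (nat_lit 241) (nat_lit 145)) (XT.lf (nat_lit 0) (nat_lit 26698491329) (nat_lit 76) (nat_lit 36666207458) (nat_lit 76) (nat_lit 13100273361) (nat_lit 5) (nat_lit 4) (nat_lit 6) (nat_lit 5) (nat_lit 6) (nat_lit 4) (nat_lit 395) (nat_lit 241) (nat_lit 144)))) (XT.nd (nat_lit 78) (nat_lit 0) (nat_lit 0) (XT.lf (nat_lit 0) (nat_lit 33587289082) (nat_lit 76) (nat_lit 34337209118) (nat_lit 76) (nat_lit 10729895957) (nat_lit 5) (nat_lit 4) (nat_lit 6) (nat_lit 5) (nat_lit 6) (nat_lit 4) (nat_lit 396) (nat_lit 241) (nat_lit 143)) (XT.nd (nat_lit 78) (nat_lit 0) (nat_lit 0) (XT.lf (nat_lit 0) (nat_lit 40664883114) (nat_lit 76) (nat_lit 31946204753) (nat_lit 76) (nat_lit 8298717743) (nat_lit 5) (nat_lit 4) (nat_lit 6) (nat_lit 5) (nat_lit 6) (nat_lit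 4) (nat_lit 397) (nat_lit 241) (nat_lit 142)) (XT.lf (nat_lit 0) (nat_lit 47937457730) (nat_lit 76) (nat_lit 29491105136) (nat_lit 76) (nat_lit 5804614389) (nat_lit 5) (nat_lit 4) (nat_lit 6) (nat_lit 5) (nat_lit 6) (nat_lit 4) (nat_lit 398) (nat_lit 241) (nat_lit 141))))) (XT.nd (nat_lit 234) (nat_lit 0) (nat_lit 0) (XT.nd (nat_lit 78) (nat_lit 76) (nat_lit 0) (XT.lf (nat_lit 0) (nat_lit 55411367607) (nat_lit 76) (nat_lit 26969765034) (nat_lit 76) (nat_lit 3245406582) (nat_lit 5) (nat_lit 4) (nat_lit 6) (nat_lit 5) (nat_lit 6) (nat_lit 4) (nat_lit 399) (nat_lit 241) (nat_lit 140)) (XT.nd (nat_lit 78) (nat_lit 76) (nat_lit 0) (XT.lf (nat_lit 0) (nat_lit 63093143346) (nat_lit 76) (nat_lit 24379981335) (nat_lit 76) (nat_lit 618858121) (nat_lit 5) (nat_lit 4) (nat_lit 6) (nat_lit 5) (nat_lit 6) (nat_lit 4) (nat_lit 400) (nat_lit 241) (nat_lit 139)) (XT.lf (nat_lit 0) (nat_lit 2036789923) (nat_lit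 152) (nat_lit 19662133614) (nat_lit 76) (nat_lit 68932139670) (nat_lit 4) (nat_lit 5) (nat_lit 6) (nat_lit 5) (nat_lit 5) (nat_lit 4) (nat_lit 401) (nat_lit 241) (nat_lit 138)))) (XT.nd (nat_lit 32370) (nat_lit 0) (nat_lit 7676) (XT.lf (nat_lit 0) (nat_lit 4750948587) (nat_lit 152) (nat_lit 14187045840) (nat_lit 76) (nat_lit 74308404976) (nat_lit 4) (nat_lit 5) (nat_lit 6) (nat_lit 5) (nat_lit 5) (nat_lit 4) (nat_lit 402) (nat_lit 241) (nat_lit 137)) (XT.nd (nat_lit 78) (nat_lit 456) (nat_lit 0) (XT.lf (nat_lit 0) (nat_lit 1262729387) (nat_lit 532) (nat_lit 1503275211) (nat_lit 0) (nat_lit 1262729387) (nat_lit 111) (nat_lit 5) (nat_lit 118) (nat_lit 4) (nat_lit 111) (nat_lit 4) (nat_lit 296) (nat_lit 242) (nat_lit 242)) (XT.lf (nat_lit 0) (nat_lit 2237002232) (nat_lit 456) (nat_lit 3560982303) (nat_lit 456) (nat_lit 2358096829) (nat_lit 105) (nat_lit 4) (nat_lit 111) (nat_lit 5) (nat_lit 111)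 (nat_lit 4) (nat_lit 297) (nat_lit 242) (nat_lit 241))))))))
noncomputable def xc62 : XT := (XT.nd (nat_lit 1794) (nat_lit 1900) (nat_lit 0) (XT.nd (nat_lit 858) (nat_lit 1824) (nat_lit 0) (XT.nd (nat_lit 390) (nat_lit 1444) (nat_lit 0) (XT.nd (nat_lit 156) (nat_lit 836) (nat_lit 0) (XT.nd (nat_lit 78) (nat_lit 380) (nat_lit 0) (XT.lf (nat_lit 0) (nat_lit 836576467) (nat_lit 532) (nat_lit 672485218) (nat_lit 76) (nat_lit 6750217436) (nat_lit 104) (nat_lit 5) (nat_lit 111) (nat_lit 5) (nat_lit 105) (nat_lit 4) (nat_lit 298) (nat_lit 242) (nat_lit 240)) (XT.lf (nat_lit 0) (nat_lit 4046358827) (nat_lit 456) (nat_lit 3675833150) (nat_lit 0) (nat_lit 643863317) (nat_lit 99) (nat_lit 5) (nat_lit 105) (nat_lit 4) (nat_lit 99) (nat_lit 4) (nat_lit 299) (nat_lit 242) (nat_lit 239))) (XT.nd (nat_lit 78) (nat_lit 456) (nat_lit 0) (XT.lf (nat_lit 0) (nat_lit 1664669438) (nat_lit 380) (nat_lit 5642078549)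 (nat_lit 380) (nat_lit 1170834876) (nat_lit 94) (nat_lit 4) (nat_lit 99) (nat_lit 5) (nat_lit 99) (nat_lit 4) (nat_lit 300) (nat_lit 242) (nat_lit 238)) (XT.nd (nat_lit 78) (nat_lit 380) (nat_lit 0) (XT.lf (nat_lit 0) (nat_lit 1986504246) (nat_lit 456) (nat_lit 1476259630) (nat_lit 76) (nat_lit 5130628435) (nat_lit 93) (nat_lit 5) (nat_lit 99) (nat_lit 5) (nat_lit 94) (nat_lit 4) (nat_lit 301) (nat_lit 242) (nat_lit 237)) (XT.lf (nat_lit 0) (nat_lit 3984353911) (nat_lit 380) (nat_lit 1188362742) (nat_lit 456) (nat_lit 3541043490) (nat_lit 88) (nat_lit 5) (nat_lit 93) (nat_lit 5) (nat_lit 94) (nat_lit 4) (nat_lit 302) (nat_lit 242) (nat_lit 236))))) (XT.nd (nat_lit 234) (nat_lit 684) (nat_lit 0) (XT.nd (nat_lit 78) (nat_lit 380) (nat_lit 0) (XT.lf (nat_lit 0) (nat_lit 700566818) (nat_lit 380) (nat_lit 7707381359) (nat_lit 380) (nat_lit 431345567) (nat_lit 83) (nat_lit 4) (nat_lit 88) (nat_lit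 5) (nat_lit 88) (nat_lit 4) (nat_lit 303) (nat_lit 242) (nat_lit 235)) (XT.nd (nat_lit 78) (nat_lit 304) (nat_lit 0) (XT.lf (nat_lit 0) (nat_lit 2698507318) (nat_lit 456) (nat_lit 2719977489) (nat_lit 76) (nat_lit 3550029461) (nat_lit 82) (nat_lit 5) (nat_lit 88) (nat_lit 5) (nat_lit 83) (nat_lit 4) (nat_lit 304) (nat_lit 242) (nat_lit 234)) (XT.lf (nat_lit 0) (nat_lit 2810625049) (nat_lit 304) (nat_lit 3053233155) (nat_lit 380) (nat_lit 3239261252) (nat_lit 78) (nat_lit 5) (nat_lit 82) (nat_lit 5) (nat_lit 83) (nat_lit 4) (nat_lit 305) (nat_lit 242) (nat_lit 233)))) (XT.nd (nat_lit 78) (nat_lit 684) (nat_lit 0) (XT.lf (nat_lit 0) (nat_lit 8462611465) (nat_lit 304) (nat_lit 613550421) (nat_lit 380) (nat_lit 167181273) (nat_lit 78) (nat_lit 5) (nat_lit 82) (nat_lit 5) (nat_lit 83) (nat_lit 4) (nat_lit 306) (nat_lit 242) (nat_lit 232)) (XT.nd (nat_lit 78) (nat_lit 304) (nat_lit 0) (XT.lf (nat_lit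 0) (nat_lit 2929960582) (nat_lit 380) (nat_lit 4543128401) (nat_lit 76) (nat_lit 1914210899) (nat_lit 73) (nat_lit 5) (nat_lit 78) (nat_lit 5) (nat_lit 74) (nat_lit 4) (nat_lit 307) (nat_lit 242) (nat_lit 231)) (XT.lf (nat_lit 0) (nat_lit 1030710287) (nat_lit 304) (nat_lit 5036731917) (nat_lit 380) (nat_lit 3469688110) (nat_lit 69) (nat_lit 5) (nat_lit 73) (nat_lit 5) (nat_lit 74) (nat_lit 4) (nat_lit 308) (nat_lit 242) (nat_lit 230)))))) (XT.nd (nat_lit 468) (nat_lit 836) (nat_lit 0) (XT.nd (nat_lit 234) (nat_lit 608) (nat_lit 0) (XT.nd (nat_lit 78) (nat_lit 380) (nat_lit 0) (XT.lf (nat_lit 0) (nat_lit 6765793303) (nat_lit 304) (nat_lit 2507151083) (nat_lit 380) (nat_lit 419418892) (nat_lit 69) (nat_lit 5) (nat_lit 73) (nat_lit 5) (nat_lit 74) (nat_lit 4) (nat_lit 309) (nat_lit 242) (nat_lit 229)) (XT.nd (nat_lit 78) (nat_lit 0) (nat_lit 0) (XT.lf (nat_lit 0) (nat_lit 2626185786) (nat_lit 380)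 (nat_lit 7103680000) (nat_lit 76) (nat_lit 123011217) (nat_lit 64) (nat_lit 5) (nat_lit 69) (nat_lit 5) (nat_lit 65) (nat_lit 4) (nat_lit 310) (nat_lit 242) (nat_lit 228)) (XT.lf (nat_lit 0) (nat_lit 5739569853) (nat_lit 380) (nat_lit 1490078785) (nat_lit 76) (nat_lit 2789001625) (nat_lit 64) (nat_lit 5) (nat_lit 69) (nat_lit 5) (nat_lit 65) (nat_lit 4) (nat_lit 311) (nat_lit 242) (nat_lit 227)))) (XT.nd (nat_lit 78) (nat_lit 380) (nat_lit 0) (XT.lf (nat_lit 0) (nat_lit 4279596646) (nat_lit 228) (nat_lit 4640103359) (nat_lit 304) (nat_lit 1270606996) (nat_lit 61) (nat_lit 5) (nat_lit 64) (nat_lit 5) (nat_lit 65) (nat_lit 4) (nat_lit 312) (nat_lit 242) (nat_lit 226)) (XT.nd (nat_lit 78) (nat_lit 304) (nat_lit 0) (XT.lf (nat_lit 0) (nat_lit 1740145999) (nat_lit 304) (nat_lit 227828646) (nat_lit 76) (nat_lit 8400284915) (nat_lit 60) (nat_lit 5) (nat_lit 64) (nat_lit 5) (nat_lit 61) (nat_lit 5) (nat_lit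 313) (nat_lit 242) (nat_lit 225)) (XT.lf (nat_lit 0) (nat_lit 4812194595) (nat_lit 380) (nat_lit 4930286817) (nat_lit 76) (nat_lit 808897780) (nat_lit 56) (nat_lit 5) (nat_lit 61) (nat_lit 5) (nat_lit 57) (nat_lit 4) (nat_lit 314) (nat_lit 242) (nat_lit 224))))) (XT.nd (nat_lit 234) (nat_lit 304) (nat_lit 0) (XT.nd (nat_lit 78) (nat_lit 304) (nat_lit 0) (XT.lf (nat_lit 0) (nat_lit 812176680) (nat_lit 228) (nat_lit 7129060103) (nat_lit 304) (nat_lit 2799908948) (nat_lit 53) (nat_lit 5) (nat_lit 56) (nat_lit 5) (nat_lit 57) (nat_lit 4) (nat_lit 315) (nat_lit 242) (nat_lit 223)) (XT.nd (nat_lit 78) (nat_lit 228) (nat_lit 0) (XT.lf (nat_lit 0) (nat_lit 208863850) (nat_lit 304) (nat_lit 4204655124) (nat_lit 76) (nat_lit 6523540541) (nat_lit 52) (nat_lit 5) (nat_lit 56) (nat_lit 5) (nat_lit 53) (nat_lit 5) (nat_lit 316) (nat_lit 242) (nat_lit 222)) (XT.lf (nat_lit 0) (nat_lit 1602863069) (nat_lit 228)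 (nat_lit 1601528231) (nat_lit 304) (nat_lit 7935134692) (nat_lit 49) (nat_lit 5) (nat_lit 52) (nat_lit 5) (nat_lit 53) (nat_lit 5) (nat_lit 317) (nat_lit 242) (nat_lit 221)))) (XT.nd (nat_lit 78) (nat_lit 304) (nat_lit 0) (XT.lf (nat_lit 0) (nat_lit 6283134120) (nat_lit 304) (nat_lit 3781694425) (nat_lit 76) (nat_lit 1283524757) (nat_lit 49) (nat_lit 5) (nat_lit 53) (nat_lit 5) (nat_lit 50) (nat_lit 4) (nat_lit 318) (nat_lit 242) (nat_lit 220)) (XT.nd (nat_lit 78) (nat_lit 76) (nat_lit 0) (XT.lf (nat_lit 0) (nat_lit 2080536204) (nat_lit 228) (nat_lit 7349388017) (nat_lit 304) (nat_lit 2134335438) (nat_lit 46) (nat_lit 5) (nat_lit 49) (nat_lit 5) (nat_lit 50) (nat_lit 4) (nat_lit 319) (nat_lit 242) (nat_lit 219)) (XT.lf (nat_lit 0) (nat_lit 845837297) (nat_lit 304) (nat_lit 3688741269) (nat_lit 76) (nat_lit 7252530838) (nat_lit 45) (nat_lit 5) (nat_lit 49) (nat_lit 5) (nat_lit 46) (nat_lit 5)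 (nat_lit 320) (nat_lit 242) (nat_lit 218))))))) (XT.nd (nat_lit 936) (nat_lit 684) (nat_lit 0) (XT.nd (nat_lit 468) (nat_lit 532) (nat_lit 0) (XT.nd (nat_lit 234) (nat_lit 304) (nat_lit 0) (XT.nd (nat_lit 78) (nat_lit 152) (nat_lit 0) (XT.lf (nat_lit 0) (nat_lit 2214285220) (nat_lit 228) (nat_lit 1621318945) (nat_lit 304) (nat_lit 8181591490) (nat_lit 42) (nat_lit 5) (nat_lit 45) (nat_lit 5) (nat_lit 46) (nat_lit 5) (nat_lit 321) (nat_lit 242) (nat_lit 217)) (XT.nd (nat_lit 78) (nat_lit 152) (nat_lit 0) (XT.lf (nat_lit 0) (nat_lit 6908316145) (nat_lit 304) (nat_lit 3985207210) (nat_lit 76) (nat_lit 1360938900) (nat_lit 42) (nat_lit 5) (nat_lit 46) (nat_lit 5) (nat_lit 43) (nat_lit 4) (nat_lit 322) (nat_lit 242) (nat_lit 216)) (XT.lf (nat_lit 0) (nat_lit 1942936265) (nat_lit 152) (nat_lit 8109056172) (nat_lit 228) (nat_lit 2447564062) (nat_lit 40) (nat_lit 5) (nat_lit 42) (nat_lit 5) (nat_lit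 43) (nat_lit 4) (nat_lit 323) (nat_lit 242) (nat_lit 215)))) (XT.nd (nat_lit 78) (nat_lit 228) (nat_lit 0) (XT.lf (nat_lit 0) (nat_lit 512368306) (nat_lit 228) (nat_lit 4712036872) (nat_lit 76) (nat_lit 7527965462) (nat_lit 39) (nat_lit 5) (nat_lit 42) (nat_lit 5) (nat_lit 40) (nat_lit 5) (nat_lit 324) (nat_lit 242) (nat_lit 214)) (XT.nd (nat_lit 78) (nat_lit 0) (nat_lit 0) (XT.lf (nat_lit 0) (nat_lit 1223756126) (nat_lit 228) (nat_lit 2245785674) (nat_lit 304) (nat_lit 9543838230) (nat_lit 36) (nat_lit 5) (nat_lit 39) (nat_lit 5) (nat_lit 40) (nat_lit 5) (nat_lit 325) (nat_lit 242) (nat_lit 213)) (XT.lf (nat_lit 0) (nat_lit 6517755161) (nat_lit 304) (nat_lit 5939285656) (nat_lit 76) (nat_lit 825174119) (nat_lit 36) (nat_lit 5) (nat_lit 40) (nat_lit 5) (nat_lit 37) (nat_lit 4) (nat_lit 326) (nat_lit 242) (nat_lit 212))))) (XT.nd (nat_lit 234) (nat_lit 304) (nat_lit 0) (XT.nd (nat_lit 78) (nat_lit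 228) (nat_lit 0) (XT.lf (nat_lit 0) (nat_lit 9627580328) (nat_lit 304) (nat_lit 17550382) (nat_lit 76) (nat_lit 3914942303) (nat_lit 36) (nat_lit 5) (nat_lit 40) (nat_lit 5) (nat_lit 37) (nat_lit 4) (nat_lit 327) (nat_lit 242) (nat_lit 211)) (XT.nd (nat_lit 78) (nat_lit 76) (nat_lit 0) (XT.lf (nat_lit 0) (nat_lit 6121802534) (nat_lit 152) (nat_lit 6717190735) (nat_lit 228) (nat_lit 1007086019) (nat_lit 34) (nat_lit 5) (nat_lit 36) (nat_lit 5) (nat_lit 37) (nat_lit 4) (nat_lit 328) (nat_lit 242) (nat_lit 210)) (XT.lf (nat_lit 0) (nat_lit 1916726476) (nat_lit 228) (nat_lit 1794024153) (nat_lit 76) (nat_lit 10430900655) (nat_lit 33) (nat_lit 5) (nat_lit 36) (nat_lit 5) (nat_lit 34) (nat_lit 5) (nat_lit 329) (nat_lit 242) (nat_lit 209)))) (XT.nd (nat_lit 78) (nat_lit 152) (nat_lit 0) (XT.lf (nat_lit 0) (nat_lit 4310834224) (nat_lit 152) (nat_lit 589694273) (nat_lit 228) (nat_lit 9545543362) (nat_lit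 31) (nat_lit 5) (nat_lit 33) (nat_lit 5) (nat_lit 34) (nat_lit 5) (nat_lit 330) (nat_lit 242) (nat_lit 208)) (XT.nd (nat_lit 78) (nat_lit 152) (nat_lit 0) (XT.lf (nat_lit 0) (nat_lit 7968865482) (nat_lit 228) (nat_lit 4226799018) (nat_lit 76) (nat_lit 2564164340) (nat_lit 31) (nat_lit 5) (nat_lit 34) (nat_lit 5) (nat_lit 32) (nat_lit 4) (nat_lit 331) (nat_lit 242) (nat_lit 207)) (XT.lf (nat_lit 0) (nat_lit 1812778397) (nat_lit 152) (nat_lit 9292643477) (nat_lit 228) (nat_lit 3978344409) (nat_lit 29) (nat_lit 5) (nat_lit 31) (nat_lit 5) (nat_lit 32) (nat_lit 4) (nat_lit 332) (nat_lit 242) (nat_lit 206)))))) (XT.nd (nat_lit 468) (nat_lit 304) (nat_lit 0) (XT.nd (nat_lit 234) (nat_lit 152) (nat_lit 0) (XT.nd (nat_lit 78) (nat_lit 228) (nat_lit 0) (XT.lf (nat_lit 0) (nat_lit 8045280396) (nat_lit 152) (nat_lit 6287033782) (nat_lit 228) (nat_lit 1085271787) (nat_lit 29) (nat_lit 5) (nat_lit 31) (nat_lit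 5) (nat_lit 32) (nat_lit 4) (nat_lit 333) (nat_lit 242) (nat_lit 205)) (XT.nd (nat_lit 78) (nat_lit 152) (nat_lit 0) (XT.lf (nat_lit 0) (nat_lit 1812036963) (nat_lit 228) (nat_lit 1388556555) (nat_lit 76) (nat_lit 12561696281) (nat_lit 28) (nat_lit 5) (nat_lit 31) (nat_lit 5) (nat_lit 29) (nat_lit 5) (nat_lit 334) (nat_lit 242) (nat_lit 204)) (XT.lf (nat_lit 0) (nat_lit 4776290685) (nat_lit 228) (nat_lit 11331286972) (nat_lit 76) (nat_lit 9426515) (nat_lit 26) (nat_lit 5) (nat_lit 29) (nat_lit 5) (nat_lit 27) (nat_lit 4) (nat_lit 335) (nat_lit 242) (nat_lit 203)))) (XT.nd (nat_lit 78) (nat_lit 152) (nat_lit 0) (XT.lf (nat_lit 0) (nat_lit 7831410463) (nat_lit 228) (nat_lit 5412012116) (nat_lit 76) (nat_lit 3238924817) (nat_lit 26) (nat_lit 5) (nat_lit 29) (nat_lit 5) (nat_lit 27) (nat_lit 4) (nat_lit 336) (nat_lit 242) (nat_lit 202)) (XT.nd (nat_lit 78) (nat_lit 0) (nat_lit 0) (XT.lf (nat_lit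 0) (nat_lit 627247707) (nat_lit 152) (nat_lit 10314333453) (nat_lit 228) (nat_lit 5918212083) (nat_lit 24) (nat_lit 5) (nat_lit 26) (nat_lit 5) (nat_lit 27) (nat_lit 4) (nat_lit 337) (nat_lit 242) (nat_lit 201)) (XT.lf (nat_lit 0) (nat_lit 6889477766) (nat_lit 152) (nat_lit 7268174777) (nat_lit 228) (nat_lit 3090575013) (nat_lit 24) (nat_lit 5) (nat_lit 26) (nat_lit 5) (nat_lit 27) (nat_lit 4) (nat_lit 338) (nat_lit 242) (nat_lit 200))))) (XT.nd (nat_lit 234) (nat_lit 76) (nat_lit 0) (XT.nd (nat_lit 78) (nat_lit 228) (nat_lit 0) (XT.lf (nat_lit 0) (nat_lit 13272440259) (nat_lit 152) (nat_lit 4156935568) (nat_lit 228) (nat_lit 220205683) (nat_lit 24) (nat_lit 5) (nat_lit 26) (nat_lit 5) (nat_lit 27) (nat_lit 4) (nat_lit 339) (nat_lit 242) (nat_lit 199)) (XT.nd (nat_lit 78) (nat_lit 0) (nat_lit 0) (XT.lf (nat_lit 0) (nat_lit 1725262949) (nat_lit 152) (nat_lit 934128289) (nat_lit 228) (nat_lit 15403539743)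 (nat_lit 21) (nat_lit 5) (nat_lit 23) (nat_lit 5) (nat_lit 24) (nat_lit 5) (nat_lit 340) (nat_lit 242) (nat_lit 198)) (XT.lf (nat_lit 0) (nat_lit 5648735179) (nat_lit 228) (nat_lit 10478780581) (nat_lit 76) (nat_lit 2360304382) (nat_lit 21) (nat_lit 5) (nat_lit 24) (nat_lit 5) (nat_lit 22) (nat_lit 4) (nat_lit 341) (nat_lit 242) (nat_lit 197)))) (XT.nd (nat_lit 78) (nat_lit 76) (nat_lit 0) (XT.lf (nat_lit 0) (nat_lit 8698384239) (nat_lit 228) (nat_lit 4517787525) (nat_lit 76) (nat_lit 5710202526) (nat_lit 21) (nat_lit 5) (nat_lit 24) (nat_lit 5) (nat_lit 22) (nat_lit 4) (nat_lit 342) (nat_lit 242) (nat_lit 196)) (XT.nd (nat_lit 78) (nat_lit 0) (nat_lit 0) (XT.lf (nat_lit 0) (nat_lit 1590536275) (nat_lit 76) (nat_lit 10226776679) (nat_lit 152) (nat_lit 7561474380) (nat_lit 20) (nat_lit 5) (nat_lit 21) (nat_lit 5) (nat_lit 22) (nat_lit 4) (nat_lit 343) (nat_lit 242) (nat_lit 195)) (XT.lf (nat_lit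 0) (nat_lit 7912796967) (nat_lit 76) (nat_lit 7125631298) (nat_lit 152) (nat_lit 4806120870) (nat_lit 20) (nat_lit 5) (nat_lit 21) (nat_lit 5) (nat_lit 22) (nat_lit 4) (nat_lit 344) (nat_lit 242) (nat_lit 194))))))))
noncomputable def xc63 : XT := (XT.nd (nat_lit 1794) (nat_lit 304) (nat_lit 0) (XT.nd (nat_lit 858) (nat_lit 228) (nat_lit 0) (XT.nd (nat_lit 390) (nat_lit 304) (nat_lit 0) (XT.nd (nat_lit 156) (nat_lit 0) (nat_lit 0) (XT.nd (nat_lit 78) (nat_lit 228) (nat_lit 0) (XT.lf (nat_lit 0) (nat_lit 14364606024) (nat_lit 76) (nat_lit 3955646679) (nat_lit 152) (nat_lit 2005142727) (nat_lit 20) (nat_lit 5) (nat_lit 21) (nat_lit 5) (nat_lit 22) (nat_lit 4) (nat_lit 345) (nat_lit 242) (nat_lit 193)) (XT.lf (nat_lit 0) (nat_lit 124165329) (nat_lit 152) (nat_lit 704468053) (nat_lit 228) (nat_lit 19992833824) (nat_lit 17) (nat_lit 5) (nat_lit 19) (nat_lit 5) (nat_lit 20) (nat_lit 5) (nat_lit 346)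 (nat_lit 242) (nat_lit 192))) (XT.nd (nat_lit 78) (nat_lit 0) (nat_lit 0) (XT.lf (nat_lit 0) (nat_lit 3758308339) (nat_lit 228) (nat_lit 14921992535) (nat_lit 76) (nat_lit 2650020099) (nat_lit 17) (nat_lit 5) (nat_lit 20) (nat_lit 5) (nat_lit 18) (nat_lit 4) (nat_lit 347) (nat_lit 242) (nat_lit 191)) (XT.nd (nat_lit 78) (nat_lit 0) (nat_lit 0) (XT.lf (nat_lit 0) (nat_lit 6748849046) (nat_lit 228) (nat_lit 9038038885) (nat_lit 76) (nat_lit 6068393285) (nat_lit 17) (nat_lit 5) (nat_lit 20) (nat_lit 5) (nat_lit 18) (nat_lit 4) (nat_lit 348) (nat_lit 242) (nat_lit 190)) (XT.lf (nat_lit 0) (nat_lit 9796096820) (nat_lit 228) (nat_lit 3033527832) (nat_lit 76) (nat_lit 9567385141) (nat_lit 17) (nat_lit 5) (nat_lit 20) (nat_lit 5) (nat_lit 18) (nat_lit 4) (nat_lit 349) (nat_lit 242) (nat_lit 189))))) (XT.nd (nat_lit 234) (nat_lit 228) (nat_lit 0) (XT.nd (nat_lit 78) (nat_lit 0) (nat_lit 0) (XT.lf (nat_lit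 0) (nat_lit 3158419423) (nat_lit 76) (nat_lit 9774655541) (nat_lit 152) (nat_lit 10021994276) (nat_lit 16) (nat_lit 5) (nat_lit 17) (nat_lit 5) (nat_lit 18) (nat_lit 4) (nat_lit 350) (nat_lit 242) (nat_lit 188)) (XT.nd (nat_lit 78) (nat_lit 0) (nat_lit 0) (XT.lf (nat_lit 0) (nat_lit 9544510835) (nat_lit 76) (nat_lit 6618652862) (nat_lit 152) (nat_lit 7366764308) (nat_lit 16) (nat_lit 5) (nat_lit 17) (nat_lit 5) (nat_lit 18) (nat_lit 4) (nat_lit 351) (nat_lit 242) (nat_lit 187)) (XT.lf (nat_lit 0) (nat_lit 16069953331) (nat_lit 76) (nat_lit 3389491626) (nat_lit 152) (nat_lit 4663535650) (nat_lit 16) (nat_lit 5) (nat_lit 17) (nat_lit 5) (nat_lit 18) (nat_lit 4) (nat_lit 352) (nat_lit 242) (nat_lit 186)))) (XT.nd (nat_lit 78) (nat_lit 228) (nat_lit 0) (XT.lf (nat_lit 0) (nat_lit 22740448753) (nat_lit 76) (nat_lit 84350236) (nat_lit 152) (nat_lit 1909946256) (nat_lit 16) (nat_lit 5) (nat_lit 17)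 (nat_lit 5) (nat_lit 18) (nat_lit 4) (nat_lit 353) (nat_lit 242) (nat_lit 185)) (XT.nd (nat_lit 78) (nat_lit 0) (nat_lit 0) (XT.lf (nat_lit 0) (nat_lit 952181318) (nat_lit 228) (nat_lit 21125685606) (nat_lit 76) (nat_lit 3285433137) (nat_lit 13) (nat_lit 5) (nat_lit 16) (nat_lit 5) (nat_lit 14) (nat_lit 4) (nat_lit 354) (nat_lit 242) (nat_lit 184)) (XT.lf (nat_lit 0) (nat_lit 3853880141) (nat_lit 228) (nat_lit 15382733363) (nat_lit 76) (nat_lit 6773791627) (nat_lit 13) (nat_lit 5) (nat_lit 16) (nat_lit 5) (nat_lit 14) (nat_lit 4) (nat_lit 355) (nat_lit 242) (nat_lit 183)))))) (XT.nd (nat_lit 468) (nat_lit 152) (nat_lit 0) (XT.nd (nat_lit 234) (nat_lit 0) (nat_lit 0) (XT.nd (nat_lit 78) (nat_lit 76) (nat_lit 0) (XT.lf (nat_lit 0) (nat_lit 6814399272) (nat_lit 228) (nat_lit 9516079884) (nat_lit 76) (nat_lit 10347314208) (nat_lit 13) (nat_lit 5) (nat_lit 16) (nat_lit 5) (nat_lit 14) (nat_lit 4)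 (nat_lit 356) (nat_lit 242) (nat_lit 182)) (XT.nd (nat_lit 78) (nat_lit 76) (nat_lit 0) (XT.lf (nat_lit 0) (nat_lit 9836325572) (nat_lit 228) (nat_lit 3520598967) (nat_lit 76) (nat_lit 14009123376) (nat_lit 13) (nat_lit 5) (nat_lit 16) (nat_lit 5) (nat_lit 14) (nat_lit 4) (nat_lit 357) (nat_lit 242) (nat_lit 181)) (XT.lf (nat_lit 0) (nat_lit 2660871340) (nat_lit 76) (nat_lit 10287006143) (nat_lit 152) (nat_lit 15127125352) (nat_lit 12) (nat_lit 5) (nat_lit 13) (nat_lit 5) (nat_lit 14) (nat_lit 4) (nat_lit 358) (nat_lit 242) (nat_lit 180)))) (XT.nd (nat_lit 78) (nat_lit 0) (nat_lit 0) (XT.lf (nat_lit 0) (nat_lit 9054605368) (nat_lit 76) (nat_lit 7107450755) (nat_lit 152) (nat_lit 12642913005) (nat_lit 12) (nat_lit 5) (nat_lit 13) (nat_lit 5) (nat_lit 14) (nat_lit 4) (nat_lit 359) (nat_lit 242) (nat_lit 179)) (XT.nd (nat_lit 78) (nat_lit 0) (nat_lit 0) (XT.lf (nat_lit 0) (nat_lit 15596123050) (nat_lit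 76) (nat_lit 3851031273) (nat_lit 152) (nat_lit 10110465779) (nat_lit 12) (nat_lit 5) (nat_lit 13) (nat_lit 5) (nat_lit 14) (nat_lit 4) (nat_lit 360) (nat_lit 242) (nat_lit 178)) (XT.lf (nat_lit 0) (nat_lit 22291140276) (nat_lit 76) (nat_lit 514902280) (nat_lit 152) (nat_lit 7527570855) (nat_lit 12) (nat_lit 5) (nat_lit 13) (nat_lit 5) (nat_lit 14) (nat_lit 4) (nat_lit 361) (nat_lit 242) (nat_lit 177))))) (XT.nd (nat_lit 234) (nat_lit 0) (nat_lit 0) (XT.nd (nat_lit 78) (nat_lit 152) (nat_lit 0) (XT.lf (nat_lit 0) (nat_lit 26269569367) (nat_lit 152) (nat_lit 2016033643) (nat_lit 0) (nat_lit 2847186690) (nat_lit 12) (nat_lit 5) (nat_lit 14) (nat_lit 4) (nat_lit 12) (nat_lit 4) (nat_lit 362) (nat_lit 242) (nat_lit 176)) (XT.nd (nat_lit 78) (nat_lit 76) (nat_lit 0) (XT.lf (nat_lit 0) (nat_lit 4227751379) (nat_lit 76) (nat_lit 25631484017) (nat_lit 76) (nat_lit 2096057655) (nat_lit 11) (nat_lit 4)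 (nat_lit 12) (nat_lit 5) (nat_lit 12) (nat_lit 4) (nat_lit 363) (nat_lit 242) (nat_lit 175)) (XT.lf (nat_lit 0) (nat_lit 736507620) (nat_lit 152) (nat_lit 22150067042) (nat_lit 76) (nat_lit 9915783966) (nat_lit 10) (nat_lit 5) (nat_lit 12) (nat_lit 5) (nat_lit 11) (nat_lit 4) (nat_lit 364) (nat_lit 242) (nat_lit 174)))) (XT.nd (nat_lit 78) (nat_lit 0) (nat_lit 0) (XT.lf (nat_lit 0) (nat_lit 3589148123) (nat_lit 152) (nat_lit 16465761335) (nat_lit 76) (nat_lit 13620004498) (nat_lit 10) (nat_lit 5) (nat_lit 12) (nat_lit 5) (nat_lit 11) (nat_lit 4) (nat_lit 365) (nat_lit 242) (nat_lit 173)) (XT.nd (nat_lit 78) (nat_lit 0) (nat_lit 0) (XT.lf (nat_lit 0) (nat_lit 6505258087) (nat_lit 152) (nat_lit 10649509093) (nat_lit 76) (nat_lit 17419558737) (nat_lit 10) (nat_lit 5) (nat_lit 12) (nat_lit 5) (nat_lit 11) (nat_lit 4) (nat_lit 366) (nat_lit 242) (nat_lit 172)) (XT.lf (nat_lit 0) (nat_lit 9487385569)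 (nat_lit 152) (nat_lit 4696228154) (nat_lit 76) (nat_lit 21317766684) (nat_lit 10) (nat_lit 5) (nat_lit 12) (nat_lit 5) (nat_lit 11) (nat_lit 4) (nat_lit 367) (nat_lit 242) (nat_lit 171))))))) (XT.nd (nat_lit 936) (nat_lit 76) (nat_lit 0) (XT.nd (nat_lit 468) (nat_lit 152) (nat_lit 0) (XT.nd (nat_lit 234) (nat_lit 0) (nat_lit 0) (XT.nd (nat_lit 78) (nat_lit 0) (nat_lit 0) (XT.lf (nat_lit 0) (nat_lit 1427131860) (nat_lit 76) (nat_lit 11124722915) (nat_lit 152) (nat_lit 23904621143) (nat_lit 9) (nat_lit 5) (nat_lit 10) (nat_lit 5) (nat_lit 11) (nat_lit 4) (nat_lit 368) (nat_lit 242) (nat_lit 170)) (XT.nd (nat_lit 78) (nat_lit 0) (nat_lit 0) (XT.lf (nat_lit 0) (nat_lit 7794449461) (nat_lit 76) (nat_lit 7940651574) (nat_lit 152) (nat_lit 21704333237) (nat_lit 9) (nat_lit 5) (nat_lit 10) (nat_lit 5) (nat_lit 11) (nat_lit 4) (nat_lit 369) (nat_lit 242) (nat_lit 169)) (XT.lf (nat_lit 0) (nat_lit 14317824174)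 (nat_lit 76) (nat_lit 4676040198) (nat_lit 152) (nat_lit 19458631236) (nat_lit 9) (nat_lit 5) (nat_lit 10) (nat_lit 5) (nat_lit 11) (nat_lit 4) (nat_lit 370) (nat_lit 242) (nat_lit 168)))) (XT.nd (nat_lit 78) (nat_lit 0) (nat_lit 0) (XT.lf (nat_lit 0) (nat_lit 21002956036) (nat_lit 76) (nat_lit 1328036213) (nat_lit 152) (nat_lit 17165552875) (nat_lit 9) (nat_lit 5) (nat_lit 10) (nat_lit 5) (nat_lit 11) (nat_lit 4) (nat_lit 371) (nat_lit 242) (nat_lit 167)) (XT.nd (nat_lit 78) (nat_lit 0) (nat_lit 0) (XT.lf (nat_lit 0) (nat_lit 25769647512) (nat_lit 152) (nat_lit 12737055581) (nat_lit 0) (nat_lit 2065184597) (nat_lit 9) (nat_lit 5) (nat_lit 11) (nat_lit 4) (nat_lit 9) (nat_lit 4) (nat_lit 372) (nat_lit 242) (nat_lit 166)) (XT.lf (nat_lit 0) (nat_lit 29306194694) (nat_lit 152) (nat_lit 6853400818) (nat_lit 0) (nat_lit 5520066617) (nat_lit 9) (nat_lit 5) (nat_lit 11) (nat_lit 4) (nat_lit 9) (nat_lit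 4) (nat_lit 373) (nat_lit 242) (nat_lit 165))))) (XT.nd (nat_lit 234) (nat_lit 76) (nat_lit 0) (XT.nd (nat_lit 78) (nat_lit 76) (nat_lit 0) (XT.lf (nat_lit 0) (nat_lit 32930958088) (nat_lit 152) (nat_lit 824717843) (nat_lit 0) (nat_lit 9065543445) (nat_lit 9) (nat_lit 5) (nat_lit 11) (nat_lit 4) (nat_lit 9) (nat_lit 4) (nat_lit 374) (nat_lit 242) (nat_lit 164)) (XT.nd (nat_lit 78) (nat_lit 0) (nat_lit 0) (XT.lf (nat_lit 0) (nat_lit 5460821418) (nat_lit 76) (nat_lit 31238776300) (nat_lit 76) (nat_lit 7296384408) (nat_lit 8) (nat_lit 4) (nat_lit 9) (nat_lit 5) (nat_lit 9) (nat_lit 4) (nat_lit 375) (nat_lit 242) (nat_lit 163)) (XT.lf (nat_lit 0) (nat_lit 11921567920) (nat_lit 76) (nat_lit 28650911918) (nat_lit 76) (nat_lit 4633784834) (nat_lit 8) (nat_lit 4) (nat_lit 9) (nat_lit 5) (nat_lit 9) (nat_lit 4) (nat_lit 376) (nat_lit 242) (nat_lit 162)))) (XT.nd (nat_lit 78) (nat_lit 76) (nat_lit 0) (XT.lf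 (nat_lit 0) (nat_lit 18546753472) (nat_lit 76) (nat_lit 25998149579) (nat_lit 76) (nat_lit 1908464056) (nat_lit 8) (nat_lit 4) (nat_lit 9) (nat_lit 5) (nat_lit 9) (nat_lit 4) (nat_lit 377) (nat_lit 242) (nat_lit 161)) (XT.nd (nat_lit 78) (nat_lit 0) (nat_lit 0) (XT.lf (nat_lit 0) (nat_lit 864749072) (nat_lit 152) (nat_lit 22404689993) (nat_lit 76) (nat_lit 24468685728) (nat_lit 7) (nat_lit 5) (nat_lit 9) (nat_lit 5) (nat_lit 8) (nat_lit 4) (nat_lit 378) (nat_lit 242) (nat_lit 160)) (XT.lf (nat_lit 0) (nat_lit 3666944015) (nat_lit 152) (nat_lit 16784627546) (nat_lit 76) (nat_lit 28609773497) (nat_lit 7) (nat_lit 5) (nat_lit 9) (nat_lit 5) (nat_lit 8) (nat_lit 4) (nat_lit 379) (nat_lit 242) (nat_lit 159)))))) (XT.nd (nat_lit 468) (nat_lit 0) (nat_lit 0) (XT.nd (nat_lit 234) (nat_lit 0) (nat_lit 0) (XT.nd (nat_lit 78) (nat_lit 76) (nat_lit 0) (XT.lf (nat_lit 0) (nat_lit 6537810300) (nat_lit 152)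 (nat_lit 11023170238) (nat_lit 76) (nat_lit 32863753937) (nat_lit 7) (nat_lit 5) (nat_lit 9) (nat_lit 5) (nat_lit 8) (nat_lit 4) (nat_lit 380) (nat_lit 242) (nat_lit 158)) (XT.nd (nat_lit 78) (nat_lit 76) (nat_lit 0) (XT.lf (nat_lit 0) (nat_lit 9479856452) (nat_lit 152) (nat_lit 5115283784) (nat_lit 76) (nat_lit 37234344117) (nat_lit 7) (nat_lit 5) (nat_lit 9) (nat_lit 5) (nat_lit 8) (nat_lit 4) (nat_lit 381) (nat_lit 242) (nat_lit 157)) (XT.lf (nat_lit 0) (nat_lit 962985358) (nat_lit 76) (nat_lit 11541924635) (nat_lit 152) (nat_lit 40771634446) (nat_lit 6) (nat_lit 5) (nat_lit 7) (nat_lit 5) (nat_lit 8) (nat_lit 4) (nat_lit 382) (nat_lit 242) (nat_lit 156)))) (XT.nd (nat_lit 78) (nat_lit 0) (nat_lit 0) (XT.lf (nat_lit 0) (nat_lit 7303067084) (nat_lit 76) (nat_lit 8354970139) (nat_lit 152) (nat_lit 39107869242) (nat_lit 6) (nat_lit 5) (nat_lit 7) (nat_lit 5) (nat_lit 8) (nat_lit 4) (nat_lit 383)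 (nat_lit 242) (nat_lit 155)) (XT.nd (nat_lit 78) (nat_lit 0) (nat_lit 0) (XT.lf (nat_lit 0) (nat_lit 13808697093) (nat_lit 76) (nat_lit 5083146367) (nat_lit 152) (nat_lit 37408532850) (nat_lit 6) (nat_lit 5) (nat_lit 7) (nat_lit 5) (nat_lit 8) (nat_lit 4) (nat_lit 384) (nat_lit 242) (nat_lit 154)) (XT.lf (nat_lit 0) (nat_lit 20485559916) (nat_lit 76) (nat_lit 1723594443) (nat_lit 152) (nat_lit 35672140413) (nat_lit 6) (nat_lit 5) (nat_lit 7) (nat_lit 5) (nat_lit 8) (nat_lit 4) (nat_lit 385) (nat_lit 242) (nat_lit 153))))) (XT.nd (nat_lit 234) (nat_lit 0) (nat_lit 0) (XT.nd (nat_lit 78) (nat_lit 0) (nat_lit 0) (XT.lf (nat_lit 0) (nat_lit 25629465881) (nat_lit 152) (nat_lit 32187150870) (nat_lit 0) (nat_lit 1692928565) (nat_lit 6) (nat_lit 5) (nat_lit 8) (nat_lit 4) (nat_lit 6) (nat_lit 4) (nat_lit 386) (nat_lit 242) (nat_lit 152)) (XT.nd (nat_lit 78) (nat_lit 0) (nat_lit 0) (XT.lf (nat_lit 0)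 (nat_lit 29156623544) (nat_lit 152) (nat_lit 26862232966) (nat_lit 0) (nat_lit 5167668467) (nat_lit 6) (nat_lit 5) (nat_lit 8) (nat_lit 4) (nat_lit 6) (nat_lit 4) (nat_lit 387) (nat_lit 242) (nat_lit 151)) (XT.lf (nat_lit 0) (nat_lit 32777141087) (nat_lit 152) (nat_lit 21399760060) (nat_lit 0) (nat_lit 8737294981) (nat_lit 6) (nat_lit 5) (nat_lit 8) (nat_lit 4) (nat_lit 6) (nat_lit 4) (nat_lit 388) (nat_lit 242) (nat_lit 150)))) (XT.nd (nat_lit 78) (nat_lit 0) (nat_lit 0) (XT.lf (nat_lit 0) (nat_lit 36494182069) (nat_lit 152) (nat_lit 15794959117) (nat_lit 0) (nat_lit 12404927196) (nat_lit 6) (nat_lit 5) (nat_lit 8) (nat_lit 4) (nat_lit 6) (nat_lit 4) (nat_lit 389) (nat_lit 242) (nat_lit 149)) (XT.nd (nat_lit 78) (nat_lit 0) (nat_lit 0) (XT.lf (nat_lit 0) (nat_lit 40310994390) (nat_lit 152) (nat_lit 10042932738) (nat_lit 0) (nat_lit 16173769841) (nat_lit 6) (nat_lit 5) (nat_lit 8) (nat_lit 4)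 (nat_lit 6) (nat_lit 4) (nat_lit 390) (nat_lit 242) (nat_lit 148)) (XT.lf (nat_lit 0) (nat_lit 44230913128) (nat_lit 152) (nat_lit 4138654880) (nat_lit 0) (nat_lit 20047116077) (nat_lit 6) (nat_lit 5) (nat_lit 8) (nat_lit 4) (nat_lit 6) (nat_lit 4) (nat_lit 391) (nat_lit 242) (nat_lit 147))))))))
noncomputable def xc64 : XT := (XT.nd (nat_lit 33930) (nat_lit 0) (nat_lit 2280) (XT.nd (nat_lit 32994) (nat_lit 0) (nat_lit 5624) (XT.nd (nat_lit 390) (nat_lit 76) (nat_lit 0) (XT.nd (nat_lit 156) (nat_lit 0) (nat_lit 0) (XT.nd (nat_lit 78) (nat_lit 0) (nat_lit 0) (XT.lf (nat_lit 0) (nat_lit 1961305671) (nat_lit 76) (nat_lit 46314911053) (nat_lit 76) (nat_lit 22085897982) (nat_lit 5) (nat_lit 4) (nat_lit 6) (nat_lit 5) (nat_lit 6) (nat_lit 4) (nat_lit 392) (nat_lit 242) (nat_lit 146)) (XT.lf (nat_lit 0) (nat_lit 8309578939) (nat_lit 76) (nat_lit 44164161445) (nat_lit 76) (nat_lit 19891249325) (nat_lit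 5) (nat_lit 4) (nat_lit 6) (nat_lit 5) (nat_lit 6) (nat_lit 4) (nat_lit 393) (nat_lit 242) (nat_lit 145))) (XT.nd (nat_lit 78) (nat_lit 0) (nat_lit 0) (XT.lf (nat_lit 0) (nat_lit 14829344611) (nat_lit 76) (nat_lit 41957232187) (nat_lit 76) (nat_lit 17641699631) (nat_lit 5) (nat_lit 4) (nat_lit 6) (nat_lit 5) (nat_lit 6) (nat_lit 4) (nat_lit 394) (nat_lit 242) (nat_lit 144)) (XT.nd (nat_lit 78) (nat_lit 0) (nat_lit 0) (XT.lf (nat_lit 0) (nat_lit 21526299570) (nat_lit 76) (nat_lit 39692194895) (nat_lit 76) (nat_lit 15335283275) (nat_lit 5) (nat_lit 4) (nat_lit 6) (nat_lit 5) (nat_lit 6) (nat_lit 4) (nat_lit 395) (nat_lit 242) (nat_lit 143)) (XT.lf (nat_lit 0) (nat_lit 28406295523) (nat_lit 76) (nat_lit 37367070409) (nat_lit 76) (nat_lit 12969984940) (nat_lit 5) (nat_lit 4) (nat_lit 6) (nat_lit 5) (nat_lit 6) (nat_lit 4) (nat_lit 396) (nat_lit 242) (nat_lit 142))))) (XT.nd (nat_lit 234) (nat_lit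 76) (nat_lit 0) (XT.nd (nat_lit 78) (nat_lit 0) (nat_lit 0) (XT.lf (nat_lit 0) (nat_lit 35475344118) (nat_lit 76) (nat_lit 34979827068) (nat_lit 76) (nat_lit 10543737863) (nat_lit 5) (nat_lit 4) (nat_lit 6) (nat_lit 5) (nat_lit 6) (nat_lit 4) (nat_lit 397) (nat_lit 242) (nat_lit 141)) (XT.nd (nat_lit 78) (nat_lit 0) (nat_lit 0) (XT.lf (nat_lit 0) (nat_lit 42739622193) (nat_lit 76) (nat_lit 32528378931) (nat_lit 76) (nat_lit 8054422020) (nat_lit 5) (nat_lit 4) (nat_lit 6) (nat_lit 5) (nat_lit 6) (nat_lit 4) (nat_lit 398) (nat_lit 242) (nat_lit 140)) (XT.lf (nat_lit 0) (nat_lit 50205477176) (nat_lit 76) (nat_lit 30010583956) (nat_lit 76) (nat_lit 5499862282) (nat_lit 5) (nat_lit 4) (nat_lit 6) (nat_lit 5) (nat_lit 6) (nat_lit 4) (nat_lit 399) (nat_lit 242) (nat_lit 139)))) (XT.nd (nat_lit 78) (nat_lit 76) (nat_lit 0) (XT.lf (nat_lit 0) (nat_lit 57879432630) (nat_lit 76) (nat_lit 27424242127) (nat_lit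 76) (nat_lit 2877826509) (nat_lit 5) (nat_lit 4) (nat_lit 6) (nat_lit 5) (nat_lit 6) (nat_lit 4) (nat_lit 400) (nat_lit 242) (nat_lit 138)) (XT.nd (nat_lit 78) (nat_lit 76) (nat_lit 0) (XT.lf (nat_lit 0) (nat_lit 65768193951) (nat_lit 76) (nat_lit 24767093534) (nat_lit 76) (nat_lit 186023602) (nat_lit 5) (nat_lit 4) (nat_lit 6) (nat_lit 5) (nat_lit 6) (nat_lit 4) (nat_lit 401) (nat_lit 242) (nat_lit 137)) (XT.lf (nat_lit 0) (nat_lit 2527594414) (nat_lit 152) (nat_lit 19483698236) (nat_lit 76) (nat_lit 71325536072) (nat_lit 4) (nat_lit 5) (nat_lit 6) (nat_lit 5) (nat_lit 5) (nat_lit 4) (nat_lit 402) (nat_lit 242) (nat_lit 136)))))) (XT.nd (nat_lit 468) (nat_lit 1596) (nat_lit 0) (XT.nd (nat_lit 234) (nat_lit 912) (nat_lit 0) (XT.nd (nat_lit 78) (nat_lit 532) (nat_lit 0) (XT.lf (nat_lit 0) (nat_lit 1294107815) (nat_lit 532) (nat_lit 1320763385) (nat_lit 532) (nat_lit 1320763385) (nat_lit 118) (nat_lit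 4) (nat_lit 125) (nat_lit 5) (nat_lit 125) (nat_lit 4) (nat_lit 294) (nat_lit 243) (nat_lit 243)) (XT.nd (nat_lit 78) (nat_lit 456) (nat_lit 0) (XT.lf (nat_lit 0) (nat_lit 531754868) (nat_lit 608) (nat_lit 196678815) (nat_lit 76) (nat_lit 7235151094) (nat_lit 117) (nat_lit 5) (nat_lit 125) (nat_lit 5) (nat_lit 118) (nat_lit 4) (nat_lit 295) (nat_lit 243) (nat_lit 242)) (XT.lf (nat_lit 0) (nat_lit 3721154042) (nat_lit 532) (nat_lit 3058414121) (nat_lit 0) (nat_lit 1279296530) (nat_lit 111) (nat_lit 5) (nat_lit 118) (nat_lit 4) (nat_lit 111) (nat_lit 4) (nat_lit 296) (nat_lit 243) (nat_lit 241)))) (XT.nd (nat_lit 78) (nat_lit 456) (nat_lit 0) (XT.lf (nat_lit 0) (nat_lit 2132751114) (nat_lit 456) (nat_lit 4817910280) (nat_lit 456) (nat_lit 1208202794) (nat_lit 105) (nat_lit 4) (nat_lit 111) (nat_lit 5) (nat_lit 111) (nat_lit 4) (nat_lit 297) (nat_lit 243) (nat_lit 240)) (XT.nd (nat_lit 78) (nat_lit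 380) (nat_lit 0) (XT.lf (nat_lit 0) (nat_lit 1922260552) (nat_lit 532) (nat_lit 841353491) (nat_lit 76) (nat_lit 5499459507) (nat_lit 104) (nat_lit 5) (nat_lit 111) (nat_lit 5) (nat_lit 105) (nat_lit 4) (nat_lit 298) (nat_lit 243) (nat_lit 239)) (XT.lf (nat_lit 0) (nat_lit 4474211825) (nat_lit 380) (nat_lit 608825044) (nat_lit 456) (nat_lit 3288370477) (nat_lit 99) (nat_lit 5) (nat_lit 104) (nat_lit 5) (nat_lit 105) (nat_lit 4) (nat_lit 299) (nat_lit 243) (nat_lit 238))))) (XT.nd (nat_lit 234) (nat_lit 760) (nat_lit 0) (XT.nd (nat_lit 78) (nat_lit 456) (nat_lit 0) (XT.lf (nat_lit 0) (nat_lit 1393862708) (nat_lit 380) (nat_lit 6901178683) (nat_lit 380) (nat_lit 189429959) (nat_lit 94) (nat_lit 4) (nat_lit 99) (nat_lit 5) (nat_lit 99) (nat_lit 4) (nat_lit 300) (nat_lit 243) (nat_lit 237)) (XT.nd (nat_lit 78) (nat_lit 380) (nat_lit 0) (XT.lf (nat_lit 0) (nat_lit 2909046933) (nat_lit 456) (nat_lit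 1813781095) (nat_lit 76) (nat_lit 3878441121) (nat_lit 93) (nat_lit 5) (nat_lit 99) (nat_lit 5) (nat_lit 94) (nat_lit 4) (nat_lit 301) (nat_lit 243) (nat_lit 236)) (XT.lf (nat_lit 0) (nat_lit 3590216766) (nat_lit 380) (nat_lit 2462699048) (nat_lit 456) (nat_lit 2670069165) (nat_lit 88) (nat_lit 5) (nat_lit 93) (nat_lit 5) (nat_lit 94) (nat_lit 4) (nat_lit 302) (nat_lit 243) (nat_lit 235)))) (XT.nd (nat_lit 78) (nat_lit 304) (nat_lit 0) (XT.lf (nat_lit 0) (nat_lit 246034957) (nat_lit 380) (nat_lit 131092021) (nat_lit 456) (nat_lit 8472955747) (nat_lit 82) (nat_lit 5) (nat_lit 87) (nat_lit 5) (nat_lit 88) (nat_lit 5) (nat_lit 303) (nat_lit 243) (nat_lit 234)) (XT.nd (nat_lit 78) (nat_lit 304) (nat_lit 0) (XT.lf (nat_lit 0) (nat_lit 3459496999) (nat_lit 456) (nat_lit 3238078173) (nat_lit 76) (nat_lit 2282846759) (nat_lit 82) (nat_lit 5) (nat_lit 88) (nat_lit 5) (nat_lit 83) (nat_lit 4) (nat_lit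 304) (nat_lit 243) (nat_lit 233)) (XT.lf (nat_lit 0) (nat_lit 2232808678) (nat_lit 304) (nat_lit 4349780395) (nat_lit 380) (nat_lit 2533774838) (nat_lit 78) (nat_lit 5) (nat_lit 82) (nat_lit 5) (nat_lit 83) (nat_lit 4) (nat_lit 305) (nat_lit 243) (nat_lit 232))))))) (XT.nd (nat_lit 858) (nat_lit 1368) (nat_lit 0) (XT.nd (nat_lit 390) (nat_lit 912) (nat_lit 0) (XT.nd (nat_lit 156) (nat_lit 684) (nat_lit 0) (XT.nd (nat_lit 78) (nat_lit 304) (nat_lit 0) (XT.lf (nat_lit 0) (nat_lit 491281268) (nat_lit 380) (nat_lit 1425724419) (nat_lit 76) (nat_lit 7340587345) (nat_lit 77) (nat_lit 5) (nat_lit 82) (nat_lit 5) (nat_lit 78) (nat_lit 5) (nat_lit 306) (nat_lit 243) (nat_lit 231)) (XT.lf (nat_lit 0) (nat_lit 3530206320) (nat_lit 380) (nat_lit 5253713485) (nat_lit 76) (nat_lit 619293544) (nat_lit 73) (nat_lit 5) (nat_lit 78) (nat_lit 5) (nat_lit 74) (nat_lit 4) (nat_lit 307) (nat_lit 243) (nat_lit 230)))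 (XT.nd (nat_lit 78) (nat_lit 380) (nat_lit 0) (XT.lf (nat_lit 0) (nat_lit 257165181) (nat_lit 304) (nat_lit 6368097828) (nat_lit 380) (nat_lit 2929114851) (nat_lit 69) (nat_lit 5) (nat_lit 73) (nat_lit 5) (nat_lit 74) (nat_lit 4) (nat_lit 308) (nat_lit 243) (nat_lit 229)) (XT.nd (nat_lit 78) (nat_lit 304) (nat_lit 0) (XT.lf (nat_lit 0) (nat_lit 83965334) (nat_lit 380) (nat_lit 3766674233) (nat_lit 76) (nat_lit 5860038874) (nat_lit 68) (nat_lit 5) (nat_lit 73) (nat_lit 5) (nat_lit 69) (nat_lit 5) (nat_lit 309) (nat_lit 243) (nat_lit 228)) (XT.lf (nat_lit 0) (nat_lit 1841828279) (nat_lit 304) (nat_lit 1235806687) (nat_lit 380) (nat_lit 6794804897) (nat_lit 64) (nat_lit 5) (nat_lit 68) (nat_lit 5) (nat_lit 69) (nat_lit 5) (nat_lit 310) (nat_lit 243) (nat_lit 227))))) (XT.nd (nat_lit 234) (nat_lit 608) (nat_lit 0) (XT.nd (nat_lit 78) (nat_lit 304) (nat_lit 0) (XT.lf (nat_lit 0) (nat_lit 6145743871)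 (nat_lit 380) (nat_lit 2452344913) (nat_lit 76) (nat_lit 1441537083) (nat_lit 64) (nat_lit 5) (nat_lit 69) (nat_lit 5) (nat_lit 65) (nat_lit 4) (nat_lit 311) (nat_lit 243) (nat_lit 226)) (XT.nd (nat_lit 78) (nat_lit 76) (nat_lit 0) (XT.lf (nat_lit 0) (nat_lit 3251428541) (nat_lit 228) (nat_lit 6032138964) (nat_lit 304) (nat_lit 929037201) (nat_lit 61) (nat_lit 5) (nat_lit 64) (nat_lit 5) (nat_lit 65) (nat_lit 4) (nat_lit 312) (nat_lit 243) (nat_lit 225)) (XT.lf (nat_lit 0) (nat_lit 2042769101) (nat_lit 304) (nat_lit 1327659479) (nat_lit 76) (nat_lit 7021048495) (nat_lit 60) (nat_lit 5) (nat_lit 64) (nat_lit 5) (nat_lit 61) (nat_lit 5) (nat_lit 313) (nat_lit 243) (nat_lit 224)))) (XT.nd (nat_lit 78) (nat_lit 304) (nat_lit 0) (XT.lf (nat_lit 0) (nat_lit 4461911170) (nat_lit 304) (nat_lit 602413679) (nat_lit 380) (nat_lit 5511835058) (nat_lit 56) (nat_lit 5) (nat_lit 60) (nat_lit 5) (nat_lit 61)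 (nat_lit 5) (nat_lit 314) (nat_lit 243) (nat_lit 223)) (XT.nd (nat_lit 78) (nat_lit 304) (nat_lit 0) (XT.lf (nat_lit 0) (nat_lit 8148785676) (nat_lit 380) (nat_lit 426987176) (nat_lit 76) (nat_lit 2191538040) (nat_lit 56) (nat_lit 5) (nat_lit 61) (nat_lit 5) (nat_lit 57) (nat_lit 4) (nat_lit 315) (nat_lit 243) (nat_lit 222)) (XT.lf (nat_lit 0) (nat_lit 351622982) (nat_lit 304) (nat_lit 5525669788) (nat_lit 76) (nat_lit 5086976460) (nat_lit 52) (nat_lit 5) (nat_lit 56) (nat_lit 5) (nat_lit 53) (nat_lit 5) (nat_lit 316) (nat_lit 243) (nat_lit 221)))))) (XT.nd (nat_lit 468) (nat_lit 608) (nat_lit 0) (XT.nd (nat_lit 234) (nat_lit 304) (nat_lit 0) (XT.nd (nat_lit 78) (nat_lit 228) (nat_lit 0) (XT.lf (nat_lit 0) (nat_lit 210642275) (nat_lit 228) (nat_lit 3093166490) (nat_lit 304) (nat_lit 7864270210) (nat_lit 49) (nat_lit 5) (nat_lit 52) (nat_lit 5) (nat_lit 53) (nat_lit 5) (nat_lit 317) (nat_lit 243)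 (nat_lit 220)) (XT.nd (nat_lit 78) (nat_lit 228) (nat_lit 0) (XT.lf (nat_lit 0) (nat_lit 6143792031) (nat_lit 228) (nat_lit 196670593) (nat_lit 304) (nat_lit 5037748091) (nat_lit 49) (nat_lit 5) (nat_lit 52) (nat_lit 5) (nat_lit 53) (nat_lit 5) (nat_lit 318) (nat_lit 243) (nat_lit 219)) (XT.lf (nat_lit 0) (nat_lit 556864801) (nat_lit 228) (nat_lit 8885073336) (nat_lit 304) (nat_lit 2153578919) (nat_lit 46) (nat_lit 5) (nat_lit 49) (nat_lit 5) (nat_lit 50) (nat_lit 4) (nat_lit 319) (nat_lit 243) (nat_lit 218)))) (XT.nd (nat_lit 78) (nat_lit 228) (nat_lit 0) (XT.lf (nat_lit 0) (nat_lit 798300317) (nat_lit 304) (nat_lit 5286776620) (nat_lit 76) (nat_lit 5734193702) (nat_lit 45) (nat_lit 5) (nat_lit 49) (nat_lit 5) (nat_lit 46) (nat_lit 5) (nat_lit 320) (nat_lit 243) (nat_lit 217)) (XT.nd (nat_lit 78) (nat_lit 0) (nat_lit 0) (XT.lf (nat_lit 0) (nat_lit 541578726) (nat_lit 228) (nat_lit 3202575394)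 (nat_lit 304) (nat_lit 8306557270) (nat_lit 42) (nat_lit 5) (nat_lit 45) (nat_lit 5) (nat_lit 46) (nat_lit 5) (nat_lit 321) (nat_lit 243) (nat_lit 216)) (XT.lf (nat_lit 0) (nat_lit 6568672819) (nat_lit 228) (nat_lit 207427392) (nat_lit 304) (nat_lit 5513136782) (nat_lit 42) (nat_lit 5) (nat_lit 45) (nat_lit 5) (nat_lit 46) (nat_lit 5) (nat_lit 322) (nat_lit 243) (nat_lit 215))))) (XT.nd (nat_lit 234) (nat_lit 380) (nat_lit 0) (XT.nd (nat_lit 78) (nat_lit 76) (nat_lit 0) (XT.lf (nat_lit 0) (nat_lit 133150181) (nat_lit 152) (nat_lit 9740478539) (nat_lit 228) (nat_lit 2662121924) (nat_lit 40) (nat_lit 5) (nat_lit 42) (nat_lit 5) (nat_lit 43) (nat_lit 4) (nat_lit 323) (nat_lit 243) (nat_lit 214)) (XT.nd (nat_lit 78) (nat_lit 0) (nat_lit 0) (XT.lf (nat_lit 0) (nat_lit 275333829) (nat_lit 228) (nat_lit 6597222841) (nat_lit 76) (nat_lit 5916902861) (nat_lit 39) (nat_lit 5) (nat_lit 42) (nat_lit 5) (nat_lit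 40) (nat_lit 5) (nat_lit 324) (nat_lit 243) (nat_lit 213)) (XT.lf (nat_lit 0) (nat_lit 3194857024) (nat_lit 228) (nat_lit 725375946) (nat_lit 76) (nat_lit 9131397466) (nat_lit 39) (nat_lit 5) (nat_lit 42) (nat_lit 5) (nat_lit 40) (nat_lit 5) (nat_lit 325) (nat_lit 243) (nat_lit 212)))) (XT.nd (nat_lit 78) (nat_lit 152) (nat_lit 0) (XT.lf (nat_lit 0) (nat_lit 5348020037) (nat_lit 228) (nat_lit 854334690) (nat_lit 304) (nat_lit 7119363163) (nat_lit 36) (nat_lit 5) (nat_lit 39) (nat_lit 5) (nat_lit 40) (nat_lit 5) (nat_lit 326) (nat_lit 243) (nat_lit 211)) (XT.nd (nat_lit 78) (nat_lit 152) (nat_lit 0) (XT.lf (nat_lit 0) (nat_lit 9279064309) (nat_lit 304) (nat_lit 2082909223) (nat_lit 76) (nat_lit 2238626073) (nat_lit 36) (nat_lit 5) (nat_lit 40) (nat_lit 5) (nat_lit 37) (nat_lit 4) (nat_lit 327) (nat_lit 243) (nat_lit 210)) (XT.lf (nat_lit 0) (nat_lit 3976563883) (nat_lit 152) (nat_lit 8469114158)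 (nat_lit 228) (nat_lit 1442301107) (nat_lit 34) (nat_lit 5) (nat_lit 36) (nat_lit 5) (nat_lit 37) (nat_lit 4) (nat_lit 328) (nat_lit 243) (nat_lit 209))))))))
noncomputable def xc65 : XT := (XT.nd (nat_lit 1794) (nat_lit 608) (nat_lit 0) (XT.nd (nat_lit 858) (nat_lit 608) (nat_lit 0) (XT.nd (nat_lit 390) (nat_lit 380) (nat_lit 0) (XT.nd (nat_lit 156) (nat_lit 152) (nat_lit 0) (XT.nd (nat_lit 78) (nat_lit 152) (nat_lit 0) (XT.lf (nat_lit 0) (nat_lit 1465904597) (nat_lit 228) (nat_lit 4015132093) (nat_lit 76) (nat_lit 8703390554) (nat_lit 33) (nat_lit 5) (nat_lit 36) (nat_lit 5) (nat_lit 34) (nat_lit 5) (nat_lit 329) (nat_lit 243) (nat_lit 208)) (XT.lf (nat_lit 0) (nat_lit 2007742947) (nat_lit 152) (nat_lit 2396427467) (nat_lit 228) (nat_lit 10086070296) (nat_lit 31) (nat_lit 5) (nat_lit 33) (nat_lit 5) (nat_lit 34) (nat_lit 5) (nat_lit 330) (nat_lit 243) (nat_lit 207))) (XT.nd (nat_lit 78) (nat_lit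 152) (nat_lit 0) (XT.lf (nat_lit 0) (nat_lit 7431940569) (nat_lit 228) (nat_lit 6593957553) (nat_lit 76) (nat_lit 779342599) (nat_lit 31) (nat_lit 5) (nat_lit 34) (nat_lit 5) (nat_lit 32) (nat_lit 4) (nat_lit 331) (nat_lit 243) (nat_lit 206)) (XT.nd (nat_lit 78) (nat_lit 152) (nat_lit 0) (XT.lf (nat_lit 0) (nat_lit 10528547731) (nat_lit 228) (nat_lit 625934393) (nat_lit 76) (nat_lit 3975919785) (nat_lit 31) (nat_lit 5) (nat_lit 34) (nat_lit 5) (nat_lit 32) (nat_lit 4) (nat_lit 332) (nat_lit 243) (nat_lit 205)) (XT.lf (nat_lit 0) (nat_lit 5558284574) (nat_lit 152) (nat_lit 8168806806) (nat_lit 228) (nat_lit 1738005203) (nat_lit 29) (nat_lit 5) (nat_lit 31) (nat_lit 5) (nat_lit 32) (nat_lit 4) (nat_lit 333) (nat_lit 243) (nat_lit 204))))) (XT.nd (nat_lit 234) (nat_lit 152) (nat_lit 0) (XT.nd (nat_lit 78) (nat_lit 152) (nat_lit 0) (XT.lf (nat_lit 0) (nat_lit 1150238768) (nat_lit 228) (nat_lit 3952027788)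 (nat_lit 76) (nat_lit 10708399276) (nat_lit 28) (nat_lit 5) (nat_lit 31) (nat_lit 5) (nat_lit 29) (nat_lit 5) (nat_lit 334) (nat_lit 243) (nat_lit 203)) (XT.nd (nat_lit 78) (nat_lit 0) (nat_lit 0) (XT.lf (nat_lit 0) (nat_lit 2136429269) (nat_lit 152) (nat_lit 1931336362) (nat_lit 228) (nat_lit 12099038830) (nat_lit 26) (nat_lit 5) (nat_lit 28) (nat_lit 5) (nat_lit 29) (nat_lit 5) (nat_lit 335) (nat_lit 243) (nat_lit 202)) (XT.lf (nat_lit 0) (nat_lit 7083319158) (nat_lit 228) (nat_lit 8126935712) (nat_lit 76) (nat_lit 1323101599) (nat_lit 26) (nat_lit 5) (nat_lit 29) (nat_lit 5) (nat_lit 27) (nat_lit 4) (nat_lit 336) (nat_lit 243) (nat_lit 201)))) (XT.nd (nat_lit 78) (nat_lit 152) (nat_lit 0) (XT.lf (nat_lit 0) (nat_lit 10167070983) (nat_lit 228) (nat_lit 2133314354) (nat_lit 76) (nat_lit 4611230706) (nat_lit 26) (nat_lit 5) (nat_lit 29) (nat_lit 5) (nat_lit 27) (nat_lit 4) (nat_lit 337) (nat_lit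 243) (nat_lit 200)) (XT.nd (nat_lit 78) (nat_lit 0) (nat_lit 0) (XT.lf (nat_lit 0) (nat_lit 4053387399) (nat_lit 152) (nat_lit 9288726701) (nat_lit 228) (nat_lit 3959187648) (nat_lit 24) (nat_lit 5) (nat_lit 26) (nat_lit 5) (nat_lit 27) (nat_lit 4) (nat_lit 338) (nat_lit 243) (nat_lit 199)) (XT.lf (nat_lit 0) (nat_lit 10404241964) (nat_lit 152) (nat_lit 6190067829) (nat_lit 228) (nat_lit 1108951683) (nat_lit 24) (nat_lit 5) (nat_lit 26) (nat_lit 5) (nat_lit 27) (nat_lit 4) (nat_lit 339) (nat_lit 243) (nat_lit 198)))))) (XT.nd (nat_lit 468) (nat_lit 304) (nat_lit 0) (XT.nd (nat_lit 234) (nat_lit 76) (nat_lit 0) (XT.nd (nat_lit 78) (nat_lit 152) (nat_lit 0) (XT.lf (nat_lit 0) (nat_lit 1752238066) (nat_lit 228) (nat_lit 1253311215) (nat_lit 76) (nat_lit 15112409257) (nat_lit 23) (nat_lit 5) (nat_lit 26) (nat_lit 5) (nat_lit 24) (nat_lit 5) (nat_lit 340) (nat_lit 243) (nat_lit 197)) (XT.nd (nat_lit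 78) (nat_lit 0) (nat_lit 0) (XT.lf (nat_lit 0) (nat_lit 4690234621) (nat_lit 228) (nat_lit 13549391011) (nat_lit 76) (nat_lit 304780743) (nat_lit 21) (nat_lit 5) (nat_lit 24) (nat_lit 5) (nat_lit 22) (nat_lit 4) (nat_lit 341) (nat_lit 243) (nat_lit 196)) (XT.lf (nat_lit 0) (nat_lit 7721411256) (nat_lit 228) (nat_lit 7619203934) (nat_lit 76) (nat_lit 3642917229) (nat_lit 21) (nat_lit 5) (nat_lit 24) (nat_lit 5) (nat_lit 22) (nat_lit 4) (nat_lit 342) (nat_lit 243) (nat_lit 195)))) (XT.nd (nat_lit 78) (nat_lit 76) (nat_lit 0) (XT.lf (nat_lit 0) (nat_lit 10807116369) (nat_lit 228) (nat_lit 1571825942) (nat_lit 76) (nat_lit 7058017064) (nat_lit 21) (nat_lit 5) (nat_lit 24) (nat_lit 5) (nat_lit 22) (nat_lit 4) (nat_lit 343) (nat_lit 243) (nat_lit 194)) (XT.nd (nat_lit 78) (nat_lit 0) (nat_lit 0) (XT.lf (nat_lit 0) (nat_lit 4689536835) (nat_lit 76) (nat_lit 9305588071) (nat_lit 152) (nat_lit 5908606178)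 (nat_lit 20) (nat_lit 5) (nat_lit 21) (nat_lit 5) (nat_lit 22) (nat_lit 4) (nat_lit 344) (nat_lit 243) (nat_lit 193)) (XT.lf (nat_lit 0) (nat_lit 11112592984) (nat_lit 76) (nat_lit 6147175084) (nat_lit 152) (nat_lit 3125340969) (nat_lit 20) (nat_lit 5) (nat_lit 21) (nat_lit 5) (nat_lit 22) (nat_lit 4) (nat_lit 345) (nat_lit 243) (nat_lit 192))))) (XT.nd (nat_lit 234) (nat_lit 76) (nat_lit 0) (XT.nd (nat_lit 78) (nat_lit 228) (nat_lit 0) (XT.lf (nat_lit 0) (nat_lit 17671672465) (nat_lit 76) (nat_lit 2916815931) (nat_lit 152) (nat_lit 293487759) (nat_lit 20) (nat_lit 5) (nat_lit 21) (nat_lit 5) (nat_lit 22) (nat_lit 4) (nat_lit 346) (nat_lit 243) (nat_lit 191)) (XT.nd (nat_lit 78) (nat_lit 0) (nat_lit 0) (XT.lf (nat_lit 0) (nat_lit 2572114086) (nat_lit 228) (nat_lit 18385800914) (nat_lit 76) (nat_lit 435108402) (nat_lit 17) (nat_lit 5) (nat_lit 20) (nat_lit 5) (nat_lit 18) (nat_lit 4) (nat_lit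 347) (nat_lit 243) (nat_lit 190)) (XT.lf (nat_lit 0) (nat_lit 5546394126) (nat_lit 228) (nat_lit 12529414360) (nat_lit 76) (nat_lit 3842677389) (nat_lit 17) (nat_lit 5) (nat_lit 20) (nat_lit 5) (nat_lit 18) (nat_lit 4) (nat_lit 348) (nat_lit 243) (nat_lit 189)))) (XT.nd (nat_lit 78) (nat_lit 76) (nat_lit 0) (XT.lf (nat_lit 0) (nat_lit 8577854845) (nat_lit 228) (nat_lit 6551667479) (nat_lit 76) (nat_lit 7331179731) (nat_lit 17) (nat_lit 5) (nat_lit 20) (nat_lit 5) (nat_lit 18) (nat_lit 4) (nat_lit 349) (nat_lit 243) (nat_lit 188)) (XT.nd (nat_lit 78) (nat_lit 76) (nat_lit 0) (XT.lf (nat_lit 0) (nat_lit 11669145091) (nat_lit 228) (nat_lit 447336994) (nat_lit 76) (nat_lit 10903663635) (nat_lit 17) (nat_lit 5) (nat_lit 20) (nat_lit 5) (nat_lit 18) (nat_lit 4) (nat_lit 350) (nat_lit 243) (nat_lit 187)) (XT.lf (nat_lit 0) (nat_lit 5904121653) (nat_lit 76) (nat_lit 8975598369) (nat_lit 152) (nat_lit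 8715883065) (nat_lit 16) (nat_lit 5) (nat_lit 17) (nat_lit 5) (nat_lit 18) (nat_lit 4) (nat_lit 351) (nat_lit 243) (nat_lit 186))))))) (XT.nd (nat_lit 936) (nat_lit 304) (nat_lit 0) (XT.nd (nat_lit 468) (nat_lit 76) (nat_lit 0) (XT.nd (nat_lit 234) (nat_lit 76) (nat_lit 0) (XT.nd (nat_lit 78) (nat_lit 152) (nat_lit 0) (XT.lf (nat_lit 0) (nat_lit 12404583681) (nat_lit 76) (nat_lit 5756730080) (nat_lit 152) (nat_lit 6027795355) (nat_lit 16) (nat_lit 5) (nat_lit 17) (nat_lit 5) (nat_lit 18) (nat_lit 4) (nat_lit 352) (nat_lit 243) (nat_lit 185)) (XT.nd (nat_lit 78) (nat_lit 152) (nat_lit 0) (XT.lf (nat_lit 0) (nat_lit 19050826223) (nat_lit 76) (nat_lit 2461581843) (nat_lit 152) (nat_lit 3288905911) (nat_lit 16) (nat_lit 5) (nat_lit 17) (nat_lit 5) (nat_lit 18) (nat_lit 4) (nat_lit 353) (nat_lit 243) (nat_lit 184)) (XT.lf (nat_lit 0) (nat_lit 415233085) (nat_lit 152) (nat_lit 24533463143) (nat_lit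 152) (nat_lit 483673423) (nat_lit 14) (nat_lit 4) (nat_lit 16) (nat_lit 5) (nat_lit 16) (nat_lit 4) (nat_lit 354) (nat_lit 243) (nat_lit 183)))) (XT.nd (nat_lit 78) (nat_lit 0) (nat_lit 0) (XT.lf (nat_lit 0) (nat_lit 2413556882) (nat_lit 228) (nat_lit 19293469605) (nat_lit 76) (nat_lit 4373016291) (nat_lit 13) (nat_lit 5) (nat_lit 16) (nat_lit 5) (nat_lit 14) (nat_lit 4) (nat_lit 355) (nat_lit 243) (nat_lit 182)) (XT.nd (nat_lit 78) (nat_lit 0) (nat_lit 0) (XT.lf (nat_lit 0) (nat_lit 5360574336) (nat_lit 228) (nat_lit 13450053646) (nat_lit 76) (nat_lit 7937219123) (nat_lit 13) (nat_lit 5) (nat_lit 16) (nat_lit 5) (nat_lit 14) (nat_lit 4) (nat_lit 356) (nat_lit 243) (nat_lit 181)) (XT.lf (nat_lit 0) (nat_lit 8369392213) (nat_lit 228) (nat_lit 7477133428) (nat_lit 76) (nat_lit 11589979991) (nat_lit 13) (nat_lit 5) (nat_lit 16) (nat_lit 5) (nat_lit 14) (nat_lit 4) (nat_lit 357) (nat_lit 243) (nat_lit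 180))))) (XT.nd (nat_lit 234) (nat_lit 0) (nat_lit 0) (XT.nd (nat_lit 78) (nat_lit 76) (nat_lit 0) (XT.lf (nat_lit 0) (nat_lit 11442639575) (nat_lit 228) (nat_lit 1369489895) (nat_lit 76) (nat_lit 15334490628) (nat_lit 13) (nat_lit 5) (nat_lit 16) (nat_lit 5) (nat_lit 14) (nat_lit 4) (nat_lit 358) (nat_lit 243) (nat_lit 179)) (XT.nd (nat_lit 78) (nat_lit 0) (nat_lit 0) (XT.lf (nat_lit 0) (nat_lit 4975299747) (nat_lit 76) (nat_lit 9655527663) (nat_lit 152) (nat_lit 14246548813) (nat_lit 12) (nat_lit 5) (nat_lit 13) (nat_lit 5) (nat_lit 14) (nat_lit 4) (nat_lit 359) (nat_lit 243) (nat_lit 178)) (XT.lf (nat_lit 0) (nat_lit 11495760293) (nat_lit 76) (nat_lit 6407966837) (nat_lit 152) (nat_lit 11726675833) (nat_lit 12) (nat_lit 5) (nat_lit 13) (nat_lit 5) (nat_lit 14) (nat_lit 4) (nat_lit 360) (nat_lit 243) (nat_lit 177)))) (XT.nd (nat_lit 78) (nat_lit 0) (nat_lit 0) (XT.lf (nat_lit 0) (nat_lit 18170333697)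 (nat_lit 76) (nat_lit 3080438482) (nat_lit 152) (nat_lit 9155988915) (nat_lit 12) (nat_lit 5) (nat_lit 13) (nat_lit 5) (nat_lit 14) (nat_lit 4) (nat_lit 361) (nat_lit 243) (nat_lit 176)) (XT.nd (nat_lit 78) (nat_lit 0) (nat_lit 0) (XT.lf (nat_lit 0) (nat_lit 24678058984) (nat_lit 152) (nat_lit 6205448701) (nat_lit 0) (nat_lit 323526146) (nat_lit 12) (nat_lit 5) (nat_lit 14) (nat_lit 4) (nat_lit 12) (nat_lit 4) (nat_lit 362) (nat_lit 243) (nat_lit 175)) (XT.lf (nat_lit 0) (nat_lit 28215844015) (nat_lit 152) (nat_lit 63698550) (nat_lit 0) (nat_lit 3751560027) (nat_lit 12) (nat_lit 5) (nat_lit 14) (nat_lit 4) (nat_lit 12) (nat_lit 4) (nat_lit 363) (nat_lit 243) (nat_lit 174)))))) (XT.nd (nat_lit 468) (nat_lit 76) (nat_lit 0) (XT.nd (nat_lit 234) (nat_lit 76) (nat_lit 0) (XT.nd (nat_lit 78) (nat_lit 76) (nat_lit 0) (XT.lf (nat_lit 0) (nat_lit 6347666532) (nat_lit 76) (nat_lit 25550958603) (nat_lit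 76) (nat_lit 980120101) (nat_lit 11) (nat_lit 4) (nat_lit 12) (nat_lit 5) (nat_lit 12) (nat_lit 4) (nat_lit 364) (nat_lit 243) (nat_lit 173)) (XT.nd (nat_lit 78) (nat_lit 0) (nat_lit 0) (XT.lf (nat_lit 0) (nat_lit 1880754570) (nat_lit 152) (nat_lit 20856357709) (nat_lit 76) (nat_lit 11014805894) (nat_lit 10) (nat_lit 5) (nat_lit 12) (nat_lit 5) (nat_lit 11) (nat_lit 4) (nat_lit 365) (nat_lit 243) (nat_lit 172)) (XT.lf (nat_lit 0) (nat_lit 4786290258) (nat_lit 152) (nat_lit 15058558112) (nat_lit 76) (nat_lit 14806806971) (nat_lit 10) (nat_lit 5) (nat_lit 12) (nat_lit 5) (nat_lit 11) (nat_lit 4) (nat_lit 366) (nat_lit 243) (nat_lit 171)))) (XT.nd (nat_lit 78) (nat_lit 76) (nat_lit 0) (XT.lf (nat_lit 0) (nat_lit 7758151452) (nat_lit 152) (nat_lit 9123192363) (nat_lit 76) (nat_lit 18697681750) (nat_lit 10) (nat_lit 5) (nat_lit 12) (nat_lit 5) (nat_lit 11) (nat_lit 4) (nat_lit 367) (nat_lit 243) (nat_lit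 170)) (XT.nd (nat_lit 78) (nat_lit 76) (nat_lit 0) (XT.lf (nat_lit 0) (nat_lit 10798934925) (nat_lit 152) (nat_lit 3045074219) (nat_lit 76) (nat_lit 22690830025) (nat_lit 10) (nat_lit 5) (nat_lit 12) (nat_lit 5) (nat_lit 11) (nat_lit 4) (nat_lit 368) (nat_lit 243) (nat_lit 169)) (XT.lf (nat_lit 0) (nat_lit 3244417568) (nat_lit 76) (nat_lit 10698067429) (nat_lit 152) (nat_lit 23576510712) (nat_lit 9) (nat_lit 5) (nat_lit 10) (nat_lit 5) (nat_lit 11) (nat_lit 4) (nat_lit 369) (nat_lit 243) (nat_lit 168))))) (XT.nd (nat_lit 234) (nat_lit 76) (nat_lit 0) (XT.nd (nat_lit 78) (nat_lit 0) (nat_lit 0) (XT.lf (nat_lit 0) (nat_lit 9751071054) (nat_lit 76) (nat_lit 7440621438) (nat_lit 152) (nat_lit 21340658317) (nat_lit 9) (nat_lit 5) (nat_lit 10) (nat_lit 5) (nat_lit 11) (nat_lit 4) (nat_lit 370) (nat_lit 243) (nat_lit 167)) (XT.nd (nat_lit 78) (nat_lit 0) (nat_lit 0) (XT.lf (nat_lit 0) (nat_lit 16419968714)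 (nat_lit 76) (nat_lit 4099574138) (nat_lit 152) (nat_lit 19057142680) (nat_lit 9) (nat_lit 5) (nat_lit 10) (nat_lit 5) (nat_lit 11) (nat_lit 4) (nat_lit 371) (nat_lit 243) (nat_lit 166)) (XT.lf (nat_lit 0) (nat_lit 23256937741) (nat_lit 76) (nat_lit 672006167) (nat_lit 152) (nat_lit 16723968498) (nat_lit 9) (nat_lit 5) (nat_lit 10) (nat_lit 5) (nat_lit 11) (nat_lit 4) (nat_lit 372) (nat_lit 243) (nat_lit 165)))) (XT.nd (nat_lit 78) (nat_lit 76) (nat_lit 0) (XT.lf (nat_lit 0) (nat_lit 27450223375) (nat_lit 152) (nat_lit 11521368262) (nat_lit 0) (nat_lit 2789559727) (nat_lit 9) (nat_lit 5) (nat_lit 11) (nat_lit 4) (nat_lit 9) (nat_lit 4) (nat_lit 373) (nat_lit 243) (nat_lit 164)) (XT.nd (nat_lit 78) (nat_lit 76) (nat_lit 0) (XT.lf (nat_lit 0) (nat_lit 31066435329) (nat_lit 152) (nat_lit 5507741690) (nat_lit 0) (nat_lit 6328794433) (nat_lit 9) (nat_lit 5) (nat_lit 11) (nat_lit 4) (nat_lit 9) (nat_lit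 4) (nat_lit 374) (nat_lit 243) (nat_lit 163)) (XT.lf (nat_lit 0) (nat_lit 669687423) (nat_lit 76) (nat_lit 34111029856) (nat_lit 76) (nat_lit 9298653767) (nat_lit 8) (nat_lit 4) (nat_lit 9) (nat_lit 5) (nat_lit 9) (nat_lit 4) (nat_lit 375) (nat_lit 243) (nat_lit 162))))))))
noncomputable def xc66 : XT := (XT.nd (nat_lit 1794) (nat_lit 76) (nat_lit 0) (XT.nd (nat_lit 858) (nat_lit 76) (nat_lit 0) (XT.nd (nat_lit 390) (nat_lit 76) (nat_lit 0) (XT.nd (nat_lit 156) (nat_lit 76) (nat_lit 0) (XT.nd (nat_lit 78) (nat_lit 0) (nat_lit 0) (XT.lf (nat_lit 0) (nat_lit 7115959371) (nat_lit 76) (nat_lit 31529440339) (nat_lit 76) (nat_lit 6644505810) (nat_lit 8) (nat_lit 4) (nat_lit 9) (nat_lit 5) (nat_lit 9) (nat_lit 4) (nat_lit 376) (nat_lit 243) (nat_lit 161)) (XT.lf (nat_lit 0) (nat_lit 13727091958) (nat_lit 76) (nat_lit 28882770101) (nat_lit 76) (nat_lit 3927390485) (nat_lit 8) (nat_lit 4) (nat_lit 9)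 (nat_lit 5) (nat_lit 9) (nat_lit 4) (nat_lit 377) (nat_lit 243) (nat_lit 160))) (XT.nd (nat_lit 78) (nat_lit 76) (nat_lit 0) (XT.lf (nat_lit 0) (nat_lit 20508861901) (nat_lit 76) (nat_lit 26168706518) (nat_lit 76) (nat_lit 1144933615) (nat_lit 8) (nat_lit 4) (nat_lit 9) (nat_lit 5) (nat_lit 9) (nat_lit 4) (nat_lit 378) (nat_lit 243) (nat_lit 159)) (XT.nd (nat_lit 78) (nat_lit 0) (nat_lit 0) (XT.lf (nat_lit 0) (nat_lit 1672019606) (nat_lit 152) (nat_lit 21695974353) (nat_lit 76) (nat_lit 25778291295) (nat_lit 7) (nat_lit 5) (nat_lit 9) (nat_lit 5) (nat_lit 8) (nat_lit 4) (nat_lit 379) (nat_lit 243) (nat_lit 158)) (XT.lf (nat_lit 0) (nat_lit 4535523269) (nat_lit 152) (nat_lit 15947529150) (nat_lit 76) (nat_lit 30026848250) (nat_lit 7) (nat_lit 5) (nat_lit 9) (nat_lit 5) (nat_lit 8) (nat_lit 4) (nat_lit 380) (nat_lit 243) (nat_lit 157))))) (XT.nd (nat_lit 234) (nat_lit 0) (nat_lit 0) (XT.nd (nat_lit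 78) (nat_lit 76) (nat_lit 0) (XT.lf (nat_lit 0) (nat_lit 7470421244) (nat_lit 152) (nat_lit 10052275808) (nat_lit 76) (nat_lit 34392172912) (nat_lit 7) (nat_lit 5) (nat_lit 9) (nat_lit 5) (nat_lit 8) (nat_lit 4) (nat_lit 381) (nat_lit 243) (nat_lit 156)) (XT.nd (nat_lit 78) (nat_lit 76) (nat_lit 0) (XT.lf (nat_lit 0) (nat_lit 10479278004) (nat_lit 152) (nat_lit 4005063136) (nat_lit 76) (nat_lit 38878079642) (nat_lit 7) (nat_lit 5) (nat_lit 9) (nat_lit 5) (nat_lit 8) (nat_lit 4) (nat_lit 382) (nat_lit 243) (nat_lit 155)) (XT.lf (nat_lit 0) (nat_lit 2243165069) (nat_lit 76) (nat_lit 11343120253) (nat_lit 152) (nat_lit 41266885769) (nat_lit 6) (nat_lit 5) (nat_lit 7) (nat_lit 5) (nat_lit 8) (nat_lit 4) (nat_lit 383) (nat_lit 243) (nat_lit 154)))) (XT.nd (nat_lit 78) (nat_lit 0) (nat_lit 0) (XT.lf (nat_lit 0) (nat_lit 8737003902) (nat_lit 76) (nat_lit 8076432718) (nat_lit 152) (nat_lit 39574408513)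 (nat_lit 6) (nat_lit 5) (nat_lit 7) (nat_lit 5) (nat_lit 8) (nat_lit 4) (nat_lit 384) (nat_lit 243) (nat_lit 153)) (XT.nd (nat_lit 78) (nat_lit 0) (nat_lit 0) (XT.lf (nat_lit 0) (nat_lit 15402418982) (nat_lit 76) (nat_lit 4721867432) (nat_lit 152) (nat_lit 37844675431) (nat_lit 6) (nat_lit 5) (nat_lit 7) (nat_lit 5) (nat_lit 8) (nat_lit 4) (nat_lit 385) (nat_lit 243) (nat_lit 152)) (XT.lf (nat_lit 0) (nat_lit 22245234458) (nat_lit 76) (nat_lit 1276493222) (nat_lit 152) (nat_lit 36076175106) (nat_lit 6) (nat_lit 5) (nat_lit 7) (nat_lit 5) (nat_lit 8) (nat_lit 4) (nat_lit 386) (nat_lit 243) (nat_lit 151)))))) (XT.nd (nat_lit 468) (nat_lit 76) (nat_lit 0) (XT.nd (nat_lit 234) (nat_lit 0) (nat_lit 0) (XT.nd (nat_lit 78) (nat_lit 0) (nat_lit 0) (XT.lf (nat_lit 0) (nat_lit 27030479516) (nat_lit 152) (nat_lit 32026412275) (nat_lit 0) (nat_lit 2218546997) (nat_lit 6) (nat_lit 5) (nat_lit 8) (nat_lit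 4) (nat_lit 6) (nat_lit 4) (nat_lit 387) (nat_lit 243) (nat_lit 150)) (XT.nd (nat_lit 78) (nat_lit 0) (nat_lit 0) (XT.lf (nat_lit 0) (nat_lit 30645040366) (nat_lit 152) (nat_lit 26574553236) (nat_lit 0) (nat_lit 5783699080) (nat_lit 6) (nat_lit 5) (nat_lit 8) (nat_lit 4) (nat_lit 6) (nat_lit 4) (nat_lit 388) (nat_lit 243) (nat_lit 149)) (XT.lf (nat_lit 0) (nat_lit 34356298150) (nat_lit 152) (nat_lit 20980057018) (nat_lit 0) (nat_lit 9446987188) (nat_lit 6) (nat_lit 5) (nat_lit 8) (nat_lit 4) (nat_lit 6) (nat_lit 4) (nat_lit 389) (nat_lit 243) (nat_lit 148)))) (XT.nd (nat_lit 78) (nat_lit 0) (nat_lit 0) (XT.lf (nat_lit 0) (nat_lit 38167495716) (nat_lit 152) (nat_lit 15238035226) (nat_lit 0) (nat_lit 13211612253) (nat_lit 6) (nat_lit 5) (nat_lit 8) (nat_lit 4) (nat_lit 6) (nat_lit 4) (nat_lit 390) (nat_lit 243) (nat_lit 147)) (XT.nd (nat_lit 78) (nat_lit 0) (nat_lit 0) (XT.lf (nat_lit 0) (nat_lit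 42081963236) (nat_lit 152) (nat_lit 9343470560) (nat_lit 0) (nat_lit 17080863752) (nat_lit 6) (nat_lit 5) (nat_lit 8) (nat_lit 4) (nat_lit 6) (nat_lit 4) (nat_lit 391) (nat_lit 243) (nat_lit 146)) (XT.lf (nat_lit 0) (nat_lit 46103121118) (nat_lit 152) (nat_lit 3291212430) (nat_lit 0) (nat_lit 21058122585) (nat_lit 6) (nat_lit 5) (nat_lit 8) (nat_lit 4) (nat_lit 6) (nat_lit 4) (nat_lit 392) (nat_lit 243) (nat_lit 145))))) (XT.nd (nat_lit 234) (nat_lit 0) (nat_lit 0) (XT.nd (nat_lit 78) (nat_lit 0) (nat_lit 0) (XT.lf (nat_lit 0) (nat_lit 2982221427) (nat_lit 76) (nat_lit 47280928505) (nat_lit 76) (nat_lit 22193309536) (nat_lit 5) (nat_lit 4) (nat_lit 6) (nat_lit 5) (nat_lit 6) (nat_lit 4) (nat_lit 393) (nat_lit 243) (nat_lit 144)) (XT.nd (nat_lit 78) (nat_lit 0) (nat_lit 0) (XT.lf (nat_lit 0) (nat_lit 9492921245) (nat_lit 76) (nat_lit 45077989318) (nat_lit 76) (nat_lit 19948991284) (nat_lit 5)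 (nat_lit 4) (nat_lit 6) (nat_lit 5) (nat_lit 6) (nat_lit 4) (nat_lit 394) (nat_lit 243) (nat_lit 143)) (XT.lf (nat_lit 0) (nat_lit 16181074404) (nat_lit 76) (nat_lit 42816825880) (nat_lit 76) (nat_lit 17647653998) (nat_lit 5) (nat_lit 4) (nat_lit 6) (nat_lit 5) (nat_lit 6) (nat_lit 4) (nat_lit 395) (nat_lit 243) (nat_lit 142)))) (XT.nd (nat_lit 78) (nat_lit 0) (nat_lit 0) (XT.lf (nat_lit 0) (nat_lit 23052524920) (nat_lit 76) (nat_lit 40495462419) (nat_lit 76) (nat_lit 15287286801) (nat_lit 5) (nat_lit 4) (nat_lit 6) (nat_lit 5) (nat_lit 6) (nat_lit 4) (nat_lit 396) (nat_lit 243) (nat_lit 141)) (XT.nd (nat_lit 78) (nat_lit 0) (nat_lit 0) (XT.lf (nat_lit 0) (nat_lit 30113276974) (nat_lit 76) (nat_lit 38111870558) (nat_lit 76) (nat_lit 12865827234) (nat_lit 5) (nat_lit 4) (nat_lit 6) (nat_lit 5) (nat_lit 6) (nat_lit 4) (nat_lit 397) (nat_lit 243) (nat_lit 140)) (XT.lf (nat_lit 0) (nat_lit 37369500156)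 (nat_lit 76) (nat_lit 35663967547) (nat_lit 76) (nat_lit 10381159460) (nat_lit 5) (nat_lit 4) (nat_lit 6) (nat_lit 5) (nat_lit 6) (nat_lit 4) (nat_lit 398) (nat_lit 243) (nat_lit 139))))))) (XT.nd (nat_lit 32838) (nat_lit 0) (nat_lit 4560) (XT.nd (nat_lit 32370) (nat_lit 0) (nat_lit 7600) (XT.nd (nat_lit 156) (nat_lit 76) (nat_lit 0) (XT.nd (nat_lit 78) (nat_lit 0) (nat_lit 0) (XT.lf (nat_lit 0) (nat_lit 44827534854) (nat_lit 76) (nat_lit 33149614441) (nat_lit 76) (nat_lit 7831112411) (nat_lit 5) (nat_lit 4) (nat_lit 6) (nat_lit 5) (nat_lit 6) (nat_lit 4) (nat_lit 399) (nat_lit 243) (nat_lit 138)) (XT.lf (nat_lit 0) (nat_lit 52493897797) (nat_lit 76) (nat_lit 30566614233) (nat_lit 76) (nat_lit 5213457888) (nat_lit 5) (nat_lit 4) (nat_lit 6) (nat_lit 5) (nat_lit 6) (nat_lit 4) (nat_lit 400) (nat_lit 243) (nat_lit 137))) (XT.nd (nat_lit 78) (nat_lit 76) (nat_lit 0) (XT.lf (nat_lit 0) (nat_lit 60375287750)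 (nat_lit 76) (nat_lit 27912709933) (nat_lit 76) (nat_lit 2525908622) (nat_lit 5) (nat_lit 4) (nat_lit 6) (nat_lit 5) (nat_lit 6) (nat_lit 4) (nat_lit 401) (nat_lit 243) (nat_lit 136)) (XT.nd (nat_lit 32058) (nat_lit 0) (nat_lit 9196) (XT.lf (nat_lit 0) (nat_lit 229319816) (nat_lit 152) (nat_lit 24953947099) (nat_lit 76) (nat_lit 68246955866) (nat_lit 4) (nat_lit 5) (nat_lit 6) (nat_lit 5) (nat_lit 5) (nat_lit 4) (nat_lit 402) (nat_lit 243) (nat_lit 135)) (XT.lf (nat_lit 0) (nat_lit 67750842) (nat_lit 532) (nat_lit 3714009135) (nat_lit 0) (nat_lit 67750842) (nat_lit 125) (nat_lit 5) (nat_lit 132) (nat_lit 4) (nat_lit 125) (nat_lit 4) (nat_lit 292) (nat_lit 244) (nat_lit 244))))) (XT.nd (nat_lit 234) (nat_lit 988) (nat_lit 0) (XT.nd (nat_lit 78) (nat_lit 608) (nat_lit 0) (XT.lf (nat_lit 0) (nat_lit 3302035851) (nat_lit 532) (nat_lit 2493886723) (nat_lit 0) (nat_lit 1987610416) (nat_lit 125) (nat_lit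 5) (nat_lit 132) (nat_lit 4) (nat_lit 125) (nat_lit 4) (nat_lit 293) (nat_lit 244) (nat_lit 243)) (XT.nd (nat_lit 78) (nat_lit 76) (nat_lit 0) (XT.lf (nat_lit 0) (nat_lit 2538152752) (nat_lit 532) (nat_lit 3962545773) (nat_lit 532) (nat_lit 1371979138) (nat_lit 118) (nat_lit 4) (nat_lit 125) (nat_lit 5) (nat_lit 125) (nat_lit 4) (nat_lit 294) (nat_lit 244) (nat_lit 242)) (XT.lf (nat_lit 0) (nat_lit 1733808593) (nat_lit 608) (nat_lit 309907227) (nat_lit 76) (nat_lit 5922291370) (nat_lit 117) (nat_lit 5) (nat_lit 125) (nat_lit 5) (nat_lit 118) (nat_lit 4) (nat_lit 295) (nat_lit 244) (nat_lit 241)))) (XT.nd (nat_lit 78) (nat_lit 532) (nat_lit 0) (XT.lf (nat_lit 0) (nat_lit 4848819522) (nat_lit 456) (nat_lit 18788196) (nat_lit 532) (nat_lit 3195442940) (nat_lit 111) (nat_lit 5) (nat_lit 117) (nat_lit 5) (nat_lit 118) (nat_lit 4) (nat_lit 296) (nat_lit 244) (nat_lit 240)) (XT.nd (nat_lit 78) (nat_lit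 76) (nat_lit 0) (XT.lf (nat_lit 0) (nat_lit 1924157786) (nat_lit 456) (nat_lit 6129979048) (nat_lit 456) (nat_lit 110295435) (nat_lit 105) (nat_lit 4) (nat_lit 111) (nat_lit 5) (nat_lit 111) (nat_lit 4) (nat_lit 297) (nat_lit 244) (nat_lit 239)) (XT.lf (nat_lit 0) (nat_lit 2958189049) (nat_lit 532) (nat_lit 1115370449) (nat_lit 76) (nat_lit 4196069604) (nat_lit 104) (nat_lit 5) (nat_lit 111) (nat_lit 5) (nat_lit 105) (nat_lit 4) (nat_lit 298) (nat_lit 244) (nat_lit 238)))))) (XT.nd (nat_lit 468) (nat_lit 1368) (nat_lit 0) (XT.nd (nat_lit 234) (nat_lit 836) (nat_lit 0) (XT.nd (nat_lit 78) (nat_lit 456) (nat_lit 0) (XT.lf (nat_lit 0) (nat_lit 4145922951) (nat_lit 380) (nat_lit 1930513174) (nat_lit 456) (nat_lit 2302887548) (nat_lit 99) (nat_lit 5) (nat_lit 104) (nat_lit 5) (nat_lit 105) (nat_lit 4) (nat_lit 299) (nat_lit 244) (nat_lit 237)) (XT.nd (nat_lit 78) (nat_lit 0) (nat_lit 0) (XT.lf (nat_lit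 0) (nat_lit 724773985) (nat_lit 456) (nat_lit 7486827218) (nat_lit 76) (nat_lit 282309286) (nat_lit 93) (nat_lit 5) (nat_lit 99) (nat_lit 5) (nat_lit 94) (nat_lit 4) (nat_lit 300) (nat_lit 244) (nat_lit 236)) (XT.lf (nat_lit 0) (nat_lit 3780999578) (nat_lit 456) (nat_lit 2260745232) (nat_lit 76) (nat_lit 2570143188) (nat_lit 93) (nat_lit 5) (nat_lit 99) (nat_lit 5) (nat_lit 94) (nat_lit 4) (nat_lit 301) (nat_lit 244) (nat_lit 235)))) (XT.nd (nat_lit 78) (nat_lit 456) (nat_lit 0) (XT.lf (nat_lit 0) (nat_lit 3085912175) (nat_lit 380) (nat_lit 3796676717) (nat_lit 456) (nat_lit 1852358752) (nat_lit 88) (nat_lit 5) (nat_lit 93) (nat_lit 5) (nat_lit 94) (nat_lit 4) (nat_lit 302) (nat_lit 244) (nat_lit 234)) (XT.nd (nat_lit 78) (nat_lit 380) (nat_lit 0) (XT.lf (nat_lit 0) (nat_lit 1139286026) (nat_lit 456) (nat_lit 330739677) (nat_lit 76) (nat_lit 7393042821) (nat_lit 87) (nat_lit 5) (nat_lit 93) (nat_lit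 5) (nat_lit 88) (nat_lit 5) (nat_lit 303) (nat_lit 244) (nat_lit 233)) (XT.lf (nat_lit 0) (nat_lit 4168806259) (nat_lit 456) (nat_lit 3870055907) (nat_lit 76) (nat_lit 956200086) (nat_lit 82) (nat_lit 5) (nat_lit 88) (nat_lit 5) (nat_lit 83) (nat_lit 4) (nat_lit 304) (nat_lit 244) (nat_lit 232))))) (XT.nd (nat_lit 234) (nat_lit 684) (nat_lit 0) (XT.nd (nat_lit 78) (nat_lit 380) (nat_lit 0) (XT.lf (nat_lit 0) (nat_lit 1540287844) (nat_lit 304) (nat_lit 5709318130) (nat_lit 380) (nat_lit 1882734048) (nat_lit 78) (nat_lit 5) (nat_lit 82) (nat_lit 5) (nat_lit 83) (nat_lit 4) (nat_lit 305) (nat_lit 244) (nat_lit 231)) (XT.nd (nat_lit 78) (nat_lit 304) (nat_lit 0) (XT.lf (nat_lit 0) (nat_lit 1094161985) (nat_lit 380) (nat_lit 2187816829) (nat_lit 76) (nat_lit 5992529432) (nat_lit 77) (nat_lit 5) (nat_lit 82) (nat_lit 5) (nat_lit 78) (nat_lit 5) (nat_lit 306) (nat_lit 244) (nat_lit 230)) (XT.lf (nat_lit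 0) (nat_lit 3331620800) (nat_lit 304) (nat_lit 753049438) (nat_lit 380) (nat_lit 5336972159) (nat_lit 73) (nat_lit 5) (nat_lit 77) (nat_lit 5) (nat_lit 78) (nat_lit 5) (nat_lit 307) (nat_lit 244) (nat_lit 229)))) (XT.nd (nat_lit 78) (nat_lit 684) (nat_lit 0) (XT.lf (nat_lit 0) (nat_lit 7136046083) (nat_lit 380) (nat_lit 623393612) (nat_lit 76) (nat_lit 1814737182) (nat_lit 73) (nat_lit 5) (nat_lit 78) (nat_lit 5) (nat_lit 74) (nat_lit 4) (nat_lit 308) (nat_lit 244) (nat_lit 228)) (XT.nd (nat_lit 78) (nat_lit 304) (nat_lit 0) (XT.lf (nat_lit 0) (nat_lit 525385751) (nat_lit 380) (nat_lit 4731025935) (nat_lit 76) (nat_lit 4475179793) (nat_lit 68) (nat_lit 5) (nat_lit 73) (nat_lit 5) (nat_lit 69) (nat_lit 5) (nat_lit 309) (nat_lit 244) (nat_lit 227)) (XT.lf (nat_lit 0) (nat_lit 811997711) (nat_lit 304) (nat_lit 2664332526) (nat_lit 380) (nat_lit 6418358909) (nat_lit 64) (nat_lit 5) (nat_lit 68) (nat_lit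 5) (nat_lit 69) (nat_lit 5) (nat_lit 310) (nat_lit 244) (nat_lit 226))))))))
noncomputable def xc67 : XT := (XT.nd (nat_lit 1794) (nat_lit 1216) (nat_lit 0) (XT.nd (nat_lit 858) (nat_lit 1216) (nat_lit 0) (XT.nd (nat_lit 390) (nat_lit 836) (nat_lit 0) (XT.nd (nat_lit 156) (nat_lit 380) (nat_lit 0) (XT.nd (nat_lit 78) (nat_lit 228) (nat_lit 0) (XT.lf (nat_lit 0) (nat_lit 6498284142) (nat_lit 380) (nat_lit 3536531613) (nat_lit 76) (nat_lit 28496951) (nat_lit 64) (nat_lit 5) (nat_lit 69) (nat_lit 5) (nat_lit 65) (nat_lit 4) (nat_lit 311) (nat_lit 244) (nat_lit 225)) (XT.lf (nat_lit 0) (nat_lit 2100275086) (nat_lit 228) (nat_lit 7493288324) (nat_lit 304) (nat_lit 644055829) (nat_lit 61) (nat_lit 5) (nat_lit 64) (nat_lit 5) (nat_lit 65) (nat_lit 4) (nat_lit 312) (nat_lit 244) (nat_lit 224))) (XT.nd (nat_lit 78) (nat_lit 304) (nat_lit 0) (XT.lf (nat_lit 0) (nat_lit 2290848260) (nat_lit 304) (nat_lit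 2551306344) (nat_lit 76) (nat_lit 5575243473) (nat_lit 60) (nat_lit 5) (nat_lit 64) (nat_lit 5) (nat_lit 61) (nat_lit 5) (nat_lit 313) (nat_lit 244) (nat_lit 223)) (XT.nd (nat_lit 78) (nat_lit 0) (nat_lit 0) (XT.lf (nat_lit 0) (nat_lit 3169610494) (nat_lit 304) (nat_lit 2099942780) (nat_lit 380) (nat_lit 5333860162) (nat_lit 56) (nat_lit 5) (nat_lit 60) (nat_lit 5) (nat_lit 61) (nat_lit 5) (nat_lit 314) (nat_lit 244) (nat_lit 222)) (XT.lf (nat_lit 0) (nat_lit 8309537912) (nat_lit 380) (nat_lit 1775975548) (nat_lit 76) (nat_lit 710430882) (nat_lit 56) (nat_lit 5) (nat_lit 61) (nat_lit 5) (nat_lit 57) (nat_lit 4) (nat_lit 315) (nat_lit 244) (nat_lit 221))))) (XT.nd (nat_lit 234) (nat_lit 304) (nat_lit 0) (XT.nd (nat_lit 78) (nat_lit 228) (nat_lit 0) (XT.lf (nat_lit 0) (nat_lit 437848543) (nat_lit 304) (nat_lit 6975713836) (nat_lit 76) (nat_lit 3580644670) (nat_lit 52) (nat_lit 5) (nat_lit 56) (nat_lit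 5) (nat_lit 53) (nat_lit 5) (nat_lit 316) (nat_lit 244) (nat_lit 220)) (XT.nd (nat_lit 78) (nat_lit 228) (nat_lit 0) (XT.lf (nat_lit 0) (nat_lit 3358923299) (nat_lit 304) (nat_lit 1286268363) (nat_lit 76) (nat_lit 6553800225) (nat_lit 52) (nat_lit 5) (nat_lit 56) (nat_lit 5) (nat_lit 53) (nat_lit 5) (nat_lit 317) (nat_lit 244) (nat_lit 219)) (XT.lf (nat_lit 0) (nat_lit 4578945105) (nat_lit 228) (nat_lit 1775375576) (nat_lit 304) (nat_lit 5056081188) (nat_lit 49) (nat_lit 5) (nat_lit 52) (nat_lit 5) (nat_lit 53) (nat_lit 5) (nat_lit 318) (nat_lit 244) (nat_lit 218)))) (XT.nd (nat_lit 78) (nat_lit 304) (nat_lit 0) (XT.lf (nat_lit 0) (nat_lit 9407328365) (nat_lit 304) (nat_lit 1077714087) (nat_lit 76) (nat_lit 1144159160) (nat_lit 49) (nat_lit 5) (nat_lit 53) (nat_lit 5) (nat_lit 50) (nat_lit 4) (nat_lit 319) (nat_lit 244) (nat_lit 217)) (XT.nd (nat_lit 78) (nat_lit 0) (nat_lit 0) (XT.lf (nat_lit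 0) (nat_lit 692834235) (nat_lit 304) (nat_lit 7018075177) (nat_lit 76) (nat_lit 4143257717) (nat_lit 45) (nat_lit 5) (nat_lit 49) (nat_lit 5) (nat_lit 46) (nat_lit 5) (nat_lit 320) (nat_lit 244) (nat_lit 216)) (XT.lf (nat_lit 0) (nat_lit 3606458763) (nat_lit 304) (nat_lit 1241094402) (nat_lit 76) (nat_lit 7239057617) (nat_lit 45) (nat_lit 5) (nat_lit 49) (nat_lit 5) (nat_lit 46) (nat_lit 5) (nat_lit 321) (nat_lit 244) (nat_lit 215)))))) (XT.nd (nat_lit 468) (nat_lit 532) (nat_lit 0) (XT.nd (nat_lit 234) (nat_lit 304) (nat_lit 0) (XT.nd (nat_lit 78) (nat_lit 152) (nat_lit 0) (XT.lf (nat_lit 0) (nat_lit 4720893120) (nat_lit 228) (nat_lit 1878719528) (nat_lit 304) (nat_lit 5726722480) (nat_lit 42) (nat_lit 5) (nat_lit 45) (nat_lit 5) (nat_lit 46) (nat_lit 5) (nat_lit 322) (nat_lit 244) (nat_lit 214)) (XT.nd (nat_lit 78) (nat_lit 152) (nat_lit 0) (XT.lf (nat_lit 0) (nat_lit 9653817995) (nat_lit 304)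 (nat_lit 1778170694) (nat_lit 76) (nat_lit 1142193742) (nat_lit 42) (nat_lit 5) (nat_lit 46) (nat_lit 5) (nat_lit 43) (nat_lit 4) (nat_lit 323) (nat_lit 244) (nat_lit 213)) (XT.lf (nat_lit 0) (nat_lit 4208788055) (nat_lit 152) (nat_lit 8598721192) (nat_lit 228) (nat_lit 21787041) (nat_lit 40) (nat_lit 5) (nat_lit 42) (nat_lit 5) (nat_lit 43) (nat_lit 4) (nat_lit 324) (nat_lit 244) (nat_lit 212)))) (XT.nd (nat_lit 78) (nat_lit 228) (nat_lit 0) (XT.lf (nat_lit 0) (nat_lit 2873028475) (nat_lit 228) (nat_lit 2787351146) (nat_lit 76) (nat_lit 7431878917) (nat_lit 39) (nat_lit 5) (nat_lit 42) (nat_lit 5) (nat_lit 40) (nat_lit 5) (nat_lit 325) (nat_lit 244) (nat_lit 211)) (XT.nd (nat_lit 78) (nat_lit 0) (nat_lit 0) (XT.lf (nat_lit 0) (nat_lit 3206489616) (nat_lit 228) (nat_lit 2629050063) (nat_lit 304) (nat_lit 7528186078) (nat_lit 36) (nat_lit 5) (nat_lit 39) (nat_lit 5) (nat_lit 40) (nat_lit 5) (nat_lit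 326) (nat_lit 244) (nat_lit 210)) (XT.lf (nat_lit 0) (nat_lit 8871011749) (nat_lit 304) (nat_lit 4287406337) (nat_lit 76) (nat_lit 485455802) (nat_lit 36) (nat_lit 5) (nat_lit 40) (nat_lit 5) (nat_lit 37) (nat_lit 4) (nat_lit 327) (nat_lit 244) (nat_lit 209))))) (XT.nd (nat_lit 234) (nat_lit 304) (nat_lit 0) (XT.nd (nat_lit 78) (nat_lit 76) (nat_lit 0) (XT.lf (nat_lit 0) (nat_lit 1690547206) (nat_lit 152) (nat_lit 10301630032) (nat_lit 228) (nat_lit 1940468080) (nat_lit 34) (nat_lit 5) (nat_lit 36) (nat_lit 5) (nat_lit 37) (nat_lit 4) (nat_lit 328) (nat_lit 244) (nat_lit 208)) (XT.nd (nat_lit 78) (nat_lit 0) (nat_lit 0) (XT.lf (nat_lit 0) (nat_lit 954061174) (nat_lit 228) (nat_lit 6378067985) (nat_lit 76) (nat_lit 6897836646) (nat_lit 33) (nat_lit 5) (nat_lit 36) (nat_lit 5) (nat_lit 34) (nat_lit 5) (nat_lit 329) (nat_lit 244) (nat_lit 207)) (XT.lf (nat_lit 0) (nat_lit 3850311337) (nat_lit 228)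 (nat_lit 430334086) (nat_lit 76) (nat_lit 10256420343) (nat_lit 33) (nat_lit 5) (nat_lit 36) (nat_lit 5) (nat_lit 34) (nat_lit 5) (nat_lit 330) (nat_lit 244) (nat_lit 206)))) (XT.nd (nat_lit 78) (nat_lit 152) (nat_lit 0) (XT.lf (nat_lit 0) (nat_lit 5736901206) (nat_lit 152) (nat_lit 1106924031) (nat_lit 228) (nat_lit 8009293495) (nat_lit 31) (nat_lit 5) (nat_lit 33) (nat_lit 5) (nat_lit 34) (nat_lit 5) (nat_lit 331) (nat_lit 244) (nat_lit 205)) (XT.nd (nat_lit 78) (nat_lit 152) (nat_lit 0) (XT.lf (nat_lit 0) (nat_lit 9907924305) (nat_lit 228) (nat_lit 3172680556) (nat_lit 76) (nat_lit 2098674834) (nat_lit 31) (nat_lit 5) (nat_lit 34) (nat_lit 5) (nat_lit 32) (nat_lit 4) (nat_lit 332) (nat_lit 244) (nat_lit 204)) (XT.lf (nat_lit 0) (nat_lit 2926070927) (nat_lit 152) (nat_lit 10133863836) (nat_lit 228) (nat_lit 2455459418) (nat_lit 29) (nat_lit 5) (nat_lit 31) (nat_lit 5) (nat_lit 32) (nat_lit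 4) (nat_lit 333) (nat_lit 244) (nat_lit 203))))))) (XT.nd (nat_lit 936) (nat_lit 532) (nat_lit 0) (XT.nd (nat_lit 468) (nat_lit 304) (nat_lit 0) (XT.nd (nat_lit 234) (nat_lit 152) (nat_lit 0) (XT.nd (nat_lit 78) (nat_lit 152) (nat_lit 0) (XT.lf (nat_lit 0) (nat_lit 425617719) (nat_lit 228) (nat_lit 6661855305) (nat_lit 76) (nat_lit 8774354763) (nat_lit 28) (nat_lit 5) (nat_lit 31) (nat_lit 5) (nat_lit 29) (nat_lit 5) (nat_lit 334) (nat_lit 244) (nat_lit 202)) (XT.nd (nat_lit 78) (nat_lit 152) (nat_lit 0) (XT.lf (nat_lit 0) (nat_lit 3302057480) (nat_lit 228) (nat_lit 648304067) (nat_lit 76) (nat_lit 12268859278) (nat_lit 28) (nat_lit 5) (nat_lit 31) (nat_lit 5) (nat_lit 29) (nat_lit 5) (nat_lit 335) (nat_lit 244) (nat_lit 201)) (XT.lf (nat_lit 0) (nat_lit 5589254892) (nat_lit 152) (nat_lit 688760560) (nat_lit 228) (nat_lit 10308966408) (nat_lit 26) (nat_lit 5) (nat_lit 28) (nat_lit 5) (nat_lit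 29) (nat_lit 5) (nat_lit 336) (nat_lit 244) (nat_lit 200)))) (XT.nd (nat_lit 78) (nat_lit 152) (nat_lit 0) (XT.lf (nat_lit 0) (nat_lit 9335350972) (nat_lit 228) (nat_lit 5029910652) (nat_lit 76) (nat_lit 2600792845) (nat_lit 26) (nat_lit 5) (nat_lit 29) (nat_lit 5) (nat_lit 27) (nat_lit 4) (nat_lit 337) (nat_lit 244) (nat_lit 199)) (XT.nd (nat_lit 78) (nat_lit 0) (nat_lit 0) (XT.lf (nat_lit 0) (nat_lit 1067035227) (nat_lit 152) (nat_lit 11395433268) (nat_lit 228) (nat_lit 4894729392) (nat_lit 24) (nat_lit 5) (nat_lit 26) (nat_lit 5) (nat_lit 27) (nat_lit 4) (nat_lit 338) (nat_lit 244) (nat_lit 198)) (XT.lf (nat_lit 0) (nat_lit 7386717046) (nat_lit 152) (nat_lit 8308988317) (nat_lit 228) (nat_lit 2064040384) (nat_lit 24) (nat_lit 5) (nat_lit 26) (nat_lit 5) (nat_lit 27) (nat_lit 4) (nat_lit 339) (nat_lit 244) (nat_lit 197))))) (XT.nd (nat_lit 234) (nat_lit 76) (nat_lit 0) (XT.nd (nat_lit 78) (nat_lit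 152) (nat_lit 0) (XT.lf (nat_lit 0) (nat_lit 797179280) (nat_lit 228) (nat_lit 4348792884) (nat_lit 76) (nat_lit 13029322543) (nat_lit 23) (nat_lit 5) (nat_lit 26) (nat_lit 5) (nat_lit 24) (nat_lit 5) (nat_lit 340) (nat_lit 244) (nat_lit 196)) (XT.nd (nat_lit 78) (nat_lit 0) (nat_lit 0) (XT.lf (nat_lit 0) (nat_lit 1810652375) (nat_lit 152) (nat_lit 1872830439) (nat_lit 228) (nat_lit 14919828244) (nat_lit 21) (nat_lit 5) (nat_lit 23) (nat_lit 5) (nat_lit 24) (nat_lit 5) (nat_lit 341) (nat_lit 244) (nat_lit 195)) (XT.lf (nat_lit 0) (nat_lit 6678722263) (nat_lit 228) (nat_lit 10874377533) (nat_lit 76) (nat_lit 1490432627) (nat_lit 21) (nat_lit 5) (nat_lit 24) (nat_lit 5) (nat_lit 22) (nat_lit 4) (nat_lit 342) (nat_lit 244) (nat_lit 194)))) (XT.nd (nat_lit 78) (nat_lit 76) (nat_lit 0) (XT.lf (nat_lit 0) (nat_lit 9747015344) (nat_lit 228) (nat_lit 4856037131) (nat_lit 76) (nat_lit 4894445971) (nat_lit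 21) (nat_lit 5) (nat_lit 24) (nat_lit 5) (nat_lit 22) (nat_lit 4) (nat_lit 343) (nat_lit 244) (nat_lit 193)) (XT.nd (nat_lit 78) (nat_lit 0) (nat_lit 0) (XT.lf (nat_lit 0) (nat_lit 1311210496) (nat_lit 76) (nat_lit 11574433959) (nat_lit 152) (nat_lit 7080123301) (nat_lit 20) (nat_lit 5) (nat_lit 21) (nat_lit 5) (nat_lit 22) (nat_lit 4) (nat_lit 344) (nat_lit 244) (nat_lit 192)) (XT.lf (nat_lit 0) (nat_lit 7706351200) (nat_lit 76) (nat_lit 8427255565) (nat_lit 152) (nat_lit 4314055114) (nat_lit 20) (nat_lit 5) (nat_lit 21) (nat_lit 5) (nat_lit 22) (nat_lit 4) (nat_lit 345) (nat_lit 244) (nat_lit 191)))))) (XT.nd (nat_lit 468) (nat_lit 228) (nat_lit 0) (XT.nd (nat_lit 234) (nat_lit 76) (nat_lit 0) (XT.nd (nat_lit 78) (nat_lit 228) (nat_lit 0) (XT.lf (nat_lit 0) (nat_lit 14238328308) (nat_lit 76) (nat_lit 5207803784) (nat_lit 152) (nat_lit 1498898043) (nat_lit 20) (nat_lit 5) (nat_lit 21) (nat_lit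 5) (nat_lit 22) (nat_lit 4) (nat_lit 346) (nat_lit 244) (nat_lit 190)) (XT.nd (nat_lit 78) (nat_lit 152) (nat_lit 0) (XT.lf (nat_lit 0) (nat_lit 1341116902) (nat_lit 152) (nat_lit 558605950) (nat_lit 76) (nat_lit 19558189818) (nat_lit 19) (nat_lit 5) (nat_lit 21) (nat_lit 5) (nat_lit 20) (nat_lit 5) (nat_lit 347) (nat_lit 244) (nat_lit 189)) (XT.lf (nat_lit 0) (nat_lit 4275817836) (nat_lit 228) (nat_lit 16179862368) (nat_lit 76) (nat_lit 1528896303) (nat_lit 17) (nat_lit 5) (nat_lit 20) (nat_lit 5) (nat_lit 18) (nat_lit 4) (nat_lit 348) (nat_lit 244) (nat_lit 188)))) (XT.nd (nat_lit 78) (nat_lit 76) (nat_lit 0) (XT.lf (nat_lit 0) (nat_lit 7291951316) (nat_lit 228) (nat_lit 10228100118) (nat_lit 76) (nat_lit 5007214650) (nat_lit 17) (nat_lit 5) (nat_lit 20) (nat_lit 5) (nat_lit 18) (nat_lit 4) (nat_lit 349) (nat_lit 244) (nat_lit 187)) (XT.nd (nat_lit 78) (nat_lit 76) (nat_lit 0) (XT.lf (nat_lit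 0) (nat_lit 10368360749) (nat_lit 228) (nat_lit 4148997432) (nat_lit 76) (nat_lit 8569811181) (nat_lit 17) (nat_lit 5) (nat_lit 20) (nat_lit 5) (nat_lit 18) (nat_lit 4) (nat_lit 350) (nat_lit 244) (nat_lit 186)) (XT.lf (nat_lit 0) (nat_lit 2103810447) (nat_lit 76) (nat_lit 11424146924) (nat_lit 152) (nat_lit 10136211509) (nat_lit 16) (nat_lit 5) (nat_lit 17) (nat_lit 5) (nat_lit 18) (nat_lit 4) (nat_lit 351) (nat_lit 244) (nat_lit 185))))) (XT.nd (nat_lit 234) (nat_lit 228) (nat_lit 0) (XT.nd (nat_lit 78) (nat_lit 0) (nat_lit 0) (XT.lf (nat_lit 0) (nat_lit 8580019595) (nat_lit 76) (nat_lit 8215271788) (nat_lit 152) (nat_lit 7462823748) (nat_lit 16) (nat_lit 5) (nat_lit 17) (nat_lit 5) (nat_lit 18) (nat_lit 4) (nat_lit 352) (nat_lit 244) (nat_lit 184)) (XT.nd (nat_lit 78) (nat_lit 0) (nat_lit 0) (XT.lf (nat_lit 0) (nat_lit 15202715651) (nat_lit 76) (nat_lit 4929825641) (nat_lit 152) (nat_lit 4738206100)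 (nat_lit 16) (nat_lit 5) (nat_lit 17) (nat_lit 5) (nat_lit 18) (nat_lit 4) (nat_lit 353) (nat_lit 244) (nat_lit 183)) (XT.lf (nat_lit 0) (nat_lit 21977685436) (nat_lit 76) (nat_lit 1564937705) (nat_lit 152) (nat_lit 1959977831) (nat_lit 16) (nat_lit 5) (nat_lit 17) (nat_lit 5) (nat_lit 18) (nat_lit 4) (nat_lit 354) (nat_lit 244) (nat_lit 182)))) (XT.nd (nat_lit 78) (nat_lit 0) (nat_lit 0) (XT.lf (nat_lit 0) (nat_lit 902615522) (nat_lit 228) (nat_lit 23368700100) (nat_lit 76) (nat_lit 1881298605) (nat_lit 13) (nat_lit 5) (nat_lit 16) (nat_lit 5) (nat_lit 14) (nat_lit 4) (nat_lit 355) (nat_lit 244) (nat_lit 181)) (XT.nd (nat_lit 78) (nat_lit 0) (nat_lit 0) (XT.lf (nat_lit 0) (nat_lit 3836524551) (nat_lit 228) (nat_lit 17547844840) (nat_lit 76) (nat_lit 5436453137) (nat_lit 13) (nat_lit 5) (nat_lit 16) (nat_lit 5) (nat_lit 14) (nat_lit 4) (nat_lit 356) (nat_lit 244) (nat_lit 180)) (XT.lf (nat_lit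 0) (nat_lit 6832615802) (nat_lit 228) (nat_lit 11596828214) (nat_lit 76) (nat_lit 9080429248) (nat_lit 13) (nat_lit 5) (nat_lit 16) (nat_lit 5) (nat_lit 14) (nat_lit 4) (nat_lit 357) (nat_lit 244) (nat_lit 179))))))))
noncomputable def xc68 : XT := (XT.nd (nat_lit 1794) (nat_lit 152) (nat_lit 0) (XT.nd (nat_lit 858) (nat_lit 228) (nat_lit 0) (XT.nd (nat_lit 390) (nat_lit 152) (nat_lit 0) (XT.nd (nat_lit 156) (nat_lit 0) (nat_lit 0) (XT.nd (nat_lit 78) (nat_lit 76) (nat_lit 0) (XT.lf (nat_lit 0) (nat_lit 9893507217) (nat_lit 228) (nat_lit 5510450304) (nat_lit 76) (nat_lit 12816410994) (nat_lit 13) (nat_lit 5) (nat_lit 16) (nat_lit 5) (nat_lit 14) (nat_lit 4) (nat_lit 358) (nat_lit 244) (nat_lit 178)) (XT.lf (nat_lit 0) (nat_lit 730868970) (nat_lit 76) (nat_lit 12298029952) (nat_lit 152) (nat_lit 15923819414) (nat_lit 12) (nat_lit 5) (nat_lit 13) (nat_lit 5) (nat_lit 14) (nat_lit 4) (nat_lit 359)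 (nat_lit 244) (nat_lit 177))) (XT.nd (nat_lit 78) (nat_lit 0) (nat_lit 0) (XT.lf (nat_lit 0) (nat_lit 7230885694) (nat_lit 76) (nat_lit 9059069764) (nat_lit 152) (nat_lit 13416154439) (nat_lit 12) (nat_lit 5) (nat_lit 13) (nat_lit 5) (nat_lit 14) (nat_lit 4) (nat_lit 360) (nat_lit 244) (nat_lit 176)) (XT.nd (nat_lit 78) (nat_lit 0) (nat_lit 0) (XT.lf (nat_lit 0) (nat_lit 13885610727) (nat_lit 76) (nat_lit 5739891543) (nat_lit 152) (nat_lit 10857319954) (nat_lit 12) (nat_lit 5) (nat_lit 13) (nat_lit 5) (nat_lit 14) (nat_lit 4) (nat_lit 361) (nat_lit 244) (nat_lit 175)) (XT.lf (nat_lit 0) (nat_lit 20700858878) (nat_lit 76) (nat_lit 2337595035) (nat_lit 152) (nat_lit 8245080084) (nat_lit 12) (nat_lit 5) (nat_lit 13) (nat_lit 5) (nat_lit 14) (nat_lit 4) (nat_lit 362) (nat_lit 244) (nat_lit 174))))) (XT.nd (nat_lit 234) (nat_lit 0) (nat_lit 0) (XT.nd (nat_lit 78) (nat_lit 152) (nat_lit 0) (XT.lf (nat_lit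 0) (nat_lit 26542854701) (nat_lit 152) (nat_lit 4437421772) (nat_lit 0) (nat_lit 1128336530) (nat_lit 12) (nat_lit 5) (nat_lit 14) (nat_lit 4) (nat_lit 12) (nat_lit 4) (nat_lit 363) (nat_lit 244) (nat_lit 173)) (XT.nd (nat_lit 78) (nat_lit 76) (nat_lit 0) (XT.lf (nat_lit 0) (nat_lit 1868116397) (nat_lit 76) (nat_lit 28303863278) (nat_lit 76) (nat_lit 2785894121) (nat_lit 11) (nat_lit 4) (nat_lit 12) (nat_lit 5) (nat_lit 12) (nat_lit 4) (nat_lit 364) (nat_lit 244) (nat_lit 172)) (XT.lf (nat_lit 0) (nat_lit 99643429) (nat_lit 152) (nat_lit 25416130844) (nat_lit 76) (nat_lit 8316118411) (nat_lit 10) (nat_lit 5) (nat_lit 12) (nat_lit 5) (nat_lit 11) (nat_lit 4) (nat_lit 365) (nat_lit 244) (nat_lit 171)))) (XT.nd (nat_lit 78) (nat_lit 0) (nat_lit 0) (XT.lf (nat_lit 0) (nat_lit 2994912829) (nat_lit 152) (nat_lit 19636246437) (nat_lit 76) (nat_lit 12100786321) (nat_lit 10) (nat_lit 5) (nat_lit 12) (nat_lit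 5) (nat_lit 11) (nat_lit 4) (nat_lit 366) (nat_lit 244) (nat_lit 170)) (XT.nd (nat_lit 78) (nat_lit 0) (nat_lit 0) (XT.lf (nat_lit 0) (nat_lit 5956806754) (nat_lit 152) (nat_lit 13718274076) (nat_lit 76) (nat_lit 15984541520) (nat_lit 10) (nat_lit 5) (nat_lit 12) (nat_lit 5) (nat_lit 11) (nat_lit 4) (nat_lit 367) (nat_lit 244) (nat_lit 169)) (XT.lf (nat_lit 0) (nat_lit 8987913266) (nat_lit 152) (nat_lit 7657042716) (nat_lit 76) (nat_lit 19970777581) (nat_lit 10) (nat_lit 5) (nat_lit 12) (nat_lit 5) (nat_lit 11) (nat_lit 4) (nat_lit 368) (nat_lit 244) (nat_lit 168)))))) (XT.nd (nat_lit 468) (nat_lit 152) (nat_lit 0) (XT.nd (nat_lit 234) (nat_lit 0) (nat_lit 0) (XT.nd (nat_lit 78) (nat_lit 76) (nat_lit 0) (XT.lf (nat_lit 0) (nat_lit 12090880905) (nat_lit 152) (nat_lit 1447256137) (nat_lit 76) (nat_lit 24062977624) (nat_lit 10) (nat_lit 5) (nat_lit 12) (nat_lit 5) (nat_lit 11) (nat_lit 4) (nat_lit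 369) (nat_lit 244) (nat_lit 167)) (XT.nd (nat_lit 78) (nat_lit 0) (nat_lit 0) (XT.lf (nat_lit 0) (nat_lit 5014359910) (nat_lit 76) (nat_lit 10302262186) (nat_lit 152) (nat_lit 23298558540) (nat_lit 9) (nat_lit 5) (nat_lit 10) (nat_lit 5) (nat_lit 11) (nat_lit 4) (nat_lit 370) (nat_lit 244) (nat_lit 166)) (XT.lf (nat_lit 0) (nat_lit 11667496209) (nat_lit 76) (nat_lit 6967968949) (nat_lit 152) (nat_lit 21024327102) (nat_lit 9) (nat_lit 5) (nat_lit 10) (nat_lit 5) (nat_lit 11) (nat_lit 4) (nat_lit 371) (nat_lit 244) (nat_lit 165)))) (XT.nd (nat_lit 78) (nat_lit 0) (nat_lit 0) (XT.lf (nat_lit 0) (nat_lit 18489162944) (nat_lit 76) (nat_lit 3546958322) (nat_lit 152) (nat_lit 18700166704) (nat_lit 9) (nat_lit 5) (nat_lit 10) (nat_lit 5) (nat_lit 11) (nat_lit 4) (nat_lit 372) (nat_lit 244) (nat_lit 164)) (XT.nd (nat_lit 78) (nat_lit 0) (nat_lit 0) (XT.lf (nat_lit 0) (nat_lit 25485320794) (nat_lit 76)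 (nat_lit 36241071) (nat_lit 152) (nat_lit 16324046527) (nat_lit 9) (nat_lit 5) (nat_lit 10) (nat_lit 5) (nat_lit 11) (nat_lit 4) (nat_lit 373) (nat_lit 244) (nat_lit 163)) (XT.lf (nat_lit 0) (nat_lit 29129123080) (nat_lit 152) (nat_lit 10360930521) (nat_lit 0) (nat_lit 3497640516) (nat_lit 9) (nat_lit 5) (nat_lit 11) (nat_lit 4) (nat_lit 9) (nat_lit 4) (nat_lit 374) (nat_lit 244) (nat_lit 162))))) (XT.nd (nat_lit 234) (nat_lit 76) (nat_lit 0) (XT.nd (nat_lit 78) (nat_lit 76) (nat_lit 0) (XT.lf (nat_lit 0) (nat_lit 32828907034) (nat_lit 152) (nat_lit 4210761524) (nat_lit 0) (nat_lit 7124866030) (nat_lit 9) (nat_lit 5) (nat_lit 11) (nat_lit 4) (nat_lit 9) (nat_lit 4) (nat_lit 375) (nat_lit 244) (nat_lit 161)) (XT.nd (nat_lit 78) (nat_lit 0) (nat_lit 0) (XT.lf (nat_lit 0) (nat_lit 2137655047) (nat_lit 76) (nat_lit 34506691577) (nat_lit 76) (nat_lit 8732205487) (nat_lit 8) (nat_lit 4) (nat_lit 9)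 (nat_lit 5) (nat_lit 9) (nat_lit 4) (nat_lit 376) (nat_lit 244) (nat_lit 160)) (XT.lf (nat_lit 0) (nat_lit 8735143978) (nat_lit 76) (nat_lit 31865936001) (nat_lit 76) (nat_lit 6023056622) (nat_lit 8) (nat_lit 4) (nat_lit 9) (nat_lit 5) (nat_lit 9) (nat_lit 4) (nat_lit 377) (nat_lit 244) (nat_lit 159)))) (XT.nd (nat_lit 78) (nat_lit 76) (nat_lit 0) (XT.lf (nat_lit 0) (nat_lit 15503667654) (nat_lit 76) (nat_lit 29157614808) (nat_lit 76) (nat_lit 3248334178) (nat_lit 8) (nat_lit 4) (nat_lit 9) (nat_lit 5) (nat_lit 9) (nat_lit 4) (nat_lit 378) (nat_lit 244) (nat_lit 158)) (XT.nd (nat_lit 78) (nat_lit 76) (nat_lit 0) (XT.lf (nat_lit 0) (nat_lit 22449140319) (nat_lit 76) (nat_lit 26379361504) (nat_lit 76) (nat_lit 405613641) (nat_lit 8) (nat_lit 4) (nat_lit 9) (nat_lit 5) (nat_lit 9) (nat_lit 4) (nat_lit 379) (nat_lit 244) (nat_lit 157)) (XT.lf (nat_lit 0) (nat_lit 2458656828) (nat_lit 152) (nat_lit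 21045264047) (nat_lit 76) (nat_lit 27094146391) (nat_lit 7) (nat_lit 5) (nat_lit 9) (nat_lit 5) (nat_lit 8) (nat_lit 4) (nat_lit 380) (nat_lit 244) (nat_lit 156))))))) (XT.nd (nat_lit 858) (nat_lit 76) (nat_lit 0) (XT.nd (nat_lit 390) (nat_lit 0) (nat_lit 0) (XT.nd (nat_lit 156) (nat_lit 76) (nat_lit 0) (XT.nd (nat_lit 78) (nat_lit 0) (nat_lit 0) (XT.lf (nat_lit 0) (nat_lit 5386614826) (nat_lit 152) (nat_lit 15162275863) (nat_lit 76) (nat_lit 31454358899) (nat_lit 7) (nat_lit 5) (nat_lit 9) (nat_lit 5) (nat_lit 8) (nat_lit 4) (nat_lit 381) (nat_lit 244) (nat_lit 155)) (XT.lf (nat_lit 0) (nat_lit 8388733744) (nat_lit 152) (nat_lit 9126971110) (nat_lit 76) (nat_lit 35935302373) (nat_lit 7) (nat_lit 5) (nat_lit 9) (nat_lit 5) (nat_lit 8) (nat_lit 4) (nat_lit 382) (nat_lit 244) (nat_lit 154))) (XT.nd (nat_lit 78) (nat_lit 76) (nat_lit 0) (XT.lf (nat_lit 0) (nat_lit 11467636794) (nat_lit 152) (nat_lit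 2934076222) (nat_lit 76) (nat_lit 40540892199) (nat_lit 7) (nat_lit 5) (nat_lit 9) (nat_lit 5) (nat_lit 8) (nat_lit 4) (nat_lit 383) (nat_lit 244) (nat_lit 153)) (XT.nd (nat_lit 78) (nat_lit 0) (nat_lit 0) (XT.lf (nat_lit 0) (nat_lit 3489920998) (nat_lit 76) (nat_lit 11169640536) (nat_lit 152) (nat_lit 41818778938) (nat_lit 6) (nat_lit 5) (nat_lit 7) (nat_lit 5) (nat_lit 8) (nat_lit 4) (nat_lit 384) (nat_lit 244) (nat_lit 152)) (XT.lf (nat_lit 0) (nat_lit 10144221764) (nat_lit 76) (nat_lit 7819916646) (nat_lit 152) (nat_lit 40095511250) (nat_lit 6) (nat_lit 5) (nat_lit 7) (nat_lit 5) (nat_lit 8) (nat_lit 4) (nat_lit 385) (nat_lit 244) (nat_lit 151))))) (XT.nd (nat_lit 234) (nat_lit 0) (nat_lit 0) (XT.nd (nat_lit 78) (nat_lit 0) (nat_lit 0) (XT.lf (nat_lit 0) (nat_lit 16976246643) (nat_lit 76) (nat_lit 4379242821) (nat_lit 152) (nat_lit 38333288006) (nat_lit 6) (nat_lit 5) (nat_lit 7) (nat_lit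 5) (nat_lit 8) (nat_lit 4) (nat_lit 386) (nat_lit 244) (nat_lit 150)) (XT.nd (nat_lit 78) (nat_lit 0) (nat_lit 0) (XT.lf (nat_lit 0) (nat_lit 23991965367) (nat_lit 76) (nat_lit 844612645) (nat_lit 152) (nat_lit 36530569400) (nat_lit 6) (nat_lit 5) (nat_lit 7) (nat_lit 5) (nat_lit 8) (nat_lit 4) (nat_lit 387) (nat_lit 244) (nat_lit 149)) (XT.lf (nat_lit 0) (nat_lit 28437236732) (nat_lit 152) (nat_lit 31925508799) (nat_lit 0) (nat_lit 2732676765) (nat_lit 6) (nat_lit 5) (nat_lit 8) (nat_lit 4) (nat_lit 6) (nat_lit 4) (nat_lit 388) (nat_lit 244) (nat_lit 148)))) (XT.nd (nat_lit 78) (nat_lit 0) (nat_lit 0) (XT.lf (nat_lit 0) (nat_lit 32142879761) (nat_lit 152) (nat_lit 26341017169) (nat_lit 0) (nat_lit 6391747293) (nat_lit 6) (nat_lit 5) (nat_lit 8) (nat_lit 4) (nat_lit 6) (nat_lit 4) (nat_lit 389) (nat_lit 244) (nat_lit 147)) (XT.nd (nat_lit 78) (nat_lit 0) (nat_lit 0) (XT.lf (nat_lit 0) (nat_lit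 35948626109) (nat_lit 152) (nat_lit 20608708569) (nat_lit 0) (nat_lit 10152277620) (nat_lit 6) (nat_lit 5) (nat_lit 8) (nat_lit 4) (nat_lit 6) (nat_lit 4) (nat_lit 390) (nat_lit 244) (nat_lit 146)) (XT.lf (nat_lit 0) (nat_lit 39857801184) (nat_lit 152) (nat_lit 14723574186) (nat_lit 0) (nat_lit 14017553646) (nat_lit 6) (nat_lit 5) (nat_lit 8) (nat_lit 4) (nat_lit 6) (nat_lit 4) (nat_lit 391) (nat_lit 244) (nat_lit 145)))))) (XT.nd (nat_lit 468) (nat_lit 0) (nat_lit 0) (XT.nd (nat_lit 234) (nat_lit 0) (nat_lit 0) (XT.nd (nat_lit 78) (nat_lit 76) (nat_lit 0) (XT.lf (nat_lit 0) (nat_lit 43873820770) (nat_lit 152) (nat_lit 8680471671) (nat_lit 0) (nat_lit 17990952796) (nat_lit 6) (nat_lit 5) (nat_lit 8) (nat_lit 4) (nat_lit 6) (nat_lit 4) (nat_lit 392) (nat_lit 244) (nat_lit 144)) (XT.nd (nat_lit 78) (nat_lit 76) (nat_lit 0) (XT.lf (nat_lit 0) (nat_lit 48000194011) (nat_lit 152) (nat_lit 2474120641)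 (nat_lit 0) (nat_lit 22075946973) (nat_lit 6) (nat_lit 5) (nat_lit 8) (nat_lit 4) (nat_lit 6) (nat_lit 4) (nat_lit 393) (nat_lit 244) (nat_lit 143)) (XT.lf (nat_lit 0) (nat_lit 3978537524) (nat_lit 76) (nat_lit 48300233087) (nat_lit 76) (nat_lit 22335812200) (nat_lit 5) (nat_lit 4) (nat_lit 6) (nat_lit 5) (nat_lit 6) (nat_lit 4) (nat_lit 394) (nat_lit 244) (nat_lit 142)))) (XT.nd (nat_lit 78) (nat_lit 0) (nat_lit 0) (XT.lf (nat_lit 0) (nat_lit 10658145246) (nat_lit 76) (nat_lit 46042830674) (nat_lit 76) (nat_lit 20039406051) (nat_lit 5) (nat_lit 4) (nat_lit 6) (nat_lit 5) (nat_lit 6) (nat_lit 4) (nat_lit 395) (nat_lit 244) (nat_lit 141)) (XT.nd (nat_lit 78) (nat_lit 0) (nat_lit 0) (XT.lf (nat_lit 0) (nat_lit 17521299221) (nat_lit 76) (nat_lit 43725118693) (nat_lit 76) (nat_lit 17683826364) (nat_lit 5) (nat_lit 4) (nat_lit 6) (nat_lit 5) (nat_lit 6) (nat_lit 4) (nat_lit 396) (nat_lit 244) (nat_lit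 140)) (XT.lf (nat_lit 0) (nat_lit 24573996382) (nat_lit 76) (nat_lit 41345071957) (nat_lit 76) (nat_lit 15267014866) (nat_lit 5) (nat_lit 4) (nat_lit 6) (nat_lit 5) (nat_lit 6) (nat_lit 4) (nat_lit 397) (nat_lit 244) (nat_lit 139))))) (XT.nd (nat_lit 312) (nat_lit 0) (nat_lit 0) (XT.nd (nat_lit 78) (nat_lit 0) (nat_lit 0) (XT.lf (nat_lit 0) (nat_lit 31822399278) (nat_lit 76) (nat_lit 38900610816) (nat_lit 76) (nat_lit 12786859781) (nat_lit 5) (nat_lit 4) (nat_lit 6) (nat_lit 5) (nat_lit 6) (nat_lit 4) (nat_lit 398) (nat_lit 244) (nat_lit 138)) (XT.nd (nat_lit 78) (nat_lit 0) (nat_lit 0) (XT.lf (nat_lit 0) (nat_lit 39272841466) (nat_lit 76) (nat_lit 36389599332) (nat_lit 76) (nat_lit 10241193982) (nat_lit 5) (nat_lit 4) (nat_lit 6) (nat_lit 5) (nat_lit 6) (nat_lit 4) (nat_lit 399) (nat_lit 244) (nat_lit 137)) (XT.lf (nat_lit 0) (nat_lit 46931833040) (nat_lit 76) (nat_lit 33809843417) (nat_lit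 76) (nat_lit 7627793101) (nat_lit 5) (nat_lit 4) (nat_lit 6) (nat_lit 5) (nat_lit 6) (nat_lit 4) (nat_lit 400) (nat_lit 244) (nat_lit 136)))) (XT.nd (nat_lit 31902) (nat_lit 0) (nat_lit 9652) (XT.lf (nat_lit 0) (nat_lit 62902421715) (nat_lit 76) (nat_lit 28435019634) (nat_lit 76) (nat_lit 2188590696) (nat_lit 5) (nat_lit 4) (nat_lit 6) (nat_lit 5) (nat_lit 6) (nat_lit 4) (nat_lit 402) (nat_lit 244) (nat_lit 134)) (XT.nd (nat_lit 78) (nat_lit 532) (nat_lit 0) (XT.lf (nat_lit 0) (nat_lit 1409182478) (nat_lit 608) (nat_lit 950743650) (nat_lit 0) (nat_lit 1409182478) (nat_lit 139) (nat_lit 5) (nat_lit 147) (nat_lit 4) (nat_lit 139) (nat_lit 4) (nat_lit 290) (nat_lit 245) (nat_lit 245)) (XT.lf (nat_lit 0) (nat_lit 2964859777) (nat_lit 532) (nat_lit 3023346216) (nat_lit 532) (nat_lit 1628872272) (nat_lit 132) (nat_lit 4) (nat_lit 139) (nat_lit 5) (nat_lit 139) (nat_lit 4) (nat_lit 291) (nat_lit 245)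 (nat_lit 244))))))))
noncomputable def xc69 : XT := (XT.nd (nat_lit 1794) (nat_lit 2280) (nat_lit 0) (XT.nd (nat_lit 858) (nat_lit 2432) (nat_lit 0) (XT.nd (nat_lit 390) (nat_lit 1748) (nat_lit 0) (XT.nd (nat_lit 156) (nat_lit 1064) (nat_lit 0) (XT.nd (nat_lit 78) (nat_lit 0) (nat_lit 0) (XT.lf (nat_lit 0) (nat_lit 209528757) (nat_lit 456) (nat_lit 1247545577) (nat_lit 532) (nat_lit 6243023414) (nat_lit 125) (nat_lit 5) (nat_lit 131) (nat_lit 5) (nat_lit 132) (nat_lit 4) (nat_lit 292) (nat_lit 245) (nat_lit 243)) (XT.lf (nat_lit 0) (nat_lit 4568628254) (nat_lit 532) (nat_lit 2593531243) (nat_lit 0) (nat_lit 624203421) (nat_lit 125) (nat_lit 5) (nat_lit 132) (nat_lit 4) (nat_lit 125) (nat_lit 4) (nat_lit 293) (nat_lit 245) (nat_lit 242))) (XT.nd (nat_lit 78) (nat_lit 532) (nat_lit 0) (XT.lf (nat_lit 0) (nat_lit 2387920374) (nat_lit 532) (nat_lit 5336190432) (nat_lit 532) (nat_lit 152793561) (nat_lit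 118) (nat_lit 4) (nat_lit 125) (nat_lit 5) (nat_lit 125) (nat_lit 4) (nat_lit 294) (nat_lit 245) (nat_lit 241)) (XT.nd (nat_lit 78) (nat_lit 456) (nat_lit 0) (XT.lf (nat_lit 0) (nat_lit 2887727293) (nat_lit 608) (nat_lit 524195939) (nat_lit 76) (nat_lit 4559298912) (nat_lit 117) (nat_lit 5) (nat_lit 125) (nat_lit 5) (nat_lit 118) (nat_lit 4) (nat_lit 295) (nat_lit 245) (nat_lit 240)) (XT.lf (nat_lit 0) (nat_lit 4582627640) (nat_lit 456) (nat_lit 1396071847) (nat_lit 532) (nat_lit 2090943701) (nat_lit 111) (nat_lit 5) (nat_lit 117) (nat_lit 5) (nat_lit 118) (nat_lit 4) (nat_lit 296) (nat_lit 245) (nat_lit 239))))) (XT.nd (nat_lit 234) (nat_lit 836) (nat_lit 0) (XT.nd (nat_lit 78) (nat_lit 380) (nat_lit 0) (XT.lf (nat_lit 0) (nat_lit 918308443) (nat_lit 532) (nat_lit 6570753515) (nat_lit 76) (nat_lit 683458422) (nat_lit 104) (nat_lit 5) (nat_lit 111) (nat_lit 5) (nat_lit 105) (nat_lit 4) (nat_lit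 297) (nat_lit 245) (nat_lit 238)) (XT.nd (nat_lit 78) (nat_lit 380) (nat_lit 0) (XT.lf (nat_lit 0) (nat_lit 3945267139) (nat_lit 532) (nat_lit 1494775526) (nat_lit 76) (nat_lit 2838908845) (nat_lit 104) (nat_lit 5) (nat_lit 111) (nat_lit 5) (nat_lit 105) (nat_lit 4) (nat_lit 298) (nat_lit 245) (nat_lit 237)) (XT.lf (nat_lit 0) (nat_lit 3711570425) (nat_lit 380) (nat_lit 3309541801) (nat_lit 456) (nat_lit 1368888337) (nat_lit 99) (nat_lit 5) (nat_lit 104) (nat_lit 5) (nat_lit 105) (nat_lit 4) (nat_lit 299) (nat_lit 245) (nat_lit 236)))) (XT.nd (nat_lit 78) (nat_lit 380) (nat_lit 0) (XT.lf (nat_lit 0) (nat_lit 499108255) (nat_lit 380) (nat_lit 1095755184) (nat_lit 456) (nat_lit 6910902809) (nat_lit 93) (nat_lit 5) (nat_lit 98) (nat_lit 5) (nat_lit 99) (nat_lit 5) (nat_lit 300) (nat_lit 245) (nat_lit 235)) (XT.nd (nat_lit 78) (nat_lit 380) (nat_lit 0) (XT.lf (nat_lit 0) (nat_lit 4603124080) (nat_lit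 456) (nat_lit 2817542593) (nat_lit 76) (nat_lit 1204591461) (nat_lit 93) (nat_lit 5) (nat_lit 99) (nat_lit 5) (nat_lit 94) (nat_lit 4) (nat_lit 301) (nat_lit 245) (nat_lit 234)) (XT.lf (nat_lit 0) (nat_lit 2470999483) (nat_lit 380) (nat_lit 5191461361) (nat_lit 456) (nat_lit 1087197746) (nat_lit 88) (nat_lit 5) (nat_lit 93) (nat_lit 5) (nat_lit 94) (nat_lit 4) (nat_lit 302) (nat_lit 245) (nat_lit 233)))))) (XT.nd (nat_lit 468) (nat_lit 1292) (nat_lit 0) (XT.nd (nat_lit 234) (nat_lit 380) (nat_lit 0) (XT.nd (nat_lit 78) (nat_lit 684) (nat_lit 0) (XT.lf (nat_lit 0) (nat_lit 1853370499) (nat_lit 456) (nat_lit 1014170955) (nat_lit 76) (nat_lit 6011170752) (nat_lit 87) (nat_lit 5) (nat_lit 93) (nat_lit 5) (nat_lit 88) (nat_lit 5) (nat_lit 303) (nat_lit 245) (nat_lit 232)) (XT.nd (nat_lit 78) (nat_lit 304) (nat_lit 0) (XT.lf (nat_lit 0) (nat_lit 4391632163) (nat_lit 380) (nat_lit 439648895) (nat_lit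 456) (nat_lit 4181040184) (nat_lit 82) (nat_lit 5) (nat_lit 87) (nat_lit 5) (nat_lit 88) (nat_lit 5) (nat_lit 304) (nat_lit 245) (nat_lit 231)) (XT.lf (nat_lit 0) (nat_lit 732457433) (nat_lit 304) (nat_lit 7133034306) (nat_lit 380) (nat_lit 1285570010) (nat_lit 78) (nat_lit 5) (nat_lit 82) (nat_lit 5) (nat_lit 83) (nat_lit 4) (nat_lit 305) (nat_lit 245) (nat_lit 230)))) (XT.nd (nat_lit 78) (nat_lit 304) (nat_lit 0) (XT.lf (nat_lit 0) (nat_lit 1645249975) (nat_lit 380) (nat_lit 3066067781) (nat_lit 76) (nat_lit 4582834035) (nat_lit 77) (nat_lit 5) (nat_lit 82) (nat_lit 5) (nat_lit 78) (nat_lit 5) (nat_lit 306) (nat_lit 245) (nat_lit 229)) (XT.nd (nat_lit 78) (nat_lit 0) (nat_lit 0) (XT.lf (nat_lit 0) (nat_lit 2390382998) (nat_lit 304) (nat_lit 2202906869) (nat_lit 380) (nat_lit 4849329671) (nat_lit 73) (nat_lit 5) (nat_lit 77) (nat_lit 5) (nat_lit 78) (nat_lit 5) (nat_lit 307) (nat_lit 245) (nat_lit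 228)) (XT.lf (nat_lit 0) (nat_lit 7597748171) (nat_lit 380) (nat_lit 1616789342) (nat_lit 76) (nat_lit 382081842) (nat_lit 73) (nat_lit 5) (nat_lit 78) (nat_lit 5) (nat_lit 74) (nat_lit 4) (nat_lit 308) (nat_lit 245) (nat_lit 227))))) (XT.nd (nat_lit 234) (nat_lit 608) (nat_lit 0) (XT.nd (nat_lit 78) (nat_lit 304) (nat_lit 0) (XT.lf (nat_lit 0) (nat_lit 913412440) (nat_lit 380) (nat_lit 5816436006) (nat_lit 76) (nat_lit 3025393171) (nat_lit 68) (nat_lit 5) (nat_lit 73) (nat_lit 5) (nat_lit 69) (nat_lit 5) (nat_lit 309) (nat_lit 245) (nat_lit 226)) (XT.nd (nat_lit 78) (nat_lit 304) (nat_lit 0) (XT.lf (nat_lit 0) (nat_lit 3824681814) (nat_lit 380) (nat_lit 333318681) (nat_lit 76) (nat_lit 5761581946) (nat_lit 68) (nat_lit 5) (nat_lit 73) (nat_lit 5) (nat_lit 69) (nat_lit 5) (nat_lit 310) (nat_lit 245) (nat_lit 225)) (XT.lf (nat_lit 0) (nat_lit 5331489419) (nat_lit 304) (nat_lit 1480238244) (nat_lit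 380) (nat_lit 3277576943) (nat_lit 64) (nat_lit 5) (nat_lit 68) (nat_lit 5) (nat_lit 69) (nat_lit 5) (nat_lit 311) (nat_lit 245) (nat_lit 224)))) (XT.nd (nat_lit 78) (nat_lit 380) (nat_lit 0) (XT.lf (nat_lit 0) (nat_lit 825130418) (nat_lit 228) (nat_lit 9024828172) (nat_lit 304) (nat_lit 415413867) (nat_lit 61) (nat_lit 5) (nat_lit 64) (nat_lit 5) (nat_lit 65) (nat_lit 4) (nat_lit 312) (nat_lit 245) (nat_lit 223)) (XT.nd (nat_lit 78) (nat_lit 304) (nat_lit 0) (XT.lf (nat_lit 0) (nat_lit 2484600244) (nat_lit 304) (nat_lit 3899838447) (nat_lit 76) (nat_lit 4061606524) (nat_lit 60) (nat_lit 5) (nat_lit 64) (nat_lit 5) (nat_lit 61) (nat_lit 5) (nat_lit 313) (nat_lit 245) (nat_lit 222)) (XT.lf (nat_lit 0) (nat_lit 1751229434) (nat_lit 304) (nat_lit 3668899390) (nat_lit 380) (nat_lit 5213272679) (nat_lit 56) (nat_lit 5) (nat_lit 60) (nat_lit 5) (nat_lit 61) (nat_lit 5) (nat_lit 314) (nat_lit 245) (nat_lit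 221))))))) (XT.nd (nat_lit 936) (nat_lit 760) (nat_lit 0) (XT.nd (nat_lit 468) (nat_lit 684) (nat_lit 0) (XT.nd (nat_lit 234) (nat_lit 532) (nat_lit 0) (XT.nd (nat_lit 78) (nat_lit 304) (nat_lit 0) (XT.lf (nat_lit 0) (nat_lit 7567003904) (nat_lit 304) (nat_lit 857061509) (nat_lit 380) (nat_lit 2402992744) (nat_lit 56) (nat_lit 5) (nat_lit 60) (nat_lit 5) (nat_lit 61) (nat_lit 5) (nat_lit 315) (nat_lit 245) (nat_lit 220)) (XT.nd (nat_lit 78) (nat_lit 0) (nat_lit 0) (XT.lf (nat_lit 0) (nat_lit 467615876) (nat_lit 304) (nat_lit 8556054295) (nat_lit 76) (nat_lit 2003228961) (nat_lit 52) (nat_lit 5) (nat_lit 56) (nat_lit 5) (nat_lit 53) (nat_lit 5) (nat_lit 316) (nat_lit 245) (nat_lit 219)) (XT.lf (nat_lit 0) (nat_lit 3360451599) (nat_lit 304) (nat_lit 2908119699) (nat_lit 76) (nat_lit 4964000390) (nat_lit 52) (nat_lit 5) (nat_lit 56) (nat_lit 5) (nat_lit 53) (nat_lit 5) (nat_lit 317) (nat_lit 245)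 (nat_lit 218)))) (XT.nd (nat_lit 78) (nat_lit 304) (nat_lit 0) (XT.lf (nat_lit 0) (nat_lit 2883711842) (nat_lit 228) (nat_lit 3428424983) (nat_lit 304) (nat_lit 5133195576) (nat_lit 49) (nat_lit 5) (nat_lit 52) (nat_lit 5) (nat_lit 53) (nat_lit 5) (nat_lit 318) (nat_lit 245) (nat_lit 217)) (XT.nd (nat_lit 78) (nat_lit 304) (nat_lit 0) (XT.lf (nat_lit 0) (nat_lit 8827901320) (nat_lit 228) (nat_lit 499024337) (nat_lit 304) (nat_lit 2338391271) (nat_lit 49) (nat_lit 5) (nat_lit 52) (nat_lit 5) (nat_lit 53) (nat_lit 5) (nat_lit 319) (nat_lit 245) (nat_lit 216)) (XT.lf (nat_lit 0) (nat_lit 529346893) (nat_lit 304) (nat_lit 8884149725) (nat_lit 76) (nat_lit 2478332744) (nat_lit 45) (nat_lit 5) (nat_lit 49) (nat_lit 5) (nat_lit 46) (nat_lit 5) (nat_lit 320) (nat_lit 245) (nat_lit 215))))) (XT.nd (nat_lit 234) (nat_lit 456) (nat_lit 0) (XT.nd (nat_lit 78) (nat_lit 228) (nat_lit 0) (XT.lf (nat_lit 0)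 (nat_lit 3416735218) (nat_lit 304) (nat_lit 3146786834) (nat_lit 76) (nat_lit 5561573025) (nat_lit 45) (nat_lit 5) (nat_lit 49) (nat_lit 5) (nat_lit 46) (nat_lit 5) (nat_lit 321) (nat_lit 245) (nat_lit 214)) (XT.nd (nat_lit 78) (nat_lit 0) (nat_lit 0) (XT.lf (nat_lit 0) (nat_lit 2738044198) (nat_lit 228) (nat_lit 3627312507) (nat_lit 304) (nat_lit 6000832647) (nat_lit 42) (nat_lit 5) (nat_lit 45) (nat_lit 5) (nat_lit 46) (nat_lit 5) (nat_lit 322) (nat_lit 245) (nat_lit 213)) (XT.lf (nat_lit 0) (nat_lit 8786609866) (nat_lit 228) (nat_lit 596657956) (nat_lit 304) (nat_lit 3231890629) (nat_lit 42) (nat_lit 5) (nat_lit 45) (nat_lit 5) (nat_lit 46) (nat_lit 5) (nat_lit 323) (nat_lit 245) (nat_lit 212)))) (XT.nd (nat_lit 78) (nat_lit 304) (nat_lit 0) (XT.lf (nat_lit 0) (nat_lit 2085085242) (nat_lit 152) (nat_lit 10401237532) (nat_lit 228) (nat_lit 385500632) (nat_lit 40) (nat_lit 5) (nat_lit 42) (nat_lit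 5) (nat_lit 43) (nat_lit 4) (nat_lit 324) (nat_lit 245) (nat_lit 211)) (XT.nd (nat_lit 78) (nat_lit 228) (nat_lit 0) (XT.lf (nat_lit 0) (nat_lit 2492011449) (nat_lit 228) (nat_lit 4987851088) (nat_lit 76) (nat_lit 5655790200) (nat_lit 39) (nat_lit 5) (nat_lit 42) (nat_lit 5) (nat_lit 40) (nat_lit 5) (nat_lit 325) (nat_lit 245) (nat_lit 210)) (XT.lf (nat_lit 0) (nat_lit 924799418) (nat_lit 228) (nat_lit 4484100138) (nat_lit 304) (nat_lit 7999618384) (nat_lit 36) (nat_lit 5) (nat_lit 39) (nat_lit 5) (nat_lit 40) (nat_lit 5) (nat_lit 326) (nat_lit 245) (nat_lit 209)))))) (XT.nd (nat_lit 468) (nat_lit 380) (nat_lit 0) (XT.nd (nat_lit 234) (nat_lit 152) (nat_lit 0) (XT.nd (nat_lit 78) (nat_lit 228) (nat_lit 0) (XT.lf (nat_lit 0) (nat_lit 7043372717) (nat_lit 228) (nat_lit 1372890442) (nat_lit 304) (nat_lit 5273274606) (nat_lit 36) (nat_lit 5) (nat_lit 39) (nat_lit 5) (nat_lit 40) (nat_lit 5) (nat_lit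 327) (nat_lit 245) (nat_lit 208)) (XT.nd (nat_lit 78) (nat_lit 228) (nat_lit 0) (XT.lf (nat_lit 0) (nat_lit 11485191058) (nat_lit 304) (nat_lit 723839167) (nat_lit 76) (nat_lit 1770873707) (nat_lit 36) (nat_lit 5) (nat_lit 40) (nat_lit 5) (nat_lit 37) (nat_lit 4) (nat_lit 328) (nat_lit 245) (nat_lit 207)) (XT.lf (nat_lit 0) (nat_lit 380748967) (nat_lit 228) (nat_lit 8884896530) (nat_lit 76) (nat_lit 5012661263) (nat_lit 33) (nat_lit 5) (nat_lit 36) (nat_lit 5) (nat_lit 34) (nat_lit 5) (nat_lit 329) (nat_lit 245) (nat_lit 206)))) (XT.nd (nat_lit 78) (nat_lit 152) (nat_lit 0) (XT.lf (nat_lit 0) (nat_lit 3254944760) (nat_lit 228) (nat_lit 2972078014) (nat_lit 76) (nat_lit 8359070845) (nat_lit 33) (nat_lit 5) (nat_lit 36) (nat_lit 5) (nat_lit 34) (nat_lit 5) (nat_lit 330) (nat_lit 245) (nat_lit 205)) (XT.nd (nat_lit 78) (nat_lit 0) (nat_lit 0) (XT.lf (nat_lit 0) (nat_lit 3109998513) (nat_lit 152)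 (nat_lit 3091796741) (nat_lit 228) (nat_lit 8701775764) (nat_lit 31) (nat_lit 5) (nat_lit 33) (nat_lit 5) (nat_lit 34) (nat_lit 5) (nat_lit 331) (nat_lit 245) (nat_lit 204)) (XT.lf (nat_lit 0) (nat_lit 9225583768) (nat_lit 228) (nat_lit 5865059240) (nat_lit 76) (nat_lit 140322107) (nat_lit 31) (nat_lit 5) (nat_lit 34) (nat_lit 5) (nat_lit 32) (nat_lit 4) (nat_lit 332) (nat_lit 245) (nat_lit 203))))) (XT.nd (nat_lit 234) (nat_lit 152) (nat_lit 0) (XT.nd (nat_lit 78) (nat_lit 76) (nat_lit 0) (XT.lf (nat_lit 0) (nat_lit 146339461) (nat_lit 152) (nat_lit 12183921915) (nat_lit 228) (nat_lit 3238261334) (nat_lit 29) (nat_lit 5) (nat_lit 31) (nat_lit 5) (nat_lit 32) (nat_lit 4) (nat_lit 333) (nat_lit 245) (nat_lit 202)) (XT.nd (nat_lit 78) (nat_lit 76) (nat_lit 0) (XT.lf (nat_lit 0) (nat_lit 6391753322) (nat_lit 152) (nat_lit 9154287440) (nat_lit 228) (nat_lit 369673001) (nat_lit 29) (nat_lit 5) (nat_lit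 31) (nat_lit 5) (nat_lit 32) (nat_lit 4) (nat_lit 334) (nat_lit 245) (nat_lit 201)) (XT.lf (nat_lit 0) (nat_lit 2494028530) (nat_lit 228) (nat_lit 3539104601) (nat_lit 76) (nat_lit 10240699992) (nat_lit 28) (nat_lit 5) (nat_lit 31) (nat_lit 5) (nat_lit 29) (nat_lit 5) (nat_lit 335) (nat_lit 245) (nat_lit 200)))) (XT.nd (nat_lit 78) (nat_lit 0) (nat_lit 0) (XT.lf (nat_lit 0) (nat_lit 2608989004) (nat_lit 152) (nat_lit 2812978602) (nat_lit 228) (nat_lit 11221087665) (nat_lit 26) (nat_lit 5) (nat_lit 28) (nat_lit 5) (nat_lit 29) (nat_lit 5) (nat_lit 336) (nat_lit 245) (nat_lit 199)) (XT.nd (nat_lit 78) (nat_lit 0) (nat_lit 0) (XT.lf (nat_lit 0) (nat_lit 8439664893) (nat_lit 228) (nat_lit 8077312054) (nat_lit 76) (nat_lit 506360025) (nat_lit 26) (nat_lit 5) (nat_lit 29) (nat_lit 5) (nat_lit 27) (nat_lit 4) (nat_lit 337) (nat_lit 245) (nat_lit 198)) (XT.lf (nat_lit 0) (nat_lit 11537866246) (nat_lit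 228) (nat_lit 2031752328) (nat_lit 76) (nat_lit 3845748667) (nat_lit 26) (nat_lit 5) (nat_lit 29) (nat_lit 5) (nat_lit 27) (nat_lit 4) (nat_lit 338) (nat_lit 245) (nat_lit 197))))))))
noncomputable def xc70 : XT := (XT.nd (nat_lit 1794) (nat_lit 380) (nat_lit 0) (XT.nd (nat_lit 858) (nat_lit 380) (nat_lit 0) (XT.nd (nat_lit 390) (nat_lit 304) (nat_lit 0) (XT.nd (nat_lit 156) (nat_lit 228) (nat_lit 0) (XT.nd (nat_lit 78) (nat_lit 0) (nat_lit 0) (XT.lf (nat_lit 0) (nat_lit 4217228832) (nat_lit 152) (nat_lit 10515548514) (nat_lit 228) (nat_lit 3086306329) (nat_lit 24) (nat_lit 5) (nat_lit 26) (nat_lit 5) (nat_lit 27) (nat_lit 4) (nat_lit 339) (nat_lit 245) (nat_lit 196)) (XT.lf (nat_lit 0) (nat_lit 10635680255) (nat_lit 152) (nat_lit 7372095100) (nat_lit 228) (nat_lit 227646114) (nat_lit 24) (nat_lit 5) (nat_lit 26) (nat_lit 5) (nat_lit 27) (nat_lit 4) (nat_lit 340) (nat_lit 245) (nat_lit 195)))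 (XT.nd (nat_lit 78) (nat_lit 152) (nat_lit 0) (XT.lf (nat_lit 0) (nat_lit 2628155346) (nat_lit 228) (nat_lit 1502333780) (nat_lit 76) (nat_lit 14534079876) (nat_lit 23) (nat_lit 5) (nat_lit 26) (nat_lit 5) (nat_lit 24) (nat_lit 5) (nat_lit 341) (nat_lit 245) (nat_lit 194)) (XT.nd (nat_lit 78) (nat_lit 0) (nat_lit 0) (XT.lf (nat_lit 0) (nat_lit 4812709318) (nat_lit 152) (nat_lit 764041287) (nat_lit 228) (nat_lit 13529455792) (nat_lit 21) (nat_lit 5) (nat_lit 23) (nat_lit 5) (nat_lit 24) (nat_lit 5) (nat_lit 342) (nat_lit 245) (nat_lit 193)) (XT.lf (nat_lit 0) (nat_lit 8620794368) (nat_lit 228) (nat_lit 8296004081) (nat_lit 76) (nat_lit 2644117669) (nat_lit 21) (nat_lit 5) (nat_lit 24) (nat_lit 5) (nat_lit 22) (nat_lit 4) (nat_lit 343) (nat_lit 245) (nat_lit 192))))) (XT.nd (nat_lit 234) (nat_lit 228) (nat_lit 0) (XT.nd (nat_lit 78) (nat_lit 76) (nat_lit 0) (XT.lf (nat_lit 0) (nat_lit 11730406811)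 (nat_lit 228) (nat_lit 2181713607) (nat_lit 76) (nat_lit 6117951256) (nat_lit 21) (nat_lit 5) (nat_lit 24) (nat_lit 5) (nat_lit 22) (nat_lit 4) (nat_lit 344) (nat_lit 245) (nat_lit 191)) (XT.nd (nat_lit 78) (nat_lit 0) (nat_lit 0) (XT.lf (nat_lit 0) (nat_lit 4142904345) (nat_lit 76) (nat_lit 10797880425) (nat_lit 152) (nat_lit 5572323845) (nat_lit 20) (nat_lit 5) (nat_lit 21) (nat_lit 5) (nat_lit 22) (nat_lit 4) (nat_lit 345) (nat_lit 245) (nat_lit 190)) (XT.lf (nat_lit 0) (nat_lit 10648568468) (nat_lit 76) (nat_lit 7589018326) (nat_lit 152) (nat_lit 2773376617) (nat_lit 20) (nat_lit 5) (nat_lit 21) (nat_lit 5) (nat_lit 22) (nat_lit 4) (nat_lit 346) (nat_lit 245) (nat_lit 189)))) (XT.nd (nat_lit 78) (nat_lit 152) (nat_lit 0) (XT.lf (nat_lit 0) (nat_lit 76077383) (nat_lit 152) (nat_lit 4227915675) (nat_lit 76) (nat_lit 17220697330) (nat_lit 19) (nat_lit 5) (nat_lit 21) (nat_lit 5) (nat_lit 20)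 (nat_lit 5) (nat_lit 347) (nat_lit 245) (nat_lit 188)) (XT.nd (nat_lit 78) (nat_lit 0) (nat_lit 0) (XT.lf (nat_lit 0) (nat_lit 2052202740) (nat_lit 152) (nat_lit 892385377) (nat_lit 228) (nat_lit 19108765395) (nat_lit 17) (nat_lit 5) (nat_lit 19) (nat_lit 5) (nat_lit 20) (nat_lit 5) (nat_lit 348) (nat_lit 245) (nat_lit 187)) (XT.lf (nat_lit 0) (nat_lit 5937262630) (nat_lit 228) (nat_lit 14066038167) (nat_lit 76) (nat_lit 2593459250) (nat_lit 17) (nat_lit 5) (nat_lit 20) (nat_lit 5) (nat_lit 18) (nat_lit 4) (nat_lit 349) (nat_lit 245) (nat_lit 186)))))) (XT.nd (nat_lit 468) (nat_lit 304) (nat_lit 0) (XT.nd (nat_lit 234) (nat_lit 0) (nat_lit 0) (XT.nd (nat_lit 78) (nat_lit 76) (nat_lit 0) (XT.lf (nat_lit 0) (nat_lit 8999224670) (nat_lit 228) (nat_lit 8011428489) (nat_lit 76) (nat_lit 6146456389) (nat_lit 17) (nat_lit 5) (nat_lit 20) (nat_lit 5) (nat_lit 18) (nat_lit 4) (nat_lit 350) (nat_lit 245)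 (nat_lit 185)) (XT.nd (nat_lit 78) (nat_lit 76) (nat_lit 0) (XT.lf (nat_lit 0) (nat_lit 12124571585) (nat_lit 228) (nat_lit 1823453149) (nat_lit 76) (nat_lit 9787124254) (nat_lit 17) (nat_lit 5) (nat_lit 20) (nat_lit 5) (nat_lit 18) (nat_lit 4) (nat_lit 351) (nat_lit 245) (nat_lit 184)) (XT.lf (nat_lit 0) (nat_lit 4592919219) (nat_lit 76) (nat_lit 10767264990) (nat_lit 152) (nat_lit 8969874739) (nat_lit 16) (nat_lit 5) (nat_lit 17) (nat_lit 5) (nat_lit 18) (nat_lit 4) (nat_lit 352) (nat_lit 245) (nat_lit 183)))) (XT.nd (nat_lit 78) (nat_lit 0) (nat_lit 0) (XT.lf (nat_lit 0) (nat_lit 11192754609) (nat_lit 76) (nat_lit 7491238348) (nat_lit 152) (nat_lit 6259113203) (nat_lit 16) (nat_lit 5) (nat_lit 17) (nat_lit 5) (nat_lit 18) (nat_lit 4) (nat_lit 353) (nat_lit 245) (nat_lit 182)) (XT.nd (nat_lit 78) (nat_lit 0) (nat_lit 0) (XT.lf (nat_lit 0) (nat_lit 17945529573) (nat_lit 76) (nat_lit 4135495562)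 (nat_lit 152) (nat_lit 3494337470) (nat_lit 16) (nat_lit 5) (nat_lit 17) (nat_lit 5) (nat_lit 18) (nat_lit 4) (nat_lit 354) (nat_lit 245) (nat_lit 181)) (XT.lf (nat_lit 0) (nat_lit 24857144594) (nat_lit 76) (nat_lit 697104430) (nat_lit 152) (nat_lit 673131716) (nat_lit 16) (nat_lit 5) (nat_lit 17) (nat_lit 5) (nat_lit 18) (nat_lit 4) (nat_lit 355) (nat_lit 245) (nat_lit 180))))) (XT.nd (nat_lit 234) (nat_lit 76) (nat_lit 0) (XT.nd (nat_lit 78) (nat_lit 0) (nat_lit 0) (XT.lf (nat_lit 0) (nat_lit 2240918223) (nat_lit 228) (nat_lit 21813034061) (nat_lit 76) (nat_lit 2842831114) (nat_lit 13) (nat_lit 5) (nat_lit 16) (nat_lit 5) (nat_lit 14) (nat_lit 4) (nat_lit 356) (nat_lit 245) (nat_lit 179)) (XT.nd (nat_lit 78) (nat_lit 0) (nat_lit 0) (XT.lf (nat_lit 0) (nat_lit 5224653526) (nat_lit 228) (nat_lit 15883283058) (nat_lit 76) (nat_lit 6478278334) (nat_lit 13) (nat_lit 5) (nat_lit 16) (nat_lit 5) (nat_lit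 14) (nat_lit 4) (nat_lit 357) (nat_lit 245) (nat_lit 178)) (XT.lf (nat_lit 0) (nat_lit 8273548876) (nat_lit 228) (nat_lit 9817551384) (nat_lit 76) (nat_lit 10205979603) (nat_lit 13) (nat_lit 5) (nat_lit 16) (nat_lit 5) (nat_lit 14) (nat_lit 4) (nat_lit 358) (nat_lit 245) (nat_lit 177)))) (XT.nd (nat_lit 78) (nat_lit 76) (nat_lit 0) (XT.lf (nat_lit 0) (nat_lit 11390268356) (nat_lit 228) (nat_lit 3610538884) (nat_lit 76) (nat_lit 14029192137) (nat_lit 13) (nat_lit 5) (nat_lit 16) (nat_lit 5) (nat_lit 14) (nat_lit 4) (nat_lit 359) (nat_lit 245) (nat_lit 176)) (XT.nd (nat_lit 78) (nat_lit 0) (nat_lit 0) (XT.lf (nat_lit 0) (nat_lit 2797772665) (nat_lit 76) (nat_lit 11806656550) (nat_lit 152) (nat_lit 15180377843) (nat_lit 12) (nat_lit 5) (nat_lit 13) (nat_lit 5) (nat_lit 14) (nat_lit 4) (nat_lit 360) (nat_lit 245) (nat_lit 175)) (XT.lf (nat_lit 0) (nat_lit 9433227436) (nat_lit 76) (nat_lit 8495585255)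 (nat_lit 152) (nat_lit 12633050574) (nat_lit 12) (nat_lit 5) (nat_lit 13) (nat_lit 5) (nat_lit 14) (nat_lit 4) (nat_lit 361) (nat_lit 245) (nat_lit 174))))))) (XT.nd (nat_lit 858) (nat_lit 152) (nat_lit 0) (XT.nd (nat_lit 390) (nat_lit 76) (nat_lit 0) (XT.nd (nat_lit 156) (nat_lit 152) (nat_lit 0) (XT.nd (nat_lit 78) (nat_lit 0) (nat_lit 0) (XT.lf (nat_lit 0) (nat_lit 16229766594) (nat_lit 76) (nat_lit 5101159549) (nat_lit 152) (nat_lit 10031982759) (nat_lit 12) (nat_lit 5) (nat_lit 13) (nat_lit 5) (nat_lit 14) (nat_lit 4) (nat_lit 362) (nat_lit 245) (nat_lit 173)) (XT.lf (nat_lit 0) (nat_lit 23193328863) (nat_lit 76) (nat_lit 1620413430) (nat_lit 152) (nat_lit 7374901618) (nat_lit 12) (nat_lit 5) (nat_lit 13) (nat_lit 5) (nat_lit 14) (nat_lit 4) (nat_lit 363) (nat_lit 245) (nat_lit 172))) (XT.nd (nat_lit 78) (nat_lit 152) (nat_lit 0) (XT.lf (nat_lit 0) (nat_lit 28399046034) (nat_lit 152) (nat_lit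 2728532557) (nat_lit 0) (nat_lit 1911648968) (nat_lit 12) (nat_lit 5) (nat_lit 14) (nat_lit 4) (nat_lit 12) (nat_lit 4) (nat_lit 364) (nat_lit 245) (nat_lit 171)) (XT.nd (nat_lit 78) (nat_lit 76) (nat_lit 0) (XT.lf (nat_lit 0) (nat_lit 3748112817) (nat_lit 76) (nat_lit 28375593851) (nat_lit 76) (nat_lit 1790684310) (nat_lit 11) (nat_lit 4) (nat_lit 12) (nat_lit 5) (nat_lit 12) (nat_lit 4) (nat_lit 365) (nat_lit 245) (nat_lit 170)) (XT.lf (nat_lit 0) (nat_lit 1129560520) (nat_lit 152) (nat_lit 24386573990) (nat_lit 76) (nat_lit 9299132304) (nat_lit 10) (nat_lit 5) (nat_lit 12) (nat_lit 5) (nat_lit 11) (nat_lit 4) (nat_lit 366) (nat_lit 245) (nat_lit 169))))) (XT.nd (nat_lit 234) (nat_lit 76) (nat_lit 0) (XT.nd (nat_lit 78) (nat_lit 0) (nat_lit 0) (XT.lf (nat_lit 0) (nat_lit 4081777484) (nat_lit 152) (nat_lit 18485488413) (nat_lit 76) (nat_lit 13175975290) (nat_lit 10) (nat_lit 5) (nat_lit 12)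 (nat_lit 5) (nat_lit 11) (nat_lit 4) (nat_lit 367) (nat_lit 245) (nat_lit 168)) (XT.nd (nat_lit 78) (nat_lit 0) (nat_lit 0) (XT.lf (nat_lit 0) (nat_lit 7103488888) (nat_lit 152) (nat_lit 12440651990) (nat_lit 76) (nat_lit 17155500464) (nat_lit 10) (nat_lit 5) (nat_lit 12) (nat_lit 5) (nat_lit 11) (nat_lit 4) (nat_lit 368) (nat_lit 245) (nat_lit 167)) (XT.lf (nat_lit 0) (nat_lit 10197335064) (nat_lit 152) (nat_lit 6246782825) (nat_lit 76) (nat_lit 21241185082) (nat_lit 10) (nat_lit 5) (nat_lit 12) (nat_lit 5) (nat_lit 11) (nat_lit 4) (nat_lit 369) (nat_lit 245) (nat_lit 166)))) (XT.nd (nat_lit 78) (nat_lit 0) (nat_lit 0) (XT.lf (nat_lit 0) (nat_lit 103551869) (nat_lit 76) (nat_lit 13263462905) (nat_lit 152) (nat_lit 25334042693) (nat_lit 9) (nat_lit 5) (nat_lit 10) (nat_lit 5) (nat_lit 11) (nat_lit 4) (nat_lit 370) (nat_lit 245) (nat_lit 165)) (XT.nd (nat_lit 78) (nat_lit 0) (nat_lit 0) (XT.lf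 (nat_lit 0) (nat_lit 6741385876) (nat_lit 76) (nat_lit 9935727011) (nat_lit 152) (nat_lit 23068825040) (nat_lit 9) (nat_lit 5) (nat_lit 10) (nat_lit 5) (nat_lit 11) (nat_lit 4) (nat_lit 371) (nat_lit 245) (nat_lit 164)) (XT.lf (nat_lit 0) (nat_lit 13548196017) (nat_lit 76) (nat_lit 6521082736) (nat_lit 152) (nat_lit 20753415890) (nat_lit 9) (nat_lit 5) (nat_lit 10) (nat_lit 5) (nat_lit 11) (nat_lit 4) (nat_lit 372) (nat_lit 245) (nat_lit 163)))))) (XT.nd (nat_lit 468) (nat_lit 76) (nat_lit 0) (XT.nd (nat_lit 234) (nat_lit 76) (nat_lit 0) (XT.nd (nat_lit 78) (nat_lit 0) (nat_lit 0) (XT.lf (nat_lit 0) (nat_lit 20529929989) (nat_lit 76) (nat_lit 3016546409) (nat_lit 152) (nat_lit 18385792069) (nat_lit 9) (nat_lit 5) (nat_lit 10) (nat_lit 5) (nat_lit 11) (nat_lit 4) (nat_lit 373) (nat_lit 245) (nat_lit 162)) (XT.nd (nat_lit 78) (nat_lit 0) (nat_lit 0) (XT.lf (nat_lit 0) (nat_lit 27117328544) (nat_lit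 152) (nat_lit 15388524987) (nat_lit 0) (nat_lit 569607870) (nat_lit 9) (nat_lit 5) (nat_lit 11) (nat_lit 4) (nat_lit 9) (nat_lit 4) (nat_lit 374) (nat_lit 245) (nat_lit 161)) (XT.lf (nat_lit 0) (nat_lit 30809286719) (nat_lit 152) (nat_lit 9252134732) (nat_lit 0) (nat_lit 4191120959) (nat_lit 9) (nat_lit 5) (nat_lit 11) (nat_lit 4) (nat_lit 9) (nat_lit 4) (nat_lit 375) (nat_lit 245) (nat_lit 160)))) (XT.nd (nat_lit 78) (nat_lit 76) (nat_lit 0) (XT.lf (nat_lit 0) (nat_lit 34596580018) (nat_lit 152) (nat_lit 2958808928) (nat_lit 0) (nat_lit 7910020970) (nat_lit 9) (nat_lit 5) (nat_lit 11) (nat_lit 4) (nat_lit 9) (nat_lit 4) (nat_lit 376) (nat_lit 245) (nat_lit 159)) (XT.nd (nat_lit 78) (nat_lit 0) (nat_lit 0) (XT.lf (nat_lit 0) (nat_lit 3566547636) (nat_lit 76) (nat_lit 34950253928) (nat_lit 76) (nat_lit 8197293629) (nat_lit 8) (nat_lit 4) (nat_lit 9) (nat_lit 5) (nat_lit 9) (nat_lit 4) (nat_lit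 377) (nat_lit 245) (nat_lit 158)) (XT.lf (nat_lit 0) (nat_lit 10322210858) (nat_lit 76) (nat_lit 32247507871) (nat_lit 76) (nat_lit 5430080338) (nat_lit 8) (nat_lit 4) (nat_lit 9) (nat_lit 5) (nat_lit 9) (nat_lit 4) (nat_lit 378) (nat_lit 245) (nat_lit 157))))) (XT.nd (nat_lit 234) (nat_lit 0) (nat_lit 0) (XT.nd (nat_lit 78) (nat_lit 76) (nat_lit 0) (XT.lf (nat_lit 0) (nat_lit 17255197646) (nat_lit 76) (nat_lit 29474667320) (nat_lit 76) (nat_lit 2594650240) (nat_lit 8) (nat_lit 4) (nat_lit 9) (nat_lit 5) (nat_lit 9) (nat_lit 4) (nat_lit 379) (nat_lit 245) (nat_lit 156)) (XT.nd (nat_lit 78) (nat_lit 0) (nat_lit 0) (XT.lf (nat_lit 0) (nat_lit 305396240) (nat_lit 152) (nat_lit 26320829261) (nat_lit 76) (nat_lit 24063085804) (nat_lit 7) (nat_lit 5) (nat_lit 9) (nat_lit 5) (nat_lit 8) (nat_lit 4) (nat_lit 380) (nat_lit 245) (nat_lit 155)) (XT.lf (nat_lit 0) (nat_lit 3226616396) (nat_lit 152) (nat_lit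 20449748997) (nat_lit 76) (nat_lit 28418335056) (nat_lit 7) (nat_lit 5) (nat_lit 9) (nat_lit 5) (nat_lit 8) (nat_lit 4) (nat_lit 381) (nat_lit 245) (nat_lit 154)))) (XT.nd (nat_lit 78) (nat_lit 0) (nat_lit 0) (XT.lf (nat_lit 0) (nat_lit 6222193720) (nat_lit 152) (nat_lit 14426005331) (nat_lit 76) (nat_lit 32894459835) (nat_lit 7) (nat_lit 5) (nat_lit 9) (nat_lit 5) (nat_lit 8) (nat_lit 4) (nat_lit 382) (nat_lit 245) (nat_lit 153)) (XT.nd (nat_lit 78) (nat_lit 0) (nat_lit 0) (XT.lf (nat_lit 0) (nat_lit 9294745707) (nat_lit 152) (nat_lit 8244334799) (nat_lit 76) (nat_lit 37495371316) (nat_lit 7) (nat_lit 5) (nat_lit 9) (nat_lit 5) (nat_lit 8) (nat_lit 4) (nat_lit 383) (nat_lit 245) (nat_lit 152)) (XT.lf (nat_lit 0) (nat_lit 12446957112) (nat_lit 152) (nat_lit 1899335941) (nat_lit 76) (nat_lit 42225089715) (nat_lit 7) (nat_lit 5) (nat_lit 9) (nat_lit 5) (nat_lit 8) (nat_lit 4) (nat_lit 384) (nat_lit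 245) (nat_lit 151))))))))
noncomputable def xc71 : XT := (XT.nd (nat_lit 33540) (nat_lit 0) (nat_lit 3572) (XT.nd (nat_lit 858) (nat_lit 0) (nat_lit 0) (XT.nd (nat_lit 390) (nat_lit 76) (nat_lit 0) (XT.nd (nat_lit 156) (nat_lit 0) (nat_lit 0) (XT.nd (nat_lit 78) (nat_lit 0) (nat_lit 0) (XT.lf (nat_lit 0) (nat_lit 4706373719) (nat_lit 76) (nat_lit 11020449117) (nat_lit 152) (nat_lit 42426614618) (nat_lit 6) (nat_lit 5) (nat_lit 7) (nat_lit 5) (nat_lit 8) (nat_lit 4) (nat_lit 385) (nat_lit 245) (nat_lit 150)) (XT.lf (nat_lit 0) (nat_lit 11527922292) (nat_lit 76) (nat_lit 7584338772) (nat_lit 152) (nat_lit 40670485628) (nat_lit 6) (nat_lit 5) (nat_lit 7) (nat_lit 5) (nat_lit 8) (nat_lit 4) (nat_lit 386) (nat_lit 245) (nat_lit 149))) (XT.nd (nat_lit 78) (nat_lit 0) (nat_lit 0) (XT.lf (nat_lit 0) (nat_lit 18533469844) (nat_lit 76) (nat_lit 4054139160) (nat_lit 152) (nat_lit 38873683773) (nat_lit 6)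 (nat_lit 5) (nat_lit 7) (nat_lit 5) (nat_lit 8) (nat_lit 4) (nat_lit 387) (nat_lit 245) (nat_lit 148)) (XT.nd (nat_lit 78) (nat_lit 0) (nat_lit 0) (XT.lf (nat_lit 0) (nat_lit 25729137727) (nat_lit 76) (nat_lit 426765641) (nat_lit 152) (nat_lit 37034639033) (nat_lit 6) (nat_lit 5) (nat_lit 7) (nat_lit 5) (nat_lit 8) (nat_lit 4) (nat_lit 388) (nat_lit 245) (nat_lit 147)) (XT.lf (nat_lit 0) (nat_lit 29851992848) (nat_lit 152) (nat_lit 31882523903) (nat_lit 0) (nat_lit 3236537884) (nat_lit 6) (nat_lit 5) (nat_lit 8) (nat_lit 4) (nat_lit 6) (nat_lit 4) (nat_lit 389) (nat_lit 245) (nat_lit 146))))) (XT.nd (nat_lit 234) (nat_lit 76) (nat_lit 0) (XT.nd (nat_lit 78) (nat_lit 0) (nat_lit 0) (XT.lf (nat_lit 0) (nat_lit 33652446750) (nat_lit 152) (nat_lit 26159645587) (nat_lit 0) (nat_lit 6993092737) (nat_lit 6) (nat_lit 5) (nat_lit 8) (nat_lit 4) (nat_lit 6) (nat_lit 4) (nat_lit 390) (nat_lit 245) (nat_lit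 145)) (XT.nd (nat_lit 78) (nat_lit 0) (nat_lit 0) (XT.lf (nat_lit 0) (nat_lit 37556483529) (nat_lit 152) (nat_lit 20283666819) (nat_lit 0) (nat_lit 10854509080) (nat_lit 6) (nat_lit 5) (nat_lit 8) (nat_lit 4) (nat_lit 6) (nat_lit 4) (nat_lit 391) (nat_lit 245) (nat_lit 144)) (XT.lf (nat_lit 0) (nat_lit 41567514479) (nat_lit 152) (nat_lit 14249453250) (nat_lit 0) (nat_lit 14824160965) (nat_lit 6) (nat_lit 5) (nat_lit 8) (nat_lit 4) (nat_lit 6) (nat_lit 4) (nat_lit 392) (nat_lit 245) (nat_lit 143)))) (XT.nd (nat_lit 78) (nat_lit 76) (nat_lit 0) (XT.lf (nat_lit 0) (nat_lit 45689044383) (nat_lit 152) (nat_lit 8051732266) (nat_lit 0) (nat_lit 18905517021) (nat_lit 6) (nat_lit 5) (nat_lit 8) (nat_lit 4) (nat_lit 6) (nat_lit 4) (nat_lit 393) (nat_lit 245) (nat_lit 142)) (XT.nd (nat_lit 78) (nat_lit 76) (nat_lit 0) (XT.lf (nat_lit 0) (nat_lit 49924674579) (nat_lit 152) (nat_lit 1685088382) (nat_lit 0)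 (nat_lit 23102143480) (nat_lit 6) (nat_lit 5) (nat_lit 8) (nat_lit 4) (nat_lit 6) (nat_lit 4) (nat_lit 394) (nat_lit 245) (nat_lit 141)) (XT.lf (nat_lit 0) (nat_lit 4952686235) (nat_lit 76) (nat_lit 49373028116) (nat_lit 76) (nat_lit 22512629312) (nat_lit 5) (nat_lit 4) (nat_lit 6) (nat_lit 5) (nat_lit 6) (nat_lit 4) (nat_lit 395) (nat_lit 245) (nat_lit 140)))))) (XT.nd (nat_lit 32214) (nat_lit 0) (nat_lit 9120) (XT.nd (nat_lit 234) (nat_lit 0) (nat_lit 0) (XT.nd (nat_lit 78) (nat_lit 0) (nat_lit 0) (XT.lf (nat_lit 0) (nat_lit 11807785317) (nat_lit 76) (nat_lit 47058861260) (nat_lit 76) (nat_lit 20161697694) (nat_lit 5) (nat_lit 4) (nat_lit 6) (nat_lit 5) (nat_lit 6) (nat_lit 4) (nat_lit 396) (nat_lit 245) (nat_lit 139)) (XT.nd (nat_lit 78) (nat_lit 0) (nat_lit 0) (XT.lf (nat_lit 0) (nat_lit 18852662192) (nat_lit 76) (nat_lit 44682256395) (nat_lit 76) (nat_lit 17749398884) (nat_lit 5) (nat_lit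 4) (nat_lit 6) (nat_lit 5) (nat_lit 6) (nat_lit 4) (nat_lit 397) (nat_lit 245) (nat_lit 138)) (XT.lf (nat_lit 0) (nat_lit 26093472579) (nat_lit 76) (nat_lit 42241136875) (nat_lit 76) (nat_lit 15273625050) (nat_lit 5) (nat_lit 4) (nat_lit 6) (nat_lit 5) (nat_lit 6) (nat_lit 4) (nat_lit 398) (nat_lit 245) (nat_lit 137)))) (XT.nd (nat_lit 78) (nat_lit 0) (nat_lit 0) (XT.lf (nat_lit 0) (nat_lit 33536543397) (nat_lit 76) (nat_lit 39733369683) (nat_lit 76) (nat_lit 12732212892) (nat_lit 5) (nat_lit 4) (nat_lit 6) (nat_lit 5) (nat_lit 6) (nat_lit 4) (nat_lit 399) (nat_lit 245) (nat_lit 136)) (XT.nd (nat_lit 156) (nat_lit 0) (nat_lit 0) (XT.lf (nat_lit 0) (nat_lit 41188378303) (nat_lit 76) (nat_lit 37156763567) (nat_lit 76) (nat_lit 10122941760) (nat_lit 5) (nat_lit 4) (nat_lit 6) (nat_lit 5) (nat_lit 6) (nat_lit 4) (nat_lit 400) (nat_lit 245) (nat_lit 135)) (XT.lf (nat_lit 0) (nat_lit 57145272909) (nat_lit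 76) (nat_lit 31787966829) (nat_lit 76) (nat_lit 4691641505) (nat_lit 5) (nat_lit 4) (nat_lit 6) (nat_lit 5) (nat_lit 6) (nat_lit 4) (nat_lit 402) (nat_lit 245) (nat_lit 133))))) (XT.nd (nat_lit 234) (nat_lit 1064) (nat_lit 0) (XT.nd (nat_lit 78) (nat_lit 608) (nat_lit 0) (XT.lf (nat_lit 0) (nat_lit 1743188700) (nat_lit 836) (nat_lit 976008010) (nat_lit 836) (nat_lit 976008010) (nat_lit 147) (nat_lit 4) (nat_lit 158) (nat_lit 5) (nat_lit 158) (nat_lit 4) (nat_lit 288) (nat_lit 246) (nat_lit 246)) (XT.nd (nat_lit 78) (nat_lit 0) (nat_lit 0) (XT.lf (nat_lit 0) (nat_lit 796498741) (nat_lit 532) (nat_lit 324632366) (nat_lit 608) (nat_lit 6342427638) (nat_lit 139) (nat_lit 5) (nat_lit 146) (nat_lit 5) (nat_lit 147) (nat_lit 4) (nat_lit 289) (nat_lit 246) (nat_lit 245)) (XT.lf (nat_lit 0) (nat_lit 4210623137) (nat_lit 608) (nat_lit 1949188639) (nat_lit 0) (nat_lit 1379841030) (nat_lit 139) (nat_lit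 5) (nat_lit 147) (nat_lit 4) (nat_lit 139) (nat_lit 4) (nat_lit 290) (nat_lit 246) (nat_lit 244)))) (XT.nd (nat_lit 78) (nat_lit 532) (nat_lit 0) (XT.lf (nat_lit 0) (nat_lit 2868975408) (nat_lit 532) (nat_lit 4467800092) (nat_lit 532) (nat_lit 283159787) (nat_lit 132) (nat_lit 4) (nat_lit 139) (nat_lit 5) (nat_lit 139) (nat_lit 4) (nat_lit 291) (nat_lit 246) (nat_lit 243)) (XT.nd (nat_lit 78) (nat_lit 0) (nat_lit 0) (XT.lf (nat_lit 0) (nat_lit 47889542) (nat_lit 456) (nat_lit 2684600744) (nat_lit 532) (nat_lit 4971501927) (nat_lit 125) (nat_lit 5) (nat_lit 131) (nat_lit 5) (nat_lit 132) (nat_lit 4) (nat_lit 292) (nat_lit 246) (nat_lit 242)) (XT.lf (nat_lit 0) (nat_lit 4991146743) (nat_lit 456) (nat_lit 805086597) (nat_lit 532) (nat_lit 1995559740) (nat_lit 125) (nat_lit 5) (nat_lit 131) (nat_lit 5) (nat_lit 132) (nat_lit 4) (nat_lit 293) (nat_lit 246) (nat_lit 241))))))) (XT.nd (nat_lit 936)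 (nat_lit 2280) (nat_lit 0) (XT.nd (nat_lit 468) (nat_lit 1292) (nat_lit 0) (XT.nd (nat_lit 234) (nat_lit 912) (nat_lit 0) (XT.nd (nat_lit 78) (nat_lit 456) (nat_lit 0) (XT.lf (nat_lit 0) (nat_lit 997248076) (nat_lit 608) (nat_lit 5756342693) (nat_lit 76) (nat_lit 1130068898) (nat_lit 117) (nat_lit 5) (nat_lit 125) (nat_lit 5) (nat_lit 118) (nat_lit 4) (nat_lit 294) (nat_lit 246) (nat_lit 240)) (XT.nd (nat_lit 78) (nat_lit 456) (nat_lit 0) (XT.lf (nat_lit 0) (nat_lit 3994519246) (nat_lit 608) (nat_lit 839732192) (nat_lit 76) (nat_lit 3144982756) (nat_lit 117) (nat_lit 5) (nat_lit 125) (nat_lit 5) (nat_lit 118) (nat_lit 4) (nat_lit 295) (nat_lit 246) (nat_lit 239)) (XT.lf (nat_lit 0) (nat_lit 4214560717) (nat_lit 456) (nat_lit 2828297365) (nat_lit 532) (nat_lit 1036166224) (nat_lit 111) (nat_lit 5) (nat_lit 117) (nat_lit 5) (nat_lit 118) (nat_lit 4) (nat_lit 296) (nat_lit 246) (nat_lit 238))))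 (XT.nd (nat_lit 78) (nat_lit 380) (nat_lit 0) (XT.lf (nat_lit 0) (nat_lit 1166694818) (nat_lit 456) (nat_lit 736005464) (nat_lit 532) (nat_lit 6280476032) (nat_lit 104) (nat_lit 5) (nat_lit 110) (nat_lit 5) (nat_lit 111) (nat_lit 5) (nat_lit 297) (nat_lit 246) (nat_lit 237)) (XT.nd (nat_lit 78) (nat_lit 380) (nat_lit 0) (XT.lf (nat_lit 0) (nat_lit 4884357317) (nat_lit 532) (nat_lit 1979900239) (nat_lit 76) (nat_lit 1426791360) (nat_lit 104) (nat_lit 5) (nat_lit 111) (nat_lit 5) (nat_lit 105) (nat_lit 4) (nat_lit 298) (nat_lit 246) (nat_lit 236)) (XT.lf (nat_lit 0) (nat_lit 3170774716) (nat_lit 380) (nat_lit 4747115902) (nat_lit 456) (nat_lit 485556727) (nat_lit 99) (nat_lit 5) (nat_lit 104) (nat_lit 5) (nat_lit 105) (nat_lit 4) (nat_lit 299) (nat_lit 246) (nat_lit 235))))) (XT.nd (nat_lit 234) (nat_lit 456) (nat_lit 0) (XT.nd (nat_lit 78) (nat_lit 760) (nat_lit 0) (XT.lf (nat_lit 0) (nat_lit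 2419261342) (nat_lit 456) (nat_lit 118850340) (nat_lit 76) (nat_lit 5982172945) (nat_lit 98) (nat_lit 5) (nat_lit 104) (nat_lit 5) (nat_lit 99) (nat_lit 5) (nat_lit 300) (nat_lit 246) (nat_lit 234)) (XT.nd (nat_lit 78) (nat_lit 380) (nat_lit 0) (XT.lf (nat_lit 0) (nat_lit 5154515960) (nat_lit 380) (nat_lit 223773892) (nat_lit 456) (nat_lit 3263036858) (nat_lit 93) (nat_lit 5) (nat_lit 98) (nat_lit 5) (nat_lit 99) (nat_lit 5) (nat_lit 301) (nat_lit 246) (nat_lit 233)) (XT.lf (nat_lit 0) (nat_lit 1744941388) (nat_lit 380) (nat_lit 6648271722) (nat_lit 456) (nat_lit 373917559) (nat_lit 88) (nat_lit 5) (nat_lit 93) (nat_lit 5) (nat_lit 94) (nat_lit 4) (nat_lit 302) (nat_lit 246) (nat_lit 232)))) (XT.nd (nat_lit 78) (nat_lit 380) (nat_lit 0) (XT.lf (nat_lit 0) (nat_lit 2517639315) (nat_lit 456) (nat_lit 1809657076) (nat_lit 76) (nat_lit 4569801999) (nat_lit 87) (nat_lit 5) (nat_lit 93) (nat_lit 5)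 (nat_lit 88) (nat_lit 5) (nat_lit 303) (nat_lit 246) (nat_lit 231)) (XT.nd (nat_lit 78) (nat_lit 0) (nat_lit 0) (XT.lf (nat_lit 0) (nat_lit 3535656998) (nat_lit 380) (nat_lit 1917594132) (nat_lit 456) (nat_lit 3578790325) (nat_lit 82) (nat_lit 5) (nat_lit 87) (nat_lit 5) (nat_lit 88) (nat_lit 5) (nat_lit 304) (nat_lit 246) (nat_lit 230)) (XT.lf (nat_lit 0) (nat_lit 8432624262) (nat_lit 456) (nat_lit 187653749) (nat_lit 76) (nat_lit 552212247) (nat_lit 82) (nat_lit 5) (nat_lit 88) (nat_lit 5) (nat_lit 83) (nat_lit 4) (nat_lit 305) (nat_lit 246) (nat_lit 229)))))) (XT.nd (nat_lit 468) (nat_lit 912) (nat_lit 0) (XT.nd (nat_lit 234) (nat_lit 684) (nat_lit 0) (XT.nd (nat_lit 78) (nat_lit 304) (nat_lit 0) (XT.lf (nat_lit 0) (nat_lit 2145026772) (nat_lit 380) (nat_lit 4061244679) (nat_lit 76) (nat_lit 3110269382) (nat_lit 77) (nat_lit 5) (nat_lit 82) (nat_lit 5) (nat_lit 78) (nat_lit 5) (nat_lit 306)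 (nat_lit 246) (nat_lit 228)) (XT.nd (nat_lit 78) (nat_lit 0) (nat_lit 0) (XT.lf (nat_lit 0) (nat_lit 1331217668) (nat_lit 304) (nat_lit 3719220459) (nat_lit 380) (nat_lit 4415907119) (nat_lit 73) (nat_lit 5) (nat_lit 77) (nat_lit 5) (nat_lit 78) (nat_lit 5) (nat_lit 307) (nat_lit 246) (nat_lit 227)) (XT.lf (nat_lit 0) (nat_lit 6881627368) (nat_lit 304) (nat_lit 1137608695) (nat_lit 380) (nat_lit 1602234937) (nat_lit 73) (nat_lit 5) (nat_lit 77) (nat_lit 5) (nat_lit 78) (nat_lit 5) (nat_lit 308) (nat_lit 246) (nat_lit 226)))) (XT.nd (nat_lit 78) (nat_lit 304) (nat_lit 0) (XT.lf (nat_lit 0) (nat_lit 1248384451) (nat_lit 380) (nat_lit 7023852864) (nat_lit 76) (nat_lit 1509412203) (nat_lit 68) (nat_lit 5) (nat_lit 73) (nat_lit 5) (nat_lit 69) (nat_lit 5) (nat_lit 309) (nat_lit 246) (nat_lit 225)) (XT.nd (nat_lit 78) (nat_lit 304) (nat_lit 0) (XT.lf (nat_lit 0) (nat_lit 4128712376) (nat_lit 380) (nat_lit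 1583513522) (nat_lit 76) (nat_lit 4234744052) (nat_lit 68) (nat_lit 5) (nat_lit 73) (nat_lit 5) (nat_lit 69) (nat_lit 5) (nat_lit 310) (nat_lit 246) (nat_lit 224)) (XT.lf (nat_lit 0) (nat_lit 4014054659) (nat_lit 304) (nat_lit 3058999335) (nat_lit 380) (nat_lit 3044969116) (nat_lit 64) (nat_lit 5) (nat_lit 68) (nat_lit 5) (nat_lit 69) (nat_lit 5) (nat_lit 311) (nat_lit 246) (nat_lit 223))))) (XT.nd (nat_lit 234) (nat_lit 304) (nat_lit 0) (XT.nd (nat_lit 78) (nat_lit 608) (nat_lit 0) (XT.lf (nat_lit 0) (nat_lit 9728526926) (nat_lit 304) (nat_lit 333181298) (nat_lit 380) (nat_lit 233918453) (nat_lit 64) (nat_lit 5) (nat_lit 68) (nat_lit 5) (nat_lit 69) (nat_lit 5) (nat_lit 312) (nat_lit 246) (nat_lit 222)) (XT.nd (nat_lit 78) (nat_lit 304) (nat_lit 0) (XT.lf (nat_lit 0) (nat_lit 2624194351) (nat_lit 304) (nat_lit 5374434116) (nat_lit 76) (nat_lit 2478815055) (nat_lit 60) (nat_lit 5) (nat_lit 64)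 (nat_lit 5) (nat_lit 61) (nat_lit 5) (nat_lit 313) (nat_lit 246) (nat_lit 221)) (XT.lf (nat_lit 0) (nat_lit 205528630) (nat_lit 304) (nat_lit 5310654441) (nat_lit 380) (nat_lit 5149967241) (nat_lit 56) (nat_lit 5) (nat_lit 60) (nat_lit 5) (nat_lit 61) (nat_lit 5) (nat_lit 314) (nat_lit 246) (nat_lit 220)))) (XT.nd (nat_lit 78) (nat_lit 304) (nat_lit 0) (XT.lf (nat_lit 0) (nat_lit 5980761556) (nat_lit 304) (nat_lit 2511122144) (nat_lit 380) (nat_lit 2368813361) (nat_lit 56) (nat_lit 5) (nat_lit 60) (nat_lit 5) (nat_lit 61) (nat_lit 5) (nat_lit 315) (nat_lit 246) (nat_lit 219)) (XT.nd (nat_lit 78) (nat_lit 0) (nat_lit 0) (XT.lf (nat_lit 0) (nat_lit 440950992) (nat_lit 304) (nat_lit 10268072047) (nat_lit 76) (nat_lit 353351007) (nat_lit 52) (nat_lit 5) (nat_lit 56) (nat_lit 5) (nat_lit 53) (nat_lit 5) (nat_lit 316) (nat_lit 246) (nat_lit 218)) (XT.lf (nat_lit 0) (nat_lit 3306370178) (nat_lit 304)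 (nat_lit 4660439272) (nat_lit 76) (nat_lit 3302099014) (nat_lit 52) (nat_lit 5) (nat_lit 56) (nat_lit 5) (nat_lit 53) (nat_lit 5) (nat_lit 317) (nat_lit 246) (nat_lit 217))))))))
noncomputable def xc72 : XT := (XT.nd (nat_lit 1794) (nat_lit 912) (nat_lit 0) (XT.nd (nat_lit 858) (nat_lit 912) (nat_lit 0) (XT.nd (nat_lit 390) (nat_lit 456) (nat_lit 0) (XT.nd (nat_lit 156) (nat_lit 532) (nat_lit 0) (XT.nd (nat_lit 78) (nat_lit 0) (nat_lit 0) (XT.lf (nat_lit 0) (nat_lit 1056610968) (nat_lit 228) (nat_lit 5157263227) (nat_lit 304) (nat_lit 5269158637) (nat_lit 49) (nat_lit 5) (nat_lit 52) (nat_lit 5) (nat_lit 53) (nat_lit 5) (nat_lit 318) (nat_lit 246) (nat_lit 216)) (XT.lf (nat_lit 0) (nat_lit 6962056073) (nat_lit 228) (nat_lit 2240391804) (nat_lit 304) (nat_lit 2501393043) (nat_lit 49) (nat_lit 5) (nat_lit 52) (nat_lit 5) (nat_lit 53) (nat_lit 5) (nat_lit 319) (nat_lit 246) (nat_lit 215))) (XT.nd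 (nat_lit 78) (nat_lit 228) (nat_lit 0) (XT.lf (nat_lit 0) (nat_lit 307695440) (nat_lit 304) (nat_lit 10886630814) (nat_lit 76) (nat_lit 737963995) (nat_lit 45) (nat_lit 5) (nat_lit 49) (nat_lit 5) (nat_lit 46) (nat_lit 5) (nat_lit 320) (nat_lit 246) (nat_lit 214)) (XT.nd (nat_lit 78) (nat_lit 228) (nat_lit 0) (XT.lf (nat_lit 0) (nat_lit 3169611724) (nat_lit 304) (nat_lit 5187731888) (nat_lit 76) (nat_lit 3809010471) (nat_lit 45) (nat_lit 5) (nat_lit 49) (nat_lit 5) (nat_lit 46) (nat_lit 5) (nat_lit 321) (nat_lit 246) (nat_lit 213)) (XT.lf (nat_lit 0) (nat_lit 618393469) (nat_lit 228) (nat_lit 5454734225) (nat_lit 304) (nat_lit 6335706798) (nat_lit 42) (nat_lit 5) (nat_lit 45) (nat_lit 5) (nat_lit 46) (nat_lit 5) (nat_lit 322) (nat_lit 246) (nat_lit 212))))) (XT.nd (nat_lit 234) (nat_lit 228) (nat_lit 0) (XT.nd (nat_lit 78) (nat_lit 228) (nat_lit 0) (XT.lf (nat_lit 0) (nat_lit 6629981596) (nat_lit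 228) (nat_lit 2436691923) (nat_lit 304) (nat_lit 3591893039) (nat_lit 42) (nat_lit 5) (nat_lit 45) (nat_lit 5) (nat_lit 46) (nat_lit 5) (nat_lit 323) (nat_lit 246) (nat_lit 211)) (XT.nd (nat_lit 78) (nat_lit 228) (nat_lit 0) (XT.lf (nat_lit 0) (nat_lit 12108224494) (nat_lit 304) (nat_lit 174474689) (nat_lit 76) (nat_lit 634408523) (nat_lit 42) (nat_lit 5) (nat_lit 46) (nat_lit 5) (nat_lit 43) (nat_lit 4) (nat_lit 324) (nat_lit 246) (nat_lit 210)) (XT.lf (nat_lit 0) (nat_lit 2051473019) (nat_lit 228) (nat_lit 7328798539) (nat_lit 76) (nat_lit 3801579393) (nat_lit 39) (nat_lit 5) (nat_lit 42) (nat_lit 5) (nat_lit 40) (nat_lit 5) (nat_lit 325) (nat_lit 246) (nat_lit 209)))) (XT.nd (nat_lit 78) (nat_lit 228) (nat_lit 0) (XT.lf (nat_lit 0) (nat_lit 4936471297) (nat_lit 228) (nat_lit 1469792512) (nat_lit 76) (nat_lit 7049437480) (nat_lit 39) (nat_lit 5) (nat_lit 42) (nat_lit 5) (nat_lit 40) (nat_lit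 5) (nat_lit 326) (nat_lit 246) (nat_lit 208)) (XT.nd (nat_lit 78) (nat_lit 0) (nat_lit 0) (XT.lf (nat_lit 0) (nat_lit 4584279724) (nat_lit 228) (nat_lit 3322476420) (nat_lit 304) (nat_lit 5831104941) (nat_lit 36) (nat_lit 5) (nat_lit 39) (nat_lit 5) (nat_lit 40) (nat_lit 5) (nat_lit 327) (nat_lit 246) (nat_lit 207)) (XT.lf (nat_lit 0) (nat_lit 10780631494) (nat_lit 228) (nat_lit 155682280) (nat_lit 304) (nat_lit 3093121393) (nat_lit 36) (nat_lit 5) (nat_lit 39) (nat_lit 5) (nat_lit 40) (nat_lit 5) (nat_lit 328) (nat_lit 246) (nat_lit 206)))))) (XT.nd (nat_lit 468) (nat_lit 380) (nat_lit 0) (XT.nd (nat_lit 234) (nat_lit 152) (nat_lit 0) (XT.nd (nat_lit 78) (nat_lit 228) (nat_lit 0) (XT.lf (nat_lit 0) (nat_lit 2789113902) (nat_lit 152) (nat_lit 11280704898) (nat_lit 228) (nat_lit 259598683) (nat_lit 34) (nat_lit 5) (nat_lit 36) (nat_lit 5) (nat_lit 37) (nat_lit 4) (nat_lit 329) (nat_lit 246) (nat_lit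 205)) (XT.nd (nat_lit 78) (nat_lit 152) (nat_lit 0) (XT.lf (nat_lit 0) (nat_lit 2598250805) (nat_lit 228) (nat_lit 5658888076) (nat_lit 76) (nat_lit 6380807217) (nat_lit 33) (nat_lit 5) (nat_lit 36) (nat_lit 5) (nat_lit 34) (nat_lit 5) (nat_lit 330) (nat_lit 246) (nat_lit 204)) (XT.lf (nat_lit 0) (nat_lit 336149570) (nat_lit 152) (nat_lit 5161499438) (nat_lit 228) (nat_lit 9459221876) (nat_lit 31) (nat_lit 5) (nat_lit 33) (nat_lit 5) (nat_lit 34) (nat_lit 5) (nat_lit 331) (nat_lit 246) (nat_lit 203)))) (XT.nd (nat_lit 78) (nat_lit 152) (nat_lit 0) (XT.lf (nat_lit 0) (nat_lit 6560885470) (nat_lit 152) (nat_lit 1938680211) (nat_lit 228) (nat_lit 6785378576) (nat_lit 31) (nat_lit 5) (nat_lit 33) (nat_lit 5) (nat_lit 34) (nat_lit 5) (nat_lit 332) (nat_lit 246) (nat_lit 202)) (XT.nd (nat_lit 78) (nat_lit 152) (nat_lit 0) (XT.lf (nat_lit 0) (nat_lit 11564188794) (nat_lit 228) (nat_lit 2729025750) (nat_lit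 76) (nat_lit 1330511394) (nat_lit 31) (nat_lit 5) (nat_lit 34) (nat_lit 5) (nat_lit 32) (nat_lit 4) (nat_lit 333) (nat_lit 246) (nat_lit 201)) (XT.lf (nat_lit 0) (nat_lit 3430244468) (nat_lit 152) (nat_lit 11303233445) (nat_lit 228) (nat_lit 1238855582) (nat_lit 29) (nat_lit 5) (nat_lit 31) (nat_lit 5) (nat_lit 32) (nat_lit 4) (nat_lit 334) (nat_lit 246) (nat_lit 200))))) (XT.nd (nat_lit 234) (nat_lit 152) (nat_lit 0) (XT.nd (nat_lit 78) (nat_lit 152) (nat_lit 0) (XT.lf (nat_lit 0) (nat_lit 1622436073) (nat_lit 228) (nat_lit 6580187705) (nat_lit 76) (nat_lit 8128681398) (nat_lit 28) (nat_lit 5) (nat_lit 31) (nat_lit 5) (nat_lit 29) (nat_lit 5) (nat_lit 335) (nat_lit 246) (nat_lit 199)) (XT.nd (nat_lit 78) (nat_lit 152) (nat_lit 0) (XT.lf (nat_lit 0) (nat_lit 4506489390) (nat_lit 228) (nat_lit 513402573) (nat_lit 76) (nat_lit 11681971880) (nat_lit 28) (nat_lit 5) (nat_lit 31) (nat_lit 5) (nat_lit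 29) (nat_lit 5) (nat_lit 336) (nat_lit 246) (nat_lit 198)) (XT.lf (nat_lit 0) (nat_lit 5788429182) (nat_lit 152) (nat_lit 1707211688) (nat_lit 228) (nat_lit 9587380414) (nat_lit 26) (nat_lit 5) (nat_lit 28) (nat_lit 5) (nat_lit 29) (nat_lit 5) (nat_lit 337) (nat_lit 246) (nat_lit 197)))) (XT.nd (nat_lit 78) (nat_lit 152) (nat_lit 0) (XT.lf (nat_lit 0) (nat_lit 10559315757) (nat_lit 228) (nat_lit 5262295840) (nat_lit 76) (nat_lit 1654494551) (nat_lit 26) (nat_lit 5) (nat_lit 29) (nat_lit 5) (nat_lit 27) (nat_lit 4) (nat_lit 338) (nat_lit 246) (nat_lit 196)) (XT.nd (nat_lit 78) (nat_lit 0) (nat_lit 0) (XT.lf (nat_lit 0) (nat_lit 893007868) (nat_lit 152) (nat_lit 12811676482) (nat_lit 228) (nat_lit 4176642761) (nat_lit 24) (nat_lit 5) (nat_lit 26) (nat_lit 5) (nat_lit 27) (nat_lit 4) (nat_lit 339) (nat_lit 246) (nat_lit 195)) (XT.lf (nat_lit 0) (nat_lit 7282931812) (nat_lit 152) (nat_lit 9679400536)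 (nat_lit 228) (nat_lit 1335870780) (nat_lit 24) (nat_lit 5) (nat_lit 26) (nat_lit 5) (nat_lit 27) (nat_lit 4) (nat_lit 340) (nat_lit 246) (nat_lit 194))))))) (XT.nd (nat_lit 858) (nat_lit 380) (nat_lit 0) (XT.nd (nat_lit 390) (nat_lit 228) (nat_lit 0) (XT.nd (nat_lit 156) (nat_lit 76) (nat_lit 0) (XT.nd (nat_lit 78) (nat_lit 152) (nat_lit 0) (XT.lf (nat_lit 0) (nat_lit 1524527815) (nat_lit 228) (nat_lit 4935263131) (nat_lit 76) (nat_lit 12268406857) (nat_lit 23) (nat_lit 5) (nat_lit 26) (nat_lit 5) (nat_lit 24) (nat_lit 5) (nat_lit 341) (nat_lit 246) (nat_lit 193)) (XT.lf (nat_lit 0) (nat_lit 1283680780) (nat_lit 152) (nat_lit 3138986762) (nat_lit 228) (nat_lit 14748697539) (nat_lit 21) (nat_lit 5) (nat_lit 23) (nat_lit 5) (nat_lit 24) (nat_lit 5) (nat_lit 342) (nat_lit 246) (nat_lit 192))) (XT.nd (nat_lit 78) (nat_lit 76) (nat_lit 0) (XT.lf (nat_lit 0) (nat_lit 7427469366) (nat_lit 228) (nat_lit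 11894732589) (nat_lit 76) (nat_lit 305065853) (nat_lit 21) (nat_lit 5) (nat_lit 24) (nat_lit 5) (nat_lit 22) (nat_lit 4) (nat_lit 343) (nat_lit 246) (nat_lit 191)) (XT.nd (nat_lit 78) (nat_lit 76) (nat_lit 0) (XT.lf (nat_lit 0) (nat_lit 10521147332) (nat_lit 228) (nat_lit 5807015623) (nat_lit 76) (nat_lit 3768753729) (nat_lit 21) (nat_lit 5) (nat_lit 24) (nat_lit 5) (nat_lit 22) (nat_lit 4) (nat_lit 344) (nat_lit 246) (nat_lit 190)) (XT.lf (nat_lit 0) (nat_lit 419138726) (nat_lit 76) (nat_lit 13261121086) (nat_lit 152) (nat_lit 6901246619) (nat_lit 20) (nat_lit 5) (nat_lit 21) (nat_lit 5) (nat_lit 22) (nat_lit 4) (nat_lit 345) (nat_lit 246) (nat_lit 189))))) (XT.nd (nat_lit 234) (nat_lit 152) (nat_lit 0) (XT.nd (nat_lit 78) (nat_lit 76) (nat_lit 0) (XT.lf (nat_lit 0) (nat_lit 6899256264) (nat_lit 76) (nat_lit 10062540231) (nat_lit 152) (nat_lit 4118037103) (nat_lit 20) (nat_lit 5) (nat_lit 21)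 (nat_lit 5) (nat_lit 22) (nat_lit 4) (nat_lit 346) (nat_lit 246) (nat_lit 188)) (XT.nd (nat_lit 78) (nat_lit 76) (nat_lit 0) (XT.lf (nat_lit 0) (nat_lit 13523428230) (nat_lit 76) (nat_lit 6788264986) (nat_lit 152) (nat_lit 1282348345) (nat_lit 20) (nat_lit 5) (nat_lit 21) (nat_lit 5) (nat_lit 22) (nat_lit 4) (nat_lit 347) (nat_lit 246) (nat_lit 187)) (XT.lf (nat_lit 0) (nat_lit 1576913763) (nat_lit 152) (nat_lit 1842596832) (nat_lit 76) (nat_lit 18704605235) (nat_lit 19) (nat_lit 5) (nat_lit 21) (nat_lit 5) (nat_lit 20) (nat_lit 5) (nat_lit 348) (nat_lit 246) (nat_lit 186)))) (XT.nd (nat_lit 78) (nat_lit 0) (nat_lit 0) (XT.lf (nat_lit 0) (nat_lit 4512605077) (nat_lit 228) (nat_lit 18068835165) (nat_lit 76) (nat_lit 87804422) (nat_lit 17) (nat_lit 5) (nat_lit 20) (nat_lit 5) (nat_lit 18) (nat_lit 4) (nat_lit 349) (nat_lit 246) (nat_lit 185)) (XT.nd (nat_lit 78) (nat_lit 0) (nat_lit 0) (XT.lf (nat_lit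 0) (nat_lit 7560540523) (nat_lit 228) (nat_lit 12038005107) (nat_lit 76) (nat_lit 3631481764) (nat_lit 17) (nat_lit 5) (nat_lit 20) (nat_lit 5) (nat_lit 18) (nat_lit 4) (nat_lit 350) (nat_lit 246) (nat_lit 184)) (XT.lf (nat_lit 0) (nat_lit 10672269385) (nat_lit 228) (nat_lit 5873116775) (nat_lit 76) (nat_lit 7263101282) (nat_lit 17) (nat_lit 5) (nat_lit 20) (nat_lit 5) (nat_lit 18) (nat_lit 4) (nat_lit 351) (nat_lit 246) (nat_lit 183)))))) (XT.nd (nat_lit 468) (nat_lit 76) (nat_lit 0) (XT.nd (nat_lit 234) (nat_lit 228) (nat_lit 0) (XT.nd (nat_lit 78) (nat_lit 0) (nat_lit 0) (XT.lf (nat_lit 0) (nat_lit 439798680) (nat_lit 76) (nat_lit 13414939583) (nat_lit 152) (nat_lit 10550265168) (nat_lit 16) (nat_lit 5) (nat_lit 17) (nat_lit 5) (nat_lit 18) (nat_lit 4) (nat_lit 352) (nat_lit 246) (nat_lit 182)) (XT.nd (nat_lit 78) (nat_lit 0) (nat_lit 0) (XT.lf (nat_lit 0) (nat_lit 7017439248) (nat_lit 76)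 (nat_lit 10148058092) (nat_lit 152) (nat_lit 7852956168) (nat_lit 16) (nat_lit 5) (nat_lit 17) (nat_lit 5) (nat_lit 18) (nat_lit 4) (nat_lit 353) (nat_lit 246) (nat_lit 181)) (XT.lf (nat_lit 0) (nat_lit 13748665842) (nat_lit 76) (nat_lit 6801194093) (nat_lit 152) (nat_lit 5101241150) (nat_lit 16) (nat_lit 5) (nat_lit 17) (nat_lit 5) (nat_lit 18) (nat_lit 4) (nat_lit 354) (nat_lit 246) (nat_lit 180)))) (XT.nd (nat_lit 78) (nat_lit 228) (nat_lit 0) (XT.lf (nat_lit 0) (nat_lit 20639360115) (nat_lit 76) (nat_lit 3371423142) (nat_lit 152) (nat_lit 2292715701) (nat_lit 16) (nat_lit 5) (nat_lit 17) (nat_lit 5) (nat_lit 18) (nat_lit 4) (nat_lit 355) (nat_lit 246) (nat_lit 179)) (XT.nd (nat_lit 78) (nat_lit 0) (nat_lit 0) (XT.lf (nat_lit 0) (nat_lit 572361131) (nat_lit 228) (nat_lit 26249348174) (nat_lit 76) (nat_lit 154086782) (nat_lit 13) (nat_lit 5) (nat_lit 16) (nat_lit 5) (nat_lit 14) (nat_lit 4)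 (nat_lit 356) (nat_lit 246) (nat_lit 178)) (XT.lf (nat_lit 0) (nat_lit 3544100370) (nat_lit 228) (nat_lit 20340243406) (nat_lit 76) (nat_lit 3781253525) (nat_lit 13) (nat_lit 5) (nat_lit 16) (nat_lit 5) (nat_lit 14) (nat_lit 4) (nat_lit 357) (nat_lit 246) (nat_lit 177))))) (XT.nd (nat_lit 234) (nat_lit 76) (nat_lit 0) (XT.nd (nat_lit 78) (nat_lit 0) (nat_lit 0) (XT.lf (nat_lit 0) (nat_lit 6581349054) (nat_lit 228) (nat_lit 14294556621) (nat_lit 76) (nat_lit 7500915497) (nat_lit 13) (nat_lit 5) (nat_lit 16) (nat_lit 5) (nat_lit 14) (nat_lit 4) (nat_lit 358) (nat_lit 246) (nat_lit 176)) (XT.nd (nat_lit 78) (nat_lit 0) (nat_lit 0) (XT.lf (nat_lit 0) (nat_lit 9686761092) (nat_lit 228) (nat_lit 8107005179) (nat_lit 76) (nat_lit 11316322888) (nat_lit 13) (nat_lit 5) (nat_lit 16) (nat_lit 5) (nat_lit 14) (nat_lit 4) (nat_lit 359) (nat_lit 246) (nat_lit 175)) (XT.lf (nat_lit 0) (nat_lit 12863049951)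 (nat_lit 228) (nat_lit 1772182481) (nat_lit 76) (nat_lit 15230809548) (nat_lit 13) (nat_lit 5) (nat_lit 16) (nat_lit 5) (nat_lit 14) (nat_lit 4) (nat_lit 360) (nat_lit 246) (nat_lit 174)))) (XT.nd (nat_lit 78) (nat_lit 0) (nat_lit 0) (XT.lf (nat_lit 0) (nat_lit 4809293389) (nat_lit 76) (nat_lit 11349927507) (nat_lit 152) (nat_lit 14484732384) (nat_lit 12) (nat_lit 5) (nat_lit 13) (nat_lit 5) (nat_lit 14) (nat_lit 4) (nat_lit 361) (nat_lit 246) (nat_lit 173)) (XT.nd (nat_lit 78) (nat_lit 0) (nat_lit 0) (XT.lf (nat_lit 0) (nat_lit 11587668477) (nat_lit 76) (nat_lit 7963143357) (nat_lit 152) (nat_lit 11894511223) (nat_lit 12) (nat_lit 5) (nat_lit 13) (nat_lit 5) (nat_lit 14) (nat_lit 4) (nat_lit 362) (nat_lit 246) (nat_lit 172)) (XT.lf (nat_lit 0) (nat_lit 18533595725) (nat_lit 76) (nat_lit 4489816223) (nat_lit 152) (nat_lit 9247960816) (nat_lit 12) (nat_lit 5) (nat_lit 13) (nat_lit 5) (nat_lit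 14) (nat_lit 4) (nat_lit 363) (nat_lit 246) (nat_lit 171))))))))
noncomputable def xc73 : XT := (XT.nd (nat_lit 1794) (nat_lit 76) (nat_lit 0) (XT.nd (nat_lit 858) (nat_lit 228) (nat_lit 0) (XT.nd (nat_lit 390) (nat_lit 76) (nat_lit 0) (XT.nd (nat_lit 156) (nat_lit 152) (nat_lit 0) (XT.nd (nat_lit 78) (nat_lit 0) (nat_lit 0) (XT.lf (nat_lit 0) (nat_lit 25653144392) (nat_lit 76) (nat_lit 926911160) (nat_lit 152) (nat_lit 6542768642) (nat_lit 12) (nat_lit 5) (nat_lit 13) (nat_lit 5) (nat_lit 14) (nat_lit 4) (nat_lit 364) (nat_lit 246) (nat_lit 170)) (XT.lf (nat_lit 0) (nat_lit 30250080183) (nat_lit 152) (nat_lit 1074115682) (nat_lit 0) (nat_lit 2675438575) (nat_lit 12) (nat_lit 5) (nat_lit 14) (nat_lit 4) (nat_lit 12) (nat_lit 4) (nat_lit 365) (nat_lit 246) (nat_lit 169))) (XT.nd (nat_lit 78) (nat_lit 76) (nat_lit 0) (XT.lf (nat_lit 0) (nat_lit 5579806770) (nat_lit 76) (nat_lit 28494101439) (nat_lit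 76) (nat_lit 827544971) (nat_lit 11) (nat_lit 4) (nat_lit 12) (nat_lit 5) (nat_lit 12) (nat_lit 4) (nat_lit 366) (nat_lit 246) (nat_lit 168)) (XT.nd (nat_lit 78) (nat_lit 0) (nat_lit 0) (XT.lf (nat_lit 0) (nat_lit 2131425268) (nat_lit 152) (nat_lit 23429000902) (nat_lit 76) (nat_lit 10269528971) (nat_lit 10) (nat_lit 5) (nat_lit 12) (nat_lit 5) (nat_lit 11) (nat_lit 4) (nat_lit 367) (nat_lit 246) (nat_lit 167)) (XT.lf (nat_lit 0) (nat_lit 5144015208) (nat_lit 152) (nat_lit 17400081893) (nat_lit 76) (nat_lit 14242538721) (nat_lit 10) (nat_lit 5) (nat_lit 12) (nat_lit 5) (nat_lit 11) (nat_lit 4) (nat_lit 368) (nat_lit 246) (nat_lit 166))))) (XT.nd (nat_lit 234) (nat_lit 0) (nat_lit 0) (XT.nd (nat_lit 78) (nat_lit 76) (nat_lit 0) (XT.lf (nat_lit 0) (nat_lit 8229005594) (nat_lit 152) (nat_lit 11221666528) (nat_lit 76) (nat_lit 18321897684) (nat_lit 10) (nat_lit 5) (nat_lit 12) (nat_lit 5) (nat_lit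 11) (nat_lit 4) (nat_lit 369) (nat_lit 246) (nat_lit 165)) (XT.nd (nat_lit 78) (nat_lit 76) (nat_lit 0) (XT.lf (nat_lit 0) (nat_lit 11389092047) (nat_lit 152) (nat_lit 4888356192) (nat_lit 76) (nat_lit 22511170350) (nat_lit 10) (nat_lit 5) (nat_lit 12) (nat_lit 5) (nat_lit 11) (nat_lit 4) (nat_lit 370) (nat_lit 246) (nat_lit 164)) (XT.lf (nat_lit 0) (nat_lit 1637333346) (nat_lit 76) (nat_lit 13005441510) (nat_lit 152) (nat_lit 25192422949) (nat_lit 9) (nat_lit 5) (nat_lit 10) (nat_lit 5) (nat_lit 11) (nat_lit 4) (nat_lit 371) (nat_lit 246) (nat_lit 163)))) (XT.nd (nat_lit 78) (nat_lit 0) (nat_lit 0) (XT.lf (nat_lit 0) (nat_lit 8429719609) (nat_lit 76) (nat_lit 9596978159) (nat_lit 152) (nat_lit 22885510155) (nat_lit 9) (nat_lit 5) (nat_lit 10) (nat_lit 5) (nat_lit 11) (nat_lit 4) (nat_lit 372) (nat_lit 246) (nat_lit 162)) (XT.nd (nat_lit 78) (nat_lit 0) (nat_lit 0) (XT.lf (nat_lit 0) (nat_lit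 15397449816) (nat_lit 76) (nat_lit 6098442730) (nat_lit 152) (nat_lit 20526135224) (nat_lit 9) (nat_lit 5) (nat_lit 10) (nat_lit 5) (nat_lit 11) (nat_lit 4) (nat_lit 373) (nat_lit 246) (nat_lit 161)) (XT.lf (nat_lit 0) (nat_lit 22546612276) (nat_lit 76) (nat_lit 2506778251) (nat_lit 152) (nat_lit 18112236567) (nat_lit 9) (nat_lit 5) (nat_lit 10) (nat_lit 5) (nat_lit 11) (nat_lit 4) (nat_lit 374) (nat_lit 246) (nat_lit 160)))))) (XT.nd (nat_lit 468) (nat_lit 152) (nat_lit 0) (XT.nd (nat_lit 234) (nat_lit 76) (nat_lit 0) (XT.nd (nat_lit 78) (nat_lit 0) (nat_lit 0) (XT.lf (nat_lit 0) (nat_lit 28713654173) (nat_lit 152) (nat_lit 14471905295) (nat_lit 0) (nat_lit 1158105065) (nat_lit 9) (nat_lit 5) (nat_lit 11) (nat_lit 4) (nat_lit 9) (nat_lit 4) (nat_lit 375) (nat_lit 246) (nat_lit 159)) (XT.nd (nat_lit 78) (nat_lit 0) (nat_lit 0) (XT.lf (nat_lit 0) (nat_lit 32493570926) (nat_lit 152) (nat_lit 8191567276)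 (nat_lit 0) (nat_lit 4871620567) (nat_lit 9) (nat_lit 5) (nat_lit 11) (nat_lit 4) (nat_lit 9) (nat_lit 4) (nat_lit 376) (nat_lit 246) (nat_lit 158)) (XT.lf (nat_lit 0) (nat_lit 36372346938) (nat_lit 152) (nat_lit 1748416403) (nat_lit 0) (nat_lit 8685929346) (nat_lit 9) (nat_lit 5) (nat_lit 11) (nat_lit 4) (nat_lit 9) (nat_lit 4) (nat_lit 377) (nat_lit 246) (nat_lit 157)))) (XT.nd (nat_lit 78) (nat_lit 0) (nat_lit 0) (XT.lf (nat_lit 0) (nat_lit 4959964027) (nat_lit 76) (nat_lit 35441085614) (nat_lit 76) (nat_lit 7692078475) (nat_lit 8) (nat_lit 4) (nat_lit 9) (nat_lit 5) (nat_lit 9) (nat_lit 4) (nat_lit 378) (nat_lit 246) (nat_lit 156)) (XT.nd (nat_lit 78) (nat_lit 0) (nat_lit 0) (XT.lf (nat_lit 0) (nat_lit 11880828603) (nat_lit 76) (nat_lit 32673500163) (nat_lit 76) (nat_lit 4863726473) (nat_lit 8) (nat_lit 4) (nat_lit 9) (nat_lit 5) (nat_lit 9) (nat_lit 4) (nat_lit 379) (nat_lit 246) (nat_lit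 155)) (XT.lf (nat_lit 0) (nat_lit 18985427768) (nat_lit 76) (nat_lit 29833244287) (nat_lit 76) (nat_lit 1964473946) (nat_lit 8) (nat_lit 4) (nat_lit 9) (nat_lit 5) (nat_lit 9) (nat_lit 4) (nat_lit 380) (nat_lit 246) (nat_lit 154))))) (XT.nd (nat_lit 234) (nat_lit 76) (nat_lit 0) (XT.nd (nat_lit 78) (nat_lit 0) (nat_lit 0) (XT.lf (nat_lit 0) (nat_lit 988538577) (nat_lit 152) (nat_lit 25919315331) (nat_lit 76) (nat_lit 25281448546) (nat_lit 7) (nat_lit 5) (nat_lit 9) (nat_lit 5) (nat_lit 8) (nat_lit 4) (nat_lit 381) (nat_lit 246) (nat_lit 153)) (XT.nd (nat_lit 78) (nat_lit 0) (nat_lit 0) (XT.lf (nat_lit 0) (nat_lit 3977764839) (nat_lit 152) (nat_lit 19906796022) (nat_lit 76) (nat_lit 29752894980) (nat_lit 7) (nat_lit 5) (nat_lit 9) (nat_lit 5) (nat_lit 8) (nat_lit 4) (nat_lit 382) (nat_lit 246) (nat_lit 152)) (XT.lf (nat_lit 0) (nat_lit 7044150746) (nat_lit 152) (nat_lit 13736022923) (nat_lit 76)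 (nat_lit 34349264379) (nat_lit 7) (nat_lit 5) (nat_lit 9) (nat_lit 5) (nat_lit 8) (nat_lit 4) (nat_lit 383) (nat_lit 246) (nat_lit 151)))) (XT.nd (nat_lit 78) (nat_lit 76) (nat_lit 0) (XT.lf (nat_lit 0) (nat_lit 10190375665) (nat_lit 152) (nat_lit 7401604097) (nat_lit 76) (nat_lit 39074572989) (nat_lit 7) (nat_lit 5) (nat_lit 9) (nat_lit 5) (nat_lit 8) (nat_lit 4) (nat_lit 384) (nat_lit 246) (nat_lit 150)) (XT.nd (nat_lit 78) (nat_lit 76) (nat_lit 0) (XT.lf (nat_lit 0) (nat_lit 13419188725) (nat_lit 152) (nat_lit 898004616) (nat_lit 76) (nat_lit 43932949721) (nat_lit 7) (nat_lit 5) (nat_lit 9) (nat_lit 5) (nat_lit 8) (nat_lit 4) (nat_lit 385) (nat_lit 246) (nat_lit 149)) (XT.lf (nat_lit 0) (nat_lit 5895500732) (nat_lit 76) (nat_lit 10894581645) (nat_lit 152) (nat_lit 43089810184) (nat_lit 6) (nat_lit 5) (nat_lit 7) (nat_lit 5) (nat_lit 8) (nat_lit 4) (nat_lit 386) (nat_lit 246) (nat_lit 148)))))))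 (XT.nd (nat_lit 936) (nat_lit 0) (nat_lit 0) (XT.nd (nat_lit 468) (nat_lit 76) (nat_lit 0) (XT.nd (nat_lit 234) (nat_lit 0) (nat_lit 0) (XT.nd (nat_lit 78) (nat_lit 0) (nat_lit 0) (XT.lf (nat_lit 0) (nat_lit 12891173360) (nat_lit 76) (nat_lit 7368683551) (nat_lit 152) (nat_lit 41298752747) (nat_lit 6) (nat_lit 5) (nat_lit 7) (nat_lit 5) (nat_lit 8) (nat_lit 4) (nat_lit 387) (nat_lit 246) (nat_lit 147)) (XT.nd (nat_lit 78) (nat_lit 0) (nat_lit 0) (XT.lf (nat_lit 0) (nat_lit 20077253939) (nat_lit 76) (nat_lit 3745486263) (nat_lit 152) (nat_lit 39465285112) (nat_lit 6) (nat_lit 5) (nat_lit 7) (nat_lit 5) (nat_lit 8) (nat_lit 4) (nat_lit 388) (nat_lit 246) (nat_lit 146)) (XT.lf (nat_lit 0) (nat_lit 27460021567) (nat_lit 76) (nat_lit 21823881) (nat_lit 152) (nat_lit 37587805219) (nat_lit 6) (nat_lit 5) (nat_lit 7) (nat_lit 5) (nat_lit 8) (nat_lit 4) (nat_lit 389) (nat_lit 246) (nat_lit 145)))) (XT.nd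 (nat_lit 78) (nat_lit 0) (nat_lit 0) (XT.lf (nat_lit 0) (nat_lit 31276951270) (nat_lit 152) (nat_lit 31895696614) (nat_lit 0) (nat_lit 3731297152) (nat_lit 6) (nat_lit 5) (nat_lit 8) (nat_lit 4) (nat_lit 6) (nat_lit 4) (nat_lit 390) (nat_lit 246) (nat_lit 144)) (XT.nd (nat_lit 78) (nat_lit 0) (nat_lit 0) (XT.lf (nat_lit 0) (nat_lit 35175999412) (nat_lit 152) (nat_lit 26028606793) (nat_lit 0) (nat_lit 7588966229) (nat_lit 6) (nat_lit 5) (nat_lit 8) (nat_lit 4) (nat_lit 6) (nat_lit 4) (nat_lit 391) (nat_lit 246) (nat_lit 143)) (XT.lf (nat_lit 0) (nat_lit 39182187025) (nat_lit 152) (nat_lit 20003023269) (nat_lit 0) (nat_lit 11554979993) (nat_lit 6) (nat_lit 5) (nat_lit 8) (nat_lit 4) (nat_lit 6) (nat_lit 4) (nat_lit 392) (nat_lit 246) (nat_lit 142))))) (XT.nd (nat_lit 234) (nat_lit 76) (nat_lit 0) (XT.nd (nat_lit 78) (nat_lit 0) (nat_lit 0) (XT.lf (nat_lit 0) (nat_lit 43299014660) (nat_lit 152)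 (nat_lit 13813680969) (nat_lit 0) (nat_lit 15632803892) (nat_lit 6) (nat_lit 5) (nat_lit 8) (nat_lit 4) (nat_lit 6) (nat_lit 4) (nat_lit 393) (nat_lit 246) (nat_lit 141)) (XT.nd (nat_lit 78) (nat_lit 0) (nat_lit 0) (XT.lf (nat_lit 0) (nat_lit 47530079547) (nat_lit 152) (nat_lit 7455171730) (nat_lit 0) (nat_lit 19826001073) (nat_lit 6) (nat_lit 5) (nat_lit 8) (nat_lit 4) (nat_lit 6) (nat_lit 4) (nat_lit 394) (nat_lit 246) (nat_lit 140)) (XT.lf (nat_lit 0) (nat_lit 51879078731) (nat_lit 152) (nat_lit 921939573) (nat_lit 0) (nat_lit 24138235495) (nat_lit 6) (nat_lit 5) (nat_lit 8) (nat_lit 4) (nat_lit 6) (nat_lit 4) (nat_lit 395) (nat_lit 246) (nat_lit 139)))) (XT.nd (nat_lit 78) (nat_lit 0) (nat_lit 0) (XT.lf (nat_lit 0) (nat_lit 5906990817) (nat_lit 76) (nat_lit 50499603101) (nat_lit 76) (nat_lit 22723065921) (nat_lit 5) (nat_lit 4) (nat_lit 6) (nat_lit 5) (nat_lit 6) (nat_lit 4) (nat_lit 396)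 (nat_lit 246) (nat_lit 138)) (XT.nd (nat_lit 78) (nat_lit 0) (nat_lit 0) (XT.lf (nat_lit 0) (nat_lit 12944275182) (nat_lit 76) (nat_lit 48126339857) (nat_lit 76) (nat_lit 20315148362) (nat_lit 5) (nat_lit 4) (nat_lit 6) (nat_lit 5) (nat_lit 6) (nat_lit 4) (nat_lit 397) (nat_lit 246) (nat_lit 137)) (XT.lf (nat_lit 0) (nat_lit 20177714199) (nat_lit 76) (nat_lit 45688464630) (nat_lit 76) (nat_lit 17843628169) (nat_lit 5) (nat_lit 4) (nat_lit 6) (nat_lit 5) (nat_lit 6) (nat_lit 4) (nat_lit 398) (nat_lit 246) (nat_lit 136)))))) (XT.nd (nat_lit 32058) (nat_lit 0) (nat_lit 8512) (XT.nd (nat_lit 31824) (nat_lit 0) (nat_lit 10792) (XT.nd (nat_lit 78) (nat_lit 0) (nat_lit 0) (XT.lf (nat_lit 0) (nat_lit 27613628349) (nat_lit 76) (nat_lit 43183847236) (nat_lit 76) (nat_lit 15306345760) (nat_lit 5) (nat_lit 4) (nat_lit 6) (nat_lit 5) (nat_lit 6) (nat_lit 4) (nat_lit 399) (nat_lit 246) (nat_lit 135)) (XT.nd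 (nat_lit 156) (nat_lit 0) (nat_lit 0) (XT.lf (nat_lit 0) (nat_lit 35258515033) (nat_lit 76) (nat_lit 40610299177) (nat_lit 76) (nat_lit 12701084094) (nat_lit 5) (nat_lit 4) (nat_lit 6) (nat_lit 5) (nat_lit 6) (nat_lit 4) (nat_lit 400) (nat_lit 246) (nat_lit 134)) (XT.lf (nat_lit 0) (nat_lit 51202114426) (nat_lit 76) (nat_lit 35247353938) (nat_lit 76) (nat_lit 7277455828) (nat_lit 5) (nat_lit 4) (nat_lit 6) (nat_lit 5) (nat_lit 6) (nat_lit 4) (nat_lit 402) (nat_lit 246) (nat_lit 132)))) (XT.nd (nat_lit 78) (nat_lit 836) (nat_lit 0) (XT.lf (nat_lit 0) (nat_lit 376418076) (nat_lit 1140) (nat_lit 2874549229) (nat_lit 0) (nat_lit 376418076) (nat_lit 158) (nat_lit 5) (nat_lit 173) (nat_lit 4) (nat_lit 158) (nat_lit 4) (nat_lit 286) (nat_lit 247) (nat_lit 247)) (XT.nd (nat_lit 78) (nat_lit 836) (nat_lit 0) (XT.lf (nat_lit 0) (nat_lit 3817384804) (nat_lit 1140) (nat_lit 1210363289) (nat_lit 0) (nat_lit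 2293605474) (nat_lit 158) (nat_lit 5) (nat_lit 173) (nat_lit 4) (nat_lit 158) (nat_lit 4) (nat_lit 287) (nat_lit 247) (nat_lit 246)) (XT.lf (nat_lit 0) (nat_lit 3440641913) (nat_lit 836) (nat_lit 3477197652) (nat_lit 836) (nat_lit 474020915) (nat_lit 147) (nat_lit 4) (nat_lit 158) (nat_lit 5) (nat_lit 158) (nat_lit 4) (nat_lit 288) (nat_lit 247) (nat_lit 245))))) (XT.nd (nat_lit 234) (nat_lit 1064) (nat_lit 0) (XT.nd (nat_lit 78) (nat_lit 608) (nat_lit 0) (XT.lf (nat_lit 0) (nat_lit 687594842) (nat_lit 532) (nat_lit 1838060202) (nat_lit 608) (nat_lit 4940381514) (nat_lit 139) (nat_lit 5) (nat_lit 146) (nat_lit 5) (nat_lit 147) (nat_lit 4) (nat_lit 289) (nat_lit 247) (nat_lit 244)) (XT.nd (nat_lit 78) (nat_lit 608) (nat_lit 0) (XT.lf (nat_lit 0) (nat_lit 5450554034) (nat_lit 532) (nat_lit 108319304) (nat_lit 608) (nat_lit 1985056265) (nat_lit 139) (nat_lit 5) (nat_lit 146) (nat_lit 5) (nat_lit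 147) (nat_lit 4) (nat_lit 290) (nat_lit 247) (nat_lit 243)) (XT.lf (nat_lit 0) (nat_lit 995161438) (nat_lit 608) (nat_lit 4958285427) (nat_lit 76) (nat_lit 1671912271) (nat_lit 131) (nat_lit 5) (nat_lit 139) (nat_lit 5) (nat_lit 132) (nat_lit 4) (nat_lit 291) (nat_lit 247) (nat_lit 242)))) (XT.nd (nat_lit 78) (nat_lit 1064) (nat_lit 0) (XT.lf (nat_lit 0) (nat_lit 3963580012) (nat_lit 608) (nat_lit 208536920) (nat_lit 76) (nat_lit 3538570023) (nat_lit 131) (nat_lit 5) (nat_lit 139) (nat_lit 5) (nat_lit 132) (nat_lit 4) (nat_lit 292) (nat_lit 247) (nat_lit 241)) (XT.nd (nat_lit 78) (nat_lit 608) (nat_lit 0) (XT.lf (nat_lit 0) (nat_lit 4685571008) (nat_lit 456) (nat_lit 2299230663) (nat_lit 532) (nat_lit 815060212) (nat_lit 125) (nat_lit 5) (nat_lit 131) (nat_lit 5) (nat_lit 132) (nat_lit 4) (nat_lit 293) (nat_lit 247) (nat_lit 240)) (XT.lf (nat_lit 0) (nat_lit 1761808353) (nat_lit 532) (nat_lit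 338420407) (nat_lit 608) (nat_lit 5792886539) (nat_lit 117) (nat_lit 5) (nat_lit 124) (nat_lit 5) (nat_lit 125) (nat_lit 5) (nat_lit 294) (nat_lit 247) (nat_lit 239))))))))
noncomputable def xc74 : XT := (XT.nd (nat_lit 1794) (nat_lit 2128) (nat_lit 0) (XT.nd (nat_lit 858) (nat_lit 2280) (nat_lit 0) (XT.nd (nat_lit 390) (nat_lit 1216) (nat_lit 0) (XT.nd (nat_lit 156) (nat_lit 988) (nat_lit 0) (XT.nd (nat_lit 78) (nat_lit 456) (nat_lit 0) (XT.lf (nat_lit 0) (nat_lit 5055151553) (nat_lit 608) (nat_lit 1256791699) (nat_lit 76) (nat_lit 1678107091) (nat_lit 117) (nat_lit 5) (nat_lit 125) (nat_lit 5) (nat_lit 118) (nat_lit 4) (nat_lit 295) (nat_lit 247) (nat_lit 238)) (XT.lf (nat_lit 0) (nat_lit 3744297142) (nat_lit 456) (nat_lit 4316716208) (nat_lit 532) (nat_lit 30188858) (nat_lit 111) (nat_lit 5) (nat_lit 117) (nat_lit 5) (nat_lit 118) (nat_lit 4) (nat_lit 296) (nat_lit 247) (nat_lit 237))) (XT.nd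 (nat_lit 78) (nat_lit 456) (nat_lit 0) (XT.lf (nat_lit 0) (nat_lit 619475998) (nat_lit 456) (nat_lit 2226588840) (nat_lit 532) (nat_lit 5350371177) (nat_lit 104) (nat_lit 5) (nat_lit 110) (nat_lit 5) (nat_lit 111) (nat_lit 5) (nat_lit 297) (nat_lit 247) (nat_lit 236)) (XT.nd (nat_lit 78) (nat_lit 456) (nat_lit 0) (XT.lf (nat_lit 0) (nat_lit 5734344170) (nat_lit 456) (nat_lit 42343004) (nat_lit 532) (nat_lit 2529232507) (nat_lit 104) (nat_lit 5) (nat_lit 110) (nat_lit 5) (nat_lit 111) (nat_lit 5) (nat_lit 298) (nat_lit 247) (nat_lit 235)) (XT.lf (nat_lit 0) (nat_lit 341090748) (nat_lit 456) (nat_lit 5899956514) (nat_lit 76) (nat_lit 2178528188) (nat_lit 98) (nat_lit 5) (nat_lit 104) (nat_lit 5) (nat_lit 99) (nat_lit 5) (nat_lit 299) (nat_lit 247) (nat_lit 234))))) (XT.nd (nat_lit 234) (nat_lit 380) (nat_lit 0) (XT.nd (nat_lit 78) (nat_lit 836) (nat_lit 0) (XT.lf (nat_lit 0) (nat_lit 3200609595)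 (nat_lit 456) (nat_lit 834962450) (nat_lit 76) (nat_lit 4501848622) (nat_lit 98) (nat_lit 5) (nat_lit 104) (nat_lit 5) (nat_lit 99) (nat_lit 5) (nat_lit 300) (nat_lit 247) (nat_lit 233)) (XT.nd (nat_lit 78) (nat_lit 456) (nat_lit 0) (XT.lf (nat_lit 0) (nat_lit 4380424006) (nat_lit 380) (nat_lit 1736992216) (nat_lit 456) (nat_lit 2542384284) (nat_lit 93) (nat_lit 5) (nat_lit 98) (nat_lit 5) (nat_lit 99) (nat_lit 5) (nat_lit 301) (nat_lit 247) (nat_lit 232)) (XT.lf (nat_lit 0) (nat_lit 282483094) (nat_lit 456) (nat_lit 7883045124) (nat_lit 76) (nat_lit 621767850) (nat_lit 87) (nat_lit 5) (nat_lit 93) (nat_lit 5) (nat_lit 88) (nat_lit 5) (nat_lit 302) (nat_lit 247) (nat_lit 231)))) (XT.nd (nat_lit 78) (nat_lit 380) (nat_lit 0) (XT.lf (nat_lit 0) (nat_lit 3132672903) (nat_lit 456) (nat_lit 2717893127) (nat_lit 76) (nat_lit 3067677113) (nat_lit 87) (nat_lit 5) (nat_lit 93) (nat_lit 5) (nat_lit 88)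 (nat_lit 5) (nat_lit 303) (nat_lit 247) (nat_lit 230)) (XT.nd (nat_lit 78) (nat_lit 0) (nat_lit 0) (XT.lf (nat_lit 0) (nat_lit 2565988657) (nat_lit 380) (nat_lit 3459896775) (nat_lit 456) (nat_lit 3028635925) (nat_lit 82) (nat_lit 5) (nat_lit 87) (nat_lit 5) (nat_lit 88) (nat_lit 5) (nat_lit 304) (nat_lit 247) (nat_lit 229)) (XT.lf (nat_lit 0) (nat_lit 7978650633) (nat_lit 380) (nat_lit 988674658) (nat_lit 456) (nat_lit 228844199) (nat_lit 82) (nat_lit 5) (nat_lit 87) (nat_lit 5) (nat_lit 88) (nat_lit 5) (nat_lit 305) (nat_lit 247) (nat_lit 228)))))) (XT.nd (nat_lit 468) (nat_lit 912) (nat_lit 0) (XT.nd (nat_lit 234) (nat_lit 684) (nat_lit 0) (XT.nd (nat_lit 78) (nat_lit 304) (nat_lit 0) (XT.lf (nat_lit 0) (nat_lit 2593929073) (nat_lit 380) (nat_lit 5174217096) (nat_lit 76) (nat_lit 1573548766) (nat_lit 77) (nat_lit 5) (nat_lit 82) (nat_lit 5) (nat_lit 78) (nat_lit 5) (nat_lit 306) (nat_lit 247)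 (nat_lit 227)) (XT.nd (nat_lit 78) (nat_lit 0) (nat_lit 0) (XT.lf (nat_lit 0) (nat_lit 153199325) (nat_lit 304) (nat_lit 5303315142) (nat_lit 380) (nat_lit 4036325786) (nat_lit 73) (nat_lit 5) (nat_lit 77) (nat_lit 5) (nat_lit 78) (nat_lit 5) (nat_lit 307) (nat_lit 247) (nat_lit 226)) (XT.lf (nat_lit 0) (nat_lit 5661962820) (nat_lit 304) (nat_lit 2732364665) (nat_lit 380) (nat_lit 1254622562) (nat_lit 73) (nat_lit 5) (nat_lit 77) (nat_lit 5) (nat_lit 78) (nat_lit 5) (nat_lit 308) (nat_lit 247) (nat_lit 225)))) (XT.nd (nat_lit 78) (nat_lit 304) (nat_lit 0) (XT.lf (nat_lit 0) (nat_lit 1455758587) (nat_lit 304) (nat_lit 75562244) (nat_lit 380) (nat_lit 8279495638) (nat_lit 68) (nat_lit 5) (nat_lit 72) (nat_lit 5) (nat_lit 73) (nat_lit 5) (nat_lit 309) (nat_lit 247) (nat_lit 224)) (XT.nd (nat_lit 78) (nat_lit 304) (nat_lit 0) (XT.lf (nat_lit 0) (nat_lit 4380882163) (nat_lit 380) (nat_lit 2955524212)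 (nat_lit 76) (nat_lit 2640703391) (nat_lit 68) (nat_lit 5) (nat_lit 73) (nat_lit 5) (nat_lit 69) (nat_lit 5) (nat_lit 310) (nat_lit 247) (nat_lit 223)) (XT.lf (nat_lit 0) (nat_lit 2573613421) (nat_lit 304) (nat_lit 4708598674) (nat_lit 380) (nat_lit 2867289597) (nat_lit 64) (nat_lit 5) (nat_lit 68) (nat_lit 5) (nat_lit 69) (nat_lit 5) (nat_lit 311) (nat_lit 247) (nat_lit 222))))) (XT.nd (nat_lit 234) (nat_lit 608) (nat_lit 0) (XT.nd (nat_lit 78) (nat_lit 304) (nat_lit 0) (XT.lf (nat_lit 0) (nat_lit 8248158652) (nat_lit 304) (nat_lit 1994008059) (nat_lit 380) (nat_lit 85846540) (nat_lit 64) (nat_lit 5) (nat_lit 68) (nat_lit 5) (nat_lit 69) (nat_lit 5) (nat_lit 312) (nat_lit 247) (nat_lit 221)) (XT.nd (nat_lit 78) (nat_lit 0) (nat_lit 0) (XT.lf (nat_lit 0) (nat_lit 2709752556) (nat_lit 304) (nat_lit 6976381834) (nat_lit 76) (nat_lit 825486041) (nat_lit 60) (nat_lit 5) (nat_lit 64) (nat_lit 5) (nat_lit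 61) (nat_lit 5) (nat_lit 313) (nat_lit 247) (nat_lit 220)) (XT.lf (nat_lit 0) (nat_lit 5571919359) (nat_lit 304) (nat_lit 1440180123) (nat_lit 76) (nat_lit 3689165413) (nat_lit 60) (nat_lit 5) (nat_lit 64) (nat_lit 5) (nat_lit 61) (nat_lit 5) (nat_lit 314) (nat_lit 247) (nat_lit 219)))) (XT.nd (nat_lit 78) (nat_lit 304) (nat_lit 0) (XT.lf (nat_lit 0) (nat_lit 4267029672) (nat_lit 304) (nat_lit 4239057349) (nat_lit 380) (nat_lit 2391012376) (nat_lit 56) (nat_lit 5) (nat_lit 60) (nat_lit 5) (nat_lit 61) (nat_lit 5) (nat_lit 315) (nat_lit 247) (nat_lit 218)) (XT.nd (nat_lit 78) (nat_lit 228) (nat_lit 0) (XT.lf (nat_lit 0) (nat_lit 381132946) (nat_lit 380) (nat_lit 1006409385) (nat_lit 76) (nat_lit 9712421385) (nat_lit 55) (nat_lit 5) (nat_lit 60) (nat_lit 5) (nat_lit 56) (nat_lit 5) (nat_lit 316) (nat_lit 247) (nat_lit 217)) (XT.lf (nat_lit 0) (nat_lit 3196631779) (nat_lit 304) (nat_lit 6544758235)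 (nat_lit 76) (nat_lit 1566643949) (nat_lit 52) (nat_lit 5) (nat_lit 56) (nat_lit 5) (nat_lit 53) (nat_lit 5) (nat_lit 317) (nat_lit 247) (nat_lit 216))))))) (XT.nd (nat_lit 858) (nat_lit 912) (nat_lit 0) (XT.nd (nat_lit 390) (nat_lit 684) (nat_lit 0) (XT.nd (nat_lit 156) (nat_lit 304) (nat_lit 0) (XT.nd (nat_lit 78) (nat_lit 228) (nat_lit 0) (XT.lf (nat_lit 0) (nat_lit 6068136290) (nat_lit 304) (nat_lit 886314612) (nat_lit 76) (nat_lit 4568824521) (nat_lit 52) (nat_lit 5) (nat_lit 56) (nat_lit 5) (nat_lit 53) (nat_lit 5) (nat_lit 318) (nat_lit 247) (nat_lit 215)) (XT.lf (nat_lit 0) (nat_lit 4963875196) (nat_lit 228) (nat_lit 4058693814) (nat_lit 304) (nat_lit 2722574755) (nat_lit 49) (nat_lit 5) (nat_lit 52) (nat_lit 5) (nat_lit 53) (nat_lit 5) (nat_lit 319) (nat_lit 247) (nat_lit 214))) (XT.nd (nat_lit 78) (nat_lit 228) (nat_lit 0) (XT.lf (nat_lit 0) (nat_lit 48482444) (nat_lit 304) (nat_lit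 1041847740) (nat_lit 76) (nat_lit 10884631071) (nat_lit 48) (nat_lit 5) (nat_lit 52) (nat_lit 5) (nat_lit 49) (nat_lit 5) (nat_lit 320) (nat_lit 247) (nat_lit 213)) (XT.nd (nat_lit 78) (nat_lit 0) (nat_lit 0) (XT.lf (nat_lit 0) (nat_lit 2864872346) (nat_lit 304) (nat_lit 7365712914) (nat_lit 76) (nat_lit 1979838589) (nat_lit 45) (nat_lit 5) (nat_lit 49) (nat_lit 5) (nat_lit 46) (nat_lit 5) (nat_lit 321) (nat_lit 247) (nat_lit 212)) (XT.lf (nat_lit 0) (nat_lit 5738434098) (nat_lit 304) (nat_lit 1607910617) (nat_lit 76) (nat_lit 5107490178) (nat_lit 45) (nat_lit 5) (nat_lit 49) (nat_lit 5) (nat_lit 46) (nat_lit 5) (nat_lit 322) (nat_lit 247) (nat_lit 211))))) (XT.nd (nat_lit 234) (nat_lit 228) (nat_lit 0) (XT.nd (nat_lit 78) (nat_lit 228) (nat_lit 0) (XT.lf (nat_lit 0) (nat_lit 4335776410) (nat_lit 228) (nat_lit 4356784059) (nat_lit 304) (nat_lit 4012220149) (nat_lit 42) (nat_lit 5) (nat_lit 45)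 (nat_lit 5) (nat_lit 46) (nat_lit 5) (nat_lit 323) (nat_lit 247) (nat_lit 210)) (XT.nd (nat_lit 78) (nat_lit 228) (nat_lit 0) (XT.lf (nat_lit 0) (nat_lit 10419979235) (nat_lit 228) (nat_lit 1284945892) (nat_lit 304) (nat_lit 1259302400) (nat_lit 42) (nat_lit 5) (nat_lit 45) (nat_lit 5) (nat_lit 46) (nat_lit 5) (nat_lit 324) (nat_lit 247) (nat_lit 209)) (XT.lf (nat_lit 0) (nat_lit 1551028249) (nat_lit 228) (nat_lit 9812238987) (nat_lit 76) (nat_lit 1867626311) (nat_lit 39) (nat_lit 5) (nat_lit 42) (nat_lit 5) (nat_lit 40) (nat_lit 5) (nat_lit 325) (nat_lit 247) (nat_lit 208)))) (XT.nd (nat_lit 78) (nat_lit 228) (nat_lit 0) (XT.lf (nat_lit 0) (nat_lit 4413696341) (nat_lit 228) (nat_lit 3987794428) (nat_lit 76) (nat_lit 5103950633) (nat_lit 39) (nat_lit 5) (nat_lit 42) (nat_lit 5) (nat_lit 40) (nat_lit 5) (nat_lit 326) (nat_lit 247) (nat_lit 207)) (XT.nd (nat_lit 78) (nat_lit 0) (nat_lit 0) (XT.lf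 (nat_lit 0) (nat_lit 1981942002) (nat_lit 228) (nat_lit 5355344131) (nat_lit 304) (nat_lit 6451742724) (nat_lit 36) (nat_lit 5) (nat_lit 39) (nat_lit 5) (nat_lit 40) (nat_lit 5) (nat_lit 327) (nat_lit 247) (nat_lit 206)) (XT.lf (nat_lit 0) (nat_lit 8145067917) (nat_lit 228) (nat_lit 2200408116) (nat_lit 304) (nat_lit 3735793963) (nat_lit 36) (nat_lit 5) (nat_lit 39) (nat_lit 5) (nat_lit 40) (nat_lit 5) (nat_lit 328) (nat_lit 247) (nat_lit 205)))))) (XT.nd (nat_lit 468) (nat_lit 380) (nat_lit 0) (XT.nd (nat_lit 234) (nat_lit 304) (nat_lit 0) (XT.nd (nat_lit 78) (nat_lit 76) (nat_lit 0) (XT.lf (nat_lit 0) (nat_lit 34829572) (nat_lit 152) (nat_lit 13377164429) (nat_lit 228) (nat_lit 971293190) (nat_lit 34) (nat_lit 5) (nat_lit 36) (nat_lit 5) (nat_lit 37) (nat_lit 4) (nat_lit 329) (nat_lit 247) (nat_lit 204)) (XT.nd (nat_lit 78) (nat_lit 0) (nat_lit 0) (XT.lf (nat_lit 0) (nat_lit 1879655662) (nat_lit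 228) (nat_lit 8493111968) (nat_lit 76) (nat_lit 4319900880) (nat_lit 33) (nat_lit 5) (nat_lit 36) (nat_lit 5) (nat_lit 34) (nat_lit 5) (nat_lit 330) (nat_lit 247) (nat_lit 203)) (XT.lf (nat_lit 0) (nat_lit 4755639718) (nat_lit 228) (nat_lit 2536586333) (nat_lit 76) (nat_lit 7720092793) (nat_lit 33) (nat_lit 5) (nat_lit 36) (nat_lit 5) (nat_lit 34) (nat_lit 5) (nat_lit 331) (nat_lit 247) (nat_lit 202)))) (XT.nd (nat_lit 78) (nat_lit 152) (nat_lit 0) (XT.lf (nat_lit 0) (nat_lit 3606027262) (nat_lit 152) (nat_lit 4106761477) (nat_lit 228) (nat_lit 7628968958) (nat_lit 31) (nat_lit 5) (nat_lit 33) (nat_lit 5) (nat_lit 34) (nat_lit 5) (nat_lit 332) (nat_lit 247) (nat_lit 201)) (XT.nd (nat_lit 78) (nat_lit 152) (nat_lit 0) (XT.lf (nat_lit 0) (nat_lit 9922559806) (nat_lit 152) (nat_lit 822488245) (nat_lit 228) (nat_lit 4936484037) (nat_lit 31) (nat_lit 5) (nat_lit 33) (nat_lit 5) (nat_lit 34) (nat_lit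 5) (nat_lit 333) (nat_lit 247) (nat_lit 200)) (XT.lf (nat_lit 0) (nat_lit 317156097) (nat_lit 152) (nat_lit 13540486663) (nat_lit 228) (nat_lit 2174218878) (nat_lit 29) (nat_lit 5) (nat_lit 31) (nat_lit 5) (nat_lit 32) (nat_lit 4) (nat_lit 334) (nat_lit 247) (nat_lit 199))))) (XT.nd (nat_lit 234) (nat_lit 152) (nat_lit 0) (XT.nd (nat_lit 78) (nat_lit 152) (nat_lit 0) (XT.lf (nat_lit 0) (nat_lit 686518524) (nat_lit 228) (nat_lit 9774210635) (nat_lit 76) (nat_lit 5930958042) (nat_lit 28) (nat_lit 5) (nat_lit 31) (nat_lit 5) (nat_lit 29) (nat_lit 5) (nat_lit 335) (nat_lit 247) (nat_lit 198)) (XT.nd (nat_lit 78) (nat_lit 152) (nat_lit 0) (XT.lf (nat_lit 0) (nat_lit 3552313043) (nat_lit 228) (nat_lit 3736937835) (nat_lit 76) (nat_lit 9473562119) (nat_lit 28) (nat_lit 5) (nat_lit 31) (nat_lit 5) (nat_lit 29) (nat_lit 5) (nat_lit 336) (nat_lit 247) (nat_lit 197)) (XT.lf (nat_lit 0) (nat_lit 2471516253)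 (nat_lit 152) (nat_lit 4020337086) (nat_lit 228) (nat_lit 10653624236) (nat_lit 26) (nat_lit 5) (nat_lit 28) (nat_lit 5) (nat_lit 29) (nat_lit 5) (nat_lit 337) (nat_lit 247) (nat_lit 196)))) (XT.nd (nat_lit 78) (nat_lit 152) (nat_lit 0) (XT.lf (nat_lit 0) (nat_lit 8885232691) (nat_lit 152) (nat_lit 636591605) (nat_lit 228) (nat_lit 8017767515) (nat_lit 26) (nat_lit 5) (nat_lit 28) (nat_lit 5) (nat_lit 29) (nat_lit 5) (nat_lit 338) (nat_lit 247) (nat_lit 195)) (XT.nd (nat_lit 78) (nat_lit 152) (nat_lit 0) (XT.lf (nat_lit 0) (nat_lit 12635413655) (nat_lit 228) (nat_lit 2538332709) (nat_lit 76) (nat_lit 2772037508) (nat_lit 26) (nat_lit 5) (nat_lit 29) (nat_lit 5) (nat_lit 27) (nat_lit 4) (nat_lit 339) (nat_lit 247) (nat_lit 194)) (XT.lf (nat_lit 0) (nat_lit 3773376855) (nat_lit 152) (nat_lit 12077954511) (nat_lit 228) (nat_lit 2512597638) (nat_lit 24) (nat_lit 5) (nat_lit 26) (nat_lit 5) (nat_lit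 27) (nat_lit 4) (nat_lit 340) (nat_lit 247) (nat_lit 193))))))))
noncomputable def xc75 : XT := (XT.nd (nat_lit 1794) (nat_lit 456) (nat_lit 0) (XT.nd (nat_lit 858) (nat_lit 380) (nat_lit 0) (XT.nd (nat_lit 390) (nat_lit 304) (nat_lit 0) (XT.nd (nat_lit 156) (nat_lit 152) (nat_lit 0) (XT.nd (nat_lit 78) (nat_lit 0) (nat_lit 0) (XT.lf (nat_lit 0) (nat_lit 354230787) (nat_lit 228) (nat_lit 8526467674) (nat_lit 76) (nat_lit 9914076749) (nat_lit 23) (nat_lit 5) (nat_lit 26) (nat_lit 5) (nat_lit 24) (nat_lit 5) (nat_lit 341) (nat_lit 247) (nat_lit 192)) (XT.lf (nat_lit 0) (nat_lit 3223980165) (nat_lit 228) (nat_lit 2359014871) (nat_lit 76) (nat_lit 13655814910) (nat_lit 23) (nat_lit 5) (nat_lit 26) (nat_lit 5) (nat_lit 24) (nat_lit 5) (nat_lit 342) (nat_lit 247) (nat_lit 191))) (XT.nd (nat_lit 78) (nat_lit 0) (nat_lit 0) (XT.lf (nat_lit 0) (nat_lit 4019788474) (nat_lit 152) (nat_lit 2167040066) (nat_lit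 228) (nat_lit 13509158022) (nat_lit 21) (nat_lit 5) (nat_lit 23) (nat_lit 5) (nat_lit 24) (nat_lit 5) (nat_lit 343) (nat_lit 247) (nat_lit 190)) (XT.nd (nat_lit 78) (nat_lit 0) (nat_lit 0) (XT.lf (nat_lit 0) (nat_lit 9244205226) (nat_lit 228) (nat_lit 9593449730) (nat_lit 76) (nat_lit 1329084362) (nat_lit 21) (nat_lit 5) (nat_lit 24) (nat_lit 5) (nat_lit 22) (nat_lit 4) (nat_lit 344) (nat_lit 247) (nat_lit 189)) (XT.lf (nat_lit 0) (nat_lit 12384268917) (nat_lit 228) (nat_lit 3400522367) (nat_lit 76) (nat_lit 4867123656) (nat_lit 21) (nat_lit 5) (nat_lit 24) (nat_lit 5) (nat_lit 22) (nat_lit 4) (nat_lit 345) (nat_lit 247) (nat_lit 188))))) (XT.nd (nat_lit 234) (nat_lit 152) (nat_lit 0) (XT.nd (nat_lit 78) (nat_lit 76) (nat_lit 0) (XT.lf (nat_lit 0) (nat_lit 2987115595) (nat_lit 76) (nat_lit 12630530828) (nat_lit 152) (nat_lit 5534054448) (nat_lit 20) (nat_lit 5) (nat_lit 21) (nat_lit 5) (nat_lit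 22) (nat_lit 4) (nat_lit 346) (nat_lit 247) (nat_lit 187)) (XT.nd (nat_lit 78) (nat_lit 76) (nat_lit 0) (XT.lf (nat_lit 0) (nat_lit 9587207454) (nat_lit 76) (nat_lit 9365946642) (nat_lit 152) (nat_lit 2713199993) (nat_lit 20) (nat_lit 5) (nat_lit 21) (nat_lit 5) (nat_lit 22) (nat_lit 4) (nat_lit 347) (nat_lit 247) (nat_lit 186)) (XT.lf (nat_lit 0) (nat_lit 159861989) (nat_lit 152) (nat_lit 5861048502) (nat_lit 76) (nat_lit 16176366933) (nat_lit 19) (nat_lit 5) (nat_lit 21) (nat_lit 5) (nat_lit 20) (nat_lit 5) (nat_lit 348) (nat_lit 247) (nat_lit 185)))) (XT.nd (nat_lit 78) (nat_lit 0) (nat_lit 0) (XT.lf (nat_lit 0) (nat_lit 479428911) (nat_lit 152) (nat_lit 2561931754) (nat_lit 228) (nat_lit 19702683801) (nat_lit 17) (nat_lit 5) (nat_lit 19) (nat_lit 5) (nat_lit 20) (nat_lit 5) (nat_lit 349) (nat_lit 247) (nat_lit 184)) (XT.nd (nat_lit 78) (nat_lit 0) (nat_lit 0) (XT.lf (nat_lit 0) (nat_lit 6051051204)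 (nat_lit 228) (nat_lit 16232245651) (nat_lit 76) (nat_lit 1022689756) (nat_lit 17) (nat_lit 5) (nat_lit 20) (nat_lit 5) (nat_lit 18) (nat_lit 4) (nat_lit 350) (nat_lit 247) (nat_lit 183)) (XT.lf (nat_lit 0) (nat_lit 9149558656) (nat_lit 228) (nat_lit 10089771892) (nat_lit 76) (nat_lit 4645524470) (nat_lit 17) (nat_lit 5) (nat_lit 20) (nat_lit 5) (nat_lit 18) (nat_lit 4) (nat_lit 351) (nat_lit 247) (nat_lit 182)))))) (XT.nd (nat_lit 468) (nat_lit 76) (nat_lit 0) (XT.nd (nat_lit 234) (nat_lit 228) (nat_lit 0) (XT.nd (nat_lit 78) (nat_lit 76) (nat_lit 0) (XT.lf (nat_lit 0) (nat_lit 12314963600) (nat_lit 228) (nat_lit 3807200213) (nat_lit 76) (nat_lit 8359730488) (nat_lit 17) (nat_lit 5) (nat_lit 20) (nat_lit 5) (nat_lit 18) (nat_lit 4) (nat_lit 352) (nat_lit 247) (nat_lit 181)) (XT.nd (nat_lit 78) (nat_lit 0) (nat_lit 0) (XT.lf (nat_lit 0) (nat_lit 2673121235) (nat_lit 76) (nat_lit 12902606365)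 (nat_lit 152) (nat_lit 9521127674) (nat_lit 16) (nat_lit 5) (nat_lit 17) (nat_lit 5) (nat_lit 18) (nat_lit 4) (nat_lit 353) (nat_lit 247) (nat_lit 180)) (XT.lf (nat_lit 0) (nat_lit 9383427081) (nat_lit 76) (nat_lit 9564362547) (nat_lit 152) (nat_lit 6782092961) (nat_lit 16) (nat_lit 5) (nat_lit 17) (nat_lit 5) (nat_lit 18) (nat_lit 4) (nat_lit 354) (nat_lit 247) (nat_lit 179)))) (XT.nd (nat_lit 78) (nat_lit 228) (nat_lit 0) (XT.lf (nat_lit 0) (nat_lit 16253809948) (nat_lit 76) (nat_lit 6142960704) (nat_lit 152) (nat_lit 3985878489) (nat_lit 16) (nat_lit 5) (nat_lit 17) (nat_lit 5) (nat_lit 18) (nat_lit 4) (nat_lit 355) (nat_lit 247) (nat_lit 178)) (XT.nd (nat_lit 78) (nat_lit 228) (nat_lit 0) (XT.lf (nat_lit 0) (nat_lit 23290273085) (nat_lit 76) (nat_lit 2635411262) (nat_lit 152) (nat_lit 1130040963) (nat_lit 16) (nat_lit 5) (nat_lit 17) (nat_lit 5) (nat_lit 18) (nat_lit 4) (nat_lit 356) (nat_lit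 247) (nat_lit 177)) (XT.lf (nat_lit 0) (nat_lit 1789487888) (nat_lit 228) (nat_lit 24971603690) (nat_lit 76) (nat_lit 986998199) (nat_lit 13) (nat_lit 5) (nat_lit 16) (nat_lit 5) (nat_lit 14) (nat_lit 4) (nat_lit 357) (nat_lit 247) (nat_lit 176))))) (XT.nd (nat_lit 234) (nat_lit 76) (nat_lit 0) (XT.nd (nat_lit 78) (nat_lit 0) (nat_lit 0) (XT.lf (nat_lit 0) (nat_lit 4815429131) (nat_lit 228) (nat_lit 18945377962) (nat_lit 76) (nat_lit 4698855028) (nat_lit 13) (nat_lit 5) (nat_lit 16) (nat_lit 5) (nat_lit 14) (nat_lit 4) (nat_lit 358) (nat_lit 247) (nat_lit 175)) (XT.nd (nat_lit 78) (nat_lit 0) (nat_lit 0) (XT.lf (nat_lit 0) (nat_lit 7909863070) (nat_lit 228) (nat_lit 12776720750) (nat_lit 76) (nat_lit 8506684610) (nat_lit 13) (nat_lit 5) (nat_lit 16) (nat_lit 5) (nat_lit 14) (nat_lit 4) (nat_lit 359) (nat_lit 247) (nat_lit 174)) (XT.lf (nat_lit 0) (nat_lit 11075493579) (nat_lit 228) (nat_lit 6460241965)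 (nat_lit 76) (nat_lit 12413814174) (nat_lit 13) (nat_lit 5) (nat_lit 16) (nat_lit 5) (nat_lit 14) (nat_lit 4) (nat_lit 360) (nat_lit 247) (nat_lit 173)))) (XT.nd (nat_lit 78) (nat_lit 0) (nat_lit 0) (XT.lf (nat_lit 0) (nat_lit 9768258) (nat_lit 76) (nat_lit 14305412384) (nat_lit 152) (nat_lit 16413983358) (nat_lit 12) (nat_lit 5) (nat_lit 13) (nat_lit 5) (nat_lit 14) (nat_lit 4) (nat_lit 361) (nat_lit 247) (nat_lit 172)) (XT.nd (nat_lit 78) (nat_lit 0) (nat_lit 0) (XT.lf (nat_lit 0) (nat_lit 6770508325) (nat_lit 76) (nat_lit 10926047220) (nat_lit 152) (nat_lit 13834292930) (nat_lit 12) (nat_lit 5) (nat_lit 13) (nat_lit 5) (nat_lit 14) (nat_lit 4) (nat_lit 362) (nat_lit 247) (nat_lit 171)) (XT.lf (nat_lit 0) (nat_lit 13699314195) (nat_lit 76) (nat_lit 7459922985) (nat_lit 152) (nat_lit 11197966535) (nat_lit 12) (nat_lit 5) (nat_lit 13) (nat_lit 5) (nat_lit 14) (nat_lit 4) (nat_lit 363) (nat_lit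 247) (nat_lit 170))))))) (XT.nd (nat_lit 936) (nat_lit 228) (nat_lit 0) (XT.nd (nat_lit 468) (nat_lit 76) (nat_lit 0) (XT.nd (nat_lit 234) (nat_lit 76) (nat_lit 0) (XT.nd (nat_lit 78) (nat_lit 76) (nat_lit 0) (XT.lf (nat_lit 0) (nat_lit 20802240164) (nat_lit 76) (nat_lit 3904011028) (nat_lit 152) (nat_lit 8502700587) (nat_lit 12) (nat_lit 5) (nat_lit 13) (nat_lit 5) (nat_lit 14) (nat_lit 4) (nat_lit 364) (nat_lit 247) (nat_lit 169)) (XT.nd (nat_lit 78) (nat_lit 76) (nat_lit 0) (XT.lf (nat_lit 0) (nat_lit 28085492673) (nat_lit 76) (nat_lit 255204241) (nat_lit 152) (nat_lit 5746139999) (nat_lit 12) (nat_lit 5) (nat_lit 13) (nat_lit 5) (nat_lit 14) (nat_lit 4) (nat_lit 365) (nat_lit 247) (nat_lit 168)) (XT.lf (nat_lit 0) (nat_lit 540817838) (nat_lit 76) (nat_lit 31563675901) (nat_lit 76) (nat_lit 2885970150) (nat_lit 11) (nat_lit 4) (nat_lit 12) (nat_lit 5) (nat_lit 12) (nat_lit 4) (nat_lit 366)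 (nat_lit 247) (nat_lit 167)))) (XT.nd (nat_lit 78) (nat_lit 0) (nat_lit 0) (XT.lf (nat_lit 0) (nat_lit 104045914) (nat_lit 152) (nat_lit 28553131115) (nat_lit 76) (nat_lit 7262662952) (nat_lit 10) (nat_lit 5) (nat_lit 12) (nat_lit 5) (nat_lit 11) (nat_lit 4) (nat_lit 367) (nat_lit 247) (nat_lit 166)) (XT.nd (nat_lit 78) (nat_lit 0) (nat_lit 0) (XT.lf (nat_lit 0) (nat_lit 3107780065) (nat_lit 152) (nat_lit 22539665907) (nat_lit 76) (nat_lit 11229347047) (nat_lit 10) (nat_lit 5) (nat_lit 12) (nat_lit 5) (nat_lit 11) (nat_lit 4) (nat_lit 368) (nat_lit 247) (nat_lit 165)) (XT.lf (nat_lit 0) (nat_lit 6184172596) (nat_lit 152) (nat_lit 16376254231) (nat_lit 76) (nat_lit 15302564598) (nat_lit 10) (nat_lit 5) (nat_lit 12) (nat_lit 5) (nat_lit 11) (nat_lit 4) (nat_lit 369) (nat_lit 247) (nat_lit 164))))) (XT.nd (nat_lit 234) (nat_lit 0) (nat_lit 0) (XT.nd (nat_lit 78) (nat_lit 76) (nat_lit 0) (XT.lf (nat_lit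 0) (nat_lit 9335911617) (nat_lit 152) (nat_lit 10057510584) (nat_lit 76) (nat_lit 19485874727) (nat_lit 10) (nat_lit 5) (nat_lit 12) (nat_lit 5) (nat_lit 11) (nat_lit 4) (nat_lit 370) (nat_lit 247) (nat_lit 163)) (XT.nd (nat_lit 78) (nat_lit 76) (nat_lit 0) (XT.lf (nat_lit 0) (nat_lit 12565751076) (nat_lit 152) (nat_lit 3577913732) (nat_lit 76) (nat_lit 23782932753) (nat_lit 10) (nat_lit 5) (nat_lit 12) (nat_lit 5) (nat_lit 11) (nat_lit 4) (nat_lit 371) (nat_lit 247) (nat_lit 162)) (XT.lf (nat_lit 0) (nat_lit 3129261266) (nat_lit 76) (nat_lit 12777332268) (nat_lit 152) (nat_lit 25098312495) (nat_lit 9) (nat_lit 5) (nat_lit 10) (nat_lit 5) (nat_lit 11) (nat_lit 4) (nat_lit 372) (nat_lit 247) (nat_lit 161)))) (XT.nd (nat_lit 78) (nat_lit 0) (nat_lit 0) (XT.lf (nat_lit 0) (nat_lit 10083395584) (nat_lit 76) (nat_lit 9284622953) (nat_lit 152) (nat_lit 22746946196) (nat_lit 9) (nat_lit 5) (nat_lit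 10) (nat_lit 5) (nat_lit 11) (nat_lit 4) (nat_lit 373) (nat_lit 247) (nat_lit 160)) (XT.nd (nat_lit 78) (nat_lit 0) (nat_lit 0) (XT.lf (nat_lit 0) (nat_lit 17219358153) (nat_lit 76) (nat_lit 5698614895) (nat_lit 152) (nat_lit 20340822908) (nat_lit 9) (nat_lit 5) (nat_lit 10) (nat_lit 5) (nat_lit 11) (nat_lit 4) (nat_lit 374) (nat_lit 247) (nat_lit 159)) (XT.lf (nat_lit 0) (nat_lit 24543384277) (nat_lit 76) (nat_lit 2016174688) (nat_lit 152) (nat_lit 17877840195) (nat_lit 9) (nat_lit 5) (nat_lit 10) (nat_lit 5) (nat_lit 11) (nat_lit 4) (nat_lit 375) (nat_lit 247) (nat_lit 158)))))) (XT.nd (nat_lit 468) (nat_lit 152) (nat_lit 0) (XT.nd (nat_lit 234) (nat_lit 76) (nat_lit 0) (XT.nd (nat_lit 78) (nat_lit 0) (nat_lit 0) (XT.lf (nat_lit 0) (nat_lit 30312933318) (nat_lit 152) (nat_lit 13606905661) (nat_lit 0) (nat_lit 1731455964) (nat_lit 9) (nat_lit 5) (nat_lit 11) (nat_lit 4) (nat_lit 9) (nat_lit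 4) (nat_lit 376) (nat_lit 247) (nat_lit 157)) (XT.nd (nat_lit 78) (nat_lit 0) (nat_lit 0) (XT.lf (nat_lit 0) (nat_lit 34184756228) (nat_lit 152) (nat_lit 7175997020) (nat_lit 0) (nat_lit 5540689327) (nat_lit 9) (nat_lit 5) (nat_lit 11) (nat_lit 4) (nat_lit 9) (nat_lit 4) (nat_lit 377) (nat_lit 247) (nat_lit 156)) (XT.lf (nat_lit 0) (nat_lit 38159030137) (nat_lit 152) (nat_lit 576289016) (nat_lit 0) (nat_lit 9454196685) (nat_lit 9) (nat_lit 5) (nat_lit 11) (nat_lit 4) (nat_lit 9) (nat_lit 4) (nat_lit 378) (nat_lit 247) (nat_lit 155)))) (XT.nd (nat_lit 78) (nat_lit 0) (nat_lit 0) (XT.lf (nat_lit 0) (nat_lit 6321337141) (nat_lit 76) (nat_lit 35978655130) (nat_lit 76) (nat_lit 7214825028) (nat_lit 8) (nat_lit 4) (nat_lit 9) (nat_lit 5) (nat_lit 9) (nat_lit 4) (nat_lit 379) (nat_lit 247) (nat_lit 154)) (XT.nd (nat_lit 78) (nat_lit 0) (nat_lit 0) (XT.lf (nat_lit 0) (nat_lit 13414509960) (nat_lit 76)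 (nat_lit 33143352690) (nat_lit 76) (nat_lit 4322244285) (nat_lit 8) (nat_lit 4) (nat_lit 9) (nat_lit 5) (nat_lit 9) (nat_lit 4) (nat_lit 380) (nat_lit 247) (nat_lit 153)) (XT.lf (nat_lit 0) (nat_lit 20697958076) (nat_lit 76) (nat_lit 30232753773) (nat_lit 76) (nat_lit 1356035366) (nat_lit 8) (nat_lit 4) (nat_lit 9) (nat_lit 5) (nat_lit 9) (nat_lit 4) (nat_lit 381) (nat_lit 247) (nat_lit 152))))) (XT.nd (nat_lit 234) (nat_lit 76) (nat_lit 0) (XT.nd (nat_lit 78) (nat_lit 0) (nat_lit 0) (XT.lf (nat_lit 0) (nat_lit 1653485949) (nat_lit 152) (nat_lit 25574132223) (nat_lit 76) (nat_lit 26507862752) (nat_lit 7) (nat_lit 5) (nat_lit 9) (nat_lit 5) (nat_lit 8) (nat_lit 4) (nat_lit 382) (nat_lit 247) (nat_lit 151)) (XT.nd (nat_lit 78) (nat_lit 0) (nat_lit 0) (XT.lf (nat_lit 0) (nat_lit 4713885371) (nat_lit 152) (nat_lit 19413939157) (nat_lit 76) (nat_lit 31099822363) (nat_lit 7) (nat_lit 5) (nat_lit 9)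 (nat_lit 5) (nat_lit 8) (nat_lit 4) (nat_lit 383) (nat_lit 247) (nat_lit 150)) (XT.lf (nat_lit 0) (nat_lit 7854298168) (nat_lit 152) (nat_lit 13089792207) (nat_lit 76) (nat_lit 35820849625) (nat_lit 7) (nat_lit 5) (nat_lit 9) (nat_lit 5) (nat_lit 8) (nat_lit 4) (nat_lit 384) (nat_lit 247) (nat_lit 149)))) (XT.nd (nat_lit 78) (nat_lit 76) (nat_lit 0) (XT.lf (nat_lit 0) (nat_lit 11077468391) (nat_lit 152) (nat_lit 6596165421) (nat_lit 76) (nat_lit 40675069707) (nat_lit 7) (nat_lit 5) (nat_lit 9) (nat_lit 5) (nat_lit 8) (nat_lit 4) (nat_lit 385) (nat_lit 247) (nat_lit 148)) (XT.nd (nat_lit 78) (nat_lit 0) (nat_lit 0) (XT.lf (nat_lit 0) (nat_lit 74060430) (nat_lit 76) (nat_lit 14312863886) (nat_lit 152) (nat_lit 45593375646) (nat_lit 6) (nat_lit 5) (nat_lit 7) (nat_lit 5) (nat_lit 8) (nat_lit 4) (nat_lit 386) (nat_lit 247) (nat_lit 147)) (XT.lf (nat_lit 0) (nat_lit 7060145754) (nat_lit 76) (nat_lit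 10791142023) (nat_lit 152) (nat_lit 43807895315) (nat_lit 6) (nat_lit 5) (nat_lit 7) (nat_lit 5) (nat_lit 8) (nat_lit 4) (nat_lit 387) (nat_lit 247) (nat_lit 146))))))))
noncomputable def xc76 : XT := (XT.nd (nat_lit 33228) (nat_lit 0) (nat_lit 3876) (XT.nd (nat_lit 858) (nat_lit 0) (nat_lit 0) (XT.nd (nat_lit 390) (nat_lit 76) (nat_lit 0) (XT.nd (nat_lit 156) (nat_lit 0) (nat_lit 0) (XT.nd (nat_lit 78) (nat_lit 0) (nat_lit 0) (XT.lf (nat_lit 0) (nat_lit 14236918269) (nat_lit 76) (nat_lit 7171999328) (nat_lit 152) (nat_lit 41979842345) (nat_lit 6) (nat_lit 5) (nat_lit 7) (nat_lit 5) (nat_lit 8) (nat_lit 4) (nat_lit 388) (nat_lit 247) (nat_lit 145)) (XT.lf (nat_lit 0) (nat_lit 21610648943) (nat_lit 76) (nat_lit 3452273444) (nat_lit 152) (nat_lit 40107619409) (nat_lit 6) (nat_lit 5) (nat_lit 7) (nat_lit 5) (nat_lit 8) (nat_lit 4) (nat_lit 389) (nat_lit 247) (nat_lit 144))) (XT.nd (nat_lit 78) (nat_lit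 0) (nat_lit 0) (XT.lf (nat_lit 0) (nat_lit 28820063993) (nat_lit 152) (nat_lit 37821873734) (nat_lit 0) (nat_lit 364040750) (nat_lit 6) (nat_lit 5) (nat_lit 8) (nat_lit 4) (nat_lit 6) (nat_lit 4) (nat_lit 390) (nat_lit 247) (nat_lit 143)) (XT.nd (nat_lit 78) (nat_lit 0) (nat_lit 0) (XT.lf (nat_lit 0) (nat_lit 32714268798) (nat_lit 152) (nat_lit 31963413958) (nat_lit 0) (nat_lit 4218071707) (nat_lit 6) (nat_lit 5) (nat_lit 8) (nat_lit 4) (nat_lit 6) (nat_lit 4) (nat_lit 391) (nat_lit 247) (nat_lit 142)) (XT.lf (nat_lit 0) (nat_lit 36715754142) (nat_lit 152) (nat_lit 25946209118) (nat_lit 0) (nat_lit 8180553314) (nat_lit 6) (nat_lit 5) (nat_lit 8) (nat_lit 4) (nat_lit 6) (nat_lit 4) (nat_lit 392) (nat_lit 247) (nat_lit 141))))) (XT.nd (nat_lit 234) (nat_lit 76) (nat_lit 0) (XT.nd (nat_lit 78) (nat_lit 0) (nat_lit 0) (XT.lf (nat_lit 0) (nat_lit 40828016468) (nat_lit 152) (nat_lit 19765001464) (nat_lit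 0) (nat_lit 12254947935) (nat_lit 6) (nat_lit 5) (nat_lit 8) (nat_lit 4) (nat_lit 6) (nat_lit 4) (nat_lit 393) (nat_lit 247) (nat_lit 140)) (XT.nd (nat_lit 78) (nat_lit 0) (nat_lit 0) (XT.lf (nat_lit 0) (nat_lit 45054649015) (nat_lit 152) (nat_lit 13414389939) (nat_lit 0) (nat_lit 16444815719) (nat_lit 6) (nat_lit 5) (nat_lit 8) (nat_lit 4) (nat_lit 6) (nat_lit 4) (nat_lit 394) (nat_lit 247) (nat_lit 139)) (XT.lf (nat_lit 0) (nat_lit 49399344957) (nat_lit 152) (nat_lit 6888825465) (nat_lit 0) (nat_lit 20753817717) (nat_lit 6) (nat_lit 5) (nat_lit 8) (nat_lit 4) (nat_lit 6) (nat_lit 4) (nat_lit 395) (nat_lit 247) (nat_lit 138)))) (XT.nd (nat_lit 78) (nat_lit 76) (nat_lit 0) (XT.lf (nat_lit 0) (nat_lit 53865900631) (nat_lit 152) (nat_lit 182606094) (nat_lit 0) (nat_lit 25185719076) (nat_lit 6) (nat_lit 5) (nat_lit 8) (nat_lit 4) (nat_lit 6) (nat_lit 4) (nat_lit 396) (nat_lit 247) (nat_lit 137))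 (XT.nd (nat_lit 78) (nat_lit 0) (nat_lit 0) (XT.lf (nat_lit 0) (nat_lit 6843672682) (nat_lit 76) (nat_lit 51680331737) (nat_lit 76) (nat_lit 22966505216) (nat_lit 5) (nat_lit 4) (nat_lit 6) (nat_lit 5) (nat_lit 6) (nat_lit 4) (nat_lit 397) (nat_lit 247) (nat_lit 136)) (XT.lf (nat_lit 0) (nat_lit 14069955031) (nat_lit 76) (nat_lit 49245606308) (nat_lit 76) (nat_lit 20499114772) (nat_lit 5) (nat_lit 4) (nat_lit 6) (nat_lit 5) (nat_lit 6) (nat_lit 4) (nat_lit 398) (nat_lit 247) (nat_lit 135)))))) (XT.nd (nat_lit 31902) (nat_lit 0) (nat_lit 9576) (XT.nd (nat_lit 31668) (nat_lit 0) (nat_lit 11628) (XT.nd (nat_lit 78) (nat_lit 0) (nat_lit 0) (XT.lf (nat_lit 0) (nat_lit 21498920958) (nat_lit 76) (nat_lit 46744046972) (nat_lit 76) (nat_lit 17965841829) (nat_lit 5) (nat_lit 4) (nat_lit 6) (nat_lit 5) (nat_lit 6) (nat_lit 4) (nat_lit 399) (nat_lit 247) (nat_lit 134)) (XT.nd (nat_lit 156) (nat_lit 0) (nat_lit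 0) (XT.lf (nat_lit 0) (nat_lit 29137061795) (nat_lit 76) (nat_lit 44173467899) (nat_lit 76) (nat_lit 15364472846) (nat_lit 5) (nat_lit 4) (nat_lit 6) (nat_lit 5) (nat_lit 6) (nat_lit 4) (nat_lit 400) (nat_lit 247) (nat_lit 133)) (XT.lf (nat_lit 0) (nat_lit 45067753215) (nat_lit 76) (nat_lit 38816203727) (nat_lit 76) (nat_lit 9948293115) (nat_lit 5) (nat_lit 4) (nat_lit 6) (nat_lit 5) (nat_lit 6) (nat_lit 4) (nat_lit 402) (nat_lit 247) (nat_lit 131)))) (XT.nd (nat_lit 78) (nat_lit 2128) (nat_lit 0) (XT.lf (nat_lit 0) (nat_lit 1703896810) (nat_lit 988) (nat_lit 157279275) (nat_lit 0) (nat_lit 1703896810) (nat_lit 186) (nat_lit 5) (nat_lit 199) (nat_lit 4) (nat_lit 186) (nat_lit 4) (nat_lit 284) (nat_lit 248) (nat_lit 248)) (XT.nd (nat_lit 78) (nat_lit 1140) (nat_lit 0) (XT.lf (nat_lit 0) (nat_lit 4167590784) (nat_lit 988) (nat_lit 2320131357) (nat_lit 988) (nat_lit 703553866) (nat_lit 173) (nat_lit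 4) (nat_lit 186) (nat_lit 5) (nat_lit 186) (nat_lit 4) (nat_lit 285) (nat_lit 248) (nat_lit 247)) (XT.lf (nat_lit 0) (nat_lit 1452723423) (nat_lit 1064) (nat_lit 832396588) (nat_lit 1140) (nat_lit 4970891691) (nat_lit 158) (nat_lit 5) (nat_lit 172) (nat_lit 5) (nat_lit 173) (nat_lit 4) (nat_lit 286) (nat_lit 248) (nat_lit 246))))) (XT.nd (nat_lit 234) (nat_lit 608) (nat_lit 0) (XT.nd (nat_lit 78) (nat_lit 1444) (nat_lit 0) (XT.lf (nat_lit 0) (nat_lit 5297773608) (nat_lit 1140) (nat_lit 1301394628) (nat_lit 0) (nat_lit 725104162) (nat_lit 158) (nat_lit 5) (nat_lit 173) (nat_lit 4) (nat_lit 158) (nat_lit 4) (nat_lit 287) (nat_lit 248) (nat_lit 245)) (XT.nd (nat_lit 78) (nat_lit 532) (nat_lit 0) (XT.lf (nat_lit 0) (nat_lit 939383542) (nat_lit 912) (nat_lit 4102029017) (nat_lit 76) (nat_lit 2354526010) (nat_lit 146) (nat_lit 5) (nat_lit 158) (nat_lit 5) (nat_lit 147) (nat_lit 4) (nat_lit 288) (nat_lit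 248) (nat_lit 244)) (XT.lf (nat_lit 0) (nat_lit 484195780) (nat_lit 532) (nat_lit 3401344777) (nat_lit 608) (nat_lit 3585876236) (nat_lit 139) (nat_lit 5) (nat_lit 146) (nat_lit 5) (nat_lit 147) (nat_lit 4) (nat_lit 289) (nat_lit 248) (nat_lit 243)))) (XT.nd (nat_lit 78) (nat_lit 608) (nat_lit 0) (XT.lf (nat_lit 0) (nat_lit 5203523979) (nat_lit 532) (nat_lit 1673734016) (nat_lit 608) (nat_lit 673404414) (nat_lit 139) (nat_lit 5) (nat_lit 146) (nat_lit 5) (nat_lit 147) (nat_lit 4) (nat_lit 290) (nat_lit 248) (nat_lit 242)) (XT.nd (nat_lit 78) (nat_lit 0) (nat_lit 0) (XT.lf (nat_lit 0) (nat_lit 2222412321) (nat_lit 608) (nat_lit 5266886664) (nat_lit 76) (nat_lit 144280252) (nat_lit 131) (nat_lit 5) (nat_lit 139) (nat_lit 5) (nat_lit 132) (nat_lit 4) (nat_lit 291) (nat_lit 248) (nat_lit 241)) (XT.lf (nat_lit 0) (nat_lit 5150786536) (nat_lit 608) (nat_lit 561259044) (nat_lit 76) (nat_lit 2008161225)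 (nat_lit 131) (nat_lit 5) (nat_lit 139) (nat_lit 5) (nat_lit 132) (nat_lit 4) (nat_lit 292) (nat_lit 248) (nat_lit 240))))))) (XT.nd (nat_lit 858) (nat_lit 2356) (nat_lit 0) (XT.nd (nat_lit 390) (nat_lit 1748) (nat_lit 0) (XT.nd (nat_lit 156) (nat_lit 532) (nat_lit 0) (XT.nd (nat_lit 78) (nat_lit 532) (nat_lit 0) (XT.lf (nat_lit 0) (nat_lit 312277262) (nat_lit 532) (nat_lit 3531680814) (nat_lit 76) (nat_lit 3966710043) (nat_lit 124) (nat_lit 5) (nat_lit 131) (nat_lit 5) (nat_lit 125) (nat_lit 5) (nat_lit 293) (nat_lit 248) (nat_lit 239)) (XT.lf (nat_lit 0) (nat_lit 1283984925) (nat_lit 532) (nat_lit 1884461328) (nat_lit 608) (nat_lit 4736626759) (nat_lit 117) (nat_lit 5) (nat_lit 124) (nat_lit 5) (nat_lit 125) (nat_lit 5) (nat_lit 294) (nat_lit 248) (nat_lit 238))) (XT.nd (nat_lit 78) (nat_lit 532) (nat_lit 0) (XT.lf (nat_lit 0) (nat_lit 6070550979) (nat_lit 608) (nat_lit 1775738880) (nat_lit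 76) (nat_lit 157390183) (nat_lit 117) (nat_lit 5) (nat_lit 125) (nat_lit 5) (nat_lit 118) (nat_lit 4) (nat_lit 295) (nat_lit 248) (nat_lit 237)) (XT.nd (nat_lit 78) (nat_lit 0) (nat_lit 0) (XT.lf (nat_lit 0) (nat_lit 909761370) (nat_lit 532) (nat_lit 4943680762) (nat_lit 76) (nat_lit 2252477829) (nat_lit 110) (nat_lit 5) (nat_lit 117) (nat_lit 5) (nat_lit 111) (nat_lit 5) (nat_lit 296) (nat_lit 248) (nat_lit 236)) (XT.lf (nat_lit 0) (nat_lit 3742847535) (nat_lit 532) (nat_lit 32813109) (nat_lit 76) (nat_lit 4436841793) (nat_lit 110) (nat_lit 5) (nat_lit 117) (nat_lit 5) (nat_lit 111) (nat_lit 5) (nat_lit 297) (nat_lit 248) (nat_lit 235))))) (XT.nd (nat_lit 234) (nat_lit 836) (nat_lit 0) (XT.nd (nat_lit 78) (nat_lit 456) (nat_lit 0) (XT.lf (nat_lit 0) (nat_lit 5038689898) (nat_lit 456) (nat_lit 1598490753) (nat_lit 532) (nat_lit 1685971822) (nat_lit 104) (nat_lit 5) (nat_lit 110) (nat_lit 5) (nat_lit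 111) (nat_lit 5) (nat_lit 298) (nat_lit 248) (nat_lit 234)) (XT.nd (nat_lit 78) (nat_lit 0) (nat_lit 0) (XT.lf (nat_lit 0) (nat_lit 1110055186) (nat_lit 456) (nat_lit 6681712745) (nat_lit 76) (nat_lit 646605601) (nat_lit 98) (nat_lit 5) (nat_lit 104) (nat_lit 5) (nat_lit 99) (nat_lit 5) (nat_lit 299) (nat_lit 248) (nat_lit 233)) (XT.lf (nat_lit 0) (nat_lit 3934793195) (nat_lit 456) (nat_lit 1659593202) (nat_lit 76) (nat_lit 2962946875) (nat_lit 98) (nat_lit 5) (nat_lit 104) (nat_lit 5) (nat_lit 99) (nat_lit 5) (nat_lit 300) (nat_lit 248) (nat_lit 232)))) (XT.nd (nat_lit 78) (nat_lit 456) (nat_lit 0) (XT.lf (nat_lit 0) (nat_lit 3496927300) (nat_lit 380) (nat_lit 3312412006) (nat_lit 456) (nat_lit 1871710648) (nat_lit 93) (nat_lit 5) (nat_lit 98) (nat_lit 5) (nat_lit 99) (nat_lit 5) (nat_lit 301) (nat_lit 248) (nat_lit 231)) (XT.nd (nat_lit 78) (nat_lit 380) (nat_lit 0) (XT.lf (nat_lit 0) (nat_lit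 891646426) (nat_lit 456) (nat_lit 60382133) (nat_lit 76) (nat_lit 7857841309) (nat_lit 92) (nat_lit 5) (nat_lit 98) (nat_lit 5) (nat_lit 93) (nat_lit 5) (nat_lit 302) (nat_lit 248) (nat_lit 230)) (XT.lf (nat_lit 0) (nat_lit 3699008672) (nat_lit 456) (nat_lit 3739672712) (nat_lit 76) (nat_lit 1503483556) (nat_lit 87) (nat_lit 5) (nat_lit 93) (nat_lit 5) (nat_lit 88) (nat_lit 5) (nat_lit 303) (nat_lit 248) (nat_lit 229)))))) (XT.nd (nat_lit 468) (nat_lit 912) (nat_lit 0) (XT.nd (nat_lit 234) (nat_lit 684) (nat_lit 0) (XT.nd (nat_lit 78) (nat_lit 380) (nat_lit 0) (XT.lf (nat_lit 0) (nat_lit 1481779858) (nat_lit 380) (nat_lit 5067904467) (nat_lit 456) (nat_lit 2530096264) (nat_lit 82) (nat_lit 5) (nat_lit 87) (nat_lit 5) (nat_lit 88) (nat_lit 5) (nat_lit 304) (nat_lit 248) (nat_lit 228)) (XT.nd (nat_lit 78) (nat_lit 304) (nat_lit 0) (XT.lf (nat_lit 0) (nat_lit 232489492) (nat_lit 456) (nat_lit 2371140674)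 (nat_lit 76) (nat_lit 6618736889) (nat_lit 81) (nat_lit 5) (nat_lit 87) (nat_lit 5) (nat_lit 82) (nat_lit 5) (nat_lit 305) (nat_lit 248) (nat_lit 227)) (XT.lf (nat_lit 0) (nat_lit 2963389028) (nat_lit 304) (nat_lit 29241179) (nat_lit 380) (nat_lit 6376997437) (nat_lit 77) (nat_lit 5) (nat_lit 81) (nat_lit 5) (nat_lit 82) (nat_lit 5) (nat_lit 306) (nat_lit 248) (nat_lit 226)))) (XT.nd (nat_lit 78) (nat_lit 684) (nat_lit 0) (XT.lf (nat_lit 0) (nat_lit 5822877282) (nat_lit 380) (nat_lit 1122364119) (nat_lit 76) (nat_lit 2576556202) (nat_lit 77) (nat_lit 5) (nat_lit 82) (nat_lit 5) (nat_lit 78) (nat_lit 5) (nat_lit 307) (nat_lit 248) (nat_lit 225)) (XT.nd (nat_lit 78) (nat_lit 380) (nat_lit 0) (XT.lf (nat_lit 0) (nat_lit 4323628918) (nat_lit 304) (nat_lit 4395975365) (nat_lit 380) (nat_lit 959588598) (nat_lit 73) (nat_lit 5) (nat_lit 77) (nat_lit 5) (nat_lit 78) (nat_lit 5) (nat_lit 308) (nat_lit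 248) (nat_lit 224)) (XT.lf (nat_lit 0) (nat_lit 16364613) (nat_lit 304) (nat_lit 1760850881) (nat_lit 380) (nat_lit 8065110060) (nat_lit 68) (nat_lit 5) (nat_lit 72) (nat_lit 5) (nat_lit 73) (nat_lit 5) (nat_lit 309) (nat_lit 248) (nat_lit 223))))) (XT.nd (nat_lit 234) (nat_lit 532) (nat_lit 0) (XT.nd (nat_lit 78) (nat_lit 380) (nat_lit 0) (XT.lf (nat_lit 0) (nat_lit 4581411517) (nat_lit 380) (nat_lit 4450549597) (nat_lit 76) (nat_lit 978067111) (nat_lit 68) (nat_lit 5) (nat_lit 73) (nat_lit 5) (nat_lit 69) (nat_lit 5) (nat_lit 310) (nat_lit 248) (nat_lit 222)) (XT.nd (nat_lit 78) (nat_lit 76) (nat_lit 0) (XT.lf (nat_lit 0) (nat_lit 1008907065) (nat_lit 304) (nat_lit 6430477660) (nat_lit 380) (nat_lit 2744383133) (nat_lit 64) (nat_lit 5) (nat_lit 68) (nat_lit 5) (nat_lit 69) (nat_lit 5) (nat_lit 311) (nat_lit 248) (nat_lit 221)) (XT.lf (nat_lit 0) (nat_lit 8152425) (nat_lit 380) (nat_lit 3718552705)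 (nat_lit 76) (nat_lit 6636453436) (nat_lit 63) (nat_lit 5) (nat_lit 68) (nat_lit 5) (nat_lit 64) (nat_lit 5) (nat_lit 312) (nat_lit 248) (nat_lit 220)))) (XT.nd (nat_lit 78) (nat_lit 304) (nat_lit 0) (XT.lf (nat_lit 0) (nat_lit 1832437977) (nat_lit 228) (nat_lit 917733456) (nat_lit 304) (nat_lit 7798169720) (nat_lit 60) (nat_lit 5) (nat_lit 63) (nat_lit 5) (nat_lit 64) (nat_lit 5) (nat_lit 313) (nat_lit 248) (nat_lit 219)) (XT.nd (nat_lit 78) (nat_lit 304) (nat_lit 0) (XT.lf (nat_lit 0) (nat_lit 5576481227) (nat_lit 304) (nat_lit 3209472303) (nat_lit 76) (nat_lit 1953149561) (nat_lit 60) (nat_lit 5) (nat_lit 64) (nat_lit 5) (nat_lit 61) (nat_lit 5) (nat_lit 314) (nat_lit 248) (nat_lit 218)) (XT.lf (nat_lit 0) (nat_lit 2424310816) (nat_lit 304) (nat_lit 6042376971) (nat_lit 380) (nat_lit 2469609186) (nat_lit 56) (nat_lit 5) (nat_lit 60) (nat_lit 5) (nat_lit 61) (nat_lit 5) (nat_lit 315) (nat_lit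 248) (nat_lit 217))))))))
noncomputable def xc77 : XT := (XT.nd (nat_lit 1794) (nat_lit 1064) (nat_lit 0) (XT.nd (nat_lit 858) (nat_lit 988) (nat_lit 0) (XT.nd (nat_lit 390) (nat_lit 760) (nat_lit 0) (XT.nd (nat_lit 156) (nat_lit 228) (nat_lit 0) (XT.nd (nat_lit 78) (nat_lit 228) (nat_lit 0) (XT.lf (nat_lit 0) (nat_lit 277935501) (nat_lit 380) (nat_lit 2925229895) (nat_lit 76) (nat_lit 7936840811) (nat_lit 55) (nat_lit 5) (nat_lit 60) (nat_lit 5) (nat_lit 56) (nat_lit 5) (nat_lit 316) (nat_lit 248) (nat_lit 216)) (XT.lf (nat_lit 0) (nat_lit 2784796572) (nat_lit 228) (nat_lit 248734935) (nat_lit 304) (nat_lit 8316379137) (nat_lit 52) (nat_lit 5) (nat_lit 55) (nat_lit 5) (nat_lit 56) (nat_lit 5) (nat_lit 317) (nat_lit 248) (nat_lit 215))) (XT.nd (nat_lit 78) (nat_lit 228) (nat_lit 0) (XT.lf (nat_lit 0) (nat_lit 5877555011) (nat_lit 304) (nat_lit 2941161333) (nat_lit 76) (nat_lit 2747296215) (nat_lit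 52) (nat_lit 5) (nat_lit 56) (nat_lit 5) (nat_lit 53) (nat_lit 5) (nat_lit 318) (nat_lit 248) (nat_lit 214)) (XT.nd (nat_lit 78) (nat_lit 0) (nat_lit 0) (XT.lf (nat_lit 0) (nat_lit 2831612707) (nat_lit 228) (nat_lit 5955519175) (nat_lit 304) (nat_lit 3002129672) (nat_lit 49) (nat_lit 5) (nat_lit 52) (nat_lit 5) (nat_lit 53) (nat_lit 5) (nat_lit 319) (nat_lit 248) (nat_lit 213)) (XT.lf (nat_lit 0) (nat_lit 8765884013) (nat_lit 228) (nat_lit 2999111138) (nat_lit 304) (nat_lit 254851827) (nat_lit 49) (nat_lit 5) (nat_lit 52) (nat_lit 5) (nat_lit 53) (nat_lit 5) (nat_lit 320) (nat_lit 248) (nat_lit 212))))) (XT.nd (nat_lit 234) (nat_lit 228) (nat_lit 0) (XT.nd (nat_lit 78) (nat_lit 228) (nat_lit 0) (XT.lf (nat_lit 0) (nat_lit 2502250807) (nat_lit 304) (nat_lit 9682633002) (nat_lit 76) (nat_lit 72459075) (nat_lit 45) (nat_lit 5) (nat_lit 49) (nat_lit 5) (nat_lit 46) (nat_lit 5) (nat_lit 321) (nat_lit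 248) (nat_lit 211)) (XT.nd (nat_lit 78) (nat_lit 228) (nat_lit 0) (XT.lf (nat_lit 0) (nat_lit 5352502033) (nat_lit 304) (nat_lit 3960030682) (nat_lit 76) (nat_lit 3188951604) (nat_lit 45) (nat_lit 5) (nat_lit 49) (nat_lit 5) (nat_lit 46) (nat_lit 5) (nat_lit 322) (nat_lit 248) (nat_lit 210)) (XT.lf (nat_lit 0) (nat_lit 1901989664) (nat_lit 228) (nat_lit 6358612114) (nat_lit 304) (nat_lit 4493239236) (nat_lit 42) (nat_lit 5) (nat_lit 45) (nat_lit 5) (nat_lit 46) (nat_lit 5) (nat_lit 323) (nat_lit 248) (nat_lit 209)))) (XT.nd (nat_lit 78) (nat_lit 228) (nat_lit 0) (XT.lf (nat_lit 0) (nat_lit 7952352800) (nat_lit 228) (nat_lit 3298315941) (nat_lit 304) (nat_lit 1763317405) (nat_lit 42) (nat_lit 5) (nat_lit 45) (nat_lit 5) (nat_lit 46) (nat_lit 5) (nat_lit 324) (nat_lit 248) (nat_lit 208)) (XT.nd (nat_lit 78) (nat_lit 0) (nat_lit 0) (XT.lf (nat_lit 0) (nat_lit 840988876) (nat_lit 152) (nat_lit 150699598)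 (nat_lit 228) (nat_lit 12291091448) (nat_lit 39) (nat_lit 5) (nat_lit 41) (nat_lit 5) (nat_lit 42) (nat_lit 5) (nat_lit 325) (nat_lit 248) (nat_lit 207)) (XT.lf (nat_lit 0) (nat_lit 3831228156) (nat_lit 228) (nat_lit 6649452694) (nat_lit 76) (nat_lit 3077367584) (nat_lit 39) (nat_lit 5) (nat_lit 42) (nat_lit 5) (nat_lit 40) (nat_lit 5) (nat_lit 326) (nat_lit 248) (nat_lit 206)))))) (XT.nd (nat_lit 468) (nat_lit 380) (nat_lit 0) (XT.nd (nat_lit 234) (nat_lit 380) (nat_lit 0) (XT.nd (nat_lit 78) (nat_lit 228) (nat_lit 0) (XT.lf (nat_lit 0) (nat_lit 6714717968) (nat_lit 228) (nat_lit 750968589) (nat_lit 76) (nat_lit 6377178358) (nat_lit 39) (nat_lit 5) (nat_lit 42) (nat_lit 5) (nat_lit 40) (nat_lit 5) (nat_lit 327) (nat_lit 248) (nat_lit 205)) (XT.nd (nat_lit 78) (nat_lit 0) (nat_lit 0) (XT.lf (nat_lit 0) (nat_lit 5364953467) (nat_lit 228) (nat_lit 4329846594) (nat_lit 304) (nat_lit 4441174494)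 (nat_lit 36) (nat_lit 5) (nat_lit 39) (nat_lit 5) (nat_lit 40) (nat_lit 5) (nat_lit 328) (nat_lit 248) (nat_lit 204)) (XT.lf (nat_lit 0) (nat_lit 11616170640) (nat_lit 228) (nat_lit 1114810785) (nat_lit 304) (nat_lit 1707944955) (nat_lit 36) (nat_lit 5) (nat_lit 39) (nat_lit 5) (nat_lit 40) (nat_lit 5) (nat_lit 329) (nat_lit 248) (nat_lit 203)))) (XT.nd (nat_lit 78) (nat_lit 152) (nat_lit 0) (XT.lf (nat_lit 0) (nat_lit 1098531434) (nat_lit 228) (nat_lit 11477226198) (nat_lit 76) (nat_lit 2174551041) (nat_lit 33) (nat_lit 5) (nat_lit 36) (nat_lit 5) (nat_lit 34) (nat_lit 5) (nat_lit 330) (nat_lit 248) (nat_lit 202)) (XT.nd (nat_lit 78) (nat_lit 152) (nat_lit 0) (XT.lf (nat_lit 0) (nat_lit 3954920467) (nat_lit 228) (nat_lit 5551722429) (nat_lit 76) (nat_lit 5563926410) (nat_lit 33) (nat_lit 5) (nat_lit 36) (nat_lit 5) (nat_lit 34) (nat_lit 5) (nat_lit 331) (nat_lit 248) (nat_lit 201)) (XT.lf (nat_lit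 0) (nat_lit 500166315) (nat_lit 152) (nat_lit 6363023445) (nat_lit 228) (nat_lit 8538306588) (nat_lit 31) (nat_lit 5) (nat_lit 33) (nat_lit 5) (nat_lit 34) (nat_lit 5) (nat_lit 332) (nat_lit 248) (nat_lit 200))))) (XT.nd (nat_lit 234) (nat_lit 228) (nat_lit 0) (XT.nd (nat_lit 78) (nat_lit 152) (nat_lit 0) (XT.lf (nat_lit 0) (nat_lit 6786875819) (nat_lit 152) (nat_lit 3089816387) (nat_lit 228) (nat_lit 5865162399) (nat_lit 31) (nat_lit 5) (nat_lit 33) (nat_lit 5) (nat_lit 34) (nat_lit 5) (nat_lit 333) (nat_lit 248) (nat_lit 199)) (XT.nd (nat_lit 78) (nat_lit 152) (nat_lit 0) (XT.lf (nat_lit 0) (nat_lit 12946129447) (nat_lit 228) (nat_lit 2892662310) (nat_lit 76) (nat_lit 254707667) (nat_lit 31) (nat_lit 5) (nat_lit 34) (nat_lit 5) (nat_lit 32) (nat_lit 4) (nat_lit 334) (nat_lit 248) (nat_lit 198)) (XT.lf (nat_lit 0) (nat_lit 3327891417) (nat_lit 152) (nat_lit 12806246119) (nat_lit 228) (nat_lit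 320801911) (nat_lit 29) (nat_lit 5) (nat_lit 31) (nat_lit 5) (nat_lit 32) (nat_lit 4) (nat_lit 335) (nat_lit 248) (nat_lit 197)))) (XT.nd (nat_lit 78) (nat_lit 152) (nat_lit 0) (XT.lf (nat_lit 0) (nat_lit 2533525620) (nat_lit 228) (nat_lit 7115344235) (nat_lit 76) (nat_lit 7177838511) (nat_lit 28) (nat_lit 5) (nat_lit 31) (nat_lit 5) (nat_lit 29) (nat_lit 5) (nat_lit 336) (nat_lit 248) (nat_lit 196)) (XT.nd (nat_lit 78) (nat_lit 152) (nat_lit 0) (XT.lf (nat_lit 0) (nat_lit 5432097522) (nat_lit 228) (nat_lit 982936533) (nat_lit 76) (nat_lit 10795586193) (nat_lit 28) (nat_lit 5) (nat_lit 31) (nat_lit 5) (nat_lit 29) (nat_lit 5) (nat_lit 337) (nat_lit 248) (nat_lit 195)) (XT.lf (nat_lit 0) (nat_lit 5383672064) (nat_lit 152) (nat_lit 3051785612) (nat_lit 228) (nat_lit 9170092855) (nat_lit 26) (nat_lit 5) (nat_lit 28) (nat_lit 5) (nat_lit 29) (nat_lit 5) (nat_lit 338) (nat_lit 248) (nat_lit 194)))))))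 (XT.nd (nat_lit 936) (nat_lit 380) (nat_lit 0) (XT.nd (nat_lit 468) (nat_lit 304) (nat_lit 0) (XT.nd (nat_lit 234) (nat_lit 228) (nat_lit 0) (XT.nd (nat_lit 78) (nat_lit 152) (nat_lit 0) (XT.lf (nat_lit 0) (nat_lit 11509252279) (nat_lit 228) (nat_lit 6109791855) (nat_lit 76) (nat_lit 393909508) (nat_lit 26) (nat_lit 5) (nat_lit 29) (nat_lit 5) (nat_lit 27) (nat_lit 4) (nat_lit 339) (nat_lit 248) (nat_lit 193)) (XT.nd (nat_lit 78) (nat_lit 0) (nat_lit 0) (XT.lf (nat_lit 0) (nat_lit 103948784) (nat_lit 152) (nat_lit 14569852851) (nat_lit 228) (nat_lit 3758854894) (nat_lit 24) (nat_lit 5) (nat_lit 26) (nat_lit 5) (nat_lit 27) (nat_lit 4) (nat_lit 340) (nat_lit 248) (nat_lit 192)) (XT.lf (nat_lit 0) (nat_lit 6576349818) (nat_lit 152) (nat_lit 11386402803) (nat_lit 228) (nat_lit 901346849) (nat_lit 24) (nat_lit 5) (nat_lit 26) (nat_lit 5) (nat_lit 27) (nat_lit 4) (nat_lit 341) (nat_lit 248) (nat_lit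 191)))) (XT.nd (nat_lit 78) (nat_lit 152) (nat_lit 0) (XT.lf (nat_lit 0) (nat_lit 1970407726) (nat_lit 228) (nat_lit 6137304273) (nat_lit 76) (nat_lit 11201164923) (nat_lit 23) (nat_lit 5) (nat_lit 26) (nat_lit 5) (nat_lit 24) (nat_lit 5) (nat_lit 342) (nat_lit 248) (nat_lit 190)) (XT.nd (nat_lit 78) (nat_lit 0) (nat_lit 0) (XT.lf (nat_lit 0) (nat_lit 140883666) (nat_lit 152) (nat_lit 4739956587) (nat_lit 228) (nat_lit 14886800602) (nat_lit 21) (nat_lit 5) (nat_lit 23) (nat_lit 5) (nat_lit 24) (nat_lit 5) (nat_lit 343) (nat_lit 248) (nat_lit 189)) (XT.lf (nat_lit 0) (nat_lit 6683126279) (nat_lit 152) (nat_lit 1227134406) (nat_lit 228) (nat_lit 12328986025) (nat_lit 21) (nat_lit 5) (nat_lit 23) (nat_lit 5) (nat_lit 24) (nat_lit 5) (nat_lit 344) (nat_lit 248) (nat_lit 188))))) (XT.nd (nat_lit 234) (nat_lit 228) (nat_lit 0) (XT.nd (nat_lit 78) (nat_lit 76) (nat_lit 0) (XT.lf (nat_lit 0) (nat_lit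 11023946106) (nat_lit 228) (nat_lit 7375715626) (nat_lit 76) (nat_lit 2325565937) (nat_lit 21) (nat_lit 5) (nat_lit 24) (nat_lit 5) (nat_lit 22) (nat_lit 4) (nat_lit 345) (nat_lit 248) (nat_lit 187)) (XT.nd (nat_lit 78) (nat_lit 76) (nat_lit 0) (XT.lf (nat_lit 0) (nat_lit 14214452055) (nat_lit 228) (nat_lit 1069977265) (nat_lit 76) (nat_lit 5941884010) (nat_lit 21) (nat_lit 5) (nat_lit 24) (nat_lit 5) (nat_lit 22) (nat_lit 4) (nat_lit 346) (nat_lit 248) (nat_lit 186)) (XT.lf (nat_lit 0) (nat_lit 5485441201) (nat_lit 76) (nat_lit 12040058601) (nat_lit 152) (nat_lit 4216213729) (nat_lit 20) (nat_lit 5) (nat_lit 21) (nat_lit 5) (nat_lit 22) (nat_lit 4) (nat_lit 347) (nat_lit 248) (nat_lit 185)))) (XT.nd (nat_lit 78) (nat_lit 228) (nat_lit 0) (XT.lf (nat_lit 0) (nat_lit 12213379151) (nat_lit 76) (nat_lit 8705771496) (nat_lit 152) (nat_lit 1353952932) (nat_lit 20) (nat_lit 5) (nat_lit 21) (nat_lit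 5) (nat_lit 22) (nat_lit 4) (nat_lit 348) (nat_lit 248) (nat_lit 184)) (XT.nd (nat_lit 78) (nat_lit 152) (nat_lit 0) (XT.lf (nat_lit 0) (nat_lit 1536047097) (nat_lit 152) (nat_lit 3737901060) (nat_lit 76) (nat_lit 17546862558) (nat_lit 19) (nat_lit 5) (nat_lit 21) (nat_lit 5) (nat_lit 20) (nat_lit 5) (nat_lit 349) (nat_lit 248) (nat_lit 183)) (XT.lf (nat_lit 0) (nat_lit 2770251666) (nat_lit 152) (nat_lit 1715678224) (nat_lit 228) (nat_lit 18898628918) (nat_lit 17) (nat_lit 5) (nat_lit 19) (nat_lit 5) (nat_lit 20) (nat_lit 5) (nat_lit 350) (nat_lit 248) (nat_lit 182)))))) (XT.nd (nat_lit 468) (nat_lit 304) (nat_lit 0) (XT.nd (nat_lit 234) (nat_lit 76) (nat_lit 0) (XT.nd (nat_lit 78) (nat_lit 0) (nat_lit 0) (XT.lf (nat_lit 0) (nat_lit 7555108873) (nat_lit 228) (nat_lit 14477102955) (nat_lit 76) (nat_lit 1932106617) (nat_lit 17) (nat_lit 5) (nat_lit 20) (nat_lit 5) (nat_lit 18) (nat_lit 4) (nat_lit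 351) (nat_lit 248) (nat_lit 181)) (XT.nd (nat_lit 78) (nat_lit 0) (nat_lit 0) (XT.lf (nat_lit 0) (nat_lit 10708051370) (nat_lit 228) (nat_lit 8215659159) (nat_lit 76) (nat_lit 5638032115) (nat_lit 17) (nat_lit 5) (nat_lit 20) (nat_lit 5) (nat_lit 18) (nat_lit 4) (nat_lit 352) (nat_lit 248) (nat_lit 180)) (XT.lf (nat_lit 0) (nat_lit 13931020230) (nat_lit 228) (nat_lit 1808012443) (nat_lit 76) (nat_lit 9438815520) (nat_lit 17) (nat_lit 5) (nat_lit 20) (nat_lit 5) (nat_lit 18) (nat_lit 4) (nat_lit 353) (nat_lit 248) (nat_lit 179)))) (XT.nd (nat_lit 78) (nat_lit 0) (nat_lit 0) (XT.lf (nat_lit 0) (nat_lit 4845999003) (nat_lit 76) (nat_lit 12427415345) (nat_lit 152) (nat_lit 8538361608) (nat_lit 16) (nat_lit 5) (nat_lit 17) (nat_lit 5) (nat_lit 18) (nat_lit 4) (nat_lit 354) (nat_lit 248) (nat_lit 178)) (XT.nd (nat_lit 78) (nat_lit 0) (nat_lit 0) (XT.lf (nat_lit 0) (nat_lit 11696662059) (nat_lit 76)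 (nat_lit 9014138850) (nat_lit 152) (nat_lit 5754099540) (nat_lit 16) (nat_lit 5) (nat_lit 17) (nat_lit 5) (nat_lit 18) (nat_lit 4) (nat_lit 355) (nat_lit 248) (nat_lit 177)) (XT.lf (nat_lit 0) (nat_lit 18713979748) (nat_lit 76) (nat_lit 5514478095) (nat_lit 152) (nat_lit 2909866290) (nat_lit 16) (nat_lit 5) (nat_lit 17) (nat_lit 5) (nat_lit 18) (nat_lit 4) (nat_lit 356) (nat_lit 248) (nat_lit 176))))) (XT.nd (nat_lit 234) (nat_lit 76) (nat_lit 0) (XT.nd (nat_lit 78) (nat_lit 228) (nat_lit 0) (XT.lf (nat_lit 0) (nat_lit 25904083705) (nat_lit 76) (nat_lit 1925375123) (nat_lit 152) (nat_lit 3176606) (nat_lit 16) (nat_lit 5) (nat_lit 17) (nat_lit 5) (nat_lit 18) (nat_lit 4) (nat_lit 357) (nat_lit 248) (nat_lit 175)) (XT.nd (nat_lit 78) (nat_lit 0) (nat_lit 0) (XT.lf (nat_lit 0) (nat_lit 2974246068) (nat_lit 228) (nat_lit 23774079231) (nat_lit 76) (nat_lit 1797349792) (nat_lit 13) (nat_lit 5) (nat_lit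 16) (nat_lit 5) (nat_lit 14) (nat_lit 4) (nat_lit 358) (nat_lit 248) (nat_lit 174)) (XT.lf (nat_lit 0) (nat_lit 6058021659) (nat_lit 228) (nat_lit 17623765932) (nat_lit 76) (nat_lit 5597822278) (nat_lit 13) (nat_lit 5) (nat_lit 16) (nat_lit 5) (nat_lit 14) (nat_lit 4) (nat_lit 359) (nat_lit 248) (nat_lit 173)))) (XT.nd (nat_lit 78) (nat_lit 76) (nat_lit 0) (XT.lf (nat_lit 0) (nat_lit 9213304257) (nat_lit 228) (nat_lit 11325096772) (nat_lit 76) (nat_lit 9497809031) (nat_lit 13) (nat_lit 5) (nat_lit 16) (nat_lit 5) (nat_lit 14) (nat_lit 4) (nat_lit 360) (nat_lit 248) (nat_lit 172)) (XT.nd (nat_lit 78) (nat_lit 76) (nat_lit 0) (XT.lf (nat_lit 0) (nat_lit 12442850906) (nat_lit 228) (nat_lit 4872568059) (nat_lit 76) (nat_lit 13500717806) (nat_lit 13) (nat_lit 5) (nat_lit 16) (nat_lit 5) (nat_lit 14) (nat_lit 4) (nat_lit 361) (nat_lit 248) (nat_lit 171)) (XT.lf (nat_lit 0) (nat_lit 1774076970) (nat_lit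 76) (nat_lit 13992460083) (nat_lit 152) (nat_lit 15853022834) (nat_lit 12) (nat_lit 5) (nat_lit 13) (nat_lit 5) (nat_lit 14) (nat_lit 4) (nat_lit 362) (nat_lit 248) (nat_lit 170))))))))
noncomputable def xc78 : XT := (XT.nd (nat_lit 1794) (nat_lit 152) (nat_lit 0) (XT.nd (nat_lit 858) (nat_lit 152) (nat_lit 0) (XT.nd (nat_lit 390) (nat_lit 152) (nat_lit 0) (XT.nd (nat_lit 156) (nat_lit 76) (nat_lit 0) (XT.nd (nat_lit 78) (nat_lit 0) (nat_lit 0) (XT.lf (nat_lit 0) (nat_lit 8686260142) (nat_lit 76) (nat_lit 10533328954) (nat_lit 152) (nat_lit 13226622665) (nat_lit 12) (nat_lit 5) (nat_lit 13) (nat_lit 5) (nat_lit 14) (nat_lit 4) (nat_lit 363) (nat_lit 248) (nat_lit 169)) (XT.lf (nat_lit 0) (nat_lit 15773047569) (nat_lit 76) (nat_lit 6984206420) (nat_lit 152) (nat_lit 10540993829) (nat_lit 12) (nat_lit 5) (nat_lit 13) (nat_lit 5) (nat_lit 14) (nat_lit 4) (nat_lit 364) (nat_lit 248) (nat_lit 168)))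 (XT.nd (nat_lit 78) (nat_lit 76) (nat_lit 0) (XT.lf (nat_lit 0) (nat_lit 23040631591) (nat_lit 76) (nat_lit 3341991306) (nat_lit 152) (nat_lit 7793789661) (nat_lit 12) (nat_lit 5) (nat_lit 13) (nat_lit 5) (nat_lit 14) (nat_lit 4) (nat_lit 365) (nat_lit 248) (nat_lit 167)) (XT.nd (nat_lit 78) (nat_lit 76) (nat_lit 0) (XT.lf (nat_lit 0) (nat_lit 30102675007) (nat_lit 152) (nat_lit 4589922174) (nat_lit 0) (nat_lit 388761784) (nat_lit 12) (nat_lit 5) (nat_lit 14) (nat_lit 4) (nat_lit 12) (nat_lit 4) (nat_lit 366) (nat_lit 248) (nat_lit 166)) (XT.lf (nat_lit 0) (nat_lit 2130400191) (nat_lit 76) (nat_lit 31840006768) (nat_lit 76) (nat_lit 2041978427) (nat_lit 11) (nat_lit 4) (nat_lit 12) (nat_lit 5) (nat_lit 12) (nat_lit 4) (nat_lit 367) (nat_lit 248) (nat_lit 165))))) (XT.nd (nat_lit 234) (nat_lit 76) (nat_lit 0) (XT.nd (nat_lit 78) (nat_lit 0) (nat_lit 0) (XT.lf (nat_lit 0) (nat_lit 993004222) (nat_lit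 152) (nat_lit 27863894931) (nat_lit 76) (nat_lit 8113292556) (nat_lit 10) (nat_lit 5) (nat_lit 12) (nat_lit 5) (nat_lit 11) (nat_lit 4) (nat_lit 368) (nat_lit 248) (nat_lit 164)) (XT.nd (nat_lit 78) (nat_lit 0) (nat_lit 0) (XT.lf (nat_lit 0) (nat_lit 4061049322) (nat_lit 152) (nat_lit 21715049944) (nat_lit 76) (nat_lit 12180547571) (nat_lit 10) (nat_lit 5) (nat_lit 12) (nat_lit 5) (nat_lit 11) (nat_lit 4) (nat_lit 369) (nat_lit 248) (nat_lit 163)) (XT.lf (nat_lit 0) (nat_lit 7204684041) (nat_lit 152) (nat_lit 15410448713) (nat_lit 76) (nat_lit 16358068829) (nat_lit 10) (nat_lit 5) (nat_lit 12) (nat_lit 5) (nat_lit 11) (nat_lit 4) (nat_lit 370) (nat_lit 248) (nat_lit 162)))) (XT.nd (nat_lit 78) (nat_lit 76) (nat_lit 0) (XT.lf (nat_lit 0) (nat_lit 10426655245) (nat_lit 152) (nat_lit 8944582362) (nat_lit 76) (nat_lit 20649506593) (nat_lit 10) (nat_lit 5) (nat_lit 12) (nat_lit 5) (nat_lit 11) (nat_lit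 4) (nat_lit 371) (nat_lit 248) (nat_lit 161)) (XT.nd (nat_lit 78) (nat_lit 76) (nat_lit 0) (XT.lf (nat_lit 0) (nat_lit 13729778248) (nat_lit 152) (nat_lit 2311801105) (nat_lit 76) (nat_lit 25058610662) (nat_lit 10) (nat_lit 5) (nat_lit 12) (nat_lit 5) (nat_lit 11) (nat_lit 4) (nat_lit 372) (nat_lit 248) (nat_lit 160)) (XT.lf (nat_lit 0) (nat_lit 4583123946) (nat_lit 76) (nat_lit 12577871119) (nat_lit 152) (nat_lit 25050165497) (nat_lit 9) (nat_lit 5) (nat_lit 10) (nat_lit 5) (nat_lit 11) (nat_lit 4) (nat_lit 373) (nat_lit 248) (nat_lit 159)))))) (XT.nd (nat_lit 468) (nat_lit 76) (nat_lit 0) (XT.nd (nat_lit 234) (nat_lit 76) (nat_lit 0) (XT.nd (nat_lit 78) (nat_lit 0) (nat_lit 0) (XT.lf (nat_lit 0) (nat_lit 11706271085) (nat_lit 76) (nat_lit 8997354732) (nat_lit 152) (nat_lit 22651591112) (nat_lit 9) (nat_lit 5) (nat_lit 10) (nat_lit 5) (nat_lit 11) (nat_lit 4) (nat_lit 374) (nat_lit 248) (nat_lit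 158)) (XT.nd (nat_lit 78) (nat_lit 0) (nat_lit 0) (XT.lf (nat_lit 0) (nat_lit 19017855046) (nat_lit 76) (nat_lit 5320246245) (nat_lit 152) (nat_lit 20195937431) (nat_lit 9) (nat_lit 5) (nat_lit 10) (nat_lit 5) (nat_lit 11) (nat_lit 4) (nat_lit 375) (nat_lit 248) (nat_lit 157)) (XT.lf (nat_lit 0) (nat_lit 26524264590) (nat_lit 76) (nat_lit 1543332650) (nat_lit 152) (nat_lit 17681058737) (nat_lit 9) (nat_lit 5) (nat_lit 10) (nat_lit 5) (nat_lit 11) (nat_lit 4) (nat_lit 376) (nat_lit 248) (nat_lit 156)))) (XT.nd (nat_lit 78) (nat_lit 76) (nat_lit 0) (XT.lf (nat_lit 0) (nat_lit 31917834108) (nat_lit 152) (nat_lit 12790532952) (nat_lit 0) (nat_lit 2291089102) (nat_lit 9) (nat_lit 5) (nat_lit 11) (nat_lit 4) (nat_lit 9) (nat_lit 4) (nat_lit 377) (nat_lit 248) (nat_lit 155)) (XT.nd (nat_lit 78) (nat_lit 76) (nat_lit 0) (XT.lf (nat_lit 0) (nat_lit 35885554051) (nat_lit 152) (nat_lit 6202364427) (nat_lit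 0) (nat_lit 6199812394) (nat_lit 9) (nat_lit 5) (nat_lit 11) (nat_lit 4) (nat_lit 9) (nat_lit 4) (nat_lit 378) (nat_lit 248) (nat_lit 154)) (XT.lf (nat_lit 0) (nat_lit 571865451) (nat_lit 76) (nat_lit 39393020221) (nat_lit 76) (nat_lit 9650000262) (nat_lit 8) (nat_lit 4) (nat_lit 9) (nat_lit 5) (nat_lit 9) (nat_lit 4) (nat_lit 379) (nat_lit 248) (nat_lit 153))))) (XT.nd (nat_lit 234) (nat_lit 76) (nat_lit 0) (XT.nd (nat_lit 78) (nat_lit 0) (nat_lit 0) (XT.lf (nat_lit 0) (nat_lit 7653944729) (nat_lit 76) (nat_lit 36562526942) (nat_lit 76) (nat_lit 6763896981) (nat_lit 8) (nat_lit 4) (nat_lit 9) (nat_lit 5) (nat_lit 9) (nat_lit 4) (nat_lit 380) (nat_lit 248) (nat_lit 152)) (XT.nd (nat_lit 78) (nat_lit 0) (nat_lit 0) (XT.lf (nat_lit 0) (nat_lit 14926622418) (nat_lit 76) (nat_lit 33656597113) (nat_lit 76) (nat_lit 3803976859) (nat_lit 8) (nat_lit 4) (nat_lit 9) (nat_lit 5) (nat_lit 9) (nat_lit 4)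 (nat_lit 381) (nat_lit 248) (nat_lit 151)) (XT.lf (nat_lit 0) (nat_lit 22396253284) (nat_lit 76) (nat_lit 30672691573) (nat_lit 76) (nat_lit 767653558) (nat_lit 8) (nat_lit 4) (nat_lit 9) (nat_lit 5) (nat_lit 9) (nat_lit 4) (nat_lit 382) (nat_lit 248) (nat_lit 150)))) (XT.nd (nat_lit 78) (nat_lit 0) (nat_lit 0) (XT.lf (nat_lit 0) (nat_lit 2301913427) (nat_lit 152) (nat_lit 25283044786) (nat_lit 76) (nat_lit 27744205949) (nat_lit 7) (nat_lit 5) (nat_lit 9) (nat_lit 5) (nat_lit 8) (nat_lit 4) (nat_lit 383) (nat_lit 248) (nat_lit 149)) (XT.nd (nat_lit 78) (nat_lit 0) (nat_lit 0) (XT.lf (nat_lit 0) (nat_lit 5436683388) (nat_lit 152) (nat_lit 18968870532) (nat_lit 76) (nat_lit 32461076562) (nat_lit 7) (nat_lit 5) (nat_lit 9) (nat_lit 5) (nat_lit 8) (nat_lit 4) (nat_lit 384) (nat_lit 248) (nat_lit 148)) (XT.lf (nat_lit 0) (nat_lit 8654375129) (nat_lit 152) (nat_lit 12484925974) (nat_lit 76) (nat_lit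 37311261063) (nat_lit 7) (nat_lit 5) (nat_lit 9) (nat_lit 5) (nat_lit 8) (nat_lit 4) (nat_lit 385) (nat_lit 248) (nat_lit 147))))))) (XT.nd (nat_lit 936) (nat_lit 0) (nat_lit 0) (XT.nd (nat_lit 468) (nat_lit 76) (nat_lit 0) (XT.nd (nat_lit 234) (nat_lit 0) (nat_lit 0) (XT.nd (nat_lit 78) (nat_lit 76) (nat_lit 0) (XT.lf (nat_lit 0) (nat_lit 11957800225) (nat_lit 152) (nat_lit 5825545530) (nat_lit 76) (nat_lit 42298997478) (nat_lit 7) (nat_lit 5) (nat_lit 9) (nat_lit 5) (nat_lit 8) (nat_lit 4) (nat_lit 386) (nat_lit 248) (nat_lit 146)) (XT.nd (nat_lit 78) (nat_lit 0) (nat_lit 0) (XT.lf (nat_lit 0) (nat_lit 1035291951) (nat_lit 76) (nat_lit 14324505073) (nat_lit 152) (nat_lit 46403303930) (nat_lit 6) (nat_lit 5) (nat_lit 7) (nat_lit 5) (nat_lit 8) (nat_lit 4) (nat_lit 387) (nat_lit 248) (nat_lit 145)) (XT.lf (nat_lit 0) (nat_lit 8203027513) (nat_lit 76) (nat_lit 10709298876) (nat_lit 152) (nat_lit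 44580507917) (nat_lit 6) (nat_lit 5) (nat_lit 7) (nat_lit 5) (nat_lit 8) (nat_lit 4) (nat_lit 388) (nat_lit 248) (nat_lit 144)))) (XT.nd (nat_lit 78) (nat_lit 0) (nat_lit 0) (XT.lf (nat_lit 0) (nat_lit 15567984445) (nat_lit 76) (nat_lit 6993394835) (nat_lit 152) (nat_lit 42713388822) (nat_lit 6) (nat_lit 5) (nat_lit 7) (nat_lit 5) (nat_lit 8) (nat_lit 4) (nat_lit 389) (nat_lit 248) (nat_lit 143)) (XT.nd (nat_lit 78) (nat_lit 0) (nat_lit 0) (XT.lf (nat_lit 0) (nat_lit 23136598147) (nat_lit 76) (nat_lit 3173546042) (nat_lit 152) (nat_lit 40800315182) (nat_lit 6) (nat_lit 5) (nat_lit 7) (nat_lit 5) (nat_lit 8) (nat_lit 4) (nat_lit 390) (nat_lit 248) (nat_lit 142)) (XT.lf (nat_lit 0) (nat_lit 30169140660) (nat_lit 152) (nat_lit 38093274067) (nat_lit 0) (nat_lit 738880071) (nat_lit 6) (nat_lit 5) (nat_lit 8) (nat_lit 4) (nat_lit 6) (nat_lit 4) (nat_lit 391) (nat_lit 248) (nat_lit 141))))) (XT.nd (nat_lit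 234) (nat_lit 76) (nat_lit 0) (XT.nd (nat_lit 78) (nat_lit 0) (nat_lit 0) (XT.lf (nat_lit 0) (nat_lit 34166060695) (nat_lit 152) (nat_lit 32084203873) (nat_lit 0) (nat_lit 4697932400) (nat_lit 6) (nat_lit 5) (nat_lit 8) (nat_lit 4) (nat_lit 6) (nat_lit 4) (nat_lit 392) (nat_lit 248) (nat_lit 140)) (XT.nd (nat_lit 78) (nat_lit 0) (nat_lit 0) (XT.lf (nat_lit 0) (nat_lit 38273890681) (nat_lit 152) (nat_lit 25910893932) (nat_lit 0) (nat_lit 8768997624) (nat_lit 6) (nat_lit 5) (nat_lit 8) (nat_lit 4) (nat_lit 6) (nat_lit 4) (nat_lit 393) (nat_lit 248) (nat_lit 139)) (XT.lf (nat_lit 0) (nat_lit 42496219986) (nat_lit 152) (nat_lit 19567950091) (nat_lit 0) (nat_lit 12955632985) (nat_lit 6) (nat_lit 5) (nat_lit 8) (nat_lit 4) (nat_lit 6) (nat_lit 4) (nat_lit 394) (nat_lit 248) (nat_lit 138)))) (XT.nd (nat_lit 78) (nat_lit 76) (nat_lit 0) (XT.lf (nat_lit 0) (nat_lit 46836738024) (nat_lit 152) (nat_lit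 13049829970) (nat_lit 0) (nat_lit 17261496707) (nat_lit 6) (nat_lit 5) (nat_lit 8) (nat_lit 4) (nat_lit 6) (nat_lit 4) (nat_lit 395) (nat_lit 248) (nat_lit 137)) (XT.nd (nat_lit 78) (nat_lit 76) (nat_lit 0) (XT.lf (nat_lit 0) (nat_lit 51299237479) (nat_lit 152) (nat_lit 6350838125) (nat_lit 0) (nat_lit 21690351197) (nat_lit 6) (nat_lit 5) (nat_lit 8) (nat_lit 4) (nat_lit 6) (nat_lit 4) (nat_lit 396) (nat_lit 248) (nat_lit 136)) (XT.lf (nat_lit 0) (nat_lit 545524070) (nat_lit 76) (nat_lit 55347337464) (nat_lit 76) (nat_lit 25705786167) (nat_lit 5) (nat_lit 4) (nat_lit 6) (nat_lit 5) (nat_lit 6) (nat_lit 4) (nat_lit 397) (nat_lit 248) (nat_lit 135)))))) (XT.nd (nat_lit 31746) (nat_lit 0) (nat_lit 10184) (XT.nd (nat_lit 312) (nat_lit 0) (nat_lit 0) (XT.nd (nat_lit 78) (nat_lit 0) (nat_lit 0) (XT.lf (nat_lit 0) (nat_lit 7764858196) (nat_lit 76) (nat_lit 52915670092) (nat_lit 76) (nat_lit 23242405188)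 (nat_lit 5) (nat_lit 4) (nat_lit 6) (nat_lit 5) (nat_lit 6) (nat_lit 4) (nat_lit 398) (nat_lit 248) (nat_lit 134)) (XT.nd (nat_lit 78) (nat_lit 0) (nat_lit 0) (XT.lf (nat_lit 0) (nat_lit 15187078277) (nat_lit 76) (nat_lit 50417079743) (nat_lit 76) (nat_lit 20713024929) (nat_lit 5) (nat_lit 4) (nat_lit 6) (nat_lit 5) (nat_lit 6) (nat_lit 4) (nat_lit 399) (nat_lit 248) (nat_lit 133)) (XT.lf (nat_lit 0) (nat_lit 22818669748) (nat_lit 76) (nat_lit 47849383182) (nat_lit 76) (nat_lit 18115435252) (nat_lit 5) (nat_lit 4) (nat_lit 6) (nat_lit 5) (nat_lit 6) (nat_lit 4) (nat_lit 400) (nat_lit 248) (nat_lit 132)))) (XT.nd (nat_lit 31278) (nat_lit 0) (nat_lit 13756) (XT.lf (nat_lit 0) (nat_lit 38736829155) (nat_lit 76) (nat_lit 42497634609) (nat_lit 76) (nat_lit 12706487107) (nat_lit 5) (nat_lit 4) (nat_lit 6) (nat_lit 5) (nat_lit 6) (nat_lit 4) (nat_lit 402) (nat_lit 248) (nat_lit 130)) (XT.nd (nat_lit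 78) (nat_lit 988) (nat_lit 0) (XT.lf (nat_lit 0) (nat_lit 2553731905) (nat_lit 836) (nat_lit 477387941) (nat_lit 836) (nat_lit 477387941) (nat_lit 199) (nat_lit 4) (nat_lit 210) (nat_lit 5) (nat_lit 210) (nat_lit 4) (nat_lit 282) (nat_lit 249) (nat_lit 249)) (XT.lf (nat_lit 0) (nat_lit 2032606296) (nat_lit 988) (nat_lit 4672420181) (nat_lit 0) (nat_lit 367531480) (nat_lit 186) (nat_lit 5) (nat_lit 199) (nat_lit 4) (nat_lit 186) (nat_lit 4) (nat_lit 283) (nat_lit 249) (nat_lit 248))))) (XT.nd (nat_lit 234) (nat_lit 1444) (nat_lit 0) (XT.nd (nat_lit 78) (nat_lit 2128) (nat_lit 0) (XT.lf (nat_lit 0) (nat_lit 5027743847) (nat_lit 988) (nat_lit 357796408) (nat_lit 0) (nat_lit 1746091541) (nat_lit 186) (nat_lit 5) (nat_lit 199) (nat_lit 4) (nat_lit 186) (nat_lit 4) (nat_lit 284) (nat_lit 249) (nat_lit 247)) (XT.nd (nat_lit 78) (nat_lit 1064) (nat_lit 0) (XT.lf (nat_lit 0) (nat_lit 851843480) (nat_lit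 1064) (nat_lit 3121902749) (nat_lit 76) (nat_lit 3220233023) (nat_lit 172) (nat_lit 5) (nat_lit 186) (nat_lit 5) (nat_lit 173) (nat_lit 4) (nat_lit 285) (nat_lit 249) (nat_lit 246)) (XT.lf (nat_lit 0) (nat_lit 1302253344) (nat_lit 1064) (nat_lit 2479607586) (nat_lit 1140) (nat_lit 3478119996) (nat_lit 158) (nat_lit 5) (nat_lit 172) (nat_lit 5) (nat_lit 173) (nat_lit 4) (nat_lit 286) (nat_lit 249) (nat_lit 245)))) (XT.nd (nat_lit 78) (nat_lit 1444) (nat_lit 0) (XT.lf (nat_lit 0) (nat_lit 5837593662) (nat_lit 1064) (nat_lit 907192256) (nat_lit 1140) (nat_lit 585065079) (nat_lit 158) (nat_lit 5) (nat_lit 172) (nat_lit 5) (nat_lit 173) (nat_lit 4) (nat_lit 287) (nat_lit 249) (nat_lit 244)) (XT.nd (nat_lit 78) (nat_lit 532) (nat_lit 0) (XT.lf (nat_lit 0) (nat_lit 2299765580) (nat_lit 912) (nat_lit 4351504914) (nat_lit 76) (nat_lit 751529489) (nat_lit 146) (nat_lit 5) (nat_lit 158) (nat_lit 5) (nat_lit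 147) (nat_lit 4) (nat_lit 288) (nat_lit 249) (nat_lit 243)) (XT.lf (nat_lit 0) (nat_lit 186123830) (nat_lit 532) (nat_lit 5015852067) (nat_lit 608) (nat_lit 2277728256) (nat_lit 139) (nat_lit 5) (nat_lit 146) (nat_lit 5) (nat_lit 147) (nat_lit 4) (nat_lit 289) (nat_lit 249) (nat_lit 242))))))))
noncomputable def xc79 : XT := (XT.nd (nat_lit 1794) (nat_lit 2660) (nat_lit 0) (XT.nd (nat_lit 858) (nat_lit 2660) (nat_lit 0) (XT.nd (nat_lit 390) (nat_lit 1444) (nat_lit 0) (XT.nd (nat_lit 156) (nat_lit 1064) (nat_lit 0) (XT.nd (nat_lit 78) (nat_lit 532) (nat_lit 0) (XT.lf (nat_lit 0) (nat_lit 581564032) (nat_lit 608) (nat_lit 2702872710) (nat_lit 76) (nat_lit 4275655151) (nat_lit 138) (nat_lit 5) (nat_lit 146) (nat_lit 5) (nat_lit 139) (nat_lit 5) (nat_lit 290) (nat_lit 249) (nat_lit 241)) (XT.lf (nat_lit 0) (nat_lit 1955884249) (nat_lit 532) (nat_lit 1463373271) (nat_lit 608) (nat_lit 4225004905)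 (nat_lit 131) (nat_lit 5) (nat_lit 138) (nat_lit 5) (nat_lit 139) (nat_lit 5) (nat_lit 291) (nat_lit 249) (nat_lit 240))) (XT.nd (nat_lit 78) (nat_lit 1064) (nat_lit 0) (XT.lf (nat_lit 0) (nat_lit 6294686880) (nat_lit 608) (nat_lit 1011519530) (nat_lit 76) (nat_lit 426367482) (nat_lit 131) (nat_lit 5) (nat_lit 139) (nat_lit 5) (nat_lit 132) (nat_lit 4) (nat_lit 292) (nat_lit 249) (nat_lit 239)) (XT.nd (nat_lit 78) (nat_lit 532) (nat_lit 0) (XT.lf (nat_lit 0) (nat_lit 1378650115) (nat_lit 532) (nat_lit 4057509741) (nat_lit 76) (nat_lit 2387931509) (nat_lit 124) (nat_lit 5) (nat_lit 131) (nat_lit 5) (nat_lit 125) (nat_lit 5) (nat_lit 293) (nat_lit 249) (nat_lit 238)) (XT.lf (nat_lit 0) (nat_lit 704840657) (nat_lit 532) (nat_lit 3486914186) (nat_lit 608) (nat_lit 3728120787) (nat_lit 117) (nat_lit 5) (nat_lit 124) (nat_lit 5) (nat_lit 125) (nat_lit 5) (nat_lit 294) (nat_lit 249) (nat_lit 237)))))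 (XT.nd (nat_lit 234) (nat_lit 912) (nat_lit 0) (XT.nd (nat_lit 78) (nat_lit 532) (nat_lit 0) (XT.lf (nat_lit 0) (nat_lit 5608783979) (nat_lit 532) (nat_lit 1446727618) (nat_lit 608) (nat_lit 964206397) (nat_lit 117) (nat_lit 5) (nat_lit 124) (nat_lit 5) (nat_lit 125) (nat_lit 5) (nat_lit 295) (nat_lit 249) (nat_lit 236)) (XT.nd (nat_lit 78) (nat_lit 0) (nat_lit 0) (XT.lf (nat_lit 0) (nat_lit 1802957317) (nat_lit 532) (nat_lit 5646222701) (nat_lit 76) (nat_lit 674283089) (nat_lit 110) (nat_lit 5) (nat_lit 117) (nat_lit 5) (nat_lit 111) (nat_lit 5) (nat_lit 296) (nat_lit 249) (nat_lit 235)) (XT.lf (nat_lit 0) (nat_lit 4600486535) (nat_lit 532) (nat_lit 777233700) (nat_lit 76) (nat_lit 2853469749) (nat_lit 110) (nat_lit 5) (nat_lit 117) (nat_lit 5) (nat_lit 111) (nat_lit 5) (nat_lit 297) (nat_lit 249) (nat_lit 234)))) (XT.nd (nat_lit 78) (nat_lit 456) (nat_lit 0) (XT.lf (nat_lit 0) (nat_lit 4237985801)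 (nat_lit 456) (nat_lit 3214615683) (nat_lit 532) (nat_lit 890580508) (nat_lit 104) (nat_lit 5) (nat_lit 110) (nat_lit 5) (nat_lit 111) (nat_lit 5) (nat_lit 298) (nat_lit 249) (nat_lit 233)) (XT.nd (nat_lit 78) (nat_lit 0) (nat_lit 0) (XT.lf (nat_lit 0) (nat_lit 876493984) (nat_lit 380) (nat_lit 964258514) (nat_lit 456) (nat_lit 6618967471) (nat_lit 98) (nat_lit 5) (nat_lit 103) (nat_lit 5) (nat_lit 104) (nat_lit 5) (nat_lit 299) (nat_lit 249) (nat_lit 232)) (XT.lf (nat_lit 0) (nat_lit 4622453660) (nat_lit 456) (nat_lit 2593463149) (nat_lit 76) (nat_lit 1364123033) (nat_lit 98) (nat_lit 5) (nat_lit 104) (nat_lit 5) (nat_lit 99) (nat_lit 5) (nat_lit 300) (nat_lit 249) (nat_lit 231)))))) (XT.nd (nat_lit 468) (nat_lit 1064) (nat_lit 0) (XT.nd (nat_lit 234) (nat_lit 760) (nat_lit 0) (XT.nd (nat_lit 78) (nat_lit 456) (nat_lit 0) (XT.lf (nat_lit 0) (nat_lit 2503253856) (nat_lit 380) (nat_lit 4951409843)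 (nat_lit 456) (nat_lit 1250429926) (nat_lit 93) (nat_lit 5) (nat_lit 98) (nat_lit 5) (nat_lit 99) (nat_lit 5) (nat_lit 301) (nat_lit 249) (nat_lit 230)) (XT.nd (nat_lit 78) (nat_lit 380) (nat_lit 0) (XT.lf (nat_lit 0) (nat_lit 1468206914) (nat_lit 456) (nat_lit 1124800429) (nat_lit 76) (nat_lit 6241768106) (nat_lit 92) (nat_lit 5) (nat_lit 98) (nat_lit 5) (nat_lit 93) (nat_lit 5) (nat_lit 302) (nat_lit 249) (nat_lit 229)) (XT.lf (nat_lit 0) (nat_lit 4091742411) (nat_lit 380) (nat_lit 126616177) (nat_lit 456) (nat_lit 4750489581) (nat_lit 87) (nat_lit 5) (nat_lit 92) (nat_lit 5) (nat_lit 93) (nat_lit 5) (nat_lit 303) (nat_lit 249) (nat_lit 228)))) (XT.nd (nat_lit 78) (nat_lit 380) (nat_lit 0) (XT.lf (nat_lit 0) (nat_lit 282083234) (nat_lit 380) (nat_lit 6743022265) (nat_lit 456) (nat_lit 2082735728) (nat_lit 82) (nat_lit 5) (nat_lit 87) (nat_lit 5) (nat_lit 88) (nat_lit 5) (nat_lit 304) (nat_lit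 249) (nat_lit 227)) (XT.nd (nat_lit 78) (nat_lit 304) (nat_lit 0) (XT.lf (nat_lit 0) (nat_lit 640107560) (nat_lit 456) (nat_lit 3643549022) (nat_lit 76) (nat_lit 4967628613) (nat_lit 81) (nat_lit 5) (nat_lit 87) (nat_lit 5) (nat_lit 82) (nat_lit 5) (nat_lit 305) (nat_lit 249) (nat_lit 226)) (XT.lf (nat_lit 0) (nat_lit 1625702071) (nat_lit 304) (nat_lit 1731577972) (nat_lit 380) (nat_lit 6042609278) (nat_lit 77) (nat_lit 5) (nat_lit 81) (nat_lit 5) (nat_lit 82) (nat_lit 5) (nat_lit 306) (nat_lit 249) (nat_lit 225))))) (XT.nd (nat_lit 234) (nat_lit 684) (nat_lit 0) (XT.nd (nat_lit 78) (nat_lit 380) (nat_lit 0) (XT.lf (nat_lit 0) (nat_lit 6141469438) (nat_lit 380) (nat_lit 2513593063) (nat_lit 76) (nat_lit 898431414) (nat_lit 77) (nat_lit 5) (nat_lit 82) (nat_lit 5) (nat_lit 78) (nat_lit 5) (nat_lit 307) (nat_lit 249) (nat_lit 224)) (XT.nd (nat_lit 78) (nat_lit 76) (nat_lit 0) (XT.lf (nat_lit 0)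 (nat_lit 2865456246) (nat_lit 304) (nat_lit 6129894436) (nat_lit 380) (nat_lit 716875248) (nat_lit 73) (nat_lit 5) (nat_lit 77) (nat_lit 5) (nat_lit 78) (nat_lit 5) (nat_lit 308) (nat_lit 249) (nat_lit 223)) (XT.lf (nat_lit 0) (nat_lit 1986350093) (nat_lit 380) (nat_lit 1516225034) (nat_lit 76) (nat_lit 6373627173) (nat_lit 72) (nat_lit 5) (nat_lit 77) (nat_lit 5) (nat_lit 73) (nat_lit 5) (nat_lit 309) (nat_lit 249) (nat_lit 222)))) (XT.nd (nat_lit 78) (nat_lit 380) (nat_lit 0) (XT.lf (nat_lit 0) (nat_lit 3968237924) (nat_lit 304) (nat_lit 769635945) (nat_lit 380) (nat_lit 5307658275) (nat_lit 68) (nat_lit 5) (nat_lit 72) (nat_lit 5) (nat_lit 73) (nat_lit 5) (nat_lit 310) (nat_lit 249) (nat_lit 221)) (XT.nd (nat_lit 78) (nat_lit 380) (nat_lit 0) (XT.lf (nat_lit 0) (nat_lit 7551259557) (nat_lit 380) (nat_lit 668134441) (nat_lit 76) (nat_lit 2001261040) (nat_lit 68) (nat_lit 5) (nat_lit 73) (nat_lit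 5) (nat_lit 69) (nat_lit 5) (nat_lit 311) (nat_lit 249) (nat_lit 220)) (XT.lf (nat_lit 0) (nat_lit 47698182) (nat_lit 380) (nat_lit 5484853721) (nat_lit 76) (nat_lit 4868534593) (nat_lit 63) (nat_lit 5) (nat_lit 68) (nat_lit 5) (nat_lit 64) (nat_lit 5) (nat_lit 312) (nat_lit 249) (nat_lit 219))))))) (XT.nd (nat_lit 936) (nat_lit 1064) (nat_lit 0) (XT.nd (nat_lit 468) (nat_lit 760) (nat_lit 0) (XT.nd (nat_lit 234) (nat_lit 304) (nat_lit 0) (XT.nd (nat_lit 78) (nat_lit 532) (nat_lit 0) (XT.lf (nat_lit 0) (nat_lit 2745536246) (nat_lit 380) (nat_lit 6729883) (nat_lit 76) (nat_lit 7835370146) (nat_lit 63) (nat_lit 5) (nat_lit 68) (nat_lit 5) (nat_lit 64) (nat_lit 5) (nat_lit 313) (nat_lit 249) (nat_lit 218)) (XT.nd (nat_lit 78) (nat_lit 304) (nat_lit 0) (XT.lf (nat_lit 0) (nat_lit 5527896995) (nat_lit 304) (nat_lit 5107904494) (nat_lit 76) (nat_lit 143955742) (nat_lit 60) (nat_lit 5) (nat_lit 64)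 (nat_lit 5) (nat_lit 61) (nat_lit 5) (nat_lit 314) (nat_lit 249) (nat_lit 217)) (XT.lf (nat_lit 0) (nat_lit 450994845) (nat_lit 304) (nat_lit 7922656725) (nat_lit 380) (nat_lit 2604672468) (nat_lit 56) (nat_lit 5) (nat_lit 60) (nat_lit 5) (nat_lit 61) (nat_lit 5) (nat_lit 315) (nat_lit 249) (nat_lit 216)))) (XT.nd (nat_lit 78) (nat_lit 228) (nat_lit 0) (XT.lf (nat_lit 0) (nat_lit 120134642) (nat_lit 380) (nat_lit 4975837338) (nat_lit 76) (nat_lit 6086898542) (nat_lit 55) (nat_lit 5) (nat_lit 60) (nat_lit 5) (nat_lit 56) (nat_lit 5) (nat_lit 316) (nat_lit 249) (nat_lit 215)) (XT.nd (nat_lit 78) (nat_lit 0) (nat_lit 0) (XT.lf (nat_lit 0) (nat_lit 657173761) (nat_lit 228) (nat_lit 2173470753) (nat_lit 304) (nat_lit 8563519057) (nat_lit 52) (nat_lit 5) (nat_lit 55) (nat_lit 5) (nat_lit 56) (nat_lit 5) (nat_lit 317) (nat_lit 249) (nat_lit 214)) (XT.lf (nat_lit 0) (nat_lit 5631807041) (nat_lit 304)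 (nat_lit 5130342978) (nat_lit 76) (nat_lit 849436271) (nat_lit 52) (nat_lit 5) (nat_lit 56) (nat_lit 5) (nat_lit 53) (nat_lit 5) (nat_lit 318) (nat_lit 249) (nat_lit 213))))) (XT.nd (nat_lit 234) (nat_lit 228) (nat_lit 0) (XT.nd (nat_lit 78) (nat_lit 304) (nat_lit 0) (XT.lf (nat_lit 0) (nat_lit 563405463) (nat_lit 228) (nat_lit 7932525306) (nat_lit 304) (nat_lit 3340302067) (nat_lit 49) (nat_lit 5) (nat_lit 52) (nat_lit 5) (nat_lit 53) (nat_lit 5) (nat_lit 319) (nat_lit 249) (nat_lit 212)) (XT.nd (nat_lit 78) (nat_lit 304) (nat_lit 0) (XT.lf (nat_lit 0) (nat_lit 6463252895) (nat_lit 228) (nat_lit 4987249322) (nat_lit 304) (nat_lit 617047766) (nat_lit 49) (nat_lit 5) (nat_lit 52) (nat_lit 5) (nat_lit 53) (nat_lit 5) (nat_lit 320) (nat_lit 249) (nat_lit 211)) (XT.lf (nat_lit 0) (nat_lit 147299867) (nat_lit 228) (nat_lit 1952902884) (nat_lit 304) (nat_lit 10206386259) (nat_lit 45) (nat_lit 5) (nat_lit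 48) (nat_lit 5) (nat_lit 49) (nat_lit 5) (nat_lit 321) (nat_lit 249) (nat_lit 210)))) (XT.nd (nat_lit 78) (nat_lit 228) (nat_lit 0) (XT.lf (nat_lit 0) (nat_lit 4909049901) (nat_lit 304) (nat_lit 6452089061) (nat_lit 76) (nat_lit 1190863776) (nat_lit 45) (nat_lit 5) (nat_lit 49) (nat_lit 5) (nat_lit 46) (nat_lit 5) (nat_lit 322) (nat_lit 249) (nat_lit 209)) (XT.nd (nat_lit 78) (nat_lit 228) (nat_lit 0) (XT.lf (nat_lit 0) (nat_lit 7776894152) (nat_lit 304) (nat_lit 660362738) (nat_lit 76) (nat_lit 4368339501) (nat_lit 45) (nat_lit 5) (nat_lit 49) (nat_lit 5) (nat_lit 46) (nat_lit 5) (nat_lit 323) (nat_lit 249) (nat_lit 208)) (XT.lf (nat_lit 0) (nat_lit 5344003818) (nat_lit 228) (nat_lit 5394834905) (nat_lit 304) (nat_lit 2327774909) (nat_lit 42) (nat_lit 5) (nat_lit 45) (nat_lit 5) (nat_lit 46) (nat_lit 5) (nat_lit 324) (nat_lit 249) (nat_lit 207)))))) (XT.nd (nat_lit 468) (nat_lit 380) (nat_lit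 0) (XT.nd (nat_lit 234) (nat_lit 456) (nat_lit 0) (XT.nd (nat_lit 78) (nat_lit 152) (nat_lit 0) (XT.lf (nat_lit 0) (nat_lit 408908586) (nat_lit 304) (nat_lit 1863319335) (nat_lit 76) (nat_lit 11064249181) (nat_lit 41) (nat_lit 5) (nat_lit 45) (nat_lit 5) (nat_lit 42) (nat_lit 5) (nat_lit 325) (nat_lit 249) (nat_lit 206)) (XT.nd (nat_lit 78) (nat_lit 0) (nat_lit 0) (XT.lf (nat_lit 0) (nat_lit 3188557790) (nat_lit 228) (nat_lit 9457093030) (nat_lit 76) (nat_lit 967917533) (nat_lit 39) (nat_lit 5) (nat_lit 42) (nat_lit 5) (nat_lit 40) (nat_lit 5) (nat_lit 326) (nat_lit 249) (nat_lit 205)) (XT.lf (nat_lit 0) (nat_lit 6051612318) (nat_lit 228) (nat_lit 3590237564) (nat_lit 76) (nat_lit 4257173278) (nat_lit 39) (nat_lit 5) (nat_lit 42) (nat_lit 5) (nat_lit 40) (nat_lit 5) (nat_lit 327) (nat_lit 249) (nat_lit 204)))) (XT.nd (nat_lit 78) (nat_lit 228) (nat_lit 0) (XT.lf (nat_lit 0) (nat_lit 2437858918)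 (nat_lit 228) (nat_lit 6545858389) (nat_lit 304) (nat_lit 5209879339) (nat_lit 36) (nat_lit 5) (nat_lit 39) (nat_lit 5) (nat_lit 40) (nat_lit 5) (nat_lit 328) (nat_lit 249) (nat_lit 203)) (XT.nd (nat_lit 78) (nat_lit 228) (nat_lit 0) (XT.lf (nat_lit 0) (nat_lit 8658669726) (nat_lit 228) (nat_lit 3341674444) (nat_lit 304) (nat_lit 2496814751) (nat_lit 36) (nat_lit 5) (nat_lit 39) (nat_lit 5) (nat_lit 40) (nat_lit 5) (nat_lit 329) (nat_lit 249) (nat_lit 202)) (XT.lf (nat_lit 0) (nat_lit 196501938) (nat_lit 152) (nat_lit 58253614) (nat_lit 228) (nat_lit 14556144598) (nat_lit 33) (nat_lit 5) (nat_lit 35) (nat_lit 5) (nat_lit 36) (nat_lit 5) (nat_lit 330) (nat_lit 249) (nat_lit 201))))) (XT.nd (nat_lit 234) (nat_lit 228) (nat_lit 0) (XT.nd (nat_lit 78) (nat_lit 152) (nat_lit 0) (XT.lf (nat_lit 0) (nat_lit 3091560323) (nat_lit 228) (nat_lit 8718452792) (nat_lit 76) (nat_lit 3321756994) (nat_lit 33)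 (nat_lit 5) (nat_lit 36) (nat_lit 5) (nat_lit 34) (nat_lit 5) (nat_lit 331) (nat_lit 249) (nat_lit 200)) (XT.nd (nat_lit 78) (nat_lit 152) (nat_lit 0) (XT.lf (nat_lit 0) (nat_lit 5976551524) (nat_lit 228) (nat_lit 2705565178) (nat_lit 76) (nat_lit 6781299952) (nat_lit 33) (nat_lit 5) (nat_lit 36) (nat_lit 5) (nat_lit 34) (nat_lit 5) (nat_lit 332) (nat_lit 249) (nat_lit 199)) (XT.lf (nat_lit 0) (nat_lit 3498343867) (nat_lit 152) (nat_lit 5446974406) (nat_lit 228) (nat_lit 6859819254) (nat_lit 31) (nat_lit 5) (nat_lit 33) (nat_lit 5) (nat_lit 34) (nat_lit 5) (nat_lit 333) (nat_lit 249) (nat_lit 198)))) (XT.nd (nat_lit 78) (nat_lit 228) (nat_lit 0) (XT.lf (nat_lit 0) (nat_lit 9886766135) (nat_lit 152) (nat_lit 2107812100) (nat_lit 228) (nat_lit 4162829375) (nat_lit 31) (nat_lit 5) (nat_lit 33) (nat_lit 5) (nat_lit 34) (nat_lit 5) (nat_lit 334) (nat_lit 249) (nat_lit 197)) (XT.nd (nat_lit 78) (nat_lit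 228) (nat_lit 0) (XT.lf (nat_lit 0) (nat_lit 15113072481) (nat_lit 228) (nat_lit 122494595) (nat_lit 76) (nat_lit 1285385338) (nat_lit 31) (nat_lit 5) (nat_lit 34) (nat_lit 5) (nat_lit 32) (nat_lit 4) (nat_lit 335) (nat_lit 249) (nat_lit 196)) (XT.lf (nat_lit 0) (nat_lit 1449236920) (nat_lit 228) (nat_lit 10651573779) (nat_lit 76) (nat_lit 4792795082) (nat_lit 28) (nat_lit 5) (nat_lit 31) (nat_lit 5) (nat_lit 29) (nat_lit 5) (nat_lit 336) (nat_lit 249) (nat_lit 195))))))))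
noncomputable def xc80 : XT := (XT.nd (nat_lit 1794) (nat_lit 380) (nat_lit 0) (XT.nd (nat_lit 858) (nat_lit 532) (nat_lit 0) (XT.nd (nat_lit 390) (nat_lit 304) (nat_lit 0) (XT.nd (nat_lit 156) (nat_lit 152) (nat_lit 0) (XT.nd (nat_lit 78) (nat_lit 152) (nat_lit 0) (XT.lf (nat_lit 0) (nat_lit 4331099436) (nat_lit 228) (nat_lit 4546174041) (nat_lit 76) (nat_lit 8400763191) (nat_lit 28) (nat_lit 5) (nat_lit 31) (nat_lit 5) (nat_lit 29) (nat_lit 5) (nat_lit 337) (nat_lit 249) (nat_lit 194)) (XT.lf (nat_lit 0) (nat_lit 1722775964) (nat_lit 152) (nat_lit 5560270148) (nat_lit 228) (nat_lit 10391480449) (nat_lit 26) (nat_lit 5) (nat_lit 28) (nat_lit 5) (nat_lit 29) (nat_lit 5) (nat_lit 338) (nat_lit 249) (nat_lit 193))) (XT.nd (nat_lit 78) (nat_lit 152) (nat_lit 0) (XT.lf (nat_lit 0) (nat_lit 8220279148) (nat_lit 152) (nat_lit 2116699925) (nat_lit 228) (nat_lit 7745563152) (nat_lit 26) (nat_lit 5) (nat_lit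 28) (nat_lit 5) (nat_lit 29) (nat_lit 5) (nat_lit 339) (nat_lit 249) (nat_lit 192)) (XT.nd (nat_lit 78) (nat_lit 152) (nat_lit 0) (XT.lf (nat_lit 0) (nat_lit 13464555431) (nat_lit 228) (nat_lit 3655801086) (nat_lit 76) (nat_lit 1383014003) (nat_lit 26) (nat_lit 5) (nat_lit 29) (nat_lit 5) (nat_lit 27) (nat_lit 4) (nat_lit 340) (nat_lit 249) (nat_lit 191)) (XT.lf (nat_lit 0) (nat_lit 2718496042) (nat_lit 152) (nat_lit 13983753928) (nat_lit 228) (nat_lit 2234116932) (nat_lit 24) (nat_lit 5) (nat_lit 26) (nat_lit 5) (nat_lit 27) (nat_lit 4) (nat_lit 341) (nat_lit 249) (nat_lit 190))))) (XT.nd (nat_lit 234) (nat_lit 76) (nat_lit 0) (XT.nd (nat_lit 78) (nat_lit 152) (nat_lit 0) (XT.lf (nat_lit 0) (nat_lit 648515347) (nat_lit 228) (nat_lit 10079538080) (nat_lit 76) (nat_lit 8653943993) (nat_lit 23) (nat_lit 5) (nat_lit 26) (nat_lit 5) (nat_lit 24) (nat_lit 5) (nat_lit 342) (nat_lit 249) (nat_lit 189))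 (XT.nd (nat_lit 78) (nat_lit 152) (nat_lit 0) (XT.lf (nat_lit 0) (nat_lit 3542904835) (nat_lit 228) (nat_lit 3828297347) (nat_lit 76) (nat_lit 12470054872) (nat_lit 23) (nat_lit 5) (nat_lit 26) (nat_lit 5) (nat_lit 24) (nat_lit 5) (nat_lit 343) (nat_lit 249) (nat_lit 188)) (XT.lf (nat_lit 0) (nat_lit 2613793818) (nat_lit 152) (nat_lit 3906507845) (nat_lit 228) (nat_lit 13794135943) (nat_lit 21) (nat_lit 5) (nat_lit 23) (nat_lit 5) (nat_lit 24) (nat_lit 5) (nat_lit 344) (nat_lit 249) (nat_lit 187)))) (XT.nd (nat_lit 78) (nat_lit 76) (nat_lit 0) (XT.lf (nat_lit 0) (nat_lit 9280400303) (nat_lit 152) (nat_lit 316717915) (nat_lit 228) (nat_lit 11204419997) (nat_lit 21) (nat_lit 5) (nat_lit 23) (nat_lit 5) (nat_lit 24) (nat_lit 5) (nat_lit 345) (nat_lit 249) (nat_lit 186)) (XT.nd (nat_lit 78) (nat_lit 76) (nat_lit 0) (XT.lf (nat_lit 0) (nat_lit 12770834461) (nat_lit 228) (nat_lit 5235277606) (nat_lit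 76) (nat_lit 3297028686) (nat_lit 21) (nat_lit 5) (nat_lit 24) (nat_lit 5) (nat_lit 22) (nat_lit 4) (nat_lit 346) (nat_lit 249) (nat_lit 185)) (XT.lf (nat_lit 0) (nat_lit 1214545405) (nat_lit 76) (nat_lit 14812937467) (nat_lit 152) (nat_lit 5792702865) (nat_lit 20) (nat_lit 5) (nat_lit 21) (nat_lit 5) (nat_lit 22) (nat_lit 4) (nat_lit 347) (nat_lit 249) (nat_lit 184)))))) (XT.nd (nat_lit 468) (nat_lit 304) (nat_lit 0) (XT.nd (nat_lit 234) (nat_lit 152) (nat_lit 0) (XT.nd (nat_lit 78) (nat_lit 76) (nat_lit 0) (XT.lf (nat_lit 0) (nat_lit 7920446645) (nat_lit 76) (nat_lit 11487519053) (nat_lit 152) (nat_lit 2944017557) (nat_lit 20) (nat_lit 5) (nat_lit 21) (nat_lit 5) (nat_lit 22) (nat_lit 4) (nat_lit 348) (nat_lit 249) (nat_lit 183)) (XT.nd (nat_lit 78) (nat_lit 76) (nat_lit 0) (XT.lf (nat_lit 0) (nat_lit 14784093349) (nat_lit 76) (nat_lit 8079817159) (nat_lit 152) (nat_lit 36627265) (nat_lit 20)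 (nat_lit 5) (nat_lit 21) (nat_lit 5) (nat_lit 22) (nat_lit 4) (nat_lit 349) (nat_lit 249) (nat_lit 182)) (XT.lf (nat_lit 0) (nat_lit 2874794405) (nat_lit 152) (nat_lit 1683029988) (nat_lit 76) (nat_lit 18907658685) (nat_lit 19) (nat_lit 5) (nat_lit 21) (nat_lit 5) (nat_lit 20) (nat_lit 5) (nat_lit 350) (nat_lit 249) (nat_lit 181)))) (XT.nd (nat_lit 78) (nat_lit 0) (nat_lit 0) (XT.lf (nat_lit 0) (nat_lit 4999122142) (nat_lit 152) (nat_lit 897027463) (nat_lit 228) (nat_lit 18150538867) (nat_lit 17) (nat_lit 5) (nat_lit 19) (nat_lit 5) (nat_lit 20) (nat_lit 5) (nat_lit 351) (nat_lit 249) (nat_lit 180)) (XT.nd (nat_lit 78) (nat_lit 0) (nat_lit 0) (XT.lf (nat_lit 0) (nat_lit 9028369862) (nat_lit 228) (nat_lit 12798012267) (nat_lit 76) (nat_lit 2818362932) (nat_lit 17) (nat_lit 5) (nat_lit 20) (nat_lit 5) (nat_lit 18) (nat_lit 4) (nat_lit 352) (nat_lit 249) (nat_lit 179)) (XT.lf (nat_lit 0) (nat_lit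 12239591671) (nat_lit 228) (nat_lit 6410280608) (nat_lit 76) (nat_lit 6611341154) (nat_lit 17) (nat_lit 5) (nat_lit 20) (nat_lit 5) (nat_lit 18) (nat_lit 4) (nat_lit 353) (nat_lit 249) (nat_lit 178))))) (XT.nd (nat_lit 234) (nat_lit 228) (nat_lit 0) (XT.nd (nat_lit 78) (nat_lit 0) (nat_lit 0) (XT.lf (nat_lit 0) (nat_lit 132416866) (nat_lit 76) (nat_lit 15392854182) (nat_lit 152) (nat_lit 10371581695) (nat_lit 16) (nat_lit 5) (nat_lit 17) (nat_lit 5) (nat_lit 18) (nat_lit 4) (nat_lit 354) (nat_lit 249) (nat_lit 177)) (XT.nd (nat_lit 78) (nat_lit 0) (nat_lit 0) (XT.lf (nat_lit 0) (nat_lit 6963934474) (nat_lit 76) (nat_lit 11987466374) (nat_lit 152) (nat_lit 7598923903) (nat_lit 16) (nat_lit 5) (nat_lit 17) (nat_lit 5) (nat_lit 18) (nat_lit 4) (nat_lit 355) (nat_lit 249) (nat_lit 176)) (XT.lf (nat_lit 0) (nat_lit 13962664349) (nat_lit 76) (nat_lit 8495464539) (nat_lit 152) (nat_lit 4765956941) (nat_lit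 16) (nat_lit 5) (nat_lit 17) (nat_lit 5) (nat_lit 18) (nat_lit 4) (nat_lit 356) (nat_lit 249) (nat_lit 175)))) (XT.nd (nat_lit 78) (nat_lit 228) (nat_lit 0) (XT.lf (nat_lit 0) (nat_lit 21134721886) (nat_lit 76) (nat_lit 4913797412) (nat_lit 152) (nat_lit 1870205400) (nat_lit 16) (nat_lit 5) (nat_lit 17) (nat_lit 5) (nat_lit 18) (nat_lit 4) (nat_lit 357) (nat_lit 249) (nat_lit 174)) (XT.nd (nat_lit 78) (nat_lit 152) (nat_lit 0) (XT.lf (nat_lit 0) (nat_lit 1069574360) (nat_lit 152) (nat_lit 158960417) (nat_lit 76) (nat_lit 27405998967) (nat_lit 15) (nat_lit 5) (nat_lit 17) (nat_lit 5) (nat_lit 16) (nat_lit 5) (nat_lit 358) (nat_lit 249) (nat_lit 173)) (XT.lf (nat_lit 0) (nat_lit 4129618746) (nat_lit 228) (nat_lit 22652376007) (nat_lit 76) (nat_lit 2587194169) (nat_lit 13) (nat_lit 5) (nat_lit 16) (nat_lit 5) (nat_lit 14) (nat_lit 4) (nat_lit 359) (nat_lit 249) (nat_lit 172))))))) (XT.nd (nat_lit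 858) (nat_lit 152) (nat_lit 0) (XT.nd (nat_lit 390) (nat_lit 152) (nat_lit 0) (XT.nd (nat_lit 156) (nat_lit 76) (nat_lit 0) (XT.nd (nat_lit 78) (nat_lit 0) (nat_lit 0) (XT.lf (nat_lit 0) (nat_lit 7274854828) (nat_lit 228) (nat_lit 16370997744) (nat_lit 76) (nat_lit 6480246153) (nat_lit 13) (nat_lit 5) (nat_lit 16) (nat_lit 5) (nat_lit 14) (nat_lit 4) (nat_lit 360) (nat_lit 249) (nat_lit 171)) (XT.lf (nat_lit 0) (nat_lit 10494647579) (nat_lit 228) (nat_lit 9935256310) (nat_lit 76) (nat_lit 10476422143) (nat_lit 13) (nat_lit 5) (nat_lit 16) (nat_lit 5) (nat_lit 14) (nat_lit 4) (nat_lit 361) (nat_lit 249) (nat_lit 170))) (XT.nd (nat_lit 78) (nat_lit 76) (nat_lit 0) (XT.lf (nat_lit 0) (nat_lit 13791810408) (nat_lit 228) (nat_lit 3339528242) (nat_lit 76) (nat_lit 14579213943) (nat_lit 13) (nat_lit 5) (nat_lit 16) (nat_lit 5) (nat_lit 14) (nat_lit 4) (nat_lit 362) (nat_lit 249) (nat_lit 169)) (XT.nd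 (nat_lit 78) (nat_lit 0) (nat_lit 0) (XT.lf (nat_lit 0) (nat_lit 3490053227) (nat_lit 76) (nat_lit 13712719632) (nat_lit 152) (nat_lit 15335701816) (nat_lit 12) (nat_lit 5) (nat_lit 13) (nat_lit 5) (nat_lit 14) (nat_lit 4) (nat_lit 363) (nat_lit 249) (nat_lit 168)) (XT.lf (nat_lit 0) (nat_lit 10561172168) (nat_lit 76) (nat_lit 10170188770) (nat_lit 152) (nat_lit 12659429401) (nat_lit 12) (nat_lit 5) (nat_lit 13) (nat_lit 5) (nat_lit 14) (nat_lit 4) (nat_lit 364) (nat_lit 249) (nat_lit 167))))) (XT.nd (nat_lit 234) (nat_lit 152) (nat_lit 0) (XT.nd (nat_lit 78) (nat_lit 0) (nat_lit 0) (XT.lf (nat_lit 0) (nat_lit 17813544066) (nat_lit 76) (nat_lit 6534373338) (nat_lit 152) (nat_lit 9921309135) (nat_lit 12) (nat_lit 5) (nat_lit 13) (nat_lit 5) (nat_lit 14) (nat_lit 4) (nat_lit 365) (nat_lit 249) (nat_lit 166)) (XT.nd (nat_lit 78) (nat_lit 0) (nat_lit 0) (XT.lf (nat_lit 0) (nat_lit 25253505946) (nat_lit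 76) (nat_lit 2802096410) (nat_lit 152) (nat_lit 7118948488) (nat_lit 12) (nat_lit 5) (nat_lit 13) (nat_lit 5) (nat_lit 14) (nat_lit 4) (nat_lit 366) (nat_lit 249) (nat_lit 165)) (XT.lf (nat_lit 0) (nat_lit 31867555577) (nat_lit 152) (nat_lit 3229895626) (nat_lit 0) (nat_lit 1009806106) (nat_lit 12) (nat_lit 5) (nat_lit 14) (nat_lit 4) (nat_lit 12) (nat_lit 4) (nat_lit 367) (nat_lit 249) (nat_lit 164)))) (XT.nd (nat_lit 78) (nat_lit 76) (nat_lit 0) (XT.lf (nat_lit 0) (nat_lit 3677352840) (nat_lit 76) (nat_lit 32163121562) (nat_lit 76) (nat_lit 1226085525) (nat_lit 11) (nat_lit 4) (nat_lit 12) (nat_lit 5) (nat_lit 12) (nat_lit 4) (nat_lit 368) (nat_lit 249) (nat_lit 163)) (XT.nd (nat_lit 78) (nat_lit 0) (nat_lit 0) (XT.lf (nat_lit 0) (nat_lit 1857780616) (nat_lit 152) (nat_lit 27242718633) (nat_lit 76) (nat_lit 8953118626) (nat_lit 10) (nat_lit 5) (nat_lit 12) (nat_lit 5) (nat_lit 11) (nat_lit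 4) (nat_lit 369) (nat_lit 249) (nat_lit 162)) (XT.lf (nat_lit 0) (nat_lit 4993547081) (nat_lit 152) (nat_lit 20951847903) (nat_lit 76) (nat_lit 13125019622) (nat_lit 10) (nat_lit 5) (nat_lit 12) (nat_lit 5) (nat_lit 11) (nat_lit 4) (nat_lit 370) (nat_lit 249) (nat_lit 161)))))) (XT.nd (nat_lit 468) (nat_lit 76) (nat_lit 0) (XT.nd (nat_lit 234) (nat_lit 76) (nat_lit 0) (XT.nd (nat_lit 78) (nat_lit 0) (nat_lit 0) (XT.lf (nat_lit 0) (nat_lit 8207879202) (nat_lit 152) (nat_lit 14499312135) (nat_lit 76) (nat_lit 17411000821) (nat_lit 10) (nat_lit 5) (nat_lit 12) (nat_lit 5) (nat_lit 11) (nat_lit 4) (nat_lit 371) (nat_lit 249) (nat_lit 160)) (XT.nd (nat_lit 78) (nat_lit 0) (nat_lit 0) (XT.lf (nat_lit 0) (nat_lit 11503585620) (nat_lit 152) (nat_lit 7879473193) (nat_lit 76) (nat_lit 21814807254) (nat_lit 10) (nat_lit 5) (nat_lit 12) (nat_lit 5) (nat_lit 11) (nat_lit 4) (nat_lit 372) (nat_lit 249) (nat_lit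 159)) (XT.lf (nat_lit 0) (nat_lit 14883546079) (nat_lit 152) (nat_lit 1086546751) (nat_lit 76) (nat_lit 26340286907) (nat_lit 10) (nat_lit 5) (nat_lit 12) (nat_lit 5) (nat_lit 11) (nat_lit 4) (nat_lit 373) (nat_lit 249) (nat_lit 158)))) (XT.nd (nat_lit 78) (nat_lit 0) (nat_lit 0) (XT.lf (nat_lit 0) (nat_lit 6002533813) (nat_lit 76) (nat_lit 12405880155) (nat_lit 152) (nat_lit 25046560298) (nat_lit 9) (nat_lit 5) (nat_lit 10) (nat_lit 5) (nat_lit 11) (nat_lit 4) (nat_lit 374) (nat_lit 249) (nat_lit 157)) (XT.nd (nat_lit 78) (nat_lit 0) (nat_lit 0) (XT.lf (nat_lit 0) (nat_lit 13302038003) (nat_lit 76) (nat_lit 8733948095) (nat_lit 152) (nat_lit 22598022182) (nat_lit 9) (nat_lit 5) (nat_lit 10) (nat_lit 5) (nat_lit 11) (nat_lit 4) (nat_lit 375) (nat_lit 249) (nat_lit 156)) (XT.lf (nat_lit 0) (nat_lit 20796719615) (nat_lit 76) (nat_lit 4962060157) (nat_lit 152) (nat_lit 20090051803) (nat_lit 9) (nat_lit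 5) (nat_lit 10) (nat_lit 5) (nat_lit 11) (nat_lit 4) (nat_lit 376) (nat_lit 249) (nat_lit 155))))) (XT.nd (nat_lit 234) (nat_lit 76) (nat_lit 0) (XT.nd (nat_lit 78) (nat_lit 0) (nat_lit 0) (XT.lf (nat_lit 0) (nat_lit 28493127400) (nat_lit 76) (nat_lit 1086920518) (nat_lit 152) (nat_lit 17520457730) (nat_lit 9) (nat_lit 5) (nat_lit 10) (nat_lit 5) (nat_lit 11) (nat_lit 4) (nat_lit 377) (nat_lit 249) (nat_lit 154)) (XT.nd (nat_lit 78) (nat_lit 0) (nat_lit 0) (XT.lf (nat_lit 0) (nat_lit 33530956642) (nat_lit 152) (nat_lit 12019964957) (nat_lit 0) (nat_lit 2838367782) (nat_lit 9) (nat_lit 5) (nat_lit 11) (nat_lit 4) (nat_lit 9) (nat_lit 4) (nat_lit 378) (nat_lit 249) (nat_lit 153)) (XT.lf (nat_lit 0) (nat_lit 37598613402) (nat_lit 152) (nat_lit 5267771298) (nat_lit 0) (nat_lit 6850414540) (nat_lit 9) (nat_lit 5) (nat_lit 11) (nat_lit 4) (nat_lit 9) (nat_lit 4) (nat_lit 379) (nat_lit 249) (nat_lit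 152)))) (XT.nd (nat_lit 78) (nat_lit 0) (nat_lit 0) (XT.lf (nat_lit 0) (nat_lit 1698698574) (nat_lit 76) (nat_lit 40093754670) (nat_lit 76) (nat_lit 9291565515) (nat_lit 8) (nat_lit 4) (nat_lit 9) (nat_lit 5) (nat_lit 9) (nat_lit 4) (nat_lit 380) (nat_lit 249) (nat_lit 151)) (XT.nd (nat_lit 78) (nat_lit 0) (nat_lit 0) (XT.lf (nat_lit 0) (nat_lit 8960919537) (nat_lit 76) (nat_lit 37192357937) (nat_lit 76) (nat_lit 6337751021) (nat_lit 8) (nat_lit 4) (nat_lit 9) (nat_lit 5) (nat_lit 9) (nat_lit 4) (nat_lit 381) (nat_lit 249) (nat_lit 150)) (XT.lf (nat_lit 0) (nat_lit 16420398242) (nat_lit 76) (nat_lit 34212853460) (nat_lit 76) (nat_lit 3307355515) (nat_lit 8) (nat_lit 4) (nat_lit 9) (nat_lit 5) (nat_lit 9) (nat_lit 4) (nat_lit 382) (nat_lit 249) (nat_lit 149))))))))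
noncomputable def xc81 : XT := (XT.nd (nat_lit 32916) (nat_lit 0) (nat_lit 5472) (XT.nd (nat_lit 858) (nat_lit 76) (nat_lit 0) (XT.nd (nat_lit 390) (nat_lit 76) (nat_lit 0) (XT.nd (nat_lit 156) (nat_lit 0) (nat_lit 0) (XT.nd (nat_lit 78) (nat_lit 76) (nat_lit 0) (XT.lf (nat_lit 0) (nat_lit 24083652679) (nat_lit 76) (nat_lit 31152637790) (nat_lit 76) (nat_lit 197731078) (nat_lit 8) (nat_lit 4) (nat_lit 9) (nat_lit 5) (nat_lit 9) (nat_lit 4) (nat_lit 383) (nat_lit 249) (nat_lit 148)) (XT.lf (nat_lit 0) (nat_lit 2935418845) (nat_lit 152) (nat_lit 25043976131) (nat_lit 76) (nat_lit 28992318077) (nat_lit 7) (nat_lit 5) (nat_lit 9) (nat_lit 5) (nat_lit 8) (nat_lit 4) (nat_lit 384) (nat_lit 249) (nat_lit 147))) (XT.nd (nat_lit 78) (nat_lit 0) (nat_lit 0) (XT.lf (nat_lit 0) (nat_lit 6147791672) (nat_lit 152) (nat_lit 18569431794) (nat_lit 76) (nat_lit 33838584538) (nat_lit 7) (nat_lit 5) (nat_lit 9)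 (nat_lit 5) (nat_lit 8) (nat_lit 4) (nat_lit 385) (nat_lit 249) (nat_lit 146)) (XT.nd (nat_lit 78) (nat_lit 0) (nat_lit 0) (XT.lf (nat_lit 0) (nat_lit 9446052773) (nat_lit 152) (nat_lit 11919177779) (nat_lit 76) (nat_lit 38822517030) (nat_lit 7) (nat_lit 5) (nat_lit 9) (nat_lit 5) (nat_lit 8) (nat_lit 4) (nat_lit 386) (nat_lit 249) (nat_lit 145)) (XT.lf (nat_lit 0) (nat_lit 12833084126) (nat_lit 152) (nat_lit 5087403183) (nat_lit 76) (nat_lit 43948470446) (nat_lit 7) (nat_lit 5) (nat_lit 9) (nat_lit 5) (nat_lit 8) (nat_lit 4) (nat_lit 387) (nat_lit 249) (nat_lit 144))))) (XT.nd (nat_lit 234) (nat_lit 0) (nat_lit 0) (XT.nd (nat_lit 78) (nat_lit 0) (nat_lit 0) (XT.lf (nat_lit 0) (nat_lit 1970309337) (nat_lit 76) (nat_lit 14360475752) (nat_lit 152) (nat_lit 47269554255) (nat_lit 6) (nat_lit 5) (nat_lit 7) (nat_lit 5) (nat_lit 8) (nat_lit 4) (nat_lit 388) (nat_lit 249) (nat_lit 143)) (XT.nd (nat_lit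 78) (nat_lit 0) (nat_lit 0) (XT.lf (nat_lit 0) (nat_lit 9326748074) (nat_lit 76) (nat_lit 10648282237) (nat_lit 152) (nat_lit 45407390346) (nat_lit 6) (nat_lit 5) (nat_lit 7) (nat_lit 5) (nat_lit 8) (nat_lit 4) (nat_lit 389) (nat_lit 249) (nat_lit 142)) (XT.lf (nat_lit 0) (nat_lit 16887091683) (nat_lit 76) (nat_lit 6832035898) (nat_lit 152) (nat_lit 43499127566) (nat_lit 6) (nat_lit 5) (nat_lit 7) (nat_lit 5) (nat_lit 8) (nat_lit 4) (nat_lit 390) (nat_lit 249) (nat_lit 141)))) (XT.nd (nat_lit 78) (nat_lit 0) (nat_lit 0) (XT.lf (nat_lit 0) (nat_lit 24657946290) (nat_lit 76) (nat_lit 2908402150) (nat_lit 152) (nat_lit 41543098500) (nat_lit 6) (nat_lit 5) (nat_lit 7) (nat_lit 5) (nat_lit 8) (nat_lit 4) (nat_lit 391) (nat_lit 249) (nat_lit 140)) (XT.nd (nat_lit 78) (nat_lit 0) (nat_lit 0) (XT.lf (nat_lit 0) (nat_lit 31530878795) (nat_lit 152) (nat_lit 38422370829) (nat_lit 0) (nat_lit 1104074184)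 (nat_lit 6) (nat_lit 5) (nat_lit 8) (nat_lit 4) (nat_lit 6) (nat_lit 4) (nat_lit 392) (nat_lit 249) (nat_lit 139)) (XT.lf (nat_lit 0) (nat_lit 35634405540) (nat_lit 152) (nat_lit 32256728572) (nat_lit 0) (nat_lit 5171906984) (nat_lit 6) (nat_lit 5) (nat_lit 8) (nat_lit 4) (nat_lit 6) (nat_lit 4) (nat_lit 393) (nat_lit 249) (nat_lit 138)))))) (XT.nd (nat_lit 468) (nat_lit 0) (nat_lit 0) (XT.nd (nat_lit 234) (nat_lit 76) (nat_lit 0) (XT.nd (nat_lit 78) (nat_lit 0) (nat_lit 0) (XT.lf (nat_lit 0) (nat_lit 39852556940) (nat_lit 152) (nat_lit 25921229083) (nat_lit 0) (nat_lit 9355404069) (nat_lit 6) (nat_lit 5) (nat_lit 8) (nat_lit 4) (nat_lit 6) (nat_lit 4) (nat_lit 394) (nat_lit 249) (nat_lit 137)) (XT.nd (nat_lit 78) (nat_lit 0) (nat_lit 0) (XT.lf (nat_lit 0) (nat_lit 44189018759) (nat_lit 152) (nat_lit 19410336489) (nat_lit 0) (nat_lit 13658220923) (nat_lit 6) (nat_lit 5) (nat_lit 8) (nat_lit 4)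 (nat_lit 6) (nat_lit 4) (nat_lit 395) (nat_lit 249) (nat_lit 136)) (XT.lf (nat_lit 0) (nat_lit 48647580138) (nat_lit 152) (nat_lit 12718361661) (nat_lit 0) (nat_lit 18084117286) (nat_lit 6) (nat_lit 5) (nat_lit 8) (nat_lit 4) (nat_lit 6) (nat_lit 4) (nat_lit 396) (nat_lit 249) (nat_lit 135)))) (XT.nd (nat_lit 78) (nat_lit 76) (nat_lit 0) (XT.lf (nat_lit 0) (nat_lit 53232136908) (nat_lit 152) (nat_lit 5839457242) (nat_lit 0) (nat_lit 22636960449) (nat_lit 6) (nat_lit 5) (nat_lit 8) (nat_lit 4) (nat_lit 6) (nat_lit 4) (nat_lit 397) (nat_lit 249) (nat_lit 134)) (XT.nd (nat_lit 78) (nat_lit 0) (nat_lit 0) (XT.lf (nat_lit 0) (nat_lit 1256914387) (nat_lit 76) (nat_lit 56701862834) (nat_lit 76) (nat_lit 26075896465) (nat_lit 5) (nat_lit 4) (nat_lit 6) (nat_lit 5) (nat_lit 6) (nat_lit 4) (nat_lit 398) (nat_lit 249) (nat_lit 133)) (XT.lf (nat_lit 0) (nat_lit 8672585102) (nat_lit 76) (nat_lit 54206154996)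 (nat_lit 76) (nat_lit 23550295511) (nat_lit 5) (nat_lit 4) (nat_lit 6) (nat_lit 5) (nat_lit 6) (nat_lit 4) (nat_lit 399) (nat_lit 249) (nat_lit 132))))) (XT.nd (nat_lit 31356) (nat_lit 0) (nat_lit 13756) (XT.nd (nat_lit 156) (nat_lit 0) (nat_lit 0) (XT.lf (nat_lit 0) (nat_lit 16297817966) (nat_lit 76) (nat_lit 51641256991) (nat_lit 76) (nat_lit 20956375063) (nat_lit 5) (nat_lit 4) (nat_lit 6) (nat_lit 5) (nat_lit 6) (nat_lit 4) (nat_lit 400) (nat_lit 249) (nat_lit 131)) (XT.nd (nat_lit 31122) (nat_lit 0) (nat_lit 15580) (XT.lf (nat_lit 0) (nat_lit 32203810370) (nat_lit 76) (nat_lit 46294863368) (nat_lit 76) (nat_lit 15554447875) (nat_lit 5) (nat_lit 4) (nat_lit 6) (nat_lit 5) (nat_lit 6) (nat_lit 4) (nat_lit 402) (nat_lit 249) (nat_lit 129)) (XT.lf (nat_lit 0) (nat_lit 894328990) (nat_lit 836) (nat_lit 1668565693) (nat_lit 0) (nat_lit 894328990) (nat_lit 210) (nat_lit 5) (nat_lit 221) (nat_lit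 4) (nat_lit 210) (nat_lit 4) (nat_lit 280) (nat_lit 250) (nat_lit 250)))) (XT.nd (nat_lit 78) (nat_lit 988) (nat_lit 0) (XT.lf (nat_lit 0) (nat_lit 809911337) (nat_lit 836) (nat_lit 3960637078) (nat_lit 836) (nat_lit 2194159207) (nat_lit 199) (nat_lit 4) (nat_lit 210) (nat_lit 5) (nat_lit 210) (nat_lit 4) (nat_lit 281) (nat_lit 250) (nat_lit 249)) (XT.nd (nat_lit 78) (nat_lit 912) (nat_lit 0) (XT.lf (nat_lit 0) (nat_lit 749763422) (nat_lit 912) (nat_lit 1959485183) (nat_lit 76) (nat_lit 4309052104) (nat_lit 198) (nat_lit 5) (nat_lit 210) (nat_lit 5) (nat_lit 199) (nat_lit 4) (nat_lit 282) (nat_lit 250) (nat_lit 248)) (XT.lf (nat_lit 0) (nat_lit 2301843588) (nat_lit 912) (nat_lit 1367330468) (nat_lit 988) (nat_lit 3406006178) (nat_lit 186) (nat_lit 5) (nat_lit 198) (nat_lit 5) (nat_lit 199) (nat_lit 4) (nat_lit 283) (nat_lit 250) (nat_lit 247))))))) (XT.nd (nat_lit 936) (nat_lit 3040) (nat_lit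 0) (XT.nd (nat_lit 468) (nat_lit 2204) (nat_lit 0) (XT.nd (nat_lit 234) (nat_lit 912) (nat_lit 0) (XT.nd (nat_lit 78) (nat_lit 2128) (nat_lit 0) (XT.lf (nat_lit 0) (nat_lit 6607357710) (nat_lit 988) (nat_lit 487547759) (nat_lit 0) (nat_lit 41185634) (nat_lit 186) (nat_lit 5) (nat_lit 199) (nat_lit 4) (nat_lit 186) (nat_lit 4) (nat_lit 284) (nat_lit 250) (nat_lit 246)) (XT.nd (nat_lit 78) (nat_lit 1064) (nat_lit 0) (XT.lf (nat_lit 0) (nat_lit 2351495283) (nat_lit 1064) (nat_lit 3316415980) (nat_lit 76) (nat_lit 1531537073) (nat_lit 172) (nat_lit 5) (nat_lit 186) (nat_lit 5) (nat_lit 173) (nat_lit 4) (nat_lit 285) (nat_lit 250) (nat_lit 245)) (XT.lf (nat_lit 0) (nat_lit 1061732759) (nat_lit 1064) (nat_lit 4175253236) (nat_lit 1140) (nat_lit 2029917333) (nat_lit 158) (nat_lit 5) (nat_lit 172) (nat_lit 5) (nat_lit 173) (nat_lit 4) (nat_lit 286) (nat_lit 250) (nat_lit 244)))) (XT.nd (nat_lit 78) (nat_lit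 836) (nat_lit 0) (XT.lf (nat_lit 0) (nat_lit 804394713) (nat_lit 1140) (nat_lit 1789850883) (nat_lit 76) (nat_lit 4743646661) (nat_lit 157) (nat_lit 5) (nat_lit 172) (nat_lit 5) (nat_lit 158) (nat_lit 5) (nat_lit 287) (nat_lit 250) (nat_lit 243)) (XT.nd (nat_lit 78) (nat_lit 0) (nat_lit 0) (XT.lf (nat_lit 0) (nat_lit 2708188644) (nat_lit 836) (nat_lit 918201407) (nat_lit 912) (nat_lit 3785932574) (nat_lit 146) (nat_lit 5) (nat_lit 157) (nat_lit 5) (nat_lit 158) (nat_lit 5) (nat_lit 288) (nat_lit 250) (nat_lit 242)) (XT.lf (nat_lit 0) (nat_lit 6478100017) (nat_lit 912) (nat_lit 202844458) (nat_lit 76) (nat_lit 809901743) (nat_lit 146) (nat_lit 5) (nat_lit 158) (nat_lit 5) (nat_lit 147) (nat_lit 4) (nat_lit 289) (nat_lit 250) (nat_lit 241))))) (XT.nd (nat_lit 234) (nat_lit 1064) (nat_lit 0) (XT.nd (nat_lit 78) (nat_lit 532) (nat_lit 0) (XT.lf (nat_lit 0) (nat_lit 1780248128) (nat_lit 608) (nat_lit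 3161232853) (nat_lit 76) (nat_lit 2630735009) (nat_lit 138) (nat_lit 5) (nat_lit 146) (nat_lit 5) (nat_lit 139) (nat_lit 5) (nat_lit 290) (nat_lit 250) (nat_lit 240)) (XT.nd (nat_lit 78) (nat_lit 0) (nat_lit 0) (XT.lf (nat_lit 0) (nat_lit 1446800697) (nat_lit 532) (nat_lit 3127795604) (nat_lit 608) (nat_lit 3083186131) (nat_lit 131) (nat_lit 5) (nat_lit 138) (nat_lit 5) (nat_lit 139) (nat_lit 5) (nat_lit 291) (nat_lit 250) (nat_lit 239)) (XT.lf (nat_lit 0) (nat_lit 6175886826) (nat_lit 532) (nat_lit 1232238774) (nat_lit 608) (nat_lit 339318070) (nat_lit 131) (nat_lit 5) (nat_lit 138) (nat_lit 5) (nat_lit 139) (nat_lit 5) (nat_lit 292) (nat_lit 250) (nat_lit 238)))) (XT.nd (nat_lit 78) (nat_lit 532) (nat_lit 0) (XT.lf (nat_lit 0) (nat_lit 2400894889) (nat_lit 532) (nat_lit 4684402262) (nat_lit 76) (nat_lit 755081245) (nat_lit 124) (nat_lit 5) (nat_lit 131) (nat_lit 5) (nat_lit 125) (nat_lit 5)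 (nat_lit 293) (nat_lit 250) (nat_lit 237)) (XT.nd (nat_lit 78) (nat_lit 0) (nat_lit 0) (XT.lf (nat_lit 0) (nat_lit 23869499) (nat_lit 532) (nat_lit 5147179182) (nat_lit 608) (nat_lit 2766487403) (nat_lit 117) (nat_lit 5) (nat_lit 124) (nat_lit 5) (nat_lit 125) (nat_lit 5) (nat_lit 294) (nat_lit 250) (nat_lit 236)) (XT.lf (nat_lit 0) (nat_lit 4887422290) (nat_lit 532) (nat_lit 3111650204) (nat_lit 608) (nat_lit 39460367) (nat_lit 117) (nat_lit 5) (nat_lit 124) (nat_lit 5) (nat_lit 125) (nat_lit 5) (nat_lit 295) (nat_lit 250) (nat_lit 235)))))) (XT.nd (nat_lit 468) (nat_lit 1216) (nat_lit 0) (XT.nd (nat_lit 234) (nat_lit 836) (nat_lit 0) (XT.nd (nat_lit 78) (nat_lit 456) (nat_lit 0) (XT.lf (nat_lit 0) (nat_lit 1679289153) (nat_lit 456) (nat_lit 980908477) (nat_lit 532) (nat_lit 5483375175) (nat_lit 110) (nat_lit 5) (nat_lit 116) (nat_lit 5) (nat_lit 117) (nat_lit 5) (nat_lit 296) (nat_lit 250)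 (nat_lit 234)) (XT.nd (nat_lit 78) (nat_lit 456) (nat_lit 0) (XT.lf (nat_lit 0) (nat_lit 5413776448) (nat_lit 532) (nat_lit 1626524445) (nat_lit 76) (nat_lit 1212392732) (nat_lit 110) (nat_lit 5) (nat_lit 117) (nat_lit 5) (nat_lit 111) (nat_lit 5) (nat_lit 297) (nat_lit 250) (nat_lit 233)) (XT.lf (nat_lit 0) (nat_lit 3331532236) (nat_lit 456) (nat_lit 4892129942) (nat_lit 532) (nat_lit 142363564) (nat_lit 104) (nat_lit 5) (nat_lit 110) (nat_lit 5) (nat_lit 111) (nat_lit 5) (nat_lit 298) (nat_lit 250) (nat_lit 232)))) (XT.nd (nat_lit 78) (nat_lit 760) (nat_lit 0) (XT.lf (nat_lit 0) (nat_lit 2532632653) (nat_lit 532) (nat_lit 116918825) (nat_lit 76) (nat_lit 5834117590) (nat_lit 103) (nat_lit 5) (nat_lit 110) (nat_lit 5) (nat_lit 104) (nat_lit 5) (nat_lit 299) (nat_lit 250) (nat_lit 231)) (XT.nd (nat_lit 78) (nat_lit 380) (nat_lit 0) (XT.lf (nat_lit 0) (nat_lit 4965182705) (nat_lit 380) (nat_lit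 301911312) (nat_lit 456) (nat_lit 3338379138) (nat_lit 98) (nat_lit 5) (nat_lit 103) (nat_lit 5) (nat_lit 104) (nat_lit 5) (nat_lit 300) (nat_lit 250) (nat_lit 230)) (XT.lf (nat_lit 0) (nat_lit 1398535415) (nat_lit 380) (nat_lit 6655417862) (nat_lit 456) (nat_lit 677999249) (nat_lit 93) (nat_lit 5) (nat_lit 98) (nat_lit 5) (nat_lit 99) (nat_lit 5) (nat_lit 301) (nat_lit 250) (nat_lit 229))))) (XT.nd (nat_lit 234) (nat_lit 760) (nat_lit 0) (XT.nd (nat_lit 78) (nat_lit 380) (nat_lit 0) (XT.lf (nat_lit 0) (nat_lit 1997820018) (nat_lit 456) (nat_lit 2301423092) (nat_lit 76) (nat_lit 4563236915) (nat_lit 92) (nat_lit 5) (nat_lit 98) (nat_lit 5) (nat_lit 93) (nat_lit 5) (nat_lit 302) (nat_lit 250) (nat_lit 228)) (XT.nd (nat_lit 78) (nat_lit 0) (nat_lit 0) (XT.lf (nat_lit 0) (nat_lit 2852547555) (nat_lit 380) (nat_lit 1852786618) (nat_lit 456) (nat_lit 4292557243) (nat_lit 87) (nat_lit 5) (nat_lit 92)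 (nat_lit 5) (nat_lit 93) (nat_lit 5) (nat_lit 303) (nat_lit 250) (nat_lit 227)) (XT.lf (nat_lit 0) (nat_lit 7462505246) (nat_lit 456) (nat_lit 1013969512) (nat_lit 76) (nat_lit 661954801) (nat_lit 87) (nat_lit 5) (nat_lit 93) (nat_lit 5) (nat_lit 88) (nat_lit 5) (nat_lit 304) (nat_lit 250) (nat_lit 226)))) (XT.nd (nat_lit 78) (nat_lit 304) (nat_lit 0) (XT.lf (nat_lit 0) (nat_lit 998831750) (nat_lit 456) (nat_lit 5033655923) (nat_lit 76) (nat_lit 3250527496) (nat_lit 81) (nat_lit 5) (nat_lit 87) (nat_lit 5) (nat_lit 82) (nat_lit 5) (nat_lit 305) (nat_lit 250) (nat_lit 225)) (XT.nd (nat_lit 78) (nat_lit 0) (nat_lit 0) (XT.lf (nat_lit 0) (nat_lit 169137873) (nat_lit 304) (nat_lit 3503632386) (nat_lit 380) (nat_lit 5760198960) (nat_lit 77) (nat_lit 5) (nat_lit 81) (nat_lit 5) (nat_lit 82) (nat_lit 5) (nat_lit 306) (nat_lit 250) (nat_lit 224)) (XT.lf (nat_lit 0) (nat_lit 5554747453) (nat_lit 304)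 (nat_lit 864660868) (nat_lit 380) (nat_lit 3168343395) (nat_lit 77) (nat_lit 5) (nat_lit 81) (nat_lit 5) (nat_lit 82) (nat_lit 5) (nat_lit 307) (nat_lit 250) (nat_lit 223))))))))
noncomputable def xc82 : XT := (XT.nd (nat_lit 1794) (nat_lit 1444) (nat_lit 0) (XT.nd (nat_lit 858) (nat_lit 1216) (nat_lit 0) (XT.nd (nat_lit 390) (nat_lit 836) (nat_lit 0) (XT.nd (nat_lit 156) (nat_lit 684) (nat_lit 0) (XT.nd (nat_lit 78) (nat_lit 76) (nat_lit 0) (XT.lf (nat_lit 0) (nat_lit 1286170673) (nat_lit 304) (nat_lit 7935636952) (nat_lit 380) (nat_lit 526270432) (nat_lit 73) (nat_lit 5) (nat_lit 77) (nat_lit 5) (nat_lit 78) (nat_lit 5) (nat_lit 308) (nat_lit 250) (nat_lit 222)) (XT.lf (nat_lit 0) (nat_lit 2145385782) (nat_lit 380) (nat_lit 3170798329) (nat_lit 76) (nat_lit 4596697847) (nat_lit 72) (nat_lit 5) (nat_lit 77) (nat_lit 5) (nat_lit 73) (nat_lit 5) (nat_lit 309) (nat_lit 250) (nat_lit 221))) (XT.nd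 (nat_lit 78) (nat_lit 380) (nat_lit 0) (XT.lf (nat_lit 0) (nat_lit 2243500653) (nat_lit 304) (nat_lit 2609791092) (nat_lit 380) (nat_lit 5230274228) (nat_lit 68) (nat_lit 5) (nat_lit 72) (nat_lit 5) (nat_lit 73) (nat_lit 5) (nat_lit 310) (nat_lit 250) (nat_lit 220)) (XT.nd (nat_lit 78) (nat_lit 380) (nat_lit 0) (XT.lf (nat_lit 0) (nat_lit 7622298369) (nat_lit 380) (nat_lit 2450117507) (nat_lit 76) (nat_lit 187648669) (nat_lit 68) (nat_lit 5) (nat_lit 73) (nat_lit 5) (nat_lit 69) (nat_lit 5) (nat_lit 311) (nat_lit 250) (nat_lit 219)) (XT.lf (nat_lit 0) (nat_lit 34500460) (nat_lit 380) (nat_lit 7379475809) (nat_lit 76) (nat_lit 3027878672) (nat_lit 63) (nat_lit 5) (nat_lit 68) (nat_lit 5) (nat_lit 64) (nat_lit 5) (nat_lit 312) (nat_lit 250) (nat_lit 218))))) (XT.nd (nat_lit 234) (nat_lit 608) (nat_lit 0) (XT.nd (nat_lit 78) (nat_lit 228) (nat_lit 0) (XT.lf (nat_lit 0) (nat_lit 2706545874) (nat_lit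 380) (nat_lit 1937380495) (nat_lit 76) (nat_lit 5985292677) (nat_lit 63) (nat_lit 5) (nat_lit 68) (nat_lit 5) (nat_lit 64) (nat_lit 5) (nat_lit 313) (nat_lit 250) (nat_lit 217)) (XT.nd (nat_lit 78) (nat_lit 0) (nat_lit 0) (XT.lf (nat_lit 0) (nat_lit 3668556760) (nat_lit 228) (nat_lit 1774626243) (nat_lit 304) (nat_lit 5379568072) (nat_lit 60) (nat_lit 5) (nat_lit 63) (nat_lit 5) (nat_lit 64) (nat_lit 5) (nat_lit 314) (nat_lit 250) (nat_lit 216)) (XT.lf (nat_lit 0) (nat_lit 8242802515) (nat_lit 304) (nat_lit 1622354460) (nat_lit 76) (nat_lit 1157583179) (nat_lit 60) (nat_lit 5) (nat_lit 64) (nat_lit 5) (nat_lit 61) (nat_lit 5) (nat_lit 315) (nat_lit 250) (nat_lit 215)))) (XT.nd (nat_lit 78) (nat_lit 304) (nat_lit 0) (XT.lf (nat_lit 0) (nat_lit 4067637476) (nat_lit 304) (nat_lit 7066682859) (nat_lit 380) (nat_lit 94246603) (nat_lit 56) (nat_lit 5) (nat_lit 60) (nat_lit 5) (nat_lit 61) (nat_lit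 5) (nat_lit 316) (nat_lit 250) (nat_lit 214)) (XT.nd (nat_lit 78) (nat_lit 228) (nat_lit 0) (XT.lf (nat_lit 0) (nat_lit 2587868576) (nat_lit 380) (nat_lit 1574300103) (nat_lit 76) (nat_lit 7278660475) (nat_lit 55) (nat_lit 5) (nat_lit 60) (nat_lit 5) (nat_lit 56) (nat_lit 5) (nat_lit 317) (nat_lit 250) (nat_lit 213)) (XT.lf (nat_lit 0) (nat_lit 4192889443) (nat_lit 228) (nat_lit 1148831474) (nat_lit 304) (nat_lit 6317984220) (nat_lit 52) (nat_lit 5) (nat_lit 55) (nat_lit 5) (nat_lit 56) (nat_lit 5) (nat_lit 318) (nat_lit 250) (nat_lit 212)))))) (XT.nd (nat_lit 468) (nat_lit 456) (nat_lit 0) (XT.nd (nat_lit 234) (nat_lit 456) (nat_lit 0) (XT.nd (nat_lit 78) (nat_lit 304) (nat_lit 0) (XT.lf (nat_lit 0) (nat_lit 8166424660) (nat_lit 304) (nat_lit 1806770192) (nat_lit 76) (nat_lit 1912372399) (nat_lit 52) (nat_lit 5) (nat_lit 56) (nat_lit 5) (nat_lit 53) (nat_lit 5) (nat_lit 319) (nat_lit 250) (nat_lit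 211)) (XT.nd (nat_lit 78) (nat_lit 76) (nat_lit 0) (XT.lf (nat_lit 0) (nat_lit 4023697732) (nat_lit 228) (nat_lit 7056971523) (nat_lit 304) (nat_lit 1037456957) (nat_lit 49) (nat_lit 5) (nat_lit 52) (nat_lit 5) (nat_lit 53) (nat_lit 5) (nat_lit 320) (nat_lit 250) (nat_lit 210)) (XT.lf (nat_lit 0) (nat_lit 1664378702) (nat_lit 304) (nat_lit 2374584495) (nat_lit 76) (nat_lit 8319062006) (nat_lit 48) (nat_lit 5) (nat_lit 52) (nat_lit 5) (nat_lit 49) (nat_lit 5) (nat_lit 321) (nat_lit 250) (nat_lit 209)))) (XT.nd (nat_lit 78) (nat_lit 228) (nat_lit 0) (XT.lf (nat_lit 0) (nat_lit 3510198710) (nat_lit 228) (nat_lit 906202482) (nat_lit 304) (nat_lit 8188771771) (nat_lit 45) (nat_lit 5) (nat_lit 48) (nat_lit 5) (nat_lit 49) (nat_lit 5) (nat_lit 322) (nat_lit 250) (nat_lit 208)) (XT.nd (nat_lit 78) (nat_lit 228) (nat_lit 0) (XT.lf (nat_lit 0) (nat_lit 7254202037) (nat_lit 304) (nat_lit 3326749922) (nat_lit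 76) (nat_lit 2278744397) (nat_lit 45) (nat_lit 5) (nat_lit 49) (nat_lit 5) (nat_lit 46) (nat_lit 5) (nat_lit 323) (nat_lit 250) (nat_lit 207)) (XT.lf (nat_lit 0) (nat_lit 2592653148) (nat_lit 228) (nat_lit 7576334693) (nat_lit 304) (nat_lit 2953168130) (nat_lit 42) (nat_lit 5) (nat_lit 45) (nat_lit 5) (nat_lit 46) (nat_lit 5) (nat_lit 324) (nat_lit 250) (nat_lit 206))))) (XT.nd (nat_lit 234) (nat_lit 228) (nat_lit 0) (XT.nd (nat_lit 78) (nat_lit 228) (nat_lit 0) (XT.lf (nat_lit 0) (nat_lit 8694968164) (nat_lit 228) (nat_lit 4468419444) (nat_lit 304) (nat_lit 229391073) (nat_lit 42) (nat_lit 5) (nat_lit 45) (nat_lit 5) (nat_lit 46) (nat_lit 5) (nat_lit 325) (nat_lit 250) (nat_lit 205)) (XT.nd (nat_lit 78) (nat_lit 0) (nat_lit 0) (XT.lf (nat_lit 0) (nat_lit 1246498311) (nat_lit 152) (nat_lit 1250647363) (nat_lit 228) (nat_lit 11174543338) (nat_lit 39) (nat_lit 5) (nat_lit 41) (nat_lit 5) (nat_lit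 42) (nat_lit 5) (nat_lit 326) (nat_lit 250) (nat_lit 204)) (XT.lf (nat_lit 0) (nat_lit 5328338133) (nat_lit 228) (nat_lit 6577020664) (nat_lit 76) (nat_lit 2052765415) (nat_lit 39) (nat_lit 5) (nat_lit 42) (nat_lit 5) (nat_lit 40) (nat_lit 5) (nat_lit 327) (nat_lit 250) (nat_lit 203)))) (XT.nd (nat_lit 78) (nat_lit 228) (nat_lit 0) (XT.lf (nat_lit 0) (nat_lit 8217746716) (nat_lit 228) (nat_lit 626308616) (nat_lit 76) (nat_lit 5409947075) (nat_lit 39) (nat_lit 5) (nat_lit 42) (nat_lit 5) (nat_lit 40) (nat_lit 5) (nat_lit 328) (nat_lit 250) (nat_lit 202)) (XT.nd (nat_lit 78) (nat_lit 0) (nat_lit 0) (XT.lf (nat_lit 0) (nat_lit 5552516680) (nat_lit 228) (nat_lit 5656731667) (nat_lit 304) (nat_lit 3349093216) (nat_lit 36) (nat_lit 5) (nat_lit 39) (nat_lit 5) (nat_lit 40) (nat_lit 5) (nat_lit 329) (nat_lit 250) (nat_lit 201)) (XT.lf (nat_lit 0) (nat_lit 11871363794) (nat_lit 228) (nat_lit 2388038781)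 (nat_lit 304) (nat_lit 613386667) (nat_lit 36) (nat_lit 5) (nat_lit 39) (nat_lit 5) (nat_lit 40) (nat_lit 5) (nat_lit 330) (nat_lit 250) (nat_lit 200))))))) (XT.nd (nat_lit 858) (nat_lit 684) (nat_lit 0) (XT.nd (nat_lit 390) (nat_lit 380) (nat_lit 0) (XT.nd (nat_lit 156) (nat_lit 152) (nat_lit 0) (XT.nd (nat_lit 78) (nat_lit 0) (nat_lit 0) (XT.lf (nat_lit 0) (nat_lit 2164804894) (nat_lit 228) (nat_lit 12039544467) (nat_lit 76) (nat_lit 991625366) (nat_lit 33) (nat_lit 5) (nat_lit 36) (nat_lit 5) (nat_lit 34) (nat_lit 5) (nat_lit 331) (nat_lit 250) (nat_lit 199)) (XT.lf (nat_lit 0) (nat_lit 5031863874) (nat_lit 228) (nat_lit 6055046255) (nat_lit 76) (nat_lit 4441269654) (nat_lit 33) (nat_lit 5) (nat_lit 36) (nat_lit 5) (nat_lit 34) (nat_lit 5) (nat_lit 332) (nat_lit 250) (nat_lit 198))) (XT.nd (nat_lit 78) (nat_lit 0) (nat_lit 0) (XT.lf (nat_lit 0) (nat_lit 54090474) (nat_lit 152) (nat_lit 7896021954)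 (nat_lit 228) (nat_lit 7921323719) (nat_lit 31) (nat_lit 5) (nat_lit 33) (nat_lit 5) (nat_lit 34) (nat_lit 5) (nat_lit 333) (nat_lit 250) (nat_lit 197)) (XT.nd (nat_lit 78) (nat_lit 0) (nat_lit 0) (XT.lf (nat_lit 0) (nat_lit 6415220436) (nat_lit 152) (nat_lit 4566986765) (nat_lit 228) (nat_lit 5242033351) (nat_lit 31) (nat_lit 5) (nat_lit 33) (nat_lit 5) (nat_lit 34) (nat_lit 5) (nat_lit 334) (nat_lit 250) (nat_lit 196)) (XT.lf (nat_lit 0) (nat_lit 12913394608) (nat_lit 152) (nat_lit 1158039790) (nat_lit 228) (nat_lit 2517247770) (nat_lit 31) (nat_lit 5) (nat_lit 33) (nat_lit 5) (nat_lit 34) (nat_lit 5) (nat_lit 335) (nat_lit 250) (nat_lit 195))))) (XT.nd (nat_lit 234) (nat_lit 152) (nat_lit 0) (XT.nd (nat_lit 78) (nat_lit 0) (nat_lit 0) (XT.lf (nat_lit 0) (nat_lit 298499504) (nat_lit 228) (nat_lit 14348716375) (nat_lit 76) (nat_lit 2316347816) (nat_lit 28) (nat_lit 5) (nat_lit 31) (nat_lit 5)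 (nat_lit 29) (nat_lit 5) (nat_lit 336) (nat_lit 250) (nat_lit 194)) (XT.nd (nat_lit 78) (nat_lit 0) (nat_lit 0) (XT.lf (nat_lit 0) (nat_lit 3164139315) (nat_lit 228) (nat_lit 8269537962) (nat_lit 76) (nat_lit 5914821192) (nat_lit 28) (nat_lit 5) (nat_lit 31) (nat_lit 5) (nat_lit 29) (nat_lit 5) (nat_lit 337) (nat_lit 250) (nat_lit 193)) (XT.lf (nat_lit 0) (nat_lit 6083775417) (nat_lit 228) (nat_lit 2059663117) (nat_lit 76) (nat_lit 9602535851) (nat_lit 28) (nat_lit 5) (nat_lit 31) (nat_lit 5) (nat_lit 29) (nat_lit 5) (nat_lit 338) (nat_lit 250) (nat_lit 192)))) (XT.nd (nat_lit 78) (nat_lit 0) (nat_lit 0) (XT.lf (nat_lit 0) (nat_lit 4371640720) (nat_lit 152) (nat_lit 4730341112) (nat_lit 228) (nat_lit 9053096232) (nat_lit 26) (nat_lit 5) (nat_lit 28) (nat_lit 5) (nat_lit 29) (nat_lit 5) (nat_lit 339) (nat_lit 250) (nat_lit 191)) (XT.nd (nat_lit 78) (nat_lit 0) (nat_lit 0) (XT.lf (nat_lit 0) (nat_lit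 10988422938) (nat_lit 152) (nat_lit 1212494961) (nat_lit 228) (nat_lit 6375863415) (nat_lit 26) (nat_lit 5) (nat_lit 28) (nat_lit 5) (nat_lit 29) (nat_lit 5) (nat_lit 340) (nat_lit 250) (nat_lit 190)) (XT.lf (nat_lit 0) (nat_lit 15386095623) (nat_lit 228) (nat_lit 1279581515) (nat_lit 76) (nat_lit 2345691348) (nat_lit 26) (nat_lit 5) (nat_lit 29) (nat_lit 5) (nat_lit 27) (nat_lit 4) (nat_lit 341) (nat_lit 250) (nat_lit 189)))))) (XT.nd (nat_lit 468) (nat_lit 304) (nat_lit 0) (XT.nd (nat_lit 234) (nat_lit 152) (nat_lit 0) (XT.nd (nat_lit 78) (nat_lit 76) (nat_lit 0) (XT.lf (nat_lit 0) (nat_lit 5261573021) (nat_lit 152) (nat_lit 13438807588) (nat_lit 228) (nat_lit 757636236) (nat_lit 24) (nat_lit 5) (nat_lit 26) (nat_lit 5) (nat_lit 27) (nat_lit 4) (nat_lit 342) (nat_lit 250) (nat_lit 188)) (XT.nd (nat_lit 78) (nat_lit 0) (nat_lit 0) (XT.lf (nat_lit 0) (nat_lit 2137276513) (nat_lit 228) (nat_lit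 7961413490) (nat_lit 76) (nat_lit 9819246781) (nat_lit 23) (nat_lit 5) (nat_lit 26) (nat_lit 5) (nat_lit 24) (nat_lit 5) (nat_lit 343) (nat_lit 250) (nat_lit 187)) (XT.lf (nat_lit 0) (nat_lit 5075702374) (nat_lit 228) (nat_lit 1593135848) (nat_lit 76) (nat_lit 13723461826) (nat_lit 23) (nat_lit 5) (nat_lit 26) (nat_lit 5) (nat_lit 24) (nat_lit 5) (nat_lit 344) (nat_lit 250) (nat_lit 186)))) (XT.nd (nat_lit 78) (nat_lit 0) (nat_lit 0) (XT.lf (nat_lit 0) (nat_lit 5019178735) (nat_lit 152) (nat_lit 3104061796) (nat_lit 228) (nat_lit 12757051663) (nat_lit 21) (nat_lit 5) (nat_lit 23) (nat_lit 5) (nat_lit 24) (nat_lit 5) (nat_lit 345) (nat_lit 250) (nat_lit 185)) (XT.nd (nat_lit 78) (nat_lit 0) (nat_lit 0) (XT.lf (nat_lit 0) (nat_lit 11256818246) (nat_lit 228) (nat_lit 9570714395) (nat_lit 76) (nat_lit 555579051) (nat_lit 21) (nat_lit 5) (nat_lit 24) (nat_lit 5) (nat_lit 22) (nat_lit 4) (nat_lit 346)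 (nat_lit 250) (nat_lit 184)) (XT.lf (nat_lit 0) (nat_lit 14488835517) (nat_lit 228) (nat_lit 3166198232) (nat_lit 76) (nat_lit 4245874291) (nat_lit 21) (nat_lit 5) (nat_lit 24) (nat_lit 5) (nat_lit 22) (nat_lit 4) (nat_lit 347) (nat_lit 250) (nat_lit 183))))) (XT.nd (nat_lit 234) (nat_lit 152) (nat_lit 0) (XT.nd (nat_lit 78) (nat_lit 76) (nat_lit 0) (XT.lf (nat_lit 0) (nat_lit 3455294590) (nat_lit 76) (nat_lit 14370198109) (nat_lit 152) (nat_lit 4608539696) (nat_lit 20) (nat_lit 5) (nat_lit 21) (nat_lit 5) (nat_lit 22) (nat_lit 4) (nat_lit 348) (nat_lit 250) (nat_lit 182)) (XT.nd (nat_lit 78) (nat_lit 76) (nat_lit 0) (XT.lf (nat_lit 0) (nat_lit 10298169581) (nat_lit 76) (nat_lit 10970855808) (nat_lit 152) (nat_lit 1713945603) (nat_lit 20) (nat_lit 5) (nat_lit 21) (nat_lit 5) (nat_lit 22) (nat_lit 4) (nat_lit 349) (nat_lit 250) (nat_lit 181)) (XT.lf (nat_lit 0) (nat_lit 1218025521) (nat_lit 152)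 (nat_lit 6255683748) (nat_lit 76) (nat_lit 16075067208) (nat_lit 19) (nat_lit 5) (nat_lit 21) (nat_lit 5) (nat_lit 20) (nat_lit 5) (nat_lit 350) (nat_lit 250) (nat_lit 180)))) (XT.nd (nat_lit 78) (nat_lit 0) (nat_lit 0) (XT.lf (nat_lit 0) (nat_lit 315243623) (nat_lit 152) (nat_lit 3867286513) (nat_lit 228) (nat_lit 19949167974) (nat_lit 17) (nat_lit 5) (nat_lit 19) (nat_lit 5) (nat_lit 20) (nat_lit 5) (nat_lit 351) (nat_lit 250) (nat_lit 179)) (XT.nd (nat_lit 78) (nat_lit 0) (nat_lit 0) (XT.lf (nat_lit 0) (nat_lit 7171683162) (nat_lit 152) (nat_lit 103765690) (nat_lit 228) (nat_lit 17455495303) (nat_lit 17) (nat_lit 5) (nat_lit 19) (nat_lit 5) (nat_lit 20) (nat_lit 5) (nat_lit 352) (nat_lit 250) (nat_lit 178)) (XT.lf (nat_lit 0) (nat_lit 10474268298) (nat_lit 228) (nat_lit 11189866882) (nat_lit 76) (nat_lit 3683659524) (nat_lit 17) (nat_lit 5) (nat_lit 20) (nat_lit 5) (nat_lit 18) (nat_lit 4)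 (nat_lit 353) (nat_lit 250) (nat_lit 177))))))))
noncomputable def xc83 : XT := (XT.nd (nat_lit 1794) (nat_lit 304) (nat_lit 0) (XT.nd (nat_lit 858) (nat_lit 228) (nat_lit 0) (XT.nd (nat_lit 390) (nat_lit 304) (nat_lit 0) (XT.nd (nat_lit 156) (nat_lit 0) (nat_lit 0) (XT.nd (nat_lit 78) (nat_lit 76) (nat_lit 0) (XT.lf (nat_lit 0) (nat_lit 13747602081) (nat_lit 228) (nat_lit 4668525188) (nat_lit 76) (nat_lit 7567686926) (nat_lit 17) (nat_lit 5) (nat_lit 20) (nat_lit 5) (nat_lit 18) (nat_lit 4) (nat_lit 354) (nat_lit 250) (nat_lit 176)) (XT.lf (nat_lit 0) (nat_lit 2051491800) (nat_lit 76) (nat_lit 15065541331) (nat_lit 152) (nat_lit 9521963561) (nat_lit 16) (nat_lit 5) (nat_lit 17) (nat_lit 5) (nat_lit 18) (nat_lit 4) (nat_lit 355) (nat_lit 250) (nat_lit 175))) (XT.nd (nat_lit 78) (nat_lit 0) (nat_lit 0) (XT.lf (nat_lit 0) (nat_lit 9032175254) (nat_lit 76) (nat_lit 11580975340) (nat_lit 152) (nat_lit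 6699934741) (nat_lit 16) (nat_lit 5) (nat_lit 17) (nat_lit 5) (nat_lit 18) (nat_lit 4) (nat_lit 356) (nat_lit 250) (nat_lit 174)) (XT.nd (nat_lit 78) (nat_lit 0) (nat_lit 0) (XT.lf (nat_lit 0) (nat_lit 16186711994) (nat_lit 76) (nat_lit 8006527479) (nat_lit 152) (nat_lit 3814802757) (nat_lit 16) (nat_lit 5) (nat_lit 17) (nat_lit 5) (nat_lit 18) (nat_lit 4) (nat_lit 357) (nat_lit 250) (nat_lit 173)) (XT.lf (nat_lit 0) (nat_lit 23521353557) (nat_lit 76) (nat_lit 4339074445) (nat_lit 152) (nat_lit 864046618) (nat_lit 16) (nat_lit 5) (nat_lit 17) (nat_lit 5) (nat_lit 18) (nat_lit 4) (nat_lit 358) (nat_lit 250) (nat_lit 172))))) (XT.nd (nat_lit 234) (nat_lit 76) (nat_lit 0) (XT.nd (nat_lit 78) (nat_lit 0) (nat_lit 0) (XT.lf (nat_lit 0) (nat_lit 1589808903) (nat_lit 152) (nat_lit 538335222) (nat_lit 228) (nat_lit 27333784491) (nat_lit 13) (nat_lit 5) (nat_lit 15) (nat_lit 5) (nat_lit 16) (nat_lit 5)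 (nat_lit 359) (nat_lit 250) (nat_lit 171)) (XT.nd (nat_lit 78) (nat_lit 0) (nat_lit 0) (XT.lf (nat_lit 0) (nat_lit 5258451502) (nat_lit 228) (nat_lit 21602353923) (nat_lit 76) (nat_lit 3358488835) (nat_lit 13) (nat_lit 5) (nat_lit 16) (nat_lit 5) (nat_lit 14) (nat_lit 4) (nat_lit 360) (nat_lit 250) (nat_lit 170)) (XT.lf (nat_lit 0) (nat_lit 8468774448) (nat_lit 228) (nat_lit 15182910818) (nat_lit 76) (nat_lit 7348128141) (nat_lit 13) (nat_lit 5) (nat_lit 16) (nat_lit 5) (nat_lit 14) (nat_lit 4) (nat_lit 361) (nat_lit 250) (nat_lit 169)))) (XT.nd (nat_lit 78) (nat_lit 76) (nat_lit 0) (XT.lf (nat_lit 0) (nat_lit 11756743292) (nat_lit 228) (nat_lit 8603006370) (nat_lit 76) (nat_lit 11444573646) (nat_lit 13) (nat_lit 5) (nat_lit 16) (nat_lit 5) (nat_lit 14) (nat_lit 4) (nat_lit 362) (nat_lit 250) (nat_lit 168)) (XT.nd (nat_lit 78) (nat_lit 76) (nat_lit 0) (XT.lf (nat_lit 0) (nat_lit 15125231018)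 (nat_lit 228) (nat_lit 1856891147) (nat_lit 76) (nat_lit 15651404768) (nat_lit 13) (nat_lit 5) (nat_lit 16) (nat_lit 5) (nat_lit 14) (nat_lit 4) (nat_lit 363) (nat_lit 250) (nat_lit 167)) (XT.lf (nat_lit 0) (nat_lit 5162059894) (nat_lit 76) (nat_lit 13464741946) (nat_lit 152) (nat_lit 14859858362) (nat_lit 12) (nat_lit 5) (nat_lit 13) (nat_lit 5) (nat_lit 14) (nat_lit 4) (nat_lit 364) (nat_lit 250) (nat_lit 166)))))) (XT.nd (nat_lit 468) (nat_lit 76) (nat_lit 0) (XT.nd (nat_lit 234) (nat_lit 152) (nat_lit 0) (XT.nd (nat_lit 78) (nat_lit 0) (nat_lit 0) (XT.lf (nat_lit 0) (nat_lit 12399662740) (nat_lit 76) (nat_lit 9835139798) (nat_lit 152) (nat_lit 12130557420) (nat_lit 12) (nat_lit 5) (nat_lit 13) (nat_lit 5) (nat_lit 14) (nat_lit 4) (nat_lit 365) (nat_lit 250) (nat_lit 165)) (XT.nd (nat_lit 78) (nat_lit 0) (nat_lit 0) (XT.lf (nat_lit 0) (nat_lit 19825285735) (nat_lit 76) (nat_lit 6108895184)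 (nat_lit 152) (nat_lit 9336759222) (nat_lit 12) (nat_lit 5) (nat_lit 13) (nat_lit 5) (nat_lit 14) (nat_lit 4) (nat_lit 366) (nat_lit 250) (nat_lit 164)) (XT.lf (nat_lit 0) (nat_lit 27445417287) (nat_lit 76) (nat_lit 2282752161) (nat_lit 152) (nat_lit 6476022586) (nat_lit 12) (nat_lit 5) (nat_lit 13) (nat_lit 5) (nat_lit 14) (nat_lit 4) (nat_lit 367) (nat_lit 250) (nat_lit 163)))) (XT.nd (nat_lit 78) (nat_lit 152) (nat_lit 0) (XT.lf (nat_lit 0) (nat_lit 33635911701) (nat_lit 152) (nat_lit 1915043778) (nat_lit 0) (nat_lit 1614500769) (nat_lit 12) (nat_lit 5) (nat_lit 14) (nat_lit 4) (nat_lit 12) (nat_lit 4) (nat_lit 368) (nat_lit 250) (nat_lit 162)) (XT.nd (nat_lit 78) (nat_lit 76) (nat_lit 0) (XT.lf (nat_lit 0) (nat_lit 5185581468) (nat_lit 76) (nat_lit 32532214088) (nat_lit 76) (nat_lit 436067963) (nat_lit 11) (nat_lit 4) (nat_lit 12) (nat_lit 5) (nat_lit 12) (nat_lit 4) (nat_lit 369) (nat_lit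 250) (nat_lit 161)) (XT.lf (nat_lit 0) (nat_lit 2700568675) (nat_lit 152) (nat_lit 26686550153) (nat_lit 76) (nat_lit 9783902111) (nat_lit 10) (nat_lit 5) (nat_lit 12) (nat_lit 5) (nat_lit 11) (nat_lit 4) (nat_lit 370) (nat_lit 250) (nat_lit 160))))) (XT.nd (nat_lit 234) (nat_lit 76) (nat_lit 0) (XT.nd (nat_lit 78) (nat_lit 0) (nat_lit 0) (XT.lf (nat_lit 0) (nat_lit 5907484211) (nat_lit 152) (nat_lit 20246956700) (nat_lit 76) (nat_lit 14064585673) (nat_lit 10) (nat_lit 5) (nat_lit 12) (nat_lit 5) (nat_lit 11) (nat_lit 4) (nat_lit 371) (nat_lit 250) (nat_lit 159)) (XT.nd (nat_lit 78) (nat_lit 0) (nat_lit 0) (XT.lf (nat_lit 0) (nat_lit 9195990062) (nat_lit 152) (nat_lit 13639683112) (nat_lit 76) (nat_lit 18463248770) (nat_lit 10) (nat_lit 5) (nat_lit 12) (nat_lit 5) (nat_lit 11) (nat_lit 4) (nat_lit 372) (nat_lit 250) (nat_lit 158)) (XT.lf (nat_lit 0) (nat_lit 12568959678) (nat_lit 152) (nat_lit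 6858956042) (nat_lit 76) (nat_lit 22983734893) (nat_lit 10) (nat_lit 5) (nat_lit 12) (nat_lit 5) (nat_lit 11) (nat_lit 4) (nat_lit 373) (nat_lit 250) (nat_lit 157)))) (XT.nd (nat_lit 78) (nat_lit 0) (nat_lit 0) (XT.lf (nat_lit 0) (nat_lit 103162487) (nat_lit 76) (nat_lit 15927169488) (nat_lit 152) (nat_lit 27527823156) (nat_lit 9) (nat_lit 5) (nat_lit 10) (nat_lit 5) (nat_lit 11) (nat_lit 4) (nat_lit 374) (nat_lit 250) (nat_lit 156)) (XT.nd (nat_lit 78) (nat_lit 0) (nat_lit 0) (XT.lf (nat_lit 0) (nat_lit 7390938745) (nat_lit 76) (nat_lit 12260263085) (nat_lit 152) (nat_lit 25086193355) (nat_lit 9) (nat_lit 5) (nat_lit 10) (nat_lit 5) (nat_lit 11) (nat_lit 4) (nat_lit 375) (nat_lit 250) (nat_lit 155)) (XT.lf (nat_lit 0) (nat_lit 14874234014) (nat_lit 76) (nat_lit 8493254426) (nat_lit 152) (nat_lit 22584930079) (nat_lit 9) (nat_lit 5) (nat_lit 10) (nat_lit 5) (nat_lit 11) (nat_lit 4) (nat_lit 376)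 (nat_lit 250) (nat_lit 154))))))) (XT.nd (nat_lit 936) (nat_lit 152) (nat_lit 0) (XT.nd (nat_lit 468) (nat_lit 76) (nat_lit 0) (XT.nd (nat_lit 234) (nat_lit 76) (nat_lit 0) (XT.nd (nat_lit 78) (nat_lit 0) (nat_lit 0) (XT.lf (nat_lit 0) (nat_lit 22559587098) (nat_lit 76) (nat_lit 4622851951) (nat_lit 152) (nat_lit 20021847756) (nat_lit 9) (nat_lit 5) (nat_lit 10) (nat_lit 5) (nat_lit 11) (nat_lit 4) (nat_lit 377) (nat_lit 250) (nat_lit 153)) (XT.nd (nat_lit 78) (nat_lit 0) (nat_lit 0) (XT.lf (nat_lit 0) (nat_lit 30453713352) (nat_lit 76) (nat_lit 645673754) (nat_lit 152) (nat_lit 17394706802) (nat_lit 9) (nat_lit 5) (nat_lit 10) (nat_lit 5) (nat_lit 11) (nat_lit 4) (nat_lit 378) (nat_lit 250) (nat_lit 152)) (XT.lf (nat_lit 0) (nat_lit 35154839447) (nat_lit 152) (nat_lit 11292540544) (nat_lit 0) (nat_lit 3374594324) (nat_lit 9) (nat_lit 5) (nat_lit 11) (nat_lit 4) (nat_lit 9) (nat_lit 4) (nat_lit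 379) (nat_lit 250) (nat_lit 151)))) (XT.nd (nat_lit 78) (nat_lit 76) (nat_lit 0) (XT.lf (nat_lit 0) (nat_lit 39326527246) (nat_lit 152) (nat_lit 4369471076) (nat_lit 0) (nat_lit 7493864363) (nat_lit 9) (nat_lit 5) (nat_lit 11) (nat_lit 4) (nat_lit 9) (nat_lit 4) (nat_lit 380) (nat_lit 250) (nat_lit 150)) (XT.nd (nat_lit 78) (nat_lit 0) (nat_lit 0) (XT.lf (nat_lit 0) (nat_lit 2795636682) (nat_lit 76) (nat_lit 40843125744) (nat_lit 76) (nat_lit 8959571831) (nat_lit 8) (nat_lit 4) (nat_lit 9) (nat_lit 5) (nat_lit 9) (nat_lit 4) (nat_lit 381) (nat_lit 250) (nat_lit 149)) (XT.lf (nat_lit 0) (nat_lit 10245258920) (nat_lit 76) (nat_lit 37867894144) (nat_lit 76) (nat_lit 5934931465) (nat_lit 8) (nat_lit 4) (nat_lit 9) (nat_lit 5) (nat_lit 9) (nat_lit 4) (nat_lit 382) (nat_lit 250) (nat_lit 148))))) (XT.nd (nat_lit 234) (nat_lit 0) (nat_lit 0) (XT.nd (nat_lit 78) (nat_lit 76) (nat_lit 0) (XT.lf (nat_lit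 0) (nat_lit 17898943972) (nat_lit 76) (nat_lit 34811826898) (nat_lit 76) (nat_lit 2830894542) (nat_lit 8) (nat_lit 4) (nat_lit 9) (nat_lit 5) (nat_lit 9) (nat_lit 4) (nat_lit 383) (nat_lit 250) (nat_lit 147)) (XT.nd (nat_lit 78) (nat_lit 0) (nat_lit 0) (XT.lf (nat_lit 0) (nat_lit 348318970) (nat_lit 152) (nat_lit 31320417347) (nat_lit 76) (nat_lit 25411543217) (nat_lit 7) (nat_lit 5) (nat_lit 9) (nat_lit 5) (nat_lit 8) (nat_lit 4) (nat_lit 384) (nat_lit 250) (nat_lit 146)) (XT.lf (nat_lit 0) (nat_lit 3555527801) (nat_lit 152) (nat_lit 24854999440) (nat_lit 76) (nat_lit 30254005755) (nat_lit 7) (nat_lit 5) (nat_lit 9) (nat_lit 5) (nat_lit 8) (nat_lit 4) (nat_lit 385) (nat_lit 250) (nat_lit 145)))) (XT.nd (nat_lit 78) (nat_lit 0) (nat_lit 0) (XT.lf (nat_lit 0) (nat_lit 6848775315) (nat_lit 152) (nat_lit 18213606035) (nat_lit 76) (nat_lit 35234245119) (nat_lit 7) (nat_lit 5) (nat_lit 9) (nat_lit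 5) (nat_lit 8) (nat_lit 4) (nat_lit 386) (nat_lit 250) (nat_lit 144)) (XT.nd (nat_lit 78) (nat_lit 0) (nat_lit 0) (XT.lf (nat_lit 0) (nat_lit 10230939107) (nat_lit 152) (nat_lit 11390433973) (nat_lit 76) (nat_lit 40356612973) (nat_lit 7) (nat_lit 5) (nat_lit 9) (nat_lit 5) (nat_lit 8) (nat_lit 4) (nat_lit 387) (nat_lit 250) (nat_lit 143)) (XT.lf (nat_lit 0) (nat_lit 13704974466) (nat_lit 152) (nat_lit 4379521260) (nat_lit 76) (nat_lit 45625585172) (nat_lit 7) (nat_lit 5) (nat_lit 9) (nat_lit 5) (nat_lit 8) (nat_lit 4) (nat_lit 388) (nat_lit 250) (nat_lit 142)))))) (XT.nd (nat_lit 468) (nat_lit 76) (nat_lit 0) (XT.nd (nat_lit 234) (nat_lit 0) (nat_lit 0) (XT.nd (nat_lit 78) (nat_lit 0) (nat_lit 0) (XT.lf (nat_lit 0) (nat_lit 2881486322) (nat_lit 76) (nat_lit 14420129243) (nat_lit 152) (nat_lit 48191977961) (nat_lit 6) (nat_lit 5) (nat_lit 7) (nat_lit 5) (nat_lit 8) (nat_lit 4) (nat_lit 389) (nat_lit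 250) (nat_lit 141)) (XT.nd (nat_lit 78) (nat_lit 0) (nat_lit 0) (XT.lf (nat_lit 0) (nat_lit 10433800714) (nat_lit 76) (nat_lit 10607380431) (nat_lit 152) (nat_lit 46288385919) (nat_lit 6) (nat_lit 5) (nat_lit 7) (nat_lit 5) (nat_lit 8) (nat_lit 4) (nat_lit 390) (nat_lit 250) (nat_lit 140)) (XT.lf (nat_lit 0) (nat_lit 18196859966) (nat_lit 76) (nat_lit 6687142340) (nat_lit 152) (nat_lit 44336891551) (nat_lit 6) (nat_lit 5) (nat_lit 7) (nat_lit 5) (nat_lit 8) (nat_lit 4) (nat_lit 391) (nat_lit 250) (nat_lit 139)))) (XT.nd (nat_lit 78) (nat_lit 0) (nat_lit 0) (XT.lf (nat_lit 0) (nat_lit 26177447332) (nat_lit 76) (nat_lit 2655989521) (nat_lit 152) (nat_lit 42335789667) (nat_lit 6) (nat_lit 5) (nat_lit 7) (nat_lit 5) (nat_lit 8) (nat_lit 4) (nat_lit 392) (nat_lit 250) (nat_lit 138)) (XT.nd (nat_lit 78) (nat_lit 0) (nat_lit 0) (XT.lf (nat_lit 0) (nat_lit 32907254697) (nat_lit 152) (nat_lit 38808050287)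 (nat_lit 0) (nat_lit 1460532926) (nat_lit 6) (nat_lit 5) (nat_lit 8) (nat_lit 4) (nat_lit 6) (nat_lit 4) (nat_lit 393) (nat_lit 250) (nat_lit 137)) (XT.lf (nat_lit 0) (nat_lit 37121349879) (nat_lit 152) (nat_lit 32479778325) (nat_lit 0) (nat_lit 5640983142) (nat_lit 6) (nat_lit 5) (nat_lit 8) (nat_lit 4) (nat_lit 6) (nat_lit 4) (nat_lit 394) (nat_lit 250) (nat_lit 136))))) (XT.nd (nat_lit 234) (nat_lit 76) (nat_lit 0) (XT.nd (nat_lit 78) (nat_lit 0) (nat_lit 0) (XT.lf (nat_lit 0) (nat_lit 41453873622) (nat_lit 152) (nat_lit 25975902748) (nat_lit 0) (nat_lit 9940841869) (nat_lit 6) (nat_lit 5) (nat_lit 8) (nat_lit 4) (nat_lit 6) (nat_lit 4) (nat_lit 395) (nat_lit 250) (nat_lit 135)) (XT.nd (nat_lit 78) (nat_lit 0) (nat_lit 0) (XT.lf (nat_lit 0) (nat_lit 45908611626) (nat_lit 152) (nat_lit 19290740557) (nat_lit 0) (nat_lit 14363866267) (nat_lit 6) (nat_lit 5) (nat_lit 8) (nat_lit 4) (nat_lit 6)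 (nat_lit 4) (nat_lit 396) (nat_lit 250) (nat_lit 134)) (XT.lf (nat_lit 0) (nat_lit 50489456381) (nat_lit 152) (nat_lit 12418450349) (nat_lit 0) (nat_lit 18913921112) (nat_lit 6) (nat_lit 5) (nat_lit 8) (nat_lit 4) (nat_lit 6) (nat_lit 4) (nat_lit 397) (nat_lit 250) (nat_lit 133)))) (XT.nd (nat_lit 78) (nat_lit 76) (nat_lit 0) (XT.lf (nat_lit 0) (nat_lit 55200410568) (nat_lit 152) (nat_lit 5353027210) (nat_lit 0) (nat_lit 23594982182) (nat_lit 6) (nat_lit 5) (nat_lit 8) (nat_lit 4) (nat_lit 6) (nat_lit 4) (nat_lit 398) (nat_lit 250) (nat_lit 132)) (XT.nd (nat_lit 78) (nat_lit 0) (nat_lit 0) (XT.lf (nat_lit 0) (nat_lit 1949749159) (nat_lit 76) (nat_lit 58114583574) (nat_lit 76) (nat_lit 26480132746) (nat_lit 5) (nat_lit 4) (nat_lit 6) (nat_lit 5) (nat_lit 6) (nat_lit 4) (nat_lit 399) (nat_lit 250) (nat_lit 131)) (XT.lf (nat_lit 0) (nat_lit 9568808617) (nat_lit 76) (nat_lit 55552402613) (nat_lit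 76) (nat_lit 23889774655) (nat_lit 5) (nat_lit 4) (nat_lit 6) (nat_lit 5) (nat_lit 6) (nat_lit 4) (nat_lit 400) (nat_lit 250) (nat_lit 130))))))))
noncomputable def xc84 : XT := (XT.nd (nat_lit 32682) (nat_lit 0) (nat_lit 3040) (XT.nd (nat_lit 31746) (nat_lit 0) (nat_lit 7448) (XT.nd (nat_lit 31278) (nat_lit 0) (nat_lit 11552) (XT.nd (nat_lit 31044) (nat_lit 0) (nat_lit 14744) (XT.nd (nat_lit 30966) (nat_lit 0) (nat_lit 16416) (XT.lf (nat_lit 0) (nat_lit 25462988397) (nat_lit 76) (nat_lit 50211207972) (nat_lit 76) (nat_lit 18494663931) (nat_lit 5) (nat_lit 4) (nat_lit 6) (nat_lit 5) (nat_lit 6) (nat_lit 4) (nat_lit 402) (nat_lit 250) (nat_lit 128)) (XT.lf (nat_lit 0) (nat_lit 1124273239) (nat_lit 684) (nat_lit 1143529972) (nat_lit 684) (nat_lit 1143529972) (nat_lit 221) (nat_lit 4) (nat_lit 230) (nat_lit 5) (nat_lit 230) (nat_lit 4) (nat_lit 278) (nat_lit 251) (nat_lit 251))) (XT.nd (nat_lit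 78) (nat_lit 1596) (nat_lit 0) (XT.lf (nat_lit 0) (nat_lit 646245685) (nat_lit 760) (nat_lit 562177632) (nat_lit 76) (nat_lit 5659517859) (nat_lit 220) (nat_lit 5) (nat_lit 230) (nat_lit 5) (nat_lit 221) (nat_lit 4) (nat_lit 279) (nat_lit 251) (nat_lit 250)) (XT.nd (nat_lit 78) (nat_lit 836) (nat_lit 0) (XT.lf (nat_lit 0) (nat_lit 3537125461) (nat_lit 760) (nat_lit 24773082) (nat_lit 836) (nat_lit 3354080286) (nat_lit 210) (nat_lit 5) (nat_lit 220) (nat_lit 5) (nat_lit 221) (nat_lit 4) (nat_lit 280) (nat_lit 251) (nat_lit 249)) (XT.lf (nat_lit 0) (nat_lit 726524738) (nat_lit 836) (nat_lit 5771108252) (nat_lit 836) (nat_lit 470131112) (nat_lit 199) (nat_lit 4) (nat_lit 210) (nat_lit 5) (nat_lit 210) (nat_lit 4) (nat_lit 281) (nat_lit 251) (nat_lit 248))))) (XT.nd (nat_lit 234) (nat_lit 2128) (nat_lit 0) (XT.nd (nat_lit 78) (nat_lit 988) (nat_lit 0) (XT.lf (nat_lit 0) (nat_lit 2395392881) (nat_lit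 912) (nat_lit 2103404405) (nat_lit 76) (nat_lit 2523537695) (nat_lit 198) (nat_lit 5) (nat_lit 210) (nat_lit 5) (nat_lit 199) (nat_lit 4) (nat_lit 282) (nat_lit 251) (nat_lit 247)) (XT.nd (nat_lit 78) (nat_lit 76) (nat_lit 0) (XT.lf (nat_lit 0) (nat_lit 2114557377) (nat_lit 912) (nat_lit 3154992781) (nat_lit 988) (nat_lit 1811150362) (nat_lit 186) (nat_lit 5) (nat_lit 198) (nat_lit 5) (nat_lit 199) (nat_lit 4) (nat_lit 283) (nat_lit 251) (nat_lit 246)) (XT.lf (nat_lit 0) (nat_lit 1001801654) (nat_lit 988) (nat_lit 730496719) (nat_lit 76) (nat_lit 5410432117) (nat_lit 185) (nat_lit 5) (nat_lit 198) (nat_lit 5) (nat_lit 186) (nat_lit 5) (nat_lit 284) (nat_lit 251) (nat_lit 245)))) (XT.nd (nat_lit 78) (nat_lit 1140) (nat_lit 0) (XT.lf (nat_lit 0) (nat_lit 3605207299) (nat_lit 988) (nat_lit 207225463) (nat_lit 1064) (nat_lit 3395398403) (nat_lit 172) (nat_lit 5) (nat_lit 185) (nat_lit 5) (nat_lit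 186) (nat_lit 5) (nat_lit 285) (nat_lit 251) (nat_lit 244)) (XT.nd (nat_lit 78) (nat_lit 76) (nat_lit 0) (XT.lf (nat_lit 0) (nat_lit 730951503) (nat_lit 1064) (nat_lit 5920815171) (nat_lit 1140) (nat_lit 625018281) (nat_lit 158) (nat_lit 5) (nat_lit 172) (nat_lit 5) (nat_lit 173) (nat_lit 4) (nat_lit 286) (nat_lit 251) (nat_lit 243)) (XT.lf (nat_lit 0) (nat_lit 2141199564) (nat_lit 1140) (nat_lit 2184653033) (nat_lit 76) (nat_lit 3022844075) (nat_lit 157) (nat_lit 5) (nat_lit 172) (nat_lit 5) (nat_lit 158) (nat_lit 5) (nat_lit 287) (nat_lit 251) (nat_lit 242)))))) (XT.nd (nat_lit 468) (nat_lit 1596) (nat_lit 0) (XT.nd (nat_lit 234) (nat_lit 1064) (nat_lit 0) (XT.nd (nat_lit 78) (nat_lit 608) (nat_lit 0) (XT.lf (nat_lit 0) (nat_lit 2265293015) (nat_lit 836) (nat_lit 2654149784) (nat_lit 912) (nat_lit 2505101216) (nat_lit 146) (nat_lit 5) (nat_lit 157) (nat_lit 5) (nat_lit 158) (nat_lit 5) (nat_lit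 288) (nat_lit 251) (nat_lit 241)) (XT.nd (nat_lit 78) (nat_lit 532) (nat_lit 0) (XT.lf (nat_lit 0) (nat_lit 215632367) (nat_lit 912) (nat_lit 692462488) (nat_lit 76) (nat_lit 6596410505) (nat_lit 145) (nat_lit 5) (nat_lit 157) (nat_lit 5) (nat_lit 146) (nat_lit 5) (nat_lit 289) (nat_lit 251) (nat_lit 240)) (XT.lf (nat_lit 0) (nat_lit 2936835812) (nat_lit 608) (nat_lit 3716146191) (nat_lit 76) (nat_lit 934257483) (nat_lit 138) (nat_lit 5) (nat_lit 146) (nat_lit 5) (nat_lit 139) (nat_lit 5) (nat_lit 290) (nat_lit 251) (nat_lit 239)))) (XT.nd (nat_lit 78) (nat_lit 532) (nat_lit 0) (XT.lf (nat_lit 0) (nat_lit 840454035) (nat_lit 532) (nat_lit 4847569636) (nat_lit 608) (nat_lit 1986169836) (nat_lit 131) (nat_lit 5) (nat_lit 138) (nat_lit 5) (nat_lit 139) (nat_lit 5) (nat_lit 291) (nat_lit 251) (nat_lit 238)) (XT.nd (nat_lit 78) (nat_lit 456) (nat_lit 0) (XT.lf (nat_lit 0) (nat_lit 705840559) (nat_lit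 608) (nat_lit 2241636360) (nat_lit 76) (nat_lit 4817358931) (nat_lit 130) (nat_lit 5) (nat_lit 138) (nat_lit 5) (nat_lit 131) (nat_lit 5) (nat_lit 292) (nat_lit 251) (nat_lit 237)) (XT.lf (nat_lit 0) (nat_lit 2437213126) (nat_lit 456) (nat_lit 951841364) (nat_lit 532) (nat_lit 4470214463) (nat_lit 124) (nat_lit 5) (nat_lit 130) (nat_lit 5) (nat_lit 131) (nat_lit 5) (nat_lit 293) (nat_lit 251) (nat_lit 236))))) (XT.nd (nat_lit 234) (nat_lit 532) (nat_lit 0) (XT.nd (nat_lit 78) (nat_lit 1064) (nat_lit 0) (XT.lf (nat_lit 0) (nat_lit 6114484469) (nat_lit 532) (nat_lit 744702530) (nat_lit 76) (nat_lit 1098663779) (nat_lit 124) (nat_lit 5) (nat_lit 131) (nat_lit 5) (nat_lit 125) (nat_lit 5) (nat_lit 294) (nat_lit 251) (nat_lit 235)) (XT.nd (nat_lit 78) (nat_lit 456) (nat_lit 0) (XT.lf (nat_lit 0) (nat_lit 823929905) (nat_lit 608) (nat_lit 4003450006) (nat_lit 76) (nat_lit 3232565130) (nat_lit 116)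 (nat_lit 5) (nat_lit 124) (nat_lit 5) (nat_lit 117) (nat_lit 5) (nat_lit 295) (nat_lit 251) (nat_lit 234)) (XT.lf (nat_lit 0) (nat_lit 770001052) (nat_lit 456) (nat_lit 2709984821) (nat_lit 532) (nat_lit 4686348124) (nat_lit 110) (nat_lit 5) (nat_lit 116) (nat_lit 5) (nat_lit 117) (nat_lit 5) (nat_lit 296) (nat_lit 251) (nat_lit 233)))) (XT.nd (nat_lit 78) (nat_lit 532) (nat_lit 0) (XT.lf (nat_lit 0) (nat_lit 5690678649) (nat_lit 456) (nat_lit 497531847) (nat_lit 532) (nat_lit 2088678176) (nat_lit 110) (nat_lit 5) (nat_lit 116) (nat_lit 5) (nat_lit 117) (nat_lit 5) (nat_lit 297) (nat_lit 251) (nat_lit 232)) (XT.nd (nat_lit 78) (nat_lit 0) (nat_lit 0) (XT.lf (nat_lit 0) (nat_lit 548418194) (nat_lit 532) (nat_lit 6078543175) (nat_lit 76) (nat_lit 1764581014) (nat_lit 103) (nat_lit 5) (nat_lit 110) (nat_lit 5) (nat_lit 104) (nat_lit 5) (nat_lit 298) (nat_lit 251) (nat_lit 231)) (XT.lf (nat_lit 0)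 (nat_lit 3188295624) (nat_lit 532) (nat_lit 1200996806) (nat_lit 76) (nat_lit 4120889464) (nat_lit 103) (nat_lit 5) (nat_lit 110) (nat_lit 5) (nat_lit 104) (nat_lit 5) (nat_lit 299) (nat_lit 251) (nat_lit 230))))))) (XT.nd (nat_lit 858) (nat_lit 1748) (nat_lit 0) (XT.nd (nat_lit 390) (nat_lit 1444) (nat_lit 0) (XT.nd (nat_lit 156) (nat_lit 456) (nat_lit 0) (XT.nd (nat_lit 78) (nat_lit 380) (nat_lit 0) (XT.lf (nat_lit 0) (nat_lit 3821248638) (nat_lit 380) (nat_lit 2059113358) (nat_lit 456) (nat_lit 2752960901) (nat_lit 98) (nat_lit 5) (nat_lit 103) (nat_lit 5) (nat_lit 104) (nat_lit 5) (nat_lit 300) (nat_lit 251) (nat_lit 229)) (XT.lf (nat_lit 0) (nat_lit 181806689) (nat_lit 380) (nat_lit 8425925001) (nat_lit 456) (nat_lit 153918436) (nat_lit 93) (nat_lit 5) (nat_lit 98) (nat_lit 5) (nat_lit 99) (nat_lit 5) (nat_lit 301) (nat_lit 251) (nat_lit 228))) (XT.nd (nat_lit 78) (nat_lit 380) (nat_lit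 0) (XT.lf (nat_lit 0) (nat_lit 2480948506) (nat_lit 456) (nat_lit 3591278240) (nat_lit 76) (nat_lit 2820781058) (nat_lit 92) (nat_lit 5) (nat_lit 98) (nat_lit 5) (nat_lit 93) (nat_lit 5) (nat_lit 302) (nat_lit 251) (nat_lit 227)) (XT.nd (nat_lit 78) (nat_lit 0) (nat_lit 0) (XT.lf (nat_lit 0) (nat_lit 1499007106) (nat_lit 380) (nat_lit 3646613798) (nat_lit 456) (nat_lit 3884141354) (nat_lit 87) (nat_lit 5) (nat_lit 92) (nat_lit 5) (nat_lit 93) (nat_lit 5) (nat_lit 303) (nat_lit 251) (nat_lit 226)) (XT.lf (nat_lit 0) (nat_lit 6740696612) (nat_lit 380) (nat_lit 1126288990) (nat_lit 456) (nat_lit 1304445115) (nat_lit 87) (nat_lit 5) (nat_lit 92) (nat_lit 5) (nat_lit 93) (nat_lit 5) (nat_lit 304) (nat_lit 251) (nat_lit 225))))) (XT.nd (nat_lit 234) (nat_lit 684) (nat_lit 0) (XT.nd (nat_lit 78) (nat_lit 304) (nat_lit 0) (XT.lf (nat_lit 0) (nat_lit 1308975511) (nat_lit 456) (nat_lit 6542676033) (nat_lit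 76) (nat_lit 1465933159) (nat_lit 81) (nat_lit 5) (nat_lit 87) (nat_lit 5) (nat_lit 82) (nat_lit 5) (nat_lit 305) (nat_lit 251) (nat_lit 224)) (XT.nd (nat_lit 78) (nat_lit 304) (nat_lit 0) (XT.lf (nat_lit 0) (nat_lit 3952907009) (nat_lit 456) (nat_lit 1380109409) (nat_lit 76) (nat_lit 4135473909) (nat_lit 81) (nat_lit 5) (nat_lit 87) (nat_lit 5) (nat_lit 82) (nat_lit 5) (nat_lit 306) (nat_lit 251) (nat_lit 223)) (XT.lf (nat_lit 0) (nat_lit 3941468630) (nat_lit 304) (nat_lit 2716639956) (nat_lit 380) (nat_lit 2966457199) (nat_lit 77) (nat_lit 5) (nat_lit 81) (nat_lit 5) (nat_lit 82) (nat_lit 5) (nat_lit 307) (nat_lit 251) (nat_lit 222)))) (XT.nd (nat_lit 78) (nat_lit 684) (nat_lit 0) (XT.lf (nat_lit 0) (nat_lit 9378920577) (nat_lit 304) (nat_lit 24482829) (nat_lit 380) (nat_lit 383250270) (nat_lit 77) (nat_lit 5) (nat_lit 81) (nat_lit 5) (nat_lit 82) (nat_lit 5) (nat_lit 308) (nat_lit 251) (nat_lit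 221)) (XT.nd (nat_lit 78) (nat_lit 304) (nat_lit 0) (XT.lf (nat_lit 0) (nat_lit 2254304217) (nat_lit 380) (nat_lit 4949120347) (nat_lit 76) (nat_lit 2748976732) (nat_lit 72) (nat_lit 5) (nat_lit 77) (nat_lit 5) (nat_lit 73) (nat_lit 5) (nat_lit 309) (nat_lit 251) (nat_lit 220)) (XT.lf (nat_lit 0) (nat_lit 393636323) (nat_lit 304) (nat_lit 4524540777) (nat_lit 380) (nat_lit 5206273510) (nat_lit 68) (nat_lit 5) (nat_lit 72) (nat_lit 5) (nat_lit 73) (nat_lit 5) (nat_lit 310) (nat_lit 251) (nat_lit 219)))))) (XT.nd (nat_lit 468) (nat_lit 836) (nat_lit 0) (XT.nd (nat_lit 234) (nat_lit 532) (nat_lit 0) (XT.nd (nat_lit 78) (nat_lit 380) (nat_lit 0) (XT.lf (nat_lit 0) (nat_lit 5926880294) (nat_lit 304) (nat_lit 1732639903) (nat_lit 380) (nat_lit 2642301907) (nat_lit 68) (nat_lit 5) (nat_lit 72) (nat_lit 5) (nat_lit 73) (nat_lit 5) (nat_lit 311) (nat_lit 251) (nat_lit 218)) (XT.nd (nat_lit 78) (nat_lit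 76) (nat_lit 0) (XT.lf (nat_lit 0) (nat_lit 1081107450) (nat_lit 304) (nat_lit 9372304584) (nat_lit 380) (nat_lit 32078235) (nat_lit 64) (nat_lit 5) (nat_lit 68) (nat_lit 5) (nat_lit 69) (nat_lit 5) (nat_lit 312) (nat_lit 251) (nat_lit 217)) (XT.lf (nat_lit 0) (nat_lit 2615551732) (nat_lit 380) (nat_lit 3996958299) (nat_lit 76) (nat_lit 4061144202) (nat_lit 63) (nat_lit 5) (nat_lit 68) (nat_lit 5) (nat_lit 64) (nat_lit 5) (nat_lit 313) (nat_lit 251) (nat_lit 216)))) (XT.nd (nat_lit 78) (nat_lit 304) (nat_lit 0) (XT.lf (nat_lit 0) (nat_lit 1533353102) (nat_lit 228) (nat_lit 3773998829) (nat_lit 304) (nat_lit 5561217659) (nat_lit 60) (nat_lit 5) (nat_lit 63) (nat_lit 5) (nat_lit 64) (nat_lit 5) (nat_lit 314) (nat_lit 251) (nat_lit 215)) (XT.nd (nat_lit 78) (nat_lit 304) (nat_lit 0) (XT.lf (nat_lit 0) (nat_lit 7243243962) (nat_lit 228) (nat_lit 828451450) (nat_lit 304) (nat_lit 2997958643) (nat_lit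 60) (nat_lit 5) (nat_lit 63) (nat_lit 5) (nat_lit 64) (nat_lit 5) (nat_lit 315) (nat_lit 251) (nat_lit 214)) (XT.lf (nat_lit 0) (nat_lit 1793885982) (nat_lit 304) (nat_lit 9116186182) (nat_lit 380) (nat_lit 367038934) (nat_lit 56) (nat_lit 5) (nat_lit 60) (nat_lit 5) (nat_lit 61) (nat_lit 5) (nat_lit 316) (nat_lit 251) (nat_lit 213))))) (XT.nd (nat_lit 234) (nat_lit 532) (nat_lit 0) (XT.nd (nat_lit 78) (nat_lit 228) (nat_lit 0) (XT.lf (nat_lit 0) (nat_lit 2297179382) (nat_lit 380) (nat_lit 3927433575) (nat_lit 76) (nat_lit 5265569581) (nat_lit 55) (nat_lit 5) (nat_lit 60) (nat_lit 5) (nat_lit 56) (nat_lit 5) (nat_lit 317) (nat_lit 251) (nat_lit 212)) (XT.nd (nat_lit 78) (nat_lit 0) (nat_lit 0) (XT.lf (nat_lit 0) (nat_lit 1759791974) (nat_lit 228) (nat_lit 3245307615) (nat_lit 304) (nat_lit 6705369866) (nat_lit 52) (nat_lit 5) (nat_lit 55) (nat_lit 5) (nat_lit 56) (nat_lit 5) (nat_lit 318) (nat_lit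 251) (nat_lit 211)) (XT.lf (nat_lit 0) (nat_lit 7632843785) (nat_lit 228) (nat_lit 156014487) (nat_lit 304) (nat_lit 4148733655) (nat_lit 52) (nat_lit 5) (nat_lit 55) (nat_lit 5) (nat_lit 56) (nat_lit 5) (nat_lit 319) (nat_lit 251) (nat_lit 210)))) (XT.nd (nat_lit 78) (nat_lit 304) (nat_lit 0) (XT.lf (nat_lit 0) (nat_lit 1445086872) (nat_lit 228) (nat_lit 9210086237) (nat_lit 304) (nat_lit 1516446749) (nat_lit 49) (nat_lit 5) (nat_lit 52) (nat_lit 5) (nat_lit 53) (nat_lit 5) (nat_lit 320) (nat_lit 251) (nat_lit 209)) (XT.nd (nat_lit 78) (nat_lit 228) (nat_lit 0) (XT.lf (nat_lit 0) (nat_lit 1173179786) (nat_lit 304) (nat_lit 5034045676) (nat_lit 76) (nat_lit 6205107487) (nat_lit 48) (nat_lit 5) (nat_lit 52) (nat_lit 5) (nat_lit 49) (nat_lit 5) (nat_lit 321) (nat_lit 251) (nat_lit 208)) (XT.lf (nat_lit 0) (nat_lit 766161361) (nat_lit 228) (nat_lit 3111735451) (nat_lit 304) (nat_lit 8783031500)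 (nat_lit 45) (nat_lit 5) (nat_lit 48) (nat_lit 5) (nat_lit 49) (nat_lit 5) (nat_lit 322) (nat_lit 251) (nat_lit 207))))))))
noncomputable def xc85 : XT := (XT.nd (nat_lit 1794) (nat_lit 684) (nat_lit 0) (XT.nd (nat_lit 858) (nat_lit 912) (nat_lit 0) (XT.nd (nat_lit 390) (nat_lit 456) (nat_lit 0) (XT.nd (nat_lit 156) (nat_lit 456) (nat_lit 0) (XT.nd (nat_lit 78) (nat_lit 0) (nat_lit 0) (XT.lf (nat_lit 0) (nat_lit 6673785624) (nat_lit 304) (nat_lit 6136616412) (nat_lit 76) (nat_lit 106334640) (nat_lit 45) (nat_lit 5) (nat_lit 49) (nat_lit 5) (nat_lit 46) (nat_lit 5) (nat_lit 323) (nat_lit 251) (nat_lit 206)) (XT.lf (nat_lit 0) (nat_lit 9543541397) (nat_lit 304) (nat_lit 298169150) (nat_lit 76) (nat_lit 3338863451) (nat_lit 45) (nat_lit 5) (nat_lit 49) (nat_lit 5) (nat_lit 46) (nat_lit 5) (nat_lit 324) (nat_lit 251) (nat_lit 205))) (XT.nd (nat_lit 78) (nat_lit 228) (nat_lit 0) (XT.lf (nat_lit 0)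 (nat_lit 5768145588) (nat_lit 228) (nat_lit 6747061134) (nat_lit 304) (nat_lit 936698044) (nat_lit 42) (nat_lit 5) (nat_lit 45) (nat_lit 5) (nat_lit 46) (nat_lit 5) (nat_lit 325) (nat_lit 251) (nat_lit 204)) (XT.nd (nat_lit 78) (nat_lit 152) (nat_lit 0) (XT.lf (nat_lit 0) (nat_lit 1772209307) (nat_lit 304) (nat_lit 1786576978) (nat_lit 76) (nat_lit 10173200262) (nat_lit 41) (nat_lit 5) (nat_lit 45) (nat_lit 5) (nat_lit 42) (nat_lit 5) (nat_lit 326) (nat_lit 251) (nat_lit 203)) (XT.lf (nat_lit 0) (nat_lit 4303888969) (nat_lit 152) (nat_lit 242707509) (nat_lit 228) (nat_lit 9473553244) (nat_lit 39) (nat_lit 5) (nat_lit 41) (nat_lit 5) (nat_lit 42) (nat_lit 5) (nat_lit 327) (nat_lit 251) (nat_lit 202))))) (XT.nd (nat_lit 234) (nat_lit 228) (nat_lit 0) (XT.nd (nat_lit 78) (nat_lit 228) (nat_lit 0) (XT.lf (nat_lit 0) (nat_lit 7414970829) (nat_lit 228) (nat_lit 3792160338) (nat_lit 76) (nat_lit 3109550900)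 (nat_lit 39) (nat_lit 5) (nat_lit 42) (nat_lit 5) (nat_lit 40) (nat_lit 5) (nat_lit 328) (nat_lit 251) (nat_lit 201)) (XT.nd (nat_lit 78) (nat_lit 0) (nat_lit 0) (XT.lf (nat_lit 0) (nat_lit 2294997387) (nat_lit 228) (nat_lit 8062005320) (nat_lit 304) (nat_lit 4265525060) (nat_lit 36) (nat_lit 5) (nat_lit 39) (nat_lit 5) (nat_lit 40) (nat_lit 5) (nat_lit 329) (nat_lit 251) (nat_lit 200)) (XT.lf (nat_lit 0) (nat_lit 8586018371) (nat_lit 228) (nat_lit 4803243426) (nat_lit 304) (nat_lit 1548272298) (nat_lit 36) (nat_lit 5) (nat_lit 39) (nat_lit 5) (nat_lit 40) (nat_lit 5) (nat_lit 330) (nat_lit 251) (nat_lit 199)))) (XT.nd (nat_lit 78) (nat_lit 152) (nat_lit 0) (XT.lf (nat_lit 0) (nat_lit 1190435951) (nat_lit 304) (nat_lit 263834389) (nat_lit 76) (nat_lit 13808471173) (nat_lit 35) (nat_lit 5) (nat_lit 39) (nat_lit 5) (nat_lit 36) (nat_lit 5) (nat_lit 331) (nat_lit 251) (nat_lit 198)) (XT.nd (nat_lit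 78) (nat_lit 0) (nat_lit 0) (XT.lf (nat_lit 0) (nat_lit 4023493449) (nat_lit 228) (nat_lit 9560963693) (nat_lit 76) (nat_lit 2011529419) (nat_lit 33) (nat_lit 5) (nat_lit 36) (nat_lit 5) (nat_lit 34) (nat_lit 5) (nat_lit 332) (nat_lit 251) (nat_lit 197)) (XT.lf (nat_lit 0) (nat_lit 6924319215) (nat_lit 228) (nat_lit 3479642198) (nat_lit 76) (nat_lit 5535823561) (nat_lit 33) (nat_lit 5) (nat_lit 36) (nat_lit 5) (nat_lit 34) (nat_lit 5) (nat_lit 333) (nat_lit 251) (nat_lit 196)))))) (XT.nd (nat_lit 468) (nat_lit 380) (nat_lit 0) (XT.nd (nat_lit 234) (nat_lit 380) (nat_lit 0) (XT.nd (nat_lit 78) (nat_lit 0) (nat_lit 0) (XT.lf (nat_lit 0) (nat_lit 2785738677) (nat_lit 152) (nat_lit 7119895941) (nat_lit 228) (nat_lit 6388496944) (nat_lit 31) (nat_lit 5) (nat_lit 33) (nat_lit 5) (nat_lit 34) (nat_lit 5) (nat_lit 334) (nat_lit 251) (nat_lit 195)) (XT.nd (nat_lit 78) (nat_lit 0) (nat_lit 0) (XT.lf (nat_lit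 0) (nat_lit 9258187233) (nat_lit 152) (nat_lit 3720494745) (nat_lit 228) (nat_lit 3680394850) (nat_lit 31) (nat_lit 5) (nat_lit 33) (nat_lit 5) (nat_lit 34) (nat_lit 5) (nat_lit 335) (nat_lit 251) (nat_lit 194)) (XT.lf (nat_lit 0) (nat_lit 15874107304) (nat_lit 152) (nat_lit 237925038) (nat_lit 228) (nat_lit 923930736) (nat_lit 31) (nat_lit 5) (nat_lit 33) (nat_lit 5) (nat_lit 34) (nat_lit 5) (nat_lit 336) (nat_lit 251) (nat_lit 193)))) (XT.nd (nat_lit 78) (nat_lit 152) (nat_lit 0) (XT.lf (nat_lit 0) (nat_lit 1930197488) (nat_lit 228) (nat_lit 12156281721) (nat_lit 76) (nat_lit 3335588015) (nat_lit 28) (nat_lit 5) (nat_lit 31) (nat_lit 5) (nat_lit 29) (nat_lit 5) (nat_lit 337) (nat_lit 251) (nat_lit 192)) (XT.nd (nat_lit 78) (nat_lit 152) (nat_lit 0) (XT.lf (nat_lit 0) (nat_lit 4834542134) (nat_lit 228) (nat_lit 5971122989) (nat_lit 76) (nat_lit 7014352978) (nat_lit 28) (nat_lit 5) (nat_lit 31)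 (nat_lit 5) (nat_lit 29) (nat_lit 5) (nat_lit 338) (nat_lit 251) (nat_lit 191)) (XT.lf (nat_lit 0) (nat_lit 357861329) (nat_lit 152) (nat_lit 7441458244) (nat_lit 228) (nat_lit 10431420822) (nat_lit 26) (nat_lit 5) (nat_lit 28) (nat_lit 5) (nat_lit 29) (nat_lit 5) (nat_lit 339) (nat_lit 251) (nat_lit 190))))) (XT.nd (nat_lit 234) (nat_lit 228) (nat_lit 0) (XT.nd (nat_lit 78) (nat_lit 152) (nat_lit 0) (XT.lf (nat_lit 0) (nat_lit 6950882578) (nat_lit 152) (nat_lit 3932730993) (nat_lit 228) (nat_lit 7769284622) (nat_lit 26) (nat_lit 5) (nat_lit 28) (nat_lit 5) (nat_lit 29) (nat_lit 5) (nat_lit 340) (nat_lit 251) (nat_lit 189)) (XT.nd (nat_lit 78) (nat_lit 152) (nat_lit 0) (XT.lf (nat_lit 0) (nat_lit 13694864593) (nat_lit 152) (nat_lit 336714128) (nat_lit 228) (nat_lit 5057037865) (nat_lit 26) (nat_lit 5) (nat_lit 28) (nat_lit 5) (nat_lit 29) (nat_lit 5) (nat_lit 341) (nat_lit 251) (nat_lit 188))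 (XT.lf (nat_lit 0) (nat_lit 1045628151) (nat_lit 152) (nat_lit 16242588434) (nat_lit 228) (nat_lit 2248792182) (nat_lit 24) (nat_lit 5) (nat_lit 26) (nat_lit 5) (nat_lit 27) (nat_lit 4) (nat_lit 342) (nat_lit 251) (nat_lit 187)))) (XT.nd (nat_lit 78) (nat_lit 152) (nat_lit 0) (XT.lf (nat_lit 0) (nat_lit 661372808) (nat_lit 228) (nat_lit 12264825371) (nat_lit 76) (nat_lit 7071589495) (nat_lit 23) (nat_lit 5) (nat_lit 26) (nat_lit 5) (nat_lit 24) (nat_lit 5) (nat_lit 343) (nat_lit 251) (nat_lit 186)) (XT.nd (nat_lit 78) (nat_lit 152) (nat_lit 0) (XT.lf (nat_lit 0) (nat_lit 3586356355) (nat_lit 228) (nat_lit 5918692380) (nat_lit 76) (nat_lit 10967518658) (nat_lit 23) (nat_lit 5) (nat_lit 26) (nat_lit 5) (nat_lit 24) (nat_lit 5) (nat_lit 344) (nat_lit 251) (nat_lit 185)) (XT.lf (nat_lit 0) (nat_lit 585607598) (nat_lit 152) (nat_lit 5992617927) (nat_lit 228) (nat_lit 14384016888) (nat_lit 21) (nat_lit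 5) (nat_lit 23) (nat_lit 5) (nat_lit 24) (nat_lit 5) (nat_lit 345) (nat_lit 251) (nat_lit 184))))))) (XT.nd (nat_lit 936) (nat_lit 304) (nat_lit 0) (XT.nd (nat_lit 468) (nat_lit 228) (nat_lit 0) (XT.nd (nat_lit 234) (nat_lit 152) (nat_lit 0) (XT.nd (nat_lit 78) (nat_lit 0) (nat_lit 0) (XT.lf (nat_lit 0) (nat_lit 7363147538) (nat_lit 152) (nat_lit 2330333537) (nat_lit 228) (nat_lit 11772142930) (nat_lit 21) (nat_lit 5) (nat_lit 23) (nat_lit 5) (nat_lit 24) (nat_lit 5) (nat_lit 346) (nat_lit 251) (nat_lit 183)) (XT.nd (nat_lit 78) (nat_lit 0) (nat_lit 0) (XT.lf (nat_lit 0) (nat_lit 12890518931) (nat_lit 228) (nat_lit 7696537086) (nat_lit 76) (nat_lit 1397425786) (nat_lit 21) (nat_lit 5) (nat_lit 24) (nat_lit 5) (nat_lit 22) (nat_lit 4) (nat_lit 347) (nat_lit 251) (nat_lit 182)) (XT.lf (nat_lit 0) (nat_lit 16181749260) (nat_lit 228) (nat_lit 1162835888) (nat_lit 76) (nat_lit 5174395534) (nat_lit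 21) (nat_lit 5) (nat_lit 24) (nat_lit 5) (nat_lit 22) (nat_lit 4) (nat_lit 348) (nat_lit 251) (nat_lit 181)))) (XT.nd (nat_lit 78) (nat_lit 76) (nat_lit 0) (XT.lf (nat_lit 0) (nat_lit 5636729677) (nat_lit 76) (nat_lit 13965101318) (nat_lit 152) (nat_lit 3466803187) (nat_lit 20) (nat_lit 5) (nat_lit 21) (nat_lit 5) (nat_lit 22) (nat_lit 4) (nat_lit 349) (nat_lit 251) (nat_lit 180)) (XT.nd (nat_lit 78) (nat_lit 76) (nat_lit 0) (XT.lf (nat_lit 0) (nat_lit 12624373163) (nat_lit 76) (nat_lit 10488134166) (nat_lit 152) (nat_lit 522652612) (nat_lit 20) (nat_lit 5) (nat_lit 21) (nat_lit 5) (nat_lit 22) (nat_lit 4) (nat_lit 350) (nat_lit 251) (nat_lit 179)) (XT.lf (nat_lit 0) (nat_lit 2437538698) (nat_lit 152) (nat_lit 4460234869) (nat_lit 76) (nat_lit 17320904503) (nat_lit 19) (nat_lit 5) (nat_lit 21) (nat_lit 5) (nat_lit 20) (nat_lit 5) (nat_lit 351) (nat_lit 251) (nat_lit 178))))) (XT.nd (nat_lit 234)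 (nat_lit 76) (nat_lit 0) (XT.nd (nat_lit 78) (nat_lit 0) (nat_lit 0) (XT.lf (nat_lit 0) (nat_lit 2288377976) (nat_lit 152) (nat_lit 3187021034) (nat_lit 228) (nat_lit 19344186965) (nat_lit 17) (nat_lit 5) (nat_lit 19) (nat_lit 5) (nat_lit 20) (nat_lit 5) (nat_lit 352) (nat_lit 251) (nat_lit 177)) (XT.nd (nat_lit 78) (nat_lit 0) (nat_lit 0) (XT.lf (nat_lit 0) (nat_lit 8633507595) (nat_lit 228) (nat_lit 16150947602) (nat_lit 76) (nat_lit 653212464) (nat_lit 17) (nat_lit 5) (nat_lit 20) (nat_lit 5) (nat_lit 18) (nat_lit 4) (nat_lit 353) (nat_lit 251) (nat_lit 176)) (XT.lf (nat_lit 0) (nat_lit 11896091162) (nat_lit 228) (nat_lit 9647831006) (nat_lit 76) (nat_lit 4530097017) (nat_lit 17) (nat_lit 5) (nat_lit 20) (nat_lit 5) (nat_lit 18) (nat_lit 4) (nat_lit 354) (nat_lit 251) (nat_lit 175)))) (XT.nd (nat_lit 78) (nat_lit 76) (nat_lit 0) (XT.lf (nat_lit 0) (nat_lit 15235364916) (nat_lit 228) (nat_lit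 2985540281) (nat_lit 76) (nat_lit 8509210453) (nat_lit 17) (nat_lit 5) (nat_lit 20) (nat_lit 5) (nat_lit 18) (nat_lit 4) (nat_lit 355) (nat_lit 251) (nat_lit 174)) (XT.nd (nat_lit 78) (nat_lit 0) (nat_lit 0) (XT.lf (nat_lit 0) (nat_lit 3918204269) (nat_lit 76) (nat_lit 14773706575) (nat_lit 152) (nat_lit 8713489575) (nat_lit 16) (nat_lit 5) (nat_lit 17) (nat_lit 5) (nat_lit 18) (nat_lit 4) (nat_lit 356) (nat_lit 251) (nat_lit 173)) (XT.lf (nat_lit 0) (nat_lit 11055730526) (nat_lit 76) (nat_lit 11206267711) (nat_lit 152) (nat_lit 5838667839) (nat_lit 16) (nat_lit 5) (nat_lit 17) (nat_lit 5) (nat_lit 18) (nat_lit 4) (nat_lit 357) (nat_lit 251) (nat_lit 172)))))) (XT.nd (nat_lit 468) (nat_lit 76) (nat_lit 0) (XT.nd (nat_lit 234) (nat_lit 0) (nat_lit 0) (XT.nd (nat_lit 78) (nat_lit 228) (nat_lit 0) (XT.lf (nat_lit 0) (nat_lit 18373857057) (nat_lit 76) (nat_lit 7545619527) (nat_lit 152) (nat_lit 2897921651)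 (nat_lit 16) (nat_lit 5) (nat_lit 17) (nat_lit 5) (nat_lit 18) (nat_lit 4) (nat_lit 358) (nat_lit 251) (nat_lit 171)) (XT.nd (nat_lit 78) (nat_lit 152) (nat_lit 0) (XT.lf (nat_lit 0) (nat_lit 109146347) (nat_lit 152) (nat_lit 3678314889) (nat_lit 76) (nat_lit 25768729829) (nat_lit 15) (nat_lit 5) (nat_lit 17) (nat_lit 5) (nat_lit 16) (nat_lit 5) (nat_lit 359) (nat_lit 251) (nat_lit 170)) (XT.lf (nat_lit 0) (nat_lit 3162332372) (nat_lit 228) (nat_lit 27023736395) (nat_lit 76) (nat_lit 129809328) (nat_lit 13) (nat_lit 5) (nat_lit 16) (nat_lit 5) (nat_lit 14) (nat_lit 4) (nat_lit 360) (nat_lit 251) (nat_lit 169)))) (XT.nd (nat_lit 78) (nat_lit 0) (nat_lit 0) (XT.lf (nat_lit 0) (nat_lit 6363461333) (nat_lit 228) (nat_lit 20620116910) (nat_lit 76) (nat_lit 4113102339) (nat_lit 13) (nat_lit 5) (nat_lit 16) (nat_lit 5) (nat_lit 14) (nat_lit 4) (nat_lit 361) (nat_lit 251) (nat_lit 168)) (XT.nd (nat_lit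 78) (nat_lit 0) (nat_lit 0) (XT.lf (nat_lit 0) (nat_lit 9642503978) (nat_lit 228) (nat_lit 14055575201) (nat_lit 76) (nat_lit 8203386391) (nat_lit 13) (nat_lit 5) (nat_lit 16) (nat_lit 5) (nat_lit 14) (nat_lit 4) (nat_lit 362) (nat_lit 251) (nat_lit 167)) (XT.lf (nat_lit 0) (nat_lit 13002325491) (nat_lit 228) (nat_lit 7324375258) (nat_lit 76) (nat_lit 12404235521) (nat_lit 13) (nat_lit 5) (nat_lit 16) (nat_lit 5) (nat_lit 14) (nat_lit 4) (nat_lit 363) (nat_lit 251) (nat_lit 166))))) (XT.nd (nat_lit 234) (nat_lit 0) (nat_lit 0) (XT.nd (nat_lit 78) (nat_lit 76) (nat_lit 0) (XT.lf (nat_lit 0) (nat_lit 16445861638) (nat_lit 228) (nat_lit 420635452) (nat_lit 76) (nat_lit 16719320373) (nat_lit 13) (nat_lit 5) (nat_lit 16) (nat_lit 5) (nat_lit 14) (nat_lit 4) (nat_lit 364) (nat_lit 251) (nat_lit 165)) (XT.nd (nat_lit 78) (nat_lit 0) (nat_lit 0) (XT.lf (nat_lit 0) (nat_lit 6794257038) (nat_lit 76) (nat_lit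 13247174850) (nat_lit 152) (nat_lit 14423464926) (nat_lit 12) (nat_lit 5) (nat_lit 13) (nat_lit 5) (nat_lit 14) (nat_lit 4) (nat_lit 365) (nat_lit 251) (nat_lit 164)) (XT.lf (nat_lit 0) (nat_lit 14205958785) (nat_lit 76) (nat_lit 9526786851) (nat_lit 152) (nat_lit 11637979786) (nat_lit 12) (nat_lit 5) (nat_lit 13) (nat_lit 5) (nat_lit 14) (nat_lit 4) (nat_lit 366) (nat_lit 251) (nat_lit 163)))) (XT.nd (nat_lit 78) (nat_lit 0) (nat_lit 0) (XT.lf (nat_lit 0) (nat_lit 21812574562) (nat_lit 76) (nat_lit 5706329864) (nat_lit 152) (nat_lit 8785314080) (nat_lit 12) (nat_lit 5) (nat_lit 13) (nat_lit 5) (nat_lit 14) (nat_lit 4) (nat_lit 367) (nat_lit 251) (nat_lit 162)) (XT.nd (nat_lit 78) (nat_lit 0) (nat_lit 0) (XT.lf (nat_lit 0) (nat_lit 29620750926) (nat_lit 76) (nat_lit 1782465624) (nat_lit 152) (nat_lit 5862975187) (nat_lit 12) (nat_lit 5) (nat_lit 13) (nat_lit 5) (nat_lit 14) (nat_lit 4) (nat_lit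 368) (nat_lit 251) (nat_lit 161)) (XT.lf (nat_lit 0) (nat_lit 35410687475) (nat_lit 152) (nat_lit 641786526) (nat_lit 0) (nat_lit 2204363334) (nat_lit 12) (nat_lit 5) (nat_lit 14) (nat_lit 4) (nat_lit 12) (nat_lit 4) (nat_lit 369) (nat_lit 251) (nat_lit 160))))))))
noncomputable def xc86 : XT := (XT.nd (nat_lit 1794) (nat_lit 76) (nat_lit 0) (XT.nd (nat_lit 858) (nat_lit 228) (nat_lit 0) (XT.nd (nat_lit 390) (nat_lit 76) (nat_lit 0) (XT.nd (nat_lit 156) (nat_lit 0) (nat_lit 0) (XT.nd (nat_lit 78) (nat_lit 0) (nat_lit 0) (XT.lf (nat_lit 0) (nat_lit 323745250) (nat_lit 152) (nat_lit 32619566369) (nat_lit 76) (nat_lit 6331796873) (nat_lit 10) (nat_lit 5) (nat_lit 12) (nat_lit 5) (nat_lit 11) (nat_lit 4) (nat_lit 370) (nat_lit 251) (nat_lit 159)) (XT.lf (nat_lit 0) (nat_lit 3523460219) (nat_lit 152) (nat_lit 26192538270) (nat_lit 76) (nat_lit 10607337099) (nat_lit 10) (nat_lit 5) (nat_lit 12) (nat_lit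 5) (nat_lit 11) (nat_lit 4) (nat_lit 371) (nat_lit 251) (nat_lit 158))) (XT.nd (nat_lit 78) (nat_lit 0) (nat_lit 0) (XT.lf (nat_lit 0) (nat_lit 6804975227) (nat_lit 152) (nat_lit 19597464054) (nat_lit 76) (nat_lit 15001006666) (nat_lit 10) (nat_lit 5) (nat_lit 12) (nat_lit 5) (nat_lit 11) (nat_lit 4) (nat_lit 372) (nat_lit 251) (nat_lit 157)) (XT.nd (nat_lit 78) (nat_lit 0) (nat_lit 0) (XT.lf (nat_lit 0) (nat_lit 10171157617) (nat_lit 152) (nat_lit 12828581035) (nat_lit 76) (nat_lit 19516644702) (nat_lit 10) (nat_lit 5) (nat_lit 12) (nat_lit 5) (nat_lit 11) (nat_lit 4) (nat_lit 373) (nat_lit 251) (nat_lit 156)) (XT.lf (nat_lit 0) (nat_lit 13624948715) (nat_lit 152) (nat_lit 5879974655) (nat_lit 76) (nat_lit 24158196909) (nat_lit 10) (nat_lit 5) (nat_lit 12) (nat_lit 5) (nat_lit 11) (nat_lit 4) (nat_lit 374) (nat_lit 251) (nat_lit 155))))) (XT.nd (nat_lit 234) (nat_lit 0) (nat_lit 0) (XT.nd (nat_lit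 78) (nat_lit 0) (nat_lit 0) (XT.lf (nat_lit 0) (nat_lit 1279392233) (nat_lit 76) (nat_lit 15902272461) (nat_lit 152) (nat_lit 27662625082) (nat_lit 9) (nat_lit 5) (nat_lit 10) (nat_lit 5) (nat_lit 11) (nat_lit 4) (nat_lit 375) (nat_lit 251) (nat_lit 154)) (XT.nd (nat_lit 78) (nat_lit 0) (nat_lit 0) (XT.lf (nat_lit 0) (nat_lit 8751632801) (nat_lit 76) (nat_lit 12140000967) (nat_lit 152) (nat_lit 25167873555) (nat_lit 9) (nat_lit 5) (nat_lit 10) (nat_lit 5) (nat_lit 11) (nat_lit 4) (nat_lit 376) (nat_lit 251) (nat_lit 153)) (XT.lf (nat_lit 0) (nat_lit 16426253165) (nat_lit 76) (nat_lit 8274197680) (nat_lit 152) (nat_lit 22611113320) (nat_lit 9) (nat_lit 5) (nat_lit 10) (nat_lit 5) (nat_lit 11) (nat_lit 4) (nat_lit 377) (nat_lit 251) (nat_lit 152)))) (XT.nd (nat_lit 78) (nat_lit 0) (nat_lit 0) (XT.lf (nat_lit 0) (nat_lit 24309959303) (nat_lit 76) (nat_lit 4301484714) (nat_lit 152) (nat_lit 19990110315)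 (nat_lit 9) (nat_lit 5) (nat_lit 10) (nat_lit 5) (nat_lit 11) (nat_lit 4) (nat_lit 378) (nat_lit 251) (nat_lit 151)) (XT.nd (nat_lit 78) (nat_lit 0) (nat_lit 0) (XT.lf (nat_lit 0) (nat_lit 32409639891) (nat_lit 76) (nat_lit 218390767) (nat_lit 152) (nat_lit 17302574341) (nat_lit 9) (nat_lit 5) (nat_lit 10) (nat_lit 5) (nat_lit 11) (nat_lit 4) (nat_lit 379) (nat_lit 251) (nat_lit 150)) (XT.lf (nat_lit 0) (nat_lit 36791965643) (nat_lit 152) (nat_lit 10605750391) (nat_lit 0) (nat_lit 3901014083) (nat_lit 9) (nat_lit 5) (nat_lit 11) (nat_lit 4) (nat_lit 9) (nat_lit 4) (nat_lit 380) (nat_lit 251) (nat_lit 149)))))) (XT.nd (nat_lit 468) (nat_lit 76) (nat_lit 0) (XT.nd (nat_lit 234) (nat_lit 76) (nat_lit 0) (XT.nd (nat_lit 78) (nat_lit 76) (nat_lit 0) (XT.lf (nat_lit 0) (nat_lit 41071838610) (nat_lit 152) (nat_lit 3504859704) (nat_lit 0) (nat_lit 8131478283) (nat_lit 9) (nat_lit 5) (nat_lit 11) (nat_lit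 4) (nat_lit 9) (nat_lit 4) (nat_lit 381) (nat_lit 251) (nat_lit 148)) (XT.nd (nat_lit 78) (nat_lit 0) (nat_lit 0) (XT.lf (nat_lit 0) (nat_lit 3865439566) (nat_lit 76) (nat_lit 41641007350) (nat_lit 76) (nat_lit 8652677348) (nat_lit 8) (nat_lit 4) (nat_lit 9) (nat_lit 5) (nat_lit 9) (nat_lit 4) (nat_lit 382) (nat_lit 251) (nat_lit 147)) (XT.lf (nat_lit 0) (nat_lit 11509833953) (nat_lit 76) (nat_lit 38588967701) (nat_lit 76) (nat_lit 5554065197) (nat_lit 8) (nat_lit 4) (nat_lit 9) (nat_lit 5) (nat_lit 9) (nat_lit 4) (nat_lit 383) (nat_lit 251) (nat_lit 146)))) (XT.nd (nat_lit 78) (nat_lit 76) (nat_lit 0) (XT.lf (nat_lit 0) (nat_lit 19365249443) (nat_lit 76) (nat_lit 35453304747) (nat_lit 76) (nat_lit 2373186222) (nat_lit 8) (nat_lit 4) (nat_lit 9) (nat_lit 5) (nat_lit 9) (nat_lit 4) (nat_lit 384) (nat_lit 251) (nat_lit 145)) (XT.nd (nat_lit 78) (nat_lit 0) (nat_lit 0) (XT.lf (nat_lit 0) (nat_lit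 875318432) (nat_lit 152) (nat_lit 31347121155) (nat_lit 76) (nat_lit 26554392557) (nat_lit 7) (nat_lit 5) (nat_lit 9) (nat_lit 5) (nat_lit 8) (nat_lit 4) (nat_lit 385) (nat_lit 251) (nat_lit 144)) (XT.lf (nat_lit 0) (nat_lit 4163698386) (nat_lit 152) (nat_lit 24714330284) (nat_lit 76) (nat_lit 31531046359) (nat_lit 7) (nat_lit 5) (nat_lit 9) (nat_lit 5) (nat_lit 8) (nat_lit 4) (nat_lit 386) (nat_lit 251) (nat_lit 143))))) (XT.nd (nat_lit 234) (nat_lit 76) (nat_lit 0) (XT.nd (nat_lit 78) (nat_lit 0) (nat_lit 0) (XT.lf (nat_lit 0) (nat_lit 7541136391) (nat_lit 152) (nat_lit 17899510198) (nat_lit 76) (nat_lit 36649933085) (nat_lit 7) (nat_lit 5) (nat_lit 9) (nat_lit 5) (nat_lit 8) (nat_lit 4) (nat_lit 387) (nat_lit 251) (nat_lit 142)) (XT.nd (nat_lit 78) (nat_lit 0) (nat_lit 0) (XT.lf (nat_lit 0) (nat_lit 11010583607) (nat_lit 152) (nat_lit 10896706198) (nat_lit 76) (nat_lit 41915525549) (nat_lit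 7) (nat_lit 5) (nat_lit 9) (nat_lit 5) (nat_lit 8) (nat_lit 4) (nat_lit 388) (nat_lit 251) (nat_lit 141)) (XT.lf (nat_lit 0) (nat_lit 14575071590) (nat_lit 152) (nat_lit 3699799330) (nat_lit 76) (nat_lit 47332424754) (nat_lit 7) (nat_lit 5) (nat_lit 9) (nat_lit 5) (nat_lit 8) (nat_lit 4) (nat_lit 389) (nat_lit 251) (nat_lit 140)))) (XT.nd (nat_lit 78) (nat_lit 0) (nat_lit 0) (XT.lf (nat_lit 0) (nat_lit 3771086444) (nat_lit 76) (nat_lit 14502878485) (nat_lit 152) (nat_lit 49170527458) (nat_lit 6) (nat_lit 5) (nat_lit 7) (nat_lit 5) (nat_lit 8) (nat_lit 4) (nat_lit 390) (nat_lit 251) (nat_lit 139)) (XT.nd (nat_lit 78) (nat_lit 0) (nat_lit 0) (XT.lf (nat_lit 0) (nat_lit 11526577389) (nat_lit 76) (nat_lit 10585937150) (nat_lit 152) (nat_lit 47223435708) (nat_lit 6) (nat_lit 5) (nat_lit 7) (nat_lit 5) (nat_lit 8) (nat_lit 4) (nat_lit 391) (nat_lit 251) (nat_lit 138)) (XT.lf (nat_lit 0) (nat_lit 19499816884)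 (nat_lit 76) (nat_lit 6557985064) (nat_lit 152) (nat_lit 45226608211) (nat_lit 6) (nat_lit 5) (nat_lit 7) (nat_lit 5) (nat_lit 8) (nat_lit 4) (nat_lit 392) (nat_lit 251) (nat_lit 137))))))) (XT.nd (nat_lit 31746) (nat_lit 0) (nat_lit 10108) (XT.nd (nat_lit 390) (nat_lit 76) (nat_lit 0) (XT.nd (nat_lit 156) (nat_lit 0) (nat_lit 0) (XT.nd (nat_lit 78) (nat_lit 0) (nat_lit 0) (XT.lf (nat_lit 0) (nat_lit 27697771839) (nat_lit 76) (nat_lit 2415502655) (nat_lit 152) (nat_lit 43178300167) (nat_lit 6) (nat_lit 5) (nat_lit 7) (nat_lit 5) (nat_lit 8) (nat_lit 4) (nat_lit 393) (nat_lit 251) (nat_lit 136)) (XT.lf (nat_lit 0) (nat_lit 34300212311) (nat_lit 152) (nat_lit 39249328588) (nat_lit 0) (nat_lit 1809124591) (nat_lit 6) (nat_lit 5) (nat_lit 8) (nat_lit 4) (nat_lit 6) (nat_lit 4) (nat_lit 394) (nat_lit 251) (nat_lit 135))) (XT.nd (nat_lit 78) (nat_lit 0) (nat_lit 0) (XT.lf (nat_lit 0) (nat_lit 38628912680)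 (nat_lit 152) (nat_lit 32752265648) (nat_lit 0) (nat_lit 6106111352) (nat_lit 6) (nat_lit 5) (nat_lit 8) (nat_lit 4) (nat_lit 6) (nat_lit 4) (nat_lit 395) (nat_lit 251) (nat_lit 134)) (XT.nd (nat_lit 78) (nat_lit 0) (nat_lit 0) (XT.lf (nat_lit 0) (nat_lit 43079938670) (nat_lit 152) (nat_lit 26073717668) (nat_lit 0) (nat_lit 10526347432) (nat_lit 6) (nat_lit 5) (nat_lit 8) (nat_lit 4) (nat_lit 6) (nat_lit 4) (nat_lit 396) (nat_lit 251) (nat_lit 133)) (XT.lf (nat_lit 0) (nat_lit 47657179528) (nat_lit 152) (nat_lit 19207849024) (nat_lit 0) (nat_lit 15073695174) (nat_lit 6) (nat_lit 5) (nat_lit 8) (nat_lit 4) (nat_lit 6) (nat_lit 4) (nat_lit 397) (nat_lit 251) (nat_lit 132))))) (XT.nd (nat_lit 31122) (nat_lit 0) (nat_lit 16416) (XT.nd (nat_lit 78) (nat_lit 76) (nat_lit 0) (XT.lf (nat_lit 0) (nat_lit 52364634784) (nat_lit 152) (nat_lit 12148660413) (nat_lit 0) (nat_lit 19752127988) (nat_lit 6) (nat_lit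 5) (nat_lit 8) (nat_lit 4) (nat_lit 6) (nat_lit 4) (nat_lit 398) (nat_lit 251) (nat_lit 131)) (XT.nd (nat_lit 78) (nat_lit 76) (nat_lit 0) (XT.lf (nat_lit 0) (nat_lit 57206417750) (nat_lit 152) (nat_lit 4889983612) (nat_lit 0) (nat_lit 24565733824) (nat_lit 6) (nat_lit 5) (nat_lit 8) (nat_lit 4) (nat_lit 6) (nat_lit 4) (nat_lit 399) (nat_lit 251) (nat_lit 130)) (XT.lf (nat_lit 0) (nat_lit 2625761985) (nat_lit 76) (nat_lit 59586237554) (nat_lit 76) (nat_lit 26918197193) (nat_lit 5) (nat_lit 4) (nat_lit 6) (nat_lit 5) (nat_lit 6) (nat_lit 4) (nat_lit 400) (nat_lit 251) (nat_lit 129)))) (XT.nd (nat_lit 78) (nat_lit 684) (nat_lit 0) (XT.lf (nat_lit 0) (nat_lit 283642514) (nat_lit 684) (nat_lit 2803537815) (nat_lit 0) (nat_lit 283642514) (nat_lit 230) (nat_lit 5) (nat_lit 239) (nat_lit 4) (nat_lit 230) (nat_lit 4) (nat_lit 276) (nat_lit 252) (nat_lit 252)) (XT.nd (nat_lit 78) (nat_lit 684) (nat_lit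 0) (XT.lf (nat_lit 0) (nat_lit 3485967177) (nat_lit 684) (nat_lit 1739434221) (nat_lit 0) (nat_lit 1555689112) (nat_lit 230) (nat_lit 5) (nat_lit 239) (nat_lit 4) (nat_lit 230) (nat_lit 4) (nat_lit 277) (nat_lit 252) (nat_lit 251)) (XT.lf (nat_lit 0) (nat_lit 2209367199) (nat_lit 684) (nat_lit 4209597270) (nat_lit 684) (nat_lit 405262831) (nat_lit 221) (nat_lit 4) (nat_lit 230) (nat_lit 5) (nat_lit 230) (nat_lit 4) (nat_lit 278) (nat_lit 252) (nat_lit 250)))))) (XT.nd (nat_lit 468) (nat_lit 3572) (nat_lit 0) (XT.nd (nat_lit 234) (nat_lit 988) (nat_lit 0) (XT.nd (nat_lit 78) (nat_lit 1672) (nat_lit 0) (XT.lf (nat_lit 0) (nat_lit 2445171758) (nat_lit 760) (nat_lit 660107977) (nat_lit 76) (nat_lit 3765208746) (nat_lit 220) (nat_lit 5) (nat_lit 230) (nat_lit 5) (nat_lit 221) (nat_lit 4) (nat_lit 279) (nat_lit 252) (nat_lit 249)) (XT.nd (nat_lit 78) (nat_lit 912) (nat_lit 0) (XT.lf (nat_lit 0) (nat_lit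 3398528305) (nat_lit 760) (nat_lit 1916157814) (nat_lit 836) (nat_lit 1605364489) (nat_lit 210) (nat_lit 5) (nat_lit 220) (nat_lit 5) (nat_lit 221) (nat_lit 4) (nat_lit 280) (nat_lit 252) (nat_lit 248)) (XT.lf (nat_lit 0) (nat_lit 541190179) (nat_lit 836) (nat_lit 654384709) (nat_lit 912) (nat_lit 5777766343) (nat_lit 198) (nat_lit 5) (nat_lit 209) (nat_lit 5) (nat_lit 210) (nat_lit 5) (nat_lit 281) (nat_lit 252) (nat_lit 247)))) (XT.nd (nat_lit 78) (nat_lit 988) (nat_lit 0) (XT.lf (nat_lit 0) (nat_lit 4002181538) (nat_lit 912) (nat_lit 2332257296) (nat_lit 76) (nat_lit 694958415) (nat_lit 198) (nat_lit 5) (nat_lit 210) (nat_lit 5) (nat_lit 199) (nat_lit 4) (nat_lit 282) (nat_lit 252) (nat_lit 246)) (XT.nd (nat_lit 78) (nat_lit 76) (nat_lit 0) (XT.lf (nat_lit 0) (nat_lit 1841826841) (nat_lit 912) (nat_lit 4989702897) (nat_lit 988) (nat_lit 257701995) (nat_lit 186) (nat_lit 5) (nat_lit 198) (nat_lit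 5) (nat_lit 199) (nat_lit 4) (nat_lit 283) (nat_lit 252) (nat_lit 245)) (XT.lf (nat_lit 0) (nat_lit 2483083152) (nat_lit 988) (nat_lit 1065819340) (nat_lit 76) (nat_lit 3603284353) (nat_lit 185) (nat_lit 5) (nat_lit 198) (nat_lit 5) (nat_lit 186) (nat_lit 5) (nat_lit 284) (nat_lit 252) (nat_lit 244))))) (XT.nd (nat_lit 234) (nat_lit 1444) (nat_lit 0) (XT.nd (nat_lit 78) (nat_lit 1140) (nat_lit 0) (XT.lf (nat_lit 0) (nat_lit 3224466535) (nat_lit 988) (nat_lit 2024953350) (nat_lit 1064) (nat_lit 1969310559) (nat_lit 172) (nat_lit 5) (nat_lit 185) (nat_lit 5) (nat_lit 186) (nat_lit 5) (nat_lit 285) (nat_lit 252) (nat_lit 243)) (XT.nd (nat_lit 78) (nat_lit 0) (nat_lit 0) (XT.lf (nat_lit 0) (nat_lit 298063345) (nat_lit 1064) (nat_lit 429472520) (nat_lit 1140) (nat_lit 6561761960) (nat_lit 157) (nat_lit 5) (nat_lit 171) (nat_lit 5) (nat_lit 172) (nat_lit 5) (nat_lit 286) (nat_lit 252) (nat_lit 242))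 (XT.lf (nat_lit 0) (nat_lit 3437934282) (nat_lit 1140) (nat_lit 2671384756) (nat_lit 76) (nat_lit 1253123366) (nat_lit 157) (nat_lit 5) (nat_lit 172) (nat_lit 5) (nat_lit 158) (nat_lit 5) (nat_lit 287) (nat_lit 252) (nat_lit 241)))) (XT.nd (nat_lit 78) (nat_lit 608) (nat_lit 0) (XT.lf (nat_lit 0) (nat_lit 1729810162) (nat_lit 836) (nat_lit 4442875579) (nat_lit 912) (nat_lit 1267010129) (nat_lit 146) (nat_lit 5) (nat_lit 157) (nat_lit 5) (nat_lit 158) (nat_lit 5) (nat_lit 288) (nat_lit 252) (nat_lit 240)) (XT.nd (nat_lit 78) (nat_lit 532) (nat_lit 0) (XT.lf (nat_lit 0) (nat_lit 1391503008) (nat_lit 912) (nat_lit 1293777944) (nat_lit 76) (nat_lit 4835256601) (nat_lit 145) (nat_lit 5) (nat_lit 157) (nat_lit 5) (nat_lit 146) (nat_lit 5) (nat_lit 289) (nat_lit 252) (nat_lit 239)) (XT.lf (nat_lit 0) (nat_lit 3228845384) (nat_lit 532) (nat_lit 831485053) (nat_lit 608) (nat_lit 3544605291) (nat_lit 138)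 (nat_lit 5) (nat_lit 145) (nat_lit 5) (nat_lit 146) (nat_lit 5) (nat_lit 290) (nat_lit 252) (nat_lit 238))))))))
noncomputable def xc87 : XT := (XT.nd (nat_lit 1794) (nat_lit 2660) (nat_lit 0) (XT.nd (nat_lit 858) (nat_lit 2584) (nat_lit 0) (XT.nd (nat_lit 390) (nat_lit 1444) (nat_lit 0) (XT.nd (nat_lit 156) (nat_lit 1064) (nat_lit 0) (XT.nd (nat_lit 78) (nat_lit 76) (nat_lit 0) (XT.lf (nat_lit 0) (nat_lit 136314446) (nat_lit 532) (nat_lit 6624198080) (nat_lit 608) (nat_lit 932997462) (nat_lit 131) (nat_lit 5) (nat_lit 138) (nat_lit 5) (nat_lit 139) (nat_lit 5) (nat_lit 291) (nat_lit 252) (nat_lit 237)) (XT.lf (nat_lit 0) (nat_lit 1702469277) (nat_lit 608) (nat_lit 3014088324) (nat_lit 76) (nat_lit 3068455688) (nat_lit 130) (nat_lit 5) (nat_lit 138) (nat_lit 5) (nat_lit 131) (nat_lit 5) (nat_lit 292) (nat_lit 252) (nat_lit 236))) (XT.nd (nat_lit 78) (nat_lit 608) (nat_lit 0) (XT.lf (nat_lit 0)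 (nat_lit 1610896796) (nat_lit 456) (nat_lit 2731899208) (nat_lit 532) (nat_lit 3538019428) (nat_lit 124) (nat_lit 5) (nat_lit 130) (nat_lit 5) (nat_lit 131) (nat_lit 5) (nat_lit 293) (nat_lit 252) (nat_lit 235)) (XT.nd (nat_lit 78) (nat_lit 608) (nat_lit 0) (XT.lf (nat_lit 0) (nat_lit 6360556311) (nat_lit 456) (nat_lit 662612881) (nat_lit 532) (nat_lit 957659792) (nat_lit 124) (nat_lit 5) (nat_lit 130) (nat_lit 5) (nat_lit 131) (nat_lit 5) (nat_lit 294) (nat_lit 252) (nat_lit 234)) (XT.lf (nat_lit 0) (nat_lit 1643223263) (nat_lit 608) (nat_lit 4960566824) (nat_lit 76) (nat_lit 1480427064) (nat_lit 116) (nat_lit 5) (nat_lit 124) (nat_lit 5) (nat_lit 117) (nat_lit 5) (nat_lit 295) (nat_lit 252) (nat_lit 233))))) (XT.nd (nat_lit 234) (nat_lit 456) (nat_lit 0) (XT.nd (nat_lit 78) (nat_lit 988) (nat_lit 0) (XT.lf (nat_lit 0) (nat_lit 4258779080) (nat_lit 608) (nat_lit 239836273) (nat_lit 76) (nat_lit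 3693278991) (nat_lit 116) (nat_lit 5) (nat_lit 124) (nat_lit 5) (nat_lit 117) (nat_lit 5) (nat_lit 296) (nat_lit 252) (nat_lit 232)) (XT.nd (nat_lit 78) (nat_lit 532) (nat_lit 0) (XT.lf (nat_lit 0) (nat_lit 4638742657) (nat_lit 456) (nat_lit 2293416517) (nat_lit 532) (nat_lit 1371406281) (nat_lit 110) (nat_lit 5) (nat_lit 116) (nat_lit 5) (nat_lit 117) (nat_lit 5) (nat_lit 297) (nat_lit 252) (nat_lit 231)) (XT.lf (nat_lit 0) (nat_lit 1186030733) (nat_lit 456) (nat_lit 5431772) (nat_lit 532) (nat_lit 7228423763) (nat_lit 103) (nat_lit 5) (nat_lit 109) (nat_lit 5) (nat_lit 110) (nat_lit 5) (nat_lit 298) (nat_lit 252) (nat_lit 230)))) (XT.nd (nat_lit 78) (nat_lit 456) (nat_lit 0) (XT.lf (nat_lit 0) (nat_lit 3799888923) (nat_lit 532) (nat_lit 2393790766) (nat_lit 76) (nat_lit 2345854687) (nat_lit 103) (nat_lit 5) (nat_lit 110) (nat_lit 5) (nat_lit 104) (nat_lit 5) (nat_lit 299) (nat_lit 252) (nat_lit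 229)) (XT.nd (nat_lit 78) (nat_lit 76) (nat_lit 0) (XT.lf (nat_lit 0) (nat_lit 2567549905) (nat_lit 380) (nat_lit 3881869801) (nat_lit 456) (nat_lit 2214594911) (nat_lit 98) (nat_lit 5) (nat_lit 103) (nat_lit 5) (nat_lit 104) (nat_lit 5) (nat_lit 300) (nat_lit 252) (nat_lit 228)) (XT.lf (nat_lit 0) (nat_lit 341574113) (nat_lit 456) (nat_lit 1143248905) (nat_lit 76) (nat_lit 7308528651) (nat_lit 97) (nat_lit 5) (nat_lit 103) (nat_lit 5) (nat_lit 98) (nat_lit 5) (nat_lit 301) (nat_lit 252) (nat_lit 227)))))) (XT.nd (nat_lit 468) (nat_lit 1064) (nat_lit 0) (XT.nd (nat_lit 234) (nat_lit 760) (nat_lit 0) (XT.nd (nat_lit 78) (nat_lit 380) (nat_lit 0) (XT.lf (nat_lit 0) (nat_lit 2918014531) (nat_lit 456) (nat_lit 4995492931) (nat_lit 76) (nat_lit 1012877999) (nat_lit 92) (nat_lit 5) (nat_lit 98) (nat_lit 5) (nat_lit 93) (nat_lit 5) (nat_lit 302) (nat_lit 252) (nat_lit 226)) (XT.nd (nat_lit 78) (nat_lit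 0) (nat_lit 0) (XT.lf (nat_lit 0) (nat_lit 29938359) (nat_lit 380) (nat_lit 5509665138) (nat_lit 456) (nat_lit 3524885047) (nat_lit 87) (nat_lit 5) (nat_lit 92) (nat_lit 5) (nat_lit 93) (nat_lit 5) (nat_lit 303) (nat_lit 252) (nat_lit 225)) (XT.lf (nat_lit 0) (nat_lit 5235795407) (nat_lit 380) (nat_lit 2996710050) (nat_lit 456) (nat_lit 974559920) (nat_lit 87) (nat_lit 5) (nat_lit 92) (nat_lit 5) (nat_lit 93) (nat_lit 5) (nat_lit 304) (nat_lit 252) (nat_lit 224)))) (XT.nd (nat_lit 78) (nat_lit 304) (nat_lit 0) (XT.lf (nat_lit 0) (nat_lit 1179180941) (nat_lit 380) (nat_lit 395430015) (nat_lit 456) (nat_lit 7780299013) (nat_lit 81) (nat_lit 5) (nat_lit 86) (nat_lit 5) (nat_lit 87) (nat_lit 5) (nat_lit 305) (nat_lit 252) (nat_lit 223)) (XT.nd (nat_lit 78) (nat_lit 304) (nat_lit 0) (XT.lf (nat_lit 0) (nat_lit 4187186821) (nat_lit 456) (nat_lit 3045212438) (nat_lit 76) (nat_lit 2274406870) (nat_lit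 81) (nat_lit 5) (nat_lit 87) (nat_lit 5) (nat_lit 82) (nat_lit 5) (nat_lit 306) (nat_lit 252) (nat_lit 222)) (XT.lf (nat_lit 0) (nat_lit 2207727118) (nat_lit 304) (nat_lit 4641243537) (nat_lit 380) (nat_lit 2815261882) (nat_lit 77) (nat_lit 5) (nat_lit 81) (nat_lit 5) (nat_lit 82) (nat_lit 5) (nat_lit 307) (nat_lit 252) (nat_lit 221))))) (XT.nd (nat_lit 234) (nat_lit 684) (nat_lit 0) (XT.nd (nat_lit 78) (nat_lit 380) (nat_lit 0) (XT.lf (nat_lit 0) (nat_lit 7610713369) (nat_lit 304) (nat_lit 1957248024) (nat_lit 380) (nat_lit 259195161) (nat_lit 77) (nat_lit 5) (nat_lit 81) (nat_lit 5) (nat_lit 82) (nat_lit 5) (nat_lit 308) (nat_lit 252) (nat_lit 220)) (XT.nd (nat_lit 78) (nat_lit 0) (nat_lit 0) (XT.lf (nat_lit 0) (nat_lit 2313200569) (nat_lit 380) (nat_lit 6852744962) (nat_lit 76) (nat_lit 828849315) (nat_lit 72) (nat_lit 5) (nat_lit 77) (nat_lit 5) (nat_lit 73) (nat_lit 5) (nat_lit 309) (nat_lit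 252) (nat_lit 219)) (XT.lf (nat_lit 0) (nat_lit 4947803122) (nat_lit 380) (nat_lit 1552081976) (nat_lit 76) (nat_lit 3667880187) (nat_lit 72) (nat_lit 5) (nat_lit 77) (nat_lit 5) (nat_lit 73) (nat_lit 5) (nat_lit 310) (nat_lit 252) (nat_lit 218)))) (XT.nd (nat_lit 78) (nat_lit 380) (nat_lit 0) (XT.lf (nat_lit 0) (nat_lit 3916197472) (nat_lit 304) (nat_lit 3732660572) (nat_lit 380) (nat_lit 2697529144) (nat_lit 68) (nat_lit 5) (nat_lit 72) (nat_lit 5) (nat_lit 73) (nat_lit 5) (nat_lit 311) (nat_lit 252) (nat_lit 217)) (XT.nd (nat_lit 78) (nat_lit 380) (nat_lit 0) (XT.lf (nat_lit 0) (nat_lit 9513183848) (nat_lit 304) (nat_lit 884020625) (nat_lit 380) (nat_lit 134257789) (nat_lit 68) (nat_lit 5) (nat_lit 72) (nat_lit 5) (nat_lit 73) (nat_lit 5) (nat_lit 312) (nat_lit 252) (nat_lit 216)) (XT.lf (nat_lit 0) (nat_lit 2472474311) (nat_lit 380) (nat_lit 6187262926) (nat_lit 76) (nat_lit 2061243427) (nat_lit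 63) (nat_lit 5) (nat_lit 68) (nat_lit 5) (nat_lit 64) (nat_lit 5) (nat_lit 313) (nat_lit 252) (nat_lit 215))))))) (XT.nd (nat_lit 936) (nat_lit 1064) (nat_lit 0) (XT.nd (nat_lit 468) (nat_lit 760) (nat_lit 0) (XT.nd (nat_lit 234) (nat_lit 608) (nat_lit 0) (XT.nd (nat_lit 78) (nat_lit 228) (nat_lit 0) (XT.lf (nat_lit 0) (nat_lit 5125931054) (nat_lit 380) (nat_lit 719843969) (nat_lit 76) (nat_lit 5071308409) (nat_lit 63) (nat_lit 5) (nat_lit 68) (nat_lit 5) (nat_lit 64) (nat_lit 5) (nat_lit 314) (nat_lit 252) (nat_lit 214)) (XT.nd (nat_lit 78) (nat_lit 0) (nat_lit 0) (XT.lf (nat_lit 0) (nat_lit 4943072627) (nat_lit 228) (nat_lit 2916914346) (nat_lit 304) (nat_lit 3259125576) (nat_lit 60) (nat_lit 5) (nat_lit 63) (nat_lit 5) (nat_lit 64) (nat_lit 5) (nat_lit 315) (nat_lit 252) (nat_lit 213)) (XT.lf (nat_lit 0) (nat_lit 10638402663) (nat_lit 304) (nat_lit 602994179) (nat_lit 76) (nat_lit 87006557)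 (nat_lit 60) (nat_lit 5) (nat_lit 64) (nat_lit 5) (nat_lit 61) (nat_lit 5) (nat_lit 316) (nat_lit 252) (nat_lit 212)))) (XT.nd (nat_lit 78) (nat_lit 228) (nat_lit 0) (XT.lf (nat_lit 0) (nat_lit 1952005775) (nat_lit 380) (nat_lit 6417106620) (nat_lit 76) (nat_lit 3173343968) (nat_lit 55) (nat_lit 5) (nat_lit 60) (nat_lit 5) (nat_lit 56) (nat_lit 5) (nat_lit 317) (nat_lit 252) (nat_lit 211)) (XT.nd (nat_lit 78) (nat_lit 228) (nat_lit 0) (XT.lf (nat_lit 0) (nat_lit 4621122685) (nat_lit 380) (nat_lit 795760272) (nat_lit 76) (nat_lit 6347056429) (nat_lit 55) (nat_lit 5) (nat_lit 60) (nat_lit 5) (nat_lit 56) (nat_lit 5) (nat_lit 318) (nat_lit 252) (nat_lit 210)) (XT.lf (nat_lit 0) (nat_lit 5030224237) (nat_lit 228) (nat_lit 2345305745) (nat_lit 304) (nat_lit 4616443494) (nat_lit 52) (nat_lit 5) (nat_lit 55) (nat_lit 5) (nat_lit 56) (nat_lit 5) (nat_lit 319) (nat_lit 252) (nat_lit 209))))) (XT.nd (nat_lit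 234) (nat_lit 456) (nat_lit 0) (XT.nd (nat_lit 78) (nat_lit 304) (nat_lit 0) (XT.lf (nat_lit 0) (nat_lit 10185896460) (nat_lit 304) (nat_lit 1249956257) (nat_lit 76) (nat_lit 791857310) (nat_lit 52) (nat_lit 5) (nat_lit 56) (nat_lit 5) (nat_lit 53) (nat_lit 5) (nat_lit 320) (nat_lit 252) (nat_lit 208)) (XT.nd (nat_lit 78) (nat_lit 0) (nat_lit 0) (XT.lf (nat_lit 0) (nat_lit 624760864) (nat_lit 304) (nat_lit 7836281828) (nat_lit 76) (nat_lit 4008559488) (nat_lit 48) (nat_lit 5) (nat_lit 52) (nat_lit 5) (nat_lit 49) (nat_lit 5) (nat_lit 321) (nat_lit 252) (nat_lit 207)) (XT.lf (nat_lit 0) (nat_lit 3301794537) (nat_lit 304) (nat_lit 2081151684) (nat_lit 76) (nat_lit 7336109433) (nat_lit 48) (nat_lit 5) (nat_lit 52) (nat_lit 5) (nat_lit 49) (nat_lit 5) (nat_lit 322) (nat_lit 252) (nat_lit 206)))) (XT.nd (nat_lit 78) (nat_lit 228) (nat_lit 0) (XT.lf (nat_lit 0) (nat_lit 3862631022) (nat_lit 228) (nat_lit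 2193592888) (nat_lit 304) (nat_lit 6919910696) (nat_lit 45) (nat_lit 5) (nat_lit 48) (nat_lit 5) (nat_lit 49) (nat_lit 5) (nat_lit 323) (nat_lit 252) (nat_lit 205)) (XT.nd (nat_lit 78) (nat_lit 228) (nat_lit 0) (XT.lf (nat_lit 0) (nat_lit 8885371328) (nat_lit 304) (nat_lit 3283449594) (nat_lit 76) (nat_lit 1072395284) (nat_lit 45) (nat_lit 5) (nat_lit 49) (nat_lit 5) (nat_lit 46) (nat_lit 5) (nat_lit 324) (nat_lit 252) (nat_lit 204)) (XT.lf (nat_lit 0) (nat_lit 2694261798) (nat_lit 228) (nat_lit 9114273213) (nat_lit 304) (nat_lit 1705492279) (nat_lit 42) (nat_lit 5) (nat_lit 45) (nat_lit 5) (nat_lit 46) (nat_lit 5) (nat_lit 325) (nat_lit 252) (nat_lit 203)))))) (XT.nd (nat_lit 468) (nat_lit 532) (nat_lit 0) (XT.nd (nat_lit 234) (nat_lit 304) (nat_lit 0) (XT.nd (nat_lit 78) (nat_lit 152) (nat_lit 0) (XT.lf (nat_lit 0) (nat_lit 999534105) (nat_lit 304) (nat_lit 4943933002) (nat_lit 76) (nat_lit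 7851453972) (nat_lit 41) (nat_lit 5) (nat_lit 45) (nat_lit 5) (nat_lit 42) (nat_lit 5) (nat_lit 326) (nat_lit 252) (nat_lit 202)) (XT.nd (nat_lit 78) (nat_lit 0) (nat_lit 0) (XT.lf (nat_lit 0) (nat_lit 1055237303) (nat_lit 152) (nat_lit 2669123022) (nat_lit 228) (nat_lit 10360233881) (nat_lit 39) (nat_lit 5) (nat_lit 41) (nat_lit 5) (nat_lit 42) (nat_lit 5) (nat_lit 327) (nat_lit 252) (nat_lit 201)) (XT.lf (nat_lit 0) (nat_lit 6551254000) (nat_lit 228) (nat_lit 7110033934) (nat_lit 76) (nat_lit 721105487) (nat_lit 39) (nat_lit 5) (nat_lit 42) (nat_lit 5) (nat_lit 40) (nat_lit 5) (nat_lit 328) (nat_lit 252) (nat_lit 200)))) (XT.nd (nat_lit 78) (nat_lit 304) (nat_lit 0) (XT.lf (nat_lit 0) (nat_lit 9453597305) (nat_lit 228) (nat_lit 1094943015) (nat_lit 76) (nat_lit 4140911254) (nat_lit 39) (nat_lit 5) (nat_lit 42) (nat_lit 5) (nat_lit 40) (nat_lit 5) (nat_lit 329) (nat_lit 252) (nat_lit 199)) (XT.nd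 (nat_lit 78) (nat_lit 76) (nat_lit 0) (XT.lf (nat_lit 0) (nat_lit 5147270795) (nat_lit 228) (nat_lit 7310476944) (nat_lit 304) (nat_lit 2547574583) (nat_lit 36) (nat_lit 5) (nat_lit 39) (nat_lit 5) (nat_lit 40) (nat_lit 5) (nat_lit 330) (nat_lit 252) (nat_lit 198)) (XT.lf (nat_lit 0) (nat_lit 193578616) (nat_lit 304) (nat_lit 3787352459) (nat_lit 76) (nat_lit 11350418439) (nat_lit 35) (nat_lit 5) (nat_lit 39) (nat_lit 5) (nat_lit 36) (nat_lit 5) (nat_lit 331) (nat_lit 252) (nat_lit 197))))) (XT.nd (nat_lit 234) (nat_lit 380) (nat_lit 0) (XT.nd (nat_lit 78) (nat_lit 0) (nat_lit 0) (XT.lf (nat_lit 0) (nat_lit 2435364880) (nat_lit 152) (nat_lit 520194700) (nat_lit 228) (nat_lit 12711186644) (nat_lit 33) (nat_lit 5) (nat_lit 35) (nat_lit 5) (nat_lit 36) (nat_lit 5) (nat_lit 332) (nat_lit 252) (nat_lit 196)) (XT.nd (nat_lit 78) (nat_lit 0) (nat_lit 0) (XT.lf (nat_lit 0) (nat_lit 5834974394) (nat_lit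 228) (nat_lit 7171039745) (nat_lit 76) (nat_lit 3005191629) (nat_lit 33) (nat_lit 5) (nat_lit 36) (nat_lit 5) (nat_lit 34) (nat_lit 5) (nat_lit 333) (nat_lit 252) (nat_lit 195)) (XT.lf (nat_lit 0) (nat_lit 8773579026) (nat_lit 228) (nat_lit 985242281) (nat_lit 76) (nat_lit 6608030625) (nat_lit 33) (nat_lit 5) (nat_lit 36) (nat_lit 5) (nat_lit 34) (nat_lit 5) (nat_lit 334) (nat_lit 252) (nat_lit 194)))) (XT.nd (nat_lit 78) (nat_lit 228) (nat_lit 0) (XT.lf (nat_lit 0) (nat_lit 5442621695) (nat_lit 152) (nat_lit 6378636873) (nat_lit 228) (nat_lit 4911317386) (nat_lit 31) (nat_lit 5) (nat_lit 33) (nat_lit 5) (nat_lit 34) (nat_lit 5) (nat_lit 335) (nat_lit 252) (nat_lit 193)) (XT.nd (nat_lit 78) (nat_lit 228) (nat_lit 0) (XT.lf (nat_lit 0) (nat_lit 12034292906) (nat_lit 152) (nat_lit 2905064980) (nat_lit 228) (nat_lit 2170579057) (nat_lit 31) (nat_lit 5) (nat_lit 33) (nat_lit 5) (nat_lit 34) (nat_lit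 5) (nat_lit 336) (nat_lit 252) (nat_lit 192)) (XT.lf (nat_lit 0) (nat_lit 628195751) (nat_lit 228) (nat_lit 16209801502) (nat_lit 76) (nat_lit 660809960) (nat_lit 28) (nat_lit 5) (nat_lit 31) (nat_lit 5) (nat_lit 29) (nat_lit 5) (nat_lit 337) (nat_lit 252) (nat_lit 191))))))))
noncomputable def xc88 : XT := (XT.nd (nat_lit 1794) (nat_lit 532) (nat_lit 0) (XT.nd (nat_lit 858) (nat_lit 456) (nat_lit 0) (XT.nd (nat_lit 390) (nat_lit 380) (nat_lit 0) (XT.nd (nat_lit 156) (nat_lit 152) (nat_lit 0) (XT.nd (nat_lit 78) (nat_lit 0) (nat_lit 0) (XT.lf (nat_lit 0) (nat_lit 3517694324) (nat_lit 228) (nat_lit 10048638996) (nat_lit 76) (nat_lit 4330885898) (nat_lit 28) (nat_lit 5) (nat_lit 31) (nat_lit 5) (nat_lit 29) (nat_lit 5) (nat_lit 338) (nat_lit 252) (nat_lit 190)) (XT.lf (nat_lit 0) (nat_lit 6464618118) (nat_lit 228) (nat_lit 3749935148) (nat_lit 76) (nat_lit 8093939143) (nat_lit 28) (nat_lit 5) (nat_lit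 31) (nat_lit 5) (nat_lit 29) (nat_lit 5) (nat_lit 339) (nat_lit 252) (nat_lit 189))) (XT.nd (nat_lit 78) (nat_lit 0) (nat_lit 0) (XT.lf (nat_lit 0) (nat_lit 2745386136) (nat_lit 152) (nat_lit 6752546310) (nat_lit 228) (nat_lit 9234261994) (nat_lit 26) (nat_lit 5) (nat_lit 28) (nat_lit 5) (nat_lit 29) (nat_lit 5) (nat_lit 340) (nat_lit 252) (nat_lit 188)) (XT.nd (nat_lit 78) (nat_lit 0) (nat_lit 0) (XT.lf (nat_lit 0) (nat_lit 9466971159) (nat_lit 152) (nat_lit 3165124883) (nat_lit 228) (nat_lit 6536245246) (nat_lit 26) (nat_lit 5) (nat_lit 28) (nat_lit 5) (nat_lit 29) (nat_lit 5) (nat_lit 341) (nat_lit 252) (nat_lit 187)) (XT.lf (nat_lit 0) (nat_lit 15838014491) (nat_lit 228) (nat_lit 3277285952) (nat_lit 76) (nat_lit 502968599) (nat_lit 26) (nat_lit 5) (nat_lit 29) (nat_lit 5) (nat_lit 27) (nat_lit 4) (nat_lit 342) (nat_lit 252) (nat_lit 186))))) (XT.nd (nat_lit 234) (nat_lit 152) (nat_lit 0)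 (XT.nd (nat_lit 78) (nat_lit 76) (nat_lit 0) (XT.lf (nat_lit 0) (nat_lit 3329638413) (nat_lit 152) (nat_lit 15847249516) (nat_lit 228) (nat_lit 903730950) (nat_lit 24) (nat_lit 5) (nat_lit 26) (nat_lit 5) (nat_lit 27) (nat_lit 4) (nat_lit 343) (nat_lit 252) (nat_lit 185)) (XT.nd (nat_lit 78) (nat_lit 0) (nat_lit 0) (XT.lf (nat_lit 0) (nat_lit 2025836853) (nat_lit 228) (nat_lit 10417659924) (nat_lit 76) (nat_lit 8112566766) (nat_lit 23) (nat_lit 5) (nat_lit 26) (nat_lit 5) (nat_lit 24) (nat_lit 5) (nat_lit 344) (nat_lit 252) (nat_lit 184)) (XT.lf (nat_lit 0) (nat_lit 4999406135) (nat_lit 228) (nat_lit 3945660717) (nat_lit 76) (nat_lit 12101233136) (nat_lit 23) (nat_lit 5) (nat_lit 26) (nat_lit 5) (nat_lit 24) (nat_lit 5) (nat_lit 345) (nat_lit 252) (nat_lit 183)))) (XT.nd (nat_lit 78) (nat_lit 0) (nat_lit 0) (XT.lf (nat_lit 0) (nat_lit 2732684021) (nat_lit 152) (nat_lit 5330794413) (nat_lit 228)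 (nat_lit 13487750712) (nat_lit 21) (nat_lit 5) (nat_lit 23) (nat_lit 5) (nat_lit 24) (nat_lit 5) (nat_lit 346) (nat_lit 252) (nat_lit 182)) (XT.nd (nat_lit 78) (nat_lit 0) (nat_lit 0) (XT.lf (nat_lit 0) (nat_lit 9651525649) (nat_lit 152) (nat_lit 1583154173) (nat_lit 228) (nat_lit 10836193934) (nat_lit 21) (nat_lit 5) (nat_lit 23) (nat_lit 5) (nat_lit 24) (nat_lit 5) (nat_lit 347) (nat_lit 252) (nat_lit 181)) (XT.lf (nat_lit 0) (nat_lit 14498835157) (nat_lit 228) (nat_lit 5890201848) (nat_lit 76) (nat_lit 2217159253) (nat_lit 21) (nat_lit 5) (nat_lit 24) (nat_lit 5) (nat_lit 22) (nat_lit 4) (nat_lit 348) (nat_lit 252) (nat_lit 180)))))) (XT.nd (nat_lit 468) (nat_lit 152) (nat_lit 0) (XT.nd (nat_lit 234) (nat_lit 152) (nat_lit 0) (XT.nd (nat_lit 78) (nat_lit 76) (nat_lit 0) (XT.lf (nat_lit 0) (nat_lit 795700534) (nat_lit 76) (nat_lit 17065170020) (nat_lit 152) (nat_lit 5296731639) (nat_lit 20)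 (nat_lit 5) (nat_lit 21) (nat_lit 5) (nat_lit 22) (nat_lit 4) (nat_lit 349) (nat_lit 252) (nat_lit 179)) (XT.nd (nat_lit 78) (nat_lit 76) (nat_lit 0) (XT.lf (nat_lit 0) (nat_lit 7764334960) (nat_lit 76) (nat_lit 13595853080) (nat_lit 152) (nat_lit 2364291399) (nat_lit 20) (nat_lit 5) (nat_lit 21) (nat_lit 5) (nat_lit 22) (nat_lit 4) (nat_lit 350) (nat_lit 252) (nat_lit 178)) (XT.lf (nat_lit 0) (nat_lit 620689514) (nat_lit 152) (nat_lit 9410576971) (nat_lit 76) (nat_lit 14277606701) (nat_lit 19) (nat_lit 5) (nat_lit 21) (nat_lit 5) (nat_lit 20) (nat_lit 5) (nat_lit 351) (nat_lit 252) (nat_lit 177)))) (XT.nd (nat_lit 78) (nat_lit 152) (nat_lit 0) (XT.lf (nat_lit 0) (nat_lit 3625729816) (nat_lit 152) (nat_lit 2724761689) (nat_lit 76) (nat_lit 18560283998) (nat_lit 19) (nat_lit 5) (nat_lit 21) (nat_lit 5) (nat_lit 20) (nat_lit 5) (nat_lit 352) (nat_lit 252) (nat_lit 176)) (XT.nd (nat_lit 78) (nat_lit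 0) (nat_lit 0) (XT.lf (nat_lit 0) (nat_lit 4207983264) (nat_lit 152) (nat_lit 2532057554) (nat_lit 228) (nat_lit 18790139825) (nat_lit 17) (nat_lit 5) (nat_lit 19) (nat_lit 5) (nat_lit 20) (nat_lit 5) (nat_lit 353) (nat_lit 252) (nat_lit 175)) (XT.lf (nat_lit 0) (nat_lit 9967847596) (nat_lit 228) (nat_lit 14812435368) (nat_lit 76) (nat_lit 1387301757) (nat_lit 17) (nat_lit 5) (nat_lit 20) (nat_lit 5) (nat_lit 18) (nat_lit 4) (nat_lit 354) (nat_lit 252) (nat_lit 174))))) (XT.nd (nat_lit 234) (nat_lit 76) (nat_lit 0) (XT.nd (nat_lit 78) (nat_lit 76) (nat_lit 0) (XT.lf (nat_lit 0) (nat_lit 13296988239) (nat_lit 228) (nat_lit 8167323546) (nat_lit 76) (nat_lit 5359682373) (nat_lit 17) (nat_lit 5) (nat_lit 20) (nat_lit 5) (nat_lit 18) (nat_lit 4) (nat_lit 355) (nat_lit 252) (nat_lit 173)) (XT.nd (nat_lit 78) (nat_lit 76) (nat_lit 0) (XT.lf (nat_lit 0) (nat_lit 16706032021) (nat_lit 228) (nat_lit 1356715820)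 (nat_lit 76) (nat_lit 9437964869) (nat_lit 17) (nat_lit 5) (nat_lit 20) (nat_lit 5) (nat_lit 18) (nat_lit 4) (nat_lit 356) (nat_lit 252) (nat_lit 172)) (XT.lf (nat_lit 0) (nat_lit 5737294100) (nat_lit 76) (nat_lit 14515813997) (nat_lit 152) (nat_lit 7943569074) (nat_lit 16) (nat_lit 5) (nat_lit 17) (nat_lit 5) (nat_lit 18) (nat_lit 4) (nat_lit 357) (nat_lit 252) (nat_lit 171)))) (XT.nd (nat_lit 78) (nat_lit 76) (nat_lit 0) (XT.lf (nat_lit 0) (nat_lit 13039386619) (nat_lit 76) (nat_lit 10861772465) (nat_lit 152) (nat_lit 5012541284) (nat_lit 16) (nat_lit 5) (nat_lit 17) (nat_lit 5) (nat_lit 18) (nat_lit 4) (nat_lit 358) (nat_lit 252) (nat_lit 170)) (XT.nd (nat_lit 78) (nat_lit 76) (nat_lit 0) (XT.lf (nat_lit 0) (nat_lit 20528940902) (nat_lit 76) (nat_lit 7111130562) (nat_lit 152) (nat_lit 2012736397) (nat_lit 16) (nat_lit 5) (nat_lit 17) (nat_lit 5) (nat_lit 18) (nat_lit 4) (nat_lit 359) (nat_lit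 252) (nat_lit 169)) (XT.lf (nat_lit 0) (nat_lit 1037812275) (nat_lit 152) (nat_lit 2212318885) (nat_lit 76) (nat_lit 27164209074) (nat_lit 15) (nat_lit 5) (nat_lit 17) (nat_lit 5) (nat_lit 16) (nat_lit 5) (nat_lit 360) (nat_lit 252) (nat_lit 168))))))) (XT.nd (nat_lit 858) (nat_lit 152) (nat_lit 0) (XT.nd (nat_lit 390) (nat_lit 152) (nat_lit 0) (XT.nd (nat_lit 156) (nat_lit 76) (nat_lit 0) (XT.nd (nat_lit 78) (nat_lit 0) (nat_lit 0) (XT.lf (nat_lit 0) (nat_lit 4176868641) (nat_lit 228) (nat_lit 26251625545) (nat_lit 76) (nat_lit 768518014) (nat_lit 13) (nat_lit 5) (nat_lit 16) (nat_lit 5) (nat_lit 14) (nat_lit 4) (nat_lit 361) (nat_lit 252) (nat_lit 167)) (XT.lf (nat_lit 0) (nat_lit 7447245073) (nat_lit 228) (nat_lit 19701999115) (nat_lit 76) (nat_lit 4852820075) (nat_lit 13) (nat_lit 5) (nat_lit 16) (nat_lit 5) (nat_lit 14) (nat_lit 4) (nat_lit 362) (nat_lit 252) (nat_lit 166))) (XT.nd (nat_lit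 78) (nat_lit 76) (nat_lit 0) (XT.lf (nat_lit 0) (nat_lit 10798652787) (nat_lit 228) (nat_lit 12985280027) (nat_lit 76) (nat_lit 9047861445) (nat_lit 13) (nat_lit 5) (nat_lit 16) (nat_lit 5) (nat_lit 14) (nat_lit 4) (nat_lit 363) (nat_lit 252) (nat_lit 165)) (XT.nd (nat_lit 78) (nat_lit 76) (nat_lit 0) (XT.lf (nat_lit 0) (nat_lit 14234020197) (nat_lit 228) (nat_lit 6095599303) (nat_lit 76) (nat_lit 13357307696) (nat_lit 13) (nat_lit 5) (nat_lit 16) (nat_lit 5) (nat_lit 14) (nat_lit 4) (nat_lit 364) (nat_lit 252) (nat_lit 164)) (XT.lf (nat_lit 0) (nat_lit 992429031) (nat_lit 76) (nat_lit 16773459883) (nat_lit 152) (nat_lit 16802035165) (nat_lit 12) (nat_lit 5) (nat_lit 13) (nat_lit 5) (nat_lit 14) (nat_lit 4) (nat_lit 365) (nat_lit 252) (nat_lit 163))))) (XT.nd (nat_lit 234) (nat_lit 152) (nat_lit 0) (XT.nd (nat_lit 78) (nat_lit 0) (nat_lit 0) (XT.lf (nat_lit 0) (nat_lit 8390615004) (nat_lit 76)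 (nat_lit 13058757920) (nat_lit 152) (nat_lit 14024620955) (nat_lit 12) (nat_lit 5) (nat_lit 13) (nat_lit 5) (nat_lit 14) (nat_lit 4) (nat_lit 366) (nat_lit 252) (nat_lit 162)) (XT.nd (nat_lit 78) (nat_lit 0) (nat_lit 0) (XT.lf (nat_lit 0) (nat_lit 15984108670) (nat_lit 76) (nat_lit 9243821355) (nat_lit 152) (nat_lit 11179791103) (nat_lit 12) (nat_lit 5) (nat_lit 13) (nat_lit 5) (nat_lit 14) (nat_lit 4) (nat_lit 367) (nat_lit 252) (nat_lit 161)) (XT.lf (nat_lit 0) (nat_lit 23779545120) (nat_lit 76) (nat_lit 5325316748) (nat_lit 152) (nat_lit 8265059836) (nat_lit 12) (nat_lit 5) (nat_lit 13) (nat_lit 5) (nat_lit 14) (nat_lit 4) (nat_lit 368) (nat_lit 252) (nat_lit 160)))) (XT.nd (nat_lit 78) (nat_lit 152) (nat_lit 0) (XT.lf (nat_lit 0) (nat_lit 31783735902) (nat_lit 76) (nat_lit 1299820164) (nat_lit 152) (nat_lit 5277880301) (nat_lit 12) (nat_lit 5) (nat_lit 13) (nat_lit 5) (nat_lit 14) (nat_lit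 4) (nat_lit 369) (nat_lit 252) (nat_lit 159)) (XT.nd (nat_lit 78) (nat_lit 76) (nat_lit 0) (XT.lf (nat_lit 0) (nat_lit 605087769) (nat_lit 76) (nat_lit 36595481004) (nat_lit 76) (nat_lit 2181570324) (nat_lit 11) (nat_lit 4) (nat_lit 12) (nat_lit 5) (nat_lit 12) (nat_lit 4) (nat_lit 370) (nat_lit 252) (nat_lit 158)) (XT.lf (nat_lit 0) (nat_lit 1053724096) (nat_lit 152) (nat_lit 32341252013) (nat_lit 76) (nat_lit 7036234202) (nat_lit 10) (nat_lit 5) (nat_lit 12) (nat_lit 5) (nat_lit 11) (nat_lit 4) (nat_lit 371) (nat_lit 252) (nat_lit 157)))))) (XT.nd (nat_lit 468) (nat_lit 76) (nat_lit 0) (XT.nd (nat_lit 234) (nat_lit 76) (nat_lit 0) (XT.nd (nat_lit 78) (nat_lit 0) (nat_lit 0) (XT.lf (nat_lit 0) (nat_lit 4328451879) (nat_lit 152) (nat_lit 25758021848) (nat_lit 76) (nat_lit 11425055681) (nat_lit 10) (nat_lit 5) (nat_lit 12) (nat_lit 5) (nat_lit 11) (nat_lit 4) (nat_lit 372) (nat_lit 252) (nat_lit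 156)) (XT.nd (nat_lit 78) (nat_lit 0) (nat_lit 0) (XT.lf (nat_lit 0) (nat_lit 7688044730) (nat_lit 152) (nat_lit 19000637908) (nat_lit 76) (nat_lit 15935986835) (nat_lit 10) (nat_lit 5) (nat_lit 12) (nat_lit 5) (nat_lit 11) (nat_lit 4) (nat_lit 373) (nat_lit 252) (nat_lit 155)) (XT.lf (nat_lit 0) (nat_lit 11135438216) (nat_lit 152) (nat_lit 12063195682) (nat_lit 76) (nat_lit 20572969255) (nat_lit 10) (nat_lit 5) (nat_lit 12) (nat_lit 5) (nat_lit 11) (nat_lit 4) (nat_lit 374) (nat_lit 252) (nat_lit 154)))) (XT.nd (nat_lit 78) (nat_lit 76) (nat_lit 0) (XT.lf (nat_lit 0) (nat_lit 14673644623) (nat_lit 152) (nat_lit 4939633327) (nat_lit 76) (nat_lit 25340054674) (nat_lit 10) (nat_lit 5) (nat_lit 12) (nat_lit 5) (nat_lit 11) (nat_lit 4) (nat_lit 375) (nat_lit 252) (nat_lit 153)) (XT.nd (nat_lit 78) (nat_lit 0) (nat_lit 0) (XT.lf (nat_lit 0) (nat_lit 2423566131) (nat_lit 76) (nat_lit 15905486255) (nat_lit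 152) (nat_lit 27841139174) (nat_lit 9) (nat_lit 5) (nat_lit 10) (nat_lit 5) (nat_lit 11) (nat_lit 4) (nat_lit 376) (nat_lit 252) (nat_lit 152)) (XT.lf (nat_lit 0) (nat_lit 10087766378) (nat_lit 76) (nat_lit 12044148200) (nat_lit 152) (nat_lit 25290516887) (nat_lit 9) (nat_lit 5) (nat_lit 10) (nat_lit 5) (nat_lit 11) (nat_lit 4) (nat_lit 377) (nat_lit 252) (nat_lit 151))))) (XT.nd (nat_lit 234) (nat_lit 76) (nat_lit 0) (XT.nd (nat_lit 78) (nat_lit 0) (nat_lit 0) (XT.lf (nat_lit 0) (nat_lit 17961355899) (nat_lit 76) (nat_lit 8075770410) (nat_lit 152) (nat_lit 22675473055) (nat_lit 9) (nat_lit 5) (nat_lit 10) (nat_lit 5) (nat_lit 11) (nat_lit 4) (nat_lit 378) (nat_lit 252) (nat_lit 150)) (XT.nd (nat_lit 78) (nat_lit 0) (nat_lit 0) (XT.lf (nat_lit 0) (nat_lit 26051214528) (nat_lit 76) (nat_lit 3996885372) (nat_lit 152) (nat_lit 19993722688) (nat_lit 9) (nat_lit 5) (nat_lit 10) (nat_lit 5) (nat_lit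 11) (nat_lit 4) (nat_lit 379) (nat_lit 252) (nat_lit 149)) (XT.lf (nat_lit 0) (nat_lit 34170224840) (nat_lit 152) (nat_lit 17048736273) (nat_lit 0) (nat_lit 192244937) (nat_lit 9) (nat_lit 5) (nat_lit 11) (nat_lit 4) (nat_lit 9) (nat_lit 4) (nat_lit 380) (nat_lit 252) (nat_lit 148)))) (XT.nd (nat_lit 78) (nat_lit 76) (nat_lit 0) (XT.lf (nat_lit 0) (nat_lit 38444768832) (nat_lit 152) (nat_lit 9957228238) (nat_lit 0) (nat_lit 4418819253) (nat_lit 9) (nat_lit 5) (nat_lit 11) (nat_lit 4) (nat_lit 9) (nat_lit 4) (nat_lit 381) (nat_lit 252) (nat_lit 147)) (XT.nd (nat_lit 78) (nat_lit 76) (nat_lit 0) (XT.lf (nat_lit 0) (nat_lit 42837046408) (nat_lit 152) (nat_lit 2671466986) (nat_lit 0) (nat_lit 8764524328) (nat_lit 9) (nat_lit 5) (nat_lit 11) (nat_lit 4) (nat_lit 9) (nat_lit 4) (nat_lit 382) (nat_lit 252) (nat_lit 146)) (XT.lf (nat_lit 0) (nat_lit 4910739905) (nat_lit 76) (nat_lit 42487360612) (nat_lit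 76) (nat_lit 8369622511) (nat_lit 8) (nat_lit 4) (nat_lit 9) (nat_lit 5) (nat_lit 9) (nat_lit 4) (nat_lit 383) (nat_lit 252) (nat_lit 145))))))))
noncomputable def xc89 : XT := (XT.nd (nat_lit 32526) (nat_lit 0) (nat_lit 6536) (XT.nd (nat_lit 858) (nat_lit 0) (nat_lit 0) (XT.nd (nat_lit 390) (nat_lit 76) (nat_lit 0) (XT.nd (nat_lit 156) (nat_lit 76) (nat_lit 0) (XT.nd (nat_lit 78) (nat_lit 0) (nat_lit 0) (XT.lf (nat_lit 0) (nat_lit 12757398051) (nat_lit 76) (nat_lit 39355494054) (nat_lit 76) (nat_lit 5193856904) (nat_lit 8) (nat_lit 4) (nat_lit 9) (nat_lit 5) (nat_lit 9) (nat_lit 4) (nat_lit 384) (nat_lit 252) (nat_lit 144)) (XT.lf (nat_lit 0) (nat_lit 20822196323) (nat_lit 76) (nat_lit 36137153716) (nat_lit 76) (nat_lit 1932896130) (nat_lit 8) (nat_lit 4) (nat_lit 9) (nat_lit 5) (nat_lit 9) (nat_lit 4) (nat_lit 385) (nat_lit 252) (nat_lit 143))) (XT.nd (nat_lit 78) (nat_lit 0) (nat_lit 0) (XT.lf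 (nat_lit 0) (nat_lit 1388475802) (nat_lit 152) (nat_lit 31427030771) (nat_lit 76) (nat_lit 27709684947) (nat_lit 7) (nat_lit 5) (nat_lit 9) (nat_lit 5) (nat_lit 8) (nat_lit 4) (nat_lit 386) (nat_lit 252) (nat_lit 142)) (XT.nd (nat_lit 78) (nat_lit 0) (nat_lit 0) (XT.lf (nat_lit 0) (nat_lit 4761325665) (nat_lit 152) (nat_lit 24620319398) (nat_lit 76) (nat_lit 32825191937) (nat_lit 7) (nat_lit 5) (nat_lit 9) (nat_lit 5) (nat_lit 8) (nat_lit 4) (nat_lit 387) (nat_lit 252) (nat_lit 141)) (XT.lf (nat_lit 0) (nat_lit 8226318373) (nat_lit 152) (nat_lit 17625387936) (nat_lit 76) (nat_lit 38087503104) (nat_lit 7) (nat_lit 5) (nat_lit 9) (nat_lit 5) (nat_lit 8) (nat_lit 4) (nat_lit 388) (nat_lit 252) (nat_lit 140))))) (XT.nd (nat_lit 234) (nat_lit 0) (nat_lit 0) (XT.nd (nat_lit 78) (nat_lit 76) (nat_lit 0) (XT.lf (nat_lit 0) (nat_lit 11786481591) (nat_lit 152) (nat_lit 10436124309) (nat_lit 76) (nat_lit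 43501216584) (nat_lit 7) (nat_lit 5) (nat_lit 9) (nat_lit 5) (nat_lit 8) (nat_lit 4) (nat_lit 389) (nat_lit 252) (nat_lit 139)) (XT.nd (nat_lit 78) (nat_lit 76) (nat_lit 0) (XT.lf (nat_lit 0) (nat_lit 15444926141) (nat_lit 152) (nat_lit 3046246635) (nat_lit 76) (nat_lit 49071062805) (nat_lit 7) (nat_lit 5) (nat_lit 9) (nat_lit 5) (nat_lit 8) (nat_lit 4) (nat_lit 390) (nat_lit 252) (nat_lit 138)) (XT.lf (nat_lit 0) (nat_lit 4641270157) (nat_lit 76) (nat_lit 14608193293) (nat_lit 152) (nat_lit 50205253196) (nat_lit 6) (nat_lit 5) (nat_lit 7) (nat_lit 5) (nat_lit 8) (nat_lit 4) (nat_lit 391) (nat_lit 252) (nat_lit 137)))) (XT.nd (nat_lit 78) (nat_lit 0) (nat_lit 0) (XT.lf (nat_lit 0) (nat_lit 12607375797) (nat_lit 76) (nat_lit 10583348714) (nat_lit 152) (nat_lit 48212575589) (nat_lit 6) (nat_lit 5) (nat_lit 7) (nat_lit 5) (nat_lit 8) (nat_lit 4) (nat_lit 392) (nat_lit 252) (nat_lit 136)) (XT.nd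 (nat_lit 78) (nat_lit 0) (nat_lit 0) (XT.lf (nat_lit 0) (nat_lit 20798404679) (nat_lit 76) (nat_lit 6443883304) (nat_lit 152) (nat_lit 46168296564) (nat_lit 6) (nat_lit 5) (nat_lit 7) (nat_lit 5) (nat_lit 8) (nat_lit 4) (nat_lit 393) (nat_lit 252) (nat_lit 135)) (XT.lf (nat_lit 0) (nat_lit 29221514012) (nat_lit 76) (nat_lit 2186180054) (nat_lit 152) (nat_lit 44070629858) (nat_lit 6) (nat_lit 5) (nat_lit 7) (nat_lit 5) (nat_lit 8) (nat_lit 4) (nat_lit 394) (nat_lit 252) (nat_lit 134)))))) (XT.nd (nat_lit 31200) (nat_lit 0) (nat_lit 16264) (XT.nd (nat_lit 234) (nat_lit 0) (nat_lit 0) (XT.nd (nat_lit 78) (nat_lit 0) (nat_lit 0) (XT.lf (nat_lit 0) (nat_lit 35711667520) (nat_lit 152) (nat_lit 39745346284) (nat_lit 0) (nat_lit 2150678636) (nat_lit 6) (nat_lit 5) (nat_lit 8) (nat_lit 4) (nat_lit 6) (nat_lit 4) (nat_lit 395) (nat_lit 252) (nat_lit 133)) (XT.nd (nat_lit 78) (nat_lit 0) (nat_lit 0) (XT.lf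 (nat_lit 0) (nat_lit 40159089613) (nat_lit 152) (nat_lit 33073219868) (nat_lit 0) (nat_lit 6568207612) (nat_lit 6) (nat_lit 5) (nat_lit 8) (nat_lit 4) (nat_lit 6) (nat_lit 4) (nat_lit 396) (nat_lit 252) (nat_lit 132)) (XT.lf (nat_lit 0) (nat_lit 44732831541) (nat_lit 152) (nat_lit 26213585752) (nat_lit 0) (nat_lit 11112927098) (nat_lit 6) (nat_lit 5) (nat_lit 8) (nat_lit 4) (nat_lit 6) (nat_lit 4) (nat_lit 397) (nat_lit 252) (nat_lit 131)))) (XT.nd (nat_lit 78) (nat_lit 0) (nat_lit 0) (XT.lf (nat_lit 0) (nat_lit 49436889779) (nat_lit 152) (nat_lit 19160450081) (nat_lit 0) (nat_lit 15788808206) (nat_lit 6) (nat_lit 5) (nat_lit 8) (nat_lit 4) (nat_lit 6) (nat_lit 4) (nat_lit 398) (nat_lit 252) (nat_lit 130)) (XT.nd (nat_lit 78) (nat_lit 0) (nat_lit 0) (XT.lf (nat_lit 0) (nat_lit 54275374668) (nat_lit 152) (nat_lit 11907649921) (nat_lit 0) (nat_lit 20599936659) (nat_lit 6) (nat_lit 5) (nat_lit 8)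 (nat_lit 4) (nat_lit 6) (nat_lit 4) (nat_lit 399) (nat_lit 252) (nat_lit 129)) (XT.lf (nat_lit 0) (nat_lit 59252514011) (nat_lit 152) (nat_lit 4448847873) (nat_lit 0) (nat_lit 25550516356) (nat_lit 6) (nat_lit 5) (nat_lit 8) (nat_lit 4) (nat_lit 6) (nat_lit 4) (nat_lit 400) (nat_lit 252) (nat_lit 128))))) (XT.nd (nat_lit 234) (nat_lit 760) (nat_lit 0) (XT.nd (nat_lit 78) (nat_lit 684) (nat_lit 0) (XT.lf (nat_lit 0) (nat_lit 103593495) (nat_lit 532) (nat_lit 1615748687) (nat_lit 532) (nat_lit 1615748687) (nat_lit 239) (nat_lit 4) (nat_lit 246) (nat_lit 5) (nat_lit 246) (nat_lit 4) (nat_lit 274) (nat_lit 253) (nat_lit 253)) (XT.nd (nat_lit 78) (nat_lit 684) (nat_lit 0) (XT.lf (nat_lit 0) (nat_lit 3998156757) (nat_lit 532) (nat_lit 2377293093) (nat_lit 532) (nat_lit 329461094) (nat_lit 239) (nat_lit 4) (nat_lit 246) (nat_lit 5) (nat_lit 246) (nat_lit 4) (nat_lit 275) (nat_lit 253) (nat_lit 252))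 (XT.lf (nat_lit 0) (nat_lit 1082351332) (nat_lit 608) (nat_lit 1439013070) (nat_lit 684) (nat_lit 4221462427) (nat_lit 230) (nat_lit 5) (nat_lit 238) (nat_lit 5) (nat_lit 239) (nat_lit 4) (nat_lit 276) (nat_lit 253) (nat_lit 251)))) (XT.nd (nat_lit 78) (nat_lit 760) (nat_lit 0) (XT.lf (nat_lit 0) (nat_lit 4962651124) (nat_lit 608) (nat_lit 421066903) (nat_lit 684) (nat_lit 1400396813) (nat_lit 230) (nat_lit 5) (nat_lit 238) (nat_lit 5) (nat_lit 239) (nat_lit 4) (nat_lit 277) (nat_lit 253) (nat_lit 250)) (XT.nd (nat_lit 78) (nat_lit 0) (nat_lit 0) (XT.lf (nat_lit 0) (nat_lit 1409388759) (nat_lit 760) (nat_lit 4750933872) (nat_lit 76) (nat_lit 668174304) (nat_lit 220) (nat_lit 5) (nat_lit 230) (nat_lit 5) (nat_lit 221) (nat_lit 4) (nat_lit 278) (nat_lit 253) (nat_lit 249)) (XT.lf (nat_lit 0) (nat_lit 4207108996) (nat_lit 760) (nat_lit 838039662) (nat_lit 76) (nat_lit 1830977095) (nat_lit 220) (nat_lit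 5) (nat_lit 230) (nat_lit 5) (nat_lit 221) (nat_lit 4) (nat_lit 279) (nat_lit 253) (nat_lit 248))))))) (XT.nd (nat_lit 936) (nat_lit 3420) (nat_lit 0) (XT.nd (nat_lit 468) (nat_lit 2660) (nat_lit 0) (XT.nd (nat_lit 234) (nat_lit 1976) (nat_lit 0) (XT.nd (nat_lit 78) (nat_lit 836) (nat_lit 0) (XT.lf (nat_lit 0) (nat_lit 101798105) (nat_lit 836) (nat_lit 3748725015) (nat_lit 76) (nat_lit 3076639264) (nat_lit 209) (nat_lit 5) (nat_lit 220) (nat_lit 5) (nat_lit 210) (nat_lit 5) (nat_lit 280) (nat_lit 253) (nat_lit 247)) (XT.nd (nat_lit 78) (nat_lit 0) (nat_lit 0) (XT.lf (nat_lit 0) (nat_lit 255498699) (nat_lit 836) (nat_lit 2570029812) (nat_lit 912) (nat_lit 4155966431) (nat_lit 198) (nat_lit 5) (nat_lit 209) (nat_lit 5) (nat_lit 210) (nat_lit 5) (nat_lit 281) (nat_lit 253) (nat_lit 246)) (XT.lf (nat_lit 0) (nat_lit 4381351510) (nat_lit 836) (nat_lit 1201733673) (nat_lit 912) (nat_lit 1456061950)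 (nat_lit 198) (nat_lit 5) (nat_lit 209) (nat_lit 5) (nat_lit 210) (nat_lit 5) (nat_lit 282) (nat_lit 253) (nat_lit 245)))) (XT.nd (nat_lit 78) (nat_lit 988) (nat_lit 0) (XT.lf (nat_lit 0) (nat_lit 1231193144) (nat_lit 988) (nat_lit 5629438179) (nat_lit 76) (nat_lit 239787892) (nat_lit 185) (nat_lit 5) (nat_lit 198) (nat_lit 5) (nat_lit 186) (nat_lit 5) (nat_lit 283) (nat_lit 253) (nat_lit 244)) (XT.nd (nat_lit 78) (nat_lit 988) (nat_lit 0) (XT.lf (nat_lit 0) (nat_lit 3926315136) (nat_lit 988) (nat_lit 1488318334) (nat_lit 76) (nat_lit 1749999667) (nat_lit 185) (nat_lit 5) (nat_lit 198) (nat_lit 5) (nat_lit 186) (nat_lit 5) (nat_lit 284) (nat_lit 253) (nat_lit 243)) (XT.lf (nat_lit 0) (nat_lit 2755942899) (nat_lit 988) (nat_lit 3892754301) (nat_lit 1064) (nat_lit 583908948) (nat_lit 172) (nat_lit 5) (nat_lit 185) (nat_lit 5) (nat_lit 186) (nat_lit 5) (nat_lit 285) (nat_lit 253) (nat_lit 242)))))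 (XT.nd (nat_lit 234) (nat_lit 684) (nat_lit 0) (XT.nd (nat_lit 78) (nat_lit 1900) (nat_lit 0) (XT.lf (nat_lit 0) (nat_lit 2043897051) (nat_lit 1064) (nat_lit 240873476) (nat_lit 76) (nat_lit 5019368080) (nat_lit 171) (nat_lit 5) (nat_lit 185) (nat_lit 5) (nat_lit 172) (nat_lit 5) (nat_lit 286) (nat_lit 253) (nat_lit 241)) (XT.nd (nat_lit 78) (nat_lit 836) (nat_lit 0) (XT.lf (nat_lit 0) (nat_lit 4122943900) (nat_lit 1064) (nat_lit 578347464) (nat_lit 1140) (nat_lit 2677683316) (nat_lit 157) (nat_lit 5) (nat_lit 171) (nat_lit 5) (nat_lit 172) (nat_lit 5) (nat_lit 287) (nat_lit 253) (nat_lit 240)) (XT.lf (nat_lit 0) (nat_lit 1101272187) (nat_lit 836) (nat_lit 6285941756) (nat_lit 912) (nat_lit 70577488) (nat_lit 146) (nat_lit 5) (nat_lit 157) (nat_lit 5) (nat_lit 158) (nat_lit 5) (nat_lit 288) (nat_lit 253) (nat_lit 239)))) (XT.nd (nat_lit 78) (nat_lit 608) (nat_lit 0) (XT.lf (nat_lit 0) (nat_lit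 2527636678) (nat_lit 912) (nat_lit 1989562281) (nat_lit 76) (nat_lit 3022290464) (nat_lit 145) (nat_lit 5) (nat_lit 157) (nat_lit 5) (nat_lit 146) (nat_lit 5) (nat_lit 289) (nat_lit 253) (nat_lit 238)) (XT.nd (nat_lit 78) (nat_lit 76) (nat_lit 0) (XT.lf (nat_lit 0) (nat_lit 2481932731) (nat_lit 532) (nat_lit 2671475613) (nat_lit 608) (nat_lit 2471860994) (nat_lit 138) (nat_lit 5) (nat_lit 145) (nat_lit 5) (nat_lit 146) (nat_lit 5) (nat_lit 290) (nat_lit 253) (nat_lit 237)) (XT.lf (nat_lit 0) (nat_lit 89509263) (nat_lit 608) (nat_lit 661336545) (nat_lit 76) (nat_lit 6964467705) (nat_lit 137) (nat_lit 5) (nat_lit 145) (nat_lit 5) (nat_lit 138) (nat_lit 5) (nat_lit 291) (nat_lit 253) (nat_lit 236)))))) (XT.nd (nat_lit 468) (nat_lit 1368) (nat_lit 0) (XT.nd (nat_lit 234) (nat_lit 1064) (nat_lit 0) (XT.nd (nat_lit 78) (nat_lit 456) (nat_lit 0) (XT.lf (nat_lit 0) (nat_lit 2658060241) (nat_lit 608)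 (nat_lit 3886325962) (nat_lit 76) (nat_lit 1263705267) (nat_lit 130) (nat_lit 5) (nat_lit 138) (nat_lit 5) (nat_lit 131) (nat_lit 5) (nat_lit 292) (nat_lit 253) (nat_lit 235)) (XT.nd (nat_lit 78) (nat_lit 0) (nat_lit 0) (XT.lf (nat_lit 0) (nat_lit 683929961) (nat_lit 456) (nat_lit 4571620080) (nat_lit 532) (nat_lit 2649708702) (nat_lit 124) (nat_lit 5) (nat_lit 130) (nat_lit 5) (nat_lit 131) (nat_lit 5) (nat_lit 293) (nat_lit 253) (nat_lit 234)) (XT.lf (nat_lit 0) (nat_lit 5397307963) (nat_lit 456) (nat_lit 2505328297) (nat_lit 532) (nat_lit 103712336) (nat_lit 124) (nat_lit 5) (nat_lit 130) (nat_lit 5) (nat_lit 131) (nat_lit 5) (nat_lit 294) (nat_lit 253) (nat_lit 233)))) (XT.nd (nat_lit 78) (nat_lit 456) (nat_lit 0) (XT.lf (nat_lit 0) (nat_lit 2085116845) (nat_lit 532) (nat_lit 338038193) (nat_lit 608) (nat_lit 5688129261) (nat_lit 116) (nat_lit 5) (nat_lit 123) (nat_lit 5) (nat_lit 124) (nat_lit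 5) (nat_lit 295) (nat_lit 253) (nat_lit 232)) (XT.nd (nat_lit 78) (nat_lit 456) (nat_lit 0) (XT.lf (nat_lit 0) (nat_lit 5003327027) (nat_lit 608) (nat_lit 1338784573) (nat_lit 76) (nat_lit 1877982505) (nat_lit 116) (nat_lit 5) (nat_lit 124) (nat_lit 5) (nat_lit 117) (nat_lit 5) (nat_lit 296) (nat_lit 253) (nat_lit 231)) (XT.lf (nat_lit 0) (nat_lit 3481684825) (nat_lit 456) (nat_lit 4152701503) (nat_lit 532) (nat_lit 698717540) (nat_lit 110) (nat_lit 5) (nat_lit 116) (nat_lit 5) (nat_lit 117) (nat_lit 5) (nat_lit 297) (nat_lit 253) (nat_lit 230))))) (XT.nd (nat_lit 234) (nat_lit 456) (nat_lit 0) (XT.nd (nat_lit 78) (nat_lit 836) (nat_lit 0) (XT.lf (nat_lit 0) (nat_lit 1808626905) (nat_lit 532) (nat_lit 66040324) (nat_lit 76) (nat_lit 6575900462) (nat_lit 109) (nat_lit 5) (nat_lit 116) (nat_lit 5) (nat_lit 110) (nat_lit 5) (nat_lit 298) (nat_lit 253) (nat_lit 229)) (XT.nd (nat_lit 78) (nat_lit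 380) (nat_lit 0) (XT.lf (nat_lit 0) (nat_lit 4367946953) (nat_lit 532) (nat_lit 3696342952) (nat_lit 76) (nat_lit 507462255) (nat_lit 103) (nat_lit 5) (nat_lit 110) (nat_lit 5) (nat_lit 104) (nat_lit 5) (nat_lit 299) (nat_lit 253) (nat_lit 228)) (XT.lf (nat_lit 0) (nat_lit 1202991042) (nat_lit 380) (nat_lit 5771773340) (nat_lit 456) (nat_lit 1722810751) (nat_lit 98) (nat_lit 5) (nat_lit 103) (nat_lit 5) (nat_lit 104) (nat_lit 5) (nat_lit 300) (nat_lit 253) (nat_lit 227)))) (XT.nd (nat_lit 78) (nat_lit 380) (nat_lit 0) (XT.lf (nat_lit 0) (nat_lit 794344477) (nat_lit 456) (nat_lit 2581771249) (nat_lit 76) (nat_lit 5451594968) (nat_lit 97) (nat_lit 5) (nat_lit 103) (nat_lit 5) (nat_lit 98) (nat_lit 5) (nat_lit 301) (nat_lit 253) (nat_lit 226)) (XT.nd (nat_lit 78) (nat_lit 0) (nat_lit 0) (XT.lf (nat_lit 0) (nat_lit 2438642978) (nat_lit 380) (nat_lit 879208504) (nat_lit 456) (nat_lit 5644537133) (nat_lit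 92) (nat_lit 5) (nat_lit 97) (nat_lit 5) (nat_lit 98) (nat_lit 5) (nat_lit 302) (nat_lit 253) (nat_lit 225)) (XT.lf (nat_lit 0) (nat_lit 5902582880) (nat_lit 456) (nat_lit 1525580300) (nat_lit 76) (nat_lit 1673488739) (nat_lit 92) (nat_lit 5) (nat_lit 98) (nat_lit 5) (nat_lit 93) (nat_lit 5) (nat_lit 303) (nat_lit 253) (nat_lit 224))))))))
noncomputable def xc90 : XT := (XT.nd (nat_lit 1794) (nat_lit 1520) (nat_lit 0) (XT.nd (nat_lit 858) (nat_lit 1672) (nat_lit 0) (XT.nd (nat_lit 390) (nat_lit 1064) (nat_lit 0) (XT.nd (nat_lit 156) (nat_lit 684) (nat_lit 0) (XT.nd (nat_lit 78) (nat_lit 76) (nat_lit 0) (XT.lf (nat_lit 0) (nat_lit 3615125915) (nat_lit 380) (nat_lit 4937768528) (nat_lit 456) (nat_lit 692664924) (nat_lit 87) (nat_lit 5) (nat_lit 92) (nat_lit 5) (nat_lit 93) (nat_lit 5) (nat_lit 304) (nat_lit 253) (nat_lit 223)) (XT.lf (nat_lit 0) (nat_lit 1812525303) (nat_lit 456) (nat_lit 540067986)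 (nat_lit 76) (nat_lit 7041933641) (nat_lit 86) (nat_lit 5) (nat_lit 92) (nat_lit 5) (nat_lit 87) (nat_lit 5) (nat_lit 305) (nat_lit 253) (nat_lit 222))) (XT.nd (nat_lit 78) (nat_lit 304) (nat_lit 0) (XT.lf (nat_lit 0) (nat_lit 4374188550) (nat_lit 456) (nat_lit 4830926649) (nat_lit 76) (nat_lit 342883686) (nat_lit 81) (nat_lit 5) (nat_lit 87) (nat_lit 5) (nat_lit 82) (nat_lit 5) (nat_lit 306) (nat_lit 253) (nat_lit 221)) (XT.nd (nat_lit 78) (nat_lit 0) (nat_lit 0) (XT.lf (nat_lit 0) (nat_lit 352007998) (nat_lit 304) (nat_lit 6640153302) (nat_lit 380) (nat_lit 2714625329) (nat_lit 77) (nat_lit 5) (nat_lit 81) (nat_lit 5) (nat_lit 82) (nat_lit 5) (nat_lit 307) (nat_lit 253) (nat_lit 220)) (XT.lf (nat_lit 0) (nat_lit 5721532408) (nat_lit 304) (nat_lit 3964081687) (nat_lit 380) (nat_lit 184908326) (nat_lit 77) (nat_lit 5) (nat_lit 81) (nat_lit 5) (nat_lit 82) (nat_lit 5) (nat_lit 308) (nat_lit 253)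 (nat_lit 219))))) (XT.nd (nat_lit 234) (nat_lit 380) (nat_lit 0) (XT.nd (nat_lit 78) (nat_lit 304) (nat_lit 0) (XT.lf (nat_lit 0) (nat_lit 1144996244) (nat_lit 304) (nat_lit 1188555178) (nat_lit 380) (nat_lit 7706205475) (nat_lit 72) (nat_lit 5) (nat_lit 76) (nat_lit 5) (nat_lit 77) (nat_lit 5) (nat_lit 309) (nat_lit 253) (nat_lit 218)) (XT.nd (nat_lit 78) (nat_lit 304) (nat_lit 0) (XT.lf (nat_lit 0) (nat_lit 4931984721) (nat_lit 380) (nat_lit 3616082669) (nat_lit 76) (nat_lit 1665786787) (nat_lit 72) (nat_lit 5) (nat_lit 77) (nat_lit 5) (nat_lit 73) (nat_lit 5) (nat_lit 310) (nat_lit 253) (nat_lit 217)) (XT.lf (nat_lit 0) (nat_lit 1778036550) (nat_lit 304) (nat_lit 5810426351) (nat_lit 380) (nat_lit 2805391028) (nat_lit 68) (nat_lit 5) (nat_lit 72) (nat_lit 5) (nat_lit 73) (nat_lit 5) (nat_lit 311) (nat_lit 253) (nat_lit 216)))) (XT.nd (nat_lit 78) (nat_lit 380) (nat_lit 0) (XT.lf (nat_lit 0)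 (nat_lit 7342903926) (nat_lit 304) (nat_lit 2970272938) (nat_lit 380) (nat_lit 266500479) (nat_lit 68) (nat_lit 5) (nat_lit 72) (nat_lit 5) (nat_lit 73) (nat_lit 5) (nat_lit 312) (nat_lit 253) (nat_lit 215)) (XT.nd (nat_lit 78) (nat_lit 0) (nat_lit 0) (XT.lf (nat_lit 0) (nat_lit 2260868304) (nat_lit 304) (nat_lit 16478691) (nat_lit 380) (nat_lit 8493887947) (nat_lit 63) (nat_lit 5) (nat_lit 67) (nat_lit 5) (nat_lit 68) (nat_lit 5) (nat_lit 313) (nat_lit 253) (nat_lit 214)) (XT.lf (nat_lit 0) (nat_lit 4907728900) (nat_lit 380) (nat_lit 3074800155) (nat_lit 76) (nat_lit 2985536925) (nat_lit 63) (nat_lit 5) (nat_lit 68) (nat_lit 5) (nat_lit 64) (nat_lit 5) (nat_lit 314) (nat_lit 253) (nat_lit 213)))))) (XT.nd (nat_lit 468) (nat_lit 836) (nat_lit 0) (XT.nd (nat_lit 234) (nat_lit 228) (nat_lit 0) (XT.nd (nat_lit 78) (nat_lit 380) (nat_lit 0) (XT.lf (nat_lit 0) (nat_lit 2509551150) (nat_lit 228) (nat_lit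 5086592205) (nat_lit 304) (nat_lit 3575355962) (nat_lit 60) (nat_lit 5) (nat_lit 63) (nat_lit 5) (nat_lit 64) (nat_lit 5) (nat_lit 315) (nat_lit 253) (nat_lit 212)) (XT.nd (nat_lit 78) (nat_lit 380) (nat_lit 0) (XT.lf (nat_lit 0) (nat_lit 8261992510) (nat_lit 228) (nat_lit 2089816774) (nat_lit 304) (nat_lit 1029697334) (nat_lit 60) (nat_lit 5) (nat_lit 63) (nat_lit 5) (nat_lit 64) (nat_lit 5) (nat_lit 316) (nat_lit 253) (nat_lit 211)) (XT.lf (nat_lit 0) (nat_lit 1552046146) (nat_lit 380) (nat_lit 9045494679) (nat_lit 76) (nat_lit 1000155477) (nat_lit 55) (nat_lit 5) (nat_lit 60) (nat_lit 5) (nat_lit 56) (nat_lit 5) (nat_lit 317) (nat_lit 253) (nat_lit 210)))) (XT.nd (nat_lit 78) (nat_lit 228) (nat_lit 0) (XT.lf (nat_lit 0) (nat_lit 4199913444) (nat_lit 380) (nat_lit 3454769031) (nat_lit 76) (nat_lit 4165165414) (nat_lit 55) (nat_lit 5) (nat_lit 60) (nat_lit 5) (nat_lit 56) (nat_lit 5) (nat_lit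 318) (nat_lit 253) (nat_lit 209)) (XT.nd (nat_lit 78) (nat_lit 0) (nat_lit 0) (XT.lf (nat_lit 0) (nat_lit 2287975491) (nat_lit 228) (nat_lit 4619354387) (nat_lit 304) (nat_lit 5141991998) (nat_lit 52) (nat_lit 5) (nat_lit 55) (nat_lit 5) (nat_lit 56) (nat_lit 5) (nat_lit 319) (nat_lit 253) (nat_lit 208)) (XT.lf (nat_lit 0) (nat_lit 8214063855) (nat_lit 228) (nat_lit 1475556426) (nat_lit 304) (nat_lit 2596309720) (nat_lit 52) (nat_lit 5) (nat_lit 55) (nat_lit 5) (nat_lit 56) (nat_lit 5) (nat_lit 320) (nat_lit 253) (nat_lit 207))))) (XT.nd (nat_lit 234) (nat_lit 304) (nat_lit 0) (XT.nd (nat_lit 78) (nat_lit 228) (nat_lit 0) (XT.lf (nat_lit 0) (nat_lit 18642733) (nat_lit 304) (nat_lit 10783741506) (nat_lit 76) (nat_lit 1727498696) (nat_lit 48) (nat_lit 5) (nat_lit 52) (nat_lit 5) (nat_lit 49) (nat_lit 5) (nat_lit 321) (nat_lit 253) (nat_lit 206)) (XT.nd (nat_lit 78) (nat_lit 228) (nat_lit 0) (XT.lf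 (nat_lit 0) (nat_lit 2675949667) (nat_lit 304) (nat_lit 5057860222) (nat_lit 76) (nat_lit 5046145128) (nat_lit 48) (nat_lit 5) (nat_lit 52) (nat_lit 5) (nat_lit 49) (nat_lit 5) (nat_lit 322) (nat_lit 253) (nat_lit 205)) (XT.lf (nat_lit 0) (nat_lit 797718040) (nat_lit 228) (nat_lit 4584047007) (nat_lit 304) (nat_lit 7656753368) (nat_lit 45) (nat_lit 5) (nat_lit 48) (nat_lit 5) (nat_lit 49) (nat_lit 5) (nat_lit 323) (nat_lit 253) (nat_lit 204)))) (XT.nd (nat_lit 78) (nat_lit 304) (nat_lit 0) (XT.lf (nat_lit 0) (nat_lit 6875564171) (nat_lit 228) (nat_lit 1305969978) (nat_lit 304) (nat_lit 5122972483) (nat_lit 45) (nat_lit 5) (nat_lit 48) (nat_lit 5) (nat_lit 49) (nat_lit 5) (nat_lit 324) (nat_lit 253) (nat_lit 203)) (XT.nd (nat_lit 78) (nat_lit 304) (nat_lit 0) (XT.lf (nat_lit 0) (nat_lit 11047843614) (nat_lit 304) (nat_lit 519039225) (nat_lit 76) (nat_lit 2012165036) (nat_lit 45) (nat_lit 5) (nat_lit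 49) (nat_lit 5) (nat_lit 46) (nat_lit 5) (nat_lit 325) (nat_lit 253) (nat_lit 202)) (XT.lf (nat_lit 0) (nat_lit 166462811) (nat_lit 304) (nat_lit 8252652284) (nat_lit 76) (nat_lit 5441791966) (nat_lit 41) (nat_lit 5) (nat_lit 45) (nat_lit 5) (nat_lit 42) (nat_lit 5) (nat_lit 326) (nat_lit 253) (nat_lit 201))))))) (XT.nd (nat_lit 858) (nat_lit 760) (nat_lit 0) (XT.nd (nat_lit 390) (nat_lit 380) (nat_lit 0) (XT.nd (nat_lit 156) (nat_lit 228) (nat_lit 0) (XT.nd (nat_lit 78) (nat_lit 152) (nat_lit 0) (XT.lf (nat_lit 0) (nat_lit 2863346490) (nat_lit 304) (nat_lit 2301163505) (nat_lit 76) (nat_lit 8986930919) (nat_lit 41) (nat_lit 5) (nat_lit 45) (nat_lit 5) (nat_lit 42) (nat_lit 5) (nat_lit 327) (nat_lit 253) (nat_lit 200)) (XT.lf (nat_lit 0) (nat_lit 3850618306) (nat_lit 152) (nat_lit 1792453378) (nat_lit 228) (nat_lit 8807605296) (nat_lit 39) (nat_lit 5) (nat_lit 41) (nat_lit 5) (nat_lit 42) (nat_lit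 5) (nat_lit 328) (nat_lit 253) (nat_lit 199))) (XT.nd (nat_lit 78) (nat_lit 228) (nat_lit 0) (XT.lf (nat_lit 0) (nat_lit 8511070602) (nat_lit 228) (nat_lit 4594226084) (nat_lit 76) (nat_lit 1653489939) (nat_lit 39) (nat_lit 5) (nat_lit 42) (nat_lit 5) (nat_lit 40) (nat_lit 5) (nat_lit 329) (nat_lit 253) (nat_lit 198)) (XT.nd (nat_lit 78) (nat_lit 0) (nat_lit 0) (XT.lf (nat_lit 0) (nat_lit 1552116334) (nat_lit 228) (nat_lit 9911930122) (nat_lit 304) (nat_lit 3612166700) (nat_lit 36) (nat_lit 5) (nat_lit 39) (nat_lit 5) (nat_lit 40) (nat_lit 5) (nat_lit 330) (nat_lit 253) (nat_lit 197)) (XT.lf (nat_lit 0) (nat_lit 7925332509) (nat_lit 228) (nat_lit 6593427284) (nat_lit 304) (nat_lit 884048735) (nat_lit 36) (nat_lit 5) (nat_lit 39) (nat_lit 5) (nat_lit 40) (nat_lit 5) (nat_lit 331) (nat_lit 253) (nat_lit 196))))) (XT.nd (nat_lit 234) (nat_lit 152) (nat_lit 0) (XT.nd (nat_lit 78) (nat_lit 152) (nat_lit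 0) (XT.lf (nat_lit 0) (nat_lit 1855696979) (nat_lit 304) (nat_lit 1318845304) (nat_lit 76) (nat_lit 12565121283) (nat_lit 35) (nat_lit 5) (nat_lit 39) (nat_lit 5) (nat_lit 36) (nat_lit 5) (nat_lit 332) (nat_lit 253) (nat_lit 195)) (XT.nd (nat_lit 78) (nat_lit 0) (nat_lit 0) (XT.lf (nat_lit 0) (nat_lit 4680606159) (nat_lit 228) (nat_lit 11024383159) (nat_lit 76) (nat_lit 380787213) (nat_lit 33) (nat_lit 5) (nat_lit 36) (nat_lit 5) (nat_lit 34) (nat_lit 5) (nat_lit 333) (nat_lit 253) (nat_lit 194)) (XT.lf (nat_lit 0) (nat_lit 7603742300) (nat_lit 228) (nat_lit 4863074643) (nat_lit 76) (nat_lit 3975087530) (nat_lit 33) (nat_lit 5) (nat_lit 36) (nat_lit 5) (nat_lit 34) (nat_lit 5) (nat_lit 334) (nat_lit 253) (nat_lit 193)))) (XT.nd (nat_lit 78) (nat_lit 0) (nat_lit 0) (XT.lf (nat_lit 0) (nat_lit 1463364005) (nat_lit 152) (nat_lit 9134788825) (nat_lit 228) (nat_lit 6211090941) (nat_lit 31) (nat_lit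 5) (nat_lit 33) (nat_lit 5) (nat_lit 34) (nat_lit 5) (nat_lit 335) (nat_lit 253) (nat_lit 192)) (XT.nd (nat_lit 78) (nat_lit 0) (nat_lit 0) (XT.lf (nat_lit 0) (nat_lit 8031492634) (nat_lit 152) (nat_lit 5669952672) (nat_lit 228) (nat_lit 3485620365) (nat_lit 31) (nat_lit 5) (nat_lit 33) (nat_lit 5) (nat_lit 34) (nat_lit 5) (nat_lit 336) (nat_lit 253) (nat_lit 191)) (XT.lf (nat_lit 0) (nat_lit 14750265662) (nat_lit 152) (nat_lit 2118388475) (nat_lit 228) (nat_lit 708476485) (nat_lit 31) (nat_lit 5) (nat_lit 33) (nat_lit 5) (nat_lit 34) (nat_lit 5) (nat_lit 337) (nat_lit 253) (nat_lit 190)))))) (XT.nd (nat_lit 468) (nat_lit 380) (nat_lit 0) (XT.nd (nat_lit 234) (nat_lit 152) (nat_lit 0) (XT.nd (nat_lit 78) (nat_lit 0) (nat_lit 0) (XT.lf (nat_lit 0) (nat_lit 2132081344) (nat_lit 228) (nat_lit 14295774016) (nat_lit 76) (nat_lit 1549789834) (nat_lit 28) (nat_lit 5) (nat_lit 31) (nat_lit 5) (nat_lit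 29) (nat_lit 5) (nat_lit 338) (nat_lit 253) (nat_lit 189)) (XT.nd (nat_lit 78) (nat_lit 0) (nat_lit 0) (XT.lf (nat_lit 0) (nat_lit 5065011290) (nat_lit 228) (nat_lit 8019688913) (nat_lit 76) (nat_lit 5304652839) (nat_lit 28) (nat_lit 5) (nat_lit 31) (nat_lit 5) (nat_lit 29) (nat_lit 5) (nat_lit 339) (nat_lit 253) (nat_lit 188)) (XT.lf (nat_lit 0) (nat_lit 8058349027) (nat_lit 228) (nat_lit 1599899946) (nat_lit 76) (nat_lit 9156019807) (nat_lit 28) (nat_lit 5) (nat_lit 31) (nat_lit 5) (nat_lit 29) (nat_lit 5) (nat_lit 340) (nat_lit 253) (nat_lit 187)))) (XT.nd (nat_lit 78) (nat_lit 0) (nat_lit 0) (XT.lf (nat_lit 0) (nat_lit 5068099277) (nat_lit 152) (nat_lit 6095328485) (nat_lit 228) (nat_lit 8087874402) (nat_lit 26) (nat_lit 5) (nat_lit 28) (nat_lit 5) (nat_lit 29) (nat_lit 5) (nat_lit 341) (nat_lit 253) (nat_lit 186)) (XT.nd (nat_lit 78) (nat_lit 0) (nat_lit 0) (XT.lf (nat_lit 0) (nat_lit 11926078893)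 (nat_lit 152) (nat_lit 2425326966) (nat_lit 228) (nat_lit 5350375854) (nat_lit 26) (nat_lit 5) (nat_lit 28) (nat_lit 5) (nat_lit 29) (nat_lit 5) (nat_lit 342) (nat_lit 253) (nat_lit 185)) (XT.lf (nat_lit 0) (nat_lit 17622253061) (nat_lit 228) (nat_lit 1231250871) (nat_lit 76) (nat_lit 1312681592) (nat_lit 26) (nat_lit 5) (nat_lit 29) (nat_lit 5) (nat_lit 27) (nat_lit 4) (nat_lit 343) (nat_lit 253) (nat_lit 184))))) (XT.nd (nat_lit 234) (nat_lit 152) (nat_lit 0) (XT.nd (nat_lit 78) (nat_lit 0) (nat_lit 0) (XT.lf (nat_lit 0) (nat_lit 392780307) (nat_lit 228) (nat_lit 15093969614) (nat_lit 76) (nat_lit 5156111532) (nat_lit 23) (nat_lit 5) (nat_lit 26) (nat_lit 5) (nat_lit 24) (nat_lit 5) (nat_lit 344) (nat_lit 253) (nat_lit 183)) (XT.nd (nat_lit 78) (nat_lit 0) (nat_lit 0) (XT.lf (nat_lit 0) (nat_lit 3354047967) (nat_lit 228) (nat_lit 8642235901) (nat_lit 76) (nat_lit 9137195146) (nat_lit 23) (nat_lit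 5) (nat_lit 26) (nat_lit 5) (nat_lit 24) (nat_lit 5) (nat_lit 345) (nat_lit 253) (nat_lit 182)) (XT.lf (nat_lit 0) (nat_lit 6379908716) (nat_lit 228) (nat_lit 2036890907) (nat_lit 76) (nat_lit 13222766613) (nat_lit 23) (nat_lit 5) (nat_lit 26) (nat_lit 5) (nat_lit 24) (nat_lit 5) (nat_lit 346) (nat_lit 253) (nat_lit 181)))) (XT.nd (nat_lit 78) (nat_lit 0) (nat_lit 0) (XT.lf (nat_lit 0) (nat_lit 4821930255) (nat_lit 152) (nat_lit 4697427595) (nat_lit 228) (nat_lit 12640816938) (nat_lit 21) (nat_lit 5) (nat_lit 23) (nat_lit 5) (nat_lit 24) (nat_lit 5) (nat_lit 347) (nat_lit 253) (nat_lit 180)) (XT.nd (nat_lit 78) (nat_lit 0) (nat_lit 0) (XT.lf (nat_lit 0) (nat_lit 11889873082) (nat_lit 152) (nat_lit 860463700) (nat_lit 228) (nat_lit 9946166844) (nat_lit 21) (nat_lit 5) (nat_lit 23) (nat_lit 5) (nat_lit 24) (nat_lit 5) (nat_lit 348) (nat_lit 253) (nat_lit 179)) (XT.lf (nat_lit 0) (nat_lit 16085275994)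 (nat_lit 228) (nat_lit 4146621966) (nat_lit 76) (nat_lit 3016835208) (nat_lit 21) (nat_lit 5) (nat_lit 24) (nat_lit 5) (nat_lit 22) (nat_lit 4) (nat_lit 349) (nat_lit 253) (nat_lit 178))))))))
noncomputable def xc91 : XT := (XT.nd (nat_lit 1794) (nat_lit 304) (nat_lit 0) (XT.nd (nat_lit 858) (nat_lit 456) (nat_lit 0) (XT.nd (nat_lit 390) (nat_lit 76) (nat_lit 0) (XT.nd (nat_lit 156) (nat_lit 228) (nat_lit 0) (XT.nd (nat_lit 78) (nat_lit 0) (nat_lit 0) (XT.lf (nat_lit 0) (nat_lit 2721031154) (nat_lit 76) (nat_lit 16811881162) (nat_lit 152) (nat_lit 4284258944) (nat_lit 20) (nat_lit 5) (nat_lit 21) (nat_lit 5) (nat_lit 22) (nat_lit 4) (nat_lit 350) (nat_lit 253) (nat_lit 177)) (XT.lf (nat_lit 0) (nat_lit 9843342295) (nat_lit 76) (nat_lit 13260773372) (nat_lit 152) (nat_lit 1297963206) (nat_lit 20) (nat_lit 5) (nat_lit 21) (nat_lit 5) (nat_lit 22) (nat_lit 4) (nat_lit 351) (nat_lit 253) (nat_lit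 176))) (XT.nd (nat_lit 78) (nat_lit 152) (nat_lit 0) (XT.lf (nat_lit 0) (nat_lit 1721897536) (nat_lit 152) (nat_lit 7878059109) (nat_lit 76) (nat_lit 15404723601) (nat_lit 19) (nat_lit 5) (nat_lit 21) (nat_lit 5) (nat_lit 20) (nat_lit 5) (nat_lit 352) (nat_lit 253) (nat_lit 175)) (XT.nd (nat_lit 78) (nat_lit 152) (nat_lit 0) (XT.lf (nat_lit 0) (nat_lit 4785557377) (nat_lit 152) (nat_lit 1044528646) (nat_lit 76) (nat_lit 19795528148) (nat_lit 19) (nat_lit 5) (nat_lit 21) (nat_lit 5) (nat_lit 20) (nat_lit 5) (nat_lit 353) (nat_lit 253) (nat_lit 174)) (XT.lf (nat_lit 0) (nat_lit 6078924383) (nat_lit 152) (nat_lit 1900531194) (nat_lit 228) (nat_lit 18284588908) (nat_lit 17) (nat_lit 5) (nat_lit 19) (nat_lit 5) (nat_lit 20) (nat_lit 5) (nat_lit 354) (nat_lit 253) (nat_lit 173))))) (XT.nd (nat_lit 234) (nat_lit 0) (nat_lit 0) (XT.nd (nat_lit 78) (nat_lit 76) (nat_lit 0) (XT.lf (nat_lit 0) (nat_lit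 11280489181) (nat_lit 228) (nat_lit 13538417759) (nat_lit 76) (nat_lit 2102398912) (nat_lit 17) (nat_lit 5) (nat_lit 20) (nat_lit 5) (nat_lit 18) (nat_lit 4) (nat_lit 355) (nat_lit 253) (nat_lit 172)) (XT.nd (nat_lit 78) (nat_lit 76) (nat_lit 0) (XT.lf (nat_lit 0) (nat_lit 14679981534) (nat_lit 228) (nat_lit 6744002796) (nat_lit 76) (nat_lit 6174335080) (nat_lit 17) (nat_lit 5) (nat_lit 20) (nat_lit 5) (nat_lit 18) (nat_lit 4) (nat_lit 356) (nat_lit 253) (nat_lit 171)) (XT.lf (nat_lit 0) (nat_lit 226755538) (nat_lit 76) (nat_lit 17938058173) (nat_lit 152) (nat_lit 10131345694) (nat_lit 16) (nat_lit 5) (nat_lit 17) (nat_lit 5) (nat_lit 18) (nat_lit 4) (nat_lit 357) (nat_lit 253) (nat_lit 170)))) (XT.nd (nat_lit 78) (nat_lit 0) (nat_lit 0) (XT.lf (nat_lit 0) (nat_lit 7513281056) (nat_lit 76) (nat_lit 14290430865) (nat_lit 152) (nat_lit 7209753243) (nat_lit 16) (nat_lit 5) (nat_lit 17) (nat_lit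 5) (nat_lit 18) (nat_lit 4) (nat_lit 358) (nat_lit 253) (nat_lit 169)) (XT.nd (nat_lit 78) (nat_lit 0) (nat_lit 0) (XT.lf (nat_lit 0) (nat_lit 14987721746) (nat_lit 76) (nat_lit 10546016366) (nat_lit 152) (nat_lit 4219108878) (nat_lit 16) (nat_lit 5) (nat_lit 17) (nat_lit 5) (nat_lit 18) (nat_lit 4) (nat_lit 359) (nat_lit 253) (nat_lit 168)) (XT.lf (nat_lit 0) (nat_lit 22656608671) (nat_lit 76) (nat_lit 6701542855) (nat_lit 152) (nat_lit 1156799417) (nat_lit 16) (nat_lit 5) (nat_lit 17) (nat_lit 5) (nat_lit 18) (nat_lit 4) (nat_lit 360) (nat_lit 253) (nat_lit 167)))))) (XT.nd (nat_lit 468) (nat_lit 152) (nat_lit 0) (XT.nd (nat_lit 234) (nat_lit 76) (nat_lit 0) (XT.nd (nat_lit 78) (nat_lit 152) (nat_lit 0) (XT.lf (nat_lit 0) (nat_lit 1941216922) (nat_lit 152) (nat_lit 792831678) (nat_lit 76) (nat_lit 28565823394) (nat_lit 15) (nat_lit 5) (nat_lit 17) (nat_lit 5) (nat_lit 16) (nat_lit 5) (nat_lit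 361) (nat_lit 253) (nat_lit 166)) (XT.nd (nat_lit 78) (nat_lit 0) (nat_lit 0) (XT.lf (nat_lit 0) (nat_lit 5169048389) (nat_lit 228) (nat_lit 25547211881) (nat_lit 76) (nat_lit 1389947017) (nat_lit 13) (nat_lit 5) (nat_lit 16) (nat_lit 5) (nat_lit 14) (nat_lit 4) (nat_lit 362) (nat_lit 253) (nat_lit 165)) (XT.lf (nat_lit 0) (nat_lit 8512287366) (nat_lit 228) (nat_lit 18844551875) (nat_lit 76) (nat_lit 5579349786) (nat_lit 13) (nat_lit 5) (nat_lit 16) (nat_lit 5) (nat_lit 14) (nat_lit 4) (nat_lit 363) (nat_lit 253) (nat_lit 164)))) (XT.nd (nat_lit 78) (nat_lit 76) (nat_lit 0) (XT.lf (nat_lit 0) (nat_lit 11939723964) (nat_lit 228) (nat_lit 11968520745) (nat_lit 76) (nat_lit 9883321666) (nat_lit 13) (nat_lit 5) (nat_lit 16) (nat_lit 5) (nat_lit 14) (nat_lit 4) (nat_lit 364) (nat_lit 253) (nat_lit 163)) (XT.nd (nat_lit 78) (nat_lit 76) (nat_lit 0) (XT.lf (nat_lit 0) (nat_lit 15454353029) (nat_lit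 228) (nat_lit 4913110308) (nat_lit 76) (nat_lit 14305623410) (nat_lit 13) (nat_lit 5) (nat_lit 16) (nat_lit 5) (nat_lit 14) (nat_lit 4) (nat_lit 365) (nat_lit 253) (nat_lit 162)) (XT.lf (nat_lit 0) (nat_lit 2374173023) (nat_lit 76) (nat_lit 16707894577) (nat_lit 152) (nat_lit 16498768143) (nat_lit 12) (nat_lit 5) (nat_lit 13) (nat_lit 5) (nat_lit 14) (nat_lit 4) (nat_lit 366) (nat_lit 253) (nat_lit 161))))) (XT.nd (nat_lit 234) (nat_lit 152) (nat_lit 0) (XT.nd (nat_lit 78) (nat_lit 0) (nat_lit 0) (XT.lf (nat_lit 0) (nat_lit 9954926775) (nat_lit 76) (nat_lit 12898317645) (nat_lit 152) (nat_lit 13661545917) (nat_lit 12) (nat_lit 5) (nat_lit 13) (nat_lit 5) (nat_lit 14) (nat_lit 4) (nat_lit 367) (nat_lit 253) (nat_lit 160)) (XT.nd (nat_lit 78) (nat_lit 0) (nat_lit 0) (XT.lf (nat_lit 0) (nat_lit 17737994378) (nat_lit 76) (nat_lit 8985016566) (nat_lit 152) (nat_lit 10754200694) (nat_lit 12) (nat_lit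 5) (nat_lit 13) (nat_lit 5) (nat_lit 14) (nat_lit 4) (nat_lit 368) (nat_lit 253) (nat_lit 159)) (XT.lf (nat_lit 0) (nat_lit 25730176569) (nat_lit 76) (nat_lit 4964571950) (nat_lit 152) (nat_lit 7774192075) (nat_lit 12) (nat_lit 5) (nat_lit 13) (nat_lit 5) (nat_lit 14) (nat_lit 4) (nat_lit 369) (nat_lit 253) (nat_lit 158)))) (XT.nd (nat_lit 78) (nat_lit 152) (nat_lit 0) (XT.lf (nat_lit 0) (nat_lit 33938456809) (nat_lit 76) (nat_lit 833470788) (nat_lit 152) (nat_lit 4718916170) (nat_lit 12) (nat_lit 5) (nat_lit 13) (nat_lit 5) (nat_lit 14) (nat_lit 4) (nat_lit 370) (nat_lit 253) (nat_lit 157)) (XT.nd (nat_lit 78) (nat_lit 76) (nat_lit 0) (XT.lf (nat_lit 0) (nat_lit 1829088160) (nat_lit 76) (nat_lit 37179402153) (nat_lit 76) (nat_lit 1533812381) (nat_lit 11) (nat_lit 4) (nat_lit 12) (nat_lit 5) (nat_lit 12) (nat_lit 4) (nat_lit 371) (nat_lit 253) (nat_lit 156)) (XT.lf (nat_lit 0) (nat_lit 1764256065)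 (nat_lit 152) (nat_lit 32126739506) (nat_lit 76) (nat_lit 7732271197) (nat_lit 10) (nat_lit 5) (nat_lit 12) (nat_lit 5) (nat_lit 11) (nat_lit 4) (nat_lit 372) (nat_lit 253) (nat_lit 155))))))) (XT.nd (nat_lit 936) (nat_lit 152) (nat_lit 0) (XT.nd (nat_lit 468) (nat_lit 76) (nat_lit 0) (XT.nd (nat_lit 234) (nat_lit 76) (nat_lit 0) (XT.nd (nat_lit 78) (nat_lit 0) (nat_lit 0) (XT.lf (nat_lit 0) (nat_lit 5117451305) (nat_lit 152) (nat_lit 25380519719) (nat_lit 76) (nat_lit 12238632564) (nat_lit 10) (nat_lit 5) (nat_lit 12) (nat_lit 5) (nat_lit 11) (nat_lit 4) (nat_lit 373) (nat_lit 253) (nat_lit 154)) (XT.nd (nat_lit 78) (nat_lit 0) (nat_lit 0) (XT.lf (nat_lit 0) (nat_lit 8558633518) (nat_lit 152) (nat_lit 18453916478) (nat_lit 76) (nat_lit 16871178297) (nat_lit 10) (nat_lit 5) (nat_lit 12) (nat_lit 5) (nat_lit 11) (nat_lit 4) (nat_lit 374) (nat_lit 253) (nat_lit 153)) (XT.lf (nat_lit 0) (nat_lit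 12090809563) (nat_lit 152) (nat_lit 11340877409) (nat_lit 76) (nat_lit 21633956253) (nat_lit 10) (nat_lit 5) (nat_lit 12) (nat_lit 5) (nat_lit 11) (nat_lit 4) (nat_lit 375) (nat_lit 253) (nat_lit 152)))) (XT.nd (nat_lit 78) (nat_lit 76) (nat_lit 0) (XT.lf (nat_lit 0) (nat_lit 15717065807) (nat_lit 152) (nat_lit 4035187237) (nat_lit 76) (nat_lit 26531128081) (nat_lit 10) (nat_lit 5) (nat_lit 12) (nat_lit 5) (nat_lit 11) (nat_lit 4) (nat_lit 376) (nat_lit 253) (nat_lit 151)) (XT.nd (nat_lit 78) (nat_lit 0) (nat_lit 0) (XT.lf (nat_lit 0) (nat_lit 3538588254) (nat_lit 76) (nat_lit 15935997643) (nat_lit 152) (nat_lit 28062399684) (nat_lit 9) (nat_lit 5) (nat_lit 10) (nat_lit 5) (nat_lit 11) (nat_lit 4) (nat_lit 377) (nat_lit 253) (nat_lit 150)) (XT.lf (nat_lit 0) (nat_lit 11402355815) (nat_lit 76) (nat_lit 11971828763) (nat_lit 152) (nat_lit 25453141458) (nat_lit 9) (nat_lit 5) (nat_lit 10) (nat_lit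 5) (nat_lit 11) (nat_lit 4) (nat_lit 378) (nat_lit 253) (nat_lit 149))))) (XT.nd (nat_lit 234) (nat_lit 76) (nat_lit 0) (XT.nd (nat_lit 78) (nat_lit 0) (nat_lit 0) (XT.lf (nat_lit 0) (nat_lit 19482678561) (nat_lit 76) (nat_lit 7897030044) (nat_lit 152) (nat_lit 22777008183) (nat_lit 9) (nat_lit 5) (nat_lit 10) (nat_lit 5) (nat_lit 11) (nat_lit 4) (nat_lit 379) (nat_lit 253) (nat_lit 148)) (XT.nd (nat_lit 78) (nat_lit 0) (nat_lit 0) (XT.lf (nat_lit 0) (nat_lit 27786616969) (nat_lit 76) (nat_lit 3708040983) (nat_lit 152) (nat_lit 20031661490) (nat_lit 9) (nat_lit 5) (nat_lit 10) (nat_lit 5) (nat_lit 11) (nat_lit 4) (nat_lit 380) (nat_lit 253) (nat_lit 147)) (XT.lf (nat_lit 0) (nat_lit 35728384225) (nat_lit 152) (nat_lit 16621659852) (nat_lit 0) (nat_lit 587113981) (nat_lit 9) (nat_lit 5) (nat_lit 11) (nat_lit 4) (nat_lit 9) (nat_lit 4) (nat_lit 381) (nat_lit 253) (nat_lit 146)))) (XT.nd (nat_lit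 78) (nat_lit 76) (nat_lit 0) (XT.lf (nat_lit 0) (nat_lit 40115638732) (nat_lit 152) (nat_lit 9344742650) (nat_lit 0) (nat_lit 4929152467) (nat_lit 9) (nat_lit 5) (nat_lit 11) (nat_lit 4) (nat_lit 9) (nat_lit 4) (nat_lit 382) (nat_lit 253) (nat_lit 145)) (XT.nd (nat_lit 78) (nat_lit 76) (nat_lit 0) (XT.lf (nat_lit 0) (nat_lit 44624611039) (nat_lit 152) (nat_lit 1866948437) (nat_lit 0) (nat_lit 9394225725) (nat_lit 9) (nat_lit 5) (nat_lit 11) (nat_lit 4) (nat_lit 9) (nat_lit 4) (nat_lit 383) (nat_lit 253) (nat_lit 144)) (XT.lf (nat_lit 0) (nat_lit 5934051499) (nat_lit 76) (nat_lit 43382231257) (nat_lit 76) (nat_lit 8109225508) (nat_lit 8) (nat_lit 4) (nat_lit 9) (nat_lit 5) (nat_lit 9) (nat_lit 4) (nat_lit 384) (nat_lit 253) (nat_lit 143)))))) (XT.nd (nat_lit 468) (nat_lit 76) (nat_lit 0) (XT.nd (nat_lit 234) (nat_lit 0) (nat_lit 0) (XT.nd (nat_lit 78) (nat_lit 76) (nat_lit 0) (XT.lf (nat_lit 0)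 (nat_lit 13990595135) (nat_lit 76) (nat_lit 40167469387) (nat_lit 76) (nat_lit 4853084573) (nat_lit 8) (nat_lit 4) (nat_lit 9) (nat_lit 5) (nat_lit 9) (nat_lit 4) (nat_lit 385) (nat_lit 253) (nat_lit 142)) (XT.nd (nat_lit 78) (nat_lit 76) (nat_lit 0) (XT.lf (nat_lit 0) (nat_lit 22272566234) (nat_lit 76) (nat_lit 36863317368) (nat_lit 76) (nat_lit 1508758705) (nat_lit 8) (nat_lit 4) (nat_lit 9) (nat_lit 5) (nat_lit 9) (nat_lit 4) (nat_lit 386) (nat_lit 253) (nat_lit 141)) (XT.lf (nat_lit 0) (nat_lit 1889077966) (nat_lit 152) (nat_lit 31558734127) (nat_lit 76) (nat_lit 28879047521) (nat_lit 7) (nat_lit 5) (nat_lit 9) (nat_lit 5) (nat_lit 8) (nat_lit 4) (nat_lit 387) (nat_lit 253) (nat_lit 140)))) (XT.nd (nat_lit 78) (nat_lit 0) (nat_lit 0) (XT.lf (nat_lit 0) (nat_lit 5349745910) (nat_lit 152) (nat_lit 24571445905) (nat_lit 76) (nat_lit 34138172963) (nat_lit 7) (nat_lit 5) (nat_lit 9) (nat_lit 5)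 (nat_lit 8) (nat_lit 4) (nat_lit 388) (nat_lit 253) (nat_lit 139)) (XT.nd (nat_lit 78) (nat_lit 0) (nat_lit 0) (XT.lf (nat_lit 0) (nat_lit 8905710328) (nat_lit 152) (nat_lit 17389602899) (nat_lit 76) (nat_lit 39548793506) (nat_lit 7) (nat_lit 5) (nat_lit 9) (nat_lit 5) (nat_lit 8) (nat_lit 4) (nat_lit 389) (nat_lit 253) (nat_lit 138)) (XT.lf (nat_lit 0) (nat_lit 12560078373) (nat_lit 152) (nat_lit 10006929713) (nat_lit 76) (nat_lit 45115636876) (nat_lit 7) (nat_lit 5) (nat_lit 9) (nat_lit 5) (nat_lit 8) (nat_lit 4) (nat_lit 390) (nat_lit 253) (nat_lit 137))))) (XT.nd (nat_lit 234) (nat_lit 0) (nat_lit 0) (XT.nd (nat_lit 78) (nat_lit 76) (nat_lit 0) (XT.lf (nat_lit 0) (nat_lit 16316043182) (nat_lit 152) (nat_lit 2416975466) (nat_lit 76) (nat_lit 50843567306) (nat_lit 7) (nat_lit 5) (nat_lit 9) (nat_lit 5) (nat_lit 8) (nat_lit 4) (nat_lit 391) (nat_lit 253) (nat_lit 136)) (XT.nd (nat_lit 78) (nat_lit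 0) (nat_lit 0) (XT.lf (nat_lit 0) (nat_lit 5494101550) (nat_lit 76) (nat_lit 14735597780) (nat_lit 152) (nat_lit 51296300899) (nat_lit 6) (nat_lit 5) (nat_lit 7) (nat_lit 5) (nat_lit 8) (nat_lit 4) (nat_lit 392) (nat_lit 253) (nat_lit 135)) (XT.lf (nat_lit 0) (nat_lit 13678406089) (nat_lit 76) (nat_lit 10599061495) (nat_lit 152) (nat_lit 49255933543) (nat_lit 6) (nat_lit 5) (nat_lit 7) (nat_lit 5) (nat_lit 8) (nat_lit 4) (nat_lit 393) (nat_lit 253) (nat_lit 134)))) (XT.nd (nat_lit 78) (nat_lit 0) (nat_lit 0) (XT.lf (nat_lit 0) (nat_lit 22094986934) (nat_lit 76) (nat_lit 6344202055) (nat_lit 152) (nat_lit 47162064574) (nat_lit 6) (nat_lit 5) (nat_lit 7) (nat_lit 5) (nat_lit 8) (nat_lit 4) (nat_lit 394) (nat_lit 253) (nat_lit 133)) (XT.nd (nat_lit 78) (nat_lit 0) (nat_lit 0) (XT.lf (nat_lit 0) (nat_lit 30751198378) (nat_lit 76) (nat_lit 1967301622) (nat_lit 152) (nat_lit 45012864397) (nat_lit 6)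 (nat_lit 5) (nat_lit 7) (nat_lit 5) (nat_lit 8) (nat_lit 4) (nat_lit 395) (nat_lit 253) (nat_lit 132)) (XT.lf (nat_lit 0) (nat_lit 37143512257) (nat_lit 152) (nat_lit 40295363226) (nat_lit 0) (nat_lit 2485988237) (nat_lit 6) (nat_lit 5) (nat_lit 8) (nat_lit 4) (nat_lit 6) (nat_lit 4) (nat_lit 396) (nat_lit 253) (nat_lit 131))))))))
noncomputable def xc92 : XT := (XT.nd (nat_lit 32448) (nat_lit 0) (nat_lit 4332) (XT.nd (nat_lit 31512) (nat_lit 0) (nat_lit 9956) (XT.nd (nat_lit 31044) (nat_lit 0) (nat_lit 16264) (XT.nd (nat_lit 156) (nat_lit 0) (nat_lit 0) (XT.nd (nat_lit 78) (nat_lit 0) (nat_lit 0) (XT.lf (nat_lit 0) (nat_lit 41713857166) (nat_lit 152) (nat_lit 33441782050) (nat_lit 0) (nat_lit 7028156017) (nat_lit 6) (nat_lit 5) (nat_lit 8) (nat_lit 4) (nat_lit 6) (nat_lit 4) (nat_lit 397) (nat_lit 253) (nat_lit 130)) (XT.lf (nat_lit 0) (nat_lit 46414617328) (nat_lit 152) (nat_lit 26394523020)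 (nat_lit 0) (nat_lit 11701559742) (nat_lit 6) (nat_lit 5) (nat_lit 8) (nat_lit 4) (nat_lit 6) (nat_lit 4) (nat_lit 398) (nat_lit 253) (nat_lit 129))) (XT.nd (nat_lit 30732) (nat_lit 0) (nat_lit 18240) (XT.lf (nat_lit 0) (nat_lit 51249900201) (nat_lit 152) (nat_lit 19147428336) (nat_lit 0) (nat_lit 16510282969) (nat_lit 6) (nat_lit 5) (nat_lit 8) (nat_lit 4) (nat_lit 6) (nat_lit 4) (nat_lit 399) (nat_lit 253) (nat_lit 128)) (XT.nd (nat_lit 78) (nat_lit 532) (nat_lit 0) (XT.lf (nat_lit 0) (nat_lit 3068309306) (nat_lit 380) (nat_lit 118166978) (nat_lit 380) (nat_lit 118166978) (nat_lit 253) (nat_lit 4) (nat_lit 258) (nat_lit 5) (nat_lit 258) (nat_lit 4) (nat_lit 272) (nat_lit 254) (nat_lit 254)) (XT.lf (nat_lit 0) (nat_lit 2635306175) (nat_lit 532) (nat_lit 3477291388) (nat_lit 0) (nat_lit 526039215) (nat_lit 246) (nat_lit 5) (nat_lit 253) (nat_lit 4) (nat_lit 246) (nat_lit 4) (nat_lit 273) (nat_lit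 254) (nat_lit 253))))) (XT.nd (nat_lit 234) (nat_lit 760) (nat_lit 0) (XT.nd (nat_lit 78) (nat_lit 684) (nat_lit 0) (XT.lf (nat_lit 0) (nat_lit 170081558) (nat_lit 532) (nat_lit 5329410237) (nat_lit 532) (nat_lit 1172311278) (nat_lit 239) (nat_lit 4) (nat_lit 246) (nat_lit 5) (nat_lit 246) (nat_lit 4) (nat_lit 274) (nat_lit 254) (nat_lit 252)) (XT.nd (nat_lit 78) (nat_lit 608) (nat_lit 0) (XT.lf (nat_lit 0) (nat_lit 1648298432) (nat_lit 608) (nat_lit 2799239549) (nat_lit 76) (nat_lit 2260083618) (nat_lit 238) (nat_lit 5) (nat_lit 246) (nat_lit 5) (nat_lit 239) (nat_lit 4) (nat_lit 275) (nat_lit 254) (nat_lit 251)) (XT.lf (nat_lit 0) (nat_lit 948027935) (nat_lit 608) (nat_lit 3497090964) (nat_lit 684) (nat_lit 2301904189) (nat_lit 230) (nat_lit 5) (nat_lit 238) (nat_lit 5) (nat_lit 239) (nat_lit 4) (nat_lit 276) (nat_lit 254) (nat_lit 250)))) (XT.nd (nat_lit 78) (nat_lit 684) (nat_lit 0) (XT.lf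 (nat_lit 0) (nat_lit 463156545) (nat_lit 684) (nat_lit 2001727876) (nat_lit 76) (nat_lit 4324797718) (nat_lit 229) (nat_lit 5) (nat_lit 238) (nat_lit 5) (nat_lit 230) (nat_lit 5) (nat_lit 277) (nat_lit 254) (nat_lit 249)) (XT.nd (nat_lit 78) (nat_lit 0) (nat_lit 0) (XT.lf (nat_lit 0) (nat_lit 1850335492) (nat_lit 684) (nat_lit 1341941975) (nat_lit 760) (nat_lit 3643123380) (nat_lit 220) (nat_lit 5) (nat_lit 229) (nat_lit 5) (nat_lit 230) (nat_lit 5) (nat_lit 278) (nat_lit 254) (nat_lit 248)) (XT.lf (nat_lit 0) (nat_lit 5787266886) (nat_lit 684) (nat_lit 147750338) (nat_lit 760) (nat_lit 949798089) (nat_lit 220) (nat_lit 5) (nat_lit 229) (nat_lit 5) (nat_lit 230) (nat_lit 5) (nat_lit 279) (nat_lit 254) (nat_lit 247)))))) (XT.nd (nat_lit 468) (nat_lit 2584) (nat_lit 0) (XT.nd (nat_lit 234) (nat_lit 1976) (nat_lit 0) (XT.nd (nat_lit 78) (nat_lit 912) (nat_lit 0) (XT.lf (nat_lit 0) (nat_lit 1740342677)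 (nat_lit 836) (nat_lit 4074727277) (nat_lit 76) (nat_lit 1121828394) (nat_lit 209) (nat_lit 5) (nat_lit 220) (nat_lit 5) (nat_lit 210) (nat_lit 5) (nat_lit 280) (nat_lit 254) (nat_lit 246)) (XT.nd (nat_lit 78) (nat_lit 912) (nat_lit 0) (XT.lf (nat_lit 0) (nat_lit 4419737184) (nat_lit 836) (nat_lit 111879701) (nat_lit 76) (nat_lit 2461068772) (nat_lit 209) (nat_lit 5) (nat_lit 220) (nat_lit 5) (nat_lit 210) (nat_lit 5) (nat_lit 281) (nat_lit 254) (nat_lit 245)) (XT.lf (nat_lit 0) (nat_lit 81839768) (nat_lit 912) (nat_lit 3076811528) (nat_lit 76) (nat_lit 3893046622) (nat_lit 197) (nat_lit 5) (nat_lit 209) (nat_lit 5) (nat_lit 198) (nat_lit 5) (nat_lit 282) (nat_lit 254) (nat_lit 244)))) (XT.nd (nat_lit 78) (nat_lit 1064) (nat_lit 0) (XT.lf (nat_lit 0) (nat_lit 995156952) (nat_lit 912) (nat_lit 1698255342) (nat_lit 988) (nat_lit 4420669989) (nat_lit 185) (nat_lit 5) (nat_lit 197) (nat_lit 5) (nat_lit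 198) (nat_lit 5) (nat_lit 283) (nat_lit 254) (nat_lit 243)) (XT.nd (nat_lit 78) (nat_lit 1064) (nat_lit 0) (XT.lf (nat_lit 0) (nat_lit 5180192147) (nat_lit 912) (nat_lit 154047333) (nat_lit 988) (nat_lit 1845796340) (nat_lit 185) (nat_lit 5) (nat_lit 197) (nat_lit 5) (nat_lit 198) (nat_lit 5) (nat_lit 284) (nat_lit 254) (nat_lit 242)) (XT.lf (nat_lit 0) (nat_lit 747147279) (nat_lit 1064) (nat_lit 5057568373) (nat_lit 76) (nat_lit 1444534999) (nat_lit 171) (nat_lit 5) (nat_lit 185) (nat_lit 5) (nat_lit 172) (nat_lit 5) (nat_lit 285) (nat_lit 254) (nat_lit 241))))) (XT.nd (nat_lit 234) (nat_lit 608) (nat_lit 0) (XT.nd (nat_lit 78) (nat_lit 1976) (nat_lit 0) (XT.lf (nat_lit 0) (nat_lit 3325558061) (nat_lit 1064) (nat_lit 863705922) (nat_lit 76) (nat_lit 3132592142) (nat_lit 171) (nat_lit 5) (nat_lit 185) (nat_lit 5) (nat_lit 172) (nat_lit 5) (nat_lit 286) (nat_lit 254) (nat_lit 240)) (XT.nd (nat_lit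 78) (nat_lit 912) (nat_lit 0) (XT.lf (nat_lit 0) (nat_lit 3451757459) (nat_lit 1064) (nat_lit 2487848837) (nat_lit 1140) (nat_lit 1458484703) (nat_lit 157) (nat_lit 5) (nat_lit 171) (nat_lit 5) (nat_lit 172) (nat_lit 5) (nat_lit 287) (nat_lit 254) (nat_lit 239)) (XT.lf (nat_lit 0) (nat_lit 361359903) (nat_lit 836) (nat_lit 709525642) (nat_lit 912) (nat_lit 6407443390) (nat_lit 145) (nat_lit 5) (nat_lit 156) (nat_lit 5) (nat_lit 157) (nat_lit 5) (nat_lit 288) (nat_lit 254) (nat_lit 238)))) (XT.nd (nat_lit 78) (nat_lit 608) (nat_lit 0) (XT.lf (nat_lit 0) (nat_lit 3625026115) (nat_lit 912) (nat_lit 2780423468) (nat_lit 76) (nat_lit 1155927950) (nat_lit 145) (nat_lit 5) (nat_lit 157) (nat_lit 5) (nat_lit 146) (nat_lit 5) (nat_lit 289) (nat_lit 254) (nat_lit 237)) (XT.nd (nat_lit 78) (nat_lit 76) (nat_lit 0) (XT.lf (nat_lit 0) (nat_lit 1639136864) (nat_lit 532) (nat_lit 4568728398) (nat_lit 608) (nat_lit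 1440667604) (nat_lit 138) (nat_lit 5) (nat_lit 145) (nat_lit 5) (nat_lit 146) (nat_lit 5) (nat_lit 290) (nat_lit 254) (nat_lit 236)) (XT.lf (nat_lit 0) (nat_lit 1066004606) (nat_lit 608) (nat_lit 1573219720) (nat_lit 76) (nat_lit 5100175037) (nat_lit 137) (nat_lit 5) (nat_lit 145) (nat_lit 5) (nat_lit 138) (nat_lit 5) (nat_lit 291) (nat_lit 254) (nat_lit 235))))))) (XT.nd (nat_lit 858) (nat_lit 2204) (nat_lit 0) (XT.nd (nat_lit 390) (nat_lit 1824) (nat_lit 0) (XT.nd (nat_lit 156) (nat_lit 1064) (nat_lit 0) (XT.nd (nat_lit 78) (nat_lit 0) (nat_lit 0) (XT.lf (nat_lit 0) (nat_lit 2968935769) (nat_lit 532) (nat_lit 610380010) (nat_lit 608) (nat_lit 4254598758) (nat_lit 130) (nat_lit 5) (nat_lit 137) (nat_lit 5) (nat_lit 138) (nat_lit 5) (nat_lit 292) (nat_lit 254) (nat_lit 234)) (XT.lf (nat_lit 0) (nat_lit 6131425672) (nat_lit 608) (nat_lit 337774965) (nat_lit 76) (nat_lit 1463320261) (nat_lit 130)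 (nat_lit 5) (nat_lit 138) (nat_lit 5) (nat_lit 131) (nat_lit 5) (nat_lit 293) (nat_lit 254) (nat_lit 233))) (XT.nd (nat_lit 78) (nat_lit 532) (nat_lit 0) (XT.lf (nat_lit 0) (nat_lit 694309750) (nat_lit 532) (nat_lit 3707906126) (nat_lit 76) (nat_lit 3632334965) (nat_lit 123) (nat_lit 5) (nat_lit 130) (nat_lit 5) (nat_lit 124) (nat_lit 5) (nat_lit 294) (nat_lit 254) (nat_lit 232)) (XT.nd (nat_lit 78) (nat_lit 0) (nat_lit 0) (XT.lf (nat_lit 0) (nat_lit 927768405) (nat_lit 532) (nat_lit 2248501159) (nat_lit 608) (nat_lit 4964544684) (nat_lit 116) (nat_lit 5) (nat_lit 123) (nat_lit 5) (nat_lit 124) (nat_lit 5) (nat_lit 295) (nat_lit 254) (nat_lit 231)) (XT.lf (nat_lit 0) (nat_lit 5706878569) (nat_lit 608) (nat_lit 2542829589) (nat_lit 76) (nat_lit 1471814) (nat_lit 116) (nat_lit 5) (nat_lit 124) (nat_lit 5) (nat_lit 117) (nat_lit 5) (nat_lit 296) (nat_lit 254) (nat_lit 230))))) (XT.nd (nat_lit 234)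 (nat_lit 836) (nat_lit 0) (XT.nd (nat_lit 78) (nat_lit 532) (nat_lit 0) (XT.lf (nat_lit 0) (nat_lit 2218494133) (nat_lit 456) (nat_lit 6077011424) (nat_lit 532) (nat_lit 70024166) (nat_lit 110) (nat_lit 5) (nat_lit 116) (nat_lit 5) (nat_lit 117) (nat_lit 5) (nat_lit 297) (nat_lit 254) (nat_lit 229)) (XT.nd (nat_lit 78) (nat_lit 456) (nat_lit 0) (XT.lf (nat_lit 0) (nat_lit 2394958121) (nat_lit 532) (nat_lit 1402520437) (nat_lit 76) (nat_lit 4686299679) (nat_lit 109) (nat_lit 5) (nat_lit 116) (nat_lit 5) (nat_lit 110) (nat_lit 5) (nat_lit 298) (nat_lit 254) (nat_lit 228)) (XT.lf (nat_lit 0) (nat_lit 3482976090) (nat_lit 456) (nat_lit 1423675222) (nat_lit 532) (nat_lit 3699801531) (nat_lit 103) (nat_lit 5) (nat_lit 109) (nat_lit 5) (nat_lit 110) (nat_lit 5) (nat_lit 299) (nat_lit 254) (nat_lit 227)))) (XT.nd (nat_lit 78) (nat_lit 836) (nat_lit 0) (XT.lf (nat_lit 0) (nat_lit 7459485271) (nat_lit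 532) (nat_lit 268280965) (nat_lit 76) (nat_lit 1006188628) (nat_lit 103) (nat_lit 5) (nat_lit 110) (nat_lit 5) (nat_lit 104) (nat_lit 5) (nat_lit 300) (nat_lit 254) (nat_lit 226)) (XT.nd (nat_lit 78) (nat_lit 380) (nat_lit 0) (XT.lf (nat_lit 0) (nat_lit 1202720135) (nat_lit 456) (nat_lit 4133761439) (nat_lit 76) (nat_lit 3528472189) (nat_lit 97) (nat_lit 5) (nat_lit 103) (nat_lit 5) (nat_lit 98) (nat_lit 5) (nat_lit 301) (nat_lit 254) (nat_lit 225)) (XT.lf (nat_lit 0) (nat_lit 821468176) (nat_lit 380) (nat_lit 2861485050) (nat_lit 456) (nat_lit 5318031167) (nat_lit 92) (nat_lit 5) (nat_lit 97) (nat_lit 5) (nat_lit 98) (nat_lit 5) (nat_lit 302) (nat_lit 254) (nat_lit 224)))))) (XT.nd (nat_lit 468) (nat_lit 1064) (nat_lit 0) (XT.nd (nat_lit 234) (nat_lit 684) (nat_lit 0) (XT.nd (nat_lit 78) (nat_lit 456) (nat_lit 0) (XT.lf (nat_lit 0) (nat_lit 5942497746) (nat_lit 380) (nat_lit 281539031) (nat_lit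 456) (nat_lit 2917573257) (nat_lit 92) (nat_lit 5) (nat_lit 97) (nat_lit 5) (nat_lit 98) (nat_lit 5) (nat_lit 303) (nat_lit 254) (nat_lit 223)) (XT.nd (nat_lit 78) (nat_lit 76) (nat_lit 0) (XT.lf (nat_lit 0) (nat_lit 1877272017) (nat_lit 380) (nat_lit 6951160495) (nat_lit 456) (nat_lit 458513811) (nat_lit 87) (nat_lit 5) (nat_lit 92) (nat_lit 5) (nat_lit 93) (nat_lit 5) (nat_lit 304) (nat_lit 254) (nat_lit 222)) (XT.lf (nat_lit 0) (nat_lit 2015753057) (nat_lit 456) (nat_lit 2354924333) (nat_lit 76) (nat_lit 5066008012) (nat_lit 86) (nat_lit 5) (nat_lit 92) (nat_lit 5) (nat_lit 87) (nat_lit 5) (nat_lit 305) (nat_lit 254) (nat_lit 221)))) (XT.nd (nat_lit 78) (nat_lit 304) (nat_lit 0) (XT.lf (nat_lit 0) (nat_lit 2836521556) (nat_lit 380) (nat_lit 1693836227) (nat_lit 456) (nat_lit 5061258334) (nat_lit 81) (nat_lit 5) (nat_lit 86) (nat_lit 5) (nat_lit 87) (nat_lit 5) (nat_lit 306) (nat_lit 254) (nat_lit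 220)) (XT.nd (nat_lit 78) (nat_lit 304) (nat_lit 0) (XT.lf (nat_lit 0) (nat_lit 7103448340) (nat_lit 456) (nat_lit 1595555548) (nat_lit 76) (nat_lit 1052792075) (nat_lit 81) (nat_lit 5) (nat_lit 87) (nat_lit 5) (nat_lit 82) (nat_lit 5) (nat_lit 307) (nat_lit 254) (nat_lit 219)) (XT.lf (nat_lit 0) (nat_lit 3709726952) (nat_lit 304) (nat_lit 6046737361) (nat_lit 380) (nat_lit 160324854) (nat_lit 77) (nat_lit 5) (nat_lit 81) (nat_lit 5) (nat_lit 82) (nat_lit 5) (nat_lit 308) (nat_lit 254) (nat_lit 218))))) (XT.nd (nat_lit 234) (nat_lit 684) (nat_lit 0) (XT.nd (nat_lit 78) (nat_lit 304) (nat_lit 0) (XT.lf (nat_lit 0) (nat_lit 2322296304) (nat_lit 380) (nat_lit 967722689) (nat_lit 76) (nat_lit 6797100091) (nat_lit 76) (nat_lit 5) (nat_lit 81) (nat_lit 5) (nat_lit 77) (nat_lit 5) (nat_lit 309) (nat_lit 254) (nat_lit 217)) (XT.nd (nat_lit 78) (nat_lit 0) (nat_lit 0) (XT.lf (nat_lit 0) (nat_lit 4450861143)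 (nat_lit 304) (nat_lit 420101330) (nat_lit 380) (nat_lit 5391787451) (nat_lit 72) (nat_lit 5) (nat_lit 76) (nat_lit 5) (nat_lit 77) (nat_lit 5) (nat_lit 310) (nat_lit 254) (nat_lit 216)) (XT.lf (nat_lit 0) (nat_lit 7482987089) (nat_lit 380) (nat_lit 479919431) (nat_lit 76) (nat_lit 2481216129) (nat_lit 72) (nat_lit 5) (nat_lit 77) (nat_lit 5) (nat_lit 73) (nat_lit 5) (nat_lit 311) (nat_lit 254) (nat_lit 215)))) (XT.nd (nat_lit 78) (nat_lit 380) (nat_lit 0) (XT.lf (nat_lit 0) (nat_lit 5044213112) (nat_lit 304) (nat_lit 5135838704) (nat_lit 380) (nat_lit 450761944) (nat_lit 68) (nat_lit 5) (nat_lit 72) (nat_lit 5) (nat_lit 73) (nat_lit 5) (nat_lit 312) (nat_lit 254) (nat_lit 214)) (XT.nd (nat_lit 78) (nat_lit 304) (nat_lit 0) (XT.lf (nat_lit 0) (nat_lit 2052415485) (nat_lit 380) (nat_lit 162065086) (nat_lit 76) (nat_lit 8609307920) (nat_lit 67) (nat_lit 5) (nat_lit 72) (nat_lit 5) (nat_lit 68)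 (nat_lit 5) (nat_lit 313) (nat_lit 254) (nat_lit 213)) (XT.lf (nat_lit 0) (nat_lit 4637815279) (nat_lit 380) (nat_lit 5563494425) (nat_lit 76) (nat_lit 820694264) (nat_lit 63) (nat_lit 5) (nat_lit 68) (nat_lit 5) (nat_lit 64) (nat_lit 5) (nat_lit 314) (nat_lit 254) (nat_lit 212))))))))
noncomputable def xc93 : XT := (XT.nd (nat_lit 1794) (nat_lit 1140) (nat_lit 0) (XT.nd (nat_lit 858) (nat_lit 1064) (nat_lit 0) (XT.nd (nat_lit 390) (nat_lit 760) (nat_lit 0) (XT.nd (nat_lit 156) (nat_lit 380) (nat_lit 0) (XT.nd (nat_lit 78) (nat_lit 228) (nat_lit 0) (XT.lf (nat_lit 0) (nat_lit 7280505456) (nat_lit 380) (nat_lit 58286822) (nat_lit 76) (nat_lit 3888050713) (nat_lit 63) (nat_lit 5) (nat_lit 68) (nat_lit 5) (nat_lit 64) (nat_lit 5) (nat_lit 315) (nat_lit 254) (nat_lit 211)) (XT.lf (nat_lit 0) (nat_lit 5663117009) (nat_lit 228) (nat_lit 4351223949) (nat_lit 304) (nat_lit 1423197214) (nat_lit 60) (nat_lit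 5) (nat_lit 63) (nat_lit 5) (nat_lit 64) (nat_lit 5) (nat_lit 316) (nat_lit 254) (nat_lit 210))) (XT.nd (nat_lit 78) (nat_lit 304) (nat_lit 0) (XT.lf (nat_lit 0) (nat_lit 1110913483) (nat_lit 304) (nat_lit 168276812) (nat_lit 76) (nat_lit 10376341457) (nat_lit 59) (nat_lit 5) (nat_lit 63) (nat_lit 5) (nat_lit 60) (nat_lit 5) (nat_lit 317) (nat_lit 254) (nat_lit 209)) (XT.nd (nat_lit 78) (nat_lit 0) (nat_lit 0) (XT.lf (nat_lit 0) (nat_lit 3724187624) (nat_lit 380) (nat_lit 6253897590) (nat_lit 76) (nat_lit 1900666090) (nat_lit 55) (nat_lit 5) (nat_lit 60) (nat_lit 5) (nat_lit 56) (nat_lit 5) (nat_lit 318) (nat_lit 254) (nat_lit 208)) (XT.lf (nat_lit 0) (nat_lit 6389580841) (nat_lit 380) (nat_lit 584662656) (nat_lit 76) (nat_lit 5135271782) (nat_lit 55) (nat_lit 5) (nat_lit 60) (nat_lit 5) (nat_lit 56) (nat_lit 5) (nat_lit 319) (nat_lit 254) (nat_lit 207))))) (XT.nd (nat_lit 234) (nat_lit 228)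 (nat_lit 0) (XT.nd (nat_lit 78) (nat_lit 304) (nat_lit 0) (XT.lf (nat_lit 0) (nat_lit 5301209796) (nat_lit 228) (nat_lit 3845208328) (nat_lit 304) (nat_lit 3200497313) (nat_lit 52) (nat_lit 5) (nat_lit 55) (nat_lit 5) (nat_lit 56) (nat_lit 5) (nat_lit 320) (nat_lit 254) (nat_lit 206)) (XT.nd (nat_lit 78) (nat_lit 304) (nat_lit 0) (XT.lf (nat_lit 0) (nat_lit 11319315906) (nat_lit 228) (nat_lit 633680701) (nat_lit 304) (nat_lit 639485958) (nat_lit 52) (nat_lit 5) (nat_lit 55) (nat_lit 5) (nat_lit 56) (nat_lit 5) (nat_lit 321) (nat_lit 254) (nat_lit 205)) (XT.lf (nat_lit 0) (nat_lit 1992450537) (nat_lit 304) (nat_lit 8181515827) (nat_lit 76) (nat_lit 2669934196) (nat_lit 48) (nat_lit 5) (nat_lit 52) (nat_lit 5) (nat_lit 49) (nat_lit 5) (nat_lit 322) (nat_lit 254) (nat_lit 204)))) (XT.nd (nat_lit 78) (nat_lit 228) (nat_lit 0) (XT.lf (nat_lit 0) (nat_lit 4672003421) (nat_lit 304) (nat_lit 2369073773)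 (nat_lit 76) (nat_lit 6062199908) (nat_lit 48) (nat_lit 5) (nat_lit 52) (nat_lit 5) (nat_lit 49) (nat_lit 5) (nat_lit 323) (nat_lit 254) (nat_lit 203)) (XT.nd (nat_lit 78) (nat_lit 0) (nat_lit 0) (XT.lf (nat_lit 0) (nat_lit 3634323580) (nat_lit 228) (nat_lit 3795907547) (nat_lit 304) (nat_lit 5940304965) (nat_lit 45) (nat_lit 5) (nat_lit 48) (nat_lit 5) (nat_lit 49) (nat_lit 5) (nat_lit 324) (nat_lit 254) (nat_lit 202)) (XT.lf (nat_lit 0) (nat_lit 9812582550) (nat_lit 228) (nat_lit 446449203) (nat_lit 304) (nat_lit 3387194663) (nat_lit 45) (nat_lit 5) (nat_lit 48) (nat_lit 5) (nat_lit 49) (nat_lit 5) (nat_lit 325) (nat_lit 254) (nat_lit 201)))))) (XT.nd (nat_lit 468) (nat_lit 380) (nat_lit 0) (XT.nd (nat_lit 234) (nat_lit 228) (nat_lit 0) (XT.nd (nat_lit 78) (nat_lit 228) (nat_lit 0) (XT.lf (nat_lit 0) (nat_lit 2207027543) (nat_lit 228) (nat_lit 10980544767) (nat_lit 304) (nat_lit 742215803)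 (nat_lit 42) (nat_lit 5) (nat_lit 45) (nat_lit 5) (nat_lit 46) (nat_lit 5) (nat_lit 326) (nat_lit 254) (nat_lit 200)) (XT.nd (nat_lit 78) (nat_lit 152) (nat_lit 0) (XT.lf (nat_lit 0) (nat_lit 1951870640) (nat_lit 304) (nat_lit 5790438176) (nat_lit 76) (nat_lit 6478767403) (nat_lit 41) (nat_lit 5) (nat_lit 45) (nat_lit 5) (nat_lit 42) (nat_lit 5) (nat_lit 327) (nat_lit 254) (nat_lit 199)) (XT.lf (nat_lit 0) (nat_lit 265857065) (nat_lit 152) (nat_lit 4414502628) (nat_lit 228) (nat_lit 9841510836) (nat_lit 39) (nat_lit 5) (nat_lit 41) (nat_lit 5) (nat_lit 42) (nat_lit 5) (nat_lit 328) (nat_lit 254) (nat_lit 198)))) (XT.nd (nat_lit 78) (nat_lit 228) (nat_lit 0) (XT.lf (nat_lit 0) (nat_lit 6571211682) (nat_lit 152) (nat_lit 944404625) (nat_lit 228) (nat_lit 7315366680) (nat_lit 39) (nat_lit 5) (nat_lit 41) (nat_lit 5) (nat_lit 42) (nat_lit 5) (nat_lit 329) (nat_lit 254) (nat_lit 197)) (XT.nd (nat_lit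 78) (nat_lit 228) (nat_lit 0) (XT.lf (nat_lit 0) (nat_lit 10428462274) (nat_lit 228) (nat_lit 2159606012) (nat_lit 76) (nat_lit 2561565076) (nat_lit 39) (nat_lit 5) (nat_lit 42) (nat_lit 5) (nat_lit 40) (nat_lit 5) (nat_lit 330) (nat_lit 254) (nat_lit 196)) (XT.lf (nat_lit 0) (nat_lit 4145906612) (nat_lit 228) (nat_lit 9300196793) (nat_lit 304) (nat_lit 2031256861) (nat_lit 36) (nat_lit 5) (nat_lit 39) (nat_lit 5) (nat_lit 40) (nat_lit 5) (nat_lit 331) (nat_lit 254) (nat_lit 195))))) (XT.nd (nat_lit 234) (nat_lit 152) (nat_lit 0) (XT.nd (nat_lit 78) (nat_lit 152) (nat_lit 0) (XT.lf (nat_lit 0) (nat_lit 715267242) (nat_lit 304) (nat_lit 5186127216) (nat_lit 76) (nat_lit 9913638162) (nat_lit 35) (nat_lit 5) (nat_lit 39) (nat_lit 5) (nat_lit 36) (nat_lit 5) (nat_lit 332) (nat_lit 254) (nat_lit 194)) (XT.nd (nat_lit 78) (nat_lit 0) (nat_lit 0) (XT.lf (nat_lit 0) (nat_lit 1096896777) (nat_lit 152)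 (nat_lit 2386247129) (nat_lit 228) (nat_lit 12679730378) (nat_lit 33) (nat_lit 5) (nat_lit 35) (nat_lit 5) (nat_lit 36) (nat_lit 5) (nat_lit 333) (nat_lit 254) (nat_lit 193)) (XT.lf (nat_lit 0) (nat_lit 6368324028) (nat_lit 228) (nat_lit 8905506601) (nat_lit 76) (nat_lit 1246327483) (nat_lit 33) (nat_lit 5) (nat_lit 36) (nat_lit 5) (nat_lit 34) (nat_lit 5) (nat_lit 334) (nat_lit 254) (nat_lit 192)))) (XT.nd (nat_lit 78) (nat_lit 152) (nat_lit 0) (XT.lf (nat_lit 0) (nat_lit 9334087272) (nat_lit 228) (nat_lit 2630706637) (nat_lit 76) (nat_lit 4923579625) (nat_lit 33) (nat_lit 5) (nat_lit 36) (nat_lit 5) (nat_lit 34) (nat_lit 5) (nat_lit 335) (nat_lit 254) (nat_lit 191)) (XT.nd (nat_lit 78) (nat_lit 0) (nat_lit 0) (XT.lf (nat_lit 0) (nat_lit 3862208894) (nat_lit 152) (nat_lit 8535004035) (nat_lit 228) (nat_lit 4870203726) (nat_lit 31) (nat_lit 5) (nat_lit 33) (nat_lit 5) (nat_lit 34) (nat_lit 5)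 (nat_lit 336) (nat_lit 254) (nat_lit 190)) (XT.lf (nat_lit 0) (nat_lit 10558790780) (nat_lit 152) (nat_lit 4991674112) (nat_lit 228) (nat_lit 2107451167) (nat_lit 31) (nat_lit 5) (nat_lit 33) (nat_lit 5) (nat_lit 34) (nat_lit 5) (nat_lit 337) (nat_lit 254) (nat_lit 189))))))) (XT.nd (nat_lit 936) (nat_lit 380) (nat_lit 0) (XT.nd (nat_lit 468) (nat_lit 380) (nat_lit 0) (XT.nd (nat_lit 234) (nat_lit 152) (nat_lit 0) (XT.nd (nat_lit 78) (nat_lit 152) (nat_lit 0) (XT.lf (nat_lit 0) (nat_lit 695969336) (nat_lit 228) (nat_lit 655275741) (nat_lit 76) (nat_lit 16709536921) (nat_lit 30) (nat_lit 5) (nat_lit 33) (nat_lit 5) (nat_lit 31) (nat_lit 5) (nat_lit 338) (nat_lit 254) (nat_lit 188)) (XT.nd (nat_lit 78) (nat_lit 0) (nat_lit 0) (XT.lf (nat_lit 0) (nat_lit 3595836149) (nat_lit 228) (nat_lit 12462113981) (nat_lit 76) (nat_lit 2415546019) (nat_lit 28) (nat_lit 5) (nat_lit 31) (nat_lit 5) (nat_lit 29)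 (nat_lit 5) (nat_lit 339) (nat_lit 254) (nat_lit 187)) (XT.lf (nat_lit 0) (nat_lit 6575983342) (nat_lit 228) (nat_lit 6063645351) (nat_lit 76) (nat_lit 6259192900) (nat_lit 28) (nat_lit 5) (nat_lit 31) (nat_lit 5) (nat_lit 29) (nat_lit 5) (nat_lit 340) (nat_lit 254) (nat_lit 186)))) (XT.nd (nat_lit 78) (nat_lit 0) (nat_lit 0) (XT.lf (nat_lit 0) (nat_lit 494405273) (nat_lit 152) (nat_lit 9129885307) (nat_lit 228) (nat_lit 9713281125) (nat_lit 26) (nat_lit 5) (nat_lit 28) (nat_lit 5) (nat_lit 29) (nat_lit 5) (nat_lit 341) (nat_lit 254) (nat_lit 185)) (XT.nd (nat_lit 78) (nat_lit 0) (nat_lit 0) (XT.lf (nat_lit 0) (nat_lit 7331888468) (nat_lit 152) (nat_lit 5467749831) (nat_lit 228) (nat_lit 6988805052) (nat_lit 26) (nat_lit 5) (nat_lit 28) (nat_lit 5) (nat_lit 29) (nat_lit 5) (nat_lit 342) (nat_lit 254) (nat_lit 184)) (XT.lf (nat_lit 0) (nat_lit 14334100301) (nat_lit 152) (nat_lit 1711253271) (nat_lit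 228) (nat_lit 4208260351) (nat_lit 26) (nat_lit 5) (nat_lit 28) (nat_lit 5) (nat_lit 29) (nat_lit 5) (nat_lit 343) (nat_lit 254) (nat_lit 183))))) (XT.nd (nat_lit 234) (nat_lit 152) (nat_lit 0) (XT.nd (nat_lit 78) (nat_lit 76) (nat_lit 0) (XT.lf (nat_lit 0) (nat_lit 768058171) (nat_lit 152) (nat_lit 18624196073) (nat_lit 228) (nat_lit 1340396183) (nat_lit 24) (nat_lit 5) (nat_lit 26) (nat_lit 5) (nat_lit 27) (nat_lit 4) (nat_lit 344) (nat_lit 254) (nat_lit 182)) (XT.nd (nat_lit 78) (nat_lit 0) (nat_lit 0) (XT.lf (nat_lit 0) (nat_lit 1635084113) (nat_lit 228) (nat_lit 13519649071) (nat_lit 76) (nat_lit 6069291361) (nat_lit 23) (nat_lit 5) (nat_lit 26) (nat_lit 5) (nat_lit 24) (nat_lit 5) (nat_lit 345) (nat_lit 254) (nat_lit 181)) (XT.lf (nat_lit 0) (nat_lit 4649349403) (nat_lit 228) (nat_lit 6933406249) (nat_lit 76) (nat_lit 10147715353) (nat_lit 23) (nat_lit 5) (nat_lit 26) (nat_lit 5) (nat_lit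 24) (nat_lit 5) (nat_lit 346) (nat_lit 254) (nat_lit 180)))) (XT.nd (nat_lit 78) (nat_lit 152) (nat_lit 0) (XT.lf (nat_lit 0) (nat_lit 7731189469) (nat_lit 228) (nat_lit 187224110) (nat_lit 76) (nat_lit 14334405294) (nat_lit 23) (nat_lit 5) (nat_lit 26) (nat_lit 5) (nat_lit 24) (nat_lit 5) (nat_lit 347) (nat_lit 254) (nat_lit 179)) (XT.nd (nat_lit 78) (nat_lit 0) (nat_lit 0) (XT.lf (nat_lit 0) (nat_lit 6858628613) (nat_lit 152) (nat_lit 4090597901) (nat_lit 228) (nat_lit 11840320176) (nat_lit 21) (nat_lit 5) (nat_lit 23) (nat_lit 5) (nat_lit 24) (nat_lit 5) (nat_lit 348) (nat_lit 254) (nat_lit 178)) (XT.lf (nat_lit 0) (nat_lit 14083501751) (nat_lit 152) (nat_lit 160304288) (nat_lit 228) (nat_lit 9099191393) (nat_lit 21) (nat_lit 5) (nat_lit 23) (nat_lit 5) (nat_lit 24) (nat_lit 5) (nat_lit 349) (nat_lit 254) (nat_lit 177)))))) (XT.nd (nat_lit 468) (nat_lit 76) (nat_lit 0) (XT.nd (nat_lit 234)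 (nat_lit 228) (nat_lit 0) (XT.nd (nat_lit 78) (nat_lit 76) (nat_lit 0) (XT.lf (nat_lit 0) (nat_lit 17653210636) (nat_lit 228) (nat_lit 2460966956) (nat_lit 76) (nat_lit 3798414990) (nat_lit 21) (nat_lit 5) (nat_lit 24) (nat_lit 5) (nat_lit 22) (nat_lit 4) (nat_lit 350) (nat_lit 254) (nat_lit 176)) (XT.nd (nat_lit 78) (nat_lit 0) (nat_lit 0) (XT.lf (nat_lit 0) (nat_lit 4594970134) (nat_lit 76) (nat_lit 16594921772) (nat_lit 152) (nat_lit 3308653765) (nat_lit 20) (nat_lit 5) (nat_lit 21) (nat_lit 5) (nat_lit 22) (nat_lit 4) (nat_lit 351) (nat_lit 254) (nat_lit 175)) (XT.lf (nat_lit 0) (nat_lit 11878747462) (nat_lit 76) (nat_lit 12958289947) (nat_lit 152) (nat_lit 264928367) (nat_lit 20) (nat_lit 5) (nat_lit 21) (nat_lit 5) (nat_lit 22) (nat_lit 4) (nat_lit 352) (nat_lit 254) (nat_lit 174)))) (XT.nd (nat_lit 78) (nat_lit 152) (nat_lit 0) (XT.lf (nat_lit 0) (nat_lit 2793996857) (nat_lit 152) (nat_lit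 6403744675) (nat_lit 76) (nat_lit 16525540678) (nat_lit 19) (nat_lit 5) (nat_lit 21) (nat_lit 5) (nat_lit 20) (nat_lit 5) (nat_lit 353) (nat_lit 254) (nat_lit 173)) (XT.nd (nat_lit 78) (nat_lit 0) (nat_lit 0) (XT.lf (nat_lit 0) (nat_lit 596608749) (nat_lit 152) (nat_lit 5328971088) (nat_lit 228) (nat_lit 20438010861) (nat_lit 17) (nat_lit 5) (nat_lit 19) (nat_lit 5) (nat_lit 20) (nat_lit 5) (nat_lit 354) (nat_lit 254) (nat_lit 172)) (XT.lf (nat_lit 0) (nat_lit 7905840724) (nat_lit 152) (nat_lit 1290671754) (nat_lit 228) (nat_lit 17825251081) (nat_lit 17) (nat_lit 5) (nat_lit 19) (nat_lit 5) (nat_lit 20) (nat_lit 5) (nat_lit 355) (nat_lit 254) (nat_lit 171))))) (XT.nd (nat_lit 234) (nat_lit 0) (nat_lit 0) (XT.nd (nat_lit 78) (nat_lit 76) (nat_lit 0) (XT.lf (nat_lit 0) (nat_lit 12574324874) (nat_lit 228) (nat_lit 12324822276) (nat_lit 76) (nat_lit 2800288584) (nat_lit 17) (nat_lit 5) (nat_lit 20)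 (nat_lit 5) (nat_lit 18) (nat_lit 4) (nat_lit 356) (nat_lit 254) (nat_lit 170)) (XT.nd (nat_lit 78) (nat_lit 76) (nat_lit 0) (XT.lf (nat_lit 0) (nat_lit 16047974201) (nat_lit 228) (nat_lit 5373751991) (nat_lit 76) (nat_lit 6975893001) (nat_lit 17) (nat_lit 5) (nat_lit 20) (nat_lit 5) (nat_lit 18) (nat_lit 4) (nat_lit 357) (nat_lit 254) (nat_lit 169)) (XT.lf (nat_lit 0) (nat_lit 1790711732) (nat_lit 76) (nat_lit 17834590645) (nat_lit 152) (nat_lit 9491477421) (nat_lit 16) (nat_lit 5) (nat_lit 17) (nat_lit 5) (nat_lit 18) (nat_lit 4) (nat_lit 358) (nat_lit 254) (nat_lit 168)))) (XT.nd (nat_lit 78) (nat_lit 0) (nat_lit 0) (XT.lf (nat_lit 0) (nat_lit 9250479030) (nat_lit 76) (nat_lit 14096222167) (nat_lit 152) (nat_lit 6509726768) (nat_lit 16) (nat_lit 5) (nat_lit 17) (nat_lit 5) (nat_lit 18) (nat_lit 4) (nat_lit 359) (nat_lit 254) (nat_lit 167)) (XT.nd (nat_lit 78) (nat_lit 0) (nat_lit 0) (XT.lf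 (nat_lit 0) (nat_lit 16905119943) (nat_lit 76) (nat_lit 10257618581) (nat_lit 152) (nat_lit 3456051978) (nat_lit 16) (nat_lit 5) (nat_lit 17) (nat_lit 5) (nat_lit 18) (nat_lit 4) (nat_lit 360) (nat_lit 254) (nat_lit 166)) (XT.lf (nat_lit 0) (nat_lit 24761322994) (nat_lit 76) (nat_lit 6315425766) (nat_lit 152) (nat_lit 327784791) (nat_lit 16) (nat_lit 5) (nat_lit 17) (nat_lit 5) (nat_lit 18) (nat_lit 4) (nat_lit 361) (nat_lit 254) (nat_lit 165))))))))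
noncomputable def xc94 : XT := (XT.nd (nat_lit 1794) (nat_lit 228) (nat_lit 0) (XT.nd (nat_lit 858) (nat_lit 152) (nat_lit 0) (XT.nd (nat_lit 390) (nat_lit 152) (nat_lit 0) (XT.nd (nat_lit 156) (nat_lit 0) (nat_lit 0) (XT.nd (nat_lit 78) (nat_lit 0) (nat_lit 0) (XT.lf (nat_lit 0) (nat_lit 595567555) (nat_lit 152) (nat_lit 2231809229) (nat_lit 228) (nat_lit 29385965253) (nat_lit 13) (nat_lit 5) (nat_lit 15) (nat_lit 5) (nat_lit 16) (nat_lit 5) (nat_lit 362) (nat_lit 254) (nat_lit 164)) (XT.lf (nat_lit 0) (nat_lit 6141231434) (nat_lit 228) (nat_lit 24907310555) (nat_lit 76) (nat_lit 1995669805) (nat_lit 13) (nat_lit 5) (nat_lit 16) (nat_lit 5) (nat_lit 14) (nat_lit 4) (nat_lit 363) (nat_lit 254) (nat_lit 163))) (XT.nd (nat_lit 78) (nat_lit 0) (nat_lit 0) (XT.lf (nat_lit 0) (nat_lit 9560968214) (nat_lit 228) (nat_lit 18044531458) (nat_lit 76) (nat_lit 6294326763) (nat_lit 13) (nat_lit 5) (nat_lit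 16) (nat_lit 5) (nat_lit 14) (nat_lit 4) (nat_lit 364) (nat_lit 254) (nat_lit 162)) (XT.nd (nat_lit 78) (nat_lit 0) (nat_lit 0) (XT.lf (nat_lit 0) (nat_lit 13068121728) (nat_lit 228) (nat_lit 11001987073) (nat_lit 76) (nat_lit 10711468387) (nat_lit 13) (nat_lit 5) (nat_lit 16) (nat_lit 5) (nat_lit 14) (nat_lit 4) (nat_lit 365) (nat_lit 254) (nat_lit 161)) (XT.lf (nat_lit 0) (nat_lit 16665756480) (nat_lit 228) (nat_lit 3773523719) (nat_lit 76) (nat_lit 15250954317) (nat_lit 13) (nat_lit 5) (nat_lit 16) (nat_lit 5) (nat_lit 14) (nat_lit 4) (nat_lit 366) (nat_lit 254) (nat_lit 160))))) (XT.nd (nat_lit 234) (nat_lit 76) (nat_lit 0) (XT.nd (nat_lit 78) (nat_lit 0) (nat_lit 0) (XT.lf (nat_lit 0) (nat_lit 3719760662) (nat_lit 76) (nat_lit 16673011986) (nat_lit 152) (nat_lit 16232747045) (nat_lit 12) (nat_lit 5) (nat_lit 13) (nat_lit 5) (nat_lit 14) (nat_lit 4) (nat_lit 367) (nat_lit 254) (nat_lit 159))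 (XT.nd (nat_lit 78) (nat_lit 0) (nat_lit 0) (XT.lf (nat_lit 0) (nat_lit 11490819674) (nat_lit 76) (nat_lit 12764762875) (nat_lit 152) (nat_lit 13332572739) (nat_lit 12) (nat_lit 5) (nat_lit 13) (nat_lit 5) (nat_lit 14) (nat_lit 4) (nat_lit 368) (nat_lit 254) (nat_lit 158)) (XT.lf (nat_lit 0) (nat_lit 19471343039) (nat_lit 76) (nat_lit 8749223083) (nat_lit 152) (nat_lit 10359526175) (nat_lit 12) (nat_lit 5) (nat_lit 13) (nat_lit 5) (nat_lit 14) (nat_lit 4) (nat_lit 369) (nat_lit 254) (nat_lit 157)))) (XT.nd (nat_lit 78) (nat_lit 76) (nat_lit 0) (XT.lf (nat_lit 0) (nat_lit 27668304031) (nat_lit 76) (nat_lit 4622883885) (nat_lit 152) (nat_lit 7311009547) (nat_lit 12) (nat_lit 5) (nat_lit 13) (nat_lit 5) (nat_lit 14) (nat_lit 4) (nat_lit 370) (nat_lit 254) (nat_lit 156)) (XT.nd (nat_lit 78) (nat_lit 76) (nat_lit 0) (XT.lf (nat_lit 0) (nat_lit 36088865043) (nat_lit 76) (nat_lit 382139743) (nat_lit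 152) (nat_lit 4184359101) (nat_lit 12) (nat_lit 5) (nat_lit 13) (nat_lit 5) (nat_lit 14) (nat_lit 4) (nat_lit 371) (nat_lit 254) (nat_lit 155)) (XT.lf (nat_lit 0) (nat_lit 3020587969) (nat_lit 76) (nat_lit 37810343384) (nat_lit 76) (nat_lit 907562587) (nat_lit 11) (nat_lit 4) (nat_lit 12) (nat_lit 5) (nat_lit 12) (nat_lit 4) (nat_lit 372) (nat_lit 254) (nat_lit 154)))))) (XT.nd (nat_lit 468) (nat_lit 0) (nat_lit 0) (XT.nd (nat_lit 234) (nat_lit 76) (nat_lit 0) (XT.nd (nat_lit 78) (nat_lit 0) (nat_lit 0) (XT.lf (nat_lit 0) (nat_lit 2457131194) (nat_lit 152) (nat_lit 31973801123) (nat_lit 76) (nat_lit 8421351190) (nat_lit 10) (nat_lit 5) (nat_lit 12) (nat_lit 5) (nat_lit 11) (nat_lit 4) (nat_lit 373) (nat_lit 254) (nat_lit 153)) (XT.nd (nat_lit 78) (nat_lit 0) (nat_lit 0) (XT.lf (nat_lit 0) (nat_lit 5892283045) (nat_lit 152) (nat_lit 25057721168) (nat_lit 76) (nat_lit 13049589460) (nat_lit 10)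 (nat_lit 5) (nat_lit 12) (nat_lit 5) (nat_lit 11) (nat_lit 4) (nat_lit 374) (nat_lit 254) (nat_lit 152)) (XT.lf (nat_lit 0) (nat_lit 9418604369) (nat_lit 152) (nat_lit 17954898881) (nat_lit 76) (nat_lit 17808185413) (nat_lit 10) (nat_lit 5) (nat_lit 12) (nat_lit 5) (nat_lit 11) (nat_lit 4) (nat_lit 375) (nat_lit 254) (nat_lit 151)))) (XT.nd (nat_lit 78) (nat_lit 76) (nat_lit 0) (XT.lf (nat_lit 0) (nat_lit 13039176418) (nat_lit 152) (nat_lit 10659127915) (nat_lit 76) (nat_lit 22701297043) (nat_lit 10) (nat_lit 5) (nat_lit 12) (nat_lit 5) (nat_lit 11) (nat_lit 4) (nat_lit 376) (nat_lit 254) (nat_lit 150)) (XT.nd (nat_lit 78) (nat_lit 76) (nat_lit 0) (XT.lf (nat_lit 0) (nat_lit 16757162798) (nat_lit 152) (nat_lit 3164033324) (nat_lit 76) (nat_lit 27733199887) (nat_lit 10) (nat_lit 5) (nat_lit 12) (nat_lit 5) (nat_lit 11) (nat_lit 4) (nat_lit 377) (nat_lit 254) (nat_lit 149)) (XT.lf (nat_lit 0) (nat_lit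 4627227887) (nat_lit 76) (nat_lit 15993064094) (nat_lit 152) (nat_lit 28325542610) (nat_lit 9) (nat_lit 5) (nat_lit 10) (nat_lit 5) (nat_lit 11) (nat_lit 4) (nat_lit 378) (nat_lit 254) (nat_lit 148))))) (XT.nd (nat_lit 234) (nat_lit 0) (nat_lit 0) (XT.nd (nat_lit 78) (nat_lit 0) (nat_lit 0) (XT.lf (nat_lit 0) (nat_lit 12698292495) (nat_lit 76) (nat_lit 11922232675) (nat_lit 152) (nat_lit 25654862823) (nat_lit 9) (nat_lit 5) (nat_lit 10) (nat_lit 5) (nat_lit 11) (nat_lit 4) (nat_lit 379) (nat_lit 254) (nat_lit 147)) (XT.nd (nat_lit 78) (nat_lit 0) (nat_lit 0) (XT.lf (nat_lit 0) (nat_lit 20993242419) (nat_lit 76) (nat_lit 7737095362) (nat_lit 152) (nat_lit 22914810779) (nat_lit 9) (nat_lit 5) (nat_lit 10) (nat_lit 5) (nat_lit 11) (nat_lit 4) (nat_lit 380) (nat_lit 254) (nat_lit 146)) (XT.lf (nat_lit 0) (nat_lit 29519325673) (nat_lit 76) (nat_lit 3433995239) (nat_lit 152) (nat_lit 20102992258) (nat_lit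 9) (nat_lit 5) (nat_lit 10) (nat_lit 5) (nat_lit 11) (nat_lit 4) (nat_lit 381) (nat_lit 254) (nat_lit 145)))) (XT.nd (nat_lit 78) (nat_lit 0) (nat_lit 0) (XT.lf (nat_lit 0) (nat_lit 37302688990) (nat_lit 152) (nat_lit 16235647088) (nat_lit 0) (nat_lit 971493068) (nat_lit 9) (nat_lit 5) (nat_lit 11) (nat_lit 4) (nat_lit 9) (nat_lit 4) (nat_lit 382) (nat_lit 254) (nat_lit 144)) (XT.nd (nat_lit 78) (nat_lit 0) (nat_lit 0) (XT.lf (nat_lit 0) (nat_lit 41806926572) (nat_lit 152) (nat_lit 8766189241) (nat_lit 0) (nat_lit 5433110213) (nat_lit 9) (nat_lit 5) (nat_lit 11) (nat_lit 4) (nat_lit 9) (nat_lit 4) (nat_lit 383) (nat_lit 254) (nat_lit 143)) (XT.lf (nat_lit 0) (nat_lit 46436959736) (nat_lit 152) (nat_lit 1089077581) (nat_lit 0) (nat_lit 10021764314) (nat_lit 9) (nat_lit 5) (nat_lit 11) (nat_lit 4) (nat_lit 9) (nat_lit 4) (nat_lit 384) (nat_lit 254) (nat_lit 142))))))) (XT.nd (nat_lit 936) (nat_lit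 0) (nat_lit 0) (XT.nd (nat_lit 468) (nat_lit 76) (nat_lit 0) (XT.nd (nat_lit 234) (nat_lit 76) (nat_lit 0) (XT.nd (nat_lit 78) (nat_lit 0) (nat_lit 0) (XT.lf (nat_lit 0) (nat_lit 6937777065) (nat_lit 76) (nat_lit 44325747235) (nat_lit 76) (nat_lit 7870377964) (nat_lit 8) (nat_lit 4) (nat_lit 9) (nat_lit 5) (nat_lit 9) (nat_lit 4) (nat_lit 385) (nat_lit 254) (nat_lit 141)) (XT.nd (nat_lit 78) (nat_lit 0) (nat_lit 0) (XT.lf (nat_lit 0) (nat_lit 15211967379) (nat_lit 76) (nat_lit 41024968265) (nat_lit 76) (nat_lit 4530595257) (nat_lit 8) (nat_lit 4) (nat_lit 9) (nat_lit 5) (nat_lit 9) (nat_lit 4) (nat_lit 386) (nat_lit 254) (nat_lit 140)) (XT.lf (nat_lit 0) (nat_lit 23719048455) (nat_lit 76) (nat_lit 37631813778) (nat_lit 76) (nat_lit 1099573065) (nat_lit 8) (nat_lit 4) (nat_lit 9) (nat_lit 5) (nat_lit 9) (nat_lit 4) (nat_lit 387) (nat_lit 254) (nat_lit 139)))) (XT.nd (nat_lit 78) (nat_lit 0) (nat_lit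 0) (XT.lf (nat_lit 0) (nat_lit 2378352709) (nat_lit 152) (nat_lit 31740949475) (nat_lit 76) (nat_lit 30064084256) (nat_lit 7) (nat_lit 5) (nat_lit 9) (nat_lit 5) (nat_lit 8) (nat_lit 4) (nat_lit 388) (nat_lit 254) (nat_lit 138)) (XT.nd (nat_lit 78) (nat_lit 0) (nat_lit 0) (XT.lf (nat_lit 0) (nat_lit 5930240621) (nat_lit 152) (nat_lit 24566310957) (nat_lit 76) (nat_lit 35471701947) (nat_lit 7) (nat_lit 5) (nat_lit 9) (nat_lit 5) (nat_lit 8) (nat_lit 4) (nat_lit 389) (nat_lit 254) (nat_lit 137)) (XT.lf (nat_lit 0) (nat_lit 9580650894) (nat_lit 152) (nat_lit 17190632418) (nat_lit 76) (nat_lit 41035629928) (nat_lit 7) (nat_lit 5) (nat_lit 9) (nat_lit 5) (nat_lit 8) (nat_lit 4) (nat_lit 390) (nat_lit 254) (nat_lit 136))))) (XT.nd (nat_lit 234) (nat_lit 0) (nat_lit 0) (XT.nd (nat_lit 78) (nat_lit 76) (nat_lit 0) (XT.lf (nat_lit 0) (nat_lit 13332773206) (nat_lit 152) (nat_lit 9607469091) (nat_lit 76)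 (nat_lit 46760729882) (nat_lit 7) (nat_lit 5) (nat_lit 9) (nat_lit 5) (nat_lit 8) (nat_lit 4) (nat_lit 391) (nat_lit 254) (nat_lit 135)) (XT.nd (nat_lit 78) (nat_lit 76) (nat_lit 0) (XT.lf (nat_lit 0) (nat_lit 17189886110) (nat_lit 152) (nat_lit 1810194911) (nat_lit 76) (nat_lit 52652004325) (nat_lit 7) (nat_lit 5) (nat_lit 9) (nat_lit 5) (nat_lit 8) (nat_lit 4) (nat_lit 392) (nat_lit 254) (nat_lit 134)) (XT.lf (nat_lit 0) (nat_lit 6331554711) (nat_lit 76) (nat_lit 14884667965) (nat_lit 152) (nat_lit 52443909038) (nat_lit 6) (nat_lit 5) (nat_lit 7) (nat_lit 5) (nat_lit 8) (nat_lit 4) (nat_lit 393) (nat_lit 254) (nat_lit 133)))) (XT.nd (nat_lit 78) (nat_lit 0) (nat_lit 0) (XT.lf (nat_lit 0) (nat_lit 14741797217) (nat_lit 76) (nat_lit 10632569506) (nat_lit 152) (nat_lit 50353727193) (nat_lit 6) (nat_lit 5) (nat_lit 7) (nat_lit 5) (nat_lit 8) (nat_lit 4) (nat_lit 394) (nat_lit 254) (nat_lit 132))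 (XT.nd (nat_lit 78) (nat_lit 0) (nat_lit 0) (XT.lf (nat_lit 0) (nat_lit 23391854936) (nat_lit 76) (nat_lit 6258349637) (nat_lit 152) (nat_lit 48208106748) (nat_lit 6) (nat_lit 5) (nat_lit 7) (nat_lit 5) (nat_lit 8) (nat_lit 4) (nat_lit 395) (nat_lit 254) (nat_lit 131)) (XT.lf (nat_lit 0) (nat_lit 32289286168) (nat_lit 76) (nat_lit 1758186225) (nat_lit 152) (nat_lit 46005172889) (nat_lit 6) (nat_lit 5) (nat_lit 7) (nat_lit 5) (nat_lit 8) (nat_lit 4) (nat_lit 396) (nat_lit 254) (nat_lit 130)))))) (XT.nd (nat_lit 30966) (nat_lit 0) (nat_lit 16264) (XT.nd (nat_lit 30732) (nat_lit 0) (nat_lit 18696) (XT.nd (nat_lit 78) (nat_lit 0) (nat_lit 0) (XT.lf (nat_lit 0) (nat_lit 38597618465) (nat_lit 152) (nat_lit 40898753818) (nat_lit 0) (nat_lit 2815812716) (nat_lit 6) (nat_lit 5) (nat_lit 8) (nat_lit 4) (nat_lit 6) (nat_lit 4) (nat_lit 397) (nat_lit 254) (nat_lit 129)) (XT.nd (nat_lit 78) (nat_lit 0) (nat_lit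 0) (XT.lf (nat_lit 0) (nat_lit 43295176610) (nat_lit 152) (nat_lit 33857200264) (nat_lit 0) (nat_lit 7486811214) (nat_lit 6) (nat_lit 5) (nat_lit 8) (nat_lit 4) (nat_lit 6) (nat_lit 4) (nat_lit 398) (nat_lit 254) (nat_lit 128)) (XT.lf (nat_lit 0) (nat_lit 48127350729) (nat_lit 152) (nat_lit 26615644878) (nat_lit 0) (nat_lit 12293199269) (nat_lit 6) (nat_lit 5) (nat_lit 8) (nat_lit 4) (nat_lit 6) (nat_lit 4) (nat_lit 399) (nat_lit 254) (nat_lit 127)))) (XT.nd (nat_lit 78) (nat_lit 456) (nat_lit 0) (XT.lf (nat_lit 0) (nat_lit 1398495394) (nat_lit 380) (nat_lit 481677899) (nat_lit 0) (nat_lit 1398495394) (nat_lit 258) (nat_lit 5) (nat_lit 263) (nat_lit 4) (nat_lit 258) (nat_lit 4) (nat_lit 270) (nat_lit 255) (nat_lit 255)) (XT.nd (nat_lit 78) (nat_lit 76) (nat_lit 0) (XT.lf (nat_lit 0) (nat_lit 2541602746) (nat_lit 380) (nat_lit 3139179612) (nat_lit 380) (nat_lit 901458295) (nat_lit 253) (nat_lit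 4) (nat_lit 258) (nat_lit 5) (nat_lit 258) (nat_lit 4) (nat_lit 271) (nat_lit 255) (nat_lit 254)) (XT.lf (nat_lit 0) (nat_lit 1912995453) (nat_lit 456) (nat_lit 526885515) (nat_lit 76) (nat_lit 4170481107) (nat_lit 252) (nat_lit 5) (nat_lit 258) (nat_lit 5) (nat_lit 253) (nat_lit 4) (nat_lit 272) (nat_lit 255) (nat_lit 253))))) (XT.nd (nat_lit 234) (nat_lit 1368) (nat_lit 0) (XT.nd (nat_lit 78) (nat_lit 608) (nat_lit 0) (XT.lf (nat_lit 0) (nat_lit 3074407610) (nat_lit 456) (nat_lit 1651671628) (nat_lit 532) (nat_lit 1915350823) (nat_lit 246) (nat_lit 5) (nat_lit 252) (nat_lit 5) (nat_lit 253) (nat_lit 4) (nat_lit 273) (nat_lit 255) (nat_lit 252)) (XT.nd (nat_lit 78) (nat_lit 0) (nat_lit 0) (XT.lf (nat_lit 0) (nat_lit 42410305) (nat_lit 532) (nat_lit 798628401) (nat_lit 608) (nat_lit 5835154378) (nat_lit 238) (nat_lit 5) (nat_lit 245) (nat_lit 5) (nat_lit 246) (nat_lit 5) (nat_lit 274) (nat_lit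 255) (nat_lit 251)) (XT.lf (nat_lit 0) (nat_lit 3584810639) (nat_lit 608) (nat_lit 2970942801) (nat_lit 76) (nat_lit 157692284) (nat_lit 238) (nat_lit 5) (nat_lit 246) (nat_lit 5) (nat_lit 239) (nat_lit 4) (nat_lit 275) (nat_lit 255) (nat_lit 250)))) (XT.nd (nat_lit 78) (nat_lit 760) (nat_lit 0) (XT.lf (nat_lit 0) (nat_lit 737210961) (nat_lit 608) (nat_lit 5597456888) (nat_lit 684) (nat_lit 419737129) (nat_lit 230) (nat_lit 5) (nat_lit 238) (nat_lit 5) (nat_lit 239) (nat_lit 4) (nat_lit 276) (nat_lit 255) (nat_lit 249)) (XT.nd (nat_lit 78) (nat_lit 684) (nat_lit 0) (XT.lf (nat_lit 0) (nat_lit 2264057719) (nat_lit 684) (nat_lit 2273702781) (nat_lit 76) (nat_lit 2260237213) (nat_lit 229) (nat_lit 5) (nat_lit 238) (nat_lit 5) (nat_lit 230) (nat_lit 5) (nat_lit 277) (nat_lit 255) (nat_lit 248)) (XT.lf (nat_lit 0) (nat_lit 1537614090) (nat_lit 684) (nat_lit 3409317677) (nat_lit 760) (nat_lit 1898308294)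 (nat_lit 220) (nat_lit 5) (nat_lit 229) (nat_lit 5) (nat_lit 230) (nat_lit 5) (nat_lit 278) (nat_lit 255) (nat_lit 247))))))))
noncomputable def xc95 : XT := (XT.nd (nat_lit 1794) (nat_lit 3952) (nat_lit 0) (XT.nd (nat_lit 858) (nat_lit 3648) (nat_lit 0) (XT.nd (nat_lit 390) (nat_lit 3040) (nat_lit 0) (XT.nd (nat_lit 156) (nat_lit 1824) (nat_lit 0) (XT.nd (nat_lit 78) (nat_lit 760) (nat_lit 0) (XT.lf (nat_lit 0) (nat_lit 736643625) (nat_lit 760) (nat_lit 1463037166) (nat_lit 76) (nat_lit 4696158675) (nat_lit 219) (nat_lit 5) (nat_lit 229) (nat_lit 5) (nat_lit 220) (nat_lit 5) (nat_lit 279) (nat_lit 255) (nat_lit 246)) (XT.lf (nat_lit 0) (nat_lit 2456484920) (nat_lit 760) (nat_lit 895147190) (nat_lit 836) (nat_lit 3597839711) (nat_lit 209) (nat_lit 5) (nat_lit 219) (nat_lit 5) (nat_lit 220) (nat_lit 5) (nat_lit 280) (nat_lit 255) (nat_lit 245))) (XT.nd (nat_lit 78) (nat_lit 1824) (nat_lit 0) (XT.lf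 (nat_lit 0) (nat_lit 5981761827) (nat_lit 836) (nat_lit 556865149) (nat_lit 76) (nat_lit 468231139) (nat_lit 209) (nat_lit 5) (nat_lit 220) (nat_lit 5) (nat_lit 210) (nat_lit 5) (nat_lit 281) (nat_lit 255) (nat_lit 244)) (XT.nd (nat_lit 78) (nat_lit 912) (nat_lit 0) (XT.lf (nat_lit 0) (nat_lit 1554760480) (nat_lit 912) (nat_lit 3595692821) (nat_lit 76) (nat_lit 1916426621) (nat_lit 197) (nat_lit 5) (nat_lit 209) (nat_lit 5) (nat_lit 198) (nat_lit 5) (nat_lit 282) (nat_lit 255) (nat_lit 243)) (XT.lf (nat_lit 0) (nat_lit 430400154) (nat_lit 912) (nat_lit 3691356972) (nat_lit 988) (nat_lit 3008955209) (nat_lit 185) (nat_lit 5) (nat_lit 197) (nat_lit 5) (nat_lit 198) (nat_lit 5) (nat_lit 283) (nat_lit 255) (nat_lit 242))))) (XT.nd (nat_lit 234) (nat_lit 1976) (nat_lit 0) (XT.nd (nat_lit 78) (nat_lit 1064) (nat_lit 0) (XT.lf (nat_lit 0) (nat_lit 4580922000) (nat_lit 912) (nat_lit 2143323663) (nat_lit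 988) (nat_lit 473677912) (nat_lit 185) (nat_lit 5) (nat_lit 197) (nat_lit 5) (nat_lit 198) (nat_lit 5) (nat_lit 284) (nat_lit 255) (nat_lit 241)) (XT.nd (nat_lit 78) (nat_lit 0) (nat_lit 0) (XT.lf (nat_lit 0) (nat_lit 1528333091) (nat_lit 988) (nat_lit 505785900) (nat_lit 1064) (nat_lit 5234476247) (nat_lit 171) (nat_lit 5) (nat_lit 184) (nat_lit 5) (nat_lit 185) (nat_lit 5) (nat_lit 285) (nat_lit 255) (nat_lit 240)) (XT.lf (nat_lit 0) (nat_lit 4570773626) (nat_lit 1064) (nat_lit 1576794504) (nat_lit 76) (nat_lit 1194983685) (nat_lit 171) (nat_lit 5) (nat_lit 185) (nat_lit 5) (nat_lit 172) (nat_lit 5) (nat_lit 286) (nat_lit 255) (nat_lit 239)))) (XT.nd (nat_lit 78) (nat_lit 912) (nat_lit 0) (XT.lf (nat_lit 0) (nat_lit 2689565940) (nat_lit 1064) (nat_lit 4452109634) (nat_lit 1140) (nat_lit 278501055) (nat_lit 157) (nat_lit 5) (nat_lit 171) (nat_lit 5) (nat_lit 172) (nat_lit 5) (nat_lit 287) (nat_lit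 255) (nat_lit 238)) (XT.nd (nat_lit 78) (nat_lit 836) (nat_lit 0) (XT.lf (nat_lit 0) (nat_lit 2188829189) (nat_lit 1140) (nat_lit 476003046) (nat_lit 76) (nat_lit 4836502543) (nat_lit 156) (nat_lit 5) (nat_lit 171) (nat_lit 5) (nat_lit 157) (nat_lit 5) (nat_lit 288) (nat_lit 255) (nat_lit 237)) (XT.lf (nat_lit 0) (nat_lit 3911438797) (nat_lit 836) (nat_lit 780695934) (nat_lit 912) (nat_lit 2893861139) (nat_lit 145) (nat_lit 5) (nat_lit 156) (nat_lit 5) (nat_lit 157) (nat_lit 5) (nat_lit 289) (nat_lit 255) (nat_lit 236)))))) (XT.nd (nat_lit 468) (nat_lit 1976) (nat_lit 0) (XT.nd (nat_lit 234) (nat_lit 532) (nat_lit 0) (XT.nd (nat_lit 78) (nat_lit 608) (nat_lit 0) (XT.lf (nat_lit 0) (nat_lit 699721358) (nat_lit 532) (nat_lit 6524901203) (nat_lit 608) (nat_lit 450124078) (nat_lit 138) (nat_lit 5) (nat_lit 145) (nat_lit 5) (nat_lit 146) (nat_lit 5) (nat_lit 290) (nat_lit 255) (nat_lit 235)) (XT.nd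 (nat_lit 78) (nat_lit 532) (nat_lit 0) (XT.lf (nat_lit 0) (nat_lit 2003650371) (nat_lit 608) (nat_lit 2583236066) (nat_lit 76) (nat_lit 3179528130) (nat_lit 137) (nat_lit 5) (nat_lit 145) (nat_lit 5) (nat_lit 138) (nat_lit 5) (nat_lit 291) (nat_lit 255) (nat_lit 234)) (XT.lf (nat_lit 0) (nat_lit 1904294577) (nat_lit 532) (nat_lit 2569842025) (nat_lit 608) (nat_lit 3388155580) (nat_lit 130) (nat_lit 5) (nat_lit 137) (nat_lit 5) (nat_lit 138) (nat_lit 5) (nat_lit 292) (nat_lit 255) (nat_lit 233)))) (XT.nd (nat_lit 78) (nat_lit 532) (nat_lit 0) (XT.lf (nat_lit 0) (nat_lit 6511363407) (nat_lit 532) (nat_lit 468572906) (nat_lit 608) (nat_lit 982426965) (nat_lit 130) (nat_lit 5) (nat_lit 137) (nat_lit 5) (nat_lit 138) (nat_lit 5) (nat_lit 293) (nat_lit 255) (nat_lit 232)) (XT.nd (nat_lit 78) (nat_lit 0) (nat_lit 0) (XT.lf (nat_lit 0) (nat_lit 1449717989) (nat_lit 532) (nat_lit 4911615425) (nat_lit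 76) (nat_lit 1704313366) (nat_lit 123) (nat_lit 5) (nat_lit 130) (nat_lit 5) (nat_lit 124) (nat_lit 5) (nat_lit 294) (nat_lit 255) (nat_lit 231)) (XT.lf (nat_lit 0) (nat_lit 3891925915) (nat_lit 532) (nat_lit 327930397) (nat_lit 76) (nat_lit 3953315459) (nat_lit 123) (nat_lit 5) (nat_lit 130) (nat_lit 5) (nat_lit 124) (nat_lit 5) (nat_lit 295) (nat_lit 255) (nat_lit 230))))) (XT.nd (nat_lit 234) (nat_lit 912) (nat_lit 0) (XT.nd (nat_lit 78) (nat_lit 532) (nat_lit 0) (XT.lf (nat_lit 0) (nat_lit 4412586793) (nat_lit 532) (nat_lit 1976460615) (nat_lit 608) (nat_lit 1895561730) (nat_lit 116) (nat_lit 5) (nat_lit 123) (nat_lit 5) (nat_lit 124) (nat_lit 5) (nat_lit 296) (nat_lit 255) (nat_lit 229)) (XT.nd (nat_lit 78) (nat_lit 0) (nat_lit 0) (XT.lf (nat_lit 0) (nat_lit 505169323) (nat_lit 532) (nat_lit 7557757171) (nat_lit 76) (nat_lit 337796277) (nat_lit 109) (nat_lit 5) (nat_lit 116) (nat_lit 5)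 (nat_lit 110) (nat_lit 5) (nat_lit 297) (nat_lit 255) (nat_lit 228)) (XT.lf (nat_lit 0) (nat_lit 2939567628) (nat_lit 532) (nat_lit 2847721133) (nat_lit 76) (nat_lit 2732600188) (nat_lit 109) (nat_lit 5) (nat_lit 116) (nat_lit 5) (nat_lit 110) (nat_lit 5) (nat_lit 298) (nat_lit 255) (nat_lit 227)))) (XT.nd (nat_lit 78) (nat_lit 456) (nat_lit 0) (XT.lf (nat_lit 0) (nat_lit 1975538497) (nat_lit 456) (nat_lit 3432865349) (nat_lit 532) (nat_lit 3235504964) (nat_lit 103) (nat_lit 5) (nat_lit 109) (nat_lit 5) (nat_lit 110) (nat_lit 5) (nat_lit 299) (nat_lit 255) (nat_lit 226)) (XT.nd (nat_lit 78) (nat_lit 456) (nat_lit 0) (XT.lf (nat_lit 0) (nat_lit 6935897257) (nat_lit 456) (nat_lit 987623194) (nat_lit 532) (nat_lit 849079710) (nat_lit 103) (nat_lit 5) (nat_lit 109) (nat_lit 5) (nat_lit 110) (nat_lit 5) (nat_lit 300) (nat_lit 255) (nat_lit 225)) (XT.lf (nat_lit 0) (nat_lit 1567057920) (nat_lit 456)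 (nat_lit 5800575581) (nat_lit 76) (nat_lit 1537479913) (nat_lit 97) (nat_lit 5) (nat_lit 103) (nat_lit 5) (nat_lit 98) (nat_lit 5) (nat_lit 301) (nat_lit 255) (nat_lit 224))))))) (XT.nd (nat_lit 936) (nat_lit 1672) (nat_lit 0) (XT.nd (nat_lit 468) (nat_lit 1064) (nat_lit 0) (XT.nd (nat_lit 234) (nat_lit 456) (nat_lit 0) (XT.nd (nat_lit 78) (nat_lit 760) (nat_lit 0) (XT.lf (nat_lit 0) (nat_lit 4012473545) (nat_lit 456) (nat_lit 894024029) (nat_lit 76) (nat_lit 4135743899) (nat_lit 97) (nat_lit 5) (nat_lit 103) (nat_lit 5) (nat_lit 98) (nat_lit 5) (nat_lit 302) (nat_lit 255) (nat_lit 223)) (XT.nd (nat_lit 78) (nat_lit 380) (nat_lit 0) (XT.lf (nat_lit 0) (nat_lit 4176884530) (nat_lit 380) (nat_lit 2341459962) (nat_lit 456) (nat_lit 2665630364) (nat_lit 92) (nat_lit 5) (nat_lit 97) (nat_lit 5) (nat_lit 98) (nat_lit 5) (nat_lit 303) (nat_lit 255) (nat_lit 222)) (XT.lf (nat_lit 0) (nat_lit 20715199)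 (nat_lit 380) (nat_lit 9038645224) (nat_lit 456) (nat_lit 271901983) (nat_lit 87) (nat_lit 5) (nat_lit 92) (nat_lit 5) (nat_lit 93) (nat_lit 5) (nat_lit 304) (nat_lit 255) (nat_lit 221)))) (XT.nd (nat_lit 78) (nat_lit 380) (nat_lit 0) (XT.lf (nat_lit 0) (nat_lit 2173136788) (nat_lit 456) (nat_lit 4289983965) (nat_lit 76) (nat_lit 3018641523) (nat_lit 86) (nat_lit 5) (nat_lit 92) (nat_lit 5) (nat_lit 87) (nat_lit 5) (nat_lit 305) (nat_lit 255) (nat_lit 220)) (XT.nd (nat_lit 78) (nat_lit 0) (nat_lit 0) (XT.lf (nat_lit 0) (nat_lit 830875118) (nat_lit 380) (nat_lit 3812745509) (nat_lit 456) (nat_lit 4994441626) (nat_lit 81) (nat_lit 5) (nat_lit 86) (nat_lit 5) (nat_lit 87) (nat_lit 5) (nat_lit 306) (nat_lit 255) (nat_lit 219)) (XT.lf (nat_lit 0) (nat_lit 6130084020) (nat_lit 380) (nat_lit 1051888474) (nat_lit 456) (nat_lit 2617356073) (nat_lit 81) (nat_lit 5) (nat_lit 86) (nat_lit 5) (nat_lit 87)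 (nat_lit 5) (nat_lit 307) (nat_lit 255) (nat_lit 218))))) (XT.nd (nat_lit 234) (nat_lit 380) (nat_lit 0) (XT.nd (nat_lit 78) (nat_lit 380) (nat_lit 0) (XT.lf (nat_lit 0) (nat_lit 1573539114) (nat_lit 304) (nat_lit 8207034843) (nat_lit 380) (nat_lit 185423264) (nat_lit 77) (nat_lit 5) (nat_lit 81) (nat_lit 5) (nat_lit 82) (nat_lit 5) (nat_lit 308) (nat_lit 255) (nat_lit 217)) (XT.nd (nat_lit 78) (nat_lit 304) (nat_lit 0) (XT.lf (nat_lit 0) (nat_lit 2274044476) (nat_lit 380) (nat_lit 3184010737) (nat_lit 76) (nat_lit 4679029005) (nat_lit 76) (nat_lit 5) (nat_lit 81) (nat_lit 5) (nat_lit 77) (nat_lit 5) (nat_lit 309) (nat_lit 255) (nat_lit 216)) (XT.lf (nat_lit 0) (nat_lit 2159636430) (nat_lit 304) (nat_lit 2618095019) (nat_lit 380) (nat_lit 5536372351) (nat_lit 72) (nat_lit 5) (nat_lit 76) (nat_lit 5) (nat_lit 77) (nat_lit 5) (nat_lit 310) (nat_lit 255) (nat_lit 215)))) (XT.nd (nat_lit 78) (nat_lit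 380) (nat_lit 0) (XT.lf (nat_lit 0) (nat_lit 7345983217) (nat_lit 380) (nat_lit 2831944553) (nat_lit 76) (nat_lit 318900160) (nat_lit 72) (nat_lit 5) (nat_lit 77) (nat_lit 5) (nat_lit 73) (nat_lit 5) (nat_lit 311) (nat_lit 255) (nat_lit 214)) (XT.nd (nat_lit 78) (nat_lit 76) (nat_lit 0) (XT.lf (nat_lit 0) (nat_lit 2615102841) (nat_lit 304) (nat_lit 7382610166) (nat_lit 380) (nat_lit 687203188) (nat_lit 68) (nat_lit 5) (nat_lit 72) (nat_lit 5) (nat_lit 73) (nat_lit 5) (nat_lit 312) (nat_lit 255) (nat_lit 213)) (XT.lf (nat_lit 0) (nat_lit 1798711555) (nat_lit 380) (nat_lit 2672868770) (nat_lit 76) (nat_lit 6407070057) (nat_lit 67) (nat_lit 5) (nat_lit 72) (nat_lit 5) (nat_lit 68) (nat_lit 5) (nat_lit 313) (nat_lit 255) (nat_lit 212)))))) (XT.nd (nat_lit 468) (nat_lit 760) (nat_lit 0) (XT.nd (nat_lit 234) (nat_lit 380) (nat_lit 0) (XT.nd (nat_lit 78) (nat_lit 228) (nat_lit 0) (XT.lf (nat_lit 0)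 (nat_lit 2876452332) (nat_lit 304) (nat_lit 1453473690) (nat_lit 380) (nat_lit 6748599353) (nat_lit 63) (nat_lit 5) (nat_lit 67) (nat_lit 5) (nat_lit 68) (nat_lit 5) (nat_lit 314) (nat_lit 255) (nat_lit 211)) (XT.nd (nat_lit 78) (nat_lit 228) (nat_lit 0) (XT.lf (nat_lit 0) (nat_lit 6937672736) (nat_lit 380) (nat_lit 2712188250) (nat_lit 76) (nat_lit 1634584685) (nat_lit 63) (nat_lit 5) (nat_lit 68) (nat_lit 5) (nat_lit 64) (nat_lit 5) (nat_lit 315) (nat_lit 255) (nat_lit 210)) (XT.lf (nat_lit 0) (nat_lit 2927390453) (nat_lit 228) (nat_lit 6697459353) (nat_lit 304) (nat_lit 1871722808) (nat_lit 60) (nat_lit 5) (nat_lit 63) (nat_lit 5) (nat_lit 64) (nat_lit 5) (nat_lit 316) (nat_lit 255) (nat_lit 209)))) (XT.nd (nat_lit 78) (nat_lit 304) (nat_lit 0) (XT.lf (nat_lit 0) (nat_lit 650872734) (nat_lit 304) (nat_lit 2987322255) (nat_lit 76) (nat_lit 8077138745) (nat_lit 59) (nat_lit 5) (nat_lit 63) (nat_lit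 5) (nat_lit 60) (nat_lit 5) (nat_lit 317) (nat_lit 255) (nat_lit 208)) (XT.nd (nat_lit 78) (nat_lit 0) (nat_lit 0) (XT.lf (nat_lit 0) (nat_lit 2740581145) (nat_lit 304) (nat_lit 457344672) (nat_lit 380) (nat_lit 8742643393) (nat_lit 55) (nat_lit 5) (nat_lit 59) (nat_lit 5) (nat_lit 60) (nat_lit 5) (nat_lit 318) (nat_lit 255) (nat_lit 207)) (XT.lf (nat_lit 0) (nat_lit 5839476353) (nat_lit 380) (nat_lit 3554379133) (nat_lit 76) (nat_lit 2778221418) (nat_lit 55) (nat_lit 5) (nat_lit 60) (nat_lit 5) (nat_lit 56) (nat_lit 5) (nat_lit 319) (nat_lit 255) (nat_lit 206))))) (XT.nd (nat_lit 234) (nat_lit 228) (nat_lit 0) (XT.nd (nat_lit 78) (nat_lit 304) (nat_lit 0) (XT.lf (nat_lit 0) (nat_lit 2244642588) (nat_lit 228) (nat_lit 6303409449) (nat_lit 304) (nat_lit 3862900483) (nat_lit 52) (nat_lit 5) (nat_lit 55) (nat_lit 5) (nat_lit 56) (nat_lit 5) (nat_lit 320) (nat_lit 255) (nat_lit 205)) (XT.nd (nat_lit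 78) (nat_lit 304) (nat_lit 0) (XT.lf (nat_lit 0) (nat_lit 8235809328) (nat_lit 228) (nat_lit 3100232133) (nat_lit 304) (nat_lit 1321062666) (nat_lit 52) (nat_lit 5) (nat_lit 55) (nat_lit 5) (nat_lit 56) (nat_lit 5) (nat_lit 321) (nat_lit 255) (nat_lit 204)) (XT.lf (nat_lit 0) (nat_lit 1250699915) (nat_lit 304) (nat_lit 11454847909) (nat_lit 76) (nat_lit 205400335) (nat_lit 48) (nat_lit 5) (nat_lit 52) (nat_lit 5) (nat_lit 49) (nat_lit 5) (nat_lit 322) (nat_lit 255) (nat_lit 203)))) (XT.nd (nat_lit 78) (nat_lit 228) (nat_lit 0) (XT.lf (nat_lit 0) (nat_lit 3912200038) (nat_lit 304) (nat_lit 5669172705) (nat_lit 76) (nat_lit 3589518073) (nat_lit 48) (nat_lit 5) (nat_lit 52) (nat_lit 5) (nat_lit 49) (nat_lit 5) (nat_lit 323) (nat_lit 255) (nat_lit 202)) (XT.nd (nat_lit 78) (nat_lit 0) (nat_lit 0) (XT.lf (nat_lit 0) (nat_lit 242041778) (nat_lit 228) (nat_lit 6378250325) (nat_lit 304) (nat_lit 6819385587)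 (nat_lit 45) (nat_lit 5) (nat_lit 48) (nat_lit 5) (nat_lit 49) (nat_lit 5) (nat_lit 324) (nat_lit 255) (nat_lit 201)) (XT.lf (nat_lit 0) (nat_lit 6394568292) (nat_lit 228) (nat_lit 3037260623) (nat_lit 304) (nat_lit 4284080138) (nat_lit 45) (nat_lit 5) (nat_lit 48) (nat_lit 5) (nat_lit 49) (nat_lit 5) (nat_lit 325) (nat_lit 255) (nat_lit 200))))))))
noncomputable def xc96 : XT := (XT.nd (nat_lit 1794) (nat_lit 684) (nat_lit 0) (XT.nd (nat_lit 858) (nat_lit 912) (nat_lit 0) (XT.nd (nat_lit 390) (nat_lit 456) (nat_lit 0) (XT.nd (nat_lit 156) (nat_lit 152) (nat_lit 0) (XT.nd (nat_lit 78) (nat_lit 304) (nat_lit 0) (XT.lf (nat_lit 0) (nat_lit 12297409689) (nat_lit 304) (nat_lit 1324261156) (nat_lit 76) (nat_lit 379711149) (nat_lit 45) (nat_lit 5) (nat_lit 49) (nat_lit 5) (nat_lit 46) (nat_lit 5) (nat_lit 326) (nat_lit 255) (nat_lit 199)) (XT.lf (nat_lit 0) (nat_lit 978992752) (nat_lit 304) (nat_lit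 9436227070) (nat_lit 76) (nat_lit 3878645450) (nat_lit 41) (nat_lit 5) (nat_lit 45) (nat_lit 5) (nat_lit 42) (nat_lit 5) (nat_lit 327) (nat_lit 255) (nat_lit 198))) (XT.nd (nat_lit 78) (nat_lit 152) (nat_lit 0) (XT.lf (nat_lit 0) (nat_lit 3688637659) (nat_lit 304) (nat_lit 3409910887) (nat_lit 76) (nat_lit 7496696905) (nat_lit 41) (nat_lit 5) (nat_lit 45) (nat_lit 5) (nat_lit 42) (nat_lit 5) (nat_lit 328) (nat_lit 255) (nat_lit 197)) (XT.nd (nat_lit 78) (nat_lit 0) (nat_lit 0) (XT.lf (nat_lit 0) (nat_lit 2803031638) (nat_lit 152) (nat_lit 3671382024) (nat_lit 228) (nat_lit 8431448613) (nat_lit 39) (nat_lit 5) (nat_lit 41) (nat_lit 5) (nat_lit 42) (nat_lit 5) (nat_lit 329) (nat_lit 255) (nat_lit 196)) (XT.lf (nat_lit 0) (nat_lit 9223880907) (nat_lit 152) (nat_lit 122682703) (nat_lit 228) (nat_lit 5879189284) (nat_lit 39) (nat_lit 5) (nat_lit 41) (nat_lit 5) (nat_lit 42) (nat_lit 5) (nat_lit 330)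 (nat_lit 255) (nat_lit 195))))) (XT.nd (nat_lit 234) (nat_lit 152) (nat_lit 0) (XT.nd (nat_lit 78) (nat_lit 76) (nat_lit 0) (XT.lf (nat_lit 0) (nat_lit 204371716) (nat_lit 228) (nat_lit 12105559509) (nat_lit 304) (nat_lit 3245195580) (nat_lit 36) (nat_lit 5) (nat_lit 39) (nat_lit 5) (nat_lit 40) (nat_lit 5) (nat_lit 331) (nat_lit 255) (nat_lit 194)) (XT.nd (nat_lit 78) (nat_lit 76) (nat_lit 0) (XT.lf (nat_lit 0) (nat_lit 6671289359) (nat_lit 228) (nat_lit 8722297021) (nat_lit 304) (nat_lit 499891013) (nat_lit 36) (nat_lit 5) (nat_lit 39) (nat_lit 5) (nat_lit 40) (nat_lit 5) (nat_lit 332) (nat_lit 255) (nat_lit 193)) (XT.lf (nat_lit 0) (nat_lit 2252484459) (nat_lit 304) (nat_lit 2978698378) (nat_lit 76) (nat_lit 11011055259) (nat_lit 35) (nat_lit 5) (nat_lit 39) (nat_lit 5) (nat_lit 36) (nat_lit 5) (nat_lit 333) (nat_lit 255) (nat_lit 192)))) (XT.nd (nat_lit 78) (nat_lit 0) (nat_lit 0) (XT.lf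 (nat_lit 0) (nat_lit 3469649545) (nat_lit 152) (nat_lit 1612091583) (nat_lit 228) (nat_lit 11519475205) (nat_lit 33) (nat_lit 5) (nat_lit 35) (nat_lit 5) (nat_lit 36) (nat_lit 5) (nat_lit 334) (nat_lit 255) (nat_lit 191)) (XT.nd (nat_lit 78) (nat_lit 0) (nat_lit 0) (XT.lf (nat_lit 0) (nat_lit 8017852101) (nat_lit 228) (nat_lit 6863681270) (nat_lit 76) (nat_lit 2088804170) (nat_lit 33) (nat_lit 5) (nat_lit 36) (nat_lit 5) (nat_lit 34) (nat_lit 5) (nat_lit 335) (nat_lit 255) (nat_lit 190)) (XT.lf (nat_lit 0) (nat_lit 11030108290) (nat_lit 228) (nat_lit 467889458) (nat_lit 76) (nat_lit 5852924745) (nat_lit 33) (nat_lit 5) (nat_lit 36) (nat_lit 5) (nat_lit 34) (nat_lit 5) (nat_lit 336) (nat_lit 255) (nat_lit 189)))))) (XT.nd (nat_lit 468) (nat_lit 380) (nat_lit 0) (XT.nd (nat_lit 234) (nat_lit 152) (nat_lit 0) (XT.nd (nat_lit 78) (nat_lit 228) (nat_lit 0) (XT.lf (nat_lit 0) (nat_lit 6197835712) (nat_lit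 152) (nat_lit 7967387030) (nat_lit 228) (nat_lit 3576758567) (nat_lit 31) (nat_lit 5) (nat_lit 33) (nat_lit 5) (nat_lit 34) (nat_lit 5) (nat_lit 337) (nat_lit 255) (nat_lit 188)) (XT.nd (nat_lit 78) (nat_lit 228) (nat_lit 0) (XT.lf (nat_lit 0) (nat_lit 13030661835) (nat_lit 152) (nat_lit 4341747513) (nat_lit 228) (nat_lit 773052109) (nat_lit 31) (nat_lit 5) (nat_lit 33) (nat_lit 5) (nat_lit 34) (nat_lit 5) (nat_lit 338) (nat_lit 255) (nat_lit 187)) (XT.lf (nat_lit 0) (nat_lit 1474087650) (nat_lit 152) (nat_lit 587367435) (nat_lit 228) (nat_lit 16499370784) (nat_lit 28) (nat_lit 5) (nat_lit 30) (nat_lit 5) (nat_lit 31) (nat_lit 5) (nat_lit 339) (nat_lit 255) (nat_lit 186)))) (XT.nd (nat_lit 78) (nat_lit 152) (nat_lit 0) (XT.lf (nat_lit 0) (nat_lit 5023149791) (nat_lit 228) (nat_lit 10703322810) (nat_lit 76) (nat_lit 3260245871) (nat_lit 28) (nat_lit 5) (nat_lit 31) (nat_lit 5) (nat_lit 29) (nat_lit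 5) (nat_lit 340) (nat_lit 255) (nat_lit 185)) (XT.nd (nat_lit 78) (nat_lit 152) (nat_lit 0) (XT.lf (nat_lit 0) (nat_lit 8054271150) (nat_lit 228) (nat_lit 4175016274) (nat_lit 76) (nat_lit 7196709921) (nat_lit 28) (nat_lit 5) (nat_lit 31) (nat_lit 5) (nat_lit 29) (nat_lit 5) (nat_lit 341) (nat_lit 255) (nat_lit 184)) (XT.lf (nat_lit 0) (nat_lit 2559476473) (nat_lit 152) (nat_lit 8616948363) (nat_lit 228) (nat_lit 8702052780) (nat_lit 26) (nat_lit 5) (nat_lit 28) (nat_lit 5) (nat_lit 29) (nat_lit 5) (nat_lit 342) (nat_lit 255) (nat_lit 183))))) (XT.nd (nat_lit 234) (nat_lit 228) (nat_lit 0) (XT.nd (nat_lit 78) (nat_lit 152) (nat_lit 0) (XT.lf (nat_lit 0) (nat_lit 9542368463) (nat_lit 152) (nat_lit 4867866304) (nat_lit 228) (nat_lit 5933783010) (nat_lit 26) (nat_lit 5) (nat_lit 28) (nat_lit 5) (nat_lit 29) (nat_lit 5) (nat_lit 343) (nat_lit 255) (nat_lit 182)) (XT.nd (nat_lit 78) (nat_lit 152)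 (nat_lit 0) (XT.lf (nat_lit 0) (nat_lit 16696670243) (nat_lit 152) (nat_lit 1020924828) (nat_lit 228) (nat_lit 3106657489) (nat_lit 26) (nat_lit 5) (nat_lit 28) (nat_lit 5) (nat_lit 29) (nat_lit 5) (nat_lit 344) (nat_lit 255) (nat_lit 181)) (XT.lf (nat_lit 0) (nat_lit 2734248190) (nat_lit 152) (nat_lit 18421569148) (nat_lit 228) (nat_lit 162151597) (nat_lit 24) (nat_lit 5) (nat_lit 26) (nat_lit 5) (nat_lit 27) (nat_lit 4) (nat_lit 345) (nat_lit 255) (nat_lit 180)))) (XT.nd (nat_lit 78) (nat_lit 152) (nat_lit 0) (XT.lf (nat_lit 0) (nat_lit 2844020128) (nat_lit 228) (nat_lit 12014465020) (nat_lit 76) (nat_lit 6966325784) (nat_lit 23) (nat_lit 5) (nat_lit 26) (nat_lit 5) (nat_lit 24) (nat_lit 5) (nat_lit 346) (nat_lit 255) (nat_lit 179)) (XT.nd (nat_lit 78) (nat_lit 152) (nat_lit 0) (XT.lf (nat_lit 0) (nat_lit 5914930363) (nat_lit 228) (nat_lit 5286288510) (nat_lit 76) (nat_lit 11146278544) (nat_lit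 23) (nat_lit 5) (nat_lit 26) (nat_lit 5) (nat_lit 24) (nat_lit 5) (nat_lit 347) (nat_lit 255) (nat_lit 178)) (XT.lf (nat_lit 0) (nat_lit 1640253731) (nat_lit 152) (nat_lit 7431939979) (nat_lit 228) (nat_lit 13813865145) (nat_lit 21) (nat_lit 5) (nat_lit 23) (nat_lit 5) (nat_lit 24) (nat_lit 5) (nat_lit 348) (nat_lit 255) (nat_lit 177))))))) (XT.nd (nat_lit 858) (nat_lit 304) (nat_lit 0) (XT.nd (nat_lit 390) (nat_lit 228) (nat_lit 0) (XT.nd (nat_lit 156) (nat_lit 152) (nat_lit 0) (XT.nd (nat_lit 78) (nat_lit 0) (nat_lit 0) (XT.lf (nat_lit 0) (nat_lit 8847817059) (nat_lit 152) (nat_lit 3508487369) (nat_lit 228) (nat_lit 11083529339) (nat_lit 21) (nat_lit 5) (nat_lit 23) (nat_lit 5) (nat_lit 24) (nat_lit 5) (nat_lit 349) (nat_lit 255) (nat_lit 176)) (XT.lf (nat_lit 0) (nat_lit 15723296508) (nat_lit 228) (nat_lit 7778359722) (nat_lit 76) (nat_lit 509054876) (nat_lit 21) (nat_lit 5) (nat_lit 24) (nat_lit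 5) (nat_lit 22) (nat_lit 4) (nat_lit 350) (nat_lit 255) (nat_lit 175))) (XT.nd (nat_lit 78) (nat_lit 152) (nat_lit 0) (XT.lf (nat_lit 0) (nat_lit 19205878274) (nat_lit 228) (nat_lit 828646781) (nat_lit 76) (nat_lit 4563771650) (nat_lit 21) (nat_lit 5) (nat_lit 24) (nat_lit 5) (nat_lit 22) (nat_lit 4) (nat_lit 351) (nat_lit 255) (nat_lit 174)) (XT.nd (nat_lit 78) (nat_lit 76) (nat_lit 0) (XT.lf (nat_lit 0) (nat_lit 6422241469) (nat_lit 76) (nat_lit 16412860079) (nat_lit 152) (nat_lit 2367162179) (nat_lit 20) (nat_lit 5) (nat_lit 21) (nat_lit 5) (nat_lit 22) (nat_lit 4) (nat_lit 352) (nat_lit 255) (nat_lit 173)) (XT.lf (nat_lit 0) (nat_lit 723169350) (nat_lit 152) (nat_lit 11956460542) (nat_lit 76) (nat_lit 13144853701) (nat_lit 19) (nat_lit 5) (nat_lit 21) (nat_lit 5) (nat_lit 20) (nat_lit 5) (nat_lit 353) (nat_lit 255) (nat_lit 172))))) (XT.nd (nat_lit 234) (nat_lit 76) (nat_lit 0) (XT.nd (nat_lit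 78) (nat_lit 152) (nat_lit 0) (XT.lf (nat_lit 0) (nat_lit 3839681589) (nat_lit 152) (nat_lit 4983399472) (nat_lit 76) (nat_lit 17642171607) (nat_lit 19) (nat_lit 5) (nat_lit 21) (nat_lit 5) (nat_lit 20) (nat_lit 5) (nat_lit 354) (nat_lit 255) (nat_lit 171)) (XT.nd (nat_lit 78) (nat_lit 0) (nat_lit 0) (XT.lf (nat_lit 0) (nat_lit 2211156147) (nat_lit 152) (nat_lit 4841388399) (nat_lit 228) (nat_lit 20072631289) (nat_lit 17) (nat_lit 5) (nat_lit 19) (nat_lit 5) (nat_lit 20) (nat_lit 5) (nat_lit 355) (nat_lit 255) (nat_lit 170)) (XT.lf (nat_lit 0) (nat_lit 9693160738) (nat_lit 152) (nat_lit 700797905) (nat_lit 228) (nat_lit 17409989295) (nat_lit 17) (nat_lit 5) (nat_lit 19) (nat_lit 5) (nat_lit 20) (nat_lit 5) (nat_lit 356) (nat_lit 255) (nat_lit 169)))) (XT.nd (nat_lit 78) (nat_lit 76) (nat_lit 0) (XT.lf (nat_lit 0) (nat_lit 13852130563) (nat_lit 228) (nat_lit 11167799090) (nat_lit 76) (nat_lit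 3482673813) (nat_lit 17) (nat_lit 5) (nat_lit 20) (nat_lit 5) (nat_lit 18) (nat_lit 4) (nat_lit 357) (nat_lit 255) (nat_lit 168)) (XT.nd (nat_lit 78) (nat_lit 76) (nat_lit 0) (XT.lf (nat_lit 0) (nat_lit 17403759002) (nat_lit 228) (nat_lit 4052665663) (nat_lit 76) (nat_lit 7766117918) (nat_lit 17) (nat_lit 5) (nat_lit 20) (nat_lit 5) (nat_lit 18) (nat_lit 4) (nat_lit 358) (nat_lit 255) (nat_lit 167)) (XT.lf (nat_lit 0) (nat_lit 3312199629) (nat_lit 76) (nat_lit 17764850089) (nat_lit 152) (nat_lit 8886591577) (nat_lit 16) (nat_lit 5) (nat_lit 17) (nat_lit 5) (nat_lit 18) (nat_lit 4) (nat_lit 359) (nat_lit 255) (nat_lit 166)))))) (XT.nd (nat_lit 468) (nat_lit 76) (nat_lit 0) (XT.nd (nat_lit 234) (nat_lit 152) (nat_lit 0) (XT.nd (nat_lit 78) (nat_lit 76) (nat_lit 0) (XT.lf (nat_lit 0) (nat_lit 10953009464) (nat_lit 76) (nat_lit 13931945458) (nat_lit 152) (nat_lit 5841299962) (nat_lit 16) (nat_lit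 5) (nat_lit 17) (nat_lit 5) (nat_lit 18) (nat_lit 4) (nat_lit 360) (nat_lit 255) (nat_lit 165)) (XT.nd (nat_lit 78) (nat_lit 76) (nat_lit 0) (XT.lf (nat_lit 0) (nat_lit 18795784283) (nat_lit 76) (nat_lit 9995285609) (nat_lit 152) (nat_lit 2721171781) (nat_lit 16) (nat_lit 5) (nat_lit 17) (nat_lit 5) (nat_lit 18) (nat_lit 4) (nat_lit 361) (nat_lit 255) (nat_lit 164)) (XT.lf (nat_lit 0) (nat_lit 467220684) (nat_lit 152) (nat_lit 5479492047) (nat_lit 76) (nat_lit 26375438298) (nat_lit 15) (nat_lit 5) (nat_lit 17) (nat_lit 5) (nat_lit 16) (nat_lit 5) (nat_lit 362) (nat_lit 255) (nat_lit 163)))) (XT.nd (nat_lit 78) (nat_lit 0) (nat_lit 0) (XT.lf (nat_lit 0) (nat_lit 1959872942) (nat_lit 152) (nat_lit 1740268779) (nat_lit 228) (nat_lit 29455313371) (nat_lit 13) (nat_lit 5) (nat_lit 15) (nat_lit 5) (nat_lit 16) (nat_lit 5) (nat_lit 363) (nat_lit 255) (nat_lit 162)) (XT.nd (nat_lit 78) (nat_lit 0) (nat_lit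 0) (XT.lf (nat_lit 0) (nat_lit 7095674423) (nat_lit 228) (nat_lit 24328940577) (nat_lit 76) (nat_lit 2587186970) (nat_lit 13) (nat_lit 5) (nat_lit 16) (nat_lit 5) (nat_lit 14) (nat_lit 4) (nat_lit 364) (nat_lit 255) (nat_lit 161)) (XT.lf (nat_lit 0) (nat_lit 10595570120) (nat_lit 228) (nat_lit 17298887504) (nat_lit 76) (nat_lit 6999318770) (nat_lit 13) (nat_lit 5) (nat_lit 16) (nat_lit 5) (nat_lit 14) (nat_lit 4) (nat_lit 365) (nat_lit 255) (nat_lit 160))))) (XT.nd (nat_lit 234) (nat_lit 0) (nat_lit 0) (XT.nd (nat_lit 78) (nat_lit 76) (nat_lit 0) (XT.lf (nat_lit 0) (nat_lit 14186158447) (nat_lit 228) (nat_lit 10082551638) (nat_lit 76) (nat_lit 11533940793) (nat_lit 13) (nat_lit 5) (nat_lit 16) (nat_lit 5) (nat_lit 14) (nat_lit 4) (nat_lit 366) (nat_lit 255) (nat_lit 159)) (XT.nd (nat_lit 78) (nat_lit 76) (nat_lit 0) (XT.lf (nat_lit 0) (nat_lit 17870576812) (nat_lit 228) (nat_lit 2673627444) (nat_lit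 76) (nat_lit 16195015329) (nat_lit 13) (nat_lit 5) (nat_lit 16) (nat_lit 5) (nat_lit 14) (nat_lit 4) (nat_lit 367) (nat_lit 255) (nat_lit 158)) (XT.lf (nat_lit 0) (nat_lit 5032562312) (nat_lit 76) (nat_lit 16667858365) (nat_lit 152) (nat_lit 16002428917) (nat_lit 12) (nat_lit 5) (nat_lit 13) (nat_lit 5) (nat_lit 14) (nat_lit 4) (nat_lit 368) (nat_lit 255) (nat_lit 157)))) (XT.nd (nat_lit 78) (nat_lit 0) (nat_lit 0) (XT.lf (nat_lit 0) (nat_lit 13001766429) (nat_lit 76) (nat_lit 12657080537) (nat_lit 152) (nat_lit 13036141630) (nat_lit 12) (nat_lit 5) (nat_lit 13) (nat_lit 5) (nat_lit 14) (nat_lit 4) (nat_lit 369) (nat_lit 255) (nat_lit 156)) (XT.nd (nat_lit 78) (nat_lit 0) (nat_lit 0) (XT.lf (nat_lit 0) (nat_lit 21187737860) (nat_lit 76) (nat_lit 8535364606) (nat_lit 152) (nat_lit 9994187407) (nat_lit 12) (nat_lit 5) (nat_lit 13) (nat_lit 5) (nat_lit 14) (nat_lit 4) (nat_lit 370) (nat_lit 255)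 (nat_lit 155)) (XT.lf (nat_lit 0) (nat_lit 29597629394) (nat_lit 76) (nat_lit 4299109072) (nat_lit 152) (nat_lit 6873908228) (nat_lit 12) (nat_lit 5) (nat_lit 13) (nat_lit 5) (nat_lit 14) (nat_lit 4) (nat_lit 371) (nat_lit 255) (nat_lit 154))))))))
noncomputable def xc97 : XT := (XT.nd (nat_lit 1794) (nat_lit 0) (nat_lit 0) (XT.nd (nat_lit 858) (nat_lit 228) (nat_lit 0) (XT.nd (nat_lit 390) (nat_lit 76) (nat_lit 0) (XT.nd (nat_lit 156) (nat_lit 76) (nat_lit 0) (XT.nd (nat_lit 78) (nat_lit 76) (nat_lit 0) (XT.lf (nat_lit 0) (nat_lit 38183934256) (nat_lit 152) (nat_lit 3617722409) (nat_lit 0) (nat_lit 54306833) (nat_lit 12) (nat_lit 5) (nat_lit 14) (nat_lit 4) (nat_lit 12) (nat_lit 4) (nat_lit 372) (nat_lit 255) (nat_lit 153)) (XT.lf (nat_lit 0) (nat_lit 4182585723) (nat_lit 76) (nat_lit 38488021738) (nat_lit 76) (nat_lit 301116013) (nat_lit 11) (nat_lit 4) (nat_lit 12) (nat_lit 5) (nat_lit 12)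 (nat_lit 4) (nat_lit 373) (nat_lit 255) (nat_lit 152))) (XT.nd (nat_lit 78) (nat_lit 0) (nat_lit 0) (XT.lf (nat_lit 0) (nat_lit 3134056975) (nat_lit 152) (nat_lit 31880380067) (nat_lit 76) (nat_lit 9104863492) (nat_lit 10) (nat_lit 5) (nat_lit 12) (nat_lit 5) (nat_lit 11) (nat_lit 4) (nat_lit 374) (nat_lit 255) (nat_lit 151)) (XT.nd (nat_lit 78) (nat_lit 0) (nat_lit 0) (XT.lf (nat_lit 0) (nat_lit 6654694104) (nat_lit 152) (nat_lit 24787476987) (nat_lit 76) (nat_lit 13859399247) (nat_lit 10) (nat_lit 5) (nat_lit 12) (nat_lit 5) (nat_lit 11) (nat_lit 4) (nat_lit 375) (nat_lit 255) (nat_lit 150)) (XT.lf (nat_lit 0) (nat_lit 10269747518) (nat_lit 152) (nat_lit 17501336318) (nat_lit 76) (nat_lit 18748568939) (nat_lit 10) (nat_lit 5) (nat_lit 12) (nat_lit 5) (nat_lit 11) (nat_lit 4) (nat_lit 376) (nat_lit 255) (nat_lit 149))))) (XT.nd (nat_lit 234) (nat_lit 0) (nat_lit 0) (XT.nd (nat_lit 78) (nat_lit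 76) (nat_lit 0) (XT.lf (nat_lit 0) (nat_lit 13982376000) (nat_lit 152) (nat_lit 10015591529) (nat_lit 76) (nat_lit 23776644658) (nat_lit 10) (nat_lit 5) (nat_lit 12) (nat_lit 5) (nat_lit 11) (nat_lit 4) (nat_lit 377) (nat_lit 255) (nat_lit 148)) (XT.nd (nat_lit 78) (nat_lit 76) (nat_lit 0) (XT.lf (nat_lit 0) (nat_lit 17795823594) (nat_lit 152) (nat_lit 2323701679) (nat_lit 76) (nat_lit 28948019868) (nat_lit 10) (nat_lit 5) (nat_lit 12) (nat_lit 5) (nat_lit 11) (nat_lit 4) (nat_lit 378) (nat_lit 255) (nat_lit 147)) (XT.lf (nat_lit 0) (nat_lit 5692128224) (nat_lit 76) (nat_lit 16076010434) (nat_lit 152) (nat_lit 28629801240) (nat_lit 9) (nat_lit 5) (nat_lit 10) (nat_lit 5) (nat_lit 11) (nat_lit 4) (nat_lit 379) (nat_lit 255) (nat_lit 146)))) (XT.nd (nat_lit 78) (nat_lit 0) (nat_lit 0) (XT.lf (nat_lit 0) (nat_lit 13978351464) (nat_lit 76) (nat_lit 11894612682) (nat_lit 152) (nat_lit 25894889632)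 (nat_lit 9) (nat_lit 5) (nat_lit 10) (nat_lit 5) (nat_lit 11) (nat_lit 4) (nat_lit 380) (nat_lit 255) (nat_lit 145)) (XT.nd (nat_lit 78) (nat_lit 0) (nat_lit 0) (XT.lf (nat_lit 0) (nat_lit 22495962210) (nat_lit 76) (nat_lit 7595143200) (nat_lit 152) (nat_lit 23088061825) (nat_lit 9) (nat_lit 5) (nat_lit 10) (nat_lit 5) (nat_lit 11) (nat_lit 4) (nat_lit 381) (nat_lit 255) (nat_lit 144)) (XT.lf (nat_lit 0) (nat_lit 31252403034) (nat_lit 76) (nat_lit 3173845171) (nat_lit 152) (nat_lit 20206865251) (nat_lit 9) (nat_lit 5) (nat_lit 10) (nat_lit 5) (nat_lit 11) (nat_lit 4) (nat_lit 382) (nat_lit 255) (nat_lit 143)))))) (XT.nd (nat_lit 468) (nat_lit 152) (nat_lit 0) (XT.nd (nat_lit 234) (nat_lit 76) (nat_lit 0) (XT.nd (nat_lit 78) (nat_lit 0) (nat_lit 0) (XT.lf (nat_lit 0) (nat_lit 38895380026) (nat_lit 152) (nat_lit 15888837192) (nat_lit 0) (nat_lit 1346349677) (nat_lit 9) (nat_lit 5) (nat_lit 11)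 (nat_lit 4) (nat_lit 9) (nat_lit 4) (nat_lit 383) (nat_lit 255) (nat_lit 142)) (XT.nd (nat_lit 78) (nat_lit 0) (nat_lit 0) (XT.lf (nat_lit 0) (nat_lit 43520950259) (nat_lit 152) (nat_lit 8219583356) (nat_lit 0) (nat_lit 5931746061) (nat_lit 9) (nat_lit 5) (nat_lit 11) (nat_lit 4) (nat_lit 9) (nat_lit 4) (nat_lit 384) (nat_lit 255) (nat_lit 141)) (XT.lf (nat_lit 0) (nat_lit 48276491723) (nat_lit 152) (nat_lit 335738683) (nat_lit 0) (nat_lit 10648283788) (nat_lit 9) (nat_lit 5) (nat_lit 11) (nat_lit 4) (nat_lit 9) (nat_lit 4) (nat_lit 385) (nat_lit 255) (nat_lit 140)))) (XT.nd (nat_lit 78) (nat_lit 0) (nat_lit 0) (XT.lf (nat_lit 0) (nat_lit 7924215611) (nat_lit 76) (nat_lit 45318116542) (nat_lit 76) (nat_lit 7652040902) (nat_lit 8) (nat_lit 4) (nat_lit 9) (nat_lit 5) (nat_lit 9) (nat_lit 4) (nat_lit 386) (nat_lit 255) (nat_lit 139)) (XT.nd (nat_lit 78) (nat_lit 0) (nat_lit 0) (XT.lf (nat_lit 0)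 (nat_lit 16423962549) (nat_lit 76) (nat_lit 41928141477) (nat_lit 76) (nat_lit 4225301075) (nat_lit 8) (nat_lit 4) (nat_lit 9) (nat_lit 5) (nat_lit 9) (nat_lit 4) (nat_lit 387) (nat_lit 255) (nat_lit 138)) (XT.lf (nat_lit 0) (nat_lit 25164247237) (nat_lit 76) (nat_lit 38442733400) (nat_lit 76) (nat_lit 704199053) (nat_lit 8) (nat_lit 4) (nat_lit 9) (nat_lit 5) (nat_lit 9) (nat_lit 4) (nat_lit 388) (nat_lit 255) (nat_lit 137))))) (XT.nd (nat_lit 234) (nat_lit 76) (nat_lit 0) (XT.nd (nat_lit 78) (nat_lit 0) (nat_lit 0) (XT.lf (nat_lit 0) (nat_lit 2857472546) (nat_lit 152) (nat_lit 31972519391) (nat_lit 76) (nat_lit 31266379400) (nat_lit 7) (nat_lit 5) (nat_lit 9) (nat_lit 5) (nat_lit 8) (nat_lit 4) (nat_lit 389) (nat_lit 255) (nat_lit 136)) (XT.nd (nat_lit 78) (nat_lit 0) (nat_lit 0) (XT.lf (nat_lit 0) (nat_lit 6504040322) (nat_lit 152) (nat_lit 24603631773) (nat_lit 76) (nat_lit 36827476905) (nat_lit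 7) (nat_lit 5) (nat_lit 9) (nat_lit 5) (nat_lit 8) (nat_lit 4) (nat_lit 390) (nat_lit 255) (nat_lit 135)) (XT.lf (nat_lit 0) (nat_lit 10252432053) (nat_lit 152) (nat_lit 17027061572) (nat_lit 76) (nat_lit 42549828825) (nat_lit 7) (nat_lit 5) (nat_lit 9) (nat_lit 5) (nat_lit 8) (nat_lit 4) (nat_lit 391) (nat_lit 255) (nat_lit 134)))) (XT.nd (nat_lit 78) (nat_lit 76) (nat_lit 0) (XT.lf (nat_lit 0) (nat_lit 14105923035) (nat_lit 152) (nat_lit 9236188486) (nat_lit 76) (nat_lit 48438435273) (nat_lit 7) (nat_lit 5) (nat_lit 9) (nat_lit 5) (nat_lit 8) (nat_lit 4) (nat_lit 392) (nat_lit 255) (nat_lit 133)) (XT.nd (nat_lit 78) (nat_lit 76) (nat_lit 0) (XT.lf (nat_lit 0) (nat_lit 18067880396) (nat_lit 152) (nat_lit 1224204955) (nat_lit 76) (nat_lit 54498441634) (nat_lit 7) (nat_lit 5) (nat_lit 9) (nat_lit 5) (nat_lit 8) (nat_lit 4) (nat_lit 393) (nat_lit 255) (nat_lit 132)) (XT.lf (nat_lit 0) (nat_lit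 7155519746) (nat_lit 76) (nat_lit 15055029525) (nat_lit 152) (nat_lit 53648406546) (nat_lit 6) (nat_lit 5) (nat_lit 7) (nat_lit 5) (nat_lit 8) (nat_lit 4) (nat_lit 394) (nat_lit 255) (nat_lit 131))))))) (XT.nd (nat_lit 31278) (nat_lit 0) (nat_lit 12540) (XT.nd (nat_lit 30810) (nat_lit 0) (nat_lit 18164) (XT.nd (nat_lit 234) (nat_lit 0) (nat_lit 0) (XT.nd (nat_lit 78) (nat_lit 0) (nat_lit 0) (XT.lf (nat_lit 0) (nat_lit 15799602973) (nat_lit 76) (nat_lit 10683412145) (nat_lit 152) (nat_lit 51506261568) (nat_lit 6) (nat_lit 5) (nat_lit 7) (nat_lit 5) (nat_lit 8) (nat_lit 4) (nat_lit 395) (nat_lit 255) (nat_lit 130)) (XT.nd (nat_lit 78) (nat_lit 0) (nat_lit 0) (XT.lf (nat_lit 0) (nat_lit 24691233728) (nat_lit 76) (nat_lit 6185775422) (nat_lit 152) (nat_lit 49306701950) (nat_lit 6) (nat_lit 5) (nat_lit 7) (nat_lit 5) (nat_lit 8) (nat_lit 4) (nat_lit 396) (nat_lit 255) (nat_lit 129)) (XT.lf (nat_lit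 0) (nat_lit 33838181398) (nat_lit 76) (nat_lit 1558189381) (nat_lit 152) (nat_lit 47047805745) (nat_lit 6) (nat_lit 5) (nat_lit 7) (nat_lit 5) (nat_lit 8) (nat_lit 4) (nat_lit 397) (nat_lit 255) (nat_lit 128)))) (XT.nd (nat_lit 78) (nat_lit 0) (nat_lit 0) (XT.lf (nat_lit 0) (nat_lit 40075841901) (nat_lit 152) (nat_lit 41555002600) (nat_lit 0) (nat_lit 3140879832) (nat_lit 6) (nat_lit 5) (nat_lit 8) (nat_lit 4) (nat_lit 6) (nat_lit 4) (nat_lit 398) (nat_lit 255) (nat_lit 127)) (XT.nd (nat_lit 30420) (nat_lit 0) (nat_lit 19532) (XT.lf (nat_lit 0) (nat_lit 44904997813) (nat_lit 152) (nat_lit 34318825173) (nat_lit 0) (nat_lit 7945000730) (nat_lit 6) (nat_lit 5) (nat_lit 8) (nat_lit 4) (nat_lit 6) (nat_lit 4) (nat_lit 399) (nat_lit 255) (nat_lit 126)) (XT.lf (nat_lit 0) (nat_lit 2651160636) (nat_lit 228) (nat_lit 303361023) (nat_lit 228) (nat_lit 303361023) (nat_lit 263) (nat_lit 4) (nat_lit 266)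 (nat_lit 5) (nat_lit 266) (nat_lit 4) (nat_lit 268) (nat_lit 256) (nat_lit 256))))) (XT.nd (nat_lit 234) (nat_lit 532) (nat_lit 0) (XT.nd (nat_lit 78) (nat_lit 456) (nat_lit 0) (XT.lf (nat_lit 0) (nat_lit 2149572661) (nat_lit 304) (nat_lit 78787539) (nat_lit 380) (nat_lit 4307370657) (nat_lit 258) (nat_lit 5) (nat_lit 262) (nat_lit 5) (nat_lit 263) (nat_lit 4) (nat_lit 269) (nat_lit 256) (nat_lit 255)) (XT.nd (nat_lit 78) (nat_lit 456) (nat_lit 0) (XT.lf (nat_lit 0) (nat_lit 5052036850) (nat_lit 380) (nat_lit 997515244) (nat_lit 0) (nat_lit 509462576) (nat_lit 258) (nat_lit 5) (nat_lit 263) (nat_lit 4) (nat_lit 258) (nat_lit 4) (nat_lit 270) (nat_lit 256) (nat_lit 254)) (XT.lf (nat_lit 0) (nat_lit 1275853987) (nat_lit 456) (nat_lit 4125135648) (nat_lit 76) (nat_lit 1184201301) (nat_lit 252) (nat_lit 5) (nat_lit 258) (nat_lit 5) (nat_lit 253) (nat_lit 4) (nat_lit 271) (nat_lit 256) (nat_lit 253))))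 (XT.nd (nat_lit 78) (nat_lit 532) (nat_lit 0) (XT.lf (nat_lit 0) (nat_lit 4024816425) (nat_lit 456) (nat_lit 654008857) (nat_lit 76) (nat_lit 1935831683) (nat_lit 252) (nat_lit 5) (nat_lit 258) (nat_lit 5) (nat_lit 253) (nat_lit 4) (nat_lit 272) (nat_lit 256) (nat_lit 252)) (XT.nd (nat_lit 78) (nat_lit 0) (nat_lit 0) (XT.lf (nat_lit 0) (nat_lit 139714739) (nat_lit 532) (nat_lit 3737572650) (nat_lit 76) (nat_lit 2770001389) (nat_lit 245) (nat_lit 5) (nat_lit 252) (nat_lit 5) (nat_lit 246) (nat_lit 5) (nat_lit 273) (nat_lit 256) (nat_lit 251)) (XT.lf (nat_lit 0) (nat_lit 2812251455) (nat_lit 532) (nat_lit 181097059) (nat_lit 76) (nat_lit 3689698597) (nat_lit 245) (nat_lit 5) (nat_lit 252) (nat_lit 5) (nat_lit 246) (nat_lit 5) (nat_lit 274) (nat_lit 256) (nat_lit 250)))))) (XT.nd (nat_lit 468) (nat_lit 2888) (nat_lit 0) (XT.nd (nat_lit 234) (nat_lit 1520) (nat_lit 0) (XT.nd (nat_lit 78) (nat_lit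 684) (nat_lit 0) (XT.lf (nat_lit 0) (nat_lit 3483596260) (nat_lit 532) (nat_lit 2024056811) (nat_lit 608) (nat_lit 1214246656) (nat_lit 238) (nat_lit 5) (nat_lit 245) (nat_lit 5) (nat_lit 246) (nat_lit 5) (nat_lit 275) (nat_lit 256) (nat_lit 249)) (XT.nd (nat_lit 78) (nat_lit 0) (nat_lit 0) (XT.lf (nat_lit 0) (nat_lit 425863657) (nat_lit 608) (nat_lit 982423633) (nat_lit 684) (nat_lit 5355996924) (nat_lit 229) (nat_lit 5) (nat_lit 237) (nat_lit 5) (nat_lit 238) (nat_lit 5) (nat_lit 276) (nat_lit 256) (nat_lit 248)) (XT.lf (nat_lit 0) (nat_lit 4031207096) (nat_lit 684) (nat_lit 2624164610) (nat_lit 76) (nat_lit 154100968) (nat_lit 229) (nat_lit 5) (nat_lit 238) (nat_lit 5) (nat_lit 230) (nat_lit 5) (nat_lit 277) (nat_lit 256) (nat_lit 247)))) (XT.nd (nat_lit 78) (nat_lit 836) (nat_lit 0) (XT.lf (nat_lit 0) (nat_lit 1145872857) (nat_lit 684) (nat_lit 5522461268) (nat_lit 760) (nat_lit 189885573)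 (nat_lit 220) (nat_lit 5) (nat_lit 229) (nat_lit 5) (nat_lit 230) (nat_lit 5) (nat_lit 278) (nat_lit 256) (nat_lit 246)) (XT.nd (nat_lit 78) (nat_lit 760) (nat_lit 0) (XT.lf (nat_lit 0) (nat_lit 2370117481) (nat_lit 760) (nat_lit 1918438627) (nat_lit 76) (nat_lit 2621143337) (nat_lit 219) (nat_lit 5) (nat_lit 229) (nat_lit 5) (nat_lit 220) (nat_lit 5) (nat_lit 279) (nat_lit 256) (nat_lit 245)) (XT.lf (nat_lit 0) (nat_lit 1958097755) (nat_lit 760) (nat_lit 2981818007) (nat_lit 836) (nat_lit 2024892787) (nat_lit 209) (nat_lit 5) (nat_lit 219) (nat_lit 5) (nat_lit 220) (nat_lit 5) (nat_lit 280) (nat_lit 256) (nat_lit 244))))) (XT.nd (nat_lit 234) (nat_lit 1976) (nat_lit 0) (XT.nd (nat_lit 78) (nat_lit 836) (nat_lit 0) (XT.lf (nat_lit 0) (nat_lit 492478137) (nat_lit 836) (nat_lit 1105064746) (nat_lit 76) (nat_lit 5425948523) (nat_lit 208) (nat_lit 5) (nat_lit 219) (nat_lit 5) (nat_lit 209) (nat_lit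 5) (nat_lit 281) (nat_lit 256) (nat_lit 243)) (XT.nd (nat_lit 78) (nat_lit 0) (nat_lit 0) (XT.lf (nat_lit 0) (nat_lit 2883137666) (nat_lit 836) (nat_lit 110323042) (nat_lit 912) (nat_lit 4091633786) (nat_lit 197) (nat_lit 5) (nat_lit 208) (nat_lit 5) (nat_lit 209) (nat_lit 5) (nat_lit 282) (nat_lit 256) (nat_lit 242)) (XT.lf (nat_lit 0) (nat_lit 5517252708) (nat_lit 912) (nat_lit 217041886) (nat_lit 76) (nat_lit 1416035996) (nat_lit 197) (nat_lit 5) (nat_lit 209) (nat_lit 5) (nat_lit 198) (nat_lit 5) (nat_lit 283) (nat_lit 256) (nat_lit 241)))) (XT.nd (nat_lit 78) (nat_lit 988) (nat_lit 0) (XT.lf (nat_lit 0) (nat_lit 844752426) (nat_lit 988) (nat_lit 3331456330) (nat_lit 76) (nat_lit 3042369524) (nat_lit 184) (nat_lit 5) (nat_lit 197) (nat_lit 5) (nat_lit 185) (nat_lit 5) (nat_lit 284) (nat_lit 256) (nat_lit 240)) (XT.nd (nat_lit 78) (nat_lit 0) (nat_lit 0) (XT.lf (nat_lit 0) (nat_lit 760992605)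 (nat_lit 988) (nat_lit 2538342370) (nat_lit 1064) (nat_lit 3991195924) (nat_lit 171) (nat_lit 5) (nat_lit 184) (nat_lit 5) (nat_lit 185) (nat_lit 5) (nat_lit 285) (nat_lit 256) (nat_lit 239)) (XT.lf (nat_lit 0) (nat_lit 4977451994) (nat_lit 988) (nat_lit 810975396) (nat_lit 1064) (nat_lit 1577582504) (nat_lit 171) (nat_lit 5) (nat_lit 184) (nat_lit 5) (nat_lit 185) (nat_lit 5) (nat_lit 286) (nat_lit 256) (nat_lit 238))))))))
noncomputable def xc98 : XT := (XT.nd (nat_lit 1794) (nat_lit 3040) (nat_lit 0) (XT.nd (nat_lit 858) (nat_lit 2964) (nat_lit 0) (XT.nd (nat_lit 390) (nat_lit 1672) (nat_lit 0) (XT.nd (nat_lit 156) (nat_lit 1444) (nat_lit 0) (XT.nd (nat_lit 78) (nat_lit 0) (nat_lit 0) (XT.lf (nat_lit 0) (nat_lit 846452615) (nat_lit 1140) (nat_lit 5617846074) (nat_lit 76) (nat_lit 980703224) (nat_lit 156) (nat_lit 5) (nat_lit 171) (nat_lit 5) (nat_lit 157) (nat_lit 5) (nat_lit 287) (nat_lit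 256) (nat_lit 237)) (XT.lf (nat_lit 0) (nat_lit 3273842805) (nat_lit 1140) (nat_lit 1399596761) (nat_lit 76) (nat_lit 2853762791) (nat_lit 156) (nat_lit 5) (nat_lit 171) (nat_lit 5) (nat_lit 157) (nat_lit 5) (nat_lit 288) (nat_lit 256) (nat_lit 236))) (XT.nd (nat_lit 78) (nat_lit 608) (nat_lit 0) (XT.lf (nat_lit 0) (nat_lit 2936112757) (nat_lit 836) (nat_lit 2798159677) (nat_lit 912) (nat_lit 1878962187) (nat_lit 145) (nat_lit 5) (nat_lit 156) (nat_lit 5) (nat_lit 157) (nat_lit 5) (nat_lit 289) (nat_lit 256) (nat_lit 235)) (XT.nd (nat_lit 78) (nat_lit 532) (nat_lit 0) (XT.lf (nat_lit 0) (nat_lit 502401407) (nat_lit 912) (nat_lit 343663083) (nat_lit 76) (nat_lit 6857378635) (nat_lit 144) (nat_lit 5) (nat_lit 156) (nat_lit 5) (nat_lit 145) (nat_lit 5) (nat_lit 290) (nat_lit 256) (nat_lit 234)) (XT.lf (nat_lit 0) (nat_lit 2903265861) (nat_lit 608) (nat_lit 3692268122) (nat_lit 76) (nat_lit 1200848751)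 (nat_lit 137) (nat_lit 5) (nat_lit 145) (nat_lit 5) (nat_lit 138) (nat_lit 5) (nat_lit 291) (nat_lit 256) (nat_lit 233))))) (XT.nd (nat_lit 234) (nat_lit 608) (nat_lit 0) (XT.nd (nat_lit 78) (nat_lit 532) (nat_lit 0) (XT.lf (nat_lit 0) (nat_lit 739672609) (nat_lit 532) (nat_lit 4591242714) (nat_lit 608) (nat_lit 2562705556) (nat_lit 130) (nat_lit 5) (nat_lit 137) (nat_lit 5) (nat_lit 138) (nat_lit 5) (nat_lit 292) (nat_lit 256) (nat_lit 232)) (XT.nd (nat_lit 78) (nat_lit 532) (nat_lit 0) (XT.lf (nat_lit 0) (nat_lit 5314199691) (nat_lit 532) (nat_lit 2491482427) (nat_lit 608) (nat_lit 189014077) (nat_lit 130) (nat_lit 5) (nat_lit 137) (nat_lit 5) (nat_lit 138) (nat_lit 5) (nat_lit 293) (nat_lit 256) (nat_lit 231)) (XT.lf (nat_lit 0) (nat_lit 1876584850) (nat_lit 456) (nat_lit 291412632) (nat_lit 532) (nat_lit 5931611972) (nat_lit 123) (nat_lit 5) (nat_lit 129) (nat_lit 5) (nat_lit 130) (nat_lit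 5) (nat_lit 294) (nat_lit 256) (nat_lit 230)))) (XT.nd (nat_lit 78) (nat_lit 608) (nat_lit 0) (XT.lf (nat_lit 0) (nat_lit 4577468628) (nat_lit 532) (nat_lit 1669436788) (nat_lit 76) (nat_lit 1961278151) (nat_lit 123) (nat_lit 5) (nat_lit 130) (nat_lit 5) (nat_lit 124) (nat_lit 5) (nat_lit 295) (nat_lit 256) (nat_lit 229)) (XT.nd (nat_lit 78) (nat_lit 76) (nat_lit 0) (XT.lf (nat_lit 0) (nat_lit 3011805881) (nat_lit 532) (nat_lit 4020255442) (nat_lit 608) (nat_lit 1288900540) (nat_lit 116) (nat_lit 5) (nat_lit 123) (nat_lit 5) (nat_lit 124) (nat_lit 5) (nat_lit 296) (nat_lit 256) (nat_lit 228)) (XT.lf (nat_lit 0) (nat_lit 1059679284) (nat_lit 608) (nat_lit 645367323) (nat_lit 76) (nat_lit 6733124665) (nat_lit 115) (nat_lit 5) (nat_lit 123) (nat_lit 5) (nat_lit 116) (nat_lit 5) (nat_lit 297) (nat_lit 256) (nat_lit 227)))))) (XT.nd (nat_lit 468) (nat_lit 1216) (nat_lit 0) (XT.nd (nat_lit 234) (nat_lit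 836) (nat_lit 0) (XT.nd (nat_lit 78) (nat_lit 456) (nat_lit 0) (XT.lf (nat_lit 0) (nat_lit 3442931300) (nat_lit 532) (nat_lit 4402905210) (nat_lit 76) (nat_lit 713094872) (nat_lit 109) (nat_lit 5) (nat_lit 116) (nat_lit 5) (nat_lit 110) (nat_lit 5) (nat_lit 298) (nat_lit 256) (nat_lit 226)) (XT.nd (nat_lit 78) (nat_lit 0) (nat_lit 0) (XT.lf (nat_lit 0) (nat_lit 356903625) (nat_lit 456) (nat_lit 5511764232) (nat_lit 532) (nat_lit 2815634186) (nat_lit 103) (nat_lit 5) (nat_lit 109) (nat_lit 5) (nat_lit 110) (nat_lit 5) (nat_lit 299) (nat_lit 256) (nat_lit 225)) (XT.lf (nat_lit 0) (nat_lit 5285709394) (nat_lit 456) (nat_lit 3071033557) (nat_lit 532) (nat_lit 457117815) (nat_lit 103) (nat_lit 5) (nat_lit 109) (nat_lit 5) (nat_lit 110) (nat_lit 5) (nat_lit 300) (nat_lit 256) (nat_lit 224)))) (XT.nd (nat_lit 78) (nat_lit 380) (nat_lit 0) (XT.lf (nat_lit 0) (nat_lit 1359272124) (nat_lit 380) (nat_lit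 533532704) (nat_lit 456) (nat_lit 7055266055) (nat_lit 97) (nat_lit 5) (nat_lit 102) (nat_lit 5) (nat_lit 103) (nat_lit 5) (nat_lit 301) (nat_lit 256) (nat_lit 223)) (XT.nd (nat_lit 78) (nat_lit 380) (nat_lit 0) (XT.lf (nat_lit 0) (nat_lit 4306954906) (nat_lit 456) (nat_lit 2708815904) (nat_lit 76) (nat_lit 2070417461) (nat_lit 97) (nat_lit 5) (nat_lit 103) (nat_lit 5) (nat_lit 98) (nat_lit 5) (nat_lit 302) (nat_lit 256) (nat_lit 222)) (XT.lf (nat_lit 0) (nat_lit 2294588156) (nat_lit 380) (nat_lit 4474768278) (nat_lit 456) (nat_lit 2459919171) (nat_lit 92) (nat_lit 5) (nat_lit 97) (nat_lit 5) (nat_lit 98) (nat_lit 5) (nat_lit 303) (nat_lit 256) (nat_lit 221))))) (XT.nd (nat_lit 234) (nat_lit 760) (nat_lit 0) (XT.nd (nat_lit 78) (nat_lit 456) (nat_lit 0) (XT.lf (nat_lit 0) (nat_lit 7441763419) (nat_lit 380) (nat_lit 1840613517) (nat_lit 456) (nat_lit 95074496) (nat_lit 92) (nat_lit 5) (nat_lit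 97) (nat_lit 5) (nat_lit 98) (nat_lit 5) (nat_lit 304) (nat_lit 256) (nat_lit 220)) (XT.nd (nat_lit 78) (nat_lit 0) (nat_lit 0) (XT.lf (nat_lit 0) (nat_lit 2284814015) (nat_lit 456) (nat_lit 6346937710) (nat_lit 76) (nat_lit 898045211) (nat_lit 86) (nat_lit 5) (nat_lit 92) (nat_lit 5) (nat_lit 87) (nat_lit 5) (nat_lit 305) (nat_lit 256) (nat_lit 219)) (XT.lf (nat_lit 0) (nat_lit 4723193123) (nat_lit 456) (nat_lit 1272825411) (nat_lit 76) (nat_lit 3691085828) (nat_lit 86) (nat_lit 5) (nat_lit 92) (nat_lit 5) (nat_lit 87) (nat_lit 5) (nat_lit 306) (nat_lit 256) (nat_lit 218)))) (XT.nd (nat_lit 78) (nat_lit 380) (nat_lit 0) (XT.lf (nat_lit 0) (nat_lit 3970817698) (nat_lit 380) (nat_lit 3254542592) (nat_lit 456) (nat_lit 2624138942) (nat_lit 81) (nat_lit 5) (nat_lit 86) (nat_lit 5) (nat_lit 87) (nat_lit 5) (nat_lit 307) (nat_lit 256) (nat_lit 217)) (XT.nd (nat_lit 78) (nat_lit 380) (nat_lit 0) (XT.lf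 (nat_lit 0) (nat_lit 9338274237) (nat_lit 380) (nat_lit 430449708) (nat_lit 456) (nat_lit 249142839) (nat_lit 81) (nat_lit 5) (nat_lit 86) (nat_lit 5) (nat_lit 87) (nat_lit 5) (nat_lit 308) (nat_lit 256) (nat_lit 216)) (XT.lf (nat_lit 0) (nat_lit 2177747371) (nat_lit 380) (nat_lit 5528147462) (nat_lit 76) (nat_lit 2484131317) (nat_lit 76) (nat_lit 5) (nat_lit 81) (nat_lit 5) (nat_lit 77) (nat_lit 5) (nat_lit 309) (nat_lit 256) (nat_lit 215))))))) (XT.nd (nat_lit 858) (nat_lit 1444) (nat_lit 0) (XT.nd (nat_lit 390) (nat_lit 608) (nat_lit 0) (XT.nd (nat_lit 156) (nat_lit 684) (nat_lit 0) (XT.nd (nat_lit 78) (nat_lit 304) (nat_lit 0) (XT.lf (nat_lit 0) (nat_lit 4638388635) (nat_lit 380) (nat_lit 255988811) (nat_lit 76) (nat_lit 5473997877) (nat_lit 76) (nat_lit 5) (nat_lit 81) (nat_lit 5) (nat_lit 77) (nat_lit 5) (nat_lit 310) (nat_lit 256) (nat_lit 214)) (XT.lf (nat_lit 0) (nat_lit 5218325199)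 (nat_lit 304) (nat_lit 1960762850) (nat_lit 380) (nat_lit 3372875080) (nat_lit 72) (nat_lit 5) (nat_lit 76) (nat_lit 5) (nat_lit 77) (nat_lit 5) (nat_lit 311) (nat_lit 256) (nat_lit 213))) (XT.nd (nat_lit 78) (nat_lit 380) (nat_lit 0) (XT.lf (nat_lit 0) (nat_lit 53450590) (nat_lit 304) (nat_lit 9712550523) (nat_lit 380) (nat_lit 976030809) (nat_lit 68) (nat_lit 5) (nat_lit 72) (nat_lit 5) (nat_lit 73) (nat_lit 5) (nat_lit 312) (nat_lit 256) (nat_lit 212)) (XT.nd (nat_lit 78) (nat_lit 304) (nat_lit 0) (XT.lf (nat_lit 0) (nat_lit 1494280673) (nat_lit 380) (nat_lit 5317854337) (nat_lit 76) (nat_lit 4124385527) (nat_lit 67) (nat_lit 5) (nat_lit 72) (nat_lit 5) (nat_lit 68) (nat_lit 5) (nat_lit 313) (nat_lit 256) (nat_lit 211)) (XT.lf (nat_lit 0) (nat_lit 150116644) (nat_lit 304) (nat_lit 3828550585) (nat_lit 380) (nat_lit 7159166108) (nat_lit 63) (nat_lit 5) (nat_lit 67) (nat_lit 5) (nat_lit 68)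 (nat_lit 5) (nat_lit 314) (nat_lit 256) (nat_lit 210))))) (XT.nd (nat_lit 234) (nat_lit 304) (nat_lit 0) (XT.nd (nat_lit 78) (nat_lit 304) (nat_lit 0) (XT.lf (nat_lit 0) (nat_lit 5834554316) (nat_lit 304) (nat_lit 715546245) (nat_lit 380) (nat_lit 4794774480) (nat_lit 63) (nat_lit 5) (nat_lit 67) (nat_lit 5) (nat_lit 68) (nat_lit 5) (nat_lit 315) (nat_lit 256) (nat_lit 209)) (XT.nd (nat_lit 78) (nat_lit 76) (nat_lit 0) (XT.lf (nat_lit 0) (nat_lit 52422399) (nat_lit 228) (nat_lit 9130573094) (nat_lit 304) (nat_lit 2375666031) (nat_lit 60) (nat_lit 5) (nat_lit 63) (nat_lit 5) (nat_lit 64) (nat_lit 5) (nat_lit 316) (nat_lit 256) (nat_lit 208)) (XT.lf (nat_lit 0) (nat_lit 137086069) (nat_lit 304) (nat_lit 5947298064) (nat_lit 76) (nat_lit 5693803445) (nat_lit 59) (nat_lit 5) (nat_lit 63) (nat_lit 5) (nat_lit 60) (nat_lit 5) (nat_lit 317) (nat_lit 256) (nat_lit 207)))) (XT.nd (nat_lit 78) (nat_lit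 304) (nat_lit 0) (XT.lf (nat_lit 0) (nat_lit 2638690942) (nat_lit 304) (nat_lit 299827696) (nat_lit 76) (nat_lit 9066296300) (nat_lit 59) (nat_lit 5) (nat_lit 63) (nat_lit 5) (nat_lit 60) (nat_lit 5) (nat_lit 318) (nat_lit 256) (nat_lit 206)) (XT.nd (nat_lit 78) (nat_lit 0) (nat_lit 0) (XT.lf (nat_lit 0) (nat_lit 5234542320) (nat_lit 380) (nat_lit 6668415479) (nat_lit 76) (nat_lit 334763420) (nat_lit 55) (nat_lit 5) (nat_lit 60) (nat_lit 5) (nat_lit 56) (nat_lit 5) (nat_lit 319) (nat_lit 256) (nat_lit 205)) (XT.lf (nat_lit 0) (nat_lit 7903211025) (nat_lit 380) (nat_lit 939608504) (nat_lit 76) (nat_lit 3635001321) (nat_lit 55) (nat_lit 5) (nat_lit 60) (nat_lit 5) (nat_lit 56) (nat_lit 5) (nat_lit 320) (nat_lit 256) (nat_lit 204)))))) (XT.nd (nat_lit 468) (nat_lit 684) (nat_lit 0) (XT.nd (nat_lit 234) (nat_lit 228) (nat_lit 0) (XT.nd (nat_lit 78) (nat_lit 304) (nat_lit 0) (XT.lf (nat_lit 0) (nat_lit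 5006703456) (nat_lit 228) (nat_lit 5657237515) (nat_lit 304) (nat_lit 2060875297) (nat_lit 52) (nat_lit 5) (nat_lit 55) (nat_lit 5) (nat_lit 56) (nat_lit 5) (nat_lit 321) (nat_lit 256) (nat_lit 203)) (XT.nd (nat_lit 78) (nat_lit 228) (nat_lit 0) (XT.lf (nat_lit 0) (nat_lit 491572869) (nat_lit 304) (nat_lit 1885756462) (nat_lit 76) (nat_lit 10602581371) (nat_lit 51) (nat_lit 5) (nat_lit 55) (nat_lit 5) (nat_lit 52) (nat_lit 5) (nat_lit 322) (nat_lit 256) (nat_lit 202)) (XT.lf (nat_lit 0) (nat_lit 3094022839) (nat_lit 304) (nat_lit 9121028688) (nat_lit 76) (nat_lit 1026597152) (nat_lit 48) (nat_lit 5) (nat_lit 52) (nat_lit 5) (nat_lit 49) (nat_lit 5) (nat_lit 323) (nat_lit 256) (nat_lit 201)))) (XT.nd (nat_lit 78) (nat_lit 228) (nat_lit 0) (XT.lf (nat_lit 0) (nat_lit 5782771793) (nat_lit 304) (nat_lit 3239767635) (nat_lit 76) (nat_lit 4488499544) (nat_lit 48) (nat_lit 5) (nat_lit 52) (nat_lit 5)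 (nat_lit 49) (nat_lit 5) (nat_lit 324) (nat_lit 256) (nat_lit 200)) (XT.nd (nat_lit 78) (nat_lit 0) (nat_lit 0) (XT.lf (nat_lit 0) (nat_lit 2823298181) (nat_lit 228) (nat_lit 5722487009) (nat_lit 304) (nat_lit 5242963296) (nat_lit 45) (nat_lit 5) (nat_lit 48) (nat_lit 5) (nat_lit 49) (nat_lit 5) (nat_lit 325) (nat_lit 256) (nat_lit 199)) (XT.lf (nat_lit 0) (nat_lit 9085429758) (nat_lit 228) (nat_lit 2305940747) (nat_lit 304) (nat_lit 2683472582) (nat_lit 45) (nat_lit 5) (nat_lit 48) (nat_lit 5) (nat_lit 49) (nat_lit 5) (nat_lit 326) (nat_lit 256) (nat_lit 198))))) (XT.nd (nat_lit 234) (nat_lit 380) (nat_lit 0) (XT.nd (nat_lit 78) (nat_lit 76) (nat_lit 0) (XT.lf (nat_lit 0) (nat_lit 1127588972) (nat_lit 228) (nat_lit 13185011691) (nat_lit 304) (nat_lit 57254501) (nat_lit 42) (nat_lit 5) (nat_lit 45) (nat_lit 5) (nat_lit 46) (nat_lit 5) (nat_lit 327) (nat_lit 256) (nat_lit 197)) (XT.nd (nat_lit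 78) (nat_lit 0) (nat_lit 0) (XT.lf (nat_lit 0) (nat_lit 2637693506) (nat_lit 304) (nat_lit 7239468800) (nat_lit 76) (nat_lit 4794583920) (nat_lit 41) (nat_lit 5) (nat_lit 45) (nat_lit 5) (nat_lit 42) (nat_lit 5) (nat_lit 328) (nat_lit 256) (nat_lit 196)) (XT.lf (nat_lit 0) (nat_lit 5381171518) (nat_lit 304) (nat_lit 1104591630) (nat_lit 76) (nat_lit 8497888206) (nat_lit 41) (nat_lit 5) (nat_lit 45) (nat_lit 5) (nat_lit 42) (nat_lit 5) (nat_lit 329) (nat_lit 256) (nat_lit 195)))) (XT.nd (nat_lit 78) (nat_lit 228) (nat_lit 0) (XT.lf (nat_lit 0) (nat_lit 5271135087) (nat_lit 152) (nat_lit 2956228279) (nat_lit 228) (nat_lit 7076976153) (nat_lit 39) (nat_lit 5) (nat_lit 41) (nat_lit 5) (nat_lit 42) (nat_lit 5) (nat_lit 330) (nat_lit 256) (nat_lit 194)) (XT.nd (nat_lit 78) (nat_lit 228) (nat_lit 0) (XT.lf (nat_lit 0) (nat_lit 11146765778) (nat_lit 228) (nat_lit 3826560184) (nat_lit 76) (nat_lit 661724677)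 (nat_lit 39) (nat_lit 5) (nat_lit 42) (nat_lit 5) (nat_lit 40) (nat_lit 5) (nat_lit 331) (nat_lit 256) (nat_lit 193)) (XT.lf (nat_lit 0) (nat_lit 2541576217) (nat_lit 228) (nat_lit 11636779035) (nat_lit 304) (nat_lit 1796625667) (nat_lit 36) (nat_lit 5) (nat_lit 39) (nat_lit 5) (nat_lit 40) (nat_lit 5) (nat_lit 332) (nat_lit 256) (nat_lit 192))))))))
noncomputable def xc99 : XT := (XT.nd (nat_lit 1794) (nat_lit 684) (nat_lit 0) (XT.nd (nat_lit 858) (nat_lit 532) (nat_lit 0) (XT.nd (nat_lit 390) (nat_lit 380) (nat_lit 0) (XT.nd (nat_lit 156) (nat_lit 304) (nat_lit 0) (XT.nd (nat_lit 78) (nat_lit 0) (nat_lit 0) (XT.lf (nat_lit 0) (nat_lit 966770445) (nat_lit 304) (nat_lit 7199717215) (nat_lit 76) (nat_lit 8158073118) (nat_lit 35) (nat_lit 5) (nat_lit 39) (nat_lit 5) (nat_lit 36) (nat_lit 5) (nat_lit 333) (nat_lit 256) (nat_lit 191)) (XT.lf (nat_lit 0) (nat_lit 3748807415) (nat_lit 304) (nat_lit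 840693268) (nat_lit 76) (nat_lit 12095471141) (nat_lit 35) (nat_lit 5) (nat_lit 39) (nat_lit 5) (nat_lit 36) (nat_lit 5) (nat_lit 334) (nat_lit 256) (nat_lit 190))) (XT.nd (nat_lit 78) (nat_lit 152) (nat_lit 0) (XT.lf (nat_lit 0) (nat_lit 5779268170) (nat_lit 152) (nat_lit 863260476) (nat_lit 228) (nat_lit 10412851822) (nat_lit 33) (nat_lit 5) (nat_lit 35) (nat_lit 5) (nat_lit 36) (nat_lit 5) (nat_lit 335) (nat_lit 256) (nat_lit 189)) (XT.nd (nat_lit 78) (nat_lit 152) (nat_lit 0) (XT.lf (nat_lit 0) (nat_lit 9633143392) (nat_lit 228) (nat_lit 4893146681) (nat_lit 76) (nat_lit 2910339879) (nat_lit 33) (nat_lit 5) (nat_lit 36) (nat_lit 5) (nat_lit 34) (nat_lit 5) (nat_lit 336) (nat_lit 256) (nat_lit 188)) (XT.lf (nat_lit 0) (nat_lit 1663589913) (nat_lit 152) (nat_lit 11048127368) (nat_lit 228) (nat_lit 5117682545) (nat_lit 31) (nat_lit 5) (nat_lit 33) (nat_lit 5) (nat_lit 34) (nat_lit 5) (nat_lit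 337) (nat_lit 256) (nat_lit 187))))) (XT.nd (nat_lit 234) (nat_lit 152) (nat_lit 0) (XT.nd (nat_lit 78) (nat_lit 228) (nat_lit 0) (XT.lf (nat_lit 0) (nat_lit 8476107998) (nat_lit 152) (nat_lit 7430023377) (nat_lit 228) (nat_lit 2327146184) (nat_lit 31) (nat_lit 5) (nat_lit 33) (nat_lit 5) (nat_lit 34) (nat_lit 5) (nat_lit 338) (nat_lit 256) (nat_lit 186)) (XT.nd (nat_lit 78) (nat_lit 152) (nat_lit 0) (XT.lf (nat_lit 0) (nat_lit 510980159) (nat_lit 228) (nat_lit 3202087781) (nat_lit 76) (nat_lit 14936836987) (nat_lit 30) (nat_lit 5) (nat_lit 33) (nat_lit 5) (nat_lit 31) (nat_lit 5) (nat_lit 339) (nat_lit 256) (nat_lit 185)) (XT.lf (nat_lit 0) (nat_lit 3398491527) (nat_lit 228) (nat_lit 15522986409) (nat_lit 76) (nat_lit 156558279) (nat_lit 28) (nat_lit 5) (nat_lit 31) (nat_lit 5) (nat_lit 29) (nat_lit 5) (nat_lit 340) (nat_lit 256) (nat_lit 184)))) (XT.nd (nat_lit 78) (nat_lit 152) (nat_lit 0)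 (XT.lf (nat_lit 0) (nat_lit 6417541670) (nat_lit 228) (nat_lit 9014191001) (nat_lit 76) (nat_lit 4085957358) (nat_lit 28) (nat_lit 5) (nat_lit 31) (nat_lit 5) (nat_lit 29) (nat_lit 5) (nat_lit 341) (nat_lit 256) (nat_lit 183)) (XT.nd (nat_lit 78) (nat_lit 152) (nat_lit 0) (XT.lf (nat_lit 0) (nat_lit 9503372475) (nat_lit 228) (nat_lit 2348585701) (nat_lit 76) (nat_lit 8119314239) (nat_lit 28) (nat_lit 5) (nat_lit 31) (nat_lit 5) (nat_lit 29) (nat_lit 5) (nat_lit 342) (nat_lit 256) (nat_lit 182)) (XT.lf (nat_lit 0) (nat_lit 4568807700) (nat_lit 152) (nat_lit 8133790772) (nat_lit 228) (nat_lit 7735263691) (nat_lit 26) (nat_lit 5) (nat_lit 28) (nat_lit 5) (nat_lit 29) (nat_lit 5) (nat_lit 343) (nat_lit 256) (nat_lit 181)))))) (XT.nd (nat_lit 468) (nat_lit 152) (nat_lit 0) (XT.nd (nat_lit 234) (nat_lit 152) (nat_lit 0) (XT.nd (nat_lit 78) (nat_lit 228) (nat_lit 0) (XT.lf (nat_lit 0) (nat_lit 11704898676)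 (nat_lit 152) (nat_lit 4293838175) (nat_lit 228) (nat_lit 4919708469) (nat_lit 26) (nat_lit 5) (nat_lit 28) (nat_lit 5) (nat_lit 29) (nat_lit 5) (nat_lit 344) (nat_lit 256) (nat_lit 180)) (XT.nd (nat_lit 78) (nat_lit 228) (nat_lit 0) (XT.lf (nat_lit 0) (nat_lit 19019181184) (nat_lit 152) (nat_lit 352461196) (nat_lit 228) (nat_lit 2042490192) (nat_lit 26) (nat_lit 5) (nat_lit 28) (nat_lit 5) (nat_lit 29) (nat_lit 5) (nat_lit 345) (nat_lit 256) (nat_lit 179)) (XT.lf (nat_lit 0) (nat_lit 962343418) (nat_lit 228) (nat_lit 17284506980) (nat_lit 76) (nat_lit 3675818050) (nat_lit 23) (nat_lit 5) (nat_lit 26) (nat_lit 5) (nat_lit 24) (nat_lit 5) (nat_lit 346) (nat_lit 256) (nat_lit 178)))) (XT.nd (nat_lit 78) (nat_lit 152) (nat_lit 0) (XT.lf (nat_lit 0) (nat_lit 4022642167) (nat_lit 228) (nat_lit 10573811663) (nat_lit 76) (nat_lit 7849229858) (nat_lit 23) (nat_lit 5) (nat_lit 26) (nat_lit 5) (nat_lit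 24) (nat_lit 5) (nat_lit 347) (nat_lit 256) (nat_lit 177)) (XT.nd (nat_lit 78) (nat_lit 152) (nat_lit 0) (XT.lf (nat_lit 0) (nat_lit 7153835978) (nat_lit 228) (nat_lit 3696248712) (nat_lit 76) (nat_lit 12134952629) (nat_lit 23) (nat_lit 5) (nat_lit 26) (nat_lit 5) (nat_lit 24) (nat_lit 5) (nat_lit 348) (nat_lit 256) (nat_lit 176)) (XT.lf (nat_lit 0) (nat_lit 3420946380) (nat_lit 152) (nat_lit 6970598694) (nat_lit 228) (nat_lit 13148669019) (nat_lit 21) (nat_lit 5) (nat_lit 23) (nat_lit 5) (nat_lit 24) (nat_lit 5) (nat_lit 349) (nat_lit 256) (nat_lit 175))))) (XT.nd (nat_lit 234) (nat_lit 76) (nat_lit 0) (XT.nd (nat_lit 78) (nat_lit 76) (nat_lit 0) (XT.lf (nat_lit 0) (nat_lit 10794305005) (nat_lit 152) (nat_lit 2949373559) (nat_lit 228) (nat_lit 10367868151) (nat_lit 21) (nat_lit 5) (nat_lit 23) (nat_lit 5) (nat_lit 24) (nat_lit 5) (nat_lit 350) (nat_lit 256) (nat_lit 174)) (XT.nd (nat_lit 78)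 (nat_lit 76) (nat_lit 0) (XT.lf (nat_lit 0) (nat_lit 17188268528) (nat_lit 228) (nat_lit 6355254996) (nat_lit 76) (nat_lit 1156757794) (nat_lit 21) (nat_lit 5) (nat_lit 24) (nat_lit 5) (nat_lit 22) (nat_lit 4) (nat_lit 351) (nat_lit 256) (nat_lit 173)) (XT.lf (nat_lit 0) (nat_lit 769723126) (nat_lit 76) (nat_lit 19984073386) (nat_lit 152) (nat_lit 4552371666) (nat_lit 20) (nat_lit 5) (nat_lit 21) (nat_lit 5) (nat_lit 22) (nat_lit 4) (nat_lit 352) (nat_lit 256) (nat_lit 172)))) (XT.nd (nat_lit 78) (nat_lit 76) (nat_lit 0) (XT.lf (nat_lit 0) (nat_lit 8207351196) (nat_lit 76) (nat_lit 16264366114) (nat_lit 152) (nat_lit 1457169222) (nat_lit 20) (nat_lit 5) (nat_lit 21) (nat_lit 5) (nat_lit 22) (nat_lit 4) (nat_lit 353) (nat_lit 256) (nat_lit 171)) (XT.nd (nat_lit 78) (nat_lit 0) (nat_lit 0) (XT.lf (nat_lit 0) (nat_lit 1678713777) (nat_lit 152) (nat_lit 10749661597) (nat_lit 76) (nat_lit 14141980582)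 (nat_lit 19) (nat_lit 5) (nat_lit 21) (nat_lit 5) (nat_lit 20) (nat_lit 5) (nat_lit 354) (nat_lit 256) (nat_lit 170)) (XT.lf (nat_lit 0) (nat_lit 4861521887) (nat_lit 152) (nat_lit 3613005572) (nat_lit 76) (nat_lit 18756661289) (nat_lit 19) (nat_lit 5) (nat_lit 21) (nat_lit 5) (nat_lit 20) (nat_lit 5) (nat_lit 355) (nat_lit 256) (nat_lit 169))))))) (XT.nd (nat_lit 936) (nat_lit 228) (nat_lit 0) (XT.nd (nat_lit 468) (nat_lit 228) (nat_lit 0) (XT.nd (nat_lit 234) (nat_lit 76) (nat_lit 0) (XT.nd (nat_lit 78) (nat_lit 0) (nat_lit 0) (XT.lf (nat_lit 0) (nat_lit 3782485776) (nat_lit 152) (nat_lit 4376344613) (nat_lit 228) (nat_lit 19752461376) (nat_lit 17) (nat_lit 5) (nat_lit 19) (nat_lit 5) (nat_lit 20) (nat_lit 5) (nat_lit 356) (nat_lit 256) (nat_lit 168)) (XT.nd (nat_lit 78) (nat_lit 0) (nat_lit 0) (XT.lf (nat_lit 0) (nat_lit 11445115700) (nat_lit 152) (nat_lit 129311708) (nat_lit 228) (nat_lit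 17036804651) (nat_lit 17) (nat_lit 5) (nat_lit 19) (nat_lit 5) (nat_lit 20) (nat_lit 5) (nat_lit 357) (nat_lit 256) (nat_lit 167)) (XT.lf (nat_lit 0) (nat_lit 15116573679) (nat_lit 228) (nat_lit 10063707930) (nat_lit 76) (nat_lit 4151181335) (nat_lit 17) (nat_lit 5) (nat_lit 20) (nat_lit 5) (nat_lit 18) (nat_lit 4) (nat_lit 358) (nat_lit 256) (nat_lit 166)))) (XT.nd (nat_lit 78) (nat_lit 76) (nat_lit 0) (XT.lf (nat_lit 0) (nat_lit 18750026335) (nat_lit 228) (nat_lit 2777036766) (nat_lit 76) (nat_lit 8546700784) (nat_lit 17) (nat_lit 5) (nat_lit 20) (nat_lit 5) (nat_lit 18) (nat_lit 4) (nat_lit 359) (nat_lit 256) (nat_lit 165)) (XT.nd (nat_lit 78) (nat_lit 0) (nat_lit 0) (XT.lf (nat_lit 0) (nat_lit 4795076359) (nat_lit 76) (nat_lit 17727734063) (nat_lit 152) (nat_lit 8314627568) (nat_lit 16) (nat_lit 5) (nat_lit 17) (nat_lit 5) (nat_lit 18) (nat_lit 4) (nat_lit 360) (nat_lit 256) (nat_lit 164))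 (XT.lf (nat_lit 0) (nat_lit 12624814059) (nat_lit 76) (nat_lit 13796446026) (nat_lit 152) (nat_lit 5202401334) (nat_lit 16) (nat_lit 5) (nat_lit 17) (nat_lit 5) (nat_lit 18) (nat_lit 4) (nat_lit 361) (nat_lit 256) (nat_lit 163))))) (XT.nd (nat_lit 234) (nat_lit 0) (nat_lit 0) (XT.nd (nat_lit 78) (nat_lit 228) (nat_lit 0) (XT.lf (nat_lit 0) (nat_lit 20663749376) (nat_lit 76) (nat_lit 9757806513) (nat_lit 152) (nat_lit 2012382054) (nat_lit 16) (nat_lit 5) (nat_lit 17) (nat_lit 5) (nat_lit 18) (nat_lit 4) (nat_lit 362) (nat_lit 256) (nat_lit 162)) (XT.nd (nat_lit 78) (nat_lit 152) (nat_lit 0) (XT.lf (nat_lit 0) (nat_lit 1233665309) (nat_lit 152) (nat_lit 4362163703) (nat_lit 76) (nat_lit 27672783711) (nat_lit 15) (nat_lit 5) (nat_lit 17) (nat_lit 5) (nat_lit 16) (nat_lit 5) (nat_lit 363) (nat_lit 256) (nat_lit 161)) (XT.lf (nat_lit 0) (nat_lit 3287816421) (nat_lit 152) (nat_lit 1266041998) (nat_lit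 228) (nat_lit 29573367305) (nat_lit 13) (nat_lit 5) (nat_lit 15) (nat_lit 5) (nat_lit 16) (nat_lit 5) (nat_lit 364) (nat_lit 256) (nat_lit 160)))) (XT.nd (nat_lit 78) (nat_lit 0) (nat_lit 0) (XT.lf (nat_lit 0) (nat_lit 8034537723) (nat_lit 228) (nat_lit 23809313748) (nat_lit 76) (nat_lit 3165930933) (nat_lit 13) (nat_lit 5) (nat_lit 16) (nat_lit 5) (nat_lit 14) (nat_lit 4) (nat_lit 365) (nat_lit 256) (nat_lit 159)) (XT.nd (nat_lit 78) (nat_lit 0) (nat_lit 0) (XT.lf (nat_lit 0) (nat_lit 11618284862) (nat_lit 228) (nat_lit 16604752142) (nat_lit 76) (nat_lit 7695830716) (nat_lit 13) (nat_lit 5) (nat_lit 16) (nat_lit 5) (nat_lit 14) (nat_lit 4) (nat_lit 366) (nat_lit 256) (nat_lit 158)) (XT.lf (nat_lit 0) (nat_lit 15296061296) (nat_lit 228) (nat_lit 9207259268) (nat_lit 76) (nat_lit 12352320553) (nat_lit 13) (nat_lit 5) (nat_lit 16) (nat_lit 5) (nat_lit 14) (nat_lit 4) (nat_lit 367) (nat_lit 256)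 (nat_lit 157)))))) (XT.nd (nat_lit 468) (nat_lit 152) (nat_lit 0) (XT.nd (nat_lit 234) (nat_lit 0) (nat_lit 0) (XT.nd (nat_lit 78) (nat_lit 76) (nat_lit 0) (XT.lf (nat_lit 0) (nat_lit 19071080617) (nat_lit 228) (nat_lit 1610371297) (nat_lit 76) (nat_lit 17139469222) (nat_lit 13) (nat_lit 5) (nat_lit 16) (nat_lit 5) (nat_lit 14) (nat_lit 4) (nat_lit 368) (nat_lit 256) (nat_lit 156)) (XT.nd (nat_lit 78) (nat_lit 0) (nat_lit 0) (XT.lf (nat_lit 0) (nat_lit 6315793711) (nat_lit 76) (nat_lit 16691558947) (nat_lit 152) (nat_lit 15806377231) (nat_lit 12) (nat_lit 5) (nat_lit 13) (nat_lit 5) (nat_lit 14) (nat_lit 4) (nat_lit 369) (nat_lit 256) (nat_lit 155)) (XT.lf (nat_lit 0) (nat_lit 14491095664) (nat_lit 76) (nat_lit 12574331624) (nat_lit 152) (nat_lit 12770794273) (nat_lit 12) (nat_lit 5) (nat_lit 13) (nat_lit 5) (nat_lit 14) (nat_lit 4) (nat_lit 370) (nat_lit 256) (nat_lit 154)))) (XT.nd (nat_lit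 78) (nat_lit 0) (nat_lit 0) (XT.lf (nat_lit 0) (nat_lit 22890628483) (nat_lit 76) (nat_lit 8342433963) (nat_lit 152) (nat_lit 9656700790) (nat_lit 12) (nat_lit 5) (nat_lit 13) (nat_lit 5) (nat_lit 14) (nat_lit 4) (nat_lit 371) (nat_lit 256) (nat_lit 153)) (XT.nd (nat_lit 78) (nat_lit 0) (nat_lit 0) (XT.lf (nat_lit 0) (nat_lit 31521731565) (nat_lit 76) (nat_lit 3992168188) (nat_lit 152) (nat_lit 6461375728) (nat_lit 12) (nat_lit 5) (nat_lit 13) (nat_lit 5) (nat_lit 14) (nat_lit 4) (nat_lit 372) (nat_lit 256) (nat_lit 152)) (XT.lf (nat_lit 0) (nat_lit 39916296366) (nat_lit 152) (nat_lit 2706376771) (nat_lit 0) (nat_lit 470895166) (nat_lit 12) (nat_lit 5) (nat_lit 14) (nat_lit 4) (nat_lit 12) (nat_lit 4) (nat_lit 373) (nat_lit 256) (nat_lit 151))))) (XT.nd (nat_lit 234) (nat_lit 0) (nat_lit 0) (XT.nd (nat_lit 78) (nat_lit 0) (nat_lit 0) (XT.lf (nat_lit 0) (nat_lit 281545208) (nat_lit 152) (nat_lit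 38927854721) (nat_lit 76) (nat_lit 5033553545) (nat_lit 10) (nat_lit 5) (nat_lit 12) (nat_lit 5) (nat_lit 11) (nat_lit 4) (nat_lit 374) (nat_lit 256) (nat_lit 150)) (XT.nd (nat_lit 78) (nat_lit 0) (nat_lit 0) (XT.lf (nat_lit 0) (nat_lit 3796663702) (nat_lit 152) (nat_lit 31844581938) (nat_lit 76) (nat_lit 9784147361) (nat_lit 10) (nat_lit 5) (nat_lit 12) (nat_lit 5) (nat_lit 11) (nat_lit 4) (nat_lit 375) (nat_lit 256) (nat_lit 149)) (XT.lf (nat_lit 0) (nat_lit 7406359217) (nat_lit 152) (nat_lit 24567791073) (nat_lit 76) (nat_lit 14669489928) (nat_lit 10) (nat_lit 5) (nat_lit 12) (nat_lit 5) (nat_lit 11) (nat_lit 4) (nat_lit 376) (nat_lit 256) (nat_lit 148)))) (XT.nd (nat_lit 78) (nat_lit 0) (nat_lit 0) (XT.lf (nat_lit 0) (nat_lit 11113785855) (nat_lit 152) (nat_lit 17091123763) (nat_lit 76) (nat_lit 19693849991) (nat_lit 10) (nat_lit 5) (nat_lit 12) (nat_lit 5) (nat_lit 11) (nat_lit 4) (nat_lit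 377) (nat_lit 256) (nat_lit 147)) (XT.nd (nat_lit 78) (nat_lit 0) (nat_lit 0) (XT.lf (nat_lit 0) (nat_lit 14922183116) (nat_lit 152) (nat_lit 9408046999) (nat_lit 76) (nat_lit 24861617769) (nat_lit 10) (nat_lit 5) (nat_lit 12) (nat_lit 5) (nat_lit 11) (nat_lit 4) (nat_lit 378) (nat_lit 256) (nat_lit 146)) (XT.lf (nat_lit 0) (nat_lit 18834878726) (nat_lit 152) (nat_lit 1511847413) (nat_lit 76) (nat_lit 30177308785) (nat_lit 10) (nat_lit 5) (nat_lit 12) (nat_lit 5) (nat_lit 11) (nat_lit 4) (nat_lit 379) (nat_lit 256) (nat_lit 145))))))))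
noncomputable def xc100 : XT := (XT.nd (nat_lit 31980) (nat_lit 0) (nat_lit 9956) (XT.nd (nat_lit 858) (nat_lit 76) (nat_lit 0) (XT.nd (nat_lit 390) (nat_lit 152) (nat_lit 0) (XT.nd (nat_lit 156) (nat_lit 0) (nat_lit 0) (XT.nd (nat_lit 78) (nat_lit 0) (nat_lit 0) (XT.lf (nat_lit 0) (nat_lit 6735814590) (nat_lit 76) (nat_lit 16184225724) (nat_lit 152) (nat_lit 28974501999) (nat_lit 9) (nat_lit 5) (nat_lit 10) (nat_lit 5) (nat_lit 11) (nat_lit 4) (nat_lit 380) (nat_lit 256) (nat_lit 144)) (XT.lf (nat_lit 0) (nat_lit 15245199600) (nat_lit 76) (nat_lit 11888281137) (nat_lit 152) (nat_lit 26172519546) (nat_lit 9) (nat_lit 5) (nat_lit 10) (nat_lit 5) (nat_lit 11) (nat_lit 4) (nat_lit 381) (nat_lit 256) (nat_lit 143))) (XT.nd (nat_lit 78) (nat_lit 0) (nat_lit 0) (XT.lf (nat_lit 0) (nat_lit 23993654272) (nat_lit 76) (nat_lit 7470405336) (nat_lit 152) (nat_lit 23296027199) (nat_lit 9) (nat_lit 5) (nat_lit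 10) (nat_lit 5) (nat_lit 11) (nat_lit 4) (nat_lit 382) (nat_lit 256) (nat_lit 142)) (XT.nd (nat_lit 78) (nat_lit 0) (nat_lit 0) (XT.lf (nat_lit 0) (nat_lit 32988822888) (nat_lit 76) (nat_lit 2926738040) (nat_lit 152) (nat_lit 20342511519) (nat_lit 9) (nat_lit 5) (nat_lit 10) (nat_lit 5) (nat_lit 11) (nat_lit 4) (nat_lit 383) (nat_lit 256) (nat_lit 141)) (XT.lf (nat_lit 0) (nat_lit 40508664621) (nat_lit 152) (nat_lit 15579491082) (nat_lit 0) (nat_lit 1712606712) (nat_lit 9) (nat_lit 5) (nat_lit 11) (nat_lit 4) (nat_lit 9) (nat_lit 4) (nat_lit 384) (nat_lit 256) (nat_lit 140))))) (XT.nd (nat_lit 234) (nat_lit 76) (nat_lit 0) (XT.nd (nat_lit 78) (nat_lit 76) (nat_lit 0) (XT.lf (nat_lit 0) (nat_lit 45259999343) (nat_lit 152) (nat_lit 7703053161) (nat_lit 0) (nat_lit 6426073729) (nat_lit 9) (nat_lit 5) (nat_lit 11) (nat_lit 4) (nat_lit 9) (nat_lit 4) (nat_lit 385) (nat_lit 256) (nat_lit 139)) (XT.nd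 (nat_lit 78) (nat_lit 0) (nat_lit 0) (XT.lf (nat_lit 0) (nat_lit 402942991) (nat_lit 76) (nat_lit 49746513494) (nat_lit 76) (nat_lit 10875823117) (nat_lit 8) (nat_lit 4) (nat_lit 9) (nat_lit 5) (nat_lit 9) (nat_lit 4) (nat_lit 386) (nat_lit 256) (nat_lit 138)) (XT.lf (nat_lit 0) (nat_lit 8895569408) (nat_lit 76) (nat_lit 46359625247) (nat_lit 76) (nat_lit 7453240926) (nat_lit 8) (nat_lit 4) (nat_lit 9) (nat_lit 5) (nat_lit 9) (nat_lit 4) (nat_lit 387) (nat_lit 256) (nat_lit 137)))) (XT.nd (nat_lit 78) (nat_lit 76) (nat_lit 0) (XT.lf (nat_lit 0) (nat_lit 17628940968) (nat_lit 76) (nat_lit 42877214079) (nat_lit 76) (nat_lit 3936175443) (nat_lit 8) (nat_lit 4) (nat_lit 9) (nat_lit 5) (nat_lit 9) (nat_lit 4) (nat_lit 388) (nat_lit 256) (nat_lit 136)) (XT.nd (nat_lit 78) (nat_lit 76) (nat_lit 0) (XT.lf (nat_lit 0) (nat_lit 26610688773) (nat_lit 76) (nat_lit 39296237109) (nat_lit 76) (nat_lit 321553507)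 (nat_lit 8) (nat_lit 4) (nat_lit 9) (nat_lit 5) (nat_lit 9) (nat_lit 4) (nat_lit 389) (nat_lit 256) (nat_lit 135)) (XT.lf (nat_lit 0) (nat_lit 3327558355) (nat_lit 152) (nat_lit 32252405155) (nat_lit 76) (nat_lit 32487500782) (nat_lit 7) (nat_lit 5) (nat_lit 9) (nat_lit 5) (nat_lit 8) (nat_lit 4) (nat_lit 390) (nat_lit 256) (nat_lit 134)))))) (XT.nd (nat_lit 468) (nat_lit 0) (nat_lit 0) (XT.nd (nat_lit 234) (nat_lit 76) (nat_lit 0) (XT.nd (nat_lit 78) (nat_lit 0) (nat_lit 0) (XT.lf (nat_lit 0) (nat_lit 7072328165) (nat_lit 152) (nat_lit 24682236048) (nat_lit 76) (nat_lit 38207184707) (nat_lit 7) (nat_lit 5) (nat_lit 9) (nat_lit 5) (nat_lit 8) (nat_lit 4) (nat_lit 391) (nat_lit 256) (nat_lit 133)) (XT.nd (nat_lit 78) (nat_lit 0) (nat_lit 0) (XT.lf (nat_lit 0) (nat_lit 10922302718) (nat_lit 152) (nat_lit 16897577616) (nat_lit 76) (nat_lit 44093200869) (nat_lit 7) (nat_lit 5) (nat_lit 9) (nat_lit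 5) (nat_lit 8) (nat_lit 4) (nat_lit 392) (nat_lit 256) (nat_lit 132)) (XT.lf (nat_lit 0) (nat_lit 14880846069) (nat_lit 152) (nat_lit 8891627729) (nat_lit 76) (nat_lit 50150692389) (nat_lit 7) (nat_lit 5) (nat_lit 9) (nat_lit 5) (nat_lit 8) (nat_lit 4) (nat_lit 393) (nat_lit 256) (nat_lit 131)))) (XT.nd (nat_lit 78) (nat_lit 76) (nat_lit 0) (XT.lf (nat_lit 0) (nat_lit 18951417140) (nat_lit 152) (nat_lit 657390898) (nat_lit 76) (nat_lit 56384952221) (nat_lit 7) (nat_lit 5) (nat_lit 9) (nat_lit 5) (nat_lit 8) (nat_lit 4) (nat_lit 394) (nat_lit 256) (nat_lit 130)) (XT.nd (nat_lit 78) (nat_lit 0) (nat_lit 0) (XT.lf (nat_lit 0) (nat_lit 7967808483) (nat_lit 76) (nat_lit 15246355706) (nat_lit 152) (nat_lit 54910210742) (nat_lit 6) (nat_lit 5) (nat_lit 7) (nat_lit 5) (nat_lit 8) (nat_lit 4) (nat_lit 395) (nat_lit 256) (nat_lit 129)) (XT.lf (nat_lit 0) (nat_lit 16853807707) (nat_lit 76) (nat_lit 10751172078)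 (nat_lit 152) (nat_lit 52713927085) (nat_lit 6) (nat_lit 5) (nat_lit 7) (nat_lit 5) (nat_lit 8) (nat_lit 4) (nat_lit 396) (nat_lit 256) (nat_lit 128))))) (XT.nd (nat_lit 30420) (nat_lit 0) (nat_lit 19456) (XT.nd (nat_lit 78) (nat_lit 0) (nat_lit 0) (XT.lf (nat_lit 0) (nat_lit 25995287871) (nat_lit 76) (nat_lit 6125967683) (nat_lit 152) (nat_lit 50458211425) (nat_lit 6) (nat_lit 5) (nat_lit 7) (nat_lit 5) (nat_lit 8) (nat_lit 4) (nat_lit 397) (nat_lit 256) (nat_lit 127)) (XT.nd (nat_lit 78) (nat_lit 0) (nat_lit 0) (XT.lf (nat_lit 0) (nat_lit 35400236676) (nat_lit 76) (nat_lit 1366701080) (nat_lit 152) (nat_lit 48141092749) (nat_lit 6) (nat_lit 5) (nat_lit 7) (nat_lit 5) (nat_lit 8) (nat_lit 4) (nat_lit 398) (nat_lit 256) (nat_lit 126)) (XT.lf (nat_lit 0) (nat_lit 41580025803) (nat_lit 152) (nat_lit 42263700155) (nat_lit 0) (nat_lit 3461887954) (nat_lit 6) (nat_lit 5) (nat_lit 8) (nat_lit 4) (nat_lit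 6) (nat_lit 4) (nat_lit 399) (nat_lit 256) (nat_lit 125)))) (XT.nd (nat_lit 78) (nat_lit 304) (nat_lit 0) (XT.lf (nat_lit 0) (nat_lit 1305068969) (nat_lit 228) (nat_lit 631414813) (nat_lit 0) (nat_lit 1305068969) (nat_lit 266) (nat_lit 5) (nat_lit 269) (nat_lit 4) (nat_lit 266) (nat_lit 4) (nat_lit 266) (nat_lit 257) (nat_lit 257)) (XT.nd (nat_lit 78) (nat_lit 76) (nat_lit 0) (XT.lf (nat_lit 0) (nat_lit 1974425119) (nat_lit 228) (nat_lit 3484654606) (nat_lit 228) (nat_lit 1039436104) (nat_lit 263) (nat_lit 4) (nat_lit 266) (nat_lit 5) (nat_lit 266) (nat_lit 4) (nat_lit 267) (nat_lit 257) (nat_lit 256)) (XT.lf (nat_lit 0) (nat_lit 1751464592) (nat_lit 304) (nat_lit 1263743924) (nat_lit 76) (nat_lit 3501749930) (nat_lit 262) (nat_lit 5) (nat_lit 266) (nat_lit 5) (nat_lit 263) (nat_lit 4) (nat_lit 268) (nat_lit 257) (nat_lit 255))))))) (XT.nd (nat_lit 858) (nat_lit 6232) (nat_lit 0) (XT.nd (nat_lit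 390) (nat_lit 1976) (nat_lit 0) (XT.nd (nat_lit 156) (nat_lit 912) (nat_lit 0) (XT.nd (nat_lit 78) (nat_lit 76) (nat_lit 0) (XT.lf (nat_lit 0) (nat_lit 2060016302) (nat_lit 304) (nat_lit 2464164144) (nat_lit 380) (nat_lit 2014267425) (nat_lit 258) (nat_lit 5) (nat_lit 262) (nat_lit 5) (nat_lit 263) (nat_lit 4) (nat_lit 269) (nat_lit 257) (nat_lit 254)) (XT.lf (nat_lit 0) (nat_lit 716565284) (nat_lit 380) (nat_lit 1124818642) (nat_lit 76) (nat_lit 4721920233) (nat_lit 257) (nat_lit 5) (nat_lit 262) (nat_lit 5) (nat_lit 258) (nat_lit 5) (nat_lit 270) (nat_lit 257) (nat_lit 253))) (XT.nd (nat_lit 78) (nat_lit 532) (nat_lit 0) (XT.lf (nat_lit 0) (nat_lit 2290058858) (nat_lit 380) (nat_lit 1123873478) (nat_lit 456) (nat_lit 3176962805) (nat_lit 252) (nat_lit 5) (nat_lit 257) (nat_lit 5) (nat_lit 258) (nat_lit 5) (nat_lit 271) (nat_lit 257) (nat_lit 252)) (XT.nd (nat_lit 78) (nat_lit 532) (nat_lit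 0) (XT.lf (nat_lit 0) (nat_lit 5766980805) (nat_lit 380) (nat_lit 341891633) (nat_lit 456) (nat_lit 513272072) (nat_lit 252) (nat_lit 5) (nat_lit 257) (nat_lit 5) (nat_lit 258) (nat_lit 5) (nat_lit 272) (nat_lit 257) (nat_lit 251)) (XT.lf (nat_lit 0) (nat_lit 2124414026) (nat_lit 532) (nat_lit 4000650895) (nat_lit 76) (nat_lit 530806332) (nat_lit 245) (nat_lit 5) (nat_lit 252) (nat_lit 5) (nat_lit 246) (nat_lit 5) (nat_lit 273) (nat_lit 257) (nat_lit 250))))) (XT.nd (nat_lit 234) (nat_lit 760) (nat_lit 0) (XT.nd (nat_lit 78) (nat_lit 1216) (nat_lit 0) (XT.lf (nat_lit 0) (nat_lit 4752222830) (nat_lit 532) (nat_lit 476911289) (nat_lit 76) (nat_lit 1463986169) (nat_lit 245) (nat_lit 5) (nat_lit 252) (nat_lit 5) (nat_lit 246) (nat_lit 5) (nat_lit 274) (nat_lit 257) (nat_lit 249)) (XT.nd (nat_lit 78) (nat_lit 608) (nat_lit 0) (XT.lf (nat_lit 0) (nat_lit 654446252) (nat_lit 608) (nat_lit 3590452979)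 (nat_lit 76) (nat_lit 2488424826) (nat_lit 237) (nat_lit 5) (nat_lit 245) (nat_lit 5) (nat_lit 238) (nat_lit 5) (nat_lit 275) (nat_lit 257) (nat_lit 248)) (XT.lf (nat_lit 0) (nat_lit 21691867) (nat_lit 608) (nat_lit 3184687990) (nat_lit 684) (nat_lit 3570521939) (nat_lit 229) (nat_lit 5) (nat_lit 237) (nat_lit 5) (nat_lit 238) (nat_lit 5) (nat_lit 276) (nat_lit 257) (nat_lit 247)))) (XT.nd (nat_lit 78) (nat_lit 760) (nat_lit 0) (XT.lf (nat_lit 0) (nat_lit 3750547310) (nat_lit 608) (nat_lit 2035164725) (nat_lit 684) (nat_lit 1037818115) (nat_lit 229) (nat_lit 5) (nat_lit 237) (nat_lit 5) (nat_lit 238) (nat_lit 5) (nat_lit 277) (nat_lit 257) (nat_lit 246)) (XT.nd (nat_lit 78) (nat_lit 0) (nat_lit 0) (XT.lf (nat_lit 0) (nat_lit 652056045) (nat_lit 684) (nat_lit 810420678) (nat_lit 760) (nat_lit 5411212817) (nat_lit 219) (nat_lit 5) (nat_lit 228) (nat_lit 5) (nat_lit 229) (nat_lit 5) (nat_lit 278)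 (nat_lit 257) (nat_lit 245)) (XT.lf (nat_lit 0) (nat_lit 3970584766) (nat_lit 760) (nat_lit 2455020695) (nat_lit 76) (nat_lit 501075800) (nat_lit 219) (nat_lit 5) (nat_lit 229) (nat_lit 5) (nat_lit 220) (nat_lit 5) (nat_lit 279) (nat_lit 257) (nat_lit 244)))))) (XT.nd (nat_lit 468) (nat_lit 3572) (nat_lit 0) (XT.nd (nat_lit 234) (nat_lit 988) (nat_lit 0) (XT.nd (nat_lit 78) (nat_lit 912) (nat_lit 0) (XT.lf (nat_lit 0) (nat_lit 1377902358) (nat_lit 760) (nat_lit 5117680775) (nat_lit 836) (nat_lit 487668745) (nat_lit 209) (nat_lit 5) (nat_lit 219) (nat_lit 5) (nat_lit 220) (nat_lit 5) (nat_lit 280) (nat_lit 257) (nat_lit 243)) (XT.nd (nat_lit 78) (nat_lit 836) (nat_lit 0) (XT.lf (nat_lit 0) (nat_lit 1960825784) (nat_lit 836) (nat_lit 1751339803) (nat_lit 76) (nat_lit 3330603006) (nat_lit 208) (nat_lit 5) (nat_lit 219) (nat_lit 5) (nat_lit 209) (nat_lit 5) (nat_lit 281) (nat_lit 257) (nat_lit 242))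 (XT.lf (nat_lit 0) (nat_lit 2191463028) (nat_lit 836) (nat_lit 2225949325) (nat_lit 912) (nat_lit 2688398751) (nat_lit 197) (nat_lit 5) (nat_lit 208) (nat_lit 5) (nat_lit 209) (nat_lit 5) (nat_lit 282) (nat_lit 257) (nat_lit 241)))) (XT.nd (nat_lit 78) (nat_lit 988) (nat_lit 0) (XT.lf (nat_lit 0) (nat_lit 6224323506) (nat_lit 836) (nat_lit 666046712) (nat_lit 912) (nat_lit 282306418) (nat_lit 197) (nat_lit 5) (nat_lit 208) (nat_lit 5) (nat_lit 209) (nat_lit 5) (nat_lit 283) (nat_lit 257) (nat_lit 240)) (XT.nd (nat_lit 78) (nat_lit 0) (nat_lit 0) (XT.lf (nat_lit 0) (nat_lit 2118927273) (nat_lit 988) (nat_lit 4139753118) (nat_lit 76) (nat_lit 983459965) (nat_lit 184) (nat_lit 5) (nat_lit 197) (nat_lit 5) (nat_lit 185) (nat_lit 5) (nat_lit 284) (nat_lit 257) (nat_lit 239)) (XT.lf (nat_lit 0) (nat_lit 4530665525) (nat_lit 988) (nat_lit 94541144) (nat_lit 76) (nat_lit 2690267187) (nat_lit 184) (nat_lit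 5) (nat_lit 197) (nat_lit 5) (nat_lit 185) (nat_lit 5) (nat_lit 285) (nat_lit 257) (nat_lit 238))))) (XT.nd (nat_lit 234) (nat_lit 1444) (nat_lit 0) (XT.nd (nat_lit 78) (nat_lit 1140) (nat_lit 0) (XT.lf (nat_lit 0) (nat_lit 4087966957) (nat_lit 988) (nat_lit 2896061494) (nat_lit 1064) (nat_lit 408089053) (nat_lit 171) (nat_lit 5) (nat_lit 184) (nat_lit 5) (nat_lit 185) (nat_lit 5) (nat_lit 286) (nat_lit 257) (nat_lit 237)) (XT.nd (nat_lit 78) (nat_lit 0) (nat_lit 0) (XT.lf (nat_lit 0) (nat_lit 859239721) (nat_lit 1064) (nat_lit 1080659381) (nat_lit 1140) (nat_lit 5532557385) (nat_lit 156) (nat_lit 5) (nat_lit 170) (nat_lit 5) (nat_lit 171) (nat_lit 5) (nat_lit 287) (nat_lit 257) (nat_lit 236)) (XT.lf (nat_lit 0) (nat_lit 4323400851) (nat_lit 1140) (nat_lit 2417279696) (nat_lit 76) (nat_lit 815377933) (nat_lit 156) (nat_lit 5) (nat_lit 171) (nat_lit 5) (nat_lit 157) (nat_lit 5) (nat_lit 288) (nat_lit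 257) (nat_lit 235)))) (XT.nd (nat_lit 78) (nat_lit 608) (nat_lit 0) (XT.lf (nat_lit 0) (nat_lit 1865796325) (nat_lit 836) (nat_lit 4875220879) (nat_lit 912) (nat_lit 902440363) (nat_lit 145) (nat_lit 5) (nat_lit 156) (nat_lit 5) (nat_lit 157) (nat_lit 5) (nat_lit 289) (nat_lit 257) (nat_lit 234)) (XT.nd (nat_lit 78) (nat_lit 532) (nat_lit 0) (XT.lf (nat_lit 0) (nat_lit 1427594068) (nat_lit 912) (nat_lit 1485745903) (nat_lit 76) (nat_lit 4821090394) (nat_lit 144) (nat_lit 5) (nat_lit 156) (nat_lit 5) (nat_lit 145) (nat_lit 5) (nat_lit 290) (nat_lit 257) (nat_lit 233)) (XT.lf (nat_lit 0) (nat_lit 2919587064) (nat_lit 532) (nat_lit 854261768) (nat_lit 608) (nat_lit 4055234862) (nat_lit 137) (nat_lit 5) (nat_lit 144) (nat_lit 5) (nat_lit 145) (nat_lit 5) (nat_lit 291) (nat_lit 257) (nat_lit 232))))))))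
noncomputable def xc101 : XT := (XT.nd (nat_lit 1794) (nat_lit 2736) (nat_lit 0) (XT.nd (nat_lit 858) (nat_lit 2280) (nat_lit 0) (XT.nd (nat_lit 390) (nat_lit 1444) (nat_lit 0) (XT.nd (nat_lit 156) (nat_lit 988) (nat_lit 0) (XT.nd (nat_lit 78) (nat_lit 608) (nat_lit 0) (XT.lf (nat_lit 0) (nat_lit 6155456318) (nat_lit 608) (nat_lit 515684630) (nat_lit 76) (nat_lit 1256635383) (nat_lit 137) (nat_lit 5) (nat_lit 145) (nat_lit 5) (nat_lit 138) (nat_lit 5) (nat_lit 292) (nat_lit 257) (nat_lit 231)) (XT.lf (nat_lit 0) (nat_lit 554033687) (nat_lit 608) (nat_lit 4018424607) (nat_lit 76) (nat_lit 3457357044) (nat_lit 129) (nat_lit 5) (nat_lit 137) (nat_lit 5) (nat_lit 130) (nat_lit 5) (nat_lit 293) (nat_lit 257) (nat_lit 230))) (XT.nd (nat_lit 78) (nat_lit 532) (nat_lit 0) (XT.lf (nat_lit 0) (nat_lit 478222737) (nat_lit 456) (nat_lit 2386083451) (nat_lit 532) (nat_lit 5271726440) (nat_lit 123) (nat_lit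 5) (nat_lit 129) (nat_lit 5) (nat_lit 130) (nat_lit 5) (nat_lit 294) (nat_lit 257) (nat_lit 229)) (XT.nd (nat_lit 78) (nat_lit 532) (nat_lit 0) (XT.lf (nat_lit 0) (nat_lit 5129166877) (nat_lit 456) (nat_lit 96337621) (nat_lit 532) (nat_lit 3020615494) (nat_lit 123) (nat_lit 5) (nat_lit 129) (nat_lit 5) (nat_lit 130) (nat_lit 5) (nat_lit 295) (nat_lit 257) (nat_lit 228)) (XT.lf (nat_lit 0) (nat_lit 1504798525) (nat_lit 532) (nat_lit 6131669214) (nat_lit 608) (nat_lit 723802604) (nat_lit 116) (nat_lit 5) (nat_lit 123) (nat_lit 5) (nat_lit 124) (nat_lit 5) (nat_lit 296) (nat_lit 257) (nat_lit 227))))) (XT.nd (nat_lit 234) (nat_lit 912) (nat_lit 0) (XT.nd (nat_lit 78) (nat_lit 456) (nat_lit 0) (XT.lf (nat_lit 0) (nat_lit 1585725400) (nat_lit 608) (nat_lit 2228438440) (nat_lit 76) (nat_lit 4664053235) (nat_lit 115) (nat_lit 5) (nat_lit 123) (nat_lit 5) (nat_lit 116) (nat_lit 5) (nat_lit 297) (nat_lit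 257) (nat_lit 226)) (XT.nd (nat_lit 78) (nat_lit 0) (nat_lit 0) (XT.lf (nat_lit 0) (nat_lit 2517633572) (nat_lit 456) (nat_lit 1401325797) (nat_lit 532) (nat_lit 4681576170) (nat_lit 109) (nat_lit 5) (nat_lit 115) (nat_lit 5) (nat_lit 116) (nat_lit 5) (nat_lit 298) (nat_lit 257) (nat_lit 225)) (XT.lf (nat_lit 0) (nat_lit 6301056544) (nat_lit 532) (nat_lit 1347524485) (nat_lit 76) (nat_lit 1078690478) (nat_lit 109) (nat_lit 5) (nat_lit 116) (nat_lit 5) (nat_lit 110) (nat_lit 5) (nat_lit 299) (nat_lit 257) (nat_lit 224)))) (XT.nd (nat_lit 78) (nat_lit 456) (nat_lit 0) (XT.lf (nat_lit 0) (nat_lit 3523828931) (nat_lit 456) (nat_lit 5225837787) (nat_lit 532) (nat_lit 108401951) (nat_lit 103) (nat_lit 5) (nat_lit 109) (nat_lit 5) (nat_lit 110) (nat_lit 5) (nat_lit 300) (nat_lit 257) (nat_lit 223)) (XT.nd (nat_lit 78) (nat_lit 380) (nat_lit 0) (XT.lf (nat_lit 0) (nat_lit 2195856375) (nat_lit 532) (nat_lit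 506999032) (nat_lit 76) (nat_lit 6290539968) (nat_lit 102) (nat_lit 5) (nat_lit 109) (nat_lit 5) (nat_lit 103) (nat_lit 5) (nat_lit 301) (nat_lit 257) (nat_lit 222)) (XT.lf (nat_lit 0) (nat_lit 4491908789) (nat_lit 380) (nat_lit 67498213) (nat_lit 456) (nat_lit 4573673613) (nat_lit 97) (nat_lit 5) (nat_lit 102) (nat_lit 5) (nat_lit 103) (nat_lit 5) (nat_lit 302) (nat_lit 257) (nat_lit 221)))))) (XT.nd (nat_lit 468) (nat_lit 1064) (nat_lit 0) (XT.nd (nat_lit 234) (nat_lit 380) (nat_lit 0) (XT.nd (nat_lit 78) (nat_lit 456) (nat_lit 0) (XT.lf (nat_lit 0) (nat_lit 293963900) (nat_lit 380) (nat_lit 6683328033) (nat_lit 456) (nat_lit 2300259929) (nat_lit 92) (nat_lit 5) (nat_lit 97) (nat_lit 5) (nat_lit 98) (nat_lit 5) (nat_lit 303) (nat_lit 257) (nat_lit 220)) (XT.nd (nat_lit 78) (nat_lit 380) (nat_lit 0) (XT.lf (nat_lit 0) (nat_lit 38835381) (nat_lit 456) (nat_lit 4015327236) (nat_lit 76) (nat_lit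 5372326756) (nat_lit 91) (nat_lit 5) (nat_lit 97) (nat_lit 5) (nat_lit 92) (nat_lit 5) (nat_lit 304) (nat_lit 257) (nat_lit 219)) (XT.lf (nat_lit 0) (nat_lit 1040144893) (nat_lit 380) (nat_lit 1323459329) (nat_lit 456) (nat_lit 7216845477) (nat_lit 86) (nat_lit 5) (nat_lit 91) (nat_lit 5) (nat_lit 92) (nat_lit 5) (nat_lit 305) (nat_lit 257) (nat_lit 218)))) (XT.nd (nat_lit 78) (nat_lit 380) (nat_lit 0) (XT.lf (nat_lit 0) (nat_lit 4765846039) (nat_lit 456) (nat_lit 3483114702) (nat_lit 76) (nat_lit 1489923518) (nat_lit 86) (nat_lit 5) (nat_lit 92) (nat_lit 5) (nat_lit 87) (nat_lit 5) (nat_lit 306) (nat_lit 257) (nat_lit 217)) (XT.nd (nat_lit 78) (nat_lit 0) (nat_lit 0) (XT.lf (nat_lit 0) (nat_lit 1687185850) (nat_lit 380) (nat_lit 5536142303) (nat_lit 456) (nat_lit 2679333293) (nat_lit 81) (nat_lit 5) (nat_lit 86) (nat_lit 5) (nat_lit 87) (nat_lit 5) (nat_lit 307) (nat_lit 257) (nat_lit 216))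 (XT.lf (nat_lit 0) (nat_lit 7026143877) (nat_lit 380) (nat_lit 2718202735) (nat_lit 456) (nat_lit 327393288) (nat_lit 81) (nat_lit 5) (nat_lit 86) (nat_lit 5) (nat_lit 87) (nat_lit 5) (nat_lit 308) (nat_lit 257) (nat_lit 215))))) (XT.nd (nat_lit 234) (nat_lit 380) (nat_lit 0) (XT.nd (nat_lit 78) (nat_lit 304) (nat_lit 0) (XT.lf (nat_lit 0) (nat_lit 2033320848) (nat_lit 380) (nat_lit 8002181139) (nat_lit 76) (nat_lit 210489154) (nat_lit 76) (nat_lit 5) (nat_lit 81) (nat_lit 5) (nat_lit 77) (nat_lit 5) (nat_lit 309) (nat_lit 257) (nat_lit 214)) (XT.nd (nat_lit 78) (nat_lit 304) (nat_lit 0) (XT.lf (nat_lit 0) (nat_lit 4472325254) (nat_lit 380) (nat_lit 2758513975) (nat_lit 76) (nat_lit 3194187297) (nat_lit 76) (nat_lit 5) (nat_lit 81) (nat_lit 5) (nat_lit 77) (nat_lit 5) (nat_lit 310) (nat_lit 257) (nat_lit 213)) (XT.lf (nat_lit 0) (nat_lit 2637782719) (nat_lit 304) (nat_lit 4329429539) (nat_lit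 380) (nat_lit 3642812473) (nat_lit 72) (nat_lit 5) (nat_lit 76) (nat_lit 5) (nat_lit 77) (nat_lit 5) (nat_lit 311) (nat_lit 257) (nat_lit 212)))) (XT.nd (nat_lit 78) (nat_lit 380) (nat_lit 0) (XT.lf (nat_lit 0) (nat_lit 8196912543) (nat_lit 304) (nat_lit 1325952953) (nat_lit 380) (nat_lit 1278200798) (nat_lit 72) (nat_lit 5) (nat_lit 76) (nat_lit 5) (nat_lit 77) (nat_lit 5) (nat_lit 312) (nat_lit 257) (nat_lit 211)) (XT.nd (nat_lit 78) (nat_lit 0) (nat_lit 0) (XT.lf (nat_lit 0) (nat_lit 1138856833) (nat_lit 380) (nat_lit 8099332940) (nat_lit 76) (nat_lit 1759259751) (nat_lit 67) (nat_lit 5) (nat_lit 72) (nat_lit 5) (nat_lit 68) (nat_lit 5) (nat_lit 313) (nat_lit 257) (nat_lit 210)) (XT.lf (nat_lit 0) (nat_lit 3601780273) (nat_lit 380) (nat_lit 2661620879) (nat_lit 76) (nat_lit 4936037074) (nat_lit 67) (nat_lit 5) (nat_lit 72) (nat_lit 5) (nat_lit 68) (nat_lit 5) (nat_lit 314) (nat_lit 257) (nat_lit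 209))))))) (XT.nd (nat_lit 936) (nat_lit 1064) (nat_lit 0) (XT.nd (nat_lit 468) (nat_lit 760) (nat_lit 0) (XT.nd (nat_lit 234) (nat_lit 380) (nat_lit 0) (XT.nd (nat_lit 78) (nat_lit 228) (nat_lit 0) (XT.lf (nat_lit 0) (nat_lit 2942783652) (nat_lit 304) (nat_lit 3184638505) (nat_lit 380) (nat_lit 5280462594) (nat_lit 63) (nat_lit 5) (nat_lit 67) (nat_lit 5) (nat_lit 68) (nat_lit 5) (nat_lit 315) (nat_lit 257) (nat_lit 208)) (XT.nd (nat_lit 78) (nat_lit 228) (nat_lit 0) (XT.lf (nat_lit 0) (nat_lit 8716545809) (nat_lit 304) (nat_lit 344091) (nat_lit 380) (nat_lit 2906114319) (nat_lit 63) (nat_lit 5) (nat_lit 67) (nat_lit 5) (nat_lit 68) (nat_lit 5) (nat_lit 316) (nat_lit 257) (nat_lit 207)) (XT.lf (nat_lit 0) (nat_lit 2789006381) (nat_lit 228) (nat_lit 8615543977) (nat_lit 304) (nat_lit 439471115) (nat_lit 60) (nat_lit 5) (nat_lit 63) (nat_lit 5) (nat_lit 64) (nat_lit 5) (nat_lit 317) (nat_lit 257)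 (nat_lit 206)))) (XT.nd (nat_lit 78) (nat_lit 304) (nat_lit 0) (XT.lf (nat_lit 0) (nat_lit 2052161783) (nat_lit 304) (nat_lit 3429489603) (nat_lit 76) (nat_lit 6589708221) (nat_lit 59) (nat_lit 5) (nat_lit 63) (nat_lit 5) (nat_lit 60) (nat_lit 5) (nat_lit 318) (nat_lit 257) (nat_lit 205)) (XT.nd (nat_lit 78) (nat_lit 0) (nat_lit 0) (XT.lf (nat_lit 0) (nat_lit 2354825099) (nat_lit 304) (nat_lit 2240966602) (nat_lit 380) (nat_lit 7710067636) (nat_lit 55) (nat_lit 5) (nat_lit 59) (nat_lit 5) (nat_lit 60) (nat_lit 5) (nat_lit 319) (nat_lit 257) (nat_lit 204)) (XT.lf (nat_lit 0) (nat_lit 7225122650) (nat_lit 380) (nat_lit 4226330077) (nat_lit 76) (nat_lit 1095712400) (nat_lit 55) (nat_lit 5) (nat_lit 60) (nat_lit 5) (nat_lit 56) (nat_lit 5) (nat_lit 320) (nat_lit 257) (nat_lit 203))))) (XT.nd (nat_lit 234) (nat_lit 228) (nat_lit 0) (XT.nd (nat_lit 78) (nat_lit 304) (nat_lit 0) (XT.lf (nat_lit 0) (nat_lit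 1629176740) (nat_lit 228) (nat_lit 8306931123) (nat_lit 304) (nat_lit 2859570290) (nat_lit 52) (nat_lit 5) (nat_lit 55) (nat_lit 5) (nat_lit 56) (nat_lit 5) (nat_lit 321) (nat_lit 257) (nat_lit 202)) (XT.nd (nat_lit 78) (nat_lit 304) (nat_lit 0) (XT.lf (nat_lit 0) (nat_lit 7696938108) (nat_lit 228) (nat_lit 5039628579) (nat_lit 304) (nat_lit 314885362) (nat_lit 52) (nat_lit 5) (nat_lit 55) (nat_lit 5) (nat_lit 56) (nat_lit 5) (nat_lit 322) (nat_lit 257) (nat_lit 201)) (XT.lf (nat_lit 0) (nat_lit 571506904) (nat_lit 228) (nat_lit 1661218659) (nat_lit 304) (nat_lit 11082407900) (nat_lit 48) (nat_lit 5) (nat_lit 51) (nat_lit 5) (nat_lit 52) (nat_lit 5) (nat_lit 323) (nat_lit 257) (nat_lit 200)))) (XT.nd (nat_lit 78) (nat_lit 228) (nat_lit 0) (XT.lf (nat_lit 0) (nat_lit 4888985033) (nat_lit 304) (nat_lit 6870892316) (nat_lit 76) (nat_lit 1825643541) (nat_lit 48) (nat_lit 5) (nat_lit 52) (nat_lit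 5) (nat_lit 49) (nat_lit 5) (nat_lit 324) (nat_lit 257) (nat_lit 199)) (XT.nd (nat_lit 78) (nat_lit 228) (nat_lit 0) (XT.lf (nat_lit 0) (nat_lit 7608819518) (nat_lit 304) (nat_lit 886701214) (nat_lit 76) (nat_lit 5369026835) (nat_lit 48) (nat_lit 5) (nat_lit 52) (nat_lit 5) (nat_lit 49) (nat_lit 5) (nat_lit 325) (nat_lit 257) (nat_lit 198)) (XT.lf (nat_lit 0) (nat_lit 5334234425) (nat_lit 228) (nat_lit 5095678421) (nat_lit 304) (nat_lit 3721485243) (nat_lit 45) (nat_lit 5) (nat_lit 48) (nat_lit 5) (nat_lit 49) (nat_lit 5) (nat_lit 326) (nat_lit 257) (nat_lit 197)))))) (XT.nd (nat_lit 468) (nat_lit 608) (nat_lit 0) (XT.nd (nat_lit 234) (nat_lit 152) (nat_lit 0) (XT.nd (nat_lit 78) (nat_lit 304) (nat_lit 0) (XT.lf (nat_lit 0) (nat_lit 11713562843) (nat_lit 228) (nat_lit 1599892563) (nat_lit 304) (nat_lit 1134105932) (nat_lit 45) (nat_lit 5) (nat_lit 48) (nat_lit 5) (nat_lit 49) (nat_lit 5) (nat_lit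 327) (nat_lit 257) (nat_lit 196)) (XT.nd (nat_lit 78) (nat_lit 0) (nat_lit 0) (XT.lf (nat_lit 0) (nat_lit 1524053351) (nat_lit 304) (nat_lit 11231350718) (nat_lit 76) (nat_lit 1996112296) (nat_lit 41) (nat_lit 5) (nat_lit 45) (nat_lit 5) (nat_lit 42) (nat_lit 5) (nat_lit 328) (nat_lit 257) (nat_lit 195)) (XT.lf (nat_lit 0) (nat_lit 4252625019) (nat_lit 304) (nat_lit 5119161035) (nat_lit 76) (nat_lit 5692101432) (nat_lit 41) (nat_lit 5) (nat_lit 45) (nat_lit 5) (nat_lit 42) (nat_lit 5) (nat_lit 329) (nat_lit 257) (nat_lit 194)))) (XT.nd (nat_lit 78) (nat_lit 0) (nat_lit 0) (XT.lf (nat_lit 0) (nat_lit 1154202817) (nat_lit 152) (nat_lit 5890567398) (nat_lit 228) (nat_lit 8341445088) (nat_lit 39) (nat_lit 5) (nat_lit 41) (nat_lit 5) (nat_lit 42) (nat_lit 5) (nat_lit 330) (nat_lit 257) (nat_lit 193)) (XT.nd (nat_lit 78) (nat_lit 0) (nat_lit 0) (XT.lf (nat_lit 0) (nat_lit 7676429569) (nat_lit 152)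 (nat_lit 2266995243) (nat_lit 228) (nat_lit 5774141768) (nat_lit 39) (nat_lit 5) (nat_lit 41) (nat_lit 5) (nat_lit 42) (nat_lit 5) (nat_lit 331) (nat_lit 257) (nat_lit 192)) (XT.lf (nat_lit 0) (nat_lit 12914875923) (nat_lit 228) (nat_lit 1722341736) (nat_lit 76) (nat_lit 1422100559) (nat_lit 39) (nat_lit 5) (nat_lit 42) (nat_lit 5) (nat_lit 40) (nat_lit 5) (nat_lit 332) (nat_lit 257) (nat_lit 191))))) (XT.nd (nat_lit 234) (nat_lit 152) (nat_lit 0) (XT.nd (nat_lit 78) (nat_lit 228) (nat_lit 0) (XT.lf (nat_lit 0) (nat_lit 4815083706) (nat_lit 228) (nat_lit 11201692324) (nat_lit 304) (nat_lit 393341121) (nat_lit 36) (nat_lit 5) (nat_lit 39) (nat_lit 5) (nat_lit 40) (nat_lit 5) (nat_lit 333) (nat_lit 257) (nat_lit 190)) (XT.nd (nat_lit 78) (nat_lit 152) (nat_lit 0) (XT.lf (nat_lit 0) (nat_lit 2382907948) (nat_lit 304) (nat_lit 5253217410) (nat_lit 76) (nat_lit 9134935917) (nat_lit 35) (nat_lit 5)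 (nat_lit 39) (nat_lit 5) (nat_lit 36) (nat_lit 5) (nat_lit 334) (nat_lit 257) (nat_lit 189)) (XT.lf (nat_lit 0) (nat_lit 1258142972) (nat_lit 152) (nat_lit 3961955122) (nat_lit 228) (nat_lit 11923083047) (nat_lit 33) (nat_lit 5) (nat_lit 35) (nat_lit 5) (nat_lit 36) (nat_lit 5) (nat_lit 335) (nat_lit 257) (nat_lit 188)))) (XT.nd (nat_lit 78) (nat_lit 152) (nat_lit 0) (XT.lf (nat_lit 0) (nat_lit 8031568960) (nat_lit 152) (nat_lit 137726625) (nat_lit 228) (nat_lit 9356392398) (nat_lit 33) (nat_lit 5) (nat_lit 35) (nat_lit 5) (nat_lit 36) (nat_lit 5) (nat_lit 336) (nat_lit 257) (nat_lit 187)) (XT.nd (nat_lit 78) (nat_lit 152) (nat_lit 0) (XT.lf (nat_lit 0) (nat_lit 11217976819) (nat_lit 228) (nat_lit 2988432902) (nat_lit 76) (nat_lit 3712959325) (nat_lit 33) (nat_lit 5) (nat_lit 36) (nat_lit 5) (nat_lit 34) (nat_lit 5) (nat_lit 337) (nat_lit 257) (nat_lit 186)) (XT.lf (nat_lit 0) (nat_lit 3744892965)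 (nat_lit 152) (nat_lit 10625799088) (nat_lit 228) (nat_lit 3953819682) (nat_lit 31) (nat_lit 5) (nat_lit 33) (nat_lit 5) (nat_lit 34) (nat_lit 5) (nat_lit 338) (nat_lit 257) (nat_lit 185))))))))
noncomputable def xc102 : XT := (XT.nd (nat_lit 1794) (nat_lit 532) (nat_lit 0) (XT.nd (nat_lit 858) (nat_lit 532) (nat_lit 0) (XT.nd (nat_lit 390) (nat_lit 380) (nat_lit 0) (XT.nd (nat_lit 156) (nat_lit 152) (nat_lit 0) (XT.nd (nat_lit 78) (nat_lit 76) (nat_lit 0) (XT.lf (nat_lit 0) (nat_lit 10702619737) (nat_lit 152) (nat_lit 6921106505) (nat_lit 228) (nat_lit 1117937911) (nat_lit 31) (nat_lit 5) (nat_lit 33) (nat_lit 5) (nat_lit 34) (nat_lit 5) (nat_lit 339) (nat_lit 257) (nat_lit 184)) (XT.lf (nat_lit 0) (nat_lit 1743847739) (nat_lit 228) (nat_lit 1357814992) (nat_lit 76) (nat_lit 16069894123) (nat_lit 30) (nat_lit 5) (nat_lit 33) (nat_lit 5) (nat_lit 31) (nat_lit 5) (nat_lit 340) (nat_lit 257) (nat_lit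 183))) (XT.nd (nat_lit 78) (nat_lit 0) (nat_lit 0) (XT.lf (nat_lit 0) (nat_lit 4707919463) (nat_lit 228) (nat_lit 14036994940) (nat_lit 76) (nat_lit 867958048) (nat_lit 28) (nat_lit 5) (nat_lit 31) (nat_lit 5) (nat_lit 29) (nat_lit 5) (nat_lit 341) (nat_lit 257) (nat_lit 182)) (XT.nd (nat_lit 78) (nat_lit 0) (nat_lit 0) (XT.lf (nat_lit 0) (nat_lit 7782371989) (nat_lit 228) (nat_lit 7389780749) (nat_lit 76) (nat_lit 4894655516) (nat_lit 28) (nat_lit 5) (nat_lit 31) (nat_lit 5) (nat_lit 29) (nat_lit 5) (nat_lit 342) (nat_lit 257) (nat_lit 181)) (XT.lf (nat_lit 0) (nat_lit 10926632939) (nat_lit 228) (nat_lit 579396687) (nat_lit 76) (nat_lit 9029029042) (nat_lit 28) (nat_lit 5) (nat_lit 31) (nat_lit 5) (nat_lit 29) (nat_lit 5) (nat_lit 343) (nat_lit 257) (nat_lit 180))))) (XT.nd (nat_lit 234) (nat_lit 228) (nat_lit 0) (XT.nd (nat_lit 78) (nat_lit 0) (nat_lit 0) (XT.lf (nat_lit 0) (nat_lit 6527482765)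 (nat_lit 152) (nat_lit 7678713119) (nat_lit 228) (nat_lit 6809954580) (nat_lit 26) (nat_lit 5) (nat_lit 28) (nat_lit 5) (nat_lit 29) (nat_lit 5) (nat_lit 344) (nat_lit 257) (nat_lit 179)) (XT.nd (nat_lit 78) (nat_lit 0) (nat_lit 0) (XT.lf (nat_lit 0) (nat_lit 13824599843) (nat_lit 152) (nat_lit 3743923828) (nat_lit 228) (nat_lit 3943642421) (nat_lit 26) (nat_lit 5) (nat_lit 28) (nat_lit 5) (nat_lit 29) (nat_lit 5) (nat_lit 345) (nat_lit 257) (nat_lit 178)) (XT.lf (nat_lit 0) (nat_lit 21013718518) (nat_lit 228) (nat_lit 719754458) (nat_lit 76) (nat_lit 290151064) (nat_lit 26) (nat_lit 5) (nat_lit 29) (nat_lit 5) (nat_lit 27) (nat_lit 4) (nat_lit 346) (nat_lit 257) (nat_lit 177)))) (XT.nd (nat_lit 78) (nat_lit 0) (nat_lit 0) (XT.lf (nat_lit 0) (nat_lit 2052671424) (nat_lit 228) (nat_lit 16054413736) (nat_lit 76) (nat_lit 4440378321) (nat_lit 23) (nat_lit 5) (nat_lit 26) (nat_lit 5) (nat_lit 24)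 (nat_lit 5) (nat_lit 347) (nat_lit 257) (nat_lit 176)) (XT.nd (nat_lit 78) (nat_lit 0) (nat_lit 0) (XT.lf (nat_lit 0) (nat_lit 5173862892) (nat_lit 228) (nat_lit 9193328486) (nat_lit 76) (nat_lit 8719935617) (nat_lit 23) (nat_lit 5) (nat_lit 26) (nat_lit 5) (nat_lit 24) (nat_lit 5) (nat_lit 348) (nat_lit 257) (nat_lit 175)) (XT.lf (nat_lit 0) (nat_lit 8368976746) (nat_lit 228) (nat_lit 2158886147) (nat_lit 76) (nat_lit 13115728260) (nat_lit 23) (nat_lit 5) (nat_lit 26) (nat_lit 5) (nat_lit 24) (nat_lit 5) (nat_lit 349) (nat_lit 257) (nat_lit 174)))))) (XT.nd (nat_lit 468) (nat_lit 228) (nat_lit 0) (XT.nd (nat_lit 234) (nat_lit 152) (nat_lit 0) (XT.nd (nat_lit 78) (nat_lit 0) (nat_lit 0) (XT.lf (nat_lit 0) (nat_lit 5155665484) (nat_lit 152) (nat_lit 6534698761) (nat_lit 228) (nat_lit 12525491159) (nat_lit 21) (nat_lit 5) (nat_lit 23) (nat_lit 5) (nat_lit 24) (nat_lit 5) (nat_lit 350) (nat_lit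 257) (nat_lit 173)) (XT.nd (nat_lit 78) (nat_lit 0) (nat_lit 0) (XT.lf (nat_lit 0) (nat_lit 12702688246) (nat_lit 152) (nat_lit 2411623801) (nat_lit 228) (nat_lit 9690906204) (nat_lit 21) (nat_lit 5) (nat_lit 23) (nat_lit 5) (nat_lit 24) (nat_lit 5) (nat_lit 351) (nat_lit 257) (nat_lit 172)) (XT.lf (nat_lit 0) (nat_lit 18640171768) (nat_lit 228) (nat_lit 4984544451) (nat_lit 76) (nat_lit 1787587657) (nat_lit 21) (nat_lit 5) (nat_lit 24) (nat_lit 5) (nat_lit 22) (nat_lit 4) (nat_lit 352) (nat_lit 257) (nat_lit 171)))) (XT.nd (nat_lit 78) (nat_lit 76) (nat_lit 0) (XT.lf (nat_lit 0) (nat_lit 2338875483) (nat_lit 76) (nat_lit 19961382220) (nat_lit 152) (nat_lit 3736508037) (nat_lit 20) (nat_lit 5) (nat_lit 21) (nat_lit 5) (nat_lit 22) (nat_lit 4) (nat_lit 353) (nat_lit 257) (nat_lit 170)) (XT.nd (nat_lit 78) (nat_lit 76) (nat_lit 0) (XT.lf (nat_lit 0) (nat_lit 9954601503) (nat_lit 76) (nat_lit 16148206449)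 (nat_lit 152) (nat_lit 576190338) (nat_lit 20) (nat_lit 5) (nat_lit 21) (nat_lit 5) (nat_lit 22) (nat_lit 4) (nat_lit 354) (nat_lit 257) (nat_lit 169)) (XT.lf (nat_lit 0) (nat_lit 2609317764) (nat_lit 152) (nat_lit 9596524374) (nat_lit 76) (nat_lit 15134419159) (nat_lit 19) (nat_lit 5) (nat_lit 21) (nat_lit 5) (nat_lit 20) (nat_lit 5) (nat_lit 355) (nat_lit 257) (nat_lit 168))))) (XT.nd (nat_lit 234) (nat_lit 76) (nat_lit 0) (XT.nd (nat_lit 78) (nat_lit 152) (nat_lit 0) (XT.lf (nat_lit 0) (nat_lit 5861971984) (nat_lit 152) (nat_lit 2288748097) (nat_lit 76) (nat_lit 19870991380) (nat_lit 19) (nat_lit 5) (nat_lit 21) (nat_lit 5) (nat_lit 20) (nat_lit 5) (nat_lit 356) (nat_lit 257) (nat_lit 167)) (XT.nd (nat_lit 78) (nat_lit 0) (nat_lit 0) (XT.lf (nat_lit 0) (nat_lit 5314562426) (nat_lit 152) (nat_lit 3932382394) (nat_lit 228) (nat_lit 19475632962) (nat_lit 17) (nat_lit 5) (nat_lit 19) (nat_lit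 5) (nat_lit 20) (nat_lit 5) (nat_lit 357) (nat_lit 257) (nat_lit 166)) (XT.lf (nat_lit 0) (nat_lit 12744534479) (nat_lit 228) (nat_lit 16282610669) (nat_lit 76) (nat_lit 417007306) (nat_lit 17) (nat_lit 5) (nat_lit 20) (nat_lit 5) (nat_lit 18) (nat_lit 4) (nat_lit 358) (nat_lit 257) (nat_lit 165)))) (XT.nd (nat_lit 78) (nat_lit 76) (nat_lit 0) (XT.lf (nat_lit 0) (nat_lit 16370220950) (nat_lit 228) (nat_lit 9009105704) (nat_lit 76) (nat_lit 4807366609) (nat_lit 17) (nat_lit 5) (nat_lit 20) (nat_lit 5) (nat_lit 18) (nat_lit 4) (nat_lit 359) (nat_lit 257) (nat_lit 164)) (XT.nd (nat_lit 78) (nat_lit 76) (nat_lit 0) (XT.lf (nat_lit 0) (nat_lit 20089371844) (nat_lit 228) (nat_lit 1543344507) (nat_lit 76) (nat_lit 9319266694) (nat_lit 17) (nat_lit 5) (nat_lit 20) (nat_lit 5) (nat_lit 18) (nat_lit 4) (nat_lit 360) (nat_lit 257) (nat_lit 163)) (XT.lf (nat_lit 0) (nat_lit 6243020214) (nat_lit 76) (nat_lit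 17722228420) (nat_lit 152) (nat_lit 7773641514) (nat_lit 16) (nat_lit 5) (nat_lit 17) (nat_lit 5) (nat_lit 18) (nat_lit 4) (nat_lit 361) (nat_lit 257) (nat_lit 162))))))) (XT.nd (nat_lit 858) (nat_lit 228) (nat_lit 0) (XT.nd (nat_lit 390) (nat_lit 76) (nat_lit 0) (XT.nd (nat_lit 156) (nat_lit 228) (nat_lit 0) (XT.nd (nat_lit 78) (nat_lit 0) (nat_lit 0) (XT.lf (nat_lit 0) (nat_lit 14269666796) (nat_lit 76) (nat_lit 13688652354) (nat_lit 152) (nat_lit 4591070577) (nat_lit 16) (nat_lit 5) (nat_lit 17) (nat_lit 5) (nat_lit 18) (nat_lit 4) (nat_lit 362) (nat_lit 257) (nat_lit 161)) (XT.lf (nat_lit 0) (nat_lit 22512893231) (nat_lit 76) (nat_lit 9544048423) (nat_lit 152) (nat_lit 1327702256) (nat_lit 16) (nat_lit 5) (nat_lit 17) (nat_lit 5) (nat_lit 18) (nat_lit 4) (nat_lit 363) (nat_lit 257) (nat_lit 160))) (XT.nd (nat_lit 78) (nat_lit 152) (nat_lit 0) (XT.lf (nat_lit 0) (nat_lit 1979910827) (nat_lit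 152) (nat_lit 3284891084) (nat_lit 76) (nat_lit 28979998293) (nat_lit 15) (nat_lit 5) (nat_lit 17) (nat_lit 5) (nat_lit 16) (nat_lit 5) (nat_lit 364) (nat_lit 257) (nat_lit 159)) (XT.nd (nat_lit 78) (nat_lit 0) (nat_lit 0) (XT.lf (nat_lit 0) (nat_lit 4582743958) (nat_lit 152) (nat_lit 807807927) (nat_lit 228) (nat_lit 29738911743) (nat_lit 13) (nat_lit 5) (nat_lit 15) (nat_lit 5) (nat_lit 16) (nat_lit 5) (nat_lit 365) (nat_lit 257) (nat_lit 158)) (XT.lf (nat_lit 0) (nat_lit 8959891950) (nat_lit 228) (nat_lit 23345824241) (nat_lit 76) (nat_lit 3733270398) (nat_lit 13) (nat_lit 5) (nat_lit 16) (nat_lit 5) (nat_lit 14) (nat_lit 4) (nat_lit 366) (nat_lit 257) (nat_lit 157))))) (XT.nd (nat_lit 234) (nat_lit 76) (nat_lit 0) (XT.nd (nat_lit 78) (nat_lit 0) (nat_lit 0) (XT.lf (nat_lit 0) (nat_lit 12631219908) (nat_lit 228) (nat_lit 15959429736) (nat_lit 76) (nat_lit 8385309071) (nat_lit 13) (nat_lit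 5) (nat_lit 16) (nat_lit 5) (nat_lit 14) (nat_lit 4) (nat_lit 367) (nat_lit 257) (nat_lit 156)) (XT.nd (nat_lit 78) (nat_lit 0) (nat_lit 0) (XT.lf (nat_lit 0) (nat_lit 16399978572) (nat_lit 228) (nat_lit 8373316881) (nat_lit 76) (nat_lit 13168136222) (nat_lit 13) (nat_lit 5) (nat_lit 16) (nat_lit 5) (nat_lit 14) (nat_lit 4) (nat_lit 368) (nat_lit 257) (nat_lit 155)) (XT.lf (nat_lit 0) (nat_lit 20269461033) (nat_lit 228) (nat_lit 580857033) (nat_lit 76) (nat_lit 18085931019) (nat_lit 13) (nat_lit 5) (nat_lit 16) (nat_lit 5) (nat_lit 14) (nat_lit 4) (nat_lit 369) (nat_lit 257) (nat_lit 154)))) (XT.nd (nat_lit 78) (nat_lit 0) (nat_lit 0) (XT.lf (nat_lit 0) (nat_lit 7572526009) (nat_lit 76) (nat_lit 16743314134) (nat_lit 152) (nat_lit 15643256309) (nat_lit 12) (nat_lit 5) (nat_lit 13) (nat_lit 5) (nat_lit 14) (nat_lit 4) (nat_lit 370) (nat_lit 257) (nat_lit 153)) (XT.nd (nat_lit 78) (nat_lit 0) (nat_lit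 0) (XT.lf (nat_lit 0) (nat_lit 15962001823) (nat_lit 76) (nat_lit 12515647416) (nat_lit 152) (nat_lit 12535168355) (nat_lit 12) (nat_lit 5) (nat_lit 13) (nat_lit 5) (nat_lit 14) (nat_lit 4) (nat_lit 371) (nat_lit 257) (nat_lit 152)) (XT.lf (nat_lit 0) (nat_lit 24583340821) (nat_lit 76) (nat_lit 8169489354) (nat_lit 152) (nat_lit 9345673905) (nat_lit 12) (nat_lit 5) (nat_lit 13) (nat_lit 5) (nat_lit 14) (nat_lit 4) (nat_lit 372) (nat_lit 257) (nat_lit 151)))))) (XT.nd (nat_lit 468) (nat_lit 76) (nat_lit 0) (XT.nd (nat_lit 234) (nat_lit 0) (nat_lit 0) (XT.nd (nat_lit 78) (nat_lit 152) (nat_lit 0) (XT.lf (nat_lit 0) (nat_lit 33444076215) (nat_lit 76) (nat_lit 3701042333) (nat_lit 152) (nat_lit 6071986020) (nat_lit 12) (nat_lit 5) (nat_lit 13) (nat_lit 5) (nat_lit 14) (nat_lit 4) (nat_lit 373) (nat_lit 257) (nat_lit 150)) (XT.nd (nat_lit 78) (nat_lit 152) (nat_lit 0) (XT.lf (nat_lit 0) (nat_lit 41666942089)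 (nat_lit 152) (nat_lit 1826235894) (nat_lit 0) (nat_lit 876160797) (nat_lit 12) (nat_lit 5) (nat_lit 14) (nat_lit 4) (nat_lit 12) (nat_lit 4) (nat_lit 374) (nat_lit 257) (nat_lit 149)) (XT.lf (nat_lit 0) (nat_lit 842015853) (nat_lit 152) (nat_lit 39132380139) (nat_lit 76) (nat_lit 5578868855) (nat_lit 10) (nat_lit 5) (nat_lit 12) (nat_lit 5) (nat_lit 11) (nat_lit 4) (nat_lit 375) (nat_lit 257) (nat_lit 148)))) (XT.nd (nat_lit 78) (nat_lit 0) (nat_lit 0) (XT.lf (nat_lit 0) (nat_lit 4446509524) (nat_lit 152) (nat_lit 31864666752) (nat_lit 76) (nat_lit 10460495766) (nat_lit 10) (nat_lit 5) (nat_lit 12) (nat_lit 5) (nat_lit 11) (nat_lit 4) (nat_lit 376) (nat_lit 257) (nat_lit 147)) (XT.nd (nat_lit 78) (nat_lit 0) (nat_lit 0) (XT.lf (nat_lit 0) (nat_lit 8148885830) (nat_lit 152) (nat_lit 24396812529) (nat_lit 76) (nat_lit 15481248397) (nat_lit 10) (nat_lit 5) (nat_lit 12) (nat_lit 5) (nat_lit 11)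 (nat_lit 4) (nat_lit 377) (nat_lit 257) (nat_lit 146)) (XT.lf (nat_lit 0) (nat_lit 11952379854) (nat_lit 152) (nat_lit 16722292160) (nat_lit 76) (nat_lit 20645513812) (nat_lit 10) (nat_lit 5) (nat_lit 12) (nat_lit 5) (nat_lit 11) (nat_lit 4) (nat_lit 378) (nat_lit 257) (nat_lit 145))))) (XT.nd (nat_lit 234) (nat_lit 0) (nat_lit 0) (XT.nd (nat_lit 78) (nat_lit 76) (nat_lit 0) (XT.lf (nat_lit 0) (nat_lit 15860315041) (nat_lit 152) (nat_lit 8834399753) (nat_lit 76) (nat_lit 25957804477) (nat_lit 10) (nat_lit 5) (nat_lit 12) (nat_lit 5) (nat_lit 11) (nat_lit 4) (nat_lit 379) (nat_lit 257) (nat_lit 144)) (XT.nd (nat_lit 78) (nat_lit 76) (nat_lit 0) (XT.lf (nat_lit 0) (nat_lit 19876106088) (nat_lit 152) (nat_lit 726242975) (nat_lit 76) (nat_lit 31422762200) (nat_lit 10) (nat_lit 5) (nat_lit 12) (nat_lit 5) (nat_lit 11) (nat_lit 4) (nat_lit 380) (nat_lit 257) (nat_lit 143)) (XT.lf (nat_lit 0) (nat_lit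 7760702223) (nat_lit 76) (nat_lit 16317160335) (nat_lit 152) (nat_lit 29359060579) (nat_lit 9) (nat_lit 5) (nat_lit 10) (nat_lit 5) (nat_lit 11) (nat_lit 4) (nat_lit 381) (nat_lit 257) (nat_lit 142)))) (XT.nd (nat_lit 78) (nat_lit 0) (nat_lit 0) (XT.lf (nat_lit 0) (nat_lit 16501403350) (nat_lit 76) (nat_lit 11902607085) (nat_lit 152) (nat_lit 26487135442) (nat_lit 9) (nat_lit 5) (nat_lit 10) (nat_lit 5) (nat_lit 11) (nat_lit 4) (nat_lit 382) (nat_lit 257) (nat_lit 141)) (XT.nd (nat_lit 78) (nat_lit 0) (nat_lit 0) (XT.lf (nat_lit 0) (nat_lit 25489044252) (nat_lit 76) (nat_lit 7362165568) (nat_lit 152) (nat_lit 23538053947) (nat_lit 9) (nat_lit 5) (nat_lit 10) (nat_lit 5) (nat_lit 11) (nat_lit 4) (nat_lit 383) (nat_lit 257) (nat_lit 140)) (XT.lf (nat_lit 0) (nat_lit 34731478208) (nat_lit 76) (nat_lit 2691868407) (nat_lit 152) (nat_lit 20509239226) (nat_lit 9) (nat_lit 5) (nat_lit 10) (nat_lit 5)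 (nat_lit 11) (nat_lit 4) (nat_lit 384) (nat_lit 257) (nat_lit 139))))))))
noncomputable def xc103 : XT := (XT.nd (nat_lit 31902) (nat_lit 0) (nat_lit 8892) (XT.nd (nat_lit 858) (nat_lit 76) (nat_lit 0) (XT.nd (nat_lit 390) (nat_lit 76) (nat_lit 0) (XT.nd (nat_lit 156) (nat_lit 76) (nat_lit 0) (XT.nd (nat_lit 78) (nat_lit 0) (nat_lit 0) (XT.lf (nat_lit 0) (nat_lit 42144721236) (nat_lit 152) (nat_lit 15305984849) (nat_lit 0) (nat_lit 2071145385) (nat_lit 9) (nat_lit 5) (nat_lit 11) (nat_lit 4) (nat_lit 9) (nat_lit 4) (nat_lit 385) (nat_lit 257) (nat_lit 138)) (XT.lf (nat_lit 0) (nat_lit 47026339786) (nat_lit 152) (nat_lit 7214833139) (nat_lit 0) (nat_lit 6917069991) (nat_lit 9) (nat_lit 5) (nat_lit 11) (nat_lit 4) (nat_lit 9) (nat_lit 4) (nat_lit 386) (nat_lit 257) (nat_lit 137))) (XT.nd (nat_lit 78) (nat_lit 0) (nat_lit 0) (XT.lf (nat_lit 0) (nat_lit 1127290823) (nat_lit 76) (nat_lit 50930137257)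 (nat_lit 76) (nat_lit 10786213147) (nat_lit 8) (nat_lit 4) (nat_lit 9) (nat_lit 5) (nat_lit 9) (nat_lit 4) (nat_lit 387) (nat_lit 257) (nat_lit 136)) (XT.nd (nat_lit 78) (nat_lit 0) (nat_lit 0) (XT.lf (nat_lit 0) (nat_lit 9853950609) (nat_lit 76) (nat_lit 47450635711) (nat_lit 76) (nat_lit 7273066635) (nat_lit 8) (nat_lit 4) (nat_lit 9) (nat_lit 5) (nat_lit 9) (nat_lit 4) (nat_lit 388) (nat_lit 257) (nat_lit 135)) (XT.lf (nat_lit 0) (nat_lit 18829182128) (nat_lit 76) (nat_lit 43872483615) (nat_lit 76) (nat_lit 3662249524) (nat_lit 8) (nat_lit 4) (nat_lit 9) (nat_lit 5) (nat_lit 9) (nat_lit 4) (nat_lit 389) (nat_lit 257) (nat_lit 134))))) (XT.nd (nat_lit 234) (nat_lit 0) (nat_lit 0) (XT.nd (nat_lit 78) (nat_lit 0) (nat_lit 0) (XT.lf (nat_lit 0) (nat_lit 48429428) (nat_lit 152) (nat_lit 40143635958) (nat_lit 76) (nat_lit 28011909346) (nat_lit 7) (nat_lit 5) (nat_lit 9) (nat_lit 5) (nat_lit 8) (nat_lit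 4) (nat_lit 390) (nat_lit 257) (nat_lit 133)) (XT.nd (nat_lit 78) (nat_lit 0) (nat_lit 0) (XT.lf (nat_lit 0) (nat_lit 3789682808) (nat_lit 152) (nat_lit 32579681506) (nat_lit 76) (nat_lit 33729002985) (nat_lit 7) (nat_lit 5) (nat_lit 9) (nat_lit 5) (nat_lit 8) (nat_lit 4) (nat_lit 391) (nat_lit 257) (nat_lit 132)) (XT.lf (nat_lit 0) (nat_lit 7636243352) (nat_lit 152) (nat_lit 24801056718) (nat_lit 76) (nat_lit 39612504306) (nat_lit 7) (nat_lit 5) (nat_lit 9) (nat_lit 5) (nat_lit 8) (nat_lit 4) (nat_lit 392) (nat_lit 257) (nat_lit 131)))) (XT.nd (nat_lit 78) (nat_lit 0) (nat_lit 0) (XT.lf (nat_lit 0) (nat_lit 11591472131) (nat_lit 152) (nat_lit 16800964739) (nat_lit 76) (nat_lit 45667554233) (nat_lit 7) (nat_lit 5) (nat_lit 9) (nat_lit 5) (nat_lit 8) (nat_lit 4) (nat_lit 393) (nat_lit 257) (nat_lit 130)) (XT.nd (nat_lit 78) (nat_lit 0) (nat_lit 0) (XT.lf (nat_lit 0) (nat_lit 15658825171) (nat_lit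 152) (nat_lit 8572415197) (nat_lit 76) (nat_lit 51899443586) (nat_lit 7) (nat_lit 5) (nat_lit 9) (nat_lit 5) (nat_lit 8) (nat_lit 4) (nat_lit 394) (nat_lit 257) (nat_lit 129)) (XT.lf (nat_lit 0) (nat_lit 19841856470) (nat_lit 152) (nat_lit 108218097) (nat_lit 76) (nat_lit 58313617705) (nat_lit 7) (nat_lit 5) (nat_lit 9) (nat_lit 5) (nat_lit 8) (nat_lit 4) (nat_lit 395) (nat_lit 257) (nat_lit 128)))))) (XT.nd (nat_lit 30576) (nat_lit 0) (nat_lit 18620) (XT.nd (nat_lit 30342) (nat_lit 0) (nat_lit 19760) (XT.nd (nat_lit 78) (nat_lit 0) (nat_lit 0) (XT.lf (nat_lit 0) (nat_lit 8770159868) (nat_lit 76) (nat_lit 15458365376) (nat_lit 152) (nat_lit 56229825481) (nat_lit 6) (nat_lit 5) (nat_lit 7) (nat_lit 5) (nat_lit 8) (nat_lit 4) (nat_lit 396) (nat_lit 257) (nat_lit 127)) (XT.nd (nat_lit 78) (nat_lit 0) (nat_lit 0) (XT.lf (nat_lit 0) (nat_lit 17906331774) (nat_lit 76) (nat_lit 10835473258) (nat_lit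 152) (nat_lit 53977197730) (nat_lit 6) (nat_lit 5) (nat_lit 7) (nat_lit 5) (nat_lit 8) (nat_lit 4) (nat_lit 397) (nat_lit 257) (nat_lit 126)) (XT.lf (nat_lit 0) (nat_lit 27306126931) (nat_lit 76) (nat_lit 6078451585) (nat_lit 152) (nat_lit 51663077022) (nat_lit 6) (nat_lit 5) (nat_lit 7) (nat_lit 5) (nat_lit 8) (nat_lit 4) (nat_lit 398) (nat_lit 257) (nat_lit 125)))) (XT.nd (nat_lit 78) (nat_lit 228) (nat_lit 0) (XT.lf (nat_lit 0) (nat_lit 2696804446) (nat_lit 76) (nat_lit 266710909) (nat_lit 76) (nat_lit 266710909) (nat_lit 269) (nat_lit 4) (nat_lit 270) (nat_lit 5) (nat_lit 270) (nat_lit 4) (nat_lit 264) (nat_lit 258) (nat_lit 258)) (XT.nd (nat_lit 78) (nat_lit 0) (nat_lit 0) (XT.lf (nat_lit 0) (nat_lit 2037696563) (nat_lit 152) (nat_lit 243992536) (nat_lit 228) (nat_lit 4189281056) (nat_lit 266) (nat_lit 5) (nat_lit 268) (nat_lit 5) (nat_lit 269) (nat_lit 4) (nat_lit 265) (nat_lit 258) (nat_lit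 257)) (XT.lf (nat_lit 0) (nat_lit 5077044042) (nat_lit 228) (nat_lit 1294561113) (nat_lit 0) (nat_lit 113250483) (nat_lit 266) (nat_lit 5) (nat_lit 269) (nat_lit 4) (nat_lit 266) (nat_lit 4) (nat_lit 266) (nat_lit 258) (nat_lit 256))))) (XT.nd (nat_lit 234) (nat_lit 456) (nat_lit 0) (XT.nd (nat_lit 78) (nat_lit 380) (nat_lit 0) (XT.lf (nat_lit 0) (nat_lit 1346428587) (nat_lit 304) (nat_lit 4604542071) (nat_lit 76) (nat_lit 550616846) (nat_lit 262) (nat_lit 5) (nat_lit 266) (nat_lit 5) (nat_lit 263) (nat_lit 4) (nat_lit 267) (nat_lit 258) (nat_lit 255)) (XT.nd (nat_lit 78) (nat_lit 380) (nat_lit 0) (XT.lf (nat_lit 0) (nat_lit 4067379953) (nat_lit 304) (nat_lit 1385863755) (nat_lit 76) (nat_lit 1068159734) (nat_lit 262) (nat_lit 5) (nat_lit 266) (nat_lit 5) (nat_lit 263) (nat_lit 4) (nat_lit 268) (nat_lit 258) (nat_lit 254)) (XT.lf (nat_lit 0) (nat_lit 241018528) (nat_lit 380) (nat_lit 4642825271)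 (nat_lit 76) (nat_lit 1660647485) (nat_lit 257) (nat_lit 5) (nat_lit 262) (nat_lit 5) (nat_lit 258) (nat_lit 5) (nat_lit 269) (nat_lit 258) (nat_lit 253)))) (XT.nd (nat_lit 78) (nat_lit 456) (nat_lit 0) (XT.lf (nat_lit 0) (nat_lit 2884802125) (nat_lit 380) (nat_lit 1340145093) (nat_lit 76) (nat_lit 2345419337) (nat_lit 257) (nat_lit 5) (nat_lit 262) (nat_lit 5) (nat_lit 258) (nat_lit 5) (nat_lit 270) (nat_lit 258) (nat_lit 252)) (XT.nd (nat_lit 78) (nat_lit 76) (nat_lit 0) (XT.lf (nat_lit 0) (nat_lit 2039186122) (nat_lit 380) (nat_lit 3494218600) (nat_lit 456) (nat_lit 1066178418) (nat_lit 252) (nat_lit 5) (nat_lit 257) (nat_lit 5) (nat_lit 258) (nat_lit 5) (nat_lit 271) (nat_lit 258) (nat_lit 251)) (XT.lf (nat_lit 0) (nat_lit 1520441209) (nat_lit 456) (nat_lit 1161497852) (nat_lit 76) (nat_lit 3949963029) (nat_lit 251) (nat_lit 5) (nat_lit 257) (nat_lit 5) (nat_lit 252) (nat_lit 5) (nat_lit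 272) (nat_lit 258) (nat_lit 250))))))) (XT.nd (nat_lit 936) (nat_lit 4636) (nat_lit 0) (XT.nd (nat_lit 468) (nat_lit 2660) (nat_lit 0) (XT.nd (nat_lit 234) (nat_lit 1368) (nat_lit 0) (XT.nd (nat_lit 78) (nat_lit 608) (nat_lit 0) (XT.lf (nat_lit 0) (nat_lit 2312008452) (nat_lit 456) (nat_lit 1782987344) (nat_lit 532) (nat_lit 2572227358) (nat_lit 245) (nat_lit 5) (nat_lit 251) (nat_lit 5) (nat_lit 252) (nat_lit 5) (nat_lit 273) (nat_lit 258) (nat_lit 249)) (XT.nd (nat_lit 78) (nat_lit 608) (nat_lit 0) (XT.lf (nat_lit 0) (nat_lit 5852217337) (nat_lit 456) (nat_lit 817884953) (nat_lit 532) (nat_lit 36095499) (nat_lit 245) (nat_lit 5) (nat_lit 251) (nat_lit 5) (nat_lit 252) (nat_lit 5) (nat_lit 274) (nat_lit 258) (nat_lit 248)) (XT.lf (nat_lit 0) (nat_lit 2467462426) (nat_lit 608) (nat_lit 4031089819) (nat_lit 76) (nat_lit 249074728) (nat_lit 237) (nat_lit 5) (nat_lit 245) (nat_lit 5) (nat_lit 238)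 (nat_lit 5) (nat_lit 275) (nat_lit 258) (nat_lit 247)))) (XT.nd (nat_lit 78) (nat_lit 1368) (nat_lit 0) (XT.lf (nat_lit 0) (nat_lit 4977419681) (nat_lit 608) (nat_lit 450886074) (nat_lit 76) (nat_lit 1364290514) (nat_lit 237) (nat_lit 5) (nat_lit 245) (nat_lit 5) (nat_lit 238) (nat_lit 5) (nat_lit 276) (nat_lit 258) (nat_lit 246)) (XT.nd (nat_lit 78) (nat_lit 684) (nat_lit 0) (XT.lf (nat_lit 0) (nat_lit 657679805) (nat_lit 684) (nat_lit 3609371997) (nat_lit 76) (nat_lit 2573465952) (nat_lit 228) (nat_lit 5) (nat_lit 237) (nat_lit 5) (nat_lit 229) (nat_lit 5) (nat_lit 277) (nat_lit 258) (nat_lit 245)) (XT.lf (nat_lit 0) (nat_lit 62975205) (nat_lit 684) (nat_lit 3028908886) (nat_lit 760) (nat_lit 3799989980) (nat_lit 219) (nat_lit 5) (nat_lit 228) (nat_lit 5) (nat_lit 229) (nat_lit 5) (nat_lit 278) (nat_lit 258) (nat_lit 244))))) (XT.nd (nat_lit 234) (nat_lit 1824) (nat_lit 0) (XT.nd (nat_lit 78)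 (nat_lit 836) (nat_lit 0) (XT.lf (nat_lit 0) (nat_lit 3856725240) (nat_lit 684) (nat_lit 1699051025) (nat_lit 760) (nat_lit 1390533519) (nat_lit 219) (nat_lit 5) (nat_lit 228) (nat_lit 5) (nat_lit 229) (nat_lit 5) (nat_lit 279) (nat_lit 258) (nat_lit 243)) (XT.nd (nat_lit 78) (nat_lit 0) (nat_lit 0) (XT.lf (nat_lit 0) (nat_lit 702411833) (nat_lit 760) (nat_lit 295797438) (nat_lit 836) (nat_lit 6006230599) (nat_lit 208) (nat_lit 5) (nat_lit 218) (nat_lit 5) (nat_lit 219) (nat_lit 5) (nat_lit 280) (nat_lit 258) (nat_lit 242)) (XT.lf (nat_lit 0) (nat_lit 3396597040) (nat_lit 836) (nat_lit 2481765223) (nat_lit 76) (nat_lit 1186778951) (nat_lit 208) (nat_lit 5) (nat_lit 219) (nat_lit 5) (nat_lit 209) (nat_lit 5) (nat_lit 281) (nat_lit 258) (nat_lit 241)))) (XT.nd (nat_lit 78) (nat_lit 988) (nat_lit 0) (XT.lf (nat_lit 0) (nat_lit 1414910963) (nat_lit 836) (nat_lit 4394160184) (nat_lit 912) (nat_lit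 1320540363) (nat_lit 197) (nat_lit 5) (nat_lit 208) (nat_lit 5) (nat_lit 209) (nat_lit 5) (nat_lit 282) (nat_lit 258) (nat_lit 240)) (XT.nd (nat_lit 78) (nat_lit 912) (nat_lit 0) (XT.lf (nat_lit 0) (nat_lit 1028039175) (nat_lit 912) (nat_lit 1790631701) (nat_lit 76) (nat_lit 4378681428) (nat_lit 196) (nat_lit 5) (nat_lit 208) (nat_lit 5) (nat_lit 197) (nat_lit 5) (nat_lit 283) (nat_lit 258) (nat_lit 239)) (XT.lf (nat_lit 0) (nat_lit 2219326608) (nat_lit 912) (nat_lit 1150940081) (nat_lit 988) (nat_lit 3898168397) (nat_lit 184) (nat_lit 5) (nat_lit 196) (nat_lit 5) (nat_lit 197) (nat_lit 5) (nat_lit 284) (nat_lit 258) (nat_lit 238)))))) (XT.nd (nat_lit 468) (nat_lit 1596) (nat_lit 0) (XT.nd (nat_lit 234) (nat_lit 1976) (nat_lit 0) (XT.nd (nat_lit 78) (nat_lit 1064) (nat_lit 0) (XT.lf (nat_lit 0) (nat_lit 5736447059) (nat_lit 988) (nat_lit 1024276900) (nat_lit 76) (nat_lit 582504130) (nat_lit 184)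 (nat_lit 5) (nat_lit 197) (nat_lit 5) (nat_lit 185) (nat_lit 5) (nat_lit 285) (nat_lit 258) (nat_lit 237)) (XT.nd (nat_lit 78) (nat_lit 0) (nat_lit 0) (XT.lf (nat_lit 0) (nat_lit 711496874) (nat_lit 1064) (nat_lit 4319632411) (nat_lit 76) (nat_lit 2389910375) (nat_lit 170) (nat_lit 5) (nat_lit 184) (nat_lit 5) (nat_lit 171) (nat_lit 5) (nat_lit 286) (nat_lit 258) (nat_lit 236)) (XT.lf (nat_lit 0) (nat_lit 3010046866) (nat_lit 1064) (nat_lit 207906550) (nat_lit 76) (nat_lit 4284636685) (nat_lit 170) (nat_lit 5) (nat_lit 184) (nat_lit 5) (nat_lit 171) (nat_lit 5) (nat_lit 287) (nat_lit 258) (nat_lit 235)))) (XT.nd (nat_lit 78) (nat_lit 912) (nat_lit 0) (XT.lf (nat_lit 0) (nat_lit 4045057412) (nat_lit 1064) (nat_lit 1305916271) (nat_lit 1140) (nat_lit 2236578084) (nat_lit 156) (nat_lit 5) (nat_lit 170) (nat_lit 5) (nat_lit 171) (nat_lit 5) (nat_lit 288) (nat_lit 258) (nat_lit 234)) (XT.nd (nat_lit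 78) (nat_lit 0) (nat_lit 0) (XT.lf (nat_lit 0) (nat_lit 35844234) (nat_lit 912) (nat_lit 6977488257) (nat_lit 76) (nat_lit 663348081) (nat_lit 144) (nat_lit 5) (nat_lit 156) (nat_lit 5) (nat_lit 145) (nat_lit 5) (nat_lit 289) (nat_lit 258) (nat_lit 233)) (XT.lf (nat_lit 0) (nat_lit 2316935110) (nat_lit 912) (nat_lit 2725467646) (nat_lit 76) (nat_lit 2726005810) (nat_lit 144) (nat_lit 5) (nat_lit 156) (nat_lit 5) (nat_lit 145) (nat_lit 5) (nat_lit 290) (nat_lit 258) (nat_lit 232))))) (XT.nd (nat_lit 234) (nat_lit 456) (nat_lit 0) (XT.nd (nat_lit 78) (nat_lit 608) (nat_lit 0) (XT.lf (nat_lit 0) (nat_lit 1624278584) (nat_lit 532) (nat_lit 2996038929) (nat_lit 608) (nat_lit 3244103784) (nat_lit 137) (nat_lit 5) (nat_lit 144) (nat_lit 5) (nat_lit 145) (nat_lit 5) (nat_lit 291) (nat_lit 258) (nat_lit 231)) (XT.nd (nat_lit 78) (nat_lit 608) (nat_lit 0) (XT.lf (nat_lit 0) (nat_lit 6099459336) (nat_lit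 532) (nat_lit 860322188) (nat_lit 608) (nat_lit 1004667814) (nat_lit 137) (nat_lit 5) (nat_lit 144) (nat_lit 5) (nat_lit 145) (nat_lit 5) (nat_lit 292) (nat_lit 258) (nat_lit 230)) (XT.lf (nat_lit 0) (nat_lit 1255468025) (nat_lit 608) (nat_lit 5461961898) (nat_lit 76) (nat_lit 1350441213) (nat_lit 129) (nat_lit 5) (nat_lit 137) (nat_lit 5) (nat_lit 130) (nat_lit 5) (nat_lit 293) (nat_lit 258) (nat_lit 229)))) (XT.nd (nat_lit 78) (nat_lit 456) (nat_lit 0) (XT.lf (nat_lit 0) (nat_lit 3532397149) (nat_lit 608) (nat_lit 1005063886) (nat_lit 76) (nat_lit 3637692758) (nat_lit 129) (nat_lit 5) (nat_lit 137) (nat_lit 5) (nat_lit 130) (nat_lit 5) (nat_lit 294) (nat_lit 258) (nat_lit 228)) (XT.nd (nat_lit 78) (nat_lit 0) (nat_lit 0) (XT.lf (nat_lit 0) (nat_lit 3595758237) (nat_lit 456) (nat_lit 2259784994) (nat_lit 532) (nat_lit 2430902663) (nat_lit 123) (nat_lit 5) (nat_lit 129) (nat_lit 5) (nat_lit 130)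 (nat_lit 5) (nat_lit 295) (nat_lit 258) (nat_lit 227)) (XT.lf (nat_lit 0) (nat_lit 8203849786) (nat_lit 532) (nat_lit 107610416) (nat_lit 76) (nat_lit 91077075) (nat_lit 123) (nat_lit 5) (nat_lit 130) (nat_lit 5) (nat_lit 124) (nat_lit 5) (nat_lit 296) (nat_lit 258) (nat_lit 226))))))))
noncomputable def xc104 : XT := (XT.nd (nat_lit 1794) (nat_lit 2356) (nat_lit 0) (XT.nd (nat_lit 858) (nat_lit 2052) (nat_lit 0) (XT.nd (nat_lit 390) (nat_lit 1216) (nat_lit 0) (XT.nd (nat_lit 156) (nat_lit 532) (nat_lit 0) (XT.nd (nat_lit 78) (nat_lit 456) (nat_lit 0) (XT.lf (nat_lit 0) (nat_lit 2072319706) (nat_lit 608) (nat_lit 3920735795) (nat_lit 76) (nat_lit 2528183105) (nat_lit 115) (nat_lit 5) (nat_lit 123) (nat_lit 5) (nat_lit 116) (nat_lit 5) (nat_lit 297) (nat_lit 258) (nat_lit 225)) (XT.lf (nat_lit 0) (nat_lit 761543439) (nat_lit 456) (nat_lit 3600713632) (nat_lit 532) (nat_lit 4282655022) (nat_lit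 109) (nat_lit 5) (nat_lit 115) (nat_lit 5) (nat_lit 116) (nat_lit 5) (nat_lit 298) (nat_lit 258) (nat_lit 224))) (XT.nd (nat_lit 78) (nat_lit 532) (nat_lit 0) (XT.lf (nat_lit 0) (nat_lit 5605313877) (nat_lit 456) (nat_lit 1102537349) (nat_lit 532) (nat_lit 2064946417) (nat_lit 109) (nat_lit 5) (nat_lit 115) (nat_lit 5) (nat_lit 116) (nat_lit 5) (nat_lit 299) (nat_lit 258) (nat_lit 223)) (XT.nd (nat_lit 78) (nat_lit 0) (nat_lit 0) (XT.lf (nat_lit 0) (nat_lit 193521134) (nat_lit 532) (nat_lit 7258443406) (nat_lit 76) (nat_lit 1453241041) (nat_lit 102) (nat_lit 5) (nat_lit 109) (nat_lit 5) (nat_lit 103) (nat_lit 5) (nat_lit 300) (nat_lit 258) (nat_lit 222)) (XT.lf (nat_lit 0) (nat_lit 2470621956) (nat_lit 532) (nat_lit 2461668438) (nat_lit 76) (nat_lit 4109011766) (nat_lit 102) (nat_lit 5) (nat_lit 109) (nat_lit 5) (nat_lit 103) (nat_lit 5) (nat_lit 301) (nat_lit 258) (nat_lit 221))))) (XT.nd (nat_lit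 234) (nat_lit 380) (nat_lit 0) (XT.nd (nat_lit 78) (nat_lit 456) (nat_lit 0) (XT.lf (nat_lit 0) (nat_lit 2469202384) (nat_lit 380) (nat_lit 2321213899) (nat_lit 456) (nat_lit 4391932221) (nat_lit 97) (nat_lit 5) (nat_lit 102) (nat_lit 5) (nat_lit 103) (nat_lit 5) (nat_lit 302) (nat_lit 258) (nat_lit 220)) (XT.nd (nat_lit 78) (nat_lit 456) (nat_lit 0) (XT.lf (nat_lit 0) (nat_lit 7159892389) (nat_lit 456) (nat_lit 1791090150) (nat_lit 76) (nat_lit 377336481) (nat_lit 97) (nat_lit 5) (nat_lit 103) (nat_lit 5) (nat_lit 98) (nat_lit 5) (nat_lit 303) (nat_lit 258) (nat_lit 219)) (XT.lf (nat_lit 0) (nat_lit 126586761) (nat_lit 456) (nat_lit 6217655507) (nat_lit 76) (nat_lit 3134265833) (nat_lit 91) (nat_lit 5) (nat_lit 97) (nat_lit 5) (nat_lit 92) (nat_lit 5) (nat_lit 304) (nat_lit 258) (nat_lit 218)))) (XT.nd (nat_lit 78) (nat_lit 380) (nat_lit 0) (XT.lf (nat_lit 0) (nat_lit 2418273784) (nat_lit 456)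 (nat_lit 1210869341) (nat_lit 76) (nat_lit 6004360773) (nat_lit 91) (nat_lit 5) (nat_lit 97) (nat_lit 5) (nat_lit 92) (nat_lit 5) (nat_lit 305) (nat_lit 258) (nat_lit 217)) (XT.nd (nat_lit 78) (nat_lit 0) (nat_lit 0) (XT.lf (nat_lit 0) (nat_lit 3967591288) (nat_lit 380) (nat_lit 803764755) (nat_lit 456) (nat_lit 5022098966) (nat_lit 86) (nat_lit 5) (nat_lit 91) (nat_lit 5) (nat_lit 92) (nat_lit 5) (nat_lit 306) (nat_lit 258) (nat_lit 216)) (XT.lf (nat_lit 0) (nat_lit 7182822365) (nat_lit 456) (nat_lit 708702366) (nat_lit 76) (nat_lit 2067128483) (nat_lit 86) (nat_lit 5) (nat_lit 92) (nat_lit 5) (nat_lit 87) (nat_lit 5) (nat_lit 307) (nat_lit 258) (nat_lit 215)))))) (XT.nd (nat_lit 468) (nat_lit 608) (nat_lit 0) (XT.nd (nat_lit 234) (nat_lit 684) (nat_lit 0) (XT.nd (nat_lit 78) (nat_lit 380) (nat_lit 0) (XT.lf (nat_lit 0) (nat_lit 4588482636) (nat_lit 380) (nat_lit 5086715761) (nat_lit 456) (nat_lit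 453431911) (nat_lit 81) (nat_lit 5) (nat_lit 86) (nat_lit 5) (nat_lit 87) (nat_lit 5) (nat_lit 308) (nat_lit 258) (nat_lit 214)) (XT.nd (nat_lit 78) (nat_lit 304) (nat_lit 0) (XT.lf (nat_lit 0) (nat_lit 1864780264) (nat_lit 456) (nat_lit 318554616) (nat_lit 76) (nat_lit 8120968965) (nat_lit 80) (nat_lit 5) (nat_lit 86) (nat_lit 5) (nat_lit 81) (nat_lit 5) (nat_lit 309) (nat_lit 258) (nat_lit 213)) (XT.lf (nat_lit 0) (nat_lit 4258636456) (nat_lit 380) (nat_lit 5392268019) (nat_lit 76) (nat_lit 833825227) (nat_lit 76) (nat_lit 5) (nat_lit 81) (nat_lit 5) (nat_lit 77) (nat_lit 5) (nat_lit 310) (nat_lit 258) (nat_lit 212)))) (XT.nd (nat_lit 78) (nat_lit 684) (nat_lit 0) (XT.lf (nat_lit 0) (nat_lit 6707772664) (nat_lit 380) (nat_lit 74299925) (nat_lit 76) (nat_lit 3889062817) (nat_lit 76) (nat_lit 5) (nat_lit 81) (nat_lit 5) (nat_lit 77) (nat_lit 5) (nat_lit 311) (nat_lit 258) (nat_lit 211)) (XT.nd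 (nat_lit 78) (nat_lit 380) (nat_lit 0) (XT.lf (nat_lit 0) (nat_lit 5456758518) (nat_lit 304) (nat_lit 3785882538) (nat_lit 380) (nat_lit 1620193415) (nat_lit 72) (nat_lit 5) (nat_lit 76) (nat_lit 5) (nat_lit 77) (nat_lit 5) (nat_lit 312) (nat_lit 258) (nat_lit 210)) (XT.lf (nat_lit 0) (nat_lit 34784162) (nat_lit 304) (nat_lit 704113677) (nat_lit 380) (nat_lit 10322389692) (nat_lit 67) (nat_lit 5) (nat_lit 71) (nat_lit 5) (nat_lit 72) (nat_lit 5) (nat_lit 313) (nat_lit 258) (nat_lit 209))))) (XT.nd (nat_lit 234) (nat_lit 304) (nat_lit 0) (XT.nd (nat_lit 78) (nat_lit 304) (nat_lit 0) (XT.lf (nat_lit 0) (nat_lit 3175615915) (nat_lit 380) (nat_lit 5608556532) (nat_lit 76) (nat_lit 2479921021) (nat_lit 67) (nat_lit 5) (nat_lit 72) (nat_lit 5) (nat_lit 68) (nat_lit 5) (nat_lit 314) (nat_lit 258) (nat_lit 208)) (XT.nd (nat_lit 78) (nat_lit 304) (nat_lit 0) (XT.lf (nat_lit 0) (nat_lit 5654099096) (nat_lit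 380) (nat_lit 87337082) (nat_lit 76) (nat_lit 5732548747) (nat_lit 67) (nat_lit 5) (nat_lit 72) (nat_lit 5) (nat_lit 68) (nat_lit 5) (nat_lit 315) (nat_lit 258) (nat_lit 207)) (XT.lf (nat_lit 0) (nat_lit 5659178679) (nat_lit 304) (nat_lit 2564965483) (nat_lit 380) (nat_lit 3465572203) (nat_lit 63) (nat_lit 5) (nat_lit 67) (nat_lit 5) (nat_lit 68) (nat_lit 5) (nat_lit 316) (nat_lit 258) (nat_lit 206)))) (XT.nd (nat_lit 78) (nat_lit 304) (nat_lit 0) (XT.lf (nat_lit 0) (nat_lit 10842251830) (nat_lit 380) (nat_lit 390113427) (nat_lit 76) (nat_lit 680483386) (nat_lit 63) (nat_lit 5) (nat_lit 68) (nat_lit 5) (nat_lit 64) (nat_lit 5) (nat_lit 317) (nat_lit 258) (nat_lit 205)) (XT.nd (nat_lit 78) (nat_lit 0) (nat_lit 0) (XT.lf (nat_lit 0) (nat_lit 1411481696) (nat_lit 304) (nat_lit 6704617838) (nat_lit 76) (nat_lit 4024952150) (nat_lit 59) (nat_lit 5) (nat_lit 63) (nat_lit 5) (nat_lit 60) (nat_lit 5)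 (nat_lit 318) (nat_lit 258) (nat_lit 204)) (XT.lf (nat_lit 0) (nat_lit 3914992668) (nat_lit 304) (nat_lit 990921370) (nat_lit 76) (nat_lit 7470866970) (nat_lit 59) (nat_lit 5) (nat_lit 63) (nat_lit 5) (nat_lit 60) (nat_lit 5) (nat_lit 319) (nat_lit 258) (nat_lit 203))))))) (XT.nd (nat_lit 858) (nat_lit 988) (nat_lit 0) (XT.nd (nat_lit 390) (nat_lit 532) (nat_lit 0) (XT.nd (nat_lit 156) (nat_lit 532) (nat_lit 0) (XT.nd (nat_lit 78) (nat_lit 0) (nat_lit 0) (XT.lf (nat_lit 0) (nat_lit 4942006568) (nat_lit 304) (nat_lit 1564651347) (nat_lit 380) (nat_lit 6112584122) (nat_lit 55) (nat_lit 5) (nat_lit 59) (nat_lit 5) (nat_lit 60) (nat_lit 5) (nat_lit 320) (nat_lit 258) (nat_lit 202)) (XT.lf (nat_lit 0) (nat_lit 9170167460) (nat_lit 380) (nat_lit 1862651635) (nat_lit 76) (nat_lit 1836384770) (nat_lit 55) (nat_lit 5) (nat_lit 60) (nat_lit 5) (nat_lit 56) (nat_lit 5) (nat_lit 321) (nat_lit 258) (nat_lit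 201))) (XT.nd (nat_lit 78) (nat_lit 304) (nat_lit 0) (XT.lf (nat_lit 0) (nat_lit 4144104031) (nat_lit 228) (nat_lit 7791744823) (nat_lit 304) (nat_lit 1190196045) (nat_lit 52) (nat_lit 5) (nat_lit 55) (nat_lit 5) (nat_lit 56) (nat_lit 5) (nat_lit 322) (nat_lit 258) (nat_lit 200)) (XT.nd (nat_lit 78) (nat_lit 228) (nat_lit 0) (XT.lf (nat_lit 0) (nat_lit 1352785149) (nat_lit 304) (nat_lit 3082241485) (nat_lit 76) (nat_lit 8955625855) (nat_lit 51) (nat_lit 5) (nat_lit 55) (nat_lit 5) (nat_lit 52) (nat_lit 5) (nat_lit 323) (nat_lit 258) (nat_lit 199)) (XT.lf (nat_lit 0) (nat_lit 2994620836) (nat_lit 228) (nat_lit 950338592) (nat_lit 304) (nat_lit 9718024840) (nat_lit 48) (nat_lit 5) (nat_lit 51) (nat_lit 5) (nat_lit 52) (nat_lit 5) (nat_lit 324) (nat_lit 258) (nat_lit 198))))) (XT.nd (nat_lit 234) (nat_lit 304) (nat_lit 0) (XT.nd (nat_lit 78) (nat_lit 228) (nat_lit 0) (XT.lf (nat_lit 0) (nat_lit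 6640086207) (nat_lit 304) (nat_lit 4698126415) (nat_lit 76) (nat_lit 2604560716) (nat_lit 48) (nat_lit 5) (nat_lit 52) (nat_lit 5) (nat_lit 49) (nat_lit 5) (nat_lit 325) (nat_lit 258) (nat_lit 197)) (XT.nd (nat_lit 78) (nat_lit 0) (nat_lit 0) (XT.lf (nat_lit 0) (nat_lit 1424091435) (nat_lit 228) (nat_lit 7984382510) (nat_lit 304) (nat_lit 4822751627) (nat_lit 45) (nat_lit 5) (nat_lit 48) (nat_lit 5) (nat_lit 49) (nat_lit 5) (nat_lit 326) (nat_lit 258) (nat_lit 196)) (XT.lf (nat_lit 0) (nat_lit 7781222810) (nat_lit 228) (nat_lit 4495901777) (nat_lit 304) (nat_lit 2250730939) (nat_lit 45) (nat_lit 5) (nat_lit 48) (nat_lit 5) (nat_lit 49) (nat_lit 5) (nat_lit 327) (nat_lit 258) (nat_lit 195)))) (XT.nd (nat_lit 78) (nat_lit 228) (nat_lit 0) (XT.lf (nat_lit 0) (nat_lit 360995936) (nat_lit 304) (nat_lit 552522813) (nat_lit 76) (nat_lit 13920679269) (nat_lit 44) (nat_lit 5) (nat_lit 48) (nat_lit 5)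 (nat_lit 45) (nat_lit 5) (nat_lit 328) (nat_lit 258) (nat_lit 194)) (XT.nd (nat_lit 78) (nat_lit 0) (nat_lit 0) (XT.lf (nat_lit 0) (nat_lit 3060843600) (nat_lit 304) (nat_lit 9298881697) (nat_lit 76) (nat_lit 2787723815) (nat_lit 41) (nat_lit 5) (nat_lit 45) (nat_lit 5) (nat_lit 42) (nat_lit 5) (nat_lit 329) (nat_lit 258) (nat_lit 193)) (XT.lf (nat_lit 0) (nat_lit 5827843234) (nat_lit 304) (nat_lit 3069425631) (nat_lit 76) (nat_lit 6573280154) (nat_lit 41) (nat_lit 5) (nat_lit 45) (nat_lit 5) (nat_lit 42) (nat_lit 5) (nat_lit 330) (nat_lit 258) (nat_lit 192)))))) (XT.nd (nat_lit 468) (nat_lit 380) (nat_lit 0) (XT.nd (nat_lit 234) (nat_lit 228) (nat_lit 0) (XT.nd (nat_lit 78) (nat_lit 228) (nat_lit 0) (XT.lf (nat_lit 0) (nat_lit 3370538057) (nat_lit 152) (nat_lit 5312022396) (nat_lit 228) (nat_lit 7120675170) (nat_lit 39) (nat_lit 5) (nat_lit 41) (nat_lit 5) (nat_lit 42) (nat_lit 5) (nat_lit 331)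 (nat_lit 258) (nat_lit 191)) (XT.nd (nat_lit 78) (nat_lit 228) (nat_lit 0) (XT.lf (nat_lit 0) (nat_lit 10024886684) (nat_lit 152) (nat_lit 1601741000) (nat_lit 228) (nat_lit 4519197797) (nat_lit 39) (nat_lit 5) (nat_lit 41) (nat_lit 5) (nat_lit 42) (nat_lit 5) (nat_lit 332) (nat_lit 258) (nat_lit 190)) (XT.lf (nat_lit 0) (nat_lit 323944027) (nat_lit 228) (nat_lit 14332898637) (nat_lit 304) (nat_lit 1841948522) (nat_lit 36) (nat_lit 5) (nat_lit 39) (nat_lit 5) (nat_lit 40) (nat_lit 5) (nat_lit 333) (nat_lit 258) (nat_lit 189)))) (XT.nd (nat_lit 78) (nat_lit 152) (nat_lit 0) (XT.lf (nat_lit 0) (nat_lit 949496829) (nat_lit 304) (nat_lit 9839483844) (nat_lit 76) (nat_lit 6071579810) (nat_lit 35) (nat_lit 5) (nat_lit 39) (nat_lit 5) (nat_lit 36) (nat_lit 5) (nat_lit 334) (nat_lit 258) (nat_lit 188)) (XT.nd (nat_lit 78) (nat_lit 152) (nat_lit 0) (XT.lf (nat_lit 0) (nat_lit 3761902387) (nat_lit 304)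 (nat_lit 3372458459) (nat_lit 76) (nat_lit 10099077882) (nat_lit 35) (nat_lit 5) (nat_lit 39) (nat_lit 5) (nat_lit 36) (nat_lit 5) (nat_lit 335) (nat_lit 258) (nat_lit 187)) (XT.lf (nat_lit 0) (nat_lit 3314258858) (nat_lit 152) (nat_lit 3351268469) (nat_lit 228) (nat_lit 10951799830) (nat_lit 33) (nat_lit 5) (nat_lit 35) (nat_lit 5) (nat_lit 36) (nat_lit 5) (nat_lit 336) (nat_lit 258) (nat_lit 186))))) (XT.nd (nat_lit 234) (nat_lit 228) (nat_lit 0) (XT.nd (nat_lit 78) (nat_lit 152) (nat_lit 0) (XT.lf (nat_lit 0) (nat_lit 9671107061) (nat_lit 228) (nat_lit 7785823450) (nat_lit 76) (nat_lit 555384745) (nat_lit 33) (nat_lit 5) (nat_lit 36) (nat_lit 5) (nat_lit 34) (nat_lit 5) (nat_lit 337) (nat_lit 258) (nat_lit 185)) (XT.nd (nat_lit 78) (nat_lit 152) (nat_lit 0) (XT.lf (nat_lit 0) (nat_lit 12775968782) (nat_lit 228) (nat_lit 1144342672) (nat_lit 76) (nat_lit 4498595678) (nat_lit 33) (nat_lit 5)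 (nat_lit 36) (nat_lit 5) (nat_lit 34) (nat_lit 5) (nat_lit 338) (nat_lit 258) (nat_lit 184)) (XT.lf (nat_lit 0) (nat_lit 5772024704) (nat_lit 152) (nat_lit 10234070562) (nat_lit 228) (nat_lit 2830664701) (nat_lit 31) (nat_lit 5) (nat_lit 33) (nat_lit 5) (nat_lit 34) (nat_lit 5) (nat_lit 339) (nat_lit 258) (nat_lit 183)))) (XT.nd (nat_lit 78) (nat_lit 152) (nat_lit 0) (XT.lf (nat_lit 0) (nat_lit 53069294) (nat_lit 228) (nat_lit 6385326259) (nat_lit 76) (nat_lit 12829107653) (nat_lit 30) (nat_lit 5) (nat_lit 33) (nat_lit 5) (nat_lit 31) (nat_lit 5) (nat_lit 340) (nat_lit 258) (nat_lit 182)) (XT.nd (nat_lit 78) (nat_lit 0) (nat_lit 0) (XT.lf (nat_lit 0) (nat_lit 438968647) (nat_lit 152) (nat_lit 2509060661) (nat_lit 228) (nat_lit 16762874913) (nat_lit 28) (nat_lit 5) (nat_lit 30) (nat_lit 5) (nat_lit 31) (nat_lit 5) (nat_lit 341) (nat_lit 258) (nat_lit 181)) (XT.lf (nat_lit 0) (nat_lit 5987316336)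 (nat_lit 228) (nat_lit 12618458204) (nat_lit 76) (nat_lit 1560132166) (nat_lit 28) (nat_lit 5) (nat_lit 31) (nat_lit 5) (nat_lit 29) (nat_lit 5) (nat_lit 342) (nat_lit 258) (nat_lit 180))))))))
noncomputable def xc105 : XT := (XT.nd (nat_lit 1794) (nat_lit 532) (nat_lit 0) (XT.nd (nat_lit 858) (nat_lit 456) (nat_lit 0) (XT.nd (nat_lit 390) (nat_lit 152) (nat_lit 0) (XT.nd (nat_lit 156) (nat_lit 228) (nat_lit 0) (XT.nd (nat_lit 78) (nat_lit 152) (nat_lit 0) (XT.lf (nat_lit 0) (nat_lit 9120852168) (nat_lit 228) (nat_lit 5825409526) (nat_lit 76) (nat_lit 5688228556) (nat_lit 28) (nat_lit 5) (nat_lit 31) (nat_lit 5) (nat_lit 29) (nat_lit 5) (nat_lit 343) (nat_lit 258) (nat_lit 179)) (XT.lf (nat_lit 0) (nat_lit 1159898554) (nat_lit 152) (nat_lit 11178507318) (nat_lit 228) (nat_lit 8779047494) (nat_lit 26) (nat_lit 5) (nat_lit 28) (nat_lit 5) (nat_lit 29) (nat_lit 5) (nat_lit 344) (nat_lit 258) (nat_lit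 178))) (XT.nd (nat_lit 78) (nat_lit 228) (nat_lit 0) (XT.lf (nat_lit 0) (nat_lit 8440350167) (nat_lit 152) (nat_lit 7250113841) (nat_lit 228) (nat_lit 5923323798) (nat_lit 26) (nat_lit 5) (nat_lit 28) (nat_lit 5) (nat_lit 29) (nat_lit 5) (nat_lit 345) (nat_lit 258) (nat_lit 177)) (XT.nd (nat_lit 78) (nat_lit 228) (nat_lit 0) (XT.lf (nat_lit 0) (nat_lit 15906369799) (nat_lit 152) (nat_lit 3216473901) (nat_lit 228) (nat_lit 3002796918) (nat_lit 26) (nat_lit 5) (nat_lit 28) (nat_lit 5) (nat_lit 29) (nat_lit 5) (nat_lit 346) (nat_lit 258) (nat_lit 176)) (XT.lf (nat_lit 0) (nat_lit 3296802) (nat_lit 228) (nat_lit 21732883604) (nat_lit 76) (nat_lit 916745324) (nat_lit 23) (nat_lit 5) (nat_lit 26) (nat_lit 5) (nat_lit 24) (nat_lit 5) (nat_lit 347) (nat_lit 258) (nat_lit 175))))) (XT.nd (nat_lit 234) (nat_lit 152) (nat_lit 0) (XT.nd (nat_lit 78) (nat_lit 0) (nat_lit 0) (XT.lf (nat_lit 0) (nat_lit 3114777256)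 (nat_lit 228) (nat_lit 14887796122) (nat_lit 76) (nat_lit 5190316722) (nat_lit 23) (nat_lit 5) (nat_lit 26) (nat_lit 5) (nat_lit 24) (nat_lit 5) (nat_lit 348) (nat_lit 258) (nat_lit 174)) (XT.nd (nat_lit 78) (nat_lit 0) (nat_lit 0) (XT.lf (nat_lit 0) (nat_lit 6300462942) (nat_lit 228) (nat_lit 7868885596) (nat_lit 76) (nat_lit 9580297814) (nat_lit 23) (nat_lit 5) (nat_lit 26) (nat_lit 5) (nat_lit 24) (nat_lit 5) (nat_lit 349) (nat_lit 258) (nat_lit 173)) (XT.lf (nat_lit 0) (nat_lit 9563137470) (nat_lit 228) (nat_lit 670018999) (nat_lit 76) (nat_lit 14090524503) (nat_lit 23) (nat_lit 5) (nat_lit 26) (nat_lit 5) (nat_lit 24) (nat_lit 5) (nat_lit 350) (nat_lit 258) (nat_lit 172)))) (XT.nd (nat_lit 78) (nat_lit 0) (nat_lit 0) (XT.lf (nat_lit 0) (nat_lit 6848737477) (nat_lit 152) (nat_lit 6122748496) (nat_lit 228) (nat_lit 11942034543) (nat_lit 21) (nat_lit 5) (nat_lit 23) (nat_lit 5) (nat_lit 24)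 (nat_lit 5) (nat_lit 351) (nat_lit 258) (nat_lit 171)) (XT.nd (nat_lit 78) (nat_lit 0) (nat_lit 0) (XT.lf (nat_lit 0) (nat_lit 14577363096) (nat_lit 152) (nat_lit 1893689769) (nat_lit 228) (nat_lit 9050350526) (nat_lit 21) (nat_lit 5) (nat_lit 23) (nat_lit 5) (nat_lit 24) (nat_lit 5) (nat_lit 352) (nat_lit 258) (nat_lit 170)) (XT.lf (nat_lit 0) (nat_lit 20081887228) (nat_lit 228) (nat_lit 3662341511) (nat_lit 76) (nat_lit 2403122281) (nat_lit 21) (nat_lit 5) (nat_lit 24) (nat_lit 5) (nat_lit 22) (nat_lit 4) (nat_lit 353) (nat_lit 258) (nat_lit 169)))))) (XT.nd (nat_lit 468) (nat_lit 152) (nat_lit 0) (XT.nd (nat_lit 234) (nat_lit 152) (nat_lit 0) (XT.nd (nat_lit 78) (nat_lit 76) (nat_lit 0) (XT.lf (nat_lit 0) (nat_lit 3866352205) (nat_lit 76) (nat_lit 19973727913) (nat_lit 152) (nat_lit 2950842151) (nat_lit 20) (nat_lit 5) (nat_lit 21) (nat_lit 5) (nat_lit 22) (nat_lit 4) (nat_lit 354) (nat_lit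 258) (nat_lit 168)) (XT.nd (nat_lit 78) (nat_lit 0) (nat_lit 0) (XT.lf (nat_lit 0) (nat_lit 272709246) (nat_lit 152) (nat_lit 15787776195) (nat_lit 76) (nat_lit 11392640994) (nat_lit 19) (nat_lit 5) (nat_lit 21) (nat_lit 5) (nat_lit 20) (nat_lit 5) (nat_lit 355) (nat_lit 258) (nat_lit 167)) (XT.lf (nat_lit 0) (nat_lit 3517310346) (nat_lit 152) (nat_lit 8493500064) (nat_lit 76) (nat_lit 16124015085) (nat_lit 19) (nat_lit 5) (nat_lit 21) (nat_lit 5) (nat_lit 20) (nat_lit 5) (nat_lit 356) (nat_lit 258) (nat_lit 166)))) (XT.nd (nat_lit 78) (nat_lit 152) (nat_lit 0) (XT.lf (nat_lit 0) (nat_lit 6843377793) (nat_lit 152) (nat_lit 1007002733) (nat_lit 76) (nat_lit 20987085540) (nat_lit 19) (nat_lit 5) (nat_lit 21) (nat_lit 5) (nat_lit 20) (nat_lit 5) (nat_lit 357) (nat_lit 258) (nat_lit 165)) (XT.nd (nat_lit 78) (nat_lit 0) (nat_lit 0) (XT.lf (nat_lit 0) (nat_lit 6811167814) (nat_lit 152) (nat_lit 3508123158)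 (nat_lit 228) (nat_lit 19240406941) (nat_lit 17) (nat_lit 5) (nat_lit 19) (nat_lit 5) (nat_lit 20) (nat_lit 5) (nat_lit 358) (nat_lit 258) (nat_lit 164)) (XT.lf (nat_lit 0) (nat_lit 13903715232) (nat_lit 228) (nat_lit 15454085627) (nat_lit 76) (nat_lit 945682412) (nat_lit 17) (nat_lit 5) (nat_lit 20) (nat_lit 5) (nat_lit 18) (nat_lit 4) (nat_lit 359) (nat_lit 258) (nat_lit 163))))) (XT.nd (nat_lit 234) (nat_lit 76) (nat_lit 0) (XT.nd (nat_lit 78) (nat_lit 76) (nat_lit 0) (XT.lf (nat_lit 0) (nat_lit 17615545752) (nat_lit 228) (nat_lit 8000734834) (nat_lit 76) (nat_lit 5452718565) (nat_lit 17) (nat_lit 5) (nat_lit 20) (nat_lit 5) (nat_lit 18) (nat_lit 4) (nat_lit 360) (nat_lit 258) (nat_lit 162)) (XT.nd (nat_lit 78) (nat_lit 76) (nat_lit 0) (XT.lf (nat_lit 0) (nat_lit 21424303654) (nat_lit 228) (nat_lit 348242860) (nat_lit 76) (nat_lit 10085379606) (nat_lit 17) (nat_lit 5) (nat_lit 20) (nat_lit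 5) (nat_lit 18) (nat_lit 4) (nat_lit 361) (nat_lit 258) (nat_lit 161)) (XT.lf (nat_lit 0) (nat_lit 7659542195) (nat_lit 76) (nat_lit 17747402987) (nat_lit 152) (nat_lit 7261799500) (nat_lit 16) (nat_lit 5) (nat_lit 17) (nat_lit 5) (nat_lit 18) (nat_lit 4) (nat_lit 362) (nat_lit 258) (nat_lit 160)))) (XT.nd (nat_lit 78) (nat_lit 76) (nat_lit 0) (XT.lf (nat_lit 0) (nat_lit 15891185319) (nat_lit 76) (nat_lit 13607571842) (nat_lit 152) (nat_lit 4005451957) (nat_lit 16) (nat_lit 5) (nat_lit 17) (nat_lit 5) (nat_lit 18) (nat_lit 4) (nat_lit 363) (nat_lit 258) (nat_lit 159)) (XT.nd (nat_lit 78) (nat_lit 76) (nat_lit 0) (XT.lf (nat_lit 0) (nat_lit 24346948493) (nat_lit 76) (nat_lit 9352952320) (nat_lit 152) (nat_lit 665251055) (nat_lit 16) (nat_lit 5) (nat_lit 17) (nat_lit 5) (nat_lit 18) (nat_lit 4) (nat_lit 364) (nat_lit 258) (nat_lit 158)) (XT.lf (nat_lit 0) (nat_lit 2707830688) (nat_lit 152) (nat_lit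 2244652324) (nat_lit 76) (nat_lit 30299045779) (nat_lit 15) (nat_lit 5) (nat_lit 17) (nat_lit 5) (nat_lit 16) (nat_lit 5) (nat_lit 365) (nat_lit 258) (nat_lit 157))))))) (XT.nd (nat_lit 936) (nat_lit 152) (nat_lit 0) (XT.nd (nat_lit 468) (nat_lit 152) (nat_lit 0) (XT.nd (nat_lit 234) (nat_lit 76) (nat_lit 0) (XT.nd (nat_lit 78) (nat_lit 0) (nat_lit 0) (XT.lf (nat_lit 0) (nat_lit 5847847206) (nat_lit 152) (nat_lit 364311623) (nat_lit 228) (nat_lit 29950848554) (nat_lit 13) (nat_lit 5) (nat_lit 15) (nat_lit 5) (nat_lit 16) (nat_lit 5) (nat_lit 366) (nat_lit 258) (nat_lit 156)) (XT.nd (nat_lit 78) (nat_lit 0) (nat_lit 0) (XT.lf (nat_lit 0) (nat_lit 9873724146) (nat_lit 228) (nat_lit 22936038803) (nat_lit 76) (nat_lit 4290514562) (nat_lit 13) (nat_lit 5) (nat_lit 16) (nat_lit 5) (nat_lit 14) (nat_lit 4) (nat_lit 367) (nat_lit 258) (nat_lit 155)) (XT.lf (nat_lit 0) (nat_lit 13636404503) (nat_lit 228)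 (nat_lit 15360387225) (nat_lit 76) (nat_lit 9069146064) (nat_lit 13) (nat_lit 5) (nat_lit 16) (nat_lit 5) (nat_lit 14) (nat_lit 4) (nat_lit 368) (nat_lit 258) (nat_lit 154)))) (XT.nd (nat_lit 78) (nat_lit 76) (nat_lit 0) (XT.lf (nat_lit 0) (nat_lit 17499985694) (nat_lit 228) (nat_lit 7578083957) (nat_lit 76) (nat_lit 13982867416) (nat_lit 13) (nat_lit 5) (nat_lit 16) (nat_lit 5) (nat_lit 14) (nat_lit 4) (nat_lit 369) (nat_lit 258) (nat_lit 153)) (XT.nd (nat_lit 78) (nat_lit 0) (nat_lit 0) (XT.lf (nat_lit 0) (nat_lit 425983544) (nat_lit 76) (nat_lit 21045954934) (nat_lit 152) (nat_lit 18614083431) (nat_lit 12) (nat_lit 5) (nat_lit 13) (nat_lit 5) (nat_lit 14) (nat_lit 4) (nat_lit 370) (nat_lit 258) (nat_lit 152)) (XT.lf (nat_lit 0) (nat_lit 8805695274) (nat_lit 76) (nat_lit 16822395930) (nat_lit 152) (nat_lit 15511826089) (nat_lit 12) (nat_lit 5) (nat_lit 13) (nat_lit 5) (nat_lit 14) (nat_lit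 4) (nat_lit 371) (nat_lit 258) (nat_lit 151))))) (XT.nd (nat_lit 234) (nat_lit 152) (nat_lit 0) (XT.nd (nat_lit 78) (nat_lit 0) (nat_lit 0) (XT.lf (nat_lit 0) (nat_lit 17417554580) (nat_lit 76) (nat_lit 12480225938) (nat_lit 152) (nat_lit 12327992426) (nat_lit 12) (nat_lit 5) (nat_lit 13) (nat_lit 5) (nat_lit 14) (nat_lit 4) (nat_lit 372) (nat_lit 258) (nat_lit 150)) (XT.nd (nat_lit 78) (nat_lit 0) (nat_lit 0) (XT.lf (nat_lit 0) (nat_lit 26269086389) (nat_lit 76) (nat_lit 8015650830) (nat_lit 152) (nat_lit 9059800452) (nat_lit 12) (nat_lit 5) (nat_lit 13) (nat_lit 5) (nat_lit 14) (nat_lit 4) (nat_lit 373) (nat_lit 258) (nat_lit 149)) (XT.lf (nat_lit 0) (nat_lit 35368025048) (nat_lit 76) (nat_lit 3424769520) (nat_lit 152) (nat_lit 5704394465) (nat_lit 12) (nat_lit 5) (nat_lit 13) (nat_lit 5) (nat_lit 14) (nat_lit 4) (nat_lit 374) (nat_lit 258) (nat_lit 148)))) (XT.nd (nat_lit 78) (nat_lit 152)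 (nat_lit 0) (XT.lf (nat_lit 0) (nat_lit 43438353719) (nat_lit 152) (nat_lit 974875190) (nat_lit 0) (nat_lit 1271131431) (nat_lit 12) (nat_lit 5) (nat_lit 14) (nat_lit 4) (nat_lit 12) (nat_lit 4) (nat_lit 375) (nat_lit 258) (nat_lit 147)) (XT.nd (nat_lit 78) (nat_lit 0) (nat_lit 0) (XT.lf (nat_lit 0) (nat_lit 1387612165) (nat_lit 152) (nat_lit 39398339268) (nat_lit 76) (nat_lit 6117908691) (nat_lit 10) (nat_lit 5) (nat_lit 12) (nat_lit 5) (nat_lit 11) (nat_lit 4) (nat_lit 376) (nat_lit 258) (nat_lit 146)) (XT.lf (nat_lit 0) (nat_lit 5085085234) (nat_lit 152) (nat_lit 31939041439) (nat_lit 76) (nat_lit 11135158960) (nat_lit 10) (nat_lit 5) (nat_lit 12) (nat_lit 5) (nat_lit 11) (nat_lit 4) (nat_lit 377) (nat_lit 258) (nat_lit 145)))))) (XT.nd (nat_lit 468) (nat_lit 76) (nat_lit 0) (XT.nd (nat_lit 234) (nat_lit 76) (nat_lit 0) (XT.nd (nat_lit 78) (nat_lit 0) (nat_lit 0) (XT.lf (nat_lit 0) (nat_lit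 8883818835) (nat_lit 152) (nat_lit 24272828248) (nat_lit 76) (nat_lit 16296024024) (nat_lit 10) (nat_lit 5) (nat_lit 12) (nat_lit 5) (nat_lit 11) (nat_lit 4) (nat_lit 378) (nat_lit 258) (nat_lit 144)) (XT.nd (nat_lit 78) (nat_lit 0) (nat_lit 0) (XT.lf (nat_lit 0) (nat_lit 12787132251) (nat_lit 152) (nat_lit 16393001064) (nat_lit 76) (nat_lit 21605013378) (nat_lit 10) (nat_lit 5) (nat_lit 12) (nat_lit 5) (nat_lit 11) (nat_lit 4) (nat_lit 379) (nat_lit 258) (nat_lit 143)) (XT.lf (nat_lit 0) (nat_lit 16798436143) (nat_lit 152) (nat_lit 8292674599) (nat_lit 76) (nat_lit 27066765943) (nat_lit 10) (nat_lit 5) (nat_lit 12) (nat_lit 5) (nat_lit 11) (nat_lit 4) (nat_lit 380) (nat_lit 258) (nat_lit 142)))) (XT.nd (nat_lit 78) (nat_lit 0) (nat_lit 0) (XT.lf (nat_lit 0) (nat_lit 35930228) (nat_lit 76) (nat_lit 20885650689) (nat_lit 152) (nat_lit 32650469280) (nat_lit 9) (nat_lit 5) (nat_lit 10) (nat_lit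 5) (nat_lit 11) (nat_lit 4) (nat_lit 381) (nat_lit 258) (nat_lit 141)) (XT.nd (nat_lit 78) (nat_lit 0) (nat_lit 0) (XT.lf (nat_lit 0) (nat_lit 8769103642) (nat_lit 76) (nat_lit 16474323217) (nat_lit 152) (nat_lit 29782978328) (nat_lit 9) (nat_lit 5) (nat_lit 10) (nat_lit 5) (nat_lit 11) (nat_lit 4) (nat_lit 382) (nat_lit 258) (nat_lit 140)) (XT.lf (nat_lit 0) (nat_lit 17749436084) (nat_lit 76) (nat_lit 11937013523) (nat_lit 152) (nat_lit 26838201867) (nat_lit 9) (nat_lit 5) (nat_lit 10) (nat_lit 5) (nat_lit 11) (nat_lit 4) (nat_lit 383) (nat_lit 258) (nat_lit 139))))) (XT.nd (nat_lit 234) (nat_lit 76) (nat_lit 0) (XT.nd (nat_lit 78) (nat_lit 0) (nat_lit 0) (XT.lf (nat_lit 0) (nat_lit 26984774447) (nat_lit 76) (nat_lit 7269756967) (nat_lit 152) (nat_lit 23813566791) (nat_lit 9) (nat_lit 5) (nat_lit 10) (nat_lit 5) (nat_lit 11) (nat_lit 4) (nat_lit 384) (nat_lit 258) (nat_lit 138)) (XT.nd (nat_lit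 78) (nat_lit 0) (nat_lit 0) (XT.lf (nat_lit 0) (nat_lit 36483188444) (nat_lit 76) (nat_lit 2468475364) (nat_lit 152) (nat_lit 20706430214) (nat_lit 9) (nat_lit 5) (nat_lit 10) (nat_lit 5) (nat_lit 11) (nat_lit 4) (nat_lit 385) (nat_lit 258) (nat_lit 137)) (XT.lf (nat_lit 0) (nat_lit 43805704099) (nat_lit 152) (nat_lit 15066803601) (nat_lit 0) (nat_lit 2422807951) (nat_lit 9) (nat_lit 5) (nat_lit 11) (nat_lit 4) (nat_lit 9) (nat_lit 4) (nat_lit 386) (nat_lit 258) (nat_lit 136)))) (XT.nd (nat_lit 78) (nat_lit 76) (nat_lit 0) (XT.lf (nat_lit 0) (nat_lit 48822218549) (nat_lit 152) (nat_lit 6753257945) (nat_lit 0) (nat_lit 7405677435) (nat_lit 9) (nat_lit 5) (nat_lit 11) (nat_lit 4) (nat_lit 9) (nat_lit 4) (nat_lit 387) (nat_lit 258) (nat_lit 135)) (XT.nd (nat_lit 78) (nat_lit 0) (nat_lit 0) (XT.lf (nat_lit 0) (nat_lit 1832482479) (nat_lit 76) (nat_lit 52166994488) (nat_lit 76) (nat_lit 10717788359)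 (nat_lit 8) (nat_lit 4) (nat_lit 9) (nat_lit 5) (nat_lit 9) (nat_lit 4) (nat_lit 388) (nat_lit 258) (nat_lit 134)) (XT.lf (nat_lit 0) (nat_lit 10801387507) (nat_lit 76) (nat_lit 48591584989) (nat_lit 76) (nat_lit 7110665253) (nat_lit 8) (nat_lit 4) (nat_lit 9) (nat_lit 5) (nat_lit 9) (nat_lit 4) (nat_lit 389) (nat_lit 258) (nat_lit 133))))))))
noncomputable def xc106 : XT := (XT.nd (nat_lit 31746) (nat_lit 0) (nat_lit 8284) (XT.nd (nat_lit 30810) (nat_lit 0) (nat_lit 17556) (XT.nd (nat_lit 390) (nat_lit 76) (nat_lit 0) (XT.nd (nat_lit 156) (nat_lit 0) (nat_lit 0) (XT.nd (nat_lit 78) (nat_lit 76) (nat_lit 0) (XT.lf (nat_lit 0) (nat_lit 20026890971) (nat_lit 76) (nat_lit 44914318519) (nat_lit 76) (nat_lit 3402608873) (nat_lit 8) (nat_lit 4) (nat_lit 9) (nat_lit 5) (nat_lit 9) (nat_lit 4) (nat_lit 390) (nat_lit 258) (nat_lit 132)) (XT.lf (nat_lit 0) (nat_lit 401627653) (nat_lit 152) (nat_lit 40726298626)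 (nat_lit 76) (nat_lit 29111370684) (nat_lit 7) (nat_lit 5) (nat_lit 9) (nat_lit 5) (nat_lit 8) (nat_lit 4) (nat_lit 391) (nat_lit 258) (nat_lit 131))) (XT.nd (nat_lit 78) (nat_lit 0) (nat_lit 0) (XT.lf (nat_lit 0) (nat_lit 4244873625) (nat_lit 152) (nat_lit 32953531746) (nat_lit 76) (nat_lit 34992430412) (nat_lit 7) (nat_lit 5) (nat_lit 9) (nat_lit 5) (nat_lit 8) (nat_lit 4) (nat_lit 392) (nat_lit 258) (nat_lit 130)) (XT.nd (nat_lit 78) (nat_lit 0) (nat_lit 0) (XT.lf (nat_lit 0) (nat_lit 8196884373) (nat_lit 152) (nat_lit 24959127055) (nat_lit 76) (nat_lit 41045109860) (nat_lit 7) (nat_lit 5) (nat_lit 9) (nat_lit 5) (nat_lit 8) (nat_lit 4) (nat_lit 393) (nat_lit 258) (nat_lit 129)) (XT.lf (nat_lit 0) (nat_lit 12261113112) (nat_lit 152) (nat_lit 16736099153) (nat_lit 76) (nat_lit 47274697777) (nat_lit 7) (nat_lit 5) (nat_lit 9) (nat_lit 5) (nat_lit 8) (nat_lit 4) (nat_lit 394) (nat_lit 258) (nat_lit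 128))))) (XT.nd (nat_lit 234) (nat_lit 0) (nat_lit 0) (XT.nd (nat_lit 78) (nat_lit 76) (nat_lit 0) (XT.lf (nat_lit 0) (nat_lit 16441111107) (nat_lit 152) (nat_lit 8277262868) (nat_lit 76) (nat_lit 53686637493) (nat_lit 7) (nat_lit 5) (nat_lit 9) (nat_lit 5) (nat_lit 8) (nat_lit 4) (nat_lit 395) (nat_lit 258) (nat_lit 127)) (XT.nd (nat_lit 78) (nat_lit 0) (nat_lit 0) (XT.lf (nat_lit 0) (nat_lit 433226831) (nat_lit 76) (nat_lit 20311468397) (nat_lit 152) (nat_lit 59857469283) (nat_lit 6) (nat_lit 5) (nat_lit 7) (nat_lit 5) (nat_lit 8) (nat_lit 4) (nat_lit 396) (nat_lit 258) (nat_lit 126)) (XT.lf (nat_lit 0) (nat_lit 9564245088) (nat_lit 76) (nat_lit 15690821209) (nat_lit 152) (nat_lit 57607839500) (nat_lit 6) (nat_lit 5) (nat_lit 7) (nat_lit 5) (nat_lit 8) (nat_lit 4) (nat_lit 397) (nat_lit 258) (nat_lit 125)))) (XT.nd (nat_lit 30030) (nat_lit 0) (nat_lit 19988) (XT.lf (nat_lit 0) (nat_lit 18959036702)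 (nat_lit 76) (nat_lit 10935979079) (nat_lit 152) (nat_lit 55296629442) (nat_lit 6) (nat_lit 5) (nat_lit 7) (nat_lit 5) (nat_lit 8) (nat_lit 4) (nat_lit 398) (nat_lit 258) (nat_lit 124)) (XT.nd (nat_lit 78) (nat_lit 76) (nat_lit 0) (XT.lf (nat_lit 0) (nat_lit 1445826322) (nat_lit 76) (nat_lit 331573407) (nat_lit 0) (nat_lit 1445826322) (nat_lit 270) (nat_lit 5) (nat_lit 271) (nat_lit 0) (nat_lit 270) (nat_lit 4) (nat_lit 262) (nat_lit 259) (nat_lit 259)) (XT.lf (nat_lit 0) (nat_lit 2328389614) (nat_lit 76) (nat_lit 3398054468) (nat_lit 76) (nat_lit 726098190) (nat_lit 269) (nat_lit 4) (nat_lit 270) (nat_lit 5) (nat_lit 270) (nat_lit 4) (nat_lit 263) (nat_lit 259) (nat_lit 258)))))) (XT.nd (nat_lit 468) (nat_lit 1520) (nat_lit 0) (XT.nd (nat_lit 234) (nat_lit 608) (nat_lit 0) (XT.nd (nat_lit 78) (nat_lit 228) (nat_lit 0) (XT.lf (nat_lit 0) (nat_lit 2043660600) (nat_lit 152) (nat_lit 1117457567)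 (nat_lit 76) (nat_lit 3300518021) (nat_lit 268) (nat_lit 5) (nat_lit 270) (nat_lit 5) (nat_lit 269) (nat_lit 4) (nat_lit 264) (nat_lit 259) (nat_lit 257)) (XT.nd (nat_lit 78) (nat_lit 76) (nat_lit 0) (XT.lf (nat_lit 0) (nat_lit 1951083341) (nat_lit 152) (nat_lit 2844851134) (nat_lit 228) (nat_lit 1677838417) (nat_lit 266) (nat_lit 5) (nat_lit 268) (nat_lit 5) (nat_lit 269) (nat_lit 4) (nat_lit 265) (nat_lit 259) (nat_lit 256)) (XT.lf (nat_lit 0) (nat_lit 1029914306) (nat_lit 228) (nat_lit 1423564808) (nat_lit 76) (nat_lit 4035615002) (nat_lit 265) (nat_lit 5) (nat_lit 268) (nat_lit 5) (nat_lit 266) (nat_lit 5) (nat_lit 266) (nat_lit 259) (nat_lit 255)))) (XT.nd (nat_lit 78) (nat_lit 380) (nat_lit 0) (XT.lf (nat_lit 0) (nat_lit 1726283628) (nat_lit 228) (nat_lit 1974855106) (nat_lit 304) (nat_lit 2806130681) (nat_lit 262) (nat_lit 5) (nat_lit 265) (nat_lit 5) (nat_lit 266) (nat_lit 5) (nat_lit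 267) (nat_lit 259) (nat_lit 254)) (XT.nd (nat_lit 78) (nat_lit 380) (nat_lit 0) (XT.lf (nat_lit 0) (nat_lit 4941067010) (nat_lit 228) (nat_lit 1427542384) (nat_lit 304) (nat_lit 160258135) (nat_lit 262) (nat_lit 5) (nat_lit 265) (nat_lit 5) (nat_lit 266) (nat_lit 5) (nat_lit 268) (nat_lit 259) (nat_lit 253)) (XT.lf (nat_lit 0) (nat_lit 1649414328) (nat_lit 304) (nat_lit 784687542) (nat_lit 380) (nat_lit 4119037249) (nat_lit 257) (nat_lit 5) (nat_lit 261) (nat_lit 5) (nat_lit 262) (nat_lit 5) (nat_lit 269) (nat_lit 259) (nat_lit 252))))) (XT.nd (nat_lit 234) (nat_lit 1064) (nat_lit 0) (XT.nd (nat_lit 78) (nat_lit 456) (nat_lit 0) (XT.lf (nat_lit 0) (nat_lit 4955961279) (nat_lit 304) (nat_lit 68688657) (nat_lit 380) (nat_lit 1556124191) (nat_lit 257) (nat_lit 5) (nat_lit 261) (nat_lit 5) (nat_lit 262) (nat_lit 5) (nat_lit 270) (nat_lit 259) (nat_lit 251)) (XT.nd (nat_lit 78) (nat_lit 0) (nat_lit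 0) (XT.lf (nat_lit 0) (nat_lit 993137097) (nat_lit 456) (nat_lit 4902171477) (nat_lit 76) (nat_lit 716010147) (nat_lit 251) (nat_lit 5) (nat_lit 257) (nat_lit 5) (nat_lit 252) (nat_lit 5) (nat_lit 271) (nat_lit 259) (nat_lit 250)) (XT.lf (nat_lit 0) (nat_lit 3514390691) (nat_lit 456) (nat_lit 1544023152) (nat_lit 76) (nat_lit 1586402064) (nat_lit 251) (nat_lit 5) (nat_lit 257) (nat_lit 5) (nat_lit 252) (nat_lit 5) (nat_lit 272) (nat_lit 259) (nat_lit 249)))) (XT.nd (nat_lit 78) (nat_lit 608) (nat_lit 0) (XT.lf (nat_lit 0) (nat_lit 1891667106) (nat_lit 456) (nat_lit 4149974435) (nat_lit 532) (nat_lit 640059072) (nat_lit 245) (nat_lit 5) (nat_lit 251) (nat_lit 5) (nat_lit 252) (nat_lit 5) (nat_lit 273) (nat_lit 259) (nat_lit 248)) (XT.nd (nat_lit 78) (nat_lit 532) (nat_lit 0) (XT.lf (nat_lit 0) (nat_lit 1816232392) (nat_lit 532) (nat_lit 1337337667) (nat_lit 76) (nat_lit 3567979871) (nat_lit 244)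 (nat_lit 5) (nat_lit 251) (nat_lit 5) (nat_lit 245) (nat_lit 5) (nat_lit 274) (nat_lit 259) (nat_lit 247)) (XT.lf (nat_lit 0) (nat_lit 2195706452) (nat_lit 532) (nat_lit 2074313498) (nat_lit 608) (nat_lit 2494553002) (nat_lit 237) (nat_lit 5) (nat_lit 244) (nat_lit 5) (nat_lit 245) (nat_lit 5) (nat_lit 275) (nat_lit 259) (nat_lit 246))))))) (XT.nd (nat_lit 858) (nat_lit 4180) (nat_lit 0) (XT.nd (nat_lit 390) (nat_lit 3648) (nat_lit 0) (XT.nd (nat_lit 156) (nat_lit 760) (nat_lit 0) (XT.nd (nat_lit 78) (nat_lit 684) (nat_lit 0) (XT.lf (nat_lit 0) (nat_lit 5803000188) (nat_lit 532) (nat_lit 925381483) (nat_lit 608) (nat_lit 82836855) (nat_lit 237) (nat_lit 5) (nat_lit 244) (nat_lit 5) (nat_lit 245) (nat_lit 5) (nat_lit 276) (nat_lit 259) (nat_lit 245)) (XT.lf (nat_lit 0) (nat_lit 2301625498) (nat_lit 684) (nat_lit 4235505773) (nat_lit 76) (nat_lit 323267906) (nat_lit 228) (nat_lit 5) (nat_lit 237)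 (nat_lit 5) (nat_lit 229) (nat_lit 5) (nat_lit 277) (nat_lit 259) (nat_lit 244))) (XT.nd (nat_lit 78) (nat_lit 760) (nat_lit 0) (XT.lf (nat_lit 0) (nat_lit 4696218236) (nat_lit 684) (nat_lit 594698563) (nat_lit 76) (nat_lit 1622144559) (nat_lit 228) (nat_lit 5) (nat_lit 237) (nat_lit 5) (nat_lit 229) (nat_lit 5) (nat_lit 278) (nat_lit 259) (nat_lit 243)) (XT.nd (nat_lit 78) (nat_lit 0) (nat_lit 0) (XT.lf (nat_lit 0) (nat_lit 144318375) (nat_lit 760) (nat_lit 3813143868) (nat_lit 76) (nat_lit 3011426144) (nat_lit 218) (nat_lit 5) (nat_lit 228) (nat_lit 5) (nat_lit 219) (nat_lit 5) (nat_lit 279) (nat_lit 259) (nat_lit 242)) (XT.lf (nat_lit 0) (nat_lit 2461652238) (nat_lit 760) (nat_lit 78214809) (nat_lit 76) (nat_lit 4488186210) (nat_lit 218) (nat_lit 5) (nat_lit 228) (nat_lit 5) (nat_lit 219) (nat_lit 5) (nat_lit 280) (nat_lit 259) (nat_lit 241))))) (XT.nd (nat_lit 234) (nat_lit 1976) (nat_lit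 0) (XT.nd (nat_lit 78) (nat_lit 912) (nat_lit 0) (XT.lf (nat_lit 0) (nat_lit 3783476844) (nat_lit 760) (nat_lit 1027446058) (nat_lit 836) (nat_lit 2279409621) (nat_lit 208) (nat_lit 5) (nat_lit 218) (nat_lit 5) (nat_lit 219) (nat_lit 5) (nat_lit 281) (nat_lit 259) (nat_lit 240)) (XT.nd (nat_lit 78) (nat_lit 0) (nat_lit 0) (XT.lf (nat_lit 0) (nat_lit 12880251) (nat_lit 912) (nat_lit 6603839856) (nat_lit 76) (nat_lit 539792613) (nat_lit 196) (nat_lit 5) (nat_lit 208) (nat_lit 5) (nat_lit 197) (nat_lit 5) (nat_lit 282) (nat_lit 259) (nat_lit 239)) (XT.lf (nat_lit 0) (nat_lit 2300419674) (nat_lit 912) (nat_lit 2723038744) (nat_lit 76) (nat_lit 2201567980) (nat_lit 196) (nat_lit 5) (nat_lit 208) (nat_lit 5) (nat_lit 197) (nat_lit 5) (nat_lit 283) (nat_lit 259) (nat_lit 238)))) (XT.nd (nat_lit 78) (nat_lit 1064) (nat_lit 0) (XT.lf (nat_lit 0) (nat_lit 1238088688) (nat_lit 912) (nat_lit 3360881952)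 (nat_lit 988) (nat_lit 2698541604) (nat_lit 184) (nat_lit 5) (nat_lit 196) (nat_lit 5) (nat_lit 197) (nat_lit 5) (nat_lit 284) (nat_lit 259) (nat_lit 237)) (XT.nd (nat_lit 78) (nat_lit 1064) (nat_lit 0) (XT.lf (nat_lit 0) (nat_lit 5314203042) (nat_lit 912) (nat_lit 1611707725) (nat_lit 988) (nat_lit 447661756) (nat_lit 184) (nat_lit 5) (nat_lit 196) (nat_lit 5) (nat_lit 197) (nat_lit 5) (nat_lit 285) (nat_lit 259) (nat_lit 236)) (XT.lf (nat_lit 0) (nat_lit 1789041055) (nat_lit 1064) (nat_lit 5432497949) (nat_lit 76) (nat_lit 231364415) (nat_lit 170) (nat_lit 5) (nat_lit 184) (nat_lit 5) (nat_lit 171) (nat_lit 5) (nat_lit 286) (nat_lit 259) (nat_lit 235)))))) (XT.nd (nat_lit 468) (nat_lit 1672) (nat_lit 0) (XT.nd (nat_lit 234) (nat_lit 1368) (nat_lit 0) (XT.nd (nat_lit 78) (nat_lit 1140) (nat_lit 0) (XT.lf (nat_lit 0) (nat_lit 4055343145) (nat_lit 1064) (nat_lit 1350844657) (nat_lit 76) (nat_lit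 2129315919) (nat_lit 170) (nat_lit 5) (nat_lit 184) (nat_lit 5) (nat_lit 171) (nat_lit 5) (nat_lit 287) (nat_lit 259) (nat_lit 234)) (XT.nd (nat_lit 78) (nat_lit 76) (nat_lit 0) (XT.lf (nat_lit 0) (nat_lit 2849594856) (nat_lit 1064) (nat_lit 3503874945) (nat_lit 1140) (nat_lit 1268359612) (nat_lit 156) (nat_lit 5) (nat_lit 170) (nat_lit 5) (nat_lit 171) (nat_lit 5) (nat_lit 288) (nat_lit 259) (nat_lit 233)) (XT.lf (nat_lit 0) (nat_lit 940825878) (nat_lit 1140) (nat_lit 576534854) (nat_lit 76) (nat_lit 6194724006) (nat_lit 155) (nat_lit 5) (nat_lit 170) (nat_lit 5) (nat_lit 156) (nat_lit 5) (nat_lit 289) (nat_lit 259) (nat_lit 232)))) (XT.nd (nat_lit 78) (nat_lit 532) (nat_lit 0) (XT.lf (nat_lit 0) (nat_lit 3171201626) (nat_lit 912) (nat_lit 4063911564) (nat_lit 76) (nat_lit 570294228) (nat_lit 144) (nat_lit 5) (nat_lit 156) (nat_lit 5) (nat_lit 145) (nat_lit 5) (nat_lit 290) (nat_lit 259) (nat_lit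 231)) (XT.nd (nat_lit 78) (nat_lit 0) (nat_lit 0) (XT.lf (nat_lit 0) (nat_lit 229183569) (nat_lit 532) (nat_lit 5202454942) (nat_lit 608) (nat_lit 2471141103) (nat_lit 137) (nat_lit 5) (nat_lit 144) (nat_lit 5) (nat_lit 145) (nat_lit 5) (nat_lit 291) (nat_lit 259) (nat_lit 230)) (XT.lf (nat_lit 0) (nat_lit 4675225059) (nat_lit 532) (nat_lit 3066922589) (nat_lit 608) (nat_lit 261597681) (nat_lit 137) (nat_lit 5) (nat_lit 144) (nat_lit 5) (nat_lit 145) (nat_lit 5) (nat_lit 292) (nat_lit 259) (nat_lit 229))))) (XT.nd (nat_lit 234) (nat_lit 608) (nat_lit 0) (XT.nd (nat_lit 78) (nat_lit 456) (nat_lit 0) (XT.lf (nat_lit 0) (nat_lit 1090106119) (nat_lit 532) (nat_lit 837534962) (nat_lit 608) (nat_lit 6181068739) (nat_lit 129) (nat_lit 5) (nat_lit 136) (nat_lit 5) (nat_lit 137) (nat_lit 5) (nat_lit 293) (nat_lit 259) (nat_lit 228)) (XT.nd (nat_lit 78) (nat_lit 456) (nat_lit 0) (XT.lf (nat_lit 0) (nat_lit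 4168610173) (nat_lit 608) (nat_lit 2583186329) (nat_lit 76) (nat_lit 1465337947) (nat_lit 129) (nat_lit 5) (nat_lit 137) (nat_lit 5) (nat_lit 130) (nat_lit 5) (nat_lit 294) (nat_lit 259) (nat_lit 227)) (XT.lf (nat_lit 0) (nat_lit 1956986050) (nat_lit 456) (nat_lit 4491921078) (nat_lit 532) (nat_lit 1880866226) (nat_lit 123) (nat_lit 5) (nat_lit 129) (nat_lit 5) (nat_lit 130) (nat_lit 5) (nat_lit 295) (nat_lit 259) (nat_lit 226)))) (XT.nd (nat_lit 78) (nat_lit 532) (nat_lit 0) (XT.lf (nat_lit 0) (nat_lit 316689616) (nat_lit 532) (nat_lit 1821169199) (nat_lit 76) (nat_lit 6308796508) (nat_lit 122) (nat_lit 5) (nat_lit 129) (nat_lit 5) (nat_lit 123) (nat_lit 5) (nat_lit 296) (nat_lit 259) (nat_lit 225)) (XT.nd (nat_lit 78) (nat_lit 0) (nat_lit 0) (XT.lf (nat_lit 0) (nat_lit 2519887380) (nat_lit 608) (nat_lit 5723738092) (nat_lit 76) (nat_lit 323647979) (nat_lit 115) (nat_lit 5) (nat_lit 123) (nat_lit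 5) (nat_lit 116) (nat_lit 5) (nat_lit 297) (nat_lit 259) (nat_lit 224)) (XT.lf (nat_lit 0) (nat_lit 4776857732) (nat_lit 608) (nat_lit 1084984491) (nat_lit 76) (nat_lit 2830148217) (nat_lit 115) (nat_lit 5) (nat_lit 123) (nat_lit 5) (nat_lit 116) (nat_lit 5) (nat_lit 298) (nat_lit 259) (nat_lit 223))))))))
noncomputable def xc107 : XT := (XT.nd (nat_lit 1794) (nat_lit 2204) (nat_lit 0) (XT.nd (nat_lit 858) (nat_lit 1900) (nat_lit 0) (XT.nd (nat_lit 390) (nat_lit 1292) (nat_lit 0) (XT.nd (nat_lit 156) (nat_lit 836) (nat_lit 0) (XT.nd (nat_lit 78) (nat_lit 76) (nat_lit 0) (XT.lf (nat_lit 0) (nat_lit 3708808479) (nat_lit 456) (nat_lit 3377833854) (nat_lit 532) (nat_lit 1734360848) (nat_lit 109) (nat_lit 5) (nat_lit 115) (nat_lit 5) (nat_lit 116) (nat_lit 5) (nat_lit 299) (nat_lit 259) (nat_lit 222)) (XT.lf (nat_lit 0) (nat_lit 462705971) (nat_lit 532) (nat_lit 346971786) (nat_lit 76) (nat_lit 8145336390)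 (nat_lit 108) (nat_lit 5) (nat_lit 115) (nat_lit 5) (nat_lit 109) (nat_lit 5) (nat_lit 300) (nat_lit 259) (nat_lit 221))) (XT.nd (nat_lit 78) (nat_lit 380) (nat_lit 0) (XT.lf (nat_lit 0) (nat_lit 2704275501) (nat_lit 532) (nat_lit 4532968352) (nat_lit 76) (nat_lit 1854981227) (nat_lit 102) (nat_lit 5) (nat_lit 109) (nat_lit 5) (nat_lit 103) (nat_lit 5) (nat_lit 301) (nat_lit 259) (nat_lit 220)) (XT.nd (nat_lit 78) (nat_lit 0) (nat_lit 0) (XT.lf (nat_lit 0) (nat_lit 328392894) (nat_lit 380) (nat_lit 4651493494) (nat_lit 456) (nat_lit 4254757545) (nat_lit 97) (nat_lit 5) (nat_lit 102) (nat_lit 5) (nat_lit 103) (nat_lit 5) (nat_lit 302) (nat_lit 259) (nat_lit 219)) (XT.lf (nat_lit 0) (nat_lit 5372766975) (nat_lit 380) (nat_lit 1949714998) (nat_lit 456) (nat_lit 2058984527) (nat_lit 97) (nat_lit 5) (nat_lit 102) (nat_lit 5) (nat_lit 103) (nat_lit 5) (nat_lit 303) (nat_lit 259) (nat_lit 218))))) (XT.nd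 (nat_lit 234) (nat_lit 456) (nat_lit 0) (XT.nd (nat_lit 78) (nat_lit 380) (nat_lit 0) (XT.lf (nat_lit 0) (nat_lit 170111566) (nat_lit 456) (nat_lit 8543683277) (nat_lit 76) (nat_lit 819785646) (nat_lit 91) (nat_lit 5) (nat_lit 97) (nat_lit 5) (nat_lit 92) (nat_lit 5) (nat_lit 304) (nat_lit 259) (nat_lit 217)) (XT.nd (nat_lit 78) (nat_lit 380) (nat_lit 0) (XT.lf (nat_lit 0) (nat_lit 2439387608) (nat_lit 456) (nat_lit 3564459238) (nat_lit 76) (nat_lit 3685443530) (nat_lit 91) (nat_lit 5) (nat_lit 97) (nat_lit 5) (nat_lit 92) (nat_lit 5) (nat_lit 305) (nat_lit 259) (nat_lit 216)) (XT.lf (nat_lit 0) (nat_lit 1539868427) (nat_lit 380) (nat_lit 3207506450) (nat_lit 456) (nat_lit 5103260007) (nat_lit 86) (nat_lit 5) (nat_lit 91) (nat_lit 5) (nat_lit 92) (nat_lit 5) (nat_lit 306) (nat_lit 259) (nat_lit 215)))) (XT.nd (nat_lit 78) (nat_lit 456) (nat_lit 0) (XT.lf (nat_lit 0) (nat_lit 6816604933) (nat_lit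 380) (nat_lit 300591097) (nat_lit 456) (nat_lit 2899925780) (nat_lit 86) (nat_lit 5) (nat_lit 91) (nat_lit 5) (nat_lit 92) (nat_lit 5) (nat_lit 307) (nat_lit 259) (nat_lit 214)) (XT.nd (nat_lit 78) (nat_lit 76) (nat_lit 0) (XT.lf (nat_lit 0) (nat_lit 2023160520) (nat_lit 380) (nat_lit 7538058361) (nat_lit 456) (nat_lit 627368839) (nat_lit 81) (nat_lit 5) (nat_lit 86) (nat_lit 5) (nat_lit 87) (nat_lit 5) (nat_lit 308) (nat_lit 259) (nat_lit 213)) (XT.lf (nat_lit 0) (nat_lit 1673549606) (nat_lit 456) (nat_lit 2968690085) (nat_lit 76) (nat_lit 5722728387) (nat_lit 80) (nat_lit 5) (nat_lit 86) (nat_lit 5) (nat_lit 81) (nat_lit 5) (nat_lit 309) (nat_lit 259) (nat_lit 212)))))) (XT.nd (nat_lit 468) (nat_lit 912) (nat_lit 0) (XT.nd (nat_lit 234) (nat_lit 380) (nat_lit 0) (XT.nd (nat_lit 78) (nat_lit 304) (nat_lit 0) (XT.lf (nat_lit 0) (nat_lit 2371735470) (nat_lit 304) (nat_lit 1641176039) (nat_lit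 380) (nat_lit 6534152230) (nat_lit 76) (nat_lit 5) (nat_lit 80) (nat_lit 5) (nat_lit 81) (nat_lit 5) (nat_lit 310) (nat_lit 259) (nat_lit 211)) (XT.nd (nat_lit 78) (nat_lit 304) (nat_lit 0) (XT.lf (nat_lit 0) (nat_lit 6426470940) (nat_lit 380) (nat_lit 2867657934) (nat_lit 76) (nat_lit 1440441830) (nat_lit 76) (nat_lit 5) (nat_lit 81) (nat_lit 5) (nat_lit 77) (nat_lit 5) (nat_lit 311) (nat_lit 259) (nat_lit 210)) (XT.lf (nat_lit 0) (nat_lit 2581989086) (nat_lit 304) (nat_lit 6332492136) (nat_lit 380) (nat_lit 2013227259) (nat_lit 72) (nat_lit 5) (nat_lit 76) (nat_lit 5) (nat_lit 77) (nat_lit 5) (nat_lit 312) (nat_lit 259) (nat_lit 209)))) (XT.nd (nat_lit 78) (nat_lit 304) (nat_lit 0) (XT.lf (nat_lit 0) (nat_lit 334075478) (nat_lit 380) (nat_lit 2927237773) (nat_lit 76) (nat_lit 7865576449) (nat_lit 71) (nat_lit 5) (nat_lit 76) (nat_lit 5) (nat_lit 72) (nat_lit 5) (nat_lit 313) (nat_lit 259) (nat_lit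 208)) (XT.nd (nat_lit 78) (nat_lit 0) (nat_lit 0) (XT.lf (nat_lit 0) (nat_lit 2635071540) (nat_lit 304) (nat_lit 63901487) (nat_lit 380) (nat_lit 8632907397) (nat_lit 67) (nat_lit 5) (nat_lit 71) (nat_lit 5) (nat_lit 72) (nat_lit 5) (nat_lit 314) (nat_lit 259) (nat_lit 207)) (XT.lf (nat_lit 0) (nat_lit 5158520718) (nat_lit 380) (nat_lit 3199985632) (nat_lit 76) (nat_lit 3183862886) (nat_lit 67) (nat_lit 5) (nat_lit 72) (nat_lit 5) (nat_lit 68) (nat_lit 5) (nat_lit 315) (nat_lit 259) (nat_lit 206))))) (XT.nd (nat_lit 234) (nat_lit 304) (nat_lit 0) (XT.nd (nat_lit 78) (nat_lit 304) (nat_lit 0) (XT.lf (nat_lit 0) (nat_lit 2459817061) (nat_lit 304) (nat_lit 5220206901) (nat_lit 380) (nat_lit 4079561409) (nat_lit 63) (nat_lit 5) (nat_lit 67) (nat_lit 5) (nat_lit 68) (nat_lit 5) (nat_lit 316) (nat_lit 259) (nat_lit 205)) (XT.nd (nat_lit 78) (nat_lit 304) (nat_lit 0) (XT.lf (nat_lit 0) (nat_lit 8306201205)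 (nat_lit 304) (nat_lit 1967758376) (nat_lit 380) (nat_lit 1709510838) (nat_lit 63) (nat_lit 5) (nat_lit 67) (nat_lit 5) (nat_lit 68) (nat_lit 5) (nat_lit 317) (nat_lit 259) (nat_lit 204)) (XT.lf (nat_lit 0) (nat_lit 716090864) (nat_lit 304) (nat_lit 10128074165) (nat_lit 76) (nat_lit 1369787036) (nat_lit 59) (nat_lit 5) (nat_lit 63) (nat_lit 5) (nat_lit 60) (nat_lit 5) (nat_lit 318) (nat_lit 259) (nat_lit 203)))) (XT.nd (nat_lit 78) (nat_lit 304) (nat_lit 0) (XT.lf (nat_lit 0) (nat_lit 3202628119) (nat_lit 304) (nat_lit 4438326353) (nat_lit 76) (nat_lit 4809261396) (nat_lit 59) (nat_lit 5) (nat_lit 63) (nat_lit 5) (nat_lit 60) (nat_lit 5) (nat_lit 319) (nat_lit 259) (nat_lit 202)) (XT.nd (nat_lit 78) (nat_lit 0) (nat_lit 0) (XT.lf (nat_lit 0) (nat_lit 1402277601) (nat_lit 304) (nat_lit 4341510388) (nat_lit 380) (nat_lit 6950428599) (nat_lit 55) (nat_lit 5) (nat_lit 59) (nat_lit 5) (nat_lit 60)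 (nat_lit 5) (nat_lit 320) (nat_lit 259) (nat_lit 201)) (XT.lf (nat_lit 0) (nat_lit 7462343979) (nat_lit 304) (nat_lit 910729115) (nat_lit 380) (nat_lit 4572155873) (nat_lit 55) (nat_lit 5) (nat_lit 59) (nat_lit 5) (nat_lit 60) (nat_lit 5) (nat_lit 321) (nat_lit 259) (nat_lit 200))))))) (XT.nd (nat_lit 936) (nat_lit 988) (nat_lit 0) (XT.nd (nat_lit 468) (nat_lit 456) (nat_lit 0) (XT.nd (nat_lit 234) (nat_lit 456) (nat_lit 0) (XT.nd (nat_lit 78) (nat_lit 76) (nat_lit 0) (XT.lf (nat_lit 0) (nat_lit 437511514) (nat_lit 228) (nat_lit 10641046747) (nat_lit 304) (nat_lit 2125340751) (nat_lit 52) (nat_lit 5) (nat_lit 55) (nat_lit 5) (nat_lit 56) (nat_lit 5) (nat_lit 322) (nat_lit 259) (nat_lit 199)) (XT.nd (nat_lit 78) (nat_lit 0) (nat_lit 0) (XT.lf (nat_lit 0) (nat_lit 420144289) (nat_lit 304) (nat_lit 6880595366) (nat_lit 76) (nat_lit 6168530744) (nat_lit 51) (nat_lit 5) (nat_lit 55) (nat_lit 5) (nat_lit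 52) (nat_lit 5) (nat_lit 323) (nat_lit 259) (nat_lit 198)) (XT.lf (nat_lit 0) (nat_lit 2968246815) (nat_lit 304) (nat_lit 884398430) (nat_lit 76) (nat_lit 9890300247) (nat_lit 51) (nat_lit 5) (nat_lit 55) (nat_lit 5) (nat_lit 52) (nat_lit 5) (nat_lit 324) (nat_lit 259) (nat_lit 197)))) (XT.nd (nat_lit 78) (nat_lit 228) (nat_lit 0) (XT.lf (nat_lit 0) (nat_lit 5352315739) (nat_lit 228) (nat_lit 261800369) (nat_lit 304) (nat_lit 8410116724) (nat_lit 48) (nat_lit 5) (nat_lit 51) (nat_lit 5) (nat_lit 52) (nat_lit 5) (nat_lit 325) (nat_lit 259) (nat_lit 196)) (XT.nd (nat_lit 78) (nat_lit 228) (nat_lit 0) (XT.lf (nat_lit 0) (nat_lit 8351619477) (nat_lit 304) (nat_lit 2596735709) (nat_lit 76) (nat_lit 3365276357) (nat_lit 48) (nat_lit 5) (nat_lit 52) (nat_lit 5) (nat_lit 49) (nat_lit 5) (nat_lit 326) (nat_lit 259) (nat_lit 195)) (XT.lf (nat_lit 0) (nat_lit 3687165006) (nat_lit 228) (nat_lit 7493188746)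 (nat_lit 304) (nat_lit 3431124601) (nat_lit 45) (nat_lit 5) (nat_lit 48) (nat_lit 5) (nat_lit 49) (nat_lit 5) (nat_lit 327) (nat_lit 259) (nat_lit 194))))) (XT.nd (nat_lit 234) (nat_lit 152) (nat_lit 0) (XT.nd (nat_lit 78) (nat_lit 304) (nat_lit 0) (XT.lf (nat_lit 0) (nat_lit 10170339909) (nat_lit 228) (nat_lit 3921336851) (nat_lit 304) (nat_lit 826690174) (nat_lit 45) (nat_lit 5) (nat_lit 48) (nat_lit 5) (nat_lit 49) (nat_lit 5) (nat_lit 328) (nat_lit 259) (nat_lit 193)) (XT.nd (nat_lit 78) (nat_lit 0) (nat_lit 0) (XT.lf (nat_lit 0) (nat_lit 1584804275) (nat_lit 228) (nat_lit 222116747) (nat_lit 304) (nat_lit 13427424173) (nat_lit 41) (nat_lit 5) (nat_lit 44) (nat_lit 5) (nat_lit 45) (nat_lit 5) (nat_lit 329) (nat_lit 259) (nat_lit 192)) (XT.lf (nat_lit 0) (nat_lit 4558144117) (nat_lit 304) (nat_lit 7438711997) (nat_lit 76) (nat_lit 3561079490) (nat_lit 41) (nat_lit 5) (nat_lit 45) (nat_lit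 5) (nat_lit 42) (nat_lit 5) (nat_lit 330) (nat_lit 259) (nat_lit 191)))) (XT.nd (nat_lit 78) (nat_lit 152) (nat_lit 0) (XT.lf (nat_lit 0) (nat_lit 7367217568) (nat_lit 304) (nat_lit 1084677185) (nat_lit 76) (nat_lit 7440113473) (nat_lit 41) (nat_lit 5) (nat_lit 45) (nat_lit 5) (nat_lit 42) (nat_lit 5) (nat_lit 331) (nat_lit 259) (nat_lit 190)) (XT.nd (nat_lit 78) (nat_lit 0) (nat_lit 0) (XT.lf (nat_lit 0) (nat_lit 5528124323) (nat_lit 152) (nat_lit 4759476175) (nat_lit 228) (nat_lit 5947724333) (nat_lit 39) (nat_lit 5) (nat_lit 41) (nat_lit 5) (nat_lit 42) (nat_lit 5) (nat_lit 332) (nat_lit 259) (nat_lit 189)) (XT.lf (nat_lit 0) (nat_lit 12322206221) (nat_lit 152) (nat_lit 958621488) (nat_lit 228) (nat_lit 3308588205) (nat_lit 39) (nat_lit 5) (nat_lit 41) (nat_lit 5) (nat_lit 42) (nat_lit 5) (nat_lit 333) (nat_lit 259) (nat_lit 188)))))) (XT.nd (nat_lit 468) (nat_lit 380) (nat_lit 0) (XT.nd (nat_lit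 234) (nat_lit 304) (nat_lit 0) (XT.nd (nat_lit 78) (nat_lit 76) (nat_lit 0) (XT.lf (nat_lit 0) (nat_lit 2344466695) (nat_lit 228) (nat_lit 14045240582) (nat_lit 304) (nat_lit 563677820) (nat_lit 36) (nat_lit 5) (nat_lit 39) (nat_lit 5) (nat_lit 40) (nat_lit 5) (nat_lit 334) (nat_lit 259) (nat_lit 187)) (XT.nd (nat_lit 78) (nat_lit 0) (nat_lit 0) (XT.lf (nat_lit 0) (nat_lit 2247406201) (nat_lit 304) (nat_lit 8155682462) (nat_lit 76) (nat_lit 6923721270) (nat_lit 35) (nat_lit 5) (nat_lit 39) (nat_lit 5) (nat_lit 36) (nat_lit 5) (nat_lit 335) (nat_lit 259) (nat_lit 186)) (XT.lf (nat_lit 0) (nat_lit 5107210398) (nat_lit 304) (nat_lit 1552286682) (nat_lit 76) (nat_lit 11052529894) (nat_lit 35) (nat_lit 5) (nat_lit 39) (nat_lit 5) (nat_lit 36) (nat_lit 5) (nat_lit 336) (nat_lit 259) (nat_lit 185)))) (XT.nd (nat_lit 78) (nat_lit 152) (nat_lit 0) (XT.lf (nat_lit 0) (nat_lit 5316195433) (nat_lit 152)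 (nat_lit 2764140101) (nat_lit 228) (nat_lit 10027666759) (nat_lit 33) (nat_lit 5) (nat_lit 35) (nat_lit 5) (nat_lit 36) (nat_lit 5) (nat_lit 337) (nat_lit 259) (nat_lit 184)) (XT.nd (nat_lit 78) (nat_lit 152) (nat_lit 0) (XT.lf (nat_lit 0) (nat_lit 11147116640) (nat_lit 228) (nat_lit 6141977554) (nat_lit 76) (nat_lit 1226655581) (nat_lit 33) (nat_lit 5) (nat_lit 36) (nat_lit 5) (nat_lit 34) (nat_lit 5) (nat_lit 338) (nat_lit 259) (nat_lit 183)) (XT.lf (nat_lit 0) (nat_lit 656883659) (nat_lit 152) (nat_lit 13660014833) (nat_lit 228) (nat_lit 4618527260) (nat_lit 31) (nat_lit 5) (nat_lit 33) (nat_lit 5) (nat_lit 34) (nat_lit 5) (nat_lit 339) (nat_lit 259) (nat_lit 182))))) (XT.nd (nat_lit 234) (nat_lit 152) (nat_lit 0) (XT.nd (nat_lit 78) (nat_lit 228) (nat_lit 0) (XT.lf (nat_lit 0) (nat_lit 7750053906) (nat_lit 152) (nat_lit 9871375931) (nat_lit 228) (nat_lit 1745097723) (nat_lit 31) (nat_lit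 5) (nat_lit 33) (nat_lit 5) (nat_lit 34) (nat_lit 5) (nat_lit 340) (nat_lit 259) (nat_lit 181)) (XT.nd (nat_lit 78) (nat_lit 152) (nat_lit 0) (XT.lf (nat_lit 0) (nat_lit 1168881279) (nat_lit 228) (nat_lit 4801204269) (nat_lit 76) (nat_lit 13840809018) (nat_lit 30) (nat_lit 5) (nat_lit 33) (nat_lit 5) (nat_lit 31) (nat_lit 5) (nat_lit 341) (nat_lit 259) (nat_lit 180)) (XT.lf (nat_lit 0) (nat_lit 2210410840) (nat_lit 152) (nat_lit 1924727844) (nat_lit 228) (nat_lit 16132960629) (nat_lit 28) (nat_lit 5) (nat_lit 30) (nat_lit 5) (nat_lit 31) (nat_lit 5) (nat_lit 342) (nat_lit 259) (nat_lit 179)))) (XT.nd (nat_lit 78) (nat_lit 152) (nat_lit 0) (XT.lf (nat_lit 0) (nat_lit 7239760117) (nat_lit 228) (nat_lit 11262968605) (nat_lit 76) (nat_lit 2234832611) (nat_lit 28) (nat_lit 5) (nat_lit 31) (nat_lit 5) (nat_lit 29) (nat_lit 5) (nat_lit 343) (nat_lit 259) (nat_lit 178)) (XT.nd (nat_lit 78) (nat_lit 152)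 (nat_lit 0) (XT.lf (nat_lit 0) (nat_lit 10436054714) (nat_lit 228) (nat_lit 4316634585) (nat_lit 76) (nat_lit 6468483646) (nat_lit 28) (nat_lit 5) (nat_lit 31) (nat_lit 5) (nat_lit 29) (nat_lit 5) (nat_lit 344) (nat_lit 259) (nat_lit 177)) (XT.lf (nat_lit 0) (nat_lit 2861727472) (nat_lit 152) (nat_lit 10874094895) (nat_lit 228) (nat_lit 7983264143) (nat_lit 26) (nat_lit 5) (nat_lit 28) (nat_lit 5) (nat_lit 29) (nat_lit 5) (nat_lit 345) (nat_lit 259) (nat_lit 176))))))))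
noncomputable def xc108 : XT := (XT.nd (nat_lit 1794) (nat_lit 380) (nat_lit 0) (XT.nd (nat_lit 858) (nat_lit 456) (nat_lit 0) (XT.nd (nat_lit 390) (nat_lit 304) (nat_lit 0) (XT.nd (nat_lit 156) (nat_lit 228) (nat_lit 0) (XT.nd (nat_lit 78) (nat_lit 0) (nat_lit 0) (XT.lf (nat_lit 0) (nat_lit 10312038304) (nat_lit 152) (nat_lit 6846483622) (nat_lit 228) (nat_lit 5072717904) (nat_lit 26) (nat_lit 5) (nat_lit 28) (nat_lit 5) (nat_lit 29) (nat_lit 5) (nat_lit 346) (nat_lit 259) (nat_lit 175)) (XT.lf (nat_lit 0) (nat_lit 17954898400) (nat_lit 152) (nat_lit 2709925755) (nat_lit 228) (nat_lit 2094525866) (nat_lit 26) (nat_lit 5) (nat_lit 28) (nat_lit 5) (nat_lit 29) (nat_lit 5) (nat_lit 347) (nat_lit 259) (nat_lit 174))) (XT.nd (nat_lit 78) (nat_lit 0) (nat_lit 0) (XT.lf (nat_lit 0) (nat_lit 974779870) (nat_lit 228) (nat_lit 20784627368) (nat_lit 76) (nat_lit 1543011811) (nat_lit 23) (nat_lit 5) (nat_lit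 26) (nat_lit 5) (nat_lit 24) (nat_lit 5) (nat_lit 348) (nat_lit 259) (nat_lit 173)) (XT.nd (nat_lit 78) (nat_lit 0) (nat_lit 0) (XT.lf (nat_lit 0) (nat_lit 4151311995) (nat_lit 228) (nat_lit 13780796273) (nat_lit 76) (nat_lit 5927350620) (nat_lit 23) (nat_lit 5) (nat_lit 26) (nat_lit 5) (nat_lit 24) (nat_lit 5) (nat_lit 349) (nat_lit 259) (nat_lit 172)) (XT.lf (nat_lit 0) (nat_lit 7405099570) (nat_lit 228) (nat_lit 6596569899) (nat_lit 76) (nat_lit 10432099365) (nat_lit 23) (nat_lit 5) (nat_lit 26) (nat_lit 5) (nat_lit 24) (nat_lit 5) (nat_lit 350) (nat_lit 259) (nat_lit 171))))) (XT.nd (nat_lit 234) (nat_lit 152) (nat_lit 0) (XT.nd (nat_lit 78) (nat_lit 0) (nat_lit 0) (XT.lf (nat_lit 0) (nat_lit 789739901) (nat_lit 152) (nat_lit 9956837272) (nat_lit 228) (nat_lit 14279045798) (nat_lit 21) (nat_lit 5) (nat_lit 23) (nat_lit 5) (nat_lit 24) (nat_lit 5) (nat_lit 351) (nat_lit 259) (nat_lit 170))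 (XT.nd (nat_lit 78) (nat_lit 0) (nat_lit 0) (XT.lf (nat_lit 0) (nat_lit 8504291061) (nat_lit 152) (nat_lit 5733340906) (nat_lit 228) (nat_lit 11396137459) (nat_lit 21) (nat_lit 5) (nat_lit 23) (nat_lit 5) (nat_lit 24) (nat_lit 5) (nat_lit 352) (nat_lit 259) (nat_lit 169)) (XT.lf (nat_lit 0) (nat_lit 16422539774) (nat_lit 152) (nat_lit 1394102360) (nat_lit 228) (nat_lit 8444037624) (nat_lit 21) (nat_lit 5) (nat_lit 23) (nat_lit 5) (nat_lit 24) (nat_lit 5) (nat_lit 353) (nat_lit 259) (nat_lit 168)))) (XT.nd (nat_lit 78) (nat_lit 152) (nat_lit 0) (XT.lf (nat_lit 0) (nat_lit 21516194450) (nat_lit 228) (nat_lit 2384956338) (nat_lit 76) (nat_lit 3004867183) (nat_lit 21) (nat_lit 5) (nat_lit 24) (nat_lit 5) (nat_lit 22) (nat_lit 4) (nat_lit 354) (nat_lit 259) (nat_lit 167)) (XT.nd (nat_lit 78) (nat_lit 76) (nat_lit 0) (XT.lf (nat_lit 0) (nat_lit 5355997646) (nat_lit 76) (nat_lit 20020111233) (nat_lit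 152) (nat_lit 2193141451) (nat_lit 20) (nat_lit 5) (nat_lit 21) (nat_lit 5) (nat_lit 22) (nat_lit 4) (nat_lit 355) (nat_lit 259) (nat_lit 166)) (XT.lf (nat_lit 0) (nat_lit 1086437173) (nat_lit 152) (nat_lit 14911001673) (nat_lit 76) (nat_lit 12254384642) (nat_lit 19) (nat_lit 5) (nat_lit 21) (nat_lit 5) (nat_lit 20) (nat_lit 5) (nat_lit 356) (nat_lit 259) (nat_lit 165)))))) (XT.nd (nat_lit 468) (nat_lit 228) (nat_lit 0) (XT.nd (nat_lit 234) (nat_lit 76) (nat_lit 0) (XT.nd (nat_lit 78) (nat_lit 152) (nat_lit 0) (XT.lf (nat_lit 0) (nat_lit 4404913781) (nat_lit 152) (nat_lit 7437229525) (nat_lit 76) (nat_lit 17112555361) (nat_lit 19) (nat_lit 5) (nat_lit 21) (nat_lit 5) (nat_lit 20) (nat_lit 5) (nat_lit 357) (nat_lit 259) (nat_lit 164)) (XT.nd (nat_lit 78) (nat_lit 0) (nat_lit 0) (XT.lf (nat_lit 0) (nat_lit 240366475) (nat_lit 152) (nat_lit 7569928178) (nat_lit 228) (nat_lit 21868758514) (nat_lit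 17) (nat_lit 5) (nat_lit 19) (nat_lit 5) (nat_lit 20) (nat_lit 5) (nat_lit 358) (nat_lit 259) (nat_lit 163)) (XT.lf (nat_lit 0) (nat_lit 8275912420) (nat_lit 152) (nat_lit 3102262406) (nat_lit 228) (nat_lit 19045166507) (nat_lit 17) (nat_lit 5) (nat_lit 19) (nat_lit 5) (nat_lit 20) (nat_lit 5) (nat_lit 359) (nat_lit 259) (nat_lit 162)))) (XT.nd (nat_lit 78) (nat_lit 76) (nat_lit 0) (XT.lf (nat_lit 0) (nat_lit 15053077343) (nat_lit 228) (nat_lit 14676306214) (nat_lit 76) (nat_lit 1460587795) (nat_lit 17) (nat_lit 5) (nat_lit 20) (nat_lit 5) (nat_lit 18) (nat_lit 4) (nat_lit 360) (nat_lit 259) (nat_lit 161)) (XT.nd (nat_lit 78) (nat_lit 76) (nat_lit 0) (XT.lf (nat_lit 0) (nat_lit 18854935090) (nat_lit 228) (nat_lit 7035512237) (nat_lit 76) (nat_lit 6088664113) (nat_lit 17) (nat_lit 5) (nat_lit 20) (nat_lit 5) (nat_lit 18) (nat_lit 4) (nat_lit 361) (nat_lit 259) (nat_lit 160)) (XT.lf (nat_lit 0)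 (nat_lit 827599734) (nat_lit 76) (nat_lit 21937604894) (nat_lit 152) (nat_lit 10026902471) (nat_lit 16) (nat_lit 5) (nat_lit 17) (nat_lit 5) (nat_lit 18) (nat_lit 4) (nat_lit 362) (nat_lit 259) (nat_lit 159))))) (XT.nd (nat_lit 234) (nat_lit 228) (nat_lit 0) (XT.nd (nat_lit 78) (nat_lit 0) (nat_lit 0) (XT.lf (nat_lit 0) (nat_lit 9047996925) (nat_lit 76) (nat_lit 17802407521) (nat_lit 152) (nat_lit 6777371217) (nat_lit 16) (nat_lit 5) (nat_lit 17) (nat_lit 5) (nat_lit 18) (nat_lit 4) (nat_lit 363) (nat_lit 259) (nat_lit 158)) (XT.nd (nat_lit 78) (nat_lit 0) (nat_lit 0) (XT.lf (nat_lit 0) (nat_lit 17492841718) (nat_lit 76) (nat_lit 13552286807) (nat_lit 152) (nat_lit 3443788070) (nat_lit 16) (nat_lit 5) (nat_lit 17) (nat_lit 5) (nat_lit 18) (nat_lit 4) (nat_lit 364) (nat_lit 259) (nat_lit 157)) (XT.lf (nat_lit 0) (nat_lit 26169513102) (nat_lit 76) (nat_lit 9183529055) (nat_lit 152) (nat_lit 23240193)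 (nat_lit 16) (nat_lit 5) (nat_lit 17) (nat_lit 5) (nat_lit 18) (nat_lit 4) (nat_lit 365) (nat_lit 259) (nat_lit 156)))) (XT.nd (nat_lit 78) (nat_lit 152) (nat_lit 0) (XT.lf (nat_lit 0) (nat_lit 3419212216) (nat_lit 152) (nat_lit 1238577346) (nat_lit 76) (nat_lit 31631853080) (nat_lit 15) (nat_lit 5) (nat_lit 17) (nat_lit 5) (nat_lit 16) (nat_lit 5) (nat_lit 366) (nat_lit 259) (nat_lit 155)) (XT.nd (nat_lit 78) (nat_lit 0) (nat_lit 0) (XT.lf (nat_lit 0) (nat_lit 7021164546) (nat_lit 228) (nat_lit 30143182535) (nat_lit 76) (nat_lit 64359050) (nat_lit 13) (nat_lit 5) (nat_lit 16) (nat_lit 5) (nat_lit 14) (nat_lit 4) (nat_lit 367) (nat_lit 259) (nat_lit 154)) (XT.lf (nat_lit 0) (nat_lit 10777943634) (nat_lit 228) (nat_lit 22577687537) (nat_lit 76) (nat_lit 4838917106) (nat_lit 13) (nat_lit 5) (nat_lit 16) (nat_lit 5) (nat_lit 14) (nat_lit 4) (nat_lit 368) (nat_lit 259) (nat_lit 153))))))) (XT.nd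 (nat_lit 858) (nat_lit 152) (nat_lit 0) (XT.nd (nat_lit 390) (nat_lit 152) (nat_lit 0) (XT.nd (nat_lit 156) (nat_lit 76) (nat_lit 0) (XT.nd (nat_lit 78) (nat_lit 0) (nat_lit 0) (XT.lf (nat_lit 0) (nat_lit 14635795438) (nat_lit 228) (nat_lit 14805245026) (nat_lit 76) (nat_lit 9748683656) (nat_lit 13) (nat_lit 5) (nat_lit 16) (nat_lit 5) (nat_lit 14) (nat_lit 4) (nat_lit 369) (nat_lit 259) (nat_lit 152)) (XT.lf (nat_lit 0) (nat_lit 18598090896) (nat_lit 228) (nat_lit 6819063548) (nat_lit 76) (nat_lit 14797948788) (nat_lit 13) (nat_lit 5) (nat_lit 16) (nat_lit 5) (nat_lit 14) (nat_lit 4) (nat_lit 370) (nat_lit 259) (nat_lit 151))) (XT.nd (nat_lit 78) (nat_lit 0) (nat_lit 0) (XT.lf (nat_lit 0) (nat_lit 1415455753) (nat_lit 76) (nat_lit 21266442682) (nat_lit 152) (nat_lit 18589274954) (nat_lit 12) (nat_lit 5) (nat_lit 13) (nat_lit 5) (nat_lit 14) (nat_lit 4) (nat_lit 371) (nat_lit 259) (nat_lit 150))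 (XT.nd (nat_lit 78) (nat_lit 0) (nat_lit 0) (XT.lf (nat_lit 0) (nat_lit 10018111475) (nat_lit 76) (nat_lit 16928144603) (nat_lit 152) (nat_lit 15410937202) (nat_lit 12) (nat_lit 5) (nat_lit 13) (nat_lit 5) (nat_lit 14) (nat_lit 4) (nat_lit 372) (nat_lit 259) (nat_lit 149)) (XT.lf (nat_lit 0) (nat_lit 18860707764) (nat_lit 76) (nat_lit 12467328634) (nat_lit 152) (nat_lit 12148081064) (nat_lit 12) (nat_lit 5) (nat_lit 13) (nat_lit 5) (nat_lit 14) (nat_lit 4) (nat_lit 373) (nat_lit 259) (nat_lit 148))))) (XT.nd (nat_lit 234) (nat_lit 152) (nat_lit 0) (XT.nd (nat_lit 78) (nat_lit 0) (nat_lit 0) (XT.lf (nat_lit 0) (nat_lit 27950971162) (nat_lit 76) (nat_lit 7880096974) (nat_lit 152) (nat_lit 8797855499) (nat_lit 12) (nat_lit 5) (nat_lit 13) (nat_lit 5) (nat_lit 14) (nat_lit 4) (nat_lit 374) (nat_lit 259) (nat_lit 147)) (XT.nd (nat_lit 78) (nat_lit 0) (nat_lit 0) (XT.lf (nat_lit 0) (nat_lit 37296844616)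 (nat_lit 76) (nat_lit 3162441362) (nat_lit 152) (nat_lit 5357333128) (nat_lit 12) (nat_lit 5) (nat_lit 13) (nat_lit 5) (nat_lit 14) (nat_lit 4) (nat_lit 375) (nat_lit 259) (nat_lit 146)) (XT.lf (nat_lit 0) (nat_lit 45232977011) (nat_lit 152) (nat_lit 149990255) (nat_lit 0) (nat_lit 1656787111) (nat_lit 12) (nat_lit 5) (nat_lit 14) (nat_lit 4) (nat_lit 12) (nat_lit 4) (nat_lit 376) (nat_lit 259) (nat_lit 145)))) (XT.nd (nat_lit 78) (nat_lit 0) (nat_lit 0) (XT.lf (nat_lit 0) (nat_lit 1919706961) (nat_lit 152) (nat_lit 39724400789) (nat_lit 76) (nat_lit 6651784127) (nat_lit 10) (nat_lit 5) (nat_lit 12) (nat_lit 5) (nat_lit 11) (nat_lit 4) (nat_lit 377) (nat_lit 259) (nat_lit 144)) (XT.nd (nat_lit 78) (nat_lit 0) (nat_lit 0) (XT.lf (nat_lit 0) (nat_lit 5713818792) (nat_lit 152) (nat_lit 32066252821) (nat_lit 76) (nat_lit 11809347880) (nat_lit 10) (nat_lit 5) (nat_lit 12) (nat_lit 5) (nat_lit 11)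 (nat_lit 4) (nat_lit 378) (nat_lit 259) (nat_lit 143)) (XT.lf (nat_lit 0) (nat_lit 9612645052) (nat_lit 152) (nat_lit 24194255949) (nat_lit 76) (nat_lit 17115132076) (nat_lit 10) (nat_lit 5) (nat_lit 12) (nat_lit 5) (nat_lit 11) (nat_lit 4) (nat_lit 379) (nat_lit 259) (nat_lit 142)))))) (XT.nd (nat_lit 468) (nat_lit 76) (nat_lit 0) (XT.nd (nat_lit 234) (nat_lit 0) (nat_lit 0) (XT.nd (nat_lit 78) (nat_lit 76) (nat_lit 0) (XT.lf (nat_lit 0) (nat_lit 13619592482) (nat_lit 152) (nat_lit 16101531730) (nat_lit 76) (nat_lit 22573772839) (nat_lit 10) (nat_lit 5) (nat_lit 12) (nat_lit 5) (nat_lit 11) (nat_lit 4) (nat_lit 380) (nat_lit 259) (nat_lit 141)) (XT.nd (nat_lit 78) (nat_lit 76) (nat_lit 0) (XT.lf (nat_lit 0) (nat_lit 17738162299) (nat_lit 152) (nat_lit 7781008851) (nat_lit 76) (nat_lit 28190039853) (nat_lit 10) (nat_lit 5) (nat_lit 12) (nat_lit 5) (nat_lit 11) (nat_lit 4) (nat_lit 381) (nat_lit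 259) (nat_lit 140)) (XT.lf (nat_lit 0) (nat_lit 789998768) (nat_lit 76) (nat_lit 21189548435) (nat_lit 152) (nat_lit 33186435720) (nat_lit 9) (nat_lit 5) (nat_lit 10) (nat_lit 5) (nat_lit 11) (nat_lit 4) (nat_lit 382) (nat_lit 259) (nat_lit 139)))) (XT.nd (nat_lit 78) (nat_lit 0) (nat_lit 0) (XT.lf (nat_lit 0) (nat_lit 9763235618) (nat_lit 76) (nat_lit 16655279346) (nat_lit 152) (nat_lit 30245838903) (nat_lit 9) (nat_lit 5) (nat_lit 10) (nat_lit 5) (nat_lit 11) (nat_lit 4) (nat_lit 383) (nat_lit 259) (nat_lit 138)) (XT.nd (nat_lit 78) (nat_lit 0) (nat_lit 0) (XT.lf (nat_lit 0) (nat_lit 18991685057) (nat_lit 76) (nat_lit 11990974834) (nat_lit 152) (nat_lit 27225261734) (nat_lit 9) (nat_lit 5) (nat_lit 10) (nat_lit 5) (nat_lit 11) (nat_lit 4) (nat_lit 384) (nat_lit 259) (nat_lit 137)) (XT.lf (nat_lit 0) (nat_lit 28483410778) (nat_lit 76) (nat_lit 7192559293) (nat_lit 152) (nat_lit 24122064872)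 (nat_lit 9) (nat_lit 5) (nat_lit 10) (nat_lit 5) (nat_lit 11) (nat_lit 4) (nat_lit 385) (nat_lit 259) (nat_lit 136))))) (XT.nd (nat_lit 234) (nat_lit 76) (nat_lit 0) (XT.nd (nat_lit 78) (nat_lit 0) (nat_lit 0) (XT.lf (nat_lit 0) (nat_lit 38246706522) (nat_lit 76) (nat_lit 2255839932) (nat_lit 152) (nat_lit 20933536788) (nat_lit 9) (nat_lit 5) (nat_lit 10) (nat_lit 5) (nat_lit 11) (nat_lit 4) (nat_lit 386) (nat_lit 259) (nat_lit 135)) (XT.nd (nat_lit 78) (nat_lit 0) (nat_lit 0) (XT.lf (nat_lit 0) (nat_lit 45493747619) (nat_lit 152) (nat_lit 14860535682) (nat_lit 0) (nat_lit 2768400291) (nat_lit 9) (nat_lit 5) (nat_lit 11) (nat_lit 4) (nat_lit 9) (nat_lit 4) (nat_lit 387) (nat_lit 259) (nat_lit 134)) (XT.lf (nat_lit 0) (nat_lit 50649868015) (nat_lit 152) (nat_lit 6316756628) (nat_lit 0) (nat_lit 7892807080) (nat_lit 9) (nat_lit 5) (nat_lit 11) (nat_lit 4) (nat_lit 9) (nat_lit 4) (nat_lit 388) (nat_lit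 259) (nat_lit 133)))) (XT.nd (nat_lit 78) (nat_lit 0) (nat_lit 0) (XT.lf (nat_lit 0) (nat_lit 2520290332) (nat_lit 76) (nat_lit 53457664717) (nat_lit 76) (nat_lit 10669813872) (nat_lit 8) (nat_lit 4) (nat_lit 9) (nat_lit 5) (nat_lit 9) (nat_lit 4) (nat_lit 389) (nat_lit 259) (nat_lit 132)) (XT.nd (nat_lit 78) (nat_lit 0) (nat_lit 0) (XT.lf (nat_lit 0) (nat_lit 11739830470) (nat_lit 76) (nat_lit 49782983408) (nat_lit 76) (nat_lit 6965239446) (nat_lit 8) (nat_lit 4) (nat_lit 9) (nat_lit 5) (nat_lit 9) (nat_lit 4) (nat_lit 390) (nat_lit 259) (nat_lit 131)) (XT.lf (nat_lit 0) (nat_lit 21224203853) (nat_lit 76) (nat_lit 46003156685) (nat_lit 76) (nat_lit 3156390280) (nat_lit 8) (nat_lit 4) (nat_lit 9) (nat_lit 5) (nat_lit 9) (nat_lit 4) (nat_lit 391) (nat_lit 259) (nat_lit 130))))))))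
noncomputable def xc109 : XT := (XT.nd (nat_lit 31590) (nat_lit 0) (nat_lit 7828) (XT.nd (nat_lit 30654) (nat_lit 0) (nat_lit 17556) (XT.nd (nat_lit 390) (nat_lit 76) (nat_lit 0) (XT.nd (nat_lit 156) (nat_lit 0) (nat_lit 0) (XT.nd (nat_lit 78) (nat_lit 0) (nat_lit 0) (XT.lf (nat_lit 0) (nat_lit 745230203) (nat_lit 152) (nat_lit 41362126220) (nat_lit 76) (nat_lit 30228942229) (nat_lit 7) (nat_lit 5) (nat_lit 9) (nat_lit 5) (nat_lit 8) (nat_lit 4) (nat_lit 392) (nat_lit 259) (nat_lit 129)) (XT.lf (nat_lit 0) (nat_lit 4694116650) (nat_lit 152) (nat_lit 33373243169) (nat_lit 76) (nat_lit 36279320242) (nat_lit 7) (nat_lit 5) (nat_lit 9) (nat_lit 5) (nat_lit 8) (nat_lit 4) (nat_lit 393) (nat_lit 259) (nat_lit 128))) (XT.nd (nat_lit 78) (nat_lit 0) (nat_lit 0) (XT.lf (nat_lit 0) (nat_lit 8755312085) (nat_lit 152) (nat_lit 25155576082) (nat_lit 76) (nat_lit 42506673755) (nat_lit 7) (nat_lit 5) (nat_lit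 9) (nat_lit 5) (nat_lit 8) (nat_lit 4) (nat_lit 394) (nat_lit 259) (nat_lit 127)) (XT.nd (nat_lit 78) (nat_lit 0) (nat_lit 0) (XT.lf (nat_lit 0) (nat_lit 12932365127) (nat_lit 152) (nat_lit 16701944472) (nat_lit 76) (nat_lit 48916444147) (nat_lit 7) (nat_lit 5) (nat_lit 9) (nat_lit 5) (nat_lit 8) (nat_lit 4) (nat_lit 395) (nat_lit 259) (nat_lit 126)) (XT.lf (nat_lit 0) (nat_lit 17228925627) (nat_lit 152) (nat_lit 8004961671) (nat_lit 76) (nat_lit 55514232187) (nat_lit 7) (nat_lit 5) (nat_lit 9) (nat_lit 5) (nat_lit 8) (nat_lit 4) (nat_lit 396) (nat_lit 259) (nat_lit 125))))) (XT.nd (nat_lit 30030) (nat_lit 0) (nat_lit 19912) (XT.nd (nat_lit 78) (nat_lit 0) (nat_lit 0) (XT.lf (nat_lit 0) (nat_lit 961738610) (nat_lit 76) (nat_lit 20696254071) (nat_lit 152) (nat_lit 61353309142) (nat_lit 6) (nat_lit 5) (nat_lit 7) (nat_lit 5) (nat_lit 8) (nat_lit 4) (nat_lit 397) (nat_lit 259) (nat_lit 124)) (XT.nd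 (nat_lit 29874) (nat_lit 0) (nat_lit 20140) (XT.lf (nat_lit 0) (nat_lit 10351672416) (nat_lit 76) (nat_lit 15943528004) (nat_lit 152) (nat_lit 59044924958) (nat_lit 6) (nat_lit 5) (nat_lit 7) (nat_lit 5) (nat_lit 8) (nat_lit 4) (nat_lit 398) (nat_lit 259) (nat_lit 123)) (XT.lf (nat_lit 0) (nat_lit 1073741823) (nat_lit 0) (nat_lit 0) (nat_lit 0) (nat_lit 0) (nat_lit 271) (nat_lit 0) (nat_lit 1) (nat_lit 0) (nat_lit 1) (nat_lit 0) (nat_lit 260) (nat_lit 260) (nat_lit 260)))) (XT.nd (nat_lit 78) (nat_lit 152) (nat_lit 0) (XT.lf (nat_lit 0) (nat_lit 2807429752) (nat_lit 76) (nat_lit 3580749038) (nat_lit 0) (nat_lit 55314785) (nat_lit 270) (nat_lit 5) (nat_lit 271) (nat_lit 0) (nat_lit 270) (nat_lit 4) (nat_lit 261) (nat_lit 260) (nat_lit 259)) (XT.nd (nat_lit 78) (nat_lit 152) (nat_lit 0) (XT.lf (nat_lit 0) (nat_lit 5590063935) (nat_lit 76) (nat_lit 692225203) (nat_lit 0) (nat_lit 165992691) (nat_lit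 270) (nat_lit 5) (nat_lit 271) (nat_lit 0) (nat_lit 270) (nat_lit 4) (nat_lit 262) (nat_lit 260) (nat_lit 258)) (XT.lf (nat_lit 0) (nat_lit 1878600893) (nat_lit 152) (nat_lit 4204643738) (nat_lit 76) (nat_lit 372368124) (nat_lit 268) (nat_lit 5) (nat_lit 270) (nat_lit 5) (nat_lit 269) (nat_lit 4) (nat_lit 263) (nat_lit 260) (nat_lit 257)))))) (XT.nd (nat_lit 468) (nat_lit 1520) (nat_lit 0) (XT.nd (nat_lit 234) (nat_lit 608) (nat_lit 0) (XT.nd (nat_lit 78) (nat_lit 228) (nat_lit 0) (XT.lf (nat_lit 0) (nat_lit 4582595410) (nat_lit 152) (nat_lit 1234109927) (nat_lit 76) (nat_lit 649539871) (nat_lit 268) (nat_lit 5) (nat_lit 270) (nat_lit 5) (nat_lit 269) (nat_lit 4) (nat_lit 264) (nat_lit 260) (nat_lit 256)) (XT.nd (nat_lit 78) (nat_lit 0) (nat_lit 0) (XT.lf (nat_lit 0) (nat_lit 787559617) (nat_lit 228) (nat_lit 4684628860) (nat_lit 76) (nat_lit 1007701458) (nat_lit 265) (nat_lit 5) (nat_lit 268)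 (nat_lit 5) (nat_lit 266) (nat_lit 5) (nat_lit 265) (nat_lit 260) (nat_lit 255)) (XT.lf (nat_lit 0) (nat_lit 3412999217) (nat_lit 228) (nat_lit 1630856072) (nat_lit 76) (nat_lit 1452542279) (nat_lit 265) (nat_lit 5) (nat_lit 268) (nat_lit 5) (nat_lit 266) (nat_lit 5) (nat_lit 266) (nat_lit 260) (nat_lit 254)))) (XT.nd (nat_lit 78) (nat_lit 380) (nat_lit 0) (XT.lf (nat_lit 0) (nat_lit 1485929822) (nat_lit 228) (nat_lit 4547854800) (nat_lit 304) (nat_lit 482479170) (nat_lit 262) (nat_lit 5) (nat_lit 265) (nat_lit 5) (nat_lit 266) (nat_lit 5) (nat_lit 267) (nat_lit 260) (nat_lit 253)) (XT.nd (nat_lit 78) (nat_lit 304) (nat_lit 0) (XT.lf (nat_lit 0) (nat_lit 2073546404) (nat_lit 304) (nat_lit 1887154284) (nat_lit 76) (nat_lit 2578133833) (nat_lit 261) (nat_lit 5) (nat_lit 265) (nat_lit 5) (nat_lit 262) (nat_lit 5) (nat_lit 268) (nat_lit 260) (nat_lit 252)) (XT.lf (nat_lit 0) (nat_lit 1313608326)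 (nat_lit 304) (nat_lit 3301698843) (nat_lit 380) (nat_lit 1949399556) (nat_lit 257) (nat_lit 5) (nat_lit 261) (nat_lit 5) (nat_lit 262) (nat_lit 5) (nat_lit 269) (nat_lit 260) (nat_lit 251))))) (XT.nd (nat_lit 234) (nat_lit 1064) (nat_lit 0) (XT.nd (nat_lit 78) (nat_lit 380) (nat_lit 0) (XT.lf (nat_lit 0) (nat_lit 555772523) (nat_lit 380) (nat_lit 2007229076) (nat_lit 76) (nat_lit 4030689617) (nat_lit 256) (nat_lit 5) (nat_lit 261) (nat_lit 5) (nat_lit 257) (nat_lit 5) (nat_lit 270) (nat_lit 260) (nat_lit 250)) (XT.nd (nat_lit 78) (nat_lit 0) (nat_lit 0) (XT.lf (nat_lit 0) (nat_lit 1282234950) (nat_lit 380) (nat_lit 1736804285) (nat_lit 456) (nat_lit 3606565558) (nat_lit 251) (nat_lit 5) (nat_lit 256) (nat_lit 5) (nat_lit 257) (nat_lit 5) (nat_lit 271) (nat_lit 260) (nat_lit 249)) (XT.lf (nat_lit 0) (nat_lit 4654650863) (nat_lit 380) (nat_lit 833697593) (nat_lit 456) (nat_lit 1172456383) (nat_lit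 251) (nat_lit 5) (nat_lit 256) (nat_lit 5) (nat_lit 257) (nat_lit 5) (nat_lit 272) (nat_lit 260) (nat_lit 248)))) (XT.nd (nat_lit 78) (nat_lit 532) (nat_lit 0) (XT.lf (nat_lit 0) (nat_lit 1236761844) (nat_lit 532) (nat_lit 5312408380) (nat_lit 76) (nat_lit 149938422) (nat_lit 244) (nat_lit 5) (nat_lit 251) (nat_lit 5) (nat_lit 245) (nat_lit 5) (nat_lit 273) (nat_lit 260) (nat_lit 247)) (XT.nd (nat_lit 78) (nat_lit 532) (nat_lit 0) (XT.lf (nat_lit 0) (nat_lit 3638970067) (nat_lit 532) (nat_lit 1895294498) (nat_lit 76) (nat_lit 1205888885) (nat_lit 244) (nat_lit 5) (nat_lit 251) (nat_lit 5) (nat_lit 245) (nat_lit 5) (nat_lit 274) (nat_lit 260) (nat_lit 246)) (XT.lf (nat_lit 0) (nat_lit 1597504388) (nat_lit 532) (nat_lit 4449121026) (nat_lit 608) (nat_lit 738063436) (nat_lit 237) (nat_lit 5) (nat_lit 244) (nat_lit 5) (nat_lit 245) (nat_lit 5) (nat_lit 275) (nat_lit 260) (nat_lit 245))))))) (XT.nd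 (nat_lit 936) (nat_lit 4636) (nat_lit 0) (XT.nd (nat_lit 468) (nat_lit 2888) (nat_lit 0) (XT.nd (nat_lit 234) (nat_lit 1520) (nat_lit 0) (XT.nd (nat_lit 78) (nat_lit 608) (nat_lit 0) (XT.lf (nat_lit 0) (nat_lit 1601002894) (nat_lit 608) (nat_lit 1671833448) (nat_lit 76) (nat_lit 3559336204) (nat_lit 236) (nat_lit 5) (nat_lit 244) (nat_lit 5) (nat_lit 237) (nat_lit 5) (nat_lit 276) (nat_lit 260) (nat_lit 244)) (XT.nd (nat_lit 78) (nat_lit 0) (nat_lit 0) (XT.lf (nat_lit 0) (nat_lit 1921600689) (nat_lit 608) (nat_lit 2013460920) (nat_lit 684) (nat_lit 2947848833) (nat_lit 228) (nat_lit 5) (nat_lit 236) (nat_lit 5) (nat_lit 237) (nat_lit 5) (nat_lit 277) (nat_lit 260) (nat_lit 243)) (XT.lf (nat_lit 0) (nat_lit 5600105983) (nat_lit 608) (nat_lit 678849169) (nat_lit 684) (nat_lit 658252540) (nat_lit 228) (nat_lit 5) (nat_lit 236) (nat_lit 5) (nat_lit 237) (nat_lit 5) (nat_lit 278) (nat_lit 260) (nat_lit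 242)))) (XT.nd (nat_lit 78) (nat_lit 760) (nat_lit 0) (XT.lf (nat_lit 0) (nat_lit 1621096603) (nat_lit 760) (nat_lit 4633065604) (nat_lit 76) (nat_lit 740072553) (nat_lit 218) (nat_lit 5) (nat_lit 228) (nat_lit 5) (nat_lit 219) (nat_lit 5) (nat_lit 279) (nat_lit 260) (nat_lit 241)) (XT.nd (nat_lit 78) (nat_lit 760) (nat_lit 0) (XT.lf (nat_lit 0) (nat_lit 3902000758) (nat_lit 760) (nat_lit 927257006) (nat_lit 76) (nat_lit 2225339167) (nat_lit 218) (nat_lit 5) (nat_lit 228) (nat_lit 5) (nat_lit 219) (nat_lit 5) (nat_lit 280) (nat_lit 260) (nat_lit 240)) (XT.lf (nat_lit 0) (nat_lit 2888702075) (nat_lit 760) (nat_lit 3318599576) (nat_lit 836) (nat_lit 910995011) (nat_lit 208) (nat_lit 5) (nat_lit 218) (nat_lit 5) (nat_lit 219) (nat_lit 5) (nat_lit 281) (nat_lit 260) (nat_lit 239))))) (XT.nd (nat_lit 234) (nat_lit 1064) (nat_lit 0) (XT.nd (nat_lit 78) (nat_lit 1748) (nat_lit 0) (XT.lf (nat_lit 0)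 (nat_lit 1308888305) (nat_lit 836) (nat_lit 417448401) (nat_lit 76) (nat_lit 5459212198) (nat_lit 207) (nat_lit 5) (nat_lit 218) (nat_lit 5) (nat_lit 208) (nat_lit 5) (nat_lit 282) (nat_lit 260) (nat_lit 238)) (XT.nd (nat_lit 78) (nat_lit 912) (nat_lit 0) (XT.lf (nat_lit 0) (nat_lit 3511833092) (nat_lit 836) (nat_lit 29910105) (nat_lit 912) (nat_lit 3714052690) (nat_lit 196) (nat_lit 5) (nat_lit 207) (nat_lit 5) (nat_lit 208) (nat_lit 5) (nat_lit 283) (nat_lit 260) (nat_lit 237)) (XT.lf (nat_lit 0) (nat_lit 167747104) (nat_lit 912) (nat_lit 5628723885) (nat_lit 988) (nat_lit 1533215506) (nat_lit 184) (nat_lit 5) (nat_lit 196) (nat_lit 5) (nat_lit 197) (nat_lit 5) (nat_lit 284) (nat_lit 260) (nat_lit 236)))) (XT.nd (nat_lit 78) (nat_lit 988) (nat_lit 0) (XT.lf (nat_lit 0) (nat_lit 670699249) (nat_lit 988) (nat_lit 3198061114) (nat_lit 76) (nat_lit 3537853172) (nat_lit 183) (nat_lit 5) (nat_lit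 196) (nat_lit 5) (nat_lit 184) (nat_lit 5) (nat_lit 285) (nat_lit 260) (nat_lit 235)) (XT.nd (nat_lit 78) (nat_lit 0) (nat_lit 0) (XT.lf (nat_lit 0) (nat_lit 828008987) (nat_lit 988) (nat_lit 2024903948) (nat_lit 1064) (nat_lit 4634357434) (nat_lit 170) (nat_lit 5) (nat_lit 183) (nat_lit 5) (nat_lit 184) (nat_lit 5) (nat_lit 286) (nat_lit 260) (nat_lit 234)) (XT.lf (nat_lit 0) (nat_lit 4983282404) (nat_lit 988) (nat_lit 85985913) (nat_lit 1064) (nat_lit 2502180779) (nat_lit 170) (nat_lit 5) (nat_lit 183) (nat_lit 5) (nat_lit 184) (nat_lit 5) (nat_lit 287) (nat_lit 260) (nat_lit 233)))))) (XT.nd (nat_lit 468) (nat_lit 2052) (nat_lit 0) (XT.nd (nat_lit 234) (nat_lit 608) (nat_lit 0) (XT.nd (nat_lit 78) (nat_lit 912) (nat_lit 0) (XT.lf (nat_lit 0) (nat_lit 1559580259) (nat_lit 1064) (nat_lit 5764191015) (nat_lit 1140) (nat_lit 335389917) (nat_lit 156) (nat_lit 5) (nat_lit 170) (nat_lit 5) (nat_lit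 171) (nat_lit 5) (nat_lit 288) (nat_lit 260) (nat_lit 232)) (XT.nd (nat_lit 78) (nat_lit 836) (nat_lit 0) (XT.lf (nat_lit 0) (nat_lit 1825439944) (nat_lit 1140) (nat_lit 1941591156) (nat_lit 76) (nat_lit 3983094099) (nat_lit 155) (nat_lit 5) (nat_lit 170) (nat_lit 5) (nat_lit 156) (nat_lit 5) (nat_lit 289) (nat_lit 260) (nat_lit 231)) (XT.lf (nat_lit 0) (nat_lit 2326571236) (nat_lit 836) (nat_lit 1680724983) (nat_lit 912) (nat_lit 3837678345) (nat_lit 144) (nat_lit 5) (nat_lit 155) (nat_lit 5) (nat_lit 156) (nat_lit 5) (nat_lit 290) (nat_lit 260) (nat_lit 230)))) (XT.nd (nat_lit 78) (nat_lit 608) (nat_lit 0) (XT.lf (nat_lit 0) (nat_lit 6220699126) (nat_lit 912) (nat_lit 1242194883) (nat_lit 76) (nat_lit 480932797) (nat_lit 144) (nat_lit 5) (nat_lit 156) (nat_lit 5) (nat_lit 145) (nat_lit 5) (nat_lit 291) (nat_lit 260) (nat_lit 229)) (XT.nd (nat_lit 78) (nat_lit 0) (nat_lit 0) (XT.lf (nat_lit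 0) (nat_lit 436169488) (nat_lit 608) (nat_lit 4899510463) (nat_lit 76) (nat_lit 2710260001) (nat_lit 136) (nat_lit 5) (nat_lit 144) (nat_lit 5) (nat_lit 137) (nat_lit 5) (nat_lit 292) (nat_lit 260) (nat_lit 228)) (XT.lf (nat_lit 0) (nat_lit 2582198005) (nat_lit 608) (nat_lit 532750152) (nat_lit 76) (nat_lit 5037087183) (nat_lit 136) (nat_lit 5) (nat_lit 144) (nat_lit 5) (nat_lit 137) (nat_lit 5) (nat_lit 293) (nat_lit 260) (nat_lit 227))))) (XT.nd (nat_lit 234) (nat_lit 988) (nat_lit 0) (XT.nd (nat_lit 78) (nat_lit 532) (nat_lit 0) (XT.lf (nat_lit 0) (nat_lit 3987481859) (nat_lit 532) (nat_lit 789006763) (nat_lit 608) (nat_lit 3485433033) (nat_lit 129) (nat_lit 5) (nat_lit 136) (nat_lit 5) (nat_lit 137) (nat_lit 5) (nat_lit 294) (nat_lit 260) (nat_lit 226)) (XT.nd (nat_lit 78) (nat_lit 76) (nat_lit 0) (XT.lf (nat_lit 0) (nat_lit 211418378) (nat_lit 456) (nat_lit 6794696283) (nat_lit 532) (nat_lit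 1370025571) (nat_lit 123) (nat_lit 5) (nat_lit 129) (nat_lit 5) (nat_lit 130) (nat_lit 5) (nat_lit 295) (nat_lit 260) (nat_lit 225)) (XT.lf (nat_lit 0) (nat_lit 791443979) (nat_lit 532) (nat_lit 3646153588) (nat_lit 76) (nat_lit 4056116984) (nat_lit 122) (nat_lit 5) (nat_lit 129) (nat_lit 5) (nat_lit 123) (nat_lit 5) (nat_lit 296) (nat_lit 260) (nat_lit 224)))) (XT.nd (nat_lit 78) (nat_lit 456) (nat_lit 0) (XT.lf (nat_lit 0) (nat_lit 957634960) (nat_lit 532) (nat_lit 1990316682) (nat_lit 608) (nat_lit 5667836230) (nat_lit 115) (nat_lit 5) (nat_lit 122) (nat_lit 5) (nat_lit 123) (nat_lit 5) (nat_lit 297) (nat_lit 260) (nat_lit 223)) (XT.nd (nat_lit 78) (nat_lit 456) (nat_lit 0) (XT.lf (nat_lit 0) (nat_lit 5160890249) (nat_lit 608) (nat_lit 3028097441) (nat_lit 76) (nat_lit 552891029) (nat_lit 115) (nat_lit 5) (nat_lit 123) (nat_lit 5) (nat_lit 116) (nat_lit 5) (nat_lit 298) (nat_lit 260) (nat_lit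 222)) (XT.lf (nat_lit 0) (nat_lit 1699466346) (nat_lit 456) (nat_lit 5727719105) (nat_lit 532) (nat_lit 1445062055) (nat_lit 109) (nat_lit 5) (nat_lit 115) (nat_lit 5) (nat_lit 116) (nat_lit 5) (nat_lit 299) (nat_lit 260) (nat_lit 221))))))))
noncomputable def xc110 : XT := (XT.nd (nat_lit 1794) (nat_lit 2204) (nat_lit 0) (XT.nd (nat_lit 858) (nat_lit 1900) (nat_lit 0) (XT.nd (nat_lit 390) (nat_lit 1216) (nat_lit 0) (XT.nd (nat_lit 156) (nat_lit 456) (nat_lit 0) (XT.nd (nat_lit 78) (nat_lit 456) (nat_lit 0) (XT.lf (nat_lit 0) (nat_lit 722348235) (nat_lit 532) (nat_lit 2437620228) (nat_lit 76) (nat_lit 5846975335) (nat_lit 108) (nat_lit 5) (nat_lit 115) (nat_lit 5) (nat_lit 109) (nat_lit 5) (nat_lit 300) (nat_lit 260) (nat_lit 220)) (XT.lf (nat_lit 0) (nat_lit 2418718350) (nat_lit 456) (nat_lit 482945188) (nat_lit 532) (nat_lit 6244405824) (nat_lit 102) (nat_lit 5) (nat_lit 108) (nat_lit 5) (nat_lit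 109) (nat_lit 5) (nat_lit 301) (nat_lit 260) (nat_lit 219))) (XT.nd (nat_lit 78) (nat_lit 456) (nat_lit 0) (XT.lf (nat_lit 0) (nat_lit 5146558194) (nat_lit 532) (nat_lit 1894682395) (nat_lit 76) (nat_lit 2248214748) (nat_lit 102) (nat_lit 5) (nat_lit 109) (nat_lit 5) (nat_lit 103) (nat_lit 5) (nat_lit 302) (nat_lit 260) (nat_lit 218)) (XT.nd (nat_lit 78) (nat_lit 76) (nat_lit 0) (XT.lf (nat_lit 0) (nat_lit 3085320914) (nat_lit 380) (nat_lit 4362751583) (nat_lit 456) (nat_lit 1989482153) (nat_lit 97) (nat_lit 5) (nat_lit 102) (nat_lit 5) (nat_lit 103) (nat_lit 5) (nat_lit 303) (nat_lit 260) (nat_lit 217)) (XT.lf (nat_lit 0) (nat_lit 198516542) (nat_lit 456) (nat_lit 1391872932) (nat_lit 76) (nat_lit 8000493119) (nat_lit 96) (nat_lit 5) (nat_lit 102) (nat_lit 5) (nat_lit 97) (nat_lit 5) (nat_lit 304) (nat_lit 260) (nat_lit 216))))) (XT.nd (nat_lit 234) (nat_lit 456) (nat_lit 0) (XT.nd (nat_lit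 78) (nat_lit 380) (nat_lit 0) (XT.lf (nat_lit 0) (nat_lit 2416965635) (nat_lit 456) (nat_lit 6042978305) (nat_lit 76) (nat_lit 1288213897) (nat_lit 91) (nat_lit 5) (nat_lit 97) (nat_lit 5) (nat_lit 92) (nat_lit 5) (nat_lit 305) (nat_lit 260) (nat_lit 215)) (XT.nd (nat_lit 78) (nat_lit 380) (nat_lit 0) (XT.lf (nat_lit 0) (nat_lit 4689026249) (nat_lit 456) (nat_lit 994678966) (nat_lit 76) (nat_lit 4226914294) (nat_lit 91) (nat_lit 5) (nat_lit 97) (nat_lit 5) (nat_lit 92) (nat_lit 5) (nat_lit 306) (nat_lit 260) (nat_lit 214)) (XT.lf (nat_lit 0) (nat_lit 4236536234) (nat_lit 380) (nat_lit 2791802905) (nat_lit 456) (nat_lit 3049720764) (nat_lit 86) (nat_lit 5) (nat_lit 91) (nat_lit 5) (nat_lit 92) (nat_lit 5) (nat_lit 307) (nat_lit 260) (nat_lit 213)))) (XT.nd (nat_lit 78) (nat_lit 456) (nat_lit 0) (XT.lf (nat_lit 0) (nat_lit 9408768761) (nat_lit 456) (nat_lit 658949625) (nat_lit 76) (nat_lit 183752329)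 (nat_lit 86) (nat_lit 5) (nat_lit 92) (nat_lit 5) (nat_lit 87) (nat_lit 5) (nat_lit 308) (nat_lit 260) (nat_lit 212)) (XT.nd (nat_lit 78) (nat_lit 0) (nat_lit 0) (XT.lf (nat_lit 0) (nat_lit 1435808853) (nat_lit 456) (nat_lit 5750612820) (nat_lit 76) (nat_lit 3242324761) (nat_lit 80) (nat_lit 5) (nat_lit 86) (nat_lit 5) (nat_lit 81) (nat_lit 5) (nat_lit 309) (nat_lit 260) (nat_lit 211)) (XT.lf (nat_lit 0) (nat_lit 3732871885) (nat_lit 456) (nat_lit 481473483) (nat_lit 76) (nat_lit 6397799650) (nat_lit 80) (nat_lit 5) (nat_lit 86) (nat_lit 5) (nat_lit 81) (nat_lit 5) (nat_lit 310) (nat_lit 260) (nat_lit 210)))))) (XT.nd (nat_lit 468) (nat_lit 912) (nat_lit 0) (XT.nd (nat_lit 234) (nat_lit 380) (nat_lit 0) (XT.nd (nat_lit 78) (nat_lit 304) (nat_lit 0) (XT.lf (nat_lit 0) (nat_lit 4993907218) (nat_lit 304) (nat_lit 1114511453) (nat_lit 380) (nat_lit 4692406659) (nat_lit 76) (nat_lit 5) (nat_lit 80)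 (nat_lit 5) (nat_lit 81) (nat_lit 5) (nat_lit 311) (nat_lit 260) (nat_lit 209)) (XT.nd (nat_lit 78) (nat_lit 304) (nat_lit 0) (XT.lf (nat_lit 0) (nat_lit 8542231786) (nat_lit 380) (nat_lit 421518641) (nat_lit 76) (nat_lit 2031870605) (nat_lit 76) (nat_lit 5) (nat_lit 81) (nat_lit 5) (nat_lit 77) (nat_lit 5) (nat_lit 312) (nat_lit 260) (nat_lit 208)) (XT.lf (nat_lit 0) (nat_lit 5166792603) (nat_lit 304) (nat_lit 5906183156) (nat_lit 380) (nat_lit 122630433) (nat_lit 72) (nat_lit 5) (nat_lit 76) (nat_lit 5) (nat_lit 77) (nat_lit 5) (nat_lit 313) (nat_lit 260) (nat_lit 207)))) (XT.nd (nat_lit 78) (nat_lit 304) (nat_lit 0) (XT.lf (nat_lit 0) (nat_lit 2201304277) (nat_lit 380) (nat_lit 540760495) (nat_lit 76) (nat_lit 8659897476) (nat_lit 71) (nat_lit 5) (nat_lit 76) (nat_lit 5) (nat_lit 72) (nat_lit 5) (nat_lit 314) (nat_lit 260) (nat_lit 206)) (XT.nd (nat_lit 78) (nat_lit 0) (nat_lit 0) (XT.lf (nat_lit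 0) (nat_lit 4611966157) (nat_lit 380) (nat_lit 6455306098) (nat_lit 76) (nat_lit 546673818) (nat_lit 67) (nat_lit 5) (nat_lit 72) (nat_lit 5) (nat_lit 68) (nat_lit 5) (nat_lit 315) (nat_lit 260) (nat_lit 205)) (XT.lf (nat_lit 0) (nat_lit 7092554618) (nat_lit 380) (nat_lit 867078051) (nat_lit 76) (nat_lit 3872784592) (nat_lit 67) (nat_lit 5) (nat_lit 72) (nat_lit 5) (nat_lit 68) (nat_lit 5) (nat_lit 316) (nat_lit 260) (nat_lit 204))))) (XT.nd (nat_lit 234) (nat_lit 304) (nat_lit 0) (XT.nd (nat_lit 78) (nat_lit 304) (nat_lit 0) (XT.lf (nat_lit 0) (nat_lit 4938705908) (nat_lit 304) (nat_lit 4722292650) (nat_lit 380) (nat_lit 2396095309) (nat_lit 63) (nat_lit 5) (nat_lit 67) (nat_lit 5) (nat_lit 68) (nat_lit 5) (nat_lit 317) (nat_lit 260) (nat_lit 203)) (XT.nd (nat_lit 78) (nat_lit 304) (nat_lit 0) (XT.lf (nat_lit 0) (nat_lit 10890430285) (nat_lit 304) (nat_lit 1391334372) (nat_lit 380) (nat_lit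 7540880) (nat_lit 63) (nat_lit 5) (nat_lit 67) (nat_lit 5) (nat_lit 68) (nat_lit 5) (nat_lit 318) (nat_lit 260) (nat_lit 202)) (XT.lf (nat_lit 0) (nat_lit 2435439581) (nat_lit 304) (nat_lit 8036353264) (nat_lit 76) (nat_lit 2055114319) (nat_lit 59) (nat_lit 5) (nat_lit 63) (nat_lit 5) (nat_lit 60) (nat_lit 5) (nat_lit 319) (nat_lit 260) (nat_lit 201)))) (XT.nd (nat_lit 78) (nat_lit 304) (nat_lit 0) (XT.lf (nat_lit 0) (nat_lit 4947120547) (nat_lit 304) (nat_lit 2245686700) (nat_lit 76) (nat_lit 5579008822) (nat_lit 59) (nat_lit 5) (nat_lit 63) (nat_lit 5) (nat_lit 60) (nat_lit 5) (nat_lit 320) (nat_lit 260) (nat_lit 200)) (XT.nd (nat_lit 78) (nat_lit 0) (nat_lit 0) (XT.lf (nat_lit 0) (nat_lit 3747333515) (nat_lit 304) (nat_lit 3791307378) (nat_lit 380) (nat_lit 5485343621) (nat_lit 55) (nat_lit 5) (nat_lit 59) (nat_lit 5) (nat_lit 60) (nat_lit 5) (nat_lit 321) (nat_lit 260) (nat_lit 199)) (XT.lf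 (nat_lit 0) (nat_lit 9922124575) (nat_lit 304) (nat_lit 277421550) (nat_lit 380) (nat_lit 3084468281) (nat_lit 55) (nat_lit 5) (nat_lit 59) (nat_lit 5) (nat_lit 60) (nat_lit 5) (nat_lit 322) (nat_lit 260) (nat_lit 198))))))) (XT.nd (nat_lit 936) (nat_lit 988) (nat_lit 0) (XT.nd (nat_lit 468) (nat_lit 456) (nat_lit 0) (XT.nd (nat_lit 234) (nat_lit 228) (nat_lit 0) (XT.nd (nat_lit 78) (nat_lit 304) (nat_lit 0) (XT.lf (nat_lit 0) (nat_lit 2707423768) (nat_lit 228) (nat_lit 10260749142) (nat_lit 304) (nat_lit 582879700) (nat_lit 52) (nat_lit 5) (nat_lit 55) (nat_lit 5) (nat_lit 56) (nat_lit 5) (nat_lit 323) (nat_lit 260) (nat_lit 197)) (XT.nd (nat_lit 78) (nat_lit 228) (nat_lit 0) (XT.lf (nat_lit 0) (nat_lit 1961756493) (nat_lit 304) (nat_lit 4863410994) (nat_lit 76) (nat_lit 7000194061) (nat_lit 51) (nat_lit 5) (nat_lit 55) (nat_lit 5) (nat_lit 52) (nat_lit 5) (nat_lit 324) (nat_lit 260) (nat_lit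 196)) (XT.lf (nat_lit 0) (nat_lit 1272742526) (nat_lit 228) (nat_lit 3281259737) (nat_lit 304) (nat_lit 9554275277) (nat_lit 48) (nat_lit 5) (nat_lit 51) (nat_lit 5) (nat_lit 52) (nat_lit 5) (nat_lit 325) (nat_lit 260) (nat_lit 195)))) (XT.nd (nat_lit 78) (nat_lit 228) (nat_lit 0) (XT.lf (nat_lit 0) (nat_lit 7248229726) (nat_lit 304) (nat_lit 6752458738) (nat_lit 76) (nat_lit 398305430) (nat_lit 48) (nat_lit 5) (nat_lit 52) (nat_lit 5) (nat_lit 49) (nat_lit 5) (nat_lit 326) (nat_lit 260) (nat_lit 194)) (XT.nd (nat_lit 78) (nat_lit 228) (nat_lit 0) (XT.lf (nat_lit 0) (nat_lit 10027684778) (nat_lit 304) (nat_lit 561022455) (nat_lit 76) (nat_lit 4109630650) (nat_lit 48) (nat_lit 5) (nat_lit 52) (nat_lit 5) (nat_lit 49) (nat_lit 5) (nat_lit 327) (nat_lit 260) (nat_lit 193)) (XT.lf (nat_lit 0) (nat_lit 5890673562) (nat_lit 228) (nat_lit 7029205788) (nat_lit 304) (nat_lit 2085939220) (nat_lit 45) (nat_lit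 5) (nat_lit 48) (nat_lit 5) (nat_lit 49) (nat_lit 5) (nat_lit 328) (nat_lit 260) (nat_lit 192))))) (XT.nd (nat_lit 234) (nat_lit 152) (nat_lit 0) (XT.nd (nat_lit 78) (nat_lit 228) (nat_lit 0) (XT.lf (nat_lit 0) (nat_lit 543630696) (nat_lit 304) (nat_lit 2821139547) (nat_lit 76) (nat_lit 11958265346) (nat_lit 44) (nat_lit 5) (nat_lit 48) (nat_lit 5) (nat_lit 45) (nat_lit 5) (nat_lit 329) (nat_lit 260) (nat_lit 191)) (XT.nd (nat_lit 78) (nat_lit 0) (nat_lit 0) (XT.lf (nat_lit 0) (nat_lit 3223468514) (nat_lit 304) (nat_lit 11979996758) (nat_lit 76) (nat_lit 445318990) (nat_lit 41) (nat_lit 5) (nat_lit 45) (nat_lit 5) (nat_lit 42) (nat_lit 5) (nat_lit 330) (nat_lit 260) (nat_lit 190)) (XT.lf (nat_lit 0) (nat_lit 6019683622) (nat_lit 304) (nat_lit 5645532371) (nat_lit 76) (nat_lit 4318042859) (nat_lit 41) (nat_lit 5) (nat_lit 45) (nat_lit 5) (nat_lit 42) (nat_lit 5) (nat_lit 331) (nat_lit 260) (nat_lit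 189)))) (XT.nd (nat_lit 78) (nat_lit 0) (nat_lit 0) (XT.lf (nat_lit 0) (nat_lit 857120616) (nat_lit 152) (nat_lit 8025561561) (nat_lit 228) (nat_lit 7445630558) (nat_lit 39) (nat_lit 5) (nat_lit 41) (nat_lit 5) (nat_lit 42) (nat_lit 5) (nat_lit 332) (nat_lit 260) (nat_lit 188)) (XT.nd (nat_lit 78) (nat_lit 0) (nat_lit 0) (XT.lf (nat_lit 0) (nat_lit 7632388379) (nat_lit 152) (nat_lit 4231219934) (nat_lit 228) (nat_lit 4819179825) (nat_lit 39) (nat_lit 5) (nat_lit 41) (nat_lit 5) (nat_lit 42) (nat_lit 5) (nat_lit 333) (nat_lit 260) (nat_lit 187)) (XT.lf (nat_lit 0) (nat_lit 14573833890) (nat_lit 152) (nat_lit 335884477) (nat_lit 228) (nat_lit 2138936882) (nat_lit 39) (nat_lit 5) (nat_lit 41) (nat_lit 5) (nat_lit 42) (nat_lit 5) (nat_lit 334) (nat_lit 260) (nat_lit 186)))))) (XT.nd (nat_lit 468) (nat_lit 380) (nat_lit 0) (XT.nd (nat_lit 234) (nat_lit 152) (nat_lit 0) (XT.nd (nat_lit 78) (nat_lit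 152) (nat_lit 0) (XT.lf (nat_lit 0) (nat_lit 663192150) (nat_lit 304) (nat_lit 13120259456) (nat_lit 76) (nat_lit 3640287558) (nat_lit 35) (nat_lit 5) (nat_lit 39) (nat_lit 5) (nat_lit 36) (nat_lit 5) (nat_lit 335) (nat_lit 260) (nat_lit 185)) (XT.nd (nat_lit 78) (nat_lit 152) (nat_lit 0) (XT.lf (nat_lit 0) (nat_lit 3511382697) (nat_lit 304) (nat_lit 6534968926) (nat_lit 76) (nat_lit 7762966573) (nat_lit 35) (nat_lit 5) (nat_lit 39) (nat_lit 5) (nat_lit 36) (nat_lit 5) (nat_lit 336) (nat_lit 260) (nat_lit 184)) (XT.lf (nat_lit 0) (nat_lit 216420294) (nat_lit 152) (nat_lit 6207789993) (nat_lit 228) (nat_lit 11782905342) (nat_lit 33) (nat_lit 5) (nat_lit 35) (nat_lit 5) (nat_lit 36) (nat_lit 5) (nat_lit 337) (nat_lit 260) (nat_lit 183)))) (XT.nd (nat_lit 78) (nat_lit 152) (nat_lit 0) (XT.lf (nat_lit 0) (nat_lit 7268978317) (nat_lit 152) (nat_lit 2198872748) (nat_lit 228) (nat_lit 9147719058) (nat_lit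 33) (nat_lit 5) (nat_lit 35) (nat_lit 5) (nat_lit 36) (nat_lit 5) (nat_lit 338) (nat_lit 260) (nat_lit 182)) (XT.nd (nat_lit 78) (nat_lit 152) (nat_lit 0) (XT.lf (nat_lit 0) (nat_lit 12599332352) (nat_lit 228) (nat_lit 4556587904) (nat_lit 76) (nat_lit 1880487291) (nat_lit 33) (nat_lit 5) (nat_lit 36) (nat_lit 5) (nat_lit 34) (nat_lit 5) (nat_lit 339) (nat_lit 260) (nat_lit 181)) (XT.lf (nat_lit 0) (nat_lit 2428889646) (nat_lit 152) (nat_lit 13419604842) (nat_lit 228) (nat_lit 3620688011) (nat_lit 31) (nat_lit 5) (nat_lit 33) (nat_lit 5) (nat_lit 34) (nat_lit 5) (nat_lit 340) (nat_lit 260) (nat_lit 180))))) (XT.nd (nat_lit 234) (nat_lit 152) (nat_lit 0) (XT.nd (nat_lit 78) (nat_lit 228) (nat_lit 0) (XT.lf (nat_lit 0) (nat_lit 9683817152) (nat_lit 152) (nat_lit 9536244941) (nat_lit 228) (nat_lit 694154473) (nat_lit 31) (nat_lit 5) (nat_lit 33) (nat_lit 5) (nat_lit 34) (nat_lit 5) (nat_lit 341)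 (nat_lit 260) (nat_lit 179)) (XT.nd (nat_lit 78) (nat_lit 152) (nat_lit 0) (XT.lf (nat_lit 0) (nat_lit 2254206842) (nat_lit 228) (nat_lit 3271490017) (nat_lit 76) (nat_lit 14846878924) (nat_lit 30) (nat_lit 5) (nat_lit 33) (nat_lit 5) (nat_lit 31) (nat_lit 5) (nat_lit 342) (nat_lit 260) (nat_lit 178)) (XT.lf (nat_lit 0) (nat_lit 3934064227) (nat_lit 152) (nat_lit 1360729047) (nat_lit 228) (nat_lit 15549176302) (nat_lit 28) (nat_lit 5) (nat_lit 30) (nat_lit 5) (nat_lit 31) (nat_lit 5) (nat_lit 343) (nat_lit 260) (nat_lit 177)))) (XT.nd (nat_lit 78) (nat_lit 152) (nat_lit 0) (XT.lf (nat_lit 0) (nat_lit 8468192708) (nat_lit 228) (nat_lit 9966355501) (nat_lit 76) (nat_lit 2893730243) (nat_lit 28) (nat_lit 5) (nat_lit 31) (nat_lit 5) (nat_lit 29) (nat_lit 5) (nat_lit 344) (nat_lit 260) (nat_lit 176)) (XT.nd (nat_lit 78) (nat_lit 152) (nat_lit 0) (XT.lf (nat_lit 0) (nat_lit 11730922556) (nat_lit 228)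 (nat_lit 2859238318) (nat_lit 76) (nat_lit 7237152382) (nat_lit 28) (nat_lit 5) (nat_lit 31) (nat_lit 5) (nat_lit 29) (nat_lit 5) (nat_lit 345) (nat_lit 260) (nat_lit 175)) (XT.lf (nat_lit 0) (nat_lit 4518916802) (nat_lit 152) (nat_lit 10597275379) (nat_lit 228) (nat_lit 7224407108) (nat_lit 26) (nat_lit 5) (nat_lit 28) (nat_lit 5) (nat_lit 29) (nat_lit 5) (nat_lit 346) (nat_lit 260) (nat_lit 174))))))))
noncomputable def xc111 : XT := (XT.nd (nat_lit 1794) (nat_lit 456) (nat_lit 0) (XT.nd (nat_lit 858) (nat_lit 456) (nat_lit 0) (XT.nd (nat_lit 390) (nat_lit 304) (nat_lit 0) (XT.nd (nat_lit 156) (nat_lit 228) (nat_lit 0) (XT.nd (nat_lit 78) (nat_lit 0) (nat_lit 0) (XT.lf (nat_lit 0) (nat_lit 12146969848) (nat_lit 152) (nat_lit 6466400109) (nat_lit 228) (nat_lit 4255622782) (nat_lit 26) (nat_lit 5) (nat_lit 28) (nat_lit 5) (nat_lit 29) (nat_lit 5) (nat_lit 347) (nat_lit 260) (nat_lit 173)) (XT.lf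 (nat_lit 0) (nat_lit 19974681658) (nat_lit 152) (nat_lit 2222798264) (nat_lit 228) (nat_lit 1216316342) (nat_lit 26) (nat_lit 5) (nat_lit 28) (nat_lit 5) (nat_lit 29) (nat_lit 5) (nat_lit 348) (nat_lit 260) (nat_lit 172))) (XT.nd (nat_lit 78) (nat_lit 0) (nat_lit 0) (XT.lf (nat_lit 0) (nat_lit 1919646006) (nat_lit 228) (nat_lit 19899783924) (nat_lit 76) (nat_lit 2153694783) (nat_lit 23) (nat_lit 5) (nat_lit 26) (nat_lit 5) (nat_lit 24) (nat_lit 5) (nat_lit 349) (nat_lit 260) (nat_lit 171)) (XT.nd (nat_lit 78) (nat_lit 0) (nat_lit 0) (XT.lf (nat_lit 0) (nat_lit 5164805471) (nat_lit 228) (nat_lit 12729771361) (nat_lit 76) (nat_lit 6653125136) (nat_lit 23) (nat_lit 5) (nat_lit 26) (nat_lit 5) (nat_lit 24) (nat_lit 5) (nat_lit 350) (nat_lit 260) (nat_lit 170)) (XT.lf (nat_lit 0) (nat_lit 8490314806) (nat_lit 228) (nat_lit 5372672045) (nat_lit 76) (nat_lit 11277056519) (nat_lit 23) (nat_lit 5) (nat_lit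 26) (nat_lit 5) (nat_lit 24) (nat_lit 5) (nat_lit 351) (nat_lit 260) (nat_lit 169))))) (XT.nd (nat_lit 234) (nat_lit 152) (nat_lit 0) (XT.nd (nat_lit 78) (nat_lit 0) (nat_lit 0) (XT.lf (nat_lit 0) (nat_lit 2221287883) (nat_lit 152) (nat_lit 9699144288) (nat_lit 228) (nat_lit 13829593754) (nat_lit 21) (nat_lit 5) (nat_lit 23) (nat_lit 5) (nat_lit 24) (nat_lit 5) (nat_lit 352) (nat_lit 260) (nat_lit 168)) (XT.nd (nat_lit 78) (nat_lit 0) (nat_lit 0) (XT.lf (nat_lit 0) (nat_lit 10126270070) (nat_lit 152) (nat_lit 5365148801) (nat_lit 228) (nat_lit 10885765837) (nat_lit 21) (nat_lit 5) (nat_lit 23) (nat_lit 5) (nat_lit 24) (nat_lit 5) (nat_lit 353) (nat_lit 260) (nat_lit 167)) (XT.lf (nat_lit 0) (nat_lit 18242255072) (nat_lit 152) (nat_lit 911466857) (nat_lit 228) (nat_lit 7869925990) (nat_lit 21) (nat_lit 5) (nat_lit 23) (nat_lit 5) (nat_lit 24) (nat_lit 5) (nat_lit 354) (nat_lit 260) (nat_lit 166))))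 (XT.nd (nat_lit 78) (nat_lit 152) (nat_lit 0) (XT.lf (nat_lit 0) (nat_lit 22945779261) (nat_lit 228) (nat_lit 1148883746) (nat_lit 76) (nat_lit 3594260284) (nat_lit 21) (nat_lit 5) (nat_lit 24) (nat_lit 5) (nat_lit 22) (nat_lit 4) (nat_lit 355) (nat_lit 260) (nat_lit 165)) (XT.nd (nat_lit 78) (nat_lit 76) (nat_lit 0) (XT.lf (nat_lit 0) (nat_lit 6811479041) (nat_lit 76) (nat_lit 20099620671) (nat_lit 152) (nat_lit 1461286561) (nat_lit 20) (nat_lit 5) (nat_lit 21) (nat_lit 5) (nat_lit 22) (nat_lit 4) (nat_lit 356) (nat_lit 260) (nat_lit 164)) (XT.lf (nat_lit 0) (nat_lit 1878335264) (nat_lit 152) (nat_lit 14085442849) (nat_lit 76) (nat_lit 13112132515) (nat_lit 19) (nat_lit 5) (nat_lit 21) (nat_lit 5) (nat_lit 20) (nat_lit 5) (nat_lit 357) (nat_lit 260) (nat_lit 163)))))) (XT.nd (nat_lit 468) (nat_lit 228) (nat_lit 0) (XT.nd (nat_lit 234) (nat_lit 76) (nat_lit 0) (XT.nd (nat_lit 78) (nat_lit 152)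 (nat_lit 0) (XT.lf (nat_lit 0) (nat_lit 5274250492) (nat_lit 152) (nat_lit 6424531969) (nat_lit 76) (nat_lit 18101773123) (nat_lit 19) (nat_lit 5) (nat_lit 21) (nat_lit 5) (nat_lit 20) (nat_lit 5) (nat_lit 358) (nat_lit 260) (nat_lit 162)) (XT.nd (nat_lit 78) (nat_lit 0) (nat_lit 0) (XT.lf (nat_lit 0) (nat_lit 1471276082) (nat_lit 152) (nat_lit 7300808113) (nat_lit 228) (nat_lit 21774867248) (nat_lit 17) (nat_lit 5) (nat_lit 19) (nat_lit 5) (nat_lit 20) (nat_lit 5) (nat_lit 359) (nat_lit 260) (nat_lit 161)) (XT.lf (nat_lit 0) (nat_lit 9712246699) (nat_lit 152) (nat_lit 2713565318) (nat_lit 228) (nat_lit 18888410800) (nat_lit 17) (nat_lit 5) (nat_lit 19) (nat_lit 5) (nat_lit 20) (nat_lit 5) (nat_lit 360) (nat_lit 260) (nat_lit 160)))) (XT.nd (nat_lit 78) (nat_lit 76) (nat_lit 0) (XT.lf (nat_lit 0) (nat_lit 16194886135) (nat_lit 228) (nat_lit 13946454971) (nat_lit 76) (nat_lit 1963011245) (nat_lit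 17) (nat_lit 5) (nat_lit 20) (nat_lit 5) (nat_lit 18) (nat_lit 4) (nat_lit 361) (nat_lit 260) (nat_lit 159)) (XT.nd (nat_lit 78) (nat_lit 76) (nat_lit 0) (XT.lf (nat_lit 0) (nat_lit 20090696221) (nat_lit 228) (nat_lit 6110518935) (nat_lit 76) (nat_lit 6716572402) (nat_lit 17) (nat_lit 5) (nat_lit 20) (nat_lit 5) (nat_lit 18) (nat_lit 4) (nat_lit 362) (nat_lit 260) (nat_lit 158)) (XT.lf (nat_lit 0) (nat_lit 1977348566) (nat_lit 76) (nat_lit 22132220851) (nat_lit 152) (nat_lit 9645882099) (nat_lit 16) (nat_lit 5) (nat_lit 17) (nat_lit 5) (nat_lit 18) (nat_lit 4) (nat_lit 363) (nat_lit 260) (nat_lit 157))))) (XT.nd (nat_lit 234) (nat_lit 152) (nat_lit 0) (XT.nd (nat_lit 78) (nat_lit 76) (nat_lit 0) (XT.lf (nat_lit 0) (nat_lit 10411592988) (nat_lit 76) (nat_lit 17886467912) (nat_lit 152) (nat_lit 6318723959) (nat_lit 16) (nat_lit 5) (nat_lit 17) (nat_lit 5) (nat_lit 18) (nat_lit 4) (nat_lit 364)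 (nat_lit 260) (nat_lit 156)) (XT.nd (nat_lit 78) (nat_lit 76) (nat_lit 0) (XT.lf (nat_lit 0) (nat_lit 19077972751) (nat_lit 76) (nat_lit 13521950717) (nat_lit 152) (nat_lit 2904413952) (nat_lit 16) (nat_lit 5) (nat_lit 17) (nat_lit 5) (nat_lit 18) (nat_lit 4) (nat_lit 365) (nat_lit 260) (nat_lit 155)) (XT.lf (nat_lit 0) (nat_lit 588322529) (nat_lit 152) (nat_lit 8440592179) (nat_lit 76) (nat_lit 27389796986) (nat_lit 15) (nat_lit 5) (nat_lit 17) (nat_lit 5) (nat_lit 16) (nat_lit 5) (nat_lit 366) (nat_lit 260) (nat_lit 154)))) (XT.nd (nat_lit 78) (nat_lit 152) (nat_lit 0) (XT.lf (nat_lit 0) (nat_lit 4115762198) (nat_lit 152) (nat_lit 263938506) (nat_lit 76) (nat_lit 32980314685) (nat_lit 15) (nat_lit 5) (nat_lit 17) (nat_lit 5) (nat_lit 16) (nat_lit 5) (nat_lit 367) (nat_lit 260) (nat_lit 153)) (XT.nd (nat_lit 78) (nat_lit 0) (nat_lit 0) (XT.lf (nat_lit 0) (nat_lit 7822098283) (nat_lit 228) (nat_lit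 30031524195) (nat_lit 76) (nat_lit 473753033) (nat_lit 13) (nat_lit 5) (nat_lit 16) (nat_lit 5) (nat_lit 14) (nat_lit 4) (nat_lit 368) (nat_lit 260) (nat_lit 152)) (XT.lf (nat_lit 0) (nat_lit 11674387575) (nat_lit 228) (nat_lit 22268655235) (nat_lit 76) (nat_lit 5379679970) (nat_lit 13) (nat_lit 5) (nat_lit 16) (nat_lit 5) (nat_lit 14) (nat_lit 4) (nat_lit 369) (nat_lit 260) (nat_lit 151))))))) (XT.nd (nat_lit 936) (nat_lit 228) (nat_lit 0) (XT.nd (nat_lit 468) (nat_lit 152) (nat_lit 0) (XT.nd (nat_lit 234) (nat_lit 0) (nat_lit 0) (XT.nd (nat_lit 78) (nat_lit 76) (nat_lit 0) (XT.lf (nat_lit 0) (nat_lit 15631282536) (nat_lit 228) (nat_lit 14291768466) (nat_lit 76) (nat_lit 10425217322) (nat_lit 13) (nat_lit 5) (nat_lit 16) (nat_lit 5) (nat_lit 14) (nat_lit 4) (nat_lit 370) (nat_lit 260) (nat_lit 150)) (XT.nd (nat_lit 78) (nat_lit 76) (nat_lit 0) (XT.lf (nat_lit 0) (nat_lit 19696240647) (nat_lit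 228) (nat_lit 6093893794) (nat_lit 76) (nat_lit 15614773811) (nat_lit 13) (nat_lit 5) (nat_lit 16) (nat_lit 5) (nat_lit 14) (nat_lit 4) (nat_lit 371) (nat_lit 260) (nat_lit 149)) (XT.lf (nat_lit 0) (nat_lit 2378545973) (nat_lit 76) (nat_lit 21517131880) (nat_lit 152) (nat_lit 18597202067) (nat_lit 12) (nat_lit 5) (nat_lit 13) (nat_lit 5) (nat_lit 14) (nat_lit 4) (nat_lit 372) (nat_lit 260) (nat_lit 148)))) (XT.nd (nat_lit 78) (nat_lit 0) (nat_lit 0) (XT.lf (nat_lit 0) (nat_lit 11212467000) (nat_lit 76) (nat_lit 17059965560) (nat_lit 152) (nat_lit 15339526352) (nat_lit 12) (nat_lit 5) (nat_lit 13) (nat_lit 5) (nat_lit 14) (nat_lit 4) (nat_lit 373) (nat_lit 260) (nat_lit 147)) (XT.nd (nat_lit 78) (nat_lit 0) (nat_lit 0) (XT.lf (nat_lit 0) (nat_lit 20294307814) (nat_lit 76) (nat_lit 12476277249) (nat_lit 152) (nat_lit 11994330324) (nat_lit 12) (nat_lit 5) (nat_lit 13) (nat_lit 5) (nat_lit 14) (nat_lit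 4) (nat_lit 374) (nat_lit 260) (nat_lit 146)) (XT.lf (nat_lit 0) (nat_lit 29632004002) (nat_lit 76) (nat_lit 7762061782) (nat_lit 152) (nat_lit 8558690998) (nat_lit 12) (nat_lit 5) (nat_lit 13) (nat_lit 5) (nat_lit 14) (nat_lit 4) (nat_lit 375) (nat_lit 260) (nat_lit 145))))) (XT.nd (nat_lit 234) (nat_lit 0) (nat_lit 0) (XT.nd (nat_lit 78) (nat_lit 152) (nat_lit 0) (XT.lf (nat_lit 0) (nat_lit 39233714717) (nat_lit 76) (nat_lit 2913199942) (nat_lit 152) (nat_lit 5029606358) (nat_lit 12) (nat_lit 5) (nat_lit 13) (nat_lit 5) (nat_lit 14) (nat_lit 4) (nat_lit 376) (nat_lit 260) (nat_lit 144)) (XT.nd (nat_lit 78) (nat_lit 76) (nat_lit 0) (XT.lf (nat_lit 0) (nat_lit 663559030) (nat_lit 76) (nat_lit 46396045964) (nat_lit 76) (nat_lit 1376882796) (nat_lit 11) (nat_lit 4) (nat_lit 12) (nat_lit 5) (nat_lit 12) (nat_lit 4) (nat_lit 377) (nat_lit 260) (nat_lit 143)) (XT.lf (nat_lit 0) (nat_lit 2439609821)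 (nat_lit 152) (nat_lit 40109375666) (nat_lit 76) (nat_lit 7181564983) (nat_lit 10) (nat_lit 5) (nat_lit 12) (nat_lit 5) (nat_lit 11) (nat_lit 4) (nat_lit 378) (nat_lit 260) (nat_lit 142)))) (XT.nd (nat_lit 78) (nat_lit 0) (nat_lit 0) (XT.lf (nat_lit 0) (nat_lit 6334079619) (nat_lit 152) (nat_lit 32244981040) (nat_lit 76) (nat_lit 12484237376) (nat_lit 10) (nat_lit 5) (nat_lit 12) (nat_lit 5) (nat_lit 11) (nat_lit 4) (nat_lit 379) (nat_lit 260) (nat_lit 141)) (XT.nd (nat_lit 78) (nat_lit 0) (nat_lit 0) (XT.lf (nat_lit 0) (nat_lit 10336797475) (nat_lit 152) (nat_lit 24159637642) (nat_lit 76) (nat_lit 17939856970) (nat_lit 10) (nat_lit 5) (nat_lit 12) (nat_lit 5) (nat_lit 11) (nat_lit 4) (nat_lit 380) (nat_lit 260) (nat_lit 140)) (XT.lf (nat_lit 0) (nat_lit 14451260908) (nat_lit 152) (nat_lit 15846280608) (nat_lit 76) (nat_lit 23553190812) (nat_lit 10) (nat_lit 5) (nat_lit 12) (nat_lit 5) (nat_lit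 11) (nat_lit 4) (nat_lit 381) (nat_lit 260) (nat_lit 139)))))) (XT.nd (nat_lit 468) (nat_lit 152) (nat_lit 0) (XT.nd (nat_lit 234) (nat_lit 0) (nat_lit 0) (XT.nd (nat_lit 78) (nat_lit 76) (nat_lit 0) (XT.lf (nat_lit 0) (nat_lit 18681065082) (nat_lit 152) (nat_lit 7297645841) (nat_lit 76) (nat_lit 29329143755) (nat_lit 10) (nat_lit 5) (nat_lit 12) (nat_lit 5) (nat_lit 11) (nat_lit 4) (nat_lit 382) (nat_lit 260) (nat_lit 138)) (XT.nd (nat_lit 78) (nat_lit 0) (nat_lit 0) (XT.lf (nat_lit 0) (nat_lit 1523464622) (nat_lit 76) (nat_lit 21521085793) (nat_lit 152) (nat_lit 33763942602) (nat_lit 9) (nat_lit 5) (nat_lit 10) (nat_lit 5) (nat_lit 11) (nat_lit 4) (nat_lit 383) (nat_lit 260) (nat_lit 137)) (XT.lf (nat_lit 0) (nat_lit 10745225784) (nat_lit 76) (nat_lit 16859647343) (nat_lit 152) (nat_lit 30747305148) (nat_lit 9) (nat_lit 5) (nat_lit 10) (nat_lit 5) (nat_lit 11) (nat_lit 4) (nat_lit 384) (nat_lit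 260) (nat_lit 136)))) (XT.nd (nat_lit 78) (nat_lit 0) (nat_lit 0) (XT.lf (nat_lit 0) (nat_lit 20230458033) (nat_lit 76) (nat_lit 12064014387) (nat_lit 152) (nat_lit 27647933254) (nat_lit 9) (nat_lit 5) (nat_lit 10) (nat_lit 5) (nat_lit 11) (nat_lit 4) (nat_lit 385) (nat_lit 260) (nat_lit 135)) (XT.nd (nat_lit 78) (nat_lit 0) (nat_lit 0) (XT.lf (nat_lit 0) (nat_lit 29987449436) (nat_lit 76) (nat_lit 7129996564) (nat_lit 152) (nat_lit 24463118729) (nat_lit 9) (nat_lit 5) (nat_lit 10) (nat_lit 5) (nat_lit 11) (nat_lit 4) (nat_lit 386) (nat_lit 260) (nat_lit 134)) (XT.lf (nat_lit 0) (nat_lit 40024725519) (nat_lit 76) (nat_lit 2053282599) (nat_lit 152) (nat_lit 21190078727) (nat_lit 9) (nat_lit 5) (nat_lit 10) (nat_lit 5) (nat_lit 11) (nat_lit 4) (nat_lit 387) (nat_lit 260) (nat_lit 133))))) (XT.nd (nat_lit 234) (nat_lit 76) (nat_lit 0) (XT.nd (nat_lit 78) (nat_lit 76) (nat_lit 0) (XT.lf (nat_lit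 0) (nat_lit 47210970640) (nat_lit 152) (nat_lit 14685867232) (nat_lit 0) (nat_lit 3108694359) (nat_lit 9) (nat_lit 5) (nat_lit 11) (nat_lit 4) (nat_lit 9) (nat_lit 4) (nat_lit 388) (nat_lit 260) (nat_lit 132)) (XT.nd (nat_lit 78) (nat_lit 76) (nat_lit 0) (XT.lf (nat_lit 0) (nat_lit 52511510261) (nat_lit 152) (nat_lit 5903847172) (nat_lit 0) (nat_lit 8379340864) (nat_lit 9) (nat_lit 5) (nat_lit 11) (nat_lit 4) (nat_lit 9) (nat_lit 4) (nat_lit 389) (nat_lit 260) (nat_lit 131)) (XT.lf (nat_lit 0) (nat_lit 3192405195) (nat_lit 76) (nat_lit 54802803269) (nat_lit 76) (nat_lit 10641611430) (nat_lit 8) (nat_lit 4) (nat_lit 9) (nat_lit 5) (nat_lit 9) (nat_lit 4) (nat_lit 390) (nat_lit 260) (nat_lit 130)))) (XT.nd (nat_lit 78) (nat_lit 76) (nat_lit 0) (XT.lf (nat_lit 0) (nat_lit 12671157573) (nat_lit 76) (nat_lit 51025413309) (nat_lit 76) (nat_lit 6836044340) (nat_lit 8) (nat_lit 4) (nat_lit 9) (nat_lit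 5) (nat_lit 9) (nat_lit 4) (nat_lit 391) (nat_lit 260) (nat_lit 129)) (XT.nd (nat_lit 78) (nat_lit 76) (nat_lit 0) (XT.lf (nat_lit 0) (nat_lit 22423194229) (nat_lit 76) (nat_lit 47139504200) (nat_lit 76) (nat_lit 2922778795) (nat_lit 8) (nat_lit 4) (nat_lit 9) (nat_lit 5) (nat_lit 9) (nat_lit 4) (nat_lit 392) (nat_lit 260) (nat_lit 128)) (XT.lf (nat_lit 0) (nat_lit 1080108290) (nat_lit 152) (nat_lit 42050665222) (nat_lit 76) (nat_lit 31366021095) (nat_lit 7) (nat_lit 5) (nat_lit 9) (nat_lit 5) (nat_lit 8) (nat_lit 4) (nat_lit 393) (nat_lit 260) (nat_lit 127))))))))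
noncomputable def xc112 : XT := (XT.nd (nat_lit 31668) (nat_lit 0) (nat_lit 7296) (XT.nd (nat_lit 30732) (nat_lit 0) (nat_lit 16796) (XT.nd (nat_lit 30264) (nat_lit 0) (nat_lit 19608) (XT.nd (nat_lit 156) (nat_lit 76) (nat_lit 0) (XT.nd (nat_lit 78) (nat_lit 0) (nat_lit 0) (XT.lf (nat_lit 0) (nat_lit 5138358771) (nat_lit 152) (nat_lit 33838202809) (nat_lit 76) (nat_lit 37591205285) (nat_lit 7) (nat_lit 5) (nat_lit 9) (nat_lit 5) (nat_lit 8) (nat_lit 4) (nat_lit 394) (nat_lit 260) (nat_lit 126)) (XT.lf (nat_lit 0) (nat_lit 9312552634) (nat_lit 152) (nat_lit 25389624282) (nat_lit 76) (nat_lit 43998869537) (nat_lit 7) (nat_lit 5) (nat_lit 9) (nat_lit 5) (nat_lit 8) (nat_lit 4) (nat_lit 395) (nat_lit 260) (nat_lit 125))) (XT.nd (nat_lit 78) (nat_lit 76) (nat_lit 0) (XT.lf (nat_lit 0) (nat_lit 13606337233) (nat_lit 152) (nat_lit 16697547386) (nat_lit 76) (nat_lit 50594612781) (nat_lit 7) (nat_lit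 5) (nat_lit 9) (nat_lit 5) (nat_lit 8) (nat_lit 4) (nat_lit 396) (nat_lit 260) (nat_lit 124)) (XT.nd (nat_lit 78) (nat_lit 76) (nat_lit 0) (XT.lf (nat_lit 0) (nat_lit 18023464417) (nat_lit 152) (nat_lit 7754377103) (nat_lit 76) (nat_lit 57384198288) (nat_lit 7) (nat_lit 5) (nat_lit 9) (nat_lit 5) (nat_lit 8) (nat_lit 4) (nat_lit 397) (nat_lit 260) (nat_lit 123)) (XT.lf (nat_lit 0) (nat_lit 1476513074) (nat_lit 76) (nat_lit 21105473886) (nat_lit 152) (nat_lit 62911238778) (nat_lit 6) (nat_lit 5) (nat_lit 7) (nat_lit 5) (nat_lit 8) (nat_lit 4) (nat_lit 398) (nat_lit 260) (nat_lit 122))))) (XT.nd (nat_lit 234) (nat_lit 228) (nat_lit 0) (XT.nd (nat_lit 78) (nat_lit 228) (nat_lit 0) (XT.lf (nat_lit 0) (nat_lit 1389952965) (nat_lit 0) (nat_lit 1389952965) (nat_lit 76) (nat_lit 443297195) (nat_lit 270) (nat_lit 5) (nat_lit 270) (nat_lit 3) (nat_lit 271) (nat_lit 0) (nat_lit 261) (nat_lit 261) (nat_lit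 258)) (XT.nd (nat_lit 78) (nat_lit 0) (nat_lit 0) (XT.lf (nat_lit 0) (nat_lit 1800132457) (nat_lit 228) (nat_lit 822519403) (nat_lit 228) (nat_lit 3829829734) (nat_lit 267) (nat_lit 3) (nat_lit 270) (nat_lit 3) (nat_lit 270) (nat_lit 5) (nat_lit 262) (nat_lit 261) (nat_lit 257)) (XT.lf (nat_lit 76) (nat_lit 2084562129) (nat_lit 0) (nat_lit 2380428267) (nat_lit 228) (nat_lit 1996431114) (nat_lit 268) (nat_lit 5) (nat_lit 267) (nat_lit 3) (nat_lit 270) (nat_lit 5) (nat_lit 263) (nat_lit 261) (nat_lit 256)))) (XT.nd (nat_lit 78) (nat_lit 0) (nat_lit 0) (XT.lf (nat_lit 0) (nat_lit 629575667) (nat_lit 228) (nat_lit 1437882160) (nat_lit 304) (nat_lit 4406196403) (nat_lit 264) (nat_lit 5) (nat_lit 267) (nat_lit 3) (nat_lit 268) (nat_lit 5) (nat_lit 264) (nat_lit 261) (nat_lit 255)) (XT.nd (nat_lit 78) (nat_lit 0) (nat_lit 0) (XT.lf (nat_lit 76) (nat_lit 1545252015) (nat_lit 0) (nat_lit 1663301276) (nat_lit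 304) (nat_lit 3280049800) (nat_lit 265) (nat_lit 5) (nat_lit 264) (nat_lit 5) (nat_lit 268) (nat_lit 5) (nat_lit 265) (nat_lit 261) (nat_lit 254)) (XT.lf (nat_lit 76) (nat_lit 4593489568) (nat_lit 0) (nat_lit 1187803956) (nat_lit 304) (nat_lit 725575934) (nat_lit 265) (nat_lit 5) (nat_lit 264) (nat_lit 5) (nat_lit 268) (nat_lit 5) (nat_lit 266) (nat_lit 261) (nat_lit 253)))))) (XT.nd (nat_lit 468) (nat_lit 1748) (nat_lit 0) (XT.nd (nat_lit 234) (nat_lit 456) (nat_lit 0) (XT.nd (nat_lit 78) (nat_lit 304) (nat_lit 0) (XT.lf (nat_lit 76) (nat_lit 1157195662) (nat_lit 0) (nat_lit 625721158) (nat_lit 380) (nat_lit 4745120555) (nat_lit 261) (nat_lit 5) (nat_lit 260) (nat_lit 5) (nat_lit 265) (nat_lit 5) (nat_lit 267) (nat_lit 261) (nat_lit 252)) (XT.nd (nat_lit 78) (nat_lit 380) (nat_lit 0) (XT.lf (nat_lit 0) (nat_lit 4277268621) (nat_lit 304) (nat_lit 2254644050) (nat_lit 76) (nat_lit 20286732) (nat_lit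 261) (nat_lit 5) (nat_lit 265) (nat_lit 5) (nat_lit 262) (nat_lit 5) (nat_lit 268) (nat_lit 261) (nat_lit 251)) (XT.lf (nat_lit 0) (nat_lit 186848192) (nat_lit 380) (nat_lit 5670800614) (nat_lit 76) (nat_lit 721988877) (nat_lit 256) (nat_lit 5) (nat_lit 261) (nat_lit 5) (nat_lit 257) (nat_lit 5) (nat_lit 269) (nat_lit 261) (nat_lit 250)))) (XT.nd (nat_lit 78) (nat_lit 456) (nat_lit 0) (XT.lf (nat_lit 0) (nat_lit 2609544428) (nat_lit 380) (nat_lit 2473966374) (nat_lit 76) (nat_lit 1526031153) (nat_lit 256) (nat_lit 5) (nat_lit 261) (nat_lit 5) (nat_lit 257) (nat_lit 5) (nat_lit 270) (nat_lit 261) (nat_lit 249)) (XT.nd (nat_lit 78) (nat_lit 76) (nat_lit 0) (XT.lf (nat_lit 0) (nat_lit 778189816) (nat_lit 380) (nat_lit 4246634349) (nat_lit 456) (nat_lit 1618215506) (nat_lit 251) (nat_lit 5) (nat_lit 256) (nat_lit 5) (nat_lit 257) (nat_lit 5) (nat_lit 271) (nat_lit 261) (nat_lit 248)) (XT.lf (nat_lit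 0) (nat_lit 757271050) (nat_lit 456) (nat_lit 2563665702) (nat_lit 76) (nat_lit 3358484960) (nat_lit 250) (nat_lit 5) (nat_lit 256) (nat_lit 5) (nat_lit 251) (nat_lit 5) (nat_lit 272) (nat_lit 261) (nat_lit 247))))) (XT.nd (nat_lit 234) (nat_lit 684) (nat_lit 0) (XT.nd (nat_lit 78) (nat_lit 608) (nat_lit 0) (XT.lf (nat_lit 0) (nat_lit 780199894) (nat_lit 456) (nat_lit 2314638088) (nat_lit 532) (nat_lit 3624144864) (nat_lit 244) (nat_lit 5) (nat_lit 250) (nat_lit 5) (nat_lit 251) (nat_lit 5) (nat_lit 273) (nat_lit 261) (nat_lit 246)) (XT.nd (nat_lit 78) (nat_lit 608) (nat_lit 0) (XT.lf (nat_lit 0) (nat_lit 4221922111) (nat_lit 456) (nat_lit 1224260794) (nat_lit 532) (nat_lit 1315499058) (nat_lit 244) (nat_lit 5) (nat_lit 250) (nat_lit 5) (nat_lit 251) (nat_lit 5) (nat_lit 274) (nat_lit 261) (nat_lit 245)) (XT.lf (nat_lit 0) (nat_lit 913583665) (nat_lit 532) (nat_lit 55992590) (nat_lit 608) (nat_lit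 5838188093) (nat_lit 236) (nat_lit 5) (nat_lit 243) (nat_lit 5) (nat_lit 244) (nat_lit 5) (nat_lit 275) (nat_lit 261) (nat_lit 244)))) (XT.nd (nat_lit 78) (nat_lit 684) (nat_lit 0) (XT.lf (nat_lit 0) (nat_lit 3254876034) (nat_lit 608) (nat_lit 2413744377) (nat_lit 76) (nat_lit 1187713235) (nat_lit 236) (nat_lit 5) (nat_lit 244) (nat_lit 5) (nat_lit 237) (nat_lit 5) (nat_lit 276) (nat_lit 261) (nat_lit 243)) (XT.nd (nat_lit 78) (nat_lit 76) (nat_lit 0) (XT.lf (nat_lit 0) (nat_lit 1136844074) (nat_lit 608) (nat_lit 4406851929) (nat_lit 684) (nat_lit 1364846795) (nat_lit 228) (nat_lit 5) (nat_lit 236) (nat_lit 5) (nat_lit 237) (nat_lit 5) (nat_lit 277) (nat_lit 261) (nat_lit 242)) (XT.lf (nat_lit 0) (nat_lit 869371422) (nat_lit 684) (nat_lit 2184492814) (nat_lit 76) (nat_lit 3909936664) (nat_lit 227) (nat_lit 5) (nat_lit 236) (nat_lit 5) (nat_lit 228) (nat_lit 5) (nat_lit 278) (nat_lit 261) (nat_lit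 241))))))) (XT.nd (nat_lit 858) (nat_lit 4028) (nat_lit 0) (XT.nd (nat_lit 390) (nat_lit 3116) (nat_lit 0) (XT.nd (nat_lit 156) (nat_lit 1672) (nat_lit 0) (XT.nd (nat_lit 78) (nat_lit 0) (nat_lit 0) (XT.lf (nat_lit 0) (nat_lit 1470095873) (nat_lit 684) (nat_lit 1613641305) (nat_lit 760) (nat_lit 3938569531) (nat_lit 218) (nat_lit 5) (nat_lit 227) (nat_lit 5) (nat_lit 228) (nat_lit 5) (nat_lit 279) (nat_lit 261) (nat_lit 240)) (XT.lf (nat_lit 0) (nat_lit 5224238458) (nat_lit 684) (nat_lit 90391821) (nat_lit 760) (nat_lit 1769640305) (nat_lit 218) (nat_lit 5) (nat_lit 227) (nat_lit 5) (nat_lit 228) (nat_lit 5) (nat_lit 280) (nat_lit 261) (nat_lit 239))) (XT.nd (nat_lit 78) (nat_lit 836) (nat_lit 0) (XT.lf (nat_lit 0) (nat_lit 417600156) (nat_lit 836) (nat_lit 5243247254) (nat_lit 76) (nat_lit 1488436884) (nat_lit 207) (nat_lit 5) (nat_lit 218) (nat_lit 5) (nat_lit 208) (nat_lit 5) (nat_lit 281)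 (nat_lit 261) (nat_lit 238)) (XT.nd (nat_lit 78) (nat_lit 836) (nat_lit 0) (XT.lf (nat_lit 0) (nat_lit 2585680711) (nat_lit 836) (nat_lit 1467807783) (nat_lit 76) (nat_lit 3163898878) (nat_lit 207) (nat_lit 5) (nat_lit 218) (nat_lit 5) (nat_lit 208) (nat_lit 5) (nat_lit 282) (nat_lit 261) (nat_lit 237)) (XT.lf (nat_lit 0) (nat_lit 2412893842) (nat_lit 836) (nat_lit 2362043164) (nat_lit 912) (nat_lit 2514095372) (nat_lit 196) (nat_lit 5) (nat_lit 207) (nat_lit 5) (nat_lit 208) (nat_lit 5) (nat_lit 283) (nat_lit 261) (nat_lit 236))))) (XT.nd (nat_lit 234) (nat_lit 2128) (nat_lit 0) (XT.nd (nat_lit 78) (nat_lit 988) (nat_lit 0) (XT.lf (nat_lit 0) (nat_lit 6385559909) (nat_lit 836) (nat_lit 593501081) (nat_lit 912) (nat_lit 385467553) (nat_lit 196) (nat_lit 5) (nat_lit 207) (nat_lit 5) (nat_lit 208) (nat_lit 5) (nat_lit 284) (nat_lit 261) (nat_lit 235)) (XT.nd (nat_lit 78) (nat_lit 0) (nat_lit 0)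 (XT.lf (nat_lit 0) (nat_lit 1748651801) (nat_lit 988) (nat_lit 4433047400) (nat_lit 76) (nat_lit 1260929783) (nat_lit 183) (nat_lit 5) (nat_lit 196) (nat_lit 5) (nat_lit 184) (nat_lit 5) (nat_lit 285) (nat_lit 261) (nat_lit 234)) (XT.lf (nat_lit 0) (nat_lit 3891837371) (nat_lit 988) (nat_lit 450731276) (nat_lit 76) (nat_lit 3181968035) (nat_lit 183) (nat_lit 5) (nat_lit 196) (nat_lit 5) (nat_lit 184) (nat_lit 5) (nat_lit 286) (nat_lit 261) (nat_lit 233)))) (XT.nd (nat_lit 78) (nat_lit 1140) (nat_lit 0) (XT.lf (nat_lit 0) (nat_lit 3668245716) (nat_lit 988) (nat_lit 2405101557) (nat_lit 1064) (nat_lit 1536491193) (nat_lit 170) (nat_lit 5) (nat_lit 183) (nat_lit 5) (nat_lit 184) (nat_lit 5) (nat_lit 287) (nat_lit 261) (nat_lit 232)) (XT.nd (nat_lit 78) (nat_lit 0) (nat_lit 0) (XT.lf (nat_lit 0) (nat_lit 164434619) (nat_lit 1064) (nat_lit 391485786) (nat_lit 1140) (nat_lit 7143384018) (nat_lit 155)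 (nat_lit 5) (nat_lit 169) (nat_lit 5) (nat_lit 170) (nat_lit 5) (nat_lit 288) (nat_lit 261) (nat_lit 231)) (XT.lf (nat_lit 0) (nat_lit 2677170528) (nat_lit 1140) (nat_lit 3404245317) (nat_lit 76) (nat_lit 1709818019) (nat_lit 155) (nat_lit 5) (nat_lit 170) (nat_lit 5) (nat_lit 156) (nat_lit 5) (nat_lit 289) (nat_lit 261) (nat_lit 230)))))) (XT.nd (nat_lit 468) (nat_lit 2052) (nat_lit 0) (XT.nd (nat_lit 234) (nat_lit 532) (nat_lit 0) (XT.nd (nat_lit 78) (nat_lit 608) (nat_lit 0) (XT.lf (nat_lit 0) (nat_lit 807176447) (nat_lit 836) (nat_lit 4008825710) (nat_lit 912) (nat_lit 3071440840) (nat_lit 144) (nat_lit 5) (nat_lit 155) (nat_lit 5) (nat_lit 156) (nat_lit 5) (nat_lit 290) (nat_lit 261) (nat_lit 229)) (XT.nd (nat_lit 78) (nat_lit 608) (nat_lit 0) (XT.lf (nat_lit 0) (nat_lit 5160267455) (nat_lit 836) (nat_lit 1836573163) (nat_lit 912) (nat_lit 990498573) (nat_lit 144) (nat_lit 5) (nat_lit 155)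 (nat_lit 5) (nat_lit 156) (nat_lit 5) (nat_lit 291) (nat_lit 261) (nat_lit 228)) (XT.lf (nat_lit 0) (nat_lit 1093529483) (nat_lit 608) (nat_lit 6577221916) (nat_lit 76) (nat_lit 420382020) (nat_lit 136) (nat_lit 5) (nat_lit 144) (nat_lit 5) (nat_lit 137) (nat_lit 5) (nat_lit 292) (nat_lit 261) (nat_lit 227)))) (XT.nd (nat_lit 78) (nat_lit 532) (nat_lit 0) (XT.lf (nat_lit 0) (nat_lit 3212735896) (nat_lit 608) (nat_lit 2237723300) (nat_lit 76) (nat_lit 2747635604) (nat_lit 136) (nat_lit 5) (nat_lit 144) (nat_lit 5) (nat_lit 137) (nat_lit 5) (nat_lit 293) (nat_lit 261) (nat_lit 226)) (XT.nd (nat_lit 78) (nat_lit 0) (nat_lit 0) (XT.lf (nat_lit 0) (nat_lit 2221581978) (nat_lit 532) (nat_lit 3142428747) (nat_lit 608) (nat_lit 2945320407) (nat_lit 129) (nat_lit 5) (nat_lit 136) (nat_lit 5) (nat_lit 137) (nat_lit 5) (nat_lit 294) (nat_lit 261) (nat_lit 225)) (XT.lf (nat_lit 0) (nat_lit 6807334947) (nat_lit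 532) (nat_lit 743250773) (nat_lit 608) (nat_lit 874313331) (nat_lit 129) (nat_lit 5) (nat_lit 136) (nat_lit 5) (nat_lit 137) (nat_lit 5) (nat_lit 295) (nat_lit 261) (nat_lit 224))))) (XT.nd (nat_lit 234) (nat_lit 988) (nat_lit 0) (XT.nd (nat_lit 78) (nat_lit 532) (nat_lit 0) (XT.lf (nat_lit 0) (nat_lit 1228965784) (nat_lit 532) (nat_lit 5581346572) (nat_lit 76) (nat_lit 1733528072) (nat_lit 122) (nat_lit 5) (nat_lit 129) (nat_lit 5) (nat_lit 123) (nat_lit 5) (nat_lit 296) (nat_lit 261) (nat_lit 223)) (XT.nd (nat_lit 78) (nat_lit 532) (nat_lit 0) (XT.lf (nat_lit 0) (nat_lit 3351649400) (nat_lit 532) (nat_lit 1022768945) (nat_lit 76) (nat_lit 4292563031) (nat_lit 122) (nat_lit 5) (nat_lit 129) (nat_lit 5) (nat_lit 123) (nat_lit 5) (nat_lit 297) (nat_lit 261) (nat_lit 222)) (XT.lf (nat_lit 0) (nat_lit 3692341404) (nat_lit 532) (nat_lit 1832644863) (nat_lit 608) (nat_lit 3269325371) (nat_lit 115)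 (nat_lit 5) (nat_lit 122) (nat_lit 5) (nat_lit 123) (nat_lit 5) (nat_lit 298) (nat_lit 261) (nat_lit 221)))) (XT.nd (nat_lit 78) (nat_lit 988) (nat_lit 0) (XT.lf (nat_lit 0) (nat_lit 7733858391) (nat_lit 608) (nat_lit 416185351) (nat_lit 76) (nat_lit 776409243) (nat_lit 115) (nat_lit 5) (nat_lit 123) (nat_lit 5) (nat_lit 116) (nat_lit 5) (nat_lit 299) (nat_lit 261) (nat_lit 220)) (XT.nd (nat_lit 78) (nat_lit 456) (nat_lit 0) (XT.lf (nat_lit 0) (nat_lit 942456587) (nat_lit 532) (nat_lit 4644755665) (nat_lit 76) (nat_lit 3474734200) (nat_lit 108) (nat_lit 5) (nat_lit 115) (nat_lit 5) (nat_lit 109) (nat_lit 5) (nat_lit 300) (nat_lit 261) (nat_lit 219)) (XT.lf (nat_lit 0) (nat_lit 141429788) (nat_lit 456) (nat_lit 2935818489) (nat_lit 532) (nat_lit 6125205084) (nat_lit 102) (nat_lit 5) (nat_lit 108) (nat_lit 5) (nat_lit 109) (nat_lit 5) (nat_lit 301) (nat_lit 261) (nat_lit 218))))))))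
noncomputable def xc113 : XT := (XT.nd (nat_lit 1794) (nat_lit 1900) (nat_lit 0) (XT.nd (nat_lit 858) (nat_lit 1900) (nat_lit 0) (XT.nd (nat_lit 390) (nat_lit 1140) (nat_lit 0) (XT.nd (nat_lit 156) (nat_lit 456) (nat_lit 0) (XT.nd (nat_lit 78) (nat_lit 380) (nat_lit 0) (XT.lf (nat_lit 0) (nat_lit 5114724026) (nat_lit 456) (nat_lit 163159107) (nat_lit 532) (nat_lit 4069328303) (nat_lit 102) (nat_lit 5) (nat_lit 108) (nat_lit 5) (nat_lit 109) (nat_lit 5) (nat_lit 302) (nat_lit 261) (nat_lit 217)) (XT.lf (nat_lit 0) (nat_lit 676702304) (nat_lit 380) (nat_lit 6856372016) (nat_lit 456) (nat_lit 1963669139) (nat_lit 97) (nat_lit 5) (nat_lit 102) (nat_lit 5) (nat_lit 103) (nat_lit 5) (nat_lit 303) (nat_lit 261) (nat_lit 216))) (XT.nd (nat_lit 78) (nat_lit 380) (nat_lit 0) (XT.lf (nat_lit 0) (nat_lit 202360833) (nat_lit 456) (nat_lit 3885528543) (nat_lit 76) (nat_lit 5562859080) (nat_lit 96) (nat_lit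 5) (nat_lit 102) (nat_lit 5) (nat_lit 97) (nat_lit 5) (nat_lit 304) (nat_lit 261) (nat_lit 215)) (XT.nd (nat_lit 78) (nat_lit 0) (nat_lit 0) (XT.lf (nat_lit 0) (nat_lit 1149554639) (nat_lit 380) (nat_lit 1213094640) (nat_lit 456) (nat_lit 7447158605) (nat_lit 91) (nat_lit 5) (nat_lit 96) (nat_lit 5) (nat_lit 97) (nat_lit 5) (nat_lit 305) (nat_lit 261) (nat_lit 214)) (XT.lf (nat_lit 0) (nat_lit 4602539664) (nat_lit 456) (nat_lit 3625516151) (nat_lit 76) (nat_lit 1745217069) (nat_lit 91) (nat_lit 5) (nat_lit 97) (nat_lit 5) (nat_lit 92) (nat_lit 5) (nat_lit 306) (nat_lit 261) (nat_lit 213))))) (XT.nd (nat_lit 234) (nat_lit 304) (nat_lit 0) (XT.nd (nat_lit 78) (nat_lit 456) (nat_lit 0) (XT.lf (nat_lit 0) (nat_lit 1528364268) (nat_lit 380) (nat_lit 5367543817) (nat_lit 456) (nat_lit 3246220634) (nat_lit 86) (nat_lit 5) (nat_lit 91) (nat_lit 5) (nat_lit 92) (nat_lit 5) (nat_lit 307) (nat_lit 261)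 (nat_lit 212)) (XT.nd (nat_lit 78) (nat_lit 456) (nat_lit 0) (XT.lf (nat_lit 0) (nat_lit 6861956154) (nat_lit 380) (nat_lit 2393015059) (nat_lit 456) (nat_lit 1061245338) (nat_lit 86) (nat_lit 5) (nat_lit 91) (nat_lit 5) (nat_lit 92) (nat_lit 5) (nat_lit 308) (nat_lit 261) (nat_lit 211)) (XT.lf (nat_lit 0) (nat_lit 1151350271) (nat_lit 456) (nat_lit 8666753625) (nat_lit 76) (nat_lit 677590746) (nat_lit 80) (nat_lit 5) (nat_lit 86) (nat_lit 5) (nat_lit 81) (nat_lit 5) (nat_lit 309) (nat_lit 261) (nat_lit 210)))) (XT.nd (nat_lit 78) (nat_lit 304) (nat_lit 0) (XT.lf (nat_lit 0) (nat_lit 3429480974) (nat_lit 456) (nat_lit 3421891102) (nat_lit 76) (nat_lit 3828322089) (nat_lit 80) (nat_lit 5) (nat_lit 86) (nat_lit 5) (nat_lit 81) (nat_lit 5) (nat_lit 310) (nat_lit 261) (nat_lit 209)) (XT.nd (nat_lit 78) (nat_lit 0) (nat_lit 0) (XT.lf (nat_lit 0) (nat_lit 1970930717) (nat_lit 304) (nat_lit 3786657442)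 (nat_lit 380) (nat_lit 5112241515) (nat_lit 76) (nat_lit 5) (nat_lit 80) (nat_lit 5) (nat_lit 81) (nat_lit 5) (nat_lit 311) (nat_lit 261) (nat_lit 208)) (XT.lf (nat_lit 0) (nat_lit 7548305153) (nat_lit 304) (nat_lit 605105939) (nat_lit 380) (nat_lit 2912385064) (nat_lit 76) (nat_lit 5) (nat_lit 80) (nat_lit 5) (nat_lit 81) (nat_lit 5) (nat_lit 312) (nat_lit 261) (nat_lit 207)))))) (XT.nd (nat_lit 468) (nat_lit 912) (nat_lit 0) (XT.nd (nat_lit 234) (nat_lit 304) (nat_lit 0) (XT.nd (nat_lit 78) (nat_lit 380) (nat_lit 0) (XT.lf (nat_lit 0) (nat_lit 1991509493) (nat_lit 304) (nat_lit 8638713415) (nat_lit 380) (nat_lit 637206544) (nat_lit 72) (nat_lit 5) (nat_lit 76) (nat_lit 5) (nat_lit 77) (nat_lit 5) (nat_lit 313) (nat_lit 261) (nat_lit 206)) (XT.nd (nat_lit 78) (nat_lit 304) (nat_lit 0) (XT.lf (nat_lit 0) (nat_lit 1679268544) (nat_lit 380) (nat_lit 3806236251) (nat_lit 76) (nat_lit 5988982569)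 (nat_lit 71) (nat_lit 5) (nat_lit 76) (nat_lit 5) (nat_lit 72) (nat_lit 5) (nat_lit 314) (nat_lit 261) (nat_lit 205)) (XT.lf (nat_lit 0) (nat_lit 1810607962) (nat_lit 304) (nat_lit 2224735396) (nat_lit 380) (nat_lit 7652793054) (nat_lit 67) (nat_lit 5) (nat_lit 71) (nat_lit 5) (nat_lit 72) (nat_lit 5) (nat_lit 315) (nat_lit 261) (nat_lit 204)))) (XT.nd (nat_lit 78) (nat_lit 304) (nat_lit 0) (XT.lf (nat_lit 0) (nat_lit 6477779781) (nat_lit 380) (nat_lit 4290802999) (nat_lit 76) (nat_lit 1139196187) (nat_lit 67) (nat_lit 5) (nat_lit 72) (nat_lit 5) (nat_lit 68) (nat_lit 5) (nat_lit 316) (nat_lit 261) (nat_lit 203)) (XT.nd (nat_lit 78) (nat_lit 0) (nat_lit 0) (XT.lf (nat_lit 0) (nat_lit 1424178400) (nat_lit 304) (nat_lit 7571983356) (nat_lit 380) (nat_lit 3137821700) (nat_lit 63) (nat_lit 5) (nat_lit 67) (nat_lit 5) (nat_lit 68) (nat_lit 5) (nat_lit 317) (nat_lit 261) (nat_lit 202)) (XT.lf (nat_lit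 0) (nat_lit 7353899166) (nat_lit 304) (nat_lit 4247013124) (nat_lit 380) (nat_lit 765788572) (nat_lit 63) (nat_lit 5) (nat_lit 67) (nat_lit 5) (nat_lit 68) (nat_lit 5) (nat_lit 318) (nat_lit 261) (nat_lit 201))))) (XT.nd (nat_lit 234) (nat_lit 608) (nat_lit 0) (XT.nd (nat_lit 78) (nat_lit 0) (nat_lit 0) (XT.lf (nat_lit 0) (nat_lit 810758251) (nat_lit 228) (nat_lit 809782570) (nat_lit 304) (nat_lit 10986147563) (nat_lit 59) (nat_lit 5) (nat_lit 62) (nat_lit 5) (nat_lit 63) (nat_lit 5) (nat_lit 319) (nat_lit 261) (nat_lit 200)) (XT.nd (nat_lit 78) (nat_lit 0) (nat_lit 0) (XT.lf (nat_lit 0) (nat_lit 4108904307) (nat_lit 304) (nat_lit 6019395859) (nat_lit 76) (nat_lit 2724019772) (nat_lit 59) (nat_lit 5) (nat_lit 63) (nat_lit 5) (nat_lit 60) (nat_lit 5) (nat_lit 320) (nat_lit 261) (nat_lit 199)) (XT.lf (nat_lit 0) (nat_lit 6649322065) (nat_lit 304) (nat_lit 120777687) (nat_lit 76) (nat_lit 6335944158)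 (nat_lit 59) (nat_lit 5) (nat_lit 63) (nat_lit 5) (nat_lit 60) (nat_lit 5) (nat_lit 321) (nat_lit 261) (nat_lit 198)))) (XT.nd (nat_lit 78) (nat_lit 304) (nat_lit 0) (XT.lf (nat_lit 0) (nat_lit 6030540198) (nat_lit 304) (nat_lit 3263658795) (nat_lit 380) (nat_lit 4072377455) (nat_lit 55) (nat_lit 5) (nat_lit 59) (nat_lit 5) (nat_lit 60) (nat_lit 5) (nat_lit 322) (nat_lit 261) (nat_lit 197)) (XT.nd (nat_lit 78) (nat_lit 304) (nat_lit 0) (XT.lf (nat_lit 0) (nat_lit 11993624873) (nat_lit 380) (nat_lit 1311699907) (nat_lit 76) (nat_lit 330387059) (nat_lit 55) (nat_lit 5) (nat_lit 60) (nat_lit 5) (nat_lit 56) (nat_lit 5) (nat_lit 323) (nat_lit 261) (nat_lit 196)) (XT.lf (nat_lit 0) (nat_lit 895822878) (nat_lit 304) (nat_lit 9004329502) (nat_lit 76) (nat_lit 4011015655) (nat_lit 51) (nat_lit 5) (nat_lit 55) (nat_lit 5) (nat_lit 52) (nat_lit 5) (nat_lit 324) (nat_lit 261) (nat_lit 195))))))) (XT.nd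 (nat_lit 936) (nat_lit 684) (nat_lit 0) (XT.nd (nat_lit 468) (nat_lit 684) (nat_lit 0) (XT.nd (nat_lit 234) (nat_lit 304) (nat_lit 0) (XT.nd (nat_lit 78) (nat_lit 228) (nat_lit 0) (XT.lf (nat_lit 0) (nat_lit 3461845756) (nat_lit 304) (nat_lit 2913354956) (nat_lit 76) (nat_lit 7819689368) (nat_lit 51) (nat_lit 5) (nat_lit 55) (nat_lit 5) (nat_lit 52) (nat_lit 5) (nat_lit 325) (nat_lit 261) (nat_lit 194)) (XT.nd (nat_lit 78) (nat_lit 0) (nat_lit 0) (XT.lf (nat_lit 0) (nat_lit 3386334559) (nat_lit 228) (nat_lit 2723496685) (nat_lit 304) (nat_lit 8377181250) (nat_lit 48) (nat_lit 5) (nat_lit 51) (nat_lit 5) (nat_lit 52) (nat_lit 5) (nat_lit 326) (nat_lit 261) (nat_lit 193)) (XT.lf (nat_lit 0) (nat_lit 8849673430) (nat_lit 304) (nat_lit 4902978786) (nat_lit 76) (nat_lit 1034910906) (nat_lit 48) (nat_lit 5) (nat_lit 52) (nat_lit 5) (nat_lit 49) (nat_lit 5) (nat_lit 327) (nat_lit 261) (nat_lit 192))))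 (XT.nd (nat_lit 78) (nat_lit 76) (nat_lit 0) (XT.lf (nat_lit 0) (nat_lit 1442582001) (nat_lit 228) (nat_lit 10243486525) (nat_lit 304) (nat_lit 3410666989) (nat_lit 45) (nat_lit 5) (nat_lit 48) (nat_lit 5) (nat_lit 49) (nat_lit 5) (nat_lit 328) (nat_lit 261) (nat_lit 191)) (XT.nd (nat_lit 78) (nat_lit 76) (nat_lit 0) (XT.lf (nat_lit 0) (nat_lit 8040146721) (nat_lit 228) (nat_lit 6590842051) (nat_lit 304) (nat_lit 783526238) (nat_lit 45) (nat_lit 5) (nat_lit 48) (nat_lit 5) (nat_lit 49) (nat_lit 5) (nat_lit 329) (nat_lit 261) (nat_lit 190)) (XT.lf (nat_lit 0) (nat_lit 1859313660) (nat_lit 304) (nat_lit 962948550) (nat_lit 76) (nat_lit 12919812262) (nat_lit 44) (nat_lit 5) (nat_lit 48) (nat_lit 5) (nat_lit 45) (nat_lit 5) (nat_lit 330) (nat_lit 261) (nat_lit 189))))) (XT.nd (nat_lit 234) (nat_lit 304) (nat_lit 0) (XT.nd (nat_lit 78) (nat_lit 152) (nat_lit 0) (XT.lf (nat_lit 0) (nat_lit 4606381484)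 (nat_lit 304) (nat_lit 10381784053) (nat_lit 76) (nat_lit 1089873690) (nat_lit 41) (nat_lit 5) (nat_lit 45) (nat_lit 5) (nat_lit 42) (nat_lit 5) (nat_lit 331) (nat_lit 261) (nat_lit 188)) (XT.nd (nat_lit 78) (nat_lit 152) (nat_lit 0) (XT.lf (nat_lit 0) (nat_lit 7449020649) (nat_lit 304) (nat_lit 3914303578) (nat_lit 76) (nat_lit 5060394951) (nat_lit 41) (nat_lit 5) (nat_lit 45) (nat_lit 5) (nat_lit 42) (nat_lit 5) (nat_lit 332) (nat_lit 261) (nat_lit 187)) (XT.lf (nat_lit 0) (nat_lit 2764795717) (nat_lit 152) (nat_lit 7614832752) (nat_lit 228) (nat_lit 6400090505) (nat_lit 39) (nat_lit 5) (nat_lit 41) (nat_lit 5) (nat_lit 42) (nat_lit 5) (nat_lit 333) (nat_lit 261) (nat_lit 186)))) (XT.nd (nat_lit 78) (nat_lit 304) (nat_lit 0) (XT.lf (nat_lit 0) (nat_lit 9688507101) (nat_lit 152) (nat_lit 3725636478) (nat_lit 228) (nat_lit 3731804763) (nat_lit 39) (nat_lit 5) (nat_lit 41) (nat_lit 5) (nat_lit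 42) (nat_lit 5) (nat_lit 334) (nat_lit 261) (nat_lit 185)) (XT.nd (nat_lit 78) (nat_lit 304) (nat_lit 0) (XT.lf (nat_lit 0) (nat_lit 16519419461) (nat_lit 228) (nat_lit 741477945) (nat_lit 76) (nat_lit 262903826) (nat_lit 39) (nat_lit 5) (nat_lit 42) (nat_lit 5) (nat_lit 40) (nat_lit 5) (nat_lit 335) (nat_lit 261) (nat_lit 184)) (XT.lf (nat_lit 0) (nat_lit 1844791127) (nat_lit 304) (nat_lit 11702814802) (nat_lit 76) (nat_lit 4362635666) (nat_lit 35) (nat_lit 5) (nat_lit 39) (nat_lit 5) (nat_lit 36) (nat_lit 5) (nat_lit 336) (nat_lit 261) (nat_lit 183)))))) (XT.nd (nat_lit 468) (nat_lit 304) (nat_lit 0) (XT.nd (nat_lit 234) (nat_lit 228) (nat_lit 0) (XT.nd (nat_lit 78) (nat_lit 152) (nat_lit 0) (XT.lf (nat_lit 0) (nat_lit 4744591375) (nat_lit 304) (nat_lit 4972714656) (nat_lit 76) (nat_lit 8591136620) (nat_lit 35) (nat_lit 5) (nat_lit 39) (nat_lit 5) (nat_lit 36) (nat_lit 5) (nat_lit 337) (nat_lit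 261) (nat_lit 182)) (XT.nd (nat_lit 78) (nat_lit 0) (nat_lit 0) (XT.lf (nat_lit 0) (nat_lit 1963977972) (nat_lit 152) (nat_lit 5764711503) (nat_lit 228) (nat_lit 10990006382) (nat_lit 33) (nat_lit 5) (nat_lit 35) (nat_lit 5) (nat_lit 36) (nat_lit 5) (nat_lit 338) (nat_lit 261) (nat_lit 181)) (XT.lf (nat_lit 0) (nat_lit 9177402103) (nat_lit 152) (nat_lit 1653856222) (nat_lit 228) (nat_lit 8309154396) (nat_lit 33) (nat_lit 5) (nat_lit 35) (nat_lit 5) (nat_lit 36) (nat_lit 5) (nat_lit 339) (nat_lit 261) (nat_lit 180)))) (XT.nd (nat_lit 78) (nat_lit 228) (nat_lit 0) (XT.lf (nat_lit 0) (nat_lit 14030948116) (nat_lit 228) (nat_lit 3025221655) (nat_lit 76) (nat_lit 2518513789) (nat_lit 33) (nat_lit 5) (nat_lit 36) (nat_lit 5) (nat_lit 34) (nat_lit 5) (nat_lit 340) (nat_lit 261) (nat_lit 179)) (XT.nd (nat_lit 78) (nat_lit 76) (nat_lit 0) (XT.lf (nat_lit 0) (nat_lit 4153466654) (nat_lit 152) (nat_lit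 13209307291) (nat_lit 228) (nat_lit 2658147310) (nat_lit 31) (nat_lit 5) (nat_lit 33) (nat_lit 5) (nat_lit 34) (nat_lit 5) (nat_lit 341) (nat_lit 261) (nat_lit 178)) (XT.lf (nat_lit 0) (nat_lit 318641763) (nat_lit 228) (nat_lit 8905438212) (nat_lit 76) (nat_lit 11256074497) (nat_lit 30) (nat_lit 5) (nat_lit 33) (nat_lit 5) (nat_lit 31) (nat_lit 5) (nat_lit 342) (nat_lit 261) (nat_lit 177))))) (XT.nd (nat_lit 234) (nat_lit 152) (nat_lit 0) (XT.nd (nat_lit 78) (nat_lit 152) (nat_lit 0) (XT.lf (nat_lit 0) (nat_lit 3311803002) (nat_lit 228) (nat_lit 1791964457) (nat_lit 76) (nat_lit 15849213970) (nat_lit 30) (nat_lit 5) (nat_lit 33) (nat_lit 5) (nat_lit 31) (nat_lit 5) (nat_lit 343) (nat_lit 261) (nat_lit 176)) (XT.nd (nat_lit 78) (nat_lit 0) (nat_lit 0) (XT.lf (nat_lit 0) (nat_lit 5614289059) (nat_lit 152) (nat_lit 815500742) (nat_lit 228) (nat_lit 15009172991) (nat_lit 28) (nat_lit 5) (nat_lit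 30) (nat_lit 5) (nat_lit 31) (nat_lit 5) (nat_lit 344) (nat_lit 261) (nat_lit 175)) (XT.lf (nat_lit 0) (nat_lit 9675428976) (nat_lit 228) (nat_lit 8724671113) (nat_lit 76) (nat_lit 3538420040) (nat_lit 28) (nat_lit 5) (nat_lit 31) (nat_lit 5) (nat_lit 29) (nat_lit 5) (nat_lit 345) (nat_lit 261) (nat_lit 174)))) (XT.nd (nat_lit 78) (nat_lit 152) (nat_lit 0) (XT.lf (nat_lit 0) (nat_lit 13008277890) (nat_lit 228) (nat_lit 1449214446) (nat_lit 76) (nat_lit 7995895973) (nat_lit 28) (nat_lit 5) (nat_lit 31) (nat_lit 5) (nat_lit 29) (nat_lit 5) (nat_lit 346) (nat_lit 261) (nat_lit 173)) (XT.nd (nat_lit 78) (nat_lit 0) (nat_lit 0) (XT.lf (nat_lit 0) (nat_lit 6135620612) (nat_lit 152) (nat_lit 10346768376) (nat_lit 228) (nat_lit 6500094021) (nat_lit 26) (nat_lit 5) (nat_lit 28) (nat_lit 5) (nat_lit 29) (nat_lit 5) (nat_lit 347) (nat_lit 261) (nat_lit 172)) (XT.lf (nat_lit 0) (nat_lit 13949375357) (nat_lit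 152) (nat_lit 6108522924) (nat_lit 228) (nat_lit 3469655252) (nat_lit 26) (nat_lit 5) (nat_lit 28) (nat_lit 5) (nat_lit 29) (nat_lit 5) (nat_lit 348) (nat_lit 261) (nat_lit 171))))))))
noncomputable def xc114 : XT := (XT.nd (nat_lit 1794) (nat_lit 456) (nat_lit 0) (XT.nd (nat_lit 858) (nat_lit 456) (nat_lit 0) (XT.nd (nat_lit 390) (nat_lit 152) (nat_lit 0) (XT.nd (nat_lit 156) (nat_lit 152) (nat_lit 0) (XT.nd (nat_lit 78) (nat_lit 228) (nat_lit 0) (XT.lf (nat_lit 0) (nat_lit 21970035130) (nat_lit 152) (nat_lit 1753686883) (nat_lit 228) (nat_lit 365780382) (nat_lit 26) (nat_lit 5) (nat_lit 28) (nat_lit 5) (nat_lit 29) (nat_lit 5) (nat_lit 349) (nat_lit 261) (nat_lit 170)) (XT.lf (nat_lit 0) (nat_lit 2840297634) (nat_lit 228) (nat_lit 19074982490) (nat_lit 76) (nat_lit 2750299799) (nat_lit 23) (nat_lit 5) (nat_lit 26) (nat_lit 5) (nat_lit 24) (nat_lit 5) (nat_lit 350) (nat_lit 261) (nat_lit 169)))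 (XT.nd (nat_lit 78) (nat_lit 152) (nat_lit 0) (XT.lf (nat_lit 0) (nat_lit 6157674148) (nat_lit 228) (nat_lit 11731281053) (nat_lit 76) (nat_lit 7369218087) (nat_lit 23) (nat_lit 5) (nat_lit 26) (nat_lit 5) (nat_lit 24) (nat_lit 5) (nat_lit 351) (nat_lit 261) (nat_lit 168)) (XT.nd (nat_lit 78) (nat_lit 152) (nat_lit 0) (XT.lf (nat_lit 0) (nat_lit 9558543194) (nat_lit 228) (nat_lit 4193674101) (nat_lit 76) (nat_lit 12116823745) (nat_lit 23) (nat_lit 5) (nat_lit 26) (nat_lit 5) (nat_lit 24) (nat_lit 5) (nat_lit 352) (nat_lit 261) (nat_lit 167)) (XT.lf (nat_lit 0) (nat_lit 3614965624) (nat_lit 152) (nat_lit 9465660042) (nat_lit 228) (nat_lit 13417048803) (nat_lit 21) (nat_lit 5) (nat_lit 23) (nat_lit 5) (nat_lit 24) (nat_lit 5) (nat_lit 353) (nat_lit 261) (nat_lit 166))))) (XT.nd (nat_lit 234) (nat_lit 76) (nat_lit 0) (XT.nd (nat_lit 78) (nat_lit 76) (nat_lit 0) (XT.lf (nat_lit 0) (nat_lit 11718445652)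 (nat_lit 152) (nat_lit 5016920183) (nat_lit 228) (nat_lit 10409006033) (nat_lit 21) (nat_lit 5) (nat_lit 23) (nat_lit 5) (nat_lit 24) (nat_lit 5) (nat_lit 354) (nat_lit 261) (nat_lit 165)) (XT.nd (nat_lit 78) (nat_lit 76) (nat_lit 0) (XT.lf (nat_lit 0) (nat_lit 20040384355) (nat_lit 152) (nat_lit 444458356) (nat_lit 228) (nat_lit 7326089032) (nat_lit 21) (nat_lit 5) (nat_lit 23) (nat_lit 5) (nat_lit 24) (nat_lit 5) (nat_lit 355) (nat_lit 261) (nat_lit 164)) (XT.lf (nat_lit 0) (nat_lit 50187552) (nat_lit 76) (nat_lit 24323536008) (nat_lit 152) (nat_lit 4122971235) (nat_lit 20) (nat_lit 5) (nat_lit 21) (nat_lit 5) (nat_lit 22) (nat_lit 4) (nat_lit 356) (nat_lit 261) (nat_lit 163)))) (XT.nd (nat_lit 78) (nat_lit 76) (nat_lit 0) (XT.lf (nat_lit 0) (nat_lit 8236297977) (nat_lit 76) (nat_lit 20211428313) (nat_lit 152) (nat_lit 753264348) (nat_lit 20) (nat_lit 5) (nat_lit 21) (nat_lit 5) (nat_lit 22)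 (nat_lit 4) (nat_lit 357) (nat_lit 261) (nat_lit 162)) (XT.nd (nat_lit 78) (nat_lit 0) (nat_lit 0) (XT.lf (nat_lit 0) (nat_lit 2650403087) (nat_lit 152) (nat_lit 13308186289) (nat_lit 76) (nat_lit 13967478142) (nat_lit 19) (nat_lit 5) (nat_lit 21) (nat_lit 5) (nat_lit 20) (nat_lit 5) (nat_lit 358) (nat_lit 261) (nat_lit 161)) (XT.lf (nat_lit 0) (nat_lit 6127349623) (nat_lit 152) (nat_lit 5452394291) (nat_lit 76) (nat_lit 19093352192) (nat_lit 19) (nat_lit 5) (nat_lit 21) (nat_lit 5) (nat_lit 20) (nat_lit 5) (nat_lit 359) (nat_lit 261) (nat_lit 160)))))) (XT.nd (nat_lit 468) (nat_lit 228) (nat_lit 0) (XT.nd (nat_lit 234) (nat_lit 76) (nat_lit 0) (XT.nd (nat_lit 78) (nat_lit 0) (nat_lit 0) (XT.lf (nat_lit 0) (nat_lit 2668867672) (nat_lit 152) (nat_lit 7052099385) (nat_lit 228) (nat_lit 21721209671) (nat_lit 17) (nat_lit 5) (nat_lit 19) (nat_lit 5) (nat_lit 20) (nat_lit 5) (nat_lit 360) (nat_lit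 261) (nat_lit 159)) (XT.nd (nat_lit 78) (nat_lit 0) (nat_lit 0) (XT.lf (nat_lit 0) (nat_lit 11123471680) (nat_lit 152) (nat_lit 2340862597) (nat_lit 228) (nat_lit 18768748956) (nat_lit 17) (nat_lit 5) (nat_lit 19) (nat_lit 5) (nat_lit 20) (nat_lit 5) (nat_lit 361) (nat_lit 261) (nat_lit 158)) (XT.lf (nat_lit 0) (nat_lit 17331327941) (nat_lit 228) (nat_lit 13261879038) (nat_lit 76) (nat_lit 2454181549) (nat_lit 17) (nat_lit 5) (nat_lit 20) (nat_lit 5) (nat_lit 18) (nat_lit 4) (nat_lit 362) (nat_lit 261) (nat_lit 157)))) (XT.nd (nat_lit 78) (nat_lit 76) (nat_lit 0) (XT.lf (nat_lit 0) (nat_lit 21325062955) (nat_lit 228) (nat_lit 5222990248) (nat_lit 76) (nat_lit 7337758862) (nat_lit 17) (nat_lit 5) (nat_lit 20) (nat_lit 5) (nat_lit 18) (nat_lit 4) (nat_lit 363) (nat_lit 261) (nat_lit 156)) (XT.nd (nat_lit 78) (nat_lit 0) (nat_lit 0) (XT.lf (nat_lit 0) (nat_lit 3097014804) (nat_lit 76) (nat_lit 22359282783)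 (nat_lit 152) (nat_lit 9292570801) (nat_lit 16) (nat_lit 5) (nat_lit 17) (nat_lit 5) (nat_lit 18) (nat_lit 4) (nat_lit 364) (nat_lit 261) (nat_lit 155)) (XT.lf (nat_lit 0) (nat_lit 11753402701) (nat_lit 76) (nat_lit 17998882635) (nat_lit 152) (nat_lit 5884316978) (nat_lit 16) (nat_lit 5) (nat_lit 17) (nat_lit 5) (nat_lit 18) (nat_lit 4) (nat_lit 365) (nat_lit 261) (nat_lit 154))))) (XT.nd (nat_lit 234) (nat_lit 0) (nat_lit 0) (XT.nd (nat_lit 78) (nat_lit 228) (nat_lit 0) (XT.lf (nat_lit 0) (nat_lit 20649789529) (nat_lit 76) (nat_lit 13515784662) (nat_lit 152) (nat_lit 2385751516) (nat_lit 16) (nat_lit 5) (nat_lit 17) (nat_lit 5) (nat_lit 18) (nat_lit 4) (nat_lit 366) (nat_lit 261) (nat_lit 153)) (XT.nd (nat_lit 78) (nat_lit 152) (nat_lit 0) (XT.lf (nat_lit 0) (nat_lit 1182645617) (nat_lit 152) (nat_lit 7711483574) (nat_lit 76) (nat_lit 28599360810) (nat_lit 15) (nat_lit 5) (nat_lit 17) (nat_lit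 5) (nat_lit 16) (nat_lit 5) (nat_lit 367) (nat_lit 261) (nat_lit 152)) (XT.lf (nat_lit 0) (nat_lit 695428577) (nat_lit 152) (nat_lit 4110368471) (nat_lit 228) (nat_lit 33657553166) (nat_lit 13) (nat_lit 5) (nat_lit 15) (nat_lit 5) (nat_lit 16) (nat_lit 5) (nat_lit 368) (nat_lit 261) (nat_lit 151)))) (XT.nd (nat_lit 78) (nat_lit 0) (nat_lit 0) (XT.lf (nat_lit 0) (nat_lit 8613174466) (nat_lit 228) (nat_lit 29974836010) (nat_lit 76) (nat_lit 872038779) (nat_lit 13) (nat_lit 5) (nat_lit 16) (nat_lit 5) (nat_lit 14) (nat_lit 4) (nat_lit 369) (nat_lit 261) (nat_lit 150)) (XT.nd (nat_lit 78) (nat_lit 0) (nat_lit 0) (XT.lf (nat_lit 0) (nat_lit 12564826226) (nat_lit 228) (nat_lit 22006973231) (nat_lit 76) (nat_lit 5913956928) (nat_lit 13) (nat_lit 5) (nat_lit 16) (nat_lit 5) (nat_lit 14) (nat_lit 4) (nat_lit 370) (nat_lit 261) (nat_lit 149)) (XT.lf (nat_lit 0) (nat_lit 16624693850) (nat_lit 228) (nat_lit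 13817859714) (nat_lit 76) (nat_lit 11099999627) (nat_lit 13) (nat_lit 5) (nat_lit 16) (nat_lit 5) (nat_lit 14) (nat_lit 4) (nat_lit 371) (nat_lit 261) (nat_lit 148))))))) (XT.nd (nat_lit 858) (nat_lit 228) (nat_lit 0) (XT.nd (nat_lit 390) (nat_lit 152) (nat_lit 0) (XT.nd (nat_lit 156) (nat_lit 0) (nat_lit 0) (XT.nd (nat_lit 78) (nat_lit 76) (nat_lit 0) (XT.lf (nat_lit 0) (nat_lit 20796324797) (nat_lit 228) (nat_lit 5400339921) (nat_lit 76) (nat_lit 16434698370) (nat_lit 13) (nat_lit 5) (nat_lit 16) (nat_lit 5) (nat_lit 14) (nat_lit 4) (nat_lit 372) (nat_lit 261) (nat_lit 147)) (XT.lf (nat_lit 0) (nat_lit 3317681168) (nat_lit 76) (nat_lit 21797574593) (nat_lit 152) (nat_lit 18636924958) (nat_lit 12) (nat_lit 5) (nat_lit 13) (nat_lit 5) (nat_lit 14) (nat_lit 4) (nat_lit 373) (nat_lit 261) (nat_lit 146))) (XT.nd (nat_lit 78) (nat_lit 0) (nat_lit 0) (XT.lf (nat_lit 0) (nat_lit 12391344716) (nat_lit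 76) (nat_lit 17217326426) (nat_lit 152) (nat_lit 15296611976) (nat_lit 12) (nat_lit 5) (nat_lit 13) (nat_lit 5) (nat_lit 14) (nat_lit 4) (nat_lit 374) (nat_lit 261) (nat_lit 145)) (XT.nd (nat_lit 78) (nat_lit 0) (nat_lit 0) (XT.lf (nat_lit 0) (nat_lit 21721101811) (nat_lit 76) (nat_lit 12506450906) (nat_lit 152) (nat_lit 11865713470) (nat_lit 12) (nat_lit 5) (nat_lit 13) (nat_lit 5) (nat_lit 14) (nat_lit 4) (nat_lit 375) (nat_lit 261) (nat_lit 144)) (XT.lf (nat_lit 0) (nat_lit 31315104668) (nat_lit 76) (nat_lit 7660831732) (nat_lit 152) (nat_lit 8341231569) (nat_lit 12) (nat_lit 5) (nat_lit 13) (nat_lit 5) (nat_lit 14) (nat_lit 4) (nat_lit 376) (nat_lit 261) (nat_lit 143))))) (XT.nd (nat_lit 234) (nat_lit 0) (nat_lit 0) (XT.nd (nat_lit 78) (nat_lit 152) (nat_lit 0) (XT.lf (nat_lit 0) (nat_lit 41181736397) (nat_lit 76) (nat_lit 2676234869) (nat_lit 152) (nat_lit 4720086628) (nat_lit 12) (nat_lit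 5) (nat_lit 13) (nat_lit 5) (nat_lit 14) (nat_lit 4) (nat_lit 377) (nat_lit 261) (nat_lit 142)) (XT.nd (nat_lit 78) (nat_lit 76) (nat_lit 0) (XT.lf (nat_lit 0) (nat_lit 1457453591) (nat_lit 76) (nat_lit 47458046708) (nat_lit 76) (nat_lit 960410096) (nat_lit 11) (nat_lit 4) (nat_lit 12) (nat_lit 5) (nat_lit 12) (nat_lit 4) (nat_lit 378) (nat_lit 261) (nat_lit 141)) (XT.lf (nat_lit 0) (nat_lit 2948571187) (nat_lit 152) (nat_lit 40552210950) (nat_lit 76) (nat_lit 7708282864) (nat_lit 10) (nat_lit 5) (nat_lit 12) (nat_lit 5) (nat_lit 11) (nat_lit 4) (nat_lit 379) (nat_lit 261) (nat_lit 140)))) (XT.nd (nat_lit 78) (nat_lit 0) (nat_lit 0) (XT.lf (nat_lit 0) (nat_lit 6947182659) (nat_lit 152) (nat_lit 32474033398) (nat_lit 76) (nat_lit 13160969285) (nat_lit 10) (nat_lit 5) (nat_lit 12) (nat_lit 5) (nat_lit 11) (nat_lit 4) (nat_lit 380) (nat_lit 261) (nat_lit 139)) (XT.nd (nat_lit 78) (nat_lit 0) (nat_lit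 0) (XT.lf (nat_lit 0) (nat_lit 11057659313) (nat_lit 152) (nat_lit 24167633496) (nat_lit 76) (nat_lit 18771455386) (nat_lit 10) (nat_lit 5) (nat_lit 12) (nat_lit 5) (nat_lit 11) (nat_lit 4) (nat_lit 381) (nat_lit 261) (nat_lit 138)) (XT.lf (nat_lit 0) (nat_lit 15283592827) (nat_lit 152) (nat_lit 15625753225) (nat_lit 76) (nat_lit 24544643533) (nat_lit 10) (nat_lit 5) (nat_lit 12) (nat_lit 5) (nat_lit 11) (nat_lit 4) (nat_lit 382) (nat_lit 261) (nat_lit 137)))))) (XT.nd (nat_lit 468) (nat_lit 152) (nat_lit 0) (XT.nd (nat_lit 234) (nat_lit 0) (nat_lit 0) (XT.nd (nat_lit 78) (nat_lit 76) (nat_lit 0) (XT.lf (nat_lit 0) (nat_lit 19628675764) (nat_lit 152) (nat_lit 6840928807) (nat_lit 76) (nat_lit 30485578259) (nat_lit 10) (nat_lit 5) (nat_lit 12) (nat_lit 5) (nat_lit 11) (nat_lit 4) (nat_lit 383) (nat_lit 261) (nat_lit 136)) (XT.nd (nat_lit 78) (nat_lit 0) (nat_lit 0) (XT.lf (nat_lit 0) (nat_lit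 2238190985) (nat_lit 76) (nat_lit 21880028674) (nat_lit 152) (nat_lit 34382774548) (nat_lit 9) (nat_lit 5) (nat_lit 10) (nat_lit 5) (nat_lit 11) (nat_lit 4) (nat_lit 384) (nat_lit 261) (nat_lit 135)) (XT.lf (nat_lit 0) (nat_lit 11717118892) (nat_lit 76) (nat_lit 17087097256) (nat_lit 152) (nat_lit 31287116213) (nat_lit 9) (nat_lit 5) (nat_lit 10) (nat_lit 5) (nat_lit 11) (nat_lit 4) (nat_lit 385) (nat_lit 261) (nat_lit 134)))) (XT.nd (nat_lit 78) (nat_lit 0) (nat_lit 0) (XT.lf (nat_lit 0) (nat_lit 21467989575) (nat_lit 76) (nat_lit 12155702287) (nat_lit 152) (nat_lit 28105907087) (nat_lit 9) (nat_lit 5) (nat_lit 10) (nat_lit 5) (nat_lit 11) (nat_lit 4) (nat_lit 386) (nat_lit 261) (nat_lit 133)) (XT.nd (nat_lit 78) (nat_lit 0) (nat_lit 0) (XT.lf (nat_lit 0) (nat_lit 31499323211) (nat_lit 76) (nat_lit 7081534780) (nat_lit 152) (nat_lit 24836367471) (nat_lit 9) (nat_lit 5) (nat_lit 10) (nat_lit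 5) (nat_lit 11) (nat_lit 4) (nat_lit 387) (nat_lit 261) (nat_lit 132)) (XT.lf (nat_lit 0) (nat_lit 41819885043) (nat_lit 76) (nat_lit 1860160998) (nat_lit 152) (nat_lit 21475640487) (nat_lit 9) (nat_lit 5) (nat_lit 10) (nat_lit 5) (nat_lit 11) (nat_lit 4) (nat_lit 388) (nat_lit 261) (nat_lit 131))))) (XT.nd (nat_lit 234) (nat_lit 76) (nat_lit 0) (XT.nd (nat_lit 78) (nat_lit 76) (nat_lit 0) (XT.lf (nat_lit 0) (nat_lit 48959480541) (nat_lit 152) (nat_lit 14541577079) (nat_lit 0) (nat_lit 3444430503) (nat_lit 9) (nat_lit 5) (nat_lit 11) (nat_lit 4) (nat_lit 9) (nat_lit 4) (nat_lit 389) (nat_lit 261) (nat_lit 130)) (XT.nd (nat_lit 78) (nat_lit 76) (nat_lit 0) (XT.lf (nat_lit 0) (nat_lit 54409361183) (nat_lit 152) (nat_lit 5513131354) (nat_lit 0) (nat_lit 8866134016) (nat_lit 9) (nat_lit 5) (nat_lit 11) (nat_lit 4) (nat_lit 9) (nat_lit 4) (nat_lit 390) (nat_lit 261) (nat_lit 129)) (XT.lf (nat_lit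 0) (nat_lit 3850441611) (nat_lit 76) (nat_lit 56203140182) (nat_lit 76) (nat_lit 10632556579) (nat_lit 8) (nat_lit 4) (nat_lit 9) (nat_lit 5) (nat_lit 9) (nat_lit 4) (nat_lit 391) (nat_lit 261) (nat_lit 128)))) (XT.nd (nat_lit 78) (nat_lit 76) (nat_lit 0) (XT.lf (nat_lit 0) (nat_lit 13597179931) (nat_lit 76) (nat_lit 52319527955) (nat_lit 76) (nat_lit 6722384705) (nat_lit 8) (nat_lit 4) (nat_lit 9) (nat_lit 5) (nat_lit 9) (nat_lit 4) (nat_lit 392) (nat_lit 261) (nat_lit 127)) (XT.nd (nat_lit 78) (nat_lit 76) (nat_lit 0) (XT.lf (nat_lit 0) (nat_lit 23625878047) (nat_lit 76) (nat_lit 48323934226) (nat_lit 76) (nat_lit 2701004911) (nat_lit 8) (nat_lit 4) (nat_lit 9) (nat_lit 5) (nat_lit 9) (nat_lit 4) (nat_lit 393) (nat_lit 261) (nat_lit 126)) (XT.lf (nat_lit 0) (nat_lit 1407092725) (nat_lit 152) (nat_lit 42791566095) (nat_lit 76) (nat_lit 32523997297) (nat_lit 7) (nat_lit 5) (nat_lit 9) (nat_lit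 5) (nat_lit 8) (nat_lit 4) (nat_lit 394) (nat_lit 261) (nat_lit 125))))))))
noncomputable def xc115 : XT := (XT.nd (nat_lit 31746) (nat_lit 0) (nat_lit 6764) (XT.nd (nat_lit 30810) (nat_lit 0) (nat_lit 16036) (XT.nd (nat_lit 30342) (nat_lit 0) (nat_lit 19228) (XT.nd (nat_lit 156) (nat_lit 0) (nat_lit 0) (XT.nd (nat_lit 78) (nat_lit 0) (nat_lit 0) (XT.lf (nat_lit 0) (nat_lit 5578510686) (nat_lit 152) (nat_lit 34347893473) (nat_lit 76) (nat_lit 38929616754) (nat_lit 7) (nat_lit 5) (nat_lit 9) (nat_lit 5) (nat_lit 8) (nat_lit 4) (nat_lit 395) (nat_lit 261) (nat_lit 124)) (XT.lf (nat_lit 0) (nat_lit 9869600235) (nat_lit 152) (nat_lit 25660579592) (nat_lit 76) (nat_lit 45523374759) (nat_lit 7) (nat_lit 5) (nat_lit 9) (nat_lit 5) (nat_lit 8) (nat_lit 4) (nat_lit 396) (nat_lit 261) (nat_lit 123))) (XT.nd (nat_lit 78) (nat_lit 0) (nat_lit 0) (XT.lf (nat_lit 0) (nat_lit 14284110866) (nat_lit 152) (nat_lit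 16722033596) (nat_lit 76) (nat_lit 52311032850) (nat_lit 7) (nat_lit 5) (nat_lit 9) (nat_lit 5) (nat_lit 8) (nat_lit 4) (nat_lit 397) (nat_lit 261) (nat_lit 122)) (XT.nd (nat_lit 30030) (nat_lit 0) (nat_lit 19760) (XT.lf (nat_lit 0) (nat_lit 18825899919) (nat_lit 152) (nat_lit 7524445104) (nat_lit 76) (nat_lit 59298521989) (nat_lit 7) (nat_lit 5) (nat_lit 9) (nat_lit 5) (nat_lit 8) (nat_lit 4) (nat_lit 398) (nat_lit 261) (nat_lit 121)) (XT.lf (nat_lit 0) (nat_lit 2208993827) (nat_lit 228) (nat_lit 510515199) (nat_lit 228) (nat_lit 510515199) (nat_lit 267) (nat_lit 3) (nat_lit 270) (nat_lit 3) (nat_lit 270) (nat_lit 5) (nat_lit 262) (nat_lit 262) (nat_lit 256))))) (XT.nd (nat_lit 234) (nat_lit 304) (nat_lit 0) (XT.nd (nat_lit 78) (nat_lit 0) (nat_lit 0) (XT.lf (nat_lit 0) (nat_lit 548901828) (nat_lit 228) (nat_lit 4620429422) (nat_lit 304) (nat_lit 1301257981) (nat_lit 264) (nat_lit 5) (nat_lit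 267) (nat_lit 3) (nat_lit 268) (nat_lit 5) (nat_lit 263) (nat_lit 262) (nat_lit 255)) (XT.nd (nat_lit 78) (nat_lit 0) (nat_lit 0) (XT.lf (nat_lit 0) (nat_lit 3086425442) (nat_lit 228) (nat_lit 1727440728) (nat_lit 304) (nat_lit 1670048908) (nat_lit 264) (nat_lit 5) (nat_lit 267) (nat_lit 3) (nat_lit 268) (nat_lit 5) (nat_lit 264) (nat_lit 262) (nat_lit 254)) (XT.lf (nat_lit 76) (nat_lit 1223395775) (nat_lit 0) (nat_lit 4390830299) (nat_lit 304) (nat_lit 886350928) (nat_lit 265) (nat_lit 5) (nat_lit 264) (nat_lit 5) (nat_lit 268) (nat_lit 5) (nat_lit 265) (nat_lit 262) (nat_lit 253)))) (XT.nd (nat_lit 78) (nat_lit 0) (nat_lit 0) (XT.lf (nat_lit 0) (nat_lit 1588007711) (nat_lit 304) (nat_lit 2290121258) (nat_lit 380) (nat_lit 2641827825) (nat_lit 260) (nat_lit 5) (nat_lit 264) (nat_lit 5) (nat_lit 265) (nat_lit 5) (nat_lit 266) (nat_lit 262) (nat_lit 252)) (XT.nd (nat_lit 78) (nat_lit 0) (nat_lit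 0) (XT.lf (nat_lit 76) (nat_lit 739230209) (nat_lit 0) (nat_lit 3292915142) (nat_lit 380) (nat_lit 2510438684) (nat_lit 261) (nat_lit 5) (nat_lit 260) (nat_lit 5) (nat_lit 265) (nat_lit 5) (nat_lit 267) (nat_lit 262) (nat_lit 251)) (XT.lf (nat_lit 76) (nat_lit 3853957179) (nat_lit 0) (nat_lit 2627258953) (nat_lit 380) (nat_lit 87046293) (nat_lit 261) (nat_lit 5) (nat_lit 260) (nat_lit 5) (nat_lit 265) (nat_lit 5) (nat_lit 268) (nat_lit 262) (nat_lit 250)))))) (XT.nd (nat_lit 468) (nat_lit 1900) (nat_lit 0) (XT.nd (nat_lit 234) (nat_lit 456) (nat_lit 0) (XT.nd (nat_lit 78) (nat_lit 456) (nat_lit 0) (XT.lf (nat_lit 76) (nat_lit 399027310) (nat_lit 0) (nat_lit 1876810960) (nat_lit 456) (nat_lit 4321066389) (nat_lit 256) (nat_lit 5) (nat_lit 255) (nat_lit 5) (nat_lit 261) (nat_lit 5) (nat_lit 269) (nat_lit 262) (nat_lit 249)) (XT.nd (nat_lit 78) (nat_lit 456) (nat_lit 0) (XT.lf (nat_lit 76) (nat_lit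 3608024518) (nat_lit 0) (nat_lit 1039317707) (nat_lit 456) (nat_lit 1981147004) (nat_lit 256) (nat_lit 5) (nat_lit 255) (nat_lit 5) (nat_lit 261) (nat_lit 5) (nat_lit 270) (nat_lit 262) (nat_lit 248)) (XT.lf (nat_lit 76) (nat_lit 199065667) (nat_lit 0) (nat_lit 136965083) (nat_lit 532) (nat_lit 6327680488) (nat_lit 250) (nat_lit 5) (nat_lit 249) (nat_lit 5) (nat_lit 256) (nat_lit 5) (nat_lit 271) (nat_lit 262) (nat_lit 247)))) (XT.nd (nat_lit 78) (nat_lit 532) (nat_lit 0) (XT.lf (nat_lit 0) (nat_lit 2637165644) (nat_lit 456) (nat_lit 3205067914) (nat_lit 76) (nat_lit 858808561) (nat_lit 250) (nat_lit 5) (nat_lit 256) (nat_lit 5) (nat_lit 251) (nat_lit 5) (nat_lit 272) (nat_lit 262) (nat_lit 246)) (XT.nd (nat_lit 78) (nat_lit 76) (nat_lit 0) (XT.lf (nat_lit 0) (nat_lit 98933022) (nat_lit 456) (nat_lit 4829000453) (nat_lit 532) (nat_lit 1814202165) (nat_lit 244) (nat_lit 5) (nat_lit 250) (nat_lit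 5) (nat_lit 251) (nat_lit 5) (nat_lit 273) (nat_lit 262) (nat_lit 245)) (XT.lf (nat_lit 0) (nat_lit 444952692) (nat_lit 532) (nat_lit 3276156592) (nat_lit 76) (nat_lit 3064899204) (nat_lit 243) (nat_lit 5) (nat_lit 250) (nat_lit 5) (nat_lit 244) (nat_lit 5) (nat_lit 274) (nat_lit 262) (nat_lit 244))))) (XT.nd (nat_lit 234) (nat_lit 684) (nat_lit 0) (XT.nd (nat_lit 78) (nat_lit 684) (nat_lit 0) (XT.lf (nat_lit 0) (nat_lit 122676861) (nat_lit 532) (nat_lit 2535396231) (nat_lit 608) (nat_lit 4175144479) (nat_lit 236) (nat_lit 5) (nat_lit 243) (nat_lit 5) (nat_lit 244) (nat_lit 5) (nat_lit 275) (nat_lit 262) (nat_lit 243)) (XT.nd (nat_lit 78) (nat_lit 684) (nat_lit 0) (XT.lf (nat_lit 0) (nat_lit 3637503928) (nat_lit 532) (nat_lit 1256417668) (nat_lit 608) (nat_lit 1989462905) (nat_lit 236) (nat_lit 5) (nat_lit 243) (nat_lit 5) (nat_lit 244) (nat_lit 5) (nat_lit 276) (nat_lit 262) (nat_lit 242)) (XT.lf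 (nat_lit 0) (nat_lit 184675856) (nat_lit 684) (nat_lit 6666022048) (nat_lit 76) (nat_lit 86661500) (nat_lit 227) (nat_lit 5) (nat_lit 236) (nat_lit 5) (nat_lit 228) (nat_lit 5) (nat_lit 277) (nat_lit 262) (nat_lit 241)))) (XT.nd (nat_lit 78) (nat_lit 684) (nat_lit 0) (XT.lf (nat_lit 0) (nat_lit 2356015480) (nat_lit 684) (nat_lit 3119229934) (nat_lit 76) (nat_lit 1518170277) (nat_lit 227) (nat_lit 5) (nat_lit 236) (nat_lit 5) (nat_lit 228) (nat_lit 5) (nat_lit 278) (nat_lit 262) (nat_lit 240)) (XT.nd (nat_lit 78) (nat_lit 0) (nat_lit 0) (XT.lf (nat_lit 0) (nat_lit 489729186) (nat_lit 684) (nat_lit 4036038343) (nat_lit 760) (nat_lit 2527593753) (nat_lit 218) (nat_lit 5) (nat_lit 227) (nat_lit 5) (nat_lit 228) (nat_lit 5) (nat_lit 279) (nat_lit 262) (nat_lit 239)) (XT.lf (nat_lit 0) (nat_lit 4217632483) (nat_lit 684) (nat_lit 2504611042) (nat_lit 760) (nat_lit 394212562) (nat_lit 218) (nat_lit 5)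 (nat_lit 227) (nat_lit 5) (nat_lit 228) (nat_lit 5) (nat_lit 280) (nat_lit 262) (nat_lit 238))))))) (XT.nd (nat_lit 936) (nat_lit 3572) (nat_lit 0) (XT.nd (nat_lit 468) (nat_lit 3040) (nat_lit 0) (XT.nd (nat_lit 234) (nat_lit 988) (nat_lit 0) (XT.nd (nat_lit 78) (nat_lit 836) (nat_lit 0) (XT.lf (nat_lit 0) (nat_lit 821353760) (nat_lit 760) (nat_lit 885831762) (nat_lit 836) (nat_lit 5475750485) (nat_lit 207) (nat_lit 5) (nat_lit 217) (nat_lit 5) (nat_lit 218) (nat_lit 5) (nat_lit 281) (nat_lit 262) (nat_lit 237)) (XT.nd (nat_lit 78) (nat_lit 836) (nat_lit 0) (XT.lf (nat_lit 0) (nat_lit 3833716000) (nat_lit 836) (nat_lit 2604763225) (nat_lit 76) (nat_lit 813896429) (nat_lit 207) (nat_lit 5) (nat_lit 218) (nat_lit 5) (nat_lit 208) (nat_lit 5) (nat_lit 282) (nat_lit 262) (nat_lit 236)) (XT.lf (nat_lit 0) (nat_lit 1226441187) (nat_lit 836) (nat_lit 4753053461) (nat_lit 912) (nat_lit 1345917783) (nat_lit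 196) (nat_lit 5) (nat_lit 207) (nat_lit 5) (nat_lit 208) (nat_lit 5) (nat_lit 283) (nat_lit 262) (nat_lit 235)))) (XT.nd (nat_lit 78) (nat_lit 912) (nat_lit 0) (XT.lf (nat_lit 0) (nat_lit 735653173) (nat_lit 912) (nat_lit 2236127167) (nat_lit 76) (nat_lit 4429938465) (nat_lit 195) (nat_lit 5) (nat_lit 207) (nat_lit 5) (nat_lit 196) (nat_lit 5) (nat_lit 284) (nat_lit 262) (nat_lit 234)) (XT.nd (nat_lit 78) (nat_lit 0) (nat_lit 0) (XT.lf (nat_lit 0) (nat_lit 1709817783) (nat_lit 912) (nat_lit 1096596664) (nat_lit 988) (nat_lit 4675048746) (nat_lit 183) (nat_lit 5) (nat_lit 195) (nat_lit 5) (nat_lit 196) (nat_lit 5) (nat_lit 285) (nat_lit 262) (nat_lit 233)) (XT.lf (nat_lit 0) (nat_lit 4908894990) (nat_lit 988) (nat_lit 1805580889) (nat_lit 76) (nat_lit 850193858) (nat_lit 183) (nat_lit 5) (nat_lit 196) (nat_lit 5) (nat_lit 184) (nat_lit 5) (nat_lit 286) (nat_lit 262) (nat_lit 232))))) (XT.nd (nat_lit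 234) (nat_lit 912) (nat_lit 0) (XT.nd (nat_lit 78) (nat_lit 1140) (nat_lit 0) (XT.lf (nat_lit 0) (nat_lit 2259901855) (nat_lit 988) (nat_lit 4787679861) (nat_lit 1064) (nat_lit 603749927) (nat_lit 170) (nat_lit 5) (nat_lit 183) (nat_lit 5) (nat_lit 184) (nat_lit 5) (nat_lit 287) (nat_lit 262) (nat_lit 231)) (XT.nd (nat_lit 78) (nat_lit 1064) (nat_lit 0) (XT.lf (nat_lit 0) (nat_lit 1439844184) (nat_lit 1064) (nat_lit 1323983541) (nat_lit 76) (nat_lit 4977690484) (nat_lit 169) (nat_lit 5) (nat_lit 183) (nat_lit 5) (nat_lit 170) (nat_lit 5) (nat_lit 288) (nat_lit 262) (nat_lit 230)) (XT.lf (nat_lit 0) (nat_lit 2863338883) (nat_lit 1064) (nat_lit 639570925) (nat_lit 1140) (nat_lit 4332352405) (nat_lit 155) (nat_lit 5) (nat_lit 169) (nat_lit 5) (nat_lit 170) (nat_lit 5) (nat_lit 289) (nat_lit 262) (nat_lit 229)))) (XT.nd (nat_lit 78) (nat_lit 912) (nat_lit 0) (XT.lf (nat_lit 0) (nat_lit 5600242868)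 (nat_lit 1140) (nat_lit 796407222) (nat_lit 76) (nat_lit 1536133230) (nat_lit 155) (nat_lit 5) (nat_lit 170) (nat_lit 5) (nat_lit 156) (nat_lit 5) (nat_lit 290) (nat_lit 262) (nat_lit 228)) (XT.nd (nat_lit 78) (nat_lit 76) (nat_lit 0) (XT.lf (nat_lit 0) (nat_lit 3514788906) (nat_lit 836) (nat_lit 4231446239) (nat_lit 912) (nat_lit 287554820) (nat_lit 144) (nat_lit 5) (nat_lit 155) (nat_lit 5) (nat_lit 156) (nat_lit 5) (nat_lit 291) (nat_lit 262) (nat_lit 227)) (XT.lf (nat_lit 0) (nat_lit 1737468835) (nat_lit 912) (nat_lit 236031017) (nat_lit 76) (nat_lit 6165301581) (nat_lit 143) (nat_lit 5) (nat_lit 155) (nat_lit 5) (nat_lit 144) (nat_lit 5) (nat_lit 292) (nat_lit 262) (nat_lit 226)))))) (XT.nd (nat_lit 468) (nat_lit 1444) (nat_lit 0) (XT.nd (nat_lit 234) (nat_lit 1064) (nat_lit 0) (XT.nd (nat_lit 78) (nat_lit 532) (nat_lit 0) (XT.lf (nat_lit 0) (nat_lit 3809326943) (nat_lit 608) (nat_lit 4047575004)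 (nat_lit 76) (nat_lit 390340863) (nat_lit 136) (nat_lit 5) (nat_lit 144) (nat_lit 5) (nat_lit 137) (nat_lit 5) (nat_lit 293) (nat_lit 262) (nat_lit 225)) (XT.nd (nat_lit 78) (nat_lit 0) (nat_lit 0) (XT.lf (nat_lit 0) (nat_lit 349502499) (nat_lit 532) (nat_lit 5567821296) (nat_lit 608) (nat_lit 2442511496) (nat_lit 129) (nat_lit 5) (nat_lit 136) (nat_lit 5) (nat_lit 137) (nat_lit 5) (nat_lit 294) (nat_lit 262) (nat_lit 224)) (XT.lf (nat_lit 0) (nat_lit 4909810634) (nat_lit 532) (nat_lit 3169297539) (nat_lit 608) (nat_lit 397094881) (nat_lit 129) (nat_lit 5) (nat_lit 136) (nat_lit 5) (nat_lit 137) (nat_lit 5) (nat_lit 295) (nat_lit 262) (nat_lit 223)))) (XT.nd (nat_lit 78) (nat_lit 532) (nat_lit 0) (XT.lf (nat_lit 0) (nat_lit 961962860) (nat_lit 456) (nat_lit 674154861) (nat_lit 532) (nat_lit 6960764623) (nat_lit 122) (nat_lit 5) (nat_lit 128) (nat_lit 5) (nat_lit 129) (nat_lit 5) (nat_lit 296)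 (nat_lit 262) (nat_lit 222)) (XT.nd (nat_lit 78) (nat_lit 532) (nat_lit 0) (XT.lf (nat_lit 0) (nat_lit 3728419322) (nat_lit 532) (nat_lit 3095612939) (nat_lit 76) (nat_lit 1896953854) (nat_lit 122) (nat_lit 5) (nat_lit 129) (nat_lit 5) (nat_lit 123) (nat_lit 5) (nat_lit 297) (nat_lit 262) (nat_lit 221)) (XT.lf (nat_lit 0) (nat_lit 1552744745) (nat_lit 532) (nat_lit 4305238870) (nat_lit 608) (nat_lit 2991695808) (nat_lit 115) (nat_lit 5) (nat_lit 122) (nat_lit 5) (nat_lit 123) (nat_lit 5) (nat_lit 298) (nat_lit 262) (nat_lit 220))))) (XT.nd (nat_lit 234) (nat_lit 912) (nat_lit 0) (XT.nd (nat_lit 78) (nat_lit 532) (nat_lit 0) (XT.lf (nat_lit 0) (nat_lit 6353754869) (nat_lit 532) (nat_lit 1682721465) (nat_lit 608) (nat_lit 946304232) (nat_lit 115) (nat_lit 5) (nat_lit 122) (nat_lit 5) (nat_lit 123) (nat_lit 5) (nat_lit 299) (nat_lit 262) (nat_lit 219)) (XT.nd (nat_lit 78) (nat_lit 0) (nat_lit 0)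 (XT.lf (nat_lit 0) (nat_lit 1123223356) (nat_lit 532) (nat_lit 6970306662) (nat_lit 76) (nat_lit 1026540155) (nat_lit 108) (nat_lit 5) (nat_lit 115) (nat_lit 5) (nat_lit 109) (nat_lit 5) (nat_lit 300) (nat_lit 262) (nat_lit 218)) (XT.lf (nat_lit 0) (nat_lit 3234681824) (nat_lit 532) (nat_lit 2211847054) (nat_lit 76) (nat_lit 3814792506) (nat_lit 108) (nat_lit 5) (nat_lit 115) (nat_lit 5) (nat_lit 109) (nat_lit 5) (nat_lit 301) (nat_lit 262) (nat_lit 217)))) (XT.nd (nat_lit 78) (nat_lit 456) (nat_lit 0) (XT.lf (nat_lit 0) (nat_lit 2692705813) (nat_lit 456) (nat_lit 2699354756) (nat_lit 532) (nat_lit 4015359591) (nat_lit 102) (nat_lit 5) (nat_lit 108) (nat_lit 5) (nat_lit 109) (nat_lit 5) (nat_lit 302) (nat_lit 262) (nat_lit 216)) (XT.nd (nat_lit 78) (nat_lit 456) (nat_lit 0) (XT.lf (nat_lit 0) (nat_lit 7595394972) (nat_lit 532) (nat_lit 1818991963) (nat_lit 76) (nat_lit 144162714) (nat_lit 102)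 (nat_lit 5) (nat_lit 109) (nat_lit 5) (nat_lit 103) (nat_lit 5) (nat_lit 303) (nat_lit 262) (nat_lit 215)) (XT.lf (nat_lit 0) (nat_lit 164015611) (nat_lit 456) (nat_lit 6504448313) (nat_lit 76) (nat_lit 3045295429) (nat_lit 96) (nat_lit 5) (nat_lit 102) (nat_lit 5) (nat_lit 97) (nat_lit 5) (nat_lit 304) (nat_lit 262) (nat_lit 214))))))))
noncomputable def xc116 : XT := (XT.nd (nat_lit 1794) (nat_lit 1748) (nat_lit 0) (XT.nd (nat_lit 858) (nat_lit 1748) (nat_lit 0) (XT.nd (nat_lit 390) (nat_lit 1064) (nat_lit 0) (XT.nd (nat_lit 156) (nat_lit 456) (nat_lit 0) (XT.nd (nat_lit 78) (nat_lit 380) (nat_lit 0) (XT.lf (nat_lit 0) (nat_lit 2293020997) (nat_lit 456) (nat_lit 1515927595) (nat_lit 76) (nat_lit 6064846901) (nat_lit 96) (nat_lit 5) (nat_lit 102) (nat_lit 5) (nat_lit 97) (nat_lit 5) (nat_lit 305) (nat_lit 262) (nat_lit 213)) (XT.lf (nat_lit 0) (nat_lit 3645833898) (nat_lit 380) (nat_lit 835232261)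 (nat_lit 456) (nat_lit 5557786795) (nat_lit 91) (nat_lit 5) (nat_lit 96) (nat_lit 5) (nat_lit 97) (nat_lit 5) (nat_lit 306) (nat_lit 262) (nat_lit 212))) (XT.nd (nat_lit 78) (nat_lit 456) (nat_lit 0) (XT.lf (nat_lit 0) (nat_lit 6732382336) (nat_lit 456) (nat_lit 1284709099) (nat_lit 76) (nat_lit 2191914947) (nat_lit 91) (nat_lit 5) (nat_lit 97) (nat_lit 5) (nat_lit 92) (nat_lit 5) (nat_lit 307) (nat_lit 262) (nat_lit 211)) (XT.nd (nat_lit 78) (nat_lit 76) (nat_lit 0) (XT.lf (nat_lit 0) (nat_lit 3999772315) (nat_lit 380) (nat_lit 5060082817) (nat_lit 456) (nat_lit 1324221768) (nat_lit 86) (nat_lit 5) (nat_lit 91) (nat_lit 5) (nat_lit 92) (nat_lit 5) (nat_lit 308) (nat_lit 262) (nat_lit 210)) (XT.lf (nat_lit 0) (nat_lit 850557962) (nat_lit 456) (nat_lit 1150816527) (nat_lit 76) (nat_lit 8563577732) (nat_lit 85) (nat_lit 5) (nat_lit 91) (nat_lit 5) (nat_lit 86) (nat_lit 5) (nat_lit 309) (nat_lit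 262) (nat_lit 209))))) (XT.nd (nat_lit 234) (nat_lit 380) (nat_lit 0) (XT.nd (nat_lit 78) (nat_lit 304) (nat_lit 0) (XT.lf (nat_lit 0) (nat_lit 3079675105) (nat_lit 456) (nat_lit 6498367786) (nat_lit 76) (nat_lit 1172411269) (nat_lit 80) (nat_lit 5) (nat_lit 86) (nat_lit 5) (nat_lit 81) (nat_lit 5) (nat_lit 310) (nat_lit 262) (nat_lit 208)) (XT.nd (nat_lit 78) (nat_lit 304) (nat_lit 0) (XT.lf (nat_lit 0) (nat_lit 5370990962) (nat_lit 456) (nat_lit 1166889148) (nat_lit 76) (nat_lit 4403844373) (nat_lit 80) (nat_lit 5) (nat_lit 86) (nat_lit 5) (nat_lit 81) (nat_lit 5) (nat_lit 311) (nat_lit 262) (nat_lit 207)) (XT.lf (nat_lit 0) (nat_lit 4364603025) (nat_lit 304) (nat_lit 3373227206) (nat_lit 380) (nat_lit 3400760415) (nat_lit 76) (nat_lit 5) (nat_lit 80) (nat_lit 5) (nat_lit 81) (nat_lit 5) (nat_lit 312) (nat_lit 262) (nat_lit 206)))) (XT.nd (nat_lit 78) (nat_lit 380) (nat_lit 0) (XT.lf (nat_lit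 0) (nat_lit 10041302256) (nat_lit 304) (nat_lit 111579544) (nat_lit 380) (nat_lit 1189224242) (nat_lit 76) (nat_lit 5) (nat_lit 80) (nat_lit 5) (nat_lit 81) (nat_lit 5) (nat_lit 313) (nat_lit 262) (nat_lit 205)) (XT.nd (nat_lit 78) (nat_lit 0) (nat_lit 0) (XT.lf (nat_lit 0) (nat_lit 1107079762) (nat_lit 380) (nat_lit 7215628793) (nat_lit 76) (nat_lit 3227570488) (nat_lit 71) (nat_lit 5) (nat_lit 76) (nat_lit 5) (nat_lit 72) (nat_lit 5) (nat_lit 314) (nat_lit 262) (nat_lit 204)) (XT.lf (nat_lit 0) (nat_lit 3429253670) (nat_lit 380) (nat_lit 1656093445) (nat_lit 76) (nat_lit 6679624808) (nat_lit 71) (nat_lit 5) (nat_lit 76) (nat_lit 5) (nat_lit 72) (nat_lit 5) (nat_lit 315) (nat_lit 262) (nat_lit 203)))))) (XT.nd (nat_lit 468) (nat_lit 836) (nat_lit 0) (XT.nd (nat_lit 234) (nat_lit 304) (nat_lit 0) (XT.nd (nat_lit 78) (nat_lit 304) (nat_lit 0) (XT.lf (nat_lit 0) (nat_lit 4107056782) (nat_lit 304)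 (nat_lit 1721003560) (nat_lit 380) (nat_lit 6157889056) (nat_lit 67) (nat_lit 5) (nat_lit 71) (nat_lit 5) (nat_lit 72) (nat_lit 5) (nat_lit 316) (nat_lit 262) (nat_lit 202)) (XT.nd (nat_lit 78) (nat_lit 304) (nat_lit 0) (XT.lf (nat_lit 0) (nat_lit 8300404851) (nat_lit 380) (nat_lit 2196732969) (nat_lit 76) (nat_lit 1716422459) (nat_lit 67) (nat_lit 5) (nat_lit 72) (nat_lit 5) (nat_lit 68) (nat_lit 5) (nat_lit 317) (nat_lit 262) (nat_lit 201)) (XT.lf (nat_lit 0) (nat_lit 3667905773) (nat_lit 304) (nat_lit 7200163919) (nat_lit 380) (nat_lit 1579345093) (nat_lit 63) (nat_lit 5) (nat_lit 67) (nat_lit 5) (nat_lit 68) (nat_lit 5) (nat_lit 318) (nat_lit 262) (nat_lit 200)))) (XT.nd (nat_lit 78) (nat_lit 228) (nat_lit 0) (XT.lf (nat_lit 0) (nat_lit 799797188) (nat_lit 380) (nat_lit 2985016996) (nat_lit 76) (nat_lit 8903537736) (nat_lit 62) (nat_lit 5) (nat_lit 67) (nat_lit 5) (nat_lit 63) (nat_lit 5)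 (nat_lit 319) (nat_lit 262) (nat_lit 199)) (XT.nd (nat_lit 78) (nat_lit 0) (nat_lit 0) (XT.lf (nat_lit 0) (nat_lit 2984387422) (nat_lit 228) (nat_lit 232777475) (nat_lit 304) (nat_lit 9718970898) (nat_lit 59) (nat_lit 5) (nat_lit 62) (nat_lit 5) (nat_lit 63) (nat_lit 5) (nat_lit 320) (nat_lit 262) (nat_lit 198)) (XT.lf (nat_lit 0) (nat_lit 5740703379) (nat_lit 304) (nat_lit 4071550924) (nat_lit 76) (nat_lit 3378133638) (nat_lit 59) (nat_lit 5) (nat_lit 63) (nat_lit 5) (nat_lit 60) (nat_lit 5) (nat_lit 321) (nat_lit 262) (nat_lit 197))))) (XT.nd (nat_lit 234) (nat_lit 304) (nat_lit 0) (XT.nd (nat_lit 78) (nat_lit 228) (nat_lit 0) (XT.lf (nat_lit 0) (nat_lit 1980683038) (nat_lit 304) (nat_lit 6351752345) (nat_lit 380) (nat_lit 5120100606) (nat_lit 55) (nat_lit 5) (nat_lit 59) (nat_lit 5) (nat_lit 60) (nat_lit 5) (nat_lit 322) (nat_lit 262) (nat_lit 196)) (XT.nd (nat_lit 78) (nat_lit 228) (nat_lit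 0) (XT.lf (nat_lit 0) (nat_lit 8257631045) (nat_lit 304) (nat_lit 2756999038) (nat_lit 380) (nat_lit 2707578777) (nat_lit 55) (nat_lit 5) (nat_lit 59) (nat_lit 5) (nat_lit 60) (nat_lit 5) (nat_lit 323) (nat_lit 262) (nat_lit 195)) (XT.lf (nat_lit 0) (nat_lit 687340249) (nat_lit 228) (nat_lit 13077959352) (nat_lit 304) (nat_lit 235072538) (nat_lit 52) (nat_lit 5) (nat_lit 55) (nat_lit 5) (nat_lit 56) (nat_lit 5) (nat_lit 324) (nat_lit 262) (nat_lit 194)))) (XT.nd (nat_lit 78) (nat_lit 228) (nat_lit 0) (XT.lf (nat_lit 0) (nat_lit 2321956369) (nat_lit 304) (nat_lit 7239548349) (nat_lit 76) (nat_lit 4723083489) (nat_lit 51) (nat_lit 5) (nat_lit 55) (nat_lit 5) (nat_lit 52) (nat_lit 5) (nat_lit 325) (nat_lit 262) (nat_lit 193)) (XT.nd (nat_lit 78) (nat_lit 228) (nat_lit 0) (XT.lf (nat_lit 0) (nat_lit 4924204822) (nat_lit 304) (nat_lit 1025113821) (nat_lit 76) (nat_lit 8628782344) (nat_lit 51) (nat_lit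 5) (nat_lit 55) (nat_lit 5) (nat_lit 52) (nat_lit 5) (nat_lit 326) (nat_lit 262) (nat_lit 192)) (XT.lf (nat_lit 0) (nat_lit 5444197342) (nat_lit 228) (nat_lit 2186669353) (nat_lit 304) (nat_lit 7248798050) (nat_lit 48) (nat_lit 5) (nat_lit 51) (nat_lit 5) (nat_lit 52) (nat_lit 5) (nat_lit 327) (nat_lit 262) (nat_lit 191))))))) (XT.nd (nat_lit 858) (nat_lit 760) (nat_lit 0) (XT.nd (nat_lit 390) (nat_lit 456) (nat_lit 0) (XT.nd (nat_lit 156) (nat_lit 304) (nat_lit 0) (XT.nd (nat_lit 78) (nat_lit 228) (nat_lit 0) (XT.lf (nat_lit 0) (nat_lit 10419713366) (nat_lit 304) (nat_lit 3115810714) (nat_lit 76) (nat_lit 1654756719) (nat_lit 48) (nat_lit 5) (nat_lit 52) (nat_lit 5) (nat_lit 49) (nat_lit 5) (nat_lit 328) (nat_lit 262) (nat_lit 190)) (XT.lf (nat_lit 0) (nat_lit 3401153589) (nat_lit 228) (nat_lit 9920461111) (nat_lit 304) (nat_lit 2187752865) (nat_lit 45) (nat_lit 5) (nat_lit 48) (nat_lit 5) (nat_lit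 49) (nat_lit 5) (nat_lit 329) (nat_lit 262) (nat_lit 189))) (XT.nd (nat_lit 78) (nat_lit 228) (nat_lit 0) (XT.lf (nat_lit 0) (nat_lit 470244272) (nat_lit 304) (nat_lit 5701603610) (nat_lit 76) (nat_lit 9665867167) (nat_lit 44) (nat_lit 5) (nat_lit 48) (nat_lit 5) (nat_lit 45) (nat_lit 5) (nat_lit 330) (nat_lit 262) (nat_lit 188)) (XT.nd (nat_lit 78) (nat_lit 0) (nat_lit 0) (XT.lf (nat_lit 0) (nat_lit 856169003) (nat_lit 228) (nat_lit 2291938744) (nat_lit 304) (nat_lit 13027663475) (nat_lit 41) (nat_lit 5) (nat_lit 44) (nat_lit 5) (nat_lit 45) (nat_lit 5) (nat_lit 331) (nat_lit 262) (nat_lit 187)) (XT.lf (nat_lit 0) (nat_lit 5956948189) (nat_lit 304) (nat_lit 8847999940) (nat_lit 76) (nat_lit 1717531848) (nat_lit 41) (nat_lit 5) (nat_lit 45) (nat_lit 5) (nat_lit 42) (nat_lit 5) (nat_lit 332) (nat_lit 262) (nat_lit 186))))) (XT.nd (nat_lit 234) (nat_lit 304) (nat_lit 0) (XT.nd (nat_lit 78) (nat_lit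 152) (nat_lit 0) (XT.lf (nat_lit 0) (nat_lit 8849554629) (nat_lit 304) (nat_lit 2240239836) (nat_lit 76) (nat_lit 5789839758) (nat_lit 41) (nat_lit 5) (nat_lit 45) (nat_lit 5) (nat_lit 42) (nat_lit 5) (nat_lit 333) (nat_lit 262) (nat_lit 185)) (XT.nd (nat_lit 78) (nat_lit 0) (nat_lit 0) (XT.lf (nat_lit 0) (nat_lit 4621668782) (nat_lit 152) (nat_lit 7229180594) (nat_lit 228) (nat_lit 5396024816) (nat_lit 39) (nat_lit 5) (nat_lit 41) (nat_lit 5) (nat_lit 42) (nat_lit 5) (nat_lit 334) (nat_lit 262) (nat_lit 184)) (XT.lf (nat_lit 0) (nat_lit 11701423667) (nat_lit 152) (nat_lit 3241194756) (nat_lit 228) (nat_lit 2682527446) (nat_lit 39) (nat_lit 5) (nat_lit 41) (nat_lit 5) (nat_lit 42) (nat_lit 5) (nat_lit 335) (nat_lit 262) (nat_lit 183)))) (XT.nd (nat_lit 78) (nat_lit 0) (nat_lit 0) (XT.lf (nat_lit 0) (nat_lit 105979444) (nat_lit 304) (nat_lit 17060339904) (nat_lit 76) (nat_lit 848566010) (nat_lit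 35) (nat_lit 5) (nat_lit 39) (nat_lit 5) (nat_lit 36) (nat_lit 5) (nat_lit 336) (nat_lit 262) (nat_lit 182)) (XT.nd (nat_lit 78) (nat_lit 0) (nat_lit 0) (XT.lf (nat_lit 0) (nat_lit 2995151558) (nat_lit 304) (nat_lit 10346808627) (nat_lit 76) (nat_lit 5071457503) (nat_lit 35) (nat_lit 5) (nat_lit 39) (nat_lit 5) (nat_lit 36) (nat_lit 5) (nat_lit 337) (nat_lit 262) (nat_lit 181)) (XT.lf (nat_lit 0) (nat_lit 5950052123) (nat_lit 304) (nat_lit 3464526563) (nat_lit 76) (nat_lit 9409980201) (nat_lit 35) (nat_lit 5) (nat_lit 39) (nat_lit 5) (nat_lit 36) (nat_lit 5) (nat_lit 338) (nat_lit 262) (nat_lit 180)))))) (XT.nd (nat_lit 468) (nat_lit 380) (nat_lit 0) (XT.nd (nat_lit 234) (nat_lit 228) (nat_lit 0) (XT.nd (nat_lit 78) (nat_lit 0) (nat_lit 0) (XT.lf (nat_lit 0) (nat_lit 3664018123) (nat_lit 152) (nat_lit 5344465752) (nat_lit 228) (nat_lit 10239127706) (nat_lit 33) (nat_lit 5) (nat_lit 35) (nat_lit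 5) (nat_lit 36) (nat_lit 5) (nat_lit 339) (nat_lit 262) (nat_lit 179)) (XT.nd (nat_lit 78) (nat_lit 0) (nat_lit 0) (XT.lf (nat_lit 0) (nat_lit 11046045343) (nat_lit 152) (nat_lit 1127562106) (nat_lit 228) (nat_lit 7509323332) (nat_lit 33) (nat_lit 5) (nat_lit 35) (nat_lit 5) (nat_lit 36) (nat_lit 5) (nat_lit 340) (nat_lit 262) (nat_lit 178)) (XT.lf (nat_lit 0) (nat_lit 15445029347) (nat_lit 228) (nat_lit 1543668110) (nat_lit 76) (nat_lit 3142294181) (nat_lit 33) (nat_lit 5) (nat_lit 36) (nat_lit 5) (nat_lit 34) (nat_lit 5) (nat_lit 341) (nat_lit 262) (nat_lit 177)))) (XT.nd (nat_lit 78) (nat_lit 76) (nat_lit 0) (XT.lf (nat_lit 0) (nat_lit 5834966043) (nat_lit 152) (nat_lit 13027882959) (nat_lit 228) (nat_lit 1728219432) (nat_lit 31) (nat_lit 5) (nat_lit 33) (nat_lit 5) (nat_lit 34) (nat_lit 5) (nat_lit 342) (nat_lit 262) (nat_lit 176)) (XT.nd (nat_lit 78) (nat_lit 0) (nat_lit 0) (XT.lf (nat_lit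 0) (nat_lit 1289336894) (nat_lit 228) (nat_lit 7640882659) (nat_lit 76) (nat_lit 12134464187) (nat_lit 30) (nat_lit 5) (nat_lit 33) (nat_lit 5) (nat_lit 31) (nat_lit 5) (nat_lit 343) (nat_lit 262) (nat_lit 175)) (XT.lf (nat_lit 0) (nat_lit 4344298722) (nat_lit 228) (nat_lit 358617857) (nat_lit 76) (nat_lit 16849649084) (nat_lit 30) (nat_lit 5) (nat_lit 33) (nat_lit 5) (nat_lit 31) (nat_lit 5) (nat_lit 344) (nat_lit 262) (nat_lit 174))))) (XT.nd (nat_lit 234) (nat_lit 228) (nat_lit 0) (XT.nd (nat_lit 78) (nat_lit 0) (nat_lit 0) (XT.lf (nat_lit 0) (nat_lit 7255243799) (nat_lit 152) (nat_lit 287557265) (nat_lit 228) (nat_lit 14510745570) (nat_lit 28) (nat_lit 5) (nat_lit 30) (nat_lit 5) (nat_lit 31) (nat_lit 5) (nat_lit 345) (nat_lit 262) (nat_lit 173)) (XT.nd (nat_lit 78) (nat_lit 0) (nat_lit 0) (XT.lf (nat_lit 0) (nat_lit 10864165298) (nat_lit 228) (nat_lit 7534177245) (nat_lit 76) (nat_lit 4170426059)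 (nat_lit 28) (nat_lit 5) (nat_lit 31) (nat_lit 5) (nat_lit 29) (nat_lit 5) (nat_lit 346) (nat_lit 262) (nat_lit 172)) (XT.lf (nat_lit 0) (nat_lit 14270830551) (nat_lit 228) (nat_lit 82754956) (nat_lit 76) (nat_lit 8746310151) (nat_lit 28) (nat_lit 5) (nat_lit 31) (nat_lit 5) (nat_lit 29) (nat_lit 5) (nat_lit 347) (nat_lit 262) (nat_lit 171)))) (XT.nd (nat_lit 78) (nat_lit 76) (nat_lit 0) (XT.lf (nat_lit 0) (nat_lit 7715802253) (nat_lit 152) (nat_lit 10121376099) (nat_lit 228) (nat_lit 5808071391) (nat_lit 26) (nat_lit 5) (nat_lit 28) (nat_lit 5) (nat_lit 29) (nat_lit 5) (nat_lit 348) (nat_lit 262) (nat_lit 170)) (XT.nd (nat_lit 78) (nat_lit 76) (nat_lit 0) (XT.lf (nat_lit 0) (nat_lit 15723306154) (nat_lit 152) (nat_lit 5771588972) (nat_lit 228) (nat_lit 2712555152) (nat_lit 26) (nat_lit 5) (nat_lit 28) (nat_lit 5) (nat_lit 29) (nat_lit 5) (nat_lit 349) (nat_lit 262) (nat_lit 169)) (XT.lf (nat_lit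 0) (nat_lit 450389140) (nat_lit 228) (nat_lit 846321817) (nat_lit 76) (nat_lit 23490169420) (nat_lit 25) (nat_lit 5) (nat_lit 28) (nat_lit 5) (nat_lit 26) (nat_lit 5) (nat_lit 350) (nat_lit 262) (nat_lit 168))))))))
noncomputable def xc117 : XT := (XT.nd (nat_lit 1794) (nat_lit 456) (nat_lit 0) (XT.nd (nat_lit 858) (nat_lit 304) (nat_lit 0) (XT.nd (nat_lit 390) (nat_lit 304) (nat_lit 0) (XT.nd (nat_lit 156) (nat_lit 152) (nat_lit 0) (XT.nd (nat_lit 78) (nat_lit 0) (nat_lit 0) (XT.lf (nat_lit 0) (nat_lit 3739025508) (nat_lit 228) (nat_lit 18307053860) (nat_lit 76) (nat_lit 3334264324) (nat_lit 23) (nat_lit 5) (nat_lit 26) (nat_lit 5) (nat_lit 24) (nat_lit 5) (nat_lit 351) (nat_lit 262) (nat_lit 167)) (XT.lf (nat_lit 0) (nat_lit 7132228591) (nat_lit 228) (nat_lit 10782075693) (nat_lit 76) (nat_lit 8077144659) (nat_lit 23) (nat_lit 5) (nat_lit 26) (nat_lit 5) (nat_lit 24) (nat_lit 5) (nat_lit 352)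 (nat_lit 262) (nat_lit 166))) (XT.nd (nat_lit 78) (nat_lit 152) (nat_lit 0) (XT.lf (nat_lit 0) (nat_lit 10612119120) (nat_lit 228) (nat_lit 3056237924) (nat_lit 76) (nat_lit 12952998389) (nat_lit 23) (nat_lit 5) (nat_lit 26) (nat_lit 5) (nat_lit 24) (nat_lit 5) (nat_lit 353) (nat_lit 262) (nat_lit 165)) (XT.nd (nat_lit 78) (nat_lit 0) (nat_lit 0) (XT.lf (nat_lit 0) (nat_lit 4974276224) (nat_lit 152) (nat_lit 9255277337) (nat_lit 228) (nat_lit 13039625530) (nat_lit 21) (nat_lit 5) (nat_lit 23) (nat_lit 5) (nat_lit 24) (nat_lit 5) (nat_lit 354) (nat_lit 262) (nat_lit 164)) (XT.lf (nat_lit 0) (nat_lit 13284427789) (nat_lit 152) (nat_lit 4687473899) (nat_lit 228) (nat_lit 9964058022) (nat_lit 21) (nat_lit 5) (nat_lit 23) (nat_lit 5) (nat_lit 24) (nat_lit 5) (nat_lit 355) (nat_lit 262) (nat_lit 163))))) (XT.nd (nat_lit 234) (nat_lit 228) (nat_lit 0) (XT.nd (nat_lit 78) (nat_lit 76) (nat_lit 0) (XT.lf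 (nat_lit 0) (nat_lit 21812549054) (nat_lit 228) (nat_lit 6802604522) (nat_lit 76) (nat_lit 8022872) (nat_lit 21) (nat_lit 5) (nat_lit 24) (nat_lit 5) (nat_lit 22) (nat_lit 4) (nat_lit 356) (nat_lit 262) (nat_lit 162)) (XT.nd (nat_lit 78) (nat_lit 0) (nat_lit 0) (XT.lf (nat_lit 0) (nat_lit 1236619940) (nat_lit 76) (nat_lit 24576367353) (nat_lit 152) (nat_lit 3516698421) (nat_lit 20) (nat_lit 5) (nat_lit 21) (nat_lit 5) (nat_lit 22) (nat_lit 4) (nat_lit 357) (nat_lit 262) (nat_lit 161)) (XT.lf (nat_lit 0) (nat_lit 9633801248) (nat_lit 76) (nat_lit 20354785983) (nat_lit 152) (nat_lit 67161355) (nat_lit 20) (nat_lit 5) (nat_lit 21) (nat_lit 5) (nat_lit 22) (nat_lit 4) (nat_lit 358) (nat_lit 262) (nat_lit 160)))) (XT.nd (nat_lit 78) (nat_lit 152) (nat_lit 0) (XT.lf (nat_lit 0) (nat_lit 3404547816) (nat_lit 152) (nat_lit 12576486599) (nat_lit 76) (nat_lit 14821964501) (nat_lit 19) (nat_lit 5) (nat_lit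 21) (nat_lit 5) (nat_lit 20) (nat_lit 5) (nat_lit 359) (nat_lit 262) (nat_lit 159)) (XT.nd (nat_lit 78) (nat_lit 152) (nat_lit 0) (XT.lf (nat_lit 0) (nat_lit 6966153254) (nat_lit 152) (nat_lit 4517960995) (nat_lit 76) (nat_lit 20088931413) (nat_lit 19) (nat_lit 5) (nat_lit 21) (nat_lit 5) (nat_lit 20) (nat_lit 5) (nat_lit 360) (nat_lit 262) (nat_lit 158)) (XT.lf (nat_lit 0) (nat_lit 3836174071) (nat_lit 152) (nat_lit 6822779182) (nat_lit 228) (nat_lit 21706521526) (nat_lit 17) (nat_lit 5) (nat_lit 19) (nat_lit 5) (nat_lit 20) (nat_lit 5) (nat_lit 361) (nat_lit 262) (nat_lit 157)))))) (XT.nd (nat_lit 468) (nat_lit 228) (nat_lit 0) (XT.nd (nat_lit 234) (nat_lit 76) (nat_lit 0) (XT.nd (nat_lit 78) (nat_lit 0) (nat_lit 0) (XT.lf (nat_lit 0) (nat_lit 12512749004) (nat_lit 152) (nat_lit 1983046547) (nat_lit 228) (nat_lit 18684894497) (nat_lit 17) (nat_lit 5) (nat_lit 19) (nat_lit 5) (nat_lit 20) (nat_lit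 5) (nat_lit 362) (nat_lit 262) (nat_lit 156)) (XT.nd (nat_lit 78) (nat_lit 0) (nat_lit 0) (XT.lf (nat_lit 0) (nat_lit 18464516174) (nat_lit 228) (nat_lit 12620080793) (nat_lit 76) (nat_lit 2935272323) (nat_lit 17) (nat_lit 5) (nat_lit 20) (nat_lit 5) (nat_lit 18) (nat_lit 4) (nat_lit 363) (nat_lit 262) (nat_lit 155)) (XT.lf (nat_lit 0) (nat_lit 22560201634) (nat_lit 228) (nat_lit 4370306542) (nat_lit 76) (nat_lit 7953489033) (nat_lit 17) (nat_lit 5) (nat_lit 20) (nat_lit 5) (nat_lit 18) (nat_lit 4) (nat_lit 364) (nat_lit 262) (nat_lit 154)))) (XT.nd (nat_lit 78) (nat_lit 0) (nat_lit 0) (XT.lf (nat_lit 0) (nat_lit 4189402844) (nat_lit 76) (nat_lit 22618236689) (nat_lit 152) (nat_lit 8965553071) (nat_lit 16) (nat_lit 5) (nat_lit 17) (nat_lit 5) (nat_lit 18) (nat_lit 4) (nat_lit 365) (nat_lit 262) (nat_lit 153)) (XT.nd (nat_lit 78) (nat_lit 0) (nat_lit 0) (XT.lf (nat_lit 0) (nat_lit 13076371380)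 (nat_lit 76) (nat_lit 18139019427) (nat_lit 152) (nat_lit 5472696143) (nat_lit 16) (nat_lit 5) (nat_lit 17) (nat_lit 5) (nat_lit 18) (nat_lit 4) (nat_lit 366) (nat_lit 262) (nat_lit 152)) (XT.lf (nat_lit 0) (nat_lit 22211386708) (nat_lit 76) (nat_lit 13533074040) (nat_lit 152) (nat_lit 1886304310) (nat_lit 16) (nat_lit 5) (nat_lit 17) (nat_lit 5) (nat_lit 18) (nat_lit 4) (nat_lit 367) (nat_lit 262) (nat_lit 151))))) (XT.nd (nat_lit 234) (nat_lit 0) (nat_lit 0) (XT.nd (nat_lit 78) (nat_lit 152) (nat_lit 0) (XT.lf (nat_lit 0) (nat_lit 1761694985) (nat_lit 152) (nat_lit 7016891264) (nat_lit 76) (nat_lit 29822946229) (nat_lit 15) (nat_lit 5) (nat_lit 17) (nat_lit 5) (nat_lit 16) (nat_lit 5) (nat_lit 368) (nat_lit 262) (nat_lit 150)) (XT.nd (nat_lit 78) (nat_lit 0) (nat_lit 0) (XT.lf (nat_lit 0) (nat_lit 1633150440) (nat_lit 152) (nat_lit 3853371792) (nat_lit 228) (nat_lit 34114190082) (nat_lit 13)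 (nat_lit 5) (nat_lit 15) (nat_lit 5) (nat_lit 16) (nat_lit 5) (nat_lit 369) (nat_lit 262) (nat_lit 149)) (XT.lf (nat_lit 0) (nat_lit 9396042539) (nat_lit 228) (nat_lit 29971419284) (nat_lit 76) (nat_lit 1260225728) (nat_lit 13) (nat_lit 5) (nat_lit 16) (nat_lit 5) (nat_lit 14) (nat_lit 4) (nat_lit 370) (nat_lit 262) (nat_lit 148)))) (XT.nd (nat_lit 78) (nat_lit 0) (nat_lit 0) (XT.lf (nat_lit 0) (nat_lit 13450967943) (nat_lit 228) (nat_lit 21790811742) (nat_lit 76) (nat_lit 6442856981) (nat_lit 13) (nat_lit 5) (nat_lit 16) (nat_lit 5) (nat_lit 14) (nat_lit 4) (nat_lit 371) (nat_lit 262) (nat_lit 147)) (XT.nd (nat_lit 78) (nat_lit 0) (nat_lit 0) (XT.lf (nat_lit 0) (nat_lit 17617800618) (nat_lit 228) (nat_lit 13381550179) (nat_lit 76) (nat_lit 11774243640) (nat_lit 13) (nat_lit 5) (nat_lit 16) (nat_lit 5) (nat_lit 14) (nat_lit 4) (nat_lit 372) (nat_lit 262) (nat_lit 146)) (XT.lf (nat_lit 0) (nat_lit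 21900181485) (nat_lit 228) (nat_lit 4736286696) (nat_lit 76) (nat_lit 17259044200) (nat_lit 13) (nat_lit 5) (nat_lit 16) (nat_lit 5) (nat_lit 14) (nat_lit 4) (nat_lit 373) (nat_lit 262) (nat_lit 145))))))) (XT.nd (nat_lit 936) (nat_lit 152) (nat_lit 0) (XT.nd (nat_lit 468) (nat_lit 152) (nat_lit 0) (XT.nd (nat_lit 234) (nat_lit 76) (nat_lit 0) (XT.nd (nat_lit 78) (nat_lit 0) (nat_lit 0) (XT.lf (nat_lit 0) (nat_lit 4235176366) (nat_lit 76) (nat_lit 22107387170) (nat_lit 152) (nat_lit 18707585943) (nat_lit 12) (nat_lit 5) (nat_lit 13) (nat_lit 5) (nat_lit 14) (nat_lit 4) (nat_lit 374) (nat_lit 262) (nat_lit 144)) (XT.nd (nat_lit 78) (nat_lit 0) (nat_lit 0) (XT.lf (nat_lit 0) (nat_lit 13557225603) (nat_lit 76) (nat_lit 17399754315) (nat_lit 152) (nat_lit 15281290176) (nat_lit 12) (nat_lit 5) (nat_lit 13) (nat_lit 5) (nat_lit 14) (nat_lit 4) (nat_lit 375) (nat_lit 262) (nat_lit 143)) (XT.lf (nat_lit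 0) (nat_lit 23143745104) (nat_lit 76) (nat_lit 12557283361) (nat_lit 152) (nat_lit 11761276953) (nat_lit 12) (nat_lit 5) (nat_lit 13) (nat_lit 5) (nat_lit 14) (nat_lit 4) (nat_lit 376) (nat_lit 262) (nat_lit 142)))) (XT.nd (nat_lit 78) (nat_lit 76) (nat_lit 0) (XT.lf (nat_lit 0) (nat_lit 33003111438) (nat_lit 76) (nat_lit 7575743022) (nat_lit 152) (nat_lit 8144470535) (nat_lit 12) (nat_lit 5) (nat_lit 13) (nat_lit 5) (nat_lit 14) (nat_lit 4) (nat_lit 377) (nat_lit 262) (nat_lit 141)) (XT.nd (nat_lit 78) (nat_lit 76) (nat_lit 0) (XT.lf (nat_lit 0) (nat_lit 43143939586) (nat_lit 76) (nat_lit 2450780496) (nat_lit 152) (nat_lit 4427710604) (nat_lit 12) (nat_lit 5) (nat_lit 13) (nat_lit 5) (nat_lit 14) (nat_lit 4) (nat_lit 378) (nat_lit 262) (nat_lit 140)) (XT.lf (nat_lit 0) (nat_lit 2230734924) (nat_lit 76) (nat_lit 48570843973) (nat_lit 76) (nat_lit 557721613) (nat_lit 11) (nat_lit 4) (nat_lit 12)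 (nat_lit 5) (nat_lit 12) (nat_lit 4) (nat_lit 379) (nat_lit 262) (nat_lit 139))))) (XT.nd (nat_lit 234) (nat_lit 76) (nat_lit 0) (XT.nd (nat_lit 78) (nat_lit 0) (nat_lit 0) (XT.lf (nat_lit 0) (nat_lit 3447786237) (nat_lit 152) (nat_lit 41051984004) (nat_lit 76) (nat_lit 8232934056) (nat_lit 10) (nat_lit 5) (nat_lit 12) (nat_lit 5) (nat_lit 11) (nat_lit 4) (nat_lit 380) (nat_lit 262) (nat_lit 138)) (XT.nd (nat_lit 78) (nat_lit 0) (nat_lit 0) (XT.lf (nat_lit 0) (nat_lit 7554392231) (nat_lit 152) (nat_lit 32752338598) (nat_lit 76) (nat_lit 13840655361) (nat_lit 10) (nat_lit 5) (nat_lit 12) (nat_lit 5) (nat_lit 11) (nat_lit 4) (nat_lit 381) (nat_lit 262) (nat_lit 137)) (XT.lf (nat_lit 0) (nat_lit 11776567822) (nat_lit 152) (nat_lit 24217016092) (nat_lit 76) (nat_lit 19611159239) (nat_lit 10) (nat_lit 5) (nat_lit 12) (nat_lit 5) (nat_lit 11) (nat_lit 4) (nat_lit 382) (nat_lit 262) (nat_lit 136))))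 (XT.nd (nat_lit 78) (nat_lit 76) (nat_lit 0) (XT.lf (nat_lit 0) (nat_lit 16118002291) (nat_lit 152) (nat_lit 15438558435) (nat_lit 76) (nat_lit 25549487879) (nat_lit 10) (nat_lit 5) (nat_lit 12) (nat_lit 5) (nat_lit 11) (nat_lit 4) (nat_lit 383) (nat_lit 262) (nat_lit 135)) (XT.nd (nat_lit 78) (nat_lit 76) (nat_lit 0) (XT.lf (nat_lit 0) (nat_lit 20582489124) (nat_lit 152) (nat_lit 6409295130) (nat_lit 76) (nat_lit 31660830112) (nat_lit 10) (nat_lit 5) (nat_lit 12) (nat_lit 5) (nat_lit 11) (nat_lit 4) (nat_lit 384) (nat_lit 262) (nat_lit 134)) (XT.lf (nat_lit 0) (nat_lit 2935954515) (nat_lit 76) (nat_lit 22266197003) (nat_lit 152) (nat_lit 35042793620) (nat_lit 9) (nat_lit 5) (nat_lit 10) (nat_lit 5) (nat_lit 11) (nat_lit 4) (nat_lit 385) (nat_lit 262) (nat_lit 133)))))) (XT.nd (nat_lit 468) (nat_lit 152) (nat_lit 0) (XT.nd (nat_lit 234) (nat_lit 0) (nat_lit 0) (XT.nd (nat_lit 78) (nat_lit 0)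 (nat_lit 0) (XT.lf (nat_lit 0) (nat_lit 12680882751) (nat_lit 76) (nat_lit 17337348493) (nat_lit 152) (nat_lit 31865084880) (nat_lit 9) (nat_lit 5) (nat_lit 10) (nat_lit 5) (nat_lit 11) (nat_lit 4) (nat_lit 386) (nat_lit 262) (nat_lit 132)) (XT.nd (nat_lit 78) (nat_lit 0) (nat_lit 0) (XT.lf (nat_lit 0) (nat_lit 22706447021) (nat_lit 76) (nat_lit 12265653277) (nat_lit 152) (nat_lit 28598943698) (nat_lit 9) (nat_lit 5) (nat_lit 10) (nat_lit 5) (nat_lit 11) (nat_lit 4) (nat_lit 387) (nat_lit 262) (nat_lit 131)) (XT.lf (nat_lit 0) (nat_lit 33021407528) (nat_lit 76) (nat_lit 7046679777) (nat_lit 152) (nat_lit 25241516164) (nat_lit 9) (nat_lit 5) (nat_lit 10) (nat_lit 5) (nat_lit 11) (nat_lit 4) (nat_lit 388) (nat_lit 262) (nat_lit 130)))) (XT.nd (nat_lit 78) (nat_lit 0) (nat_lit 0) (XT.lf (nat_lit 0) (nat_lit 43634777343) (nat_lit 76) (nat_lit 1675867724) (nat_lit 152) (nat_lit 21789868603) (nat_lit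 9) (nat_lit 5) (nat_lit 10) (nat_lit 5) (nat_lit 11) (nat_lit 4) (nat_lit 389) (nat_lit 262) (nat_lit 129)) (XT.nd (nat_lit 78) (nat_lit 0) (nat_lit 0) (XT.lf (nat_lit 0) (nat_lit 50741377204) (nat_lit 152) (nat_lit 14426531933) (nat_lit 0) (nat_lit 3776319656) (nat_lit 9) (nat_lit 5) (nat_lit 11) (nat_lit 4) (nat_lit 9) (nat_lit 4) (nat_lit 390) (nat_lit 262) (nat_lit 128)) (XT.lf (nat_lit 0) (nat_lit 56345634490) (nat_lit 152) (nat_lit 5143289898) (nat_lit 0) (nat_lit 9354017296) (nat_lit 9) (nat_lit 5) (nat_lit 11) (nat_lit 4) (nat_lit 9) (nat_lit 4) (nat_lit 391) (nat_lit 262) (nat_lit 127))))) (XT.nd (nat_lit 234) (nat_lit 76) (nat_lit 0) (XT.nd (nat_lit 78) (nat_lit 0) (nat_lit 0) (XT.lf (nat_lit 0) (nat_lit 4495942851) (nat_lit 76) (nat_lit 57659479287) (nat_lit 76) (nat_lit 10642076029) (nat_lit 8) (nat_lit 4) (nat_lit 9) (nat_lit 5) (nat_lit 9) (nat_lit 4) (nat_lit 392) (nat_lit 262)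 (nat_lit 126)) (XT.nd (nat_lit 78) (nat_lit 0) (nat_lit 0) (XT.lf (nat_lit 0) (nat_lit 14519646777) (nat_lit 76) (nat_lit 53666050590) (nat_lit 76) (nat_lit 6623612317) (nat_lit 8) (nat_lit 4) (nat_lit 9) (nat_lit 5) (nat_lit 9) (nat_lit 4) (nat_lit 393) (nat_lit 262) (nat_lit 125)) (XT.lf (nat_lit 0) (nat_lit 24834218901) (nat_lit 76) (nat_lit 49557086035) (nat_lit 76) (nat_lit 2490341923) (nat_lit 8) (nat_lit 4) (nat_lit 9) (nat_lit 5) (nat_lit 9) (nat_lit 4) (nat_lit 394) (nat_lit 262) (nat_lit 124)))) (XT.nd (nat_lit 78) (nat_lit 0) (nat_lit 0) (XT.lf (nat_lit 0) (nat_lit 1726976528) (nat_lit 152) (nat_lit 43584579661) (nat_lit 76) (nat_lit 33704256352) (nat_lit 7) (nat_lit 5) (nat_lit 9) (nat_lit 5) (nat_lit 8) (nat_lit 4) (nat_lit 395) (nat_lit 262) (nat_lit 123)) (XT.nd (nat_lit 78) (nat_lit 0) (nat_lit 0) (XT.lf (nat_lit 0) (nat_lit 6015449523) (nat_lit 152) (nat_lit 34901890066) (nat_lit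 76) (nat_lit 40296086942) (nat_lit 7) (nat_lit 5) (nat_lit 9) (nat_lit 5) (nat_lit 8) (nat_lit 4) (nat_lit 396) (nat_lit 262) (nat_lit 122)) (XT.lf (nat_lit 0) (nat_lit 10427419810) (nat_lit 152) (nat_lit 25967833668) (nat_lit 76) (nat_lit 47081873755) (nat_lit 7) (nat_lit 5) (nat_lit 9) (nat_lit 5) (nat_lit 8) (nat_lit 4) (nat_lit 397) (nat_lit 262) (nat_lit 121))))))))
noncomputable def xc118 : XT := (XT.nd (nat_lit 1794) (nat_lit 7372) (nat_lit 0) (XT.nd (nat_lit 858) (nat_lit 5016) (nat_lit 0) (XT.nd (nat_lit 390) (nat_lit 760) (nat_lit 0) (XT.nd (nat_lit 156) (nat_lit 380) (nat_lit 0) (XT.nd (nat_lit 78) (nat_lit 0) (nat_lit 0) (XT.lf (nat_lit 0) (nat_lit 761141149) (nat_lit 0) (nat_lit 761141149) (nat_lit 228) (nat_lit 1718911583) (nat_lit 264) (nat_lit 5) (nat_lit 264) (nat_lit 3) (nat_lit 267) (nat_lit 3) (nat_lit 263) (nat_lit 263) (nat_lit 254)) (XT.lf (nat_lit 0) (nat_lit 4408163240)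 (nat_lit 0) (nat_lit 1121994044) (nat_lit 228) (nat_lit 967292010) (nat_lit 264) (nat_lit 5) (nat_lit 264) (nat_lit 3) (nat_lit 267) (nat_lit 3) (nat_lit 264) (nat_lit 263) (nat_lit 253))) (XT.nd (nat_lit 78) (nat_lit 0) (nat_lit 0) (XT.lf (nat_lit 76) (nat_lit 818596637) (nat_lit 0) (nat_lit 639337696) (nat_lit 380) (nat_lit 5057572813) (nat_lit 260) (nat_lit 5) (nat_lit 259) (nat_lit 3) (nat_lit 264) (nat_lit 5) (nat_lit 265) (nat_lit 263) (nat_lit 252)) (XT.nd (nat_lit 78) (nat_lit 0) (nat_lit 76) (XT.lf (nat_lit 76) (nat_lit 3797392751) (nat_lit 0) (nat_lit 65913442) (nat_lit 380) (nat_lit 2673038536) (nat_lit 260) (nat_lit 5) (nat_lit 259) (nat_lit 3) (nat_lit 264) (nat_lit 5) (nat_lit 266) (nat_lit 263) (nat_lit 251)) (XT.lf (nat_lit 76) (nat_lit 256275509) (nat_lit 0) (nat_lit 6001058505) (nat_lit 380) (nat_lit 303299183) (nat_lit 261) (nat_lit 5) (nat_lit 260) (nat_lit 5) (nat_lit 265)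 (nat_lit 5) (nat_lit 267) (nat_lit 263) (nat_lit 250))))) (XT.nd (nat_lit 234) (nat_lit 0) (nat_lit 0) (XT.nd (nat_lit 78) (nat_lit 456) (nat_lit 0) (XT.lf (nat_lit 0) (nat_lit 2034369798) (nat_lit 380) (nat_lit 3261805341) (nat_lit 456) (nat_lit 1291004507) (nat_lit 255) (nat_lit 5) (nat_lit 260) (nat_lit 5) (nat_lit 261) (nat_lit 5) (nat_lit 268) (nat_lit 263) (nat_lit 249)) (XT.nd (nat_lit 78) (nat_lit 456) (nat_lit 0) (XT.lf (nat_lit 0) (nat_lit 4348659155) (nat_lit 380) (nat_lit 182451908) (nat_lit 456) (nat_lit 2086237145) (nat_lit 255) (nat_lit 5) (nat_lit 260) (nat_lit 5) (nat_lit 261) (nat_lit 5) (nat_lit 269) (nat_lit 263) (nat_lit 248)) (XT.lf (nat_lit 0) (nat_lit 25431944) (nat_lit 456) (nat_lit 3652830722) (nat_lit 532) (nat_lit 2972118057) (nat_lit 249) (nat_lit 5) (nat_lit 255) (nat_lit 5) (nat_lit 256) (nat_lit 5) (nat_lit 270) (nat_lit 263) (nat_lit 247)))) (XT.nd (nat_lit 78)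 (nat_lit 0) (nat_lit 0) (XT.lf (nat_lit 0) (nat_lit 2260675706) (nat_lit 456) (nat_lit 481560314) (nat_lit 532) (nat_lit 3944225897) (nat_lit 249) (nat_lit 5) (nat_lit 255) (nat_lit 5) (nat_lit 256) (nat_lit 5) (nat_lit 271) (nat_lit 263) (nat_lit 246)) (XT.nd (nat_lit 78) (nat_lit 0) (nat_lit 0) (XT.lf (nat_lit 76) (nat_lit 2789353374) (nat_lit 0) (nat_lit 1718918796) (nat_lit 532) (nat_lit 2217255195) (nat_lit 250) (nat_lit 5) (nat_lit 249) (nat_lit 5) (nat_lit 256) (nat_lit 5) (nat_lit 272) (nat_lit 263) (nat_lit 245)) (XT.lf (nat_lit 76) (nat_lit 6118830288) (nat_lit 0) (nat_lit 629710564) (nat_lit 532) (nat_lit 19719680) (nat_lit 250) (nat_lit 5) (nat_lit 249) (nat_lit 5) (nat_lit 256) (nat_lit 5) (nat_lit 273) (nat_lit 263) (nat_lit 244)))))) (XT.nd (nat_lit 468) (nat_lit 3344) (nat_lit 0) (XT.nd (nat_lit 234) (nat_lit 684) (nat_lit 0) (XT.nd (nat_lit 78) (nat_lit 532) (nat_lit 0) (XT.lf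 (nat_lit 0) (nat_lit 2153253086) (nat_lit 532) (nat_lit 4101325399) (nat_lit 76) (nat_lit 558689879) (nat_lit 243) (nat_lit 5) (nat_lit 250) (nat_lit 5) (nat_lit 244) (nat_lit 5) (nat_lit 274) (nat_lit 263) (nat_lit 243)) (XT.nd (nat_lit 78) (nat_lit 532) (nat_lit 0) (XT.lf (nat_lit 0) (nat_lit 4327638797) (nat_lit 532) (nat_lit 730547213) (nat_lit 76) (nat_lit 1803567572) (nat_lit 243) (nat_lit 5) (nat_lit 250) (nat_lit 5) (nat_lit 244) (nat_lit 5) (nat_lit 275) (nat_lit 263) (nat_lit 242)) (XT.lf (nat_lit 0) (nat_lit 2744330713) (nat_lit 532) (nat_lit 3775288508) (nat_lit 608) (nat_lit 393728104) (nat_lit 236) (nat_lit 5) (nat_lit 243) (nat_lit 5) (nat_lit 244) (nat_lit 5) (nat_lit 276) (nat_lit 263) (nat_lit 241)))) (XT.nd (nat_lit 78) (nat_lit 608) (nat_lit 0) (XT.lf (nat_lit 0) (nat_lit 1709710794) (nat_lit 608) (nat_lit 697067094) (nat_lit 76) (nat_lit 4561375415) (nat_lit 235) (nat_lit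 5) (nat_lit 243) (nat_lit 5) (nat_lit 236) (nat_lit 5) (nat_lit 277) (nat_lit 263) (nat_lit 240)) (XT.nd (nat_lit 78) (nat_lit 0) (nat_lit 0) (XT.lf (nat_lit 0) (nat_lit 2881121162) (nat_lit 608) (nat_lit 943774495) (nat_lit 684) (nat_lit 3201099947) (nat_lit 227) (nat_lit 5) (nat_lit 235) (nat_lit 5) (nat_lit 236) (nat_lit 5) (nat_lit 278) (nat_lit 263) (nat_lit 239)) (XT.lf (nat_lit 0) (nat_lit 5946703117) (nat_lit 684) (nat_lit 562126828) (nat_lit 76) (nat_lit 578648005) (nat_lit 227) (nat_lit 5) (nat_lit 236) (nat_lit 5) (nat_lit 228) (nat_lit 5) (nat_lit 279) (nat_lit 263) (nat_lit 238))))) (XT.nd (nat_lit 234) (nat_lit 1824) (nat_lit 0) (XT.nd (nat_lit 78) (nat_lit 760) (nat_lit 0) (XT.lf (nat_lit 0) (nat_lit 933832230) (nat_lit 760) (nat_lit 4031877289) (nat_lit 76) (nat_lit 2185851902) (nat_lit 217) (nat_lit 5) (nat_lit 227) (nat_lit 5) (nat_lit 218) (nat_lit 5) (nat_lit 280) (nat_lit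 263) (nat_lit 237)) (XT.nd (nat_lit 78) (nat_lit 760) (nat_lit 0) (XT.lf (nat_lit 0) (nat_lit 2986788871) (nat_lit 760) (nat_lit 356993868) (nat_lit 76) (nat_lit 3875457454) (nat_lit 217) (nat_lit 5) (nat_lit 227) (nat_lit 5) (nat_lit 218) (nat_lit 5) (nat_lit 281) (nat_lit 263) (nat_lit 236)) (XT.lf (nat_lit 0) (nat_lit 3445151493) (nat_lit 760) (nat_lit 1624549359) (nat_lit 836) (nat_lit 2220374986) (nat_lit 207) (nat_lit 5) (nat_lit 217) (nat_lit 5) (nat_lit 218) (nat_lit 5) (nat_lit 282) (nat_lit 263) (nat_lit 235)))) (XT.nd (nat_lit 78) (nat_lit 1824) (nat_lit 0) (XT.lf (nat_lit 0) (nat_lit 7156935455) (nat_lit 836) (nat_lit 47613967) (nat_lit 76) (nat_lit 160404412) (nat_lit 207) (nat_lit 5) (nat_lit 218) (nat_lit 5) (nat_lit 208) (nat_lit 5) (nat_lit 283) (nat_lit 263) (nat_lit 234)) (XT.nd (nat_lit 78) (nat_lit 912) (nat_lit 0) (XT.lf (nat_lit 0) (nat_lit 1820018995) (nat_lit 912) (nat_lit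 3587640200) (nat_lit 76) (nat_lit 2034292761) (nat_lit 195) (nat_lit 5) (nat_lit 207) (nat_lit 5) (nat_lit 196) (nat_lit 5) (nat_lit 284) (nat_lit 263) (nat_lit 233)) (XT.lf (nat_lit 0) (nat_lit 305640804) (nat_lit 912) (nat_lit 3541682783) (nat_lit 988) (nat_lit 3675754150) (nat_lit 183) (nat_lit 5) (nat_lit 195) (nat_lit 5) (nat_lit 196) (nat_lit 5) (nat_lit 285) (nat_lit 263) (nat_lit 232))))))) (XT.nd (nat_lit 858) (nat_lit 3192) (nat_lit 0) (XT.nd (nat_lit 390) (nat_lit 2052) (nat_lit 0) (XT.nd (nat_lit 156) (nat_lit 1064) (nat_lit 0) (XT.nd (nat_lit 78) (nat_lit 1064) (nat_lit 0) (XT.lf (nat_lit 0) (nat_lit 4338481445) (nat_lit 912) (nat_lit 1573660698) (nat_lit 988) (nat_lit 1695347426) (nat_lit 183) (nat_lit 5) (nat_lit 195) (nat_lit 5) (nat_lit 196) (nat_lit 5) (nat_lit 286) (nat_lit 263) (nat_lit 231)) (XT.lf (nat_lit 0) (nat_lit 291065265) (nat_lit 1064) (nat_lit 6941798238) (nat_lit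 76) (nat_lit 463015777) (nat_lit 169) (nat_lit 5) (nat_lit 183) (nat_lit 5) (nat_lit 170) (nat_lit 5) (nat_lit 287) (nat_lit 263) (nat_lit 230))) (XT.nd (nat_lit 78) (nat_lit 1064) (nat_lit 0) (XT.lf (nat_lit 0) (nat_lit 2294688041) (nat_lit 1064) (nat_lit 2905792817) (nat_lit 76) (nat_lit 2586325606) (nat_lit 169) (nat_lit 5) (nat_lit 183) (nat_lit 5) (nat_lit 170) (nat_lit 5) (nat_lit 288) (nat_lit 263) (nat_lit 229)) (XT.nd (nat_lit 78) (nat_lit 0) (nat_lit 0) (XT.lf (nat_lit 0) (nat_lit 1224662632) (nat_lit 1064) (nat_lit 3089970143) (nat_lit 1140) (nat_lit 3567278338) (nat_lit 155) (nat_lit 5) (nat_lit 169) (nat_lit 5) (nat_lit 170) (nat_lit 5) (nat_lit 289) (nat_lit 263) (nat_lit 228)) (XT.lf (nat_lit 0) (nat_lit 5488565306) (nat_lit 1064) (nat_lit 881531703) (nat_lit 1140) (nat_lit 1610656341) (nat_lit 155) (nat_lit 5) (nat_lit 169) (nat_lit 5) (nat_lit 170) (nat_lit 5) (nat_lit 290) (nat_lit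 263) (nat_lit 227))))) (XT.nd (nat_lit 234) (nat_lit 608) (nat_lit 0) (XT.nd (nat_lit 78) (nat_lit 532) (nat_lit 0) (XT.lf (nat_lit 0) (nat_lit 374017636) (nat_lit 912) (nat_lit 6318413050) (nat_lit 76) (nat_lit 1390820479) (nat_lit 143) (nat_lit 5) (nat_lit 155) (nat_lit 5) (nat_lit 144) (nat_lit 5) (nat_lit 291) (nat_lit 263) (nat_lit 226)) (XT.nd (nat_lit 78) (nat_lit 532) (nat_lit 0) (XT.lf (nat_lit 0) (nat_lit 2367631428) (nat_lit 912) (nat_lit 2063329883) (nat_lit 76) (nat_lit 3758051902) (nat_lit 143) (nat_lit 5) (nat_lit 155) (nat_lit 5) (nat_lit 144) (nat_lit 5) (nat_lit 292) (nat_lit 263) (nat_lit 225)) (XT.lf (nat_lit 0) (nat_lit 2315067365) (nat_lit 532) (nat_lit 2077394258) (nat_lit 608) (nat_lit 3906461612) (nat_lit 136) (nat_lit 5) (nat_lit 143) (nat_lit 5) (nat_lit 144) (nat_lit 5) (nat_lit 293) (nat_lit 263) (nat_lit 224)))) (XT.nd (nat_lit 78) (nat_lit 608) (nat_lit 0) (XT.lf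 (nat_lit 0) (nat_lit 6452583635) (nat_lit 608) (nat_lit 1598577549) (nat_lit 76) (nat_lit 361846905) (nat_lit 136) (nat_lit 5) (nat_lit 144) (nat_lit 5) (nat_lit 137) (nat_lit 5) (nat_lit 294) (nat_lit 263) (nat_lit 223)) (XT.nd (nat_lit 78) (nat_lit 0) (nat_lit 0) (XT.lf (nat_lit 0) (nat_lit 43145867) (nat_lit 608) (nat_lit 5625833534) (nat_lit 76) (nat_lit 2861630481) (nat_lit 128) (nat_lit 5) (nat_lit 136) (nat_lit 5) (nat_lit 129) (nat_lit 5) (nat_lit 295) (nat_lit 263) (nat_lit 222)) (XT.lf (nat_lit 0) (nat_lit 2035711977) (nat_lit 608) (nat_lit 1144572987) (nat_lit 76) (nat_lit 5471927988) (nat_lit 128) (nat_lit 5) (nat_lit 136) (nat_lit 5) (nat_lit 129) (nat_lit 5) (nat_lit 296) (nat_lit 263) (nat_lit 221)))))) (XT.nd (nat_lit 468) (nat_lit 1216) (nat_lit 0) (XT.nd (nat_lit 234) (nat_lit 988) (nat_lit 0) (XT.nd (nat_lit 78) (nat_lit 532) (nat_lit 0) (XT.lf (nat_lit 0) (nat_lit 3490947598)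 (nat_lit 456) (nat_lit 584051920) (nat_lit 532) (nat_lit 4702957496) (nat_lit 122) (nat_lit 5) (nat_lit 128) (nat_lit 5) (nat_lit 129) (nat_lit 5) (nat_lit 297) (nat_lit 263) (nat_lit 220)) (XT.nd (nat_lit 78) (nat_lit 532) (nat_lit 0) (XT.lf (nat_lit 0) (nat_lit 6161494039) (nat_lit 532) (nat_lit 687610341) (nat_lit 76) (nat_lit 2058886449) (nat_lit 122) (nat_lit 5) (nat_lit 129) (nat_lit 5) (nat_lit 123) (nat_lit 5) (nat_lit 298) (nat_lit 263) (nat_lit 219)) (XT.lf (nat_lit 0) (nat_lit 4075679731) (nat_lit 532) (nat_lit 4235461334) (nat_lit 608) (nat_lit 730863284) (nat_lit 115) (nat_lit 5) (nat_lit 122) (nat_lit 5) (nat_lit 123) (nat_lit 5) (nat_lit 299) (nat_lit 263) (nat_lit 218)))) (XT.nd (nat_lit 78) (nat_lit 912) (nat_lit 0) (XT.lf (nat_lit 0) (nat_lit 1281913845) (nat_lit 608) (nat_lit 245203959) (nat_lit 76) (nat_lit 7653734721) (nat_lit 114) (nat_lit 5) (nat_lit 122) (nat_lit 5) (nat_lit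 115) (nat_lit 5) (nat_lit 300) (nat_lit 263) (nat_lit 217)) (XT.nd (nat_lit 78) (nat_lit 456) (nat_lit 0) (XT.lf (nat_lit 0) (nat_lit 3354931260) (nat_lit 532) (nat_lit 4682084520) (nat_lit 76) (nat_lit 1286284205) (nat_lit 108) (nat_lit 5) (nat_lit 115) (nat_lit 5) (nat_lit 109) (nat_lit 5) (nat_lit 301) (nat_lit 263) (nat_lit 216)) (XT.lf (nat_lit 0) (nat_lit 149304538) (nat_lit 456) (nat_lit 5317844407) (nat_lit 532) (nat_lit 4003646411) (nat_lit 102) (nat_lit 5) (nat_lit 108) (nat_lit 5) (nat_lit 109) (nat_lit 5) (nat_lit 302) (nat_lit 263) (nat_lit 215))))) (XT.nd (nat_lit 234) (nat_lit 760) (nat_lit 0) (XT.nd (nat_lit 78) (nat_lit 456) (nat_lit 0) (XT.lf (nat_lit 0) (nat_lit 5174309998) (nat_lit 456) (nat_lit 2474426936) (nat_lit 532) (nat_lit 1973880850) (nat_lit 102) (nat_lit 5) (nat_lit 108) (nat_lit 5) (nat_lit 109) (nat_lit 5) (nat_lit 303) (nat_lit 263) (nat_lit 214)) (XT.nd (nat_lit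 78) (nat_lit 0) (nat_lit 0) (XT.lf (nat_lit 0) (nat_lit 83447370) (nat_lit 456) (nat_lit 9250920618) (nat_lit 76) (nat_lit 445602353) (nat_lit 96) (nat_lit 5) (nat_lit 102) (nat_lit 5) (nat_lit 97) (nat_lit 5) (nat_lit 304) (nat_lit 263) (nat_lit 213)) (XT.lf (nat_lit 0) (nat_lit 2192809224) (nat_lit 456) (nat_lit 4285827583) (nat_lit 76) (nat_lit 3461996086) (nat_lit 96) (nat_lit 5) (nat_lit 102) (nat_lit 5) (nat_lit 97) (nat_lit 5) (nat_lit 305) (nat_lit 263) (nat_lit 212)))) (XT.nd (nat_lit 78) (nat_lit 380) (nat_lit 0) (XT.lf (nat_lit 0) (nat_lit 797609469) (nat_lit 380) (nat_lit 3536794651) (nat_lit 456) (nat_lit 5772715769) (nat_lit 91) (nat_lit 5) (nat_lit 96) (nat_lit 5) (nat_lit 97) (nat_lit 5) (nat_lit 306) (nat_lit 263) (nat_lit 211)) (XT.nd (nat_lit 78) (nat_lit 380) (nat_lit 0) (XT.lf (nat_lit 0) (nat_lit 6075684567) (nat_lit 380) (nat_lit 469813955) (nat_lit 456) (nat_lit 3733016423)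 (nat_lit 91) (nat_lit 5) (nat_lit 96) (nat_lit 5) (nat_lit 97) (nat_lit 5) (nat_lit 307) (nat_lit 263) (nat_lit 210)) (XT.lf (nat_lit 0) (nat_lit 1005324174) (nat_lit 380) (nat_lit 7816124360) (nat_lit 456) (nat_lit 1633716570) (nat_lit 86) (nat_lit 5) (nat_lit 91) (nat_lit 5) (nat_lit 92) (nat_lit 5) (nat_lit 308) (nat_lit 263) (nat_lit 209))))))))
noncomputable def xc119 : XT := (XT.nd (nat_lit 1794) (nat_lit 1748) (nat_lit 0) (XT.nd (nat_lit 858) (nat_lit 1444) (nat_lit 0) (XT.nd (nat_lit 390) (nat_lit 988) (nat_lit 0) (XT.nd (nat_lit 156) (nat_lit 304) (nat_lit 0) (XT.nd (nat_lit 78) (nat_lit 380) (nat_lit 0) (XT.lf (nat_lit 0) (nat_lit 528988173) (nat_lit 456) (nat_lit 4235961158) (nat_lit 76) (nat_lit 5871755785) (nat_lit 85) (nat_lit 5) (nat_lit 91) (nat_lit 5) (nat_lit 86) (nat_lit 5) (nat_lit 309) (nat_lit 263) (nat_lit 208)) (XT.lf (nat_lit 0) (nat_lit 1095018437) (nat_lit 380) (nat_lit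 1603544434) (nat_lit 456) (nat_lit 8125461532) (nat_lit 80) (nat_lit 5) (nat_lit 85) (nat_lit 5) (nat_lit 86) (nat_lit 5) (nat_lit 310) (nat_lit 263) (nat_lit 207))) (XT.nd (nat_lit 78) (nat_lit 304) (nat_lit 0) (XT.lf (nat_lit 0) (nat_lit 4957138716) (nat_lit 456) (nat_lit 4404329802) (nat_lit 76) (nat_lit 1654838580) (nat_lit 80) (nat_lit 5) (nat_lit 86) (nat_lit 5) (nat_lit 81) (nat_lit 5) (nat_lit 311) (nat_lit 263) (nat_lit 206)) (XT.nd (nat_lit 78) (nat_lit 0) (nat_lit 0) (XT.lf (nat_lit 0) (nat_lit 1040732041) (nat_lit 304) (nat_lit 6234473733) (nat_lit 380) (nat_lit 3939459945) (nat_lit 76) (nat_lit 5) (nat_lit 80) (nat_lit 5) (nat_lit 81) (nat_lit 5) (nat_lit 312) (nat_lit 263) (nat_lit 205)) (XT.lf (nat_lit 0) (nat_lit 6696073105) (nat_lit 304) (nat_lit 2977647738) (nat_lit 380) (nat_lit 1744984806) (nat_lit 76) (nat_lit 5) (nat_lit 80) (nat_lit 5) (nat_lit 81) (nat_lit 5) (nat_lit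 313) (nat_lit 263) (nat_lit 204))))) (XT.nd (nat_lit 234) (nat_lit 304) (nat_lit 0) (XT.nd (nat_lit 78) (nat_lit 304) (nat_lit 0) (XT.lf (nat_lit 0) (nat_lit 484237959) (nat_lit 380) (nat_lit 10771917200) (nat_lit 76) (nat_lit 373248349) (nat_lit 71) (nat_lit 5) (nat_lit 76) (nat_lit 5) (nat_lit 72) (nat_lit 5) (nat_lit 314) (nat_lit 263) (nat_lit 203)) (XT.nd (nat_lit 78) (nat_lit 304) (nat_lit 0) (XT.lf (nat_lit 0) (nat_lit 2790396106) (nat_lit 380) (nat_lit 5233719119) (nat_lit 76) (nat_lit 3820487663) (nat_lit 71) (nat_lit 5) (nat_lit 76) (nat_lit 5) (nat_lit 72) (nat_lit 5) (nat_lit 315) (nat_lit 263) (nat_lit 202)) (XT.lf (nat_lit 0) (nat_lit 437101265) (nat_lit 304) (nat_lit 4701274371) (nat_lit 380) (nat_lit 6928754807) (nat_lit 67) (nat_lit 5) (nat_lit 71) (nat_lit 5) (nat_lit 72) (nat_lit 5) (nat_lit 316) (nat_lit 263) (nat_lit 201)))) (XT.nd (nat_lit 78) (nat_lit 304) (nat_lit 0) (XT.lf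 (nat_lit 0) (nat_lit 6343691598) (nat_lit 304) (nat_lit 1234907304) (nat_lit 380) (nat_lit 4717130592) (nat_lit 67) (nat_lit 5) (nat_lit 71) (nat_lit 5) (nat_lit 72) (nat_lit 5) (nat_lit 317) (nat_lit 263) (nat_lit 200)) (XT.nd (nat_lit 78) (nat_lit 304) (nat_lit 0) (XT.lf (nat_lit 0) (nat_lit 10084238069) (nat_lit 380) (nat_lit 167438313) (nat_lit 76) (nat_lit 2279792205) (nat_lit 67) (nat_lit 5) (nat_lit 72) (nat_lit 5) (nat_lit 68) (nat_lit 5) (nat_lit 318) (nat_lit 263) (nat_lit 199)) (XT.lf (nat_lit 0) (nat_lit 5852598447) (nat_lit 304) (nat_lit 6851573740) (nat_lit 380) (nat_lit 68980834) (nat_lit 63) (nat_lit 5) (nat_lit 67) (nat_lit 5) (nat_lit 68) (nat_lit 5) (nat_lit 319) (nat_lit 263) (nat_lit 198)))))) (XT.nd (nat_lit 468) (nat_lit 532) (nat_lit 0) (XT.nd (nat_lit 234) (nat_lit 608) (nat_lit 0) (XT.nd (nat_lit 78) (nat_lit 228) (nat_lit 0) (XT.lf (nat_lit 0) (nat_lit 2306652660) (nat_lit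 380) (nat_lit 1028581376) (nat_lit 76) (nat_lit 9687036958) (nat_lit 62) (nat_lit 5) (nat_lit 67) (nat_lit 5) (nat_lit 63) (nat_lit 5) (nat_lit 320) (nat_lit 263) (nat_lit 197)) (XT.nd (nat_lit 78) (nat_lit 0) (nat_lit 0) (XT.lf (nat_lit 0) (nat_lit 4775969237) (nat_lit 304) (nat_lit 8181562302) (nat_lit 76) (nat_lit 320639420) (nat_lit 59) (nat_lit 5) (nat_lit 63) (nat_lit 5) (nat_lit 60) (nat_lit 5) (nat_lit 321) (nat_lit 263) (nat_lit 196)) (XT.lf (nat_lit 0) (nat_lit 7334860519) (nat_lit 304) (nat_lit 2187451048) (nat_lit 76) (nat_lit 4019013205) (nat_lit 59) (nat_lit 5) (nat_lit 63) (nat_lit 5) (nat_lit 60) (nat_lit 5) (nat_lit 322) (nat_lit 263) (nat_lit 195)))) (XT.nd (nat_lit 78) (nat_lit 304) (nat_lit 0) (XT.lf (nat_lit 0) (nat_lit 4026680851) (nat_lit 304) (nat_lit 5955344215) (nat_lit 380) (nat_lit 3830043428) (nat_lit 55) (nat_lit 5) (nat_lit 59) (nat_lit 5) (nat_lit 60) (nat_lit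 5) (nat_lit 323) (nat_lit 263) (nat_lit 194)) (XT.nd (nat_lit 78) (nat_lit 304) (nat_lit 0) (XT.lf (nat_lit 0) (nat_lit 10434075823) (nat_lit 304) (nat_lit 2269844252) (nat_lit 380) (nat_lit 1387194300) (nat_lit 55) (nat_lit 5) (nat_lit 59) (nat_lit 5) (nat_lit 60) (nat_lit 5) (nat_lit 324) (nat_lit 263) (nat_lit 193)) (XT.lf (nat_lit 0) (nat_lit 1121103703) (nat_lit 304) (nat_lit 11734453613) (nat_lit 76) (nat_lit 1522260015) (nat_lit 51) (nat_lit 5) (nat_lit 55) (nat_lit 5) (nat_lit 52) (nat_lit 5) (nat_lit 325) (nat_lit 263) (nat_lit 192))))) (XT.nd (nat_lit 234) (nat_lit 304) (nat_lit 0) (XT.nd (nat_lit 78) (nat_lit 228) (nat_lit 0) (XT.lf (nat_lit 0) (nat_lit 3710550684) (nat_lit 304) (nat_lit 5538635981) (nat_lit 76) (nat_lit 5422545212) (nat_lit 51) (nat_lit 5) (nat_lit 55) (nat_lit 5) (nat_lit 52) (nat_lit 5) (nat_lit 326) (nat_lit 263) (nat_lit 191)) (XT.nd (nat_lit 78) (nat_lit 0) (nat_lit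 0) (XT.lf (nat_lit 0) (nat_lit 822412864) (nat_lit 228) (nat_lit 5537943661) (nat_lit 304) (nat_lit 8614661998) (nat_lit 48) (nat_lit 5) (nat_lit 51) (nat_lit 5) (nat_lit 52) (nat_lit 5) (nat_lit 327) (nat_lit 263) (nat_lit 190)) (XT.lf (nat_lit 0) (nat_lit 7451497951) (nat_lit 228) (nat_lit 1669243483) (nat_lit 304) (nat_lit 6165763700) (nat_lit 48) (nat_lit 5) (nat_lit 51) (nat_lit 5) (nat_lit 52) (nat_lit 5) (nat_lit 328) (nat_lit 263) (nat_lit 189)))) (XT.nd (nat_lit 78) (nat_lit 304) (nat_lit 0) (XT.lf (nat_lit 0) (nat_lit 11961968008) (nat_lit 304) (nat_lit 1386061888) (nat_lit 76) (nat_lit 2259398464) (nat_lit 48) (nat_lit 5) (nat_lit 52) (nat_lit 5) (nat_lit 49) (nat_lit 5) (nat_lit 329) (nat_lit 263) (nat_lit 188)) (XT.nd (nat_lit 78) (nat_lit 76) (nat_lit 0) (XT.lf (nat_lit 0) (nat_lit 5308536606) (nat_lit 228) (nat_lit 9623928455) (nat_lit 304) (nat_lit 1004225177) (nat_lit 45) (nat_lit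 5) (nat_lit 48) (nat_lit 5) (nat_lit 49) (nat_lit 5) (nat_lit 330) (nat_lit 263) (nat_lit 187)) (XT.lf (nat_lit 0) (nat_lit 1673462918) (nat_lit 304) (nat_lit 4094691457) (nat_lit 76) (nat_lit 10507489618) (nat_lit 44) (nat_lit 5) (nat_lit 48) (nat_lit 5) (nat_lit 45) (nat_lit 5) (nat_lit 331) (nat_lit 263) (nat_lit 186))))))) (XT.nd (nat_lit 936) (nat_lit 760) (nat_lit 0) (XT.nd (nat_lit 468) (nat_lit 304) (nat_lit 0) (XT.nd (nat_lit 234) (nat_lit 456) (nat_lit 0) (XT.nd (nat_lit 78) (nat_lit 0) (nat_lit 0) (XT.lf (nat_lit 0) (nat_lit 2642383352) (nat_lit 228) (nat_lit 1771567919) (nat_lit 304) (nat_lit 12210466449) (nat_lit 41) (nat_lit 5) (nat_lit 44) (nat_lit 5) (nat_lit 45) (nat_lit 5) (nat_lit 332) (nat_lit 263) (nat_lit 185)) (XT.nd (nat_lit 78) (nat_lit 0) (nat_lit 0) (XT.lf (nat_lit 0) (nat_lit 7278436596) (nat_lit 304) (nat_lit 7374126492) (nat_lit 76) (nat_lit 2329866501) (nat_lit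 41) (nat_lit 5) (nat_lit 45) (nat_lit 5) (nat_lit 42) (nat_lit 5) (nat_lit 333) (nat_lit 263) (nat_lit 184)) (XT.lf (nat_lit 0) (nat_lit 10224536376) (nat_lit 304) (nat_lit 618793200) (nat_lit 76) (nat_lit 6508009415) (nat_lit 41) (nat_lit 5) (nat_lit 45) (nat_lit 5) (nat_lit 42) (nat_lit 5) (nat_lit 334) (nat_lit 263) (nat_lit 183)))) (XT.nd (nat_lit 78) (nat_lit 304) (nat_lit 0) (XT.lf (nat_lit 0) (nat_lit 6432417247) (nat_lit 152) (nat_lit 6867210560) (nat_lit 228) (nat_lit 4430496376) (nat_lit 39) (nat_lit 5) (nat_lit 41) (nat_lit 5) (nat_lit 42) (nat_lit 5) (nat_lit 335) (nat_lit 263) (nat_lit 182)) (XT.nd (nat_lit 78) (nat_lit 304) (nat_lit 0) (XT.lf (nat_lit 0) (nat_lit 13675862884) (nat_lit 152) (nat_lit 2776444723) (nat_lit 228) (nat_lit 1668431246) (nat_lit 39) (nat_lit 5) (nat_lit 41) (nat_lit 5) (nat_lit 42) (nat_lit 5) (nat_lit 336) (nat_lit 263) (nat_lit 181)) (XT.lf (nat_lit 0)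 (nat_lit 1172281834) (nat_lit 304) (nat_lit 15914780568) (nat_lit 76) (nat_lit 1435132472) (nat_lit 35) (nat_lit 5) (nat_lit 39) (nat_lit 5) (nat_lit 36) (nat_lit 5) (nat_lit 337) (nat_lit 263) (nat_lit 180))))) (XT.nd (nat_lit 234) (nat_lit 152) (nat_lit 0) (XT.nd (nat_lit 78) (nat_lit 152) (nat_lit 0) (XT.lf (nat_lit 0) (nat_lit 4117164363) (nat_lit 304) (nat_lit 9048116252) (nat_lit 76) (nat_lit 5768367715) (nat_lit 35) (nat_lit 5) (nat_lit 39) (nat_lit 5) (nat_lit 36) (nat_lit 5) (nat_lit 338) (nat_lit 263) (nat_lit 179)) (XT.nd (nat_lit 78) (nat_lit 152) (nat_lit 0) (XT.lf (nat_lit 0) (nat_lit 7130649083) (nat_lit 304) (nat_lit 2006232619) (nat_lit 76) (nat_lit 10221179109) (nat_lit 35) (nat_lit 5) (nat_lit 39) (nat_lit 5) (nat_lit 36) (nat_lit 5) (nat_lit 339) (nat_lit 263) (nat_lit 178)) (XT.lf (nat_lit 0) (nat_lit 5320852430) (nat_lit 152) (nat_lit 4945663994) (nat_lit 228) (nat_lit 9527752318)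 (nat_lit 33) (nat_lit 5) (nat_lit 35) (nat_lit 5) (nat_lit 36) (nat_lit 5) (nat_lit 340) (nat_lit 263) (nat_lit 177)))) (XT.nd (nat_lit 78) (nat_lit 152) (nat_lit 0) (XT.lf (nat_lit 0) (nat_lit 12879284726) (nat_lit 152) (nat_lit 618538746) (nat_lit 228) (nat_lit 6745720294) (nat_lit 33) (nat_lit 5) (nat_lit 35) (nat_lit 5) (nat_lit 36) (nat_lit 5) (nat_lit 341) (nat_lit 263) (nat_lit 176)) (XT.nd (nat_lit 78) (nat_lit 152) (nat_lit 0) (XT.lf (nat_lit 0) (nat_lit 16844521983) (nat_lit 228) (nat_lit 107924995) (nat_lit 76) (nat_lit 3753317628) (nat_lit 33) (nat_lit 5) (nat_lit 36) (nat_lit 5) (nat_lit 34) (nat_lit 5) (nat_lit 342) (nat_lit 263) (nat_lit 175)) (XT.lf (nat_lit 0) (nat_lit 7477538249) (nat_lit 152) (nat_lit 12874178445) (nat_lit 228) (nat_lit 828353037) (nat_lit 31) (nat_lit 5) (nat_lit 33) (nat_lit 5) (nat_lit 34) (nat_lit 5) (nat_lit 343) (nat_lit 263) (nat_lit 174)))))) (XT.nd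 (nat_lit 468) (nat_lit 380) (nat_lit 0) (XT.nd (nat_lit 234) (nat_lit 152) (nat_lit 0) (XT.nd (nat_lit 78) (nat_lit 152) (nat_lit 0) (XT.lf (nat_lit 0) (nat_lit 2233979748) (nat_lit 228) (nat_lit 6426317358) (nat_lit 76) (nat_lit 13008166748) (nat_lit 30) (nat_lit 5) (nat_lit 33) (nat_lit 5) (nat_lit 31) (nat_lit 5) (nat_lit 344) (nat_lit 263) (nat_lit 173)) (XT.nd (nat_lit 78) (nat_lit 0) (nat_lit 0) (XT.lf (nat_lit 0) (nat_lit 1052909251) (nat_lit 152) (nat_lit 4311415123) (nat_lit 228) (nat_lit 16807174431) (nat_lit 28) (nat_lit 5) (nat_lit 30) (nat_lit 5) (nat_lit 31) (nat_lit 5) (nat_lit 345) (nat_lit 263) (nat_lit 172)) (XT.lf (nat_lit 0) (nat_lit 8638542318) (nat_lit 228) (nat_lit 13829468894) (nat_lit 76) (nat_lit 220132931) (nat_lit 28) (nat_lit 5) (nat_lit 31) (nat_lit 5) (nat_lit 29) (nat_lit 5) (nat_lit 346) (nat_lit 263) (nat_lit 171)))) (XT.nd (nat_lit 78) (nat_lit 152) (nat_lit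 0) (XT.lf (nat_lit 0) (nat_lit 12036987659) (nat_lit 228) (nat_lit 6391332734) (nat_lit 76) (nat_lit 4791206120) (nat_lit 28) (nat_lit 5) (nat_lit 31) (nat_lit 5) (nat_lit 29) (nat_lit 5) (nat_lit 347) (nat_lit 263) (nat_lit 170)) (XT.nd (nat_lit 78) (nat_lit 0) (nat_lit 0) (XT.lf (nat_lit 0) (nat_lit 1268515535) (nat_lit 152) (nat_lit 14264864166) (nat_lit 228) (nat_lit 8233608035) (nat_lit 26) (nat_lit 5) (nat_lit 28) (nat_lit 5) (nat_lit 29) (nat_lit 5) (nat_lit 348) (nat_lit 263) (nat_lit 169)) (XT.lf (nat_lit 0) (nat_lit 9263246745) (nat_lit 152) (nat_lit 9919978897) (nat_lit 228) (nat_lit 5146206972) (nat_lit 26) (nat_lit 5) (nat_lit 28) (nat_lit 5) (nat_lit 29) (nat_lit 5) (nat_lit 349) (nat_lit 263) (nat_lit 168))))) (XT.nd (nat_lit 234) (nat_lit 152) (nat_lit 0) (XT.nd (nat_lit 78) (nat_lit 228) (nat_lit 0) (XT.lf (nat_lit 0) (nat_lit 17472646527) (nat_lit 152) (nat_lit 5454408016) (nat_lit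 228) (nat_lit 1982177864) (nat_lit 26) (nat_lit 5) (nat_lit 28) (nat_lit 5) (nat_lit 29) (nat_lit 5) (nat_lit 350) (nat_lit 263) (nat_lit 167)) (XT.nd (nat_lit 78) (nat_lit 0) (nat_lit 0) (XT.lf (nat_lit 0) (nat_lit 392530238) (nat_lit 152) (nat_lit 847875563) (nat_lit 228) (nat_lit 24266011021) (nat_lit 23) (nat_lit 5) (nat_lit 25) (nat_lit 5) (nat_lit 26) (nat_lit 5) (nat_lit 351) (nat_lit 263) (nat_lit 166)) (XT.lf (nat_lit 0) (nat_lit 4618015903) (nat_lit 228) (nat_lit 17593019076) (nat_lit 76) (nat_lit 3906962185) (nat_lit 23) (nat_lit 5) (nat_lit 26) (nat_lit 5) (nat_lit 24) (nat_lit 5) (nat_lit 352) (nat_lit 263) (nat_lit 165)))) (XT.nd (nat_lit 78) (nat_lit 152) (nat_lit 0) (XT.lf (nat_lit 0) (nat_lit 8090680526) (nat_lit 228) (nat_lit 9879085149) (nat_lit 76) (nat_lit 8778361845) (nat_lit 23) (nat_lit 5) (nat_lit 26) (nat_lit 5) (nat_lit 24) (nat_lit 5) (nat_lit 353) (nat_lit 263) (nat_lit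 164)) (XT.nd (nat_lit 78) (nat_lit 152) (nat_lit 0) (XT.lf (nat_lit 0) (nat_lit 11653283739) (nat_lit 228) (nat_lit 1957194173) (nat_lit 76) (nat_lit 13787125085) (nat_lit 23) (nat_lit 5) (nat_lit 26) (nat_lit 5) (nat_lit 24) (nat_lit 5) (nat_lit 354) (nat_lit 263) (nat_lit 163)) (XT.lf (nat_lit 0) (nat_lit 6302561567) (nat_lit 152) (nat_lit 9066961007) (nat_lit 228) (nat_lit 12695651003) (nat_lit 21) (nat_lit 5) (nat_lit 23) (nat_lit 5) (nat_lit 24) (nat_lit 5) (nat_lit 355) (nat_lit 263) (nat_lit 162))))))))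
noncomputable def xc120 : XT := (XT.nd (nat_lit 1794) (nat_lit 380) (nat_lit 0) (XT.nd (nat_lit 858) (nat_lit 304) (nat_lit 0) (XT.nd (nat_lit 390) (nat_lit 228) (nat_lit 0) (XT.nd (nat_lit 156) (nat_lit 152) (nat_lit 0) (XT.nd (nat_lit 78) (nat_lit 0) (nat_lit 0) (XT.lf (nat_lit 0) (nat_lit 14827676212) (nat_lit 152) (nat_lit 4375695543) (nat_lit 228) (nat_lit 9549228993) (nat_lit 21) (nat_lit 5) (nat_lit 23) (nat_lit 5) (nat_lit 24) (nat_lit 5) (nat_lit 356) (nat_lit 263) (nat_lit 161)) (XT.lf (nat_lit 0) (nat_lit 23143296191) (nat_lit 228) (nat_lit 5878717053) (nat_lit 76) (nat_lit 438918480) (nat_lit 21) (nat_lit 5) (nat_lit 24) (nat_lit 5) (nat_lit 22) (nat_lit 4) (nat_lit 357) (nat_lit 263) (nat_lit 160))) (XT.nd (nat_lit 78) (nat_lit 76) (nat_lit 0) (XT.lf (nat_lit 0) (nat_lit 2390625657) (nat_lit 76) (nat_lit 24864158198) (nat_lit 152) (nat_lit 2934140224) (nat_lit 20) (nat_lit 5) (nat_lit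 21) (nat_lit 5) (nat_lit 22) (nat_lit 4) (nat_lit 358) (nat_lit 263) (nat_lit 159)) (XT.nd (nat_lit 78) (nat_lit 0) (nat_lit 0) (XT.lf (nat_lit 0) (nat_lit 587156823) (nat_lit 152) (nat_lit 19935935669) (nat_lit 76) (nat_lit 10414105173) (nat_lit 19) (nat_lit 5) (nat_lit 21) (nat_lit 5) (nat_lit 20) (nat_lit 5) (nat_lit 359) (nat_lit 263) (nat_lit 158)) (XT.lf (nat_lit 0) (nat_lit 4142590214) (nat_lit 152) (nat_lit 11887756804) (nat_lit 76) (nat_lit 15677088150) (nat_lit 19) (nat_lit 5) (nat_lit 21) (nat_lit 5) (nat_lit 20) (nat_lit 5) (nat_lit 360) (nat_lit 263) (nat_lit 157))))) (XT.nd (nat_lit 234) (nat_lit 76) (nat_lit 0) (XT.nd (nat_lit 78) (nat_lit 152) (nat_lit 0) (XT.lf (nat_lit 0) (nat_lit 7792522283) (nat_lit 152) (nat_lit 3618524687) (nat_lit 76) (nat_lit 21090108786) (nat_lit 19) (nat_lit 5) (nat_lit 21) (nat_lit 5) (nat_lit 20) (nat_lit 5) (nat_lit 361) (nat_lit 263) (nat_lit 156))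 (XT.nd (nat_lit 78) (nat_lit 0) (nat_lit 0) (XT.lf (nat_lit 0) (nat_lit 4976087617) (nat_lit 152) (nat_lit 6611887870) (nat_lit 228) (nat_lit 21729642485) (nat_lit 17) (nat_lit 5) (nat_lit 19) (nat_lit 5) (nat_lit 20) (nat_lit 5) (nat_lit 362) (nat_lit 263) (nat_lit 155)) (XT.lf (nat_lit 0) (nat_lit 13883110429) (nat_lit 152) (nat_lit 1639067373) (nat_lit 228) (nat_lit 18635660082) (nat_lit 17) (nat_lit 5) (nat_lit 19) (nat_lit 5) (nat_lit 20) (nat_lit 5) (nat_lit 363) (nat_lit 263) (nat_lit 154)))) (XT.nd (nat_lit 78) (nat_lit 76) (nat_lit 0) (XT.lf (nat_lit 0) (nat_lit 19596497087) (nat_lit 228) (nat_lit 12018709029) (nat_lit 76) (nat_lit 3407405644) (nat_lit 17) (nat_lit 5) (nat_lit 20) (nat_lit 5) (nat_lit 18) (nat_lit 4) (nat_lit 364) (nat_lit 263) (nat_lit 153)) (XT.nd (nat_lit 78) (nat_lit 76) (nat_lit 0) (XT.lf (nat_lit 0) (nat_lit 23798216837) (nat_lit 228) (nat_lit 3549984488) (nat_lit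 76) (nat_lit 8564982201) (nat_lit 17) (nat_lit 5) (nat_lit 20) (nat_lit 5) (nat_lit 18) (nat_lit 4) (nat_lit 365) (nat_lit 263) (nat_lit 152)) (XT.lf (nat_lit 0) (nat_lit 5257188422) (nat_lit 76) (nat_lit 22908599627) (nat_lit 152) (nat_lit 8663499911) (nat_lit 16) (nat_lit 5) (nat_lit 17) (nat_lit 5) (nat_lit 18) (nat_lit 4) (nat_lit 366) (nat_lit 263) (nat_lit 151)))))) (XT.nd (nat_lit 468) (nat_lit 76) (nat_lit 0) (XT.nd (nat_lit 234) (nat_lit 152) (nat_lit 0) (XT.nd (nat_lit 78) (nat_lit 76) (nat_lit 0) (XT.lf (nat_lit 0) (nat_lit 14383326107) (nat_lit 76) (nat_lit 18306312183) (nat_lit 152) (nat_lit 5082488920) (nat_lit 16) (nat_lit 5) (nat_lit 17) (nat_lit 5) (nat_lit 18) (nat_lit 4) (nat_lit 367) (nat_lit 263) (nat_lit 150)) (XT.nd (nat_lit 78) (nat_lit 76) (nat_lit 0) (XT.lf (nat_lit 0) (nat_lit 23765751207) (nat_lit 76) (nat_lit 13573165458) (nat_lit 152) (nat_lit 1404652557) (nat_lit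 16) (nat_lit 5) (nat_lit 17) (nat_lit 5) (nat_lit 18) (nat_lit 4) (nat_lit 368) (nat_lit 263) (nat_lit 149)) (XT.lf (nat_lit 0) (nat_lit 2326912692) (nat_lit 152) (nat_lit 6354613745) (nat_lit 76) (nat_lit 31062252012) (nat_lit 15) (nat_lit 5) (nat_lit 17) (nat_lit 5) (nat_lit 16) (nat_lit 5) (nat_lit 369) (nat_lit 263) (nat_lit 148)))) (XT.nd (nat_lit 78) (nat_lit 0) (nat_lit 0) (XT.lf (nat_lit 0) (nat_lit 2546372501) (nat_lit 152) (nat_lit 3610496433) (nat_lit 228) (nat_lit 34616275716) (nat_lit 13) (nat_lit 5) (nat_lit 15) (nat_lit 5) (nat_lit 16) (nat_lit 5) (nat_lit 370) (nat_lit 263) (nat_lit 147)) (XT.nd (nat_lit 78) (nat_lit 0) (nat_lit 0) (XT.lf (nat_lit 0) (nat_lit 10172289767) (nat_lit 228) (nat_lit 30019716536) (nat_lit 76) (nat_lit 1639276524) (nat_lit 13) (nat_lit 5) (nat_lit 16) (nat_lit 5) (nat_lit 14) (nat_lit 4) (nat_lit 371) (nat_lit 263) (nat_lit 146)) (XT.lf (nat_lit 0) (nat_lit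 14334463925) (nat_lit 228) (nat_lit 21618472671) (nat_lit 76) (nat_lit 6967447568) (nat_lit 13) (nat_lit 5) (nat_lit 16) (nat_lit 5) (nat_lit 14) (nat_lit 4) (nat_lit 372) (nat_lit 263) (nat_lit 145))))) (XT.nd (nat_lit 234) (nat_lit 0) (nat_lit 0) (XT.nd (nat_lit 78) (nat_lit 76) (nat_lit 0) (XT.lf (nat_lit 0) (nat_lit 18612321961) (nat_lit 228) (nat_lit 12980993360) (nat_lit 76) (nat_lit 12449126171) (nat_lit 13) (nat_lit 5) (nat_lit 16) (nat_lit 5) (nat_lit 14) (nat_lit 4) (nat_lit 373) (nat_lit 263) (nat_lit 144)) (XT.nd (nat_lit 78) (nat_lit 76) (nat_lit 0) (XT.lf (nat_lit 0) (nat_lit 23009601807) (nat_lit 228) (nat_lit 4099731293) (nat_lit 76) (nat_lit 18089102148) (nat_lit 13) (nat_lit 5) (nat_lit 16) (nat_lit 5) (nat_lit 14) (nat_lit 4) (nat_lit 374) (nat_lit 263) (nat_lit 143)) (XT.lf (nat_lit 0) (nat_lit 5133241896) (nat_lit 76) (nat_lit 22446247713) (nat_lit 152) (nat_lit 18808405600)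 (nat_lit 12) (nat_lit 5) (nat_lit 13) (nat_lit 5) (nat_lit 14) (nat_lit 4) (nat_lit 375) (nat_lit 263) (nat_lit 142)))) (XT.nd (nat_lit 78) (nat_lit 0) (nat_lit 0) (XT.lf (nat_lit 0) (nat_lit 14712496002) (nat_lit 76) (nat_lit 17606833283) (nat_lit 152) (nat_lit 15292730900) (nat_lit 12) (nat_lit 5) (nat_lit 13) (nat_lit 5) (nat_lit 14) (nat_lit 4) (nat_lit 376) (nat_lit 263) (nat_lit 141)) (XT.nd (nat_lit 78) (nat_lit 0) (nat_lit 0) (XT.lf (nat_lit 0) (nat_lit 24564808554) (nat_lit 76) (nat_lit 12628260443) (nat_lit 152) (nat_lit 11680136639) (nat_lit 12) (nat_lit 5) (nat_lit 13) (nat_lit 5) (nat_lit 14) (nat_lit 4) (nat_lit 377) (nat_lit 263) (nat_lit 140)) (XT.lf (nat_lit 0) (nat_lit 34698788371) (nat_lit 76) (nat_lit 7506178984) (nat_lit 152) (nat_lit 7967466182) (nat_lit 12) (nat_lit 5) (nat_lit 13) (nat_lit 5) (nat_lit 14) (nat_lit 4) (nat_lit 378) (nat_lit 263) (nat_lit 139))))))) (XT.nd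 (nat_lit 858) (nat_lit 152) (nat_lit 0) (XT.nd (nat_lit 390) (nat_lit 76) (nat_lit 0) (XT.nd (nat_lit 156) (nat_lit 76) (nat_lit 0) (XT.nd (nat_lit 78) (nat_lit 76) (nat_lit 0) (XT.lf (nat_lit 0) (nat_lit 45123290385) (nat_lit 76) (nat_lit 2236113300) (nat_lit 152) (nat_lit 4151475447) (nat_lit 12) (nat_lit 5) (nat_lit 13) (nat_lit 5) (nat_lit 14) (nat_lit 4) (nat_lit 379) (nat_lit 263) (nat_lit 138)) (XT.lf (nat_lit 0) (nat_lit 2985335098) (nat_lit 76) (nat_lit 49734874621) (nat_lit 76) (nat_lit 167722385) (nat_lit 11) (nat_lit 4) (nat_lit 12) (nat_lit 5) (nat_lit 12) (nat_lit 4) (nat_lit 380) (nat_lit 263) (nat_lit 137))) (XT.nd (nat_lit 78) (nat_lit 0) (nat_lit 0) (XT.lf (nat_lit 0) (nat_lit 3938398554) (nat_lit 152) (nat_lit 41607897115) (nat_lit 76) (nat_lit 8756482269) (nat_lit 10) (nat_lit 5) (nat_lit 12) (nat_lit 5) (nat_lit 11) (nat_lit 4) (nat_lit 381) (nat_lit 263) (nat_lit 136)) (XT.nd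 (nat_lit 78) (nat_lit 0) (nat_lit 0) (XT.lf (nat_lit 0) (nat_lit 8156925677) (nat_lit 152) (nat_lit 33078941369) (nat_lit 76) (nat_lit 14524380061) (nat_lit 10) (nat_lit 5) (nat_lit 12) (nat_lit 5) (nat_lit 11) (nat_lit 4) (nat_lit 382) (nat_lit 263) (nat_lit 135)) (XT.lf (nat_lit 0) (nat_lit 12494817944) (nat_lit 152) (nat_lit 24306665033) (nat_lit 76) (nat_lit 20460178521) (nat_lit 10) (nat_lit 5) (nat_lit 12) (nat_lit 5) (nat_lit 11) (nat_lit 4) (nat_lit 383) (nat_lit 263) (nat_lit 134))))) (XT.nd (nat_lit 234) (nat_lit 0) (nat_lit 0) (XT.nd (nat_lit 78) (nat_lit 76) (nat_lit 0) (XT.lf (nat_lit 0) (nat_lit 16955865745) (nat_lit 152) (nat_lit 15283403012) (nat_lit 76) (nat_lit 26569064268) (nat_lit 10) (nat_lit 5) (nat_lit 12) (nat_lit 5) (nat_lit 11) (nat_lit 4) (nat_lit 384) (nat_lit 263) (nat_lit 133)) (XT.nd (nat_lit 78) (nat_lit 76) (nat_lit 0) (XT.lf (nat_lit 0) (nat_lit 21543967084)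 (nat_lit 152) (nat_lit 6001270901) (nat_lit 76) (nat_lit 32856375163) (nat_lit 10) (nat_lit 5) (nat_lit 12) (nat_lit 5) (nat_lit 11) (nat_lit 4) (nat_lit 385) (nat_lit 263) (nat_lit 132)) (XT.lf (nat_lit 0) (nat_lit 3618450910) (nat_lit 76) (nat_lit 22679462834) (nat_lit 152) (nat_lit 35743936827) (nat_lit 9) (nat_lit 5) (nat_lit 10) (nat_lit 5) (nat_lit 11) (nat_lit 4) (nat_lit 386) (nat_lit 263) (nat_lit 131)))) (XT.nd (nat_lit 78) (nat_lit 0) (nat_lit 0) (XT.lf (nat_lit 0) (nat_lit 13638413854) (nat_lit 76) (nat_lit 17610167900) (nat_lit 152) (nat_lit 32481095095) (nat_lit 9) (nat_lit 5) (nat_lit 10) (nat_lit 5) (nat_lit 11) (nat_lit 4) (nat_lit 387) (nat_lit 263) (nat_lit 130)) (XT.nd (nat_lit 78) (nat_lit 0) (nat_lit 0) (XT.lf (nat_lit 0) (nat_lit 23947936180) (nat_lit 76) (nat_lit 12393524771) (nat_lit 152) (nat_lit 29126870910) (nat_lit 9) (nat_lit 5) (nat_lit 10) (nat_lit 5) (nat_lit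 11) (nat_lit 4) (nat_lit 388) (nat_lit 263) (nat_lit 129)) (XT.lf (nat_lit 0) (nat_lit 34556026208) (nat_lit 76) (nat_lit 7024975214) (nat_lit 152) (nat_lit 25678333398) (nat_lit 9) (nat_lit 5) (nat_lit 10) (nat_lit 5) (nat_lit 11) (nat_lit 4) (nat_lit 389) (nat_lit 263) (nat_lit 128)))))) (XT.nd (nat_lit 468) (nat_lit 76) (nat_lit 0) (XT.nd (nat_lit 234) (nat_lit 76) (nat_lit 0) (XT.nd (nat_lit 78) (nat_lit 0) (nat_lit 0) (XT.lf (nat_lit 0) (nat_lit 45471953143) (nat_lit 76) (nat_lit 1499828265) (nat_lit 152) (nat_lit 22132469272) (nat_lit 9) (nat_lit 5) (nat_lit 10) (nat_lit 5) (nat_lit 11) (nat_lit 4) (nat_lit 390) (nat_lit 263) (nat_lit 127)) (XT.nd (nat_lit 78) (nat_lit 0) (nat_lit 0) (XT.lf (nat_lit 0) (nat_lit 52558756842) (nat_lit 152) (nat_lit 14339681874) (nat_lit 0) (nat_lit 4105045421) (nat_lit 9) (nat_lit 5) (nat_lit 11) (nat_lit 4) (nat_lit 9) (nat_lit 4) (nat_lit 391) (nat_lit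 263) (nat_lit 126)) (XT.lf (nat_lit 0) (nat_lit 58322545586) (nat_lit 152) (nat_lit 4793077899) (nat_lit 0) (nat_lit 9843799150) (nat_lit 9) (nat_lit 5) (nat_lit 11) (nat_lit 4) (nat_lit 9) (nat_lit 4) (nat_lit 392) (nat_lit 263) (nat_lit 125)))) (XT.nd (nat_lit 78) (nat_lit 0) (nat_lit 0) (XT.lf (nat_lit 0) (nat_lit 5130385649) (nat_lit 76) (nat_lit 59172697448) (nat_lit 76) (nat_lit 10669645174) (nat_lit 8) (nat_lit 4) (nat_lit 9) (nat_lit 5) (nat_lit 9) (nat_lit 4) (nat_lit 393) (nat_lit 263) (nat_lit 124)) (XT.nd (nat_lit 78) (nat_lit 0) (nat_lit 0) (XT.lf (nat_lit 0) (nat_lit 15440250270) (nat_lit 76) (nat_lit 55065773644) (nat_lit 76) (nat_lit 6539123467) (nat_lit 8) (nat_lit 4) (nat_lit 9) (nat_lit 5) (nat_lit 9) (nat_lit 4) (nat_lit 394) (nat_lit 263) (nat_lit 123)) (XT.lf (nat_lit 0) (nat_lit 26050132934) (nat_lit 76) (nat_lit 50839664185) (nat_lit 76) (nat_lit 2290103424) (nat_lit 8)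 (nat_lit 4) (nat_lit 9) (nat_lit 5) (nat_lit 9) (nat_lit 4) (nat_lit 395) (nat_lit 263) (nat_lit 122))))) (XT.nd (nat_lit 30420) (nat_lit 0) (nat_lit 18772) (XT.nd (nat_lit 78) (nat_lit 0) (nat_lit 0) (XT.lf (nat_lit 0) (nat_lit 2040517393) (nat_lit 152) (nat_lit 44429553739) (nat_lit 76) (nat_lit 34908181795) (nat_lit 7) (nat_lit 5) (nat_lit 9) (nat_lit 5) (nat_lit 8) (nat_lit 4) (nat_lit 396) (nat_lit 263) (nat_lit 121)) (XT.nd (nat_lit 30264) (nat_lit 0) (nat_lit 19152) (XT.lf (nat_lit 0) (nat_lit 6450021328) (nat_lit 152) (nat_lit 35499856174) (nat_lit 76) (nat_lit 41692151834) (nat_lit 7) (nat_lit 5) (nat_lit 9) (nat_lit 5) (nat_lit 8) (nat_lit 4) (nat_lit 397) (nat_lit 263) (nat_lit 120)) (XT.lf (nat_lit 0) (nat_lit 713181901) (nat_lit 380) (nat_lit 1271826830) (nat_lit 380) (nat_lit 1271826830) (nat_lit 259) (nat_lit 3) (nat_lit 264) (nat_lit 3) (nat_lit 264) (nat_lit 5) (nat_lit 264)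 (nat_lit 264) (nat_lit 252)))) (XT.nd (nat_lit 78) (nat_lit 380) (nat_lit 0) (XT.lf (nat_lit 76) (nat_lit 321376062) (nat_lit 0) (nat_lit 3460402121) (nat_lit 380) (nat_lit 2751362614) (nat_lit 260) (nat_lit 5) (nat_lit 259) (nat_lit 3) (nat_lit 264) (nat_lit 5) (nat_lit 265) (nat_lit 264) (nat_lit 251)) (XT.nd (nat_lit 78) (nat_lit 380) (nat_lit 0) (XT.lf (nat_lit 76) (nat_lit 3276553820) (nat_lit 0) (nat_lit 2865556546) (nat_lit 380) (nat_lit 413377137) (nat_lit 260) (nat_lit 5) (nat_lit 259) (nat_lit 3) (nat_lit 264) (nat_lit 5) (nat_lit 266) (nat_lit 264) (nat_lit 250)) (XT.lf (nat_lit 0) (nat_lit 1865871590) (nat_lit 380) (nat_lit 325933648) (nat_lit 456) (nat_lit 4389124875) (nat_lit 254) (nat_lit 5) (nat_lit 259) (nat_lit 3) (nat_lit 260) (nat_lit 5) (nat_lit 267) (nat_lit 264) (nat_lit 249))))))))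
noncomputable def xc121 : XT := (XT.nd (nat_lit 1794) (nat_lit 6004) (nat_lit 0) (XT.nd (nat_lit 858) (nat_lit 5472) (nat_lit 0) (XT.nd (nat_lit 390) (nat_lit 1672) (nat_lit 0) (XT.nd (nat_lit 156) (nat_lit 380) (nat_lit 0) (XT.nd (nat_lit 78) (nat_lit 0) (nat_lit 0) (XT.lf (nat_lit 76) (nat_lit 2717364641) (nat_lit 0) (nat_lit 1426613992) (nat_lit 456) (nat_lit 2465164299) (nat_lit 255) (nat_lit 5) (nat_lit 254) (nat_lit 5) (nat_lit 260) (nat_lit 5) (nat_lit 268) (nat_lit 264) (nat_lit 248)) (XT.lf (nat_lit 76) (nat_lit 5811881707) (nat_lit 0) (nat_lit 596600964) (nat_lit 456) (nat_lit 232462701) (nat_lit 255) (nat_lit 5) (nat_lit 254) (nat_lit 5) (nat_lit 260) (nat_lit 5) (nat_lit 269) (nat_lit 264) (nat_lit 247))) (XT.nd (nat_lit 78) (nat_lit 0) (nat_lit 0) (XT.lf (nat_lit 0) (nat_lit 1968426057) (nat_lit 456) (nat_lit 4375205947) (nat_lit 532) (nat_lit 331495889) (nat_lit 249) (nat_lit 5)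 (nat_lit 255) (nat_lit 5) (nat_lit 256) (nat_lit 5) (nat_lit 270) (nat_lit 264) (nat_lit 246)) (XT.nd (nat_lit 78) (nat_lit 0) (nat_lit 0) (XT.lf (nat_lit 0) (nat_lit 4163513375) (nat_lit 456) (nat_lit 1228529215) (nat_lit 532) (nat_lit 1320499604) (nat_lit 249) (nat_lit 5) (nat_lit 255) (nat_lit 5) (nat_lit 256) (nat_lit 5) (nat_lit 271) (nat_lit 264) (nat_lit 245)) (XT.lf (nat_lit 76) (nat_lit 2003165766) (nat_lit 0) (nat_lit 4361399917) (nat_lit 532) (nat_lit 388562956) (nat_lit 250) (nat_lit 5) (nat_lit 249) (nat_lit 5) (nat_lit 256) (nat_lit 5) (nat_lit 272) (nat_lit 264) (nat_lit 244))))) (XT.nd (nat_lit 234) (nat_lit 1140) (nat_lit 0) (XT.nd (nat_lit 78) (nat_lit 0) (nat_lit 0) (XT.lf (nat_lit 0) (nat_lit 1735098720) (nat_lit 532) (nat_lit 1505136561) (nat_lit 608) (nat_lit 3556379602) (nat_lit 242) (nat_lit 5) (nat_lit 249) (nat_lit 5) (nat_lit 250) (nat_lit 5) (nat_lit 273) (nat_lit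 264) (nat_lit 243)) (XT.nd (nat_lit 78) (nat_lit 0) (nat_lit 0) (XT.lf (nat_lit 76) (nat_lit 1820366750) (nat_lit 0) (nat_lit 2035767228) (nat_lit 608) (nat_lit 2987143725) (nat_lit 243) (nat_lit 5) (nat_lit 242) (nat_lit 5) (nat_lit 250) (nat_lit 5) (nat_lit 274) (nat_lit 264) (nat_lit 242)) (XT.lf (nat_lit 76) (nat_lit 5228620387) (nat_lit 0) (nat_lit 753107999) (nat_lit 608) (nat_lit 911609043) (nat_lit 243) (nat_lit 5) (nat_lit 242) (nat_lit 5) (nat_lit 250) (nat_lit 5) (nat_lit 275) (nat_lit 264) (nat_lit 241)))) (XT.nd (nat_lit 78) (nat_lit 608) (nat_lit 0) (XT.lf (nat_lit 0) (nat_lit 1152216185) (nat_lit 608) (nat_lit 5183611105) (nat_lit 76) (nat_lit 610431448) (nat_lit 235) (nat_lit 5) (nat_lit 243) (nat_lit 5) (nat_lit 236) (nat_lit 5) (nat_lit 276) (nat_lit 264) (nat_lit 240)) (XT.nd (nat_lit 78) (nat_lit 608) (nat_lit 0) (XT.lf (nat_lit 0) (nat_lit 3212928308) (nat_lit 608) (nat_lit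 1740196342) (nat_lit 76) (nat_lit 2048979206) (nat_lit 235) (nat_lit 5) (nat_lit 243) (nat_lit 5) (nat_lit 236) (nat_lit 5) (nat_lit 277) (nat_lit 264) (nat_lit 239)) (XT.lf (nat_lit 0) (nat_lit 1792724244) (nat_lit 608) (nat_lit 3490903559) (nat_lit 684) (nat_lit 1777751332) (nat_lit 227) (nat_lit 5) (nat_lit 235) (nat_lit 5) (nat_lit 236) (nat_lit 5) (nat_lit 278) (nat_lit 264) (nat_lit 238)))))) (XT.nd (nat_lit 468) (nat_lit 3040) (nat_lit 0) (XT.nd (nat_lit 234) (nat_lit 1672) (nat_lit 0) (XT.nd (nat_lit 78) (nat_lit 684) (nat_lit 0) (XT.lf (nat_lit 0) (nat_lit 237646770) (nat_lit 684) (nat_lit 1707451049) (nat_lit 76) (nat_lit 5178957332) (nat_lit 226) (nat_lit 5) (nat_lit 235) (nat_lit 5) (nat_lit 227) (nat_lit 5) (nat_lit 279) (nat_lit 264) (nat_lit 237)) (XT.nd (nat_lit 78) (nat_lit 0) (nat_lit 0) (XT.lf (nat_lit 0) (nat_lit 1932295318) (nat_lit 684) (nat_lit 297668365) (nat_lit 760)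 (nat_lit 4959736917) (nat_lit 217) (nat_lit 5) (nat_lit 226) (nat_lit 5) (nat_lit 227) (nat_lit 5) (nat_lit 280) (nat_lit 264) (nat_lit 236)) (XT.lf (nat_lit 0) (nat_lit 4248162273) (nat_lit 760) (nat_lit 1604395405) (nat_lit 76) (nat_lit 1405951878) (nat_lit 217) (nat_lit 5) (nat_lit 227) (nat_lit 5) (nat_lit 218) (nat_lit 5) (nat_lit 281) (nat_lit 264) (nat_lit 235)))) (XT.nd (nat_lit 78) (nat_lit 912) (nat_lit 0) (XT.lf (nat_lit 0) (nat_lit 2148431805) (nat_lit 760) (nat_lit 4139209934) (nat_lit 836) (nat_lit 1043091334) (nat_lit 207) (nat_lit 5) (nat_lit 217) (nat_lit 5) (nat_lit 218) (nat_lit 5) (nat_lit 282) (nat_lit 264) (nat_lit 234)) (XT.nd (nat_lit 78) (nat_lit 836) (nat_lit 0) (XT.lf (nat_lit 0) (nat_lit 918088235) (nat_lit 836) (nat_lit 1417189457) (nat_lit 76) (nat_lit 5071101780) (nat_lit 206) (nat_lit 5) (nat_lit 217) (nat_lit 5) (nat_lit 207) (nat_lit 5) (nat_lit 283) (nat_lit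 264) (nat_lit 233)) (XT.lf (nat_lit 0) (nat_lit 2450132569) (nat_lit 836) (nat_lit 430101102) (nat_lit 912) (nat_lit 4605016609) (nat_lit 195) (nat_lit 5) (nat_lit 206) (nat_lit 5) (nat_lit 207) (nat_lit 5) (nat_lit 284) (nat_lit 264) (nat_lit 232))))) (XT.nd (nat_lit 234) (nat_lit 2052) (nat_lit 0) (XT.nd (nat_lit 78) (nat_lit 988) (nat_lit 0) (XT.lf (nat_lit 0) (nat_lit 4871379578) (nat_lit 912) (nat_lit 1168194033) (nat_lit 76) (nat_lit 1527962641) (nat_lit 195) (nat_lit 5) (nat_lit 207) (nat_lit 5) (nat_lit 196) (nat_lit 5) (nat_lit 285) (nat_lit 264) (nat_lit 231)) (XT.nd (nat_lit 78) (nat_lit 76) (nat_lit 0) (XT.lf (nat_lit 0) (nat_lit 2817110153) (nat_lit 912) (nat_lit 4079162523) (nat_lit 988) (nat_lit 756946403) (nat_lit 183) (nat_lit 5) (nat_lit 195) (nat_lit 5) (nat_lit 196) (nat_lit 5) (nat_lit 286) (nat_lit 264) (nat_lit 230)) (XT.lf (nat_lit 0) (nat_lit 1171335016) (nat_lit 988)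 (nat_lit 856376496) (nat_lit 76) (nat_lit 5714890282) (nat_lit 182) (nat_lit 5) (nat_lit 195) (nat_lit 5) (nat_lit 183) (nat_lit 5) (nat_lit 287) (nat_lit 264) (nat_lit 229)))) (XT.nd (nat_lit 78) (nat_lit 1064) (nat_lit 0) (XT.lf (nat_lit 0) (nat_lit 3119618282) (nat_lit 1064) (nat_lit 4585584085) (nat_lit 76) (nat_lit 130053815) (nat_lit 169) (nat_lit 5) (nat_lit 183) (nat_lit 5) (nat_lit 170) (nat_lit 5) (nat_lit 288) (nat_lit 264) (nat_lit 228)) (XT.nd (nat_lit 78) (nat_lit 1064) (nat_lit 0) (XT.lf (nat_lit 0) (nat_lit 5101219031) (nat_lit 1064) (nat_lit 503191747) (nat_lit 76) (nat_lit 2327165438) (nat_lit 169) (nat_lit 5) (nat_lit 183) (nat_lit 5) (nat_lit 170) (nat_lit 5) (nat_lit 289) (nat_lit 264) (nat_lit 227)) (XT.lf (nat_lit 0) (nat_lit 3726767808) (nat_lit 1064) (nat_lit 3398954344) (nat_lit 1140) (nat_lit 905688304) (nat_lit 155) (nat_lit 5) (nat_lit 169) (nat_lit 5) (nat_lit 170)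 (nat_lit 5) (nat_lit 290) (nat_lit 264) (nat_lit 226))))))) (XT.nd (nat_lit 936) (nat_lit 2432) (nat_lit 0) (XT.nd (nat_lit 468) (nat_lit 1520) (nat_lit 0) (XT.nd (nat_lit 234) (nat_lit 608) (nat_lit 0) (XT.nd (nat_lit 78) (nat_lit 1368) (nat_lit 0) (XT.lf (nat_lit 0) (nat_lit 1008913908) (nat_lit 1140) (nat_lit 98861224) (nat_lit 76) (nat_lit 7027678846) (nat_lit 154) (nat_lit 5) (nat_lit 169) (nat_lit 5) (nat_lit 155) (nat_lit 5) (nat_lit 291) (nat_lit 264) (nat_lit 225)) (XT.nd (nat_lit 78) (nat_lit 532) (nat_lit 0) (XT.lf (nat_lit 0) (nat_lit 2965853045) (nat_lit 912) (nat_lit 3994961431) (nat_lit 76) (nat_lit 1281559600) (nat_lit 143) (nat_lit 5) (nat_lit 155) (nat_lit 5) (nat_lit 144) (nat_lit 5) (nat_lit 292) (nat_lit 264) (nat_lit 224)) (XT.lf (nat_lit 0) (nat_lit 320840697) (nat_lit 532) (nat_lit 4626355130) (nat_lit 608) (nat_lit 3406449021) (nat_lit 136) (nat_lit 5) (nat_lit 143) (nat_lit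 5) (nat_lit 144) (nat_lit 5) (nat_lit 293) (nat_lit 264) (nat_lit 223)))) (XT.nd (nat_lit 78) (nat_lit 608) (nat_lit 0) (XT.lf (nat_lit 0) (nat_lit 4800409403) (nat_lit 532) (nat_lit 2179526110) (nat_lit 608) (nat_lit 1488670148) (nat_lit 136) (nat_lit 5) (nat_lit 143) (nat_lit 5) (nat_lit 144) (nat_lit 5) (nat_lit 294) (nat_lit 264) (nat_lit 222)) (XT.nd (nat_lit 78) (nat_lit 0) (nat_lit 0) (XT.lf (nat_lit 0) (nat_lit 440601568) (nat_lit 608) (nat_lit 7800737212) (nat_lit 76) (nat_lit 346736783) (nat_lit 128) (nat_lit 5) (nat_lit 136) (nat_lit 5) (nat_lit 129) (nat_lit 5) (nat_lit 295) (nat_lit 264) (nat_lit 221)) (XT.lf (nat_lit 0) (nat_lit 2410205768) (nat_lit 608) (nat_lit 3343269148) (nat_lit 76) (nat_lit 2956942443) (nat_lit 128) (nat_lit 5) (nat_lit 136) (nat_lit 5) (nat_lit 129) (nat_lit 5) (nat_lit 296) (nat_lit 264) (nat_lit 220))))) (XT.nd (nat_lit 234) (nat_lit 532) (nat_lit 0) (XT.nd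 (nat_lit 78) (nat_lit 532) (nat_lit 0) (XT.lf (nat_lit 0) (nat_lit 1224933850) (nat_lit 456) (nat_lit 3180484032) (nat_lit 532) (nat_lit 4432114216) (nat_lit 122) (nat_lit 5) (nat_lit 128) (nat_lit 5) (nat_lit 129) (nat_lit 5) (nat_lit 297) (nat_lit 264) (nat_lit 219)) (XT.nd (nat_lit 78) (nat_lit 532) (nat_lit 0) (XT.lf (nat_lit 0) (nat_lit 5952284426) (nat_lit 456) (nat_lit 497579145) (nat_lit 532) (nat_lit 2519010813) (nat_lit 122) (nat_lit 5) (nat_lit 128) (nat_lit 5) (nat_lit 129) (nat_lit 5) (nat_lit 298) (nat_lit 264) (nat_lit 218)) (XT.lf (nat_lit 0) (nat_lit 1681891878) (nat_lit 532) (nat_lit 6868588846) (nat_lit 608) (nat_lit 553923712) (nat_lit 115) (nat_lit 5) (nat_lit 122) (nat_lit 5) (nat_lit 123) (nat_lit 5) (nat_lit 299) (nat_lit 264) (nat_lit 217)))) (XT.nd (nat_lit 78) (nat_lit 456) (nat_lit 0) (XT.lf (nat_lit 0) (nat_lit 1434315423) (nat_lit 608) (nat_lit 2726210940) (nat_lit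 76) (nat_lit 5083350797) (nat_lit 114) (nat_lit 5) (nat_lit 122) (nat_lit 5) (nat_lit 115) (nat_lit 5) (nat_lit 300) (nat_lit 264) (nat_lit 216)) (XT.nd (nat_lit 78) (nat_lit 0) (nat_lit 0) (XT.lf (nat_lit 0) (nat_lit 2100928988) (nat_lit 456) (nat_lit 1348778443) (nat_lit 532) (nat_lit 5938387716) (nat_lit 108) (nat_lit 5) (nat_lit 114) (nat_lit 5) (nat_lit 115) (nat_lit 5) (nat_lit 301) (nat_lit 264) (nat_lit 215)) (XT.lf (nat_lit 0) (nat_lit 5527415567) (nat_lit 532) (nat_lit 2468572750) (nat_lit 76) (nat_lit 1540678033) (nat_lit 108) (nat_lit 5) (nat_lit 115) (nat_lit 5) (nat_lit 109) (nat_lit 5) (nat_lit 302) (nat_lit 264) (nat_lit 214)))))) (XT.nd (nat_lit 468) (nat_lit 1140) (nat_lit 0) (XT.nd (nat_lit 234) (nat_lit 380) (nat_lit 0) (XT.nd (nat_lit 78) (nat_lit 456) (nat_lit 0) (XT.lf (nat_lit 0) (nat_lit 2484679801) (nat_lit 456) (nat_lit 5180381232) (nat_lit 532) (nat_lit 2024785387)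 (nat_lit 102) (nat_lit 5) (nat_lit 108) (nat_lit 5) (nat_lit 109) (nat_lit 5) (nat_lit 303) (nat_lit 264) (nat_lit 213)) (XT.nd (nat_lit 78) (nat_lit 380) (nat_lit 0) (XT.lf (nat_lit 0) (nat_lit 4645622) (nat_lit 532) (nat_lit 2255619145) (nat_lit 76) (nat_lit 7587852712) (nat_lit 101) (nat_lit 5) (nat_lit 108) (nat_lit 5) (nat_lit 102) (nat_lit 5) (nat_lit 304) (nat_lit 264) (nat_lit 212)) (XT.lf (nat_lit 0) (nat_lit 2050876175) (nat_lit 456) (nat_lit 7184997577) (nat_lit 76) (nat_lit 774836244) (nat_lit 96) (nat_lit 5) (nat_lit 102) (nat_lit 5) (nat_lit 97) (nat_lit 5) (nat_lit 305) (nat_lit 264) (nat_lit 211)))) (XT.nd (nat_lit 78) (nat_lit 380) (nat_lit 0) (XT.lf (nat_lit 0) (nat_lit 4166288047) (nat_lit 456) (nat_lit 2139207596) (nat_lit 76) (nat_lit 3872521814) (nat_lit 96) (nat_lit 5) (nat_lit 102) (nat_lit 5) (nat_lit 97) (nat_lit 5) (nat_lit 306) (nat_lit 264) (nat_lit 210)) (XT.nd (nat_lit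 78) (nat_lit 0) (nat_lit 0) (XT.lf (nat_lit 0) (nat_lit 3074426736) (nat_lit 380) (nat_lit 3263796283) (nat_lit 456) (nat_lit 4012398236) (nat_lit 91) (nat_lit 5) (nat_lit 96) (nat_lit 5) (nat_lit 97) (nat_lit 5) (nat_lit 307) (nat_lit 264) (nat_lit 209)) (XT.lf (nat_lit 0) (nat_lit 8445225962) (nat_lit 380) (nat_lit 115847978) (nat_lit 456) (nat_lit 1967823415) (nat_lit 91) (nat_lit 5) (nat_lit 96) (nat_lit 5) (nat_lit 97) (nat_lit 5) (nat_lit 308) (nat_lit 264) (nat_lit 208))))) (XT.nd (nat_lit 234) (nat_lit 304) (nat_lit 0) (XT.nd (nat_lit 78) (nat_lit 380) (nat_lit 0) (XT.lf (nat_lit 0) (nat_lit 162070201) (nat_lit 456) (nat_lit 7458169039) (nat_lit 76) (nat_lit 3091505473) (nat_lit 85) (nat_lit 5) (nat_lit 91) (nat_lit 5) (nat_lit 86) (nat_lit 5) (nat_lit 309) (nat_lit 264) (nat_lit 207)) (XT.nd (nat_lit 78) (nat_lit 380) (nat_lit 0) (XT.lf (nat_lit 0) (nat_lit 2304044404) (nat_lit 456)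 (nat_lit 2169844161) (nat_lit 76) (nat_lit 6426033622) (nat_lit 85) (nat_lit 5) (nat_lit 91) (nat_lit 5) (nat_lit 86) (nat_lit 5) (nat_lit 310) (nat_lit 264) (nat_lit 206)) (XT.lf (nat_lit 0) (nat_lit 3299562902) (nat_lit 380) (nat_lit 1208780647) (nat_lit 456) (nat_lit 6585518926) (nat_lit 80) (nat_lit 5) (nat_lit 85) (nat_lit 5) (nat_lit 86) (nat_lit 5) (nat_lit 311) (nat_lit 264) (nat_lit 205)))) (XT.nd (nat_lit 78) (nat_lit 304) (nat_lit 0) (XT.lf (nat_lit 0) (nat_lit 6788455723) (nat_lit 456) (nat_lit 2378868013) (nat_lit 76) (nat_lit 2126064445) (nat_lit 80) (nat_lit 5) (nat_lit 86) (nat_lit 5) (nat_lit 81) (nat_lit 5) (nat_lit 312) (nat_lit 264) (nat_lit 204)) (XT.nd (nat_lit 78) (nat_lit 0) (nat_lit 0) (XT.lf (nat_lit 0) (nat_lit 3208392827) (nat_lit 304) (nat_lit 5939200873) (nat_lit 380) (nat_lit 2351043334) (nat_lit 76) (nat_lit 5) (nat_lit 80) (nat_lit 5) (nat_lit 81) (nat_lit 5)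 (nat_lit 313) (nat_lit 264) (nat_lit 203)) (XT.lf (nat_lit 0) (nat_lit 8971167748) (nat_lit 304) (nat_lit 2598717877) (nat_lit 380) (nat_lit 140440749) (nat_lit 76) (nat_lit 5) (nat_lit 80) (nat_lit 5) (nat_lit 81) (nat_lit 5) (nat_lit 314) (nat_lit 264) (nat_lit 202))))))))
noncomputable def xc122 : XT := (XT.nd (nat_lit 1794) (nat_lit 1520) (nat_lit 0) (XT.nd (nat_lit 858) (nat_lit 1216) (nat_lit 0) (XT.nd (nat_lit 390) (nat_lit 608) (nat_lit 0) (XT.nd (nat_lit 156) (nat_lit 608) (nat_lit 0) (XT.nd (nat_lit 78) (nat_lit 0) (nat_lit 0) (XT.lf (nat_lit 0) (nat_lit 2100807770) (nat_lit 380) (nat_lit 8960726622) (nat_lit 76) (nat_lit 866086634) (nat_lit 71) (nat_lit 5) (nat_lit 76) (nat_lit 5) (nat_lit 72) (nat_lit 5) (nat_lit 315) (nat_lit 264) (nat_lit 201)) (XT.lf (nat_lit 0) (nat_lit 4429489224) (nat_lit 380) (nat_lit 3318548077) (nat_lit 76) (nat_lit 4402714754) (nat_lit 71) (nat_lit 5) (nat_lit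 76) (nat_lit 5) (nat_lit 72) (nat_lit 5) (nat_lit 316) (nat_lit 264) (nat_lit 200))) (XT.nd (nat_lit 78) (nat_lit 304) (nat_lit 0) (XT.lf (nat_lit 0) (nat_lit 2502081403) (nat_lit 304) (nat_lit 4320248173) (nat_lit 380) (nat_lit 5558466834) (nat_lit 67) (nat_lit 5) (nat_lit 71) (nat_lit 5) (nat_lit 72) (nat_lit 5) (nat_lit 317) (nat_lit 264) (nat_lit 199)) (XT.nd (nat_lit 78) (nat_lit 304) (nat_lit 0) (XT.lf (nat_lit 0) (nat_lit 8526106327) (nat_lit 304) (nat_lit 765095853) (nat_lit 380) (nat_lit 3326459444) (nat_lit 67) (nat_lit 5) (nat_lit 71) (nat_lit 5) (nat_lit 72) (nat_lit 5) (nat_lit 318) (nat_lit 264) (nat_lit 198)) (XT.lf (nat_lit 0) (nat_lit 1838334857) (nat_lit 304) (nat_lit 10012817618) (nat_lit 380) (nat_lit 1010015548) (nat_lit 63) (nat_lit 5) (nat_lit 67) (nat_lit 5) (nat_lit 68) (nat_lit 5) (nat_lit 319) (nat_lit 264) (nat_lit 197))))) (XT.nd (nat_lit 234) (nat_lit 304) (nat_lit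 0) (XT.nd (nat_lit 78) (nat_lit 228) (nat_lit 0) (XT.lf (nat_lit 0) (nat_lit 1370007601) (nat_lit 380) (nat_lit 5141093933) (nat_lit 76) (nat_lit 6599896197) (nat_lit 62) (nat_lit 5) (nat_lit 67) (nat_lit 5) (nat_lit 63) (nat_lit 5) (nat_lit 320) (nat_lit 264) (nat_lit 196)) (XT.nd (nat_lit 78) (nat_lit 0) (nat_lit 0) (XT.lf (nat_lit 0) (nat_lit 886396119) (nat_lit 228) (nat_lit 2895715940) (nat_lit 304) (nat_lit 9586522545) (nat_lit 59) (nat_lit 5) (nat_lit 62) (nat_lit 5) (nat_lit 63) (nat_lit 5) (nat_lit 321) (nat_lit 264) (nat_lit 195)) (XT.lf (nat_lit 0) (nat_lit 6299768740) (nat_lit 304) (nat_lit 6479197128) (nat_lit 76) (nat_lit 854079533) (nat_lit 59) (nat_lit 5) (nat_lit 63) (nat_lit 5) (nat_lit 60) (nat_lit 5) (nat_lit 322) (nat_lit 264) (nat_lit 194)))) (XT.nd (nat_lit 78) (nat_lit 304) (nat_lit 0) (XT.lf (nat_lit 0) (nat_lit 8895217427) (nat_lit 304) (nat_lit 361994926) (nat_lit 76)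 (nat_lit 4648147611) (nat_lit 59) (nat_lit 5) (nat_lit 63) (nat_lit 5) (nat_lit 60) (nat_lit 5) (nat_lit 323) (nat_lit 264) (nat_lit 193)) (XT.nd (nat_lit 78) (nat_lit 0) (nat_lit 0) (XT.lf (nat_lit 0) (nat_lit 6020020933) (nat_lit 304) (nat_lit 5580737787) (nat_lit 380) (nat_lit 2584156536) (nat_lit 55) (nat_lit 5) (nat_lit 59) (nat_lit 5) (nat_lit 60) (nat_lit 5) (nat_lit 324) (nat_lit 264) (nat_lit 192)) (XT.lf (nat_lit 0) (nat_lit 12565097764) (nat_lit 304) (nat_lit 1800787391) (nat_lit 380) (nat_lit 107656542) (nat_lit 55) (nat_lit 5) (nat_lit 59) (nat_lit 5) (nat_lit 60) (nat_lit 5) (nat_lit 325) (nat_lit 264) (nat_lit 191)))))) (XT.nd (nat_lit 468) (nat_lit 380) (nat_lit 0) (XT.nd (nat_lit 234) (nat_lit 304) (nat_lit 0) (XT.nd (nat_lit 78) (nat_lit 228) (nat_lit 0) (XT.lf (nat_lit 0) (nat_lit 2435256838) (nat_lit 304) (nat_lit 10224255358) (nat_lit 76) (nat_lit 2109451329) (nat_lit 51)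 (nat_lit 5) (nat_lit 55) (nat_lit 5) (nat_lit 52) (nat_lit 5) (nat_lit 326) (nat_lit 264) (nat_lit 190)) (XT.nd (nat_lit 78) (nat_lit 228) (nat_lit 0) (XT.lf (nat_lit 0) (nat_lit 5065090529) (nat_lit 304) (nat_lit 3896802960) (nat_lit 76) (nat_lit 6110972552) (nat_lit 51) (nat_lit 5) (nat_lit 55) (nat_lit 5) (nat_lit 52) (nat_lit 5) (nat_lit 327) (nat_lit 264) (nat_lit 189)) (XT.lf (nat_lit 0) (nat_lit 2637351937) (nat_lit 228) (nat_lit 5138037358) (nat_lit 304) (nat_lit 7610482158) (nat_lit 48) (nat_lit 5) (nat_lit 51) (nat_lit 5) (nat_lit 52) (nat_lit 5) (nat_lit 328) (nat_lit 264) (nat_lit 188)))) (XT.nd (nat_lit 78) (nat_lit 304) (nat_lit 0) (XT.lf (nat_lit 0) (nat_lit 9413165887) (nat_lit 228) (nat_lit 1169762911) (nat_lit 304) (nat_lit 5124892241) (nat_lit 48) (nat_lit 5) (nat_lit 51) (nat_lit 5) (nat_lit 52) (nat_lit 5) (nat_lit 329) (nat_lit 264) (nat_lit 187)) (XT.nd (nat_lit 78) (nat_lit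 76) (nat_lit 0) (XT.lf (nat_lit 0) (nat_lit 296708791) (nat_lit 228) (nat_lit 13186045945) (nat_lit 304) (nat_lit 2556463602) (nat_lit 45) (nat_lit 5) (nat_lit 48) (nat_lit 5) (nat_lit 49) (nat_lit 5) (nat_lit 330) (nat_lit 264) (nat_lit 186)) (XT.lf (nat_lit 0) (nat_lit 140309006) (nat_lit 304) (nat_lit 9210880407) (nat_lit 76) (nat_lit 7027780879) (nat_lit 44) (nat_lit 5) (nat_lit 48) (nat_lit 5) (nat_lit 45) (nat_lit 5) (nat_lit 331) (nat_lit 264) (nat_lit 185))))) (XT.nd (nat_lit 234) (nat_lit 152) (nat_lit 0) (XT.nd (nat_lit 78) (nat_lit 228) (nat_lit 0) (XT.lf (nat_lit 0) (nat_lit 2844518269) (nat_lit 304) (nat_lit 2541634131) (nat_lit 76) (nat_lit 11342693981) (nat_lit 44) (nat_lit 5) (nat_lit 48) (nat_lit 5) (nat_lit 45) (nat_lit 5) (nat_lit 332) (nat_lit 264) (nat_lit 184)) (XT.nd (nat_lit 78) (nat_lit 0) (nat_lit 0) (XT.lf (nat_lit 0) (nat_lit 4381122549) (nat_lit 228) (nat_lit 1269404383)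 (nat_lit 304) (nat_lit 11438099200) (nat_lit 41) (nat_lit 5) (nat_lit 44) (nat_lit 5) (nat_lit 45) (nat_lit 5) (nat_lit 333) (nat_lit 264) (nat_lit 183)) (XT.lf (nat_lit 0) (nat_lit 8573969411) (nat_lit 304) (nat_lit 5955880548) (nat_lit 76) (nat_lit 2928378481) (nat_lit 41) (nat_lit 5) (nat_lit 45) (nat_lit 5) (nat_lit 42) (nat_lit 5) (nat_lit 334) (nat_lit 264) (nat_lit 182)))) (XT.nd (nat_lit 78) (nat_lit 0) (nat_lit 0) (XT.lf (nat_lit 0) (nat_lit 973354855) (nat_lit 152) (nat_lit 10613079644) (nat_lit 228) (nat_lit 6252470726) (nat_lit 39) (nat_lit 5) (nat_lit 41) (nat_lit 5) (nat_lit 42) (nat_lit 5) (nat_lit 335) (nat_lit 264) (nat_lit 181)) (XT.nd (nat_lit 78) (nat_lit 0) (nat_lit 0) (XT.lf (nat_lit 0) (nat_lit 8201502878) (nat_lit 152) (nat_lit 6527609521) (nat_lit 228) (nat_lit 3500719982) (nat_lit 39) (nat_lit 5) (nat_lit 41) (nat_lit 5) (nat_lit 42) (nat_lit 5) (nat_lit 336) (nat_lit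 264) (nat_lit 180)) (XT.lf (nat_lit 0) (nat_lit 15616345676) (nat_lit 152) (nat_lit 2330012477) (nat_lit 228) (nat_lit 686745072) (nat_lit 39) (nat_lit 5) (nat_lit 41) (nat_lit 5) (nat_lit 42) (nat_lit 5) (nat_lit 337) (nat_lit 264) (nat_lit 179))))))) (XT.nd (nat_lit 858) (nat_lit 684) (nat_lit 0) (XT.nd (nat_lit 390) (nat_lit 380) (nat_lit 0) (XT.nd (nat_lit 156) (nat_lit 152) (nat_lit 0) (XT.nd (nat_lit 78) (nat_lit 0) (nat_lit 0) (XT.lf (nat_lit 0) (nat_lit 2209545686) (nat_lit 304) (nat_lit 14829994244) (nat_lit 76) (nat_lit 2007085949) (nat_lit 35) (nat_lit 5) (nat_lit 39) (nat_lit 5) (nat_lit 36) (nat_lit 5) (nat_lit 338) (nat_lit 264) (nat_lit 178)) (XT.lf (nat_lit 0) (nat_lit 5213587446) (nat_lit 304) (nat_lit 7802831836) (nat_lit 76) (nat_lit 6454913409) (nat_lit 35) (nat_lit 5) (nat_lit 39) (nat_lit 5) (nat_lit 36) (nat_lit 5) (nat_lit 339) (nat_lit 264) (nat_lit 177))) (XT.nd (nat_lit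 78) (nat_lit 152) (nat_lit 0) (XT.lf (nat_lit 0) (nat_lit 8289139577) (nat_lit 304) (nat_lit 593868234) (nat_lit 76) (nat_lit 11026352990) (nat_lit 35) (nat_lit 5) (nat_lit 39) (nat_lit 5) (nat_lit 36) (nat_lit 5) (nat_lit 340) (nat_lit 264) (nat_lit 176)) (XT.nd (nat_lit 78) (nat_lit 0) (nat_lit 0) (XT.lf (nat_lit 0) (nat_lit 6938592588) (nat_lit 152) (nat_lit 4566994862) (nat_lit 228) (nat_lit 8853504560) (nat_lit 33) (nat_lit 5) (nat_lit 35) (nat_lit 5) (nat_lit 36) (nat_lit 5) (nat_lit 341) (nat_lit 264) (nat_lit 175)) (XT.lf (nat_lit 0) (nat_lit 14681308496) (nat_lit 152) (nat_lit 125406509) (nat_lit 228) (nat_lit 6015975080) (nat_lit 33) (nat_lit 5) (nat_lit 35) (nat_lit 5) (nat_lit 36) (nat_lit 5) (nat_lit 342) (nat_lit 264) (nat_lit 174))))) (XT.nd (nat_lit 234) (nat_lit 152) (nat_lit 0) (XT.nd (nat_lit 78) (nat_lit 76) (nat_lit 0) (XT.lf (nat_lit 0) (nat_lit 1311404727) (nat_lit 152)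 (nat_lit 16933462328) (nat_lit 228) (nat_lit 3054209246) (nat_lit 31) (nat_lit 5) (nat_lit 33) (nat_lit 5) (nat_lit 34) (nat_lit 5) (nat_lit 343) (nat_lit 264) (nat_lit 173)) (XT.nd (nat_lit 78) (nat_lit 0) (nat_lit 0) (XT.lf (nat_lit 0) (nat_lit 43020930) (nat_lit 228) (nat_lit 12703666319) (nat_lit 76) (nat_lit 9041690428) (nat_lit 30) (nat_lit 5) (nat_lit 33) (nat_lit 5) (nat_lit 31) (nat_lit 5) (nat_lit 344) (nat_lit 264) (nat_lit 172)) (XT.lf (nat_lit 0) (nat_lit 3154955920) (nat_lit 228) (nat_lit 5258194654) (nat_lit 76) (nat_lit 13878823322) (nat_lit 30) (nat_lit 5) (nat_lit 33) (nat_lit 5) (nat_lit 31) (nat_lit 5) (nat_lit 345) (nat_lit 264) (nat_lit 171)))) (XT.nd (nat_lit 78) (nat_lit 0) (nat_lit 0) (XT.lf (nat_lit 0) (nat_lit 2432066477) (nat_lit 152) (nat_lit 3935225546) (nat_lit 228) (nat_lit 16443192382) (nat_lit 28) (nat_lit 5) (nat_lit 30) (nat_lit 5) (nat_lit 31) (nat_lit 5)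 (nat_lit 346) (nat_lit 264) (nat_lit 170)) (XT.nd (nat_lit 78) (nat_lit 0) (nat_lit 0) (XT.lf (nat_lit 0) (nat_lit 9719929074) (nat_lit 228) (nat_lit 12915353127) (nat_lit 76) (nat_lit 707967287) (nat_lit 28) (nat_lit 5) (nat_lit 31) (nat_lit 5) (nat_lit 29) (nat_lit 5) (nat_lit 347) (nat_lit 264) (nat_lit 169)) (XT.lf (nat_lit 0) (nat_lit 13196379315) (nat_lit 228) (nat_lit 5292781615) (nat_lit 76) (nat_lit 5402156254) (nat_lit 28) (nat_lit 5) (nat_lit 31) (nat_lit 5) (nat_lit 29) (nat_lit 5) (nat_lit 348) (nat_lit 264) (nat_lit 168)))))) (XT.nd (nat_lit 468) (nat_lit 304) (nat_lit 0) (XT.nd (nat_lit 234) (nat_lit 228) (nat_lit 0) (XT.nd (nat_lit 78) (nat_lit 0) (nat_lit 0) (XT.lf (nat_lit 0) (nat_lit 2584212190) (nat_lit 152) (nat_lit 14202481464) (nat_lit 228) (nat_lit 7668862334) (nat_lit 26) (nat_lit 5) (nat_lit 28) (nat_lit 5) (nat_lit 29) (nat_lit 5) (nat_lit 349) (nat_lit 264) (nat_lit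 167)) (XT.nd (nat_lit 78) (nat_lit 0) (nat_lit 0) (XT.lf (nat_lit 0) (nat_lit 10781572485) (nat_lit 152) (nat_lit 9741531055) (nat_lit 228) (nat_lit 4512482557) (nat_lit 26) (nat_lit 5) (nat_lit 28) (nat_lit 5) (nat_lit 29) (nat_lit 5) (nat_lit 350) (nat_lit 264) (nat_lit 166)) (XT.lf (nat_lit 0) (nat_lit 19201125280) (nat_lit 152) (nat_lit 5155858499) (nat_lit 228) (nat_lit 1276487254) (nat_lit 26) (nat_lit 5) (nat_lit 28) (nat_lit 5) (nat_lit 29) (nat_lit 5) (nat_lit 351) (nat_lit 264) (nat_lit 165)))) (XT.nd (nat_lit 78) (nat_lit 0) (nat_lit 0) (XT.lf (nat_lit 0) (nat_lit 1612328087) (nat_lit 152) (nat_lit 405275917) (nat_lit 228) (nat_lit 24231075401) (nat_lit 23) (nat_lit 5) (nat_lit 25) (nat_lit 5) (nat_lit 26) (nat_lit 5) (nat_lit 352) (nat_lit 264) (nat_lit 164)) (XT.nd (nat_lit 78) (nat_lit 0) (nat_lit 0) (XT.lf (nat_lit 0) (nat_lit 5479357425) (nat_lit 228) (nat_lit 16930078760) (nat_lit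 76) (nat_lit 4469707795) (nat_lit 23) (nat_lit 5) (nat_lit 26) (nat_lit 5) (nat_lit 24) (nat_lit 5) (nat_lit 353) (nat_lit 264) (nat_lit 163)) (XT.lf (nat_lit 0) (nat_lit 9035149529) (nat_lit 228) (nat_lit 9019408297) (nat_lit 76) (nat_lit 9474272646) (nat_lit 23) (nat_lit 5) (nat_lit 26) (nat_lit 5) (nat_lit 24) (nat_lit 5) (nat_lit 354) (nat_lit 264) (nat_lit 162))))) (XT.nd (nat_lit 234) (nat_lit 152) (nat_lit 0) (XT.nd (nat_lit 78) (nat_lit 152) (nat_lit 0) (XT.lf (nat_lit 0) (nat_lit 12684191560) (nat_lit 228) (nat_lit 893531934) (nat_lit 76) (nat_lit 14620699949) (nat_lit 23) (nat_lit 5) (nat_lit 26) (nat_lit 5) (nat_lit 24) (nat_lit 5) (nat_lit 355) (nat_lit 264) (nat_lit 161)) (XT.nd (nat_lit 78) (nat_lit 0) (nat_lit 0) (XT.lf (nat_lit 0) (nat_lit 7603012772) (nat_lit 152) (nat_lit 8899744037) (nat_lit 228) (nat_lit 12383558621) (nat_lit 21) (nat_lit 5) (nat_lit 23) (nat_lit 5) (nat_lit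 24) (nat_lit 5) (nat_lit 356) (nat_lit 264) (nat_lit 160)) (XT.lf (nat_lit 0) (nat_lit 16351510729) (nat_lit 152) (nat_lit 4080533594) (nat_lit 228) (nat_lit 9162927307) (nat_lit 21) (nat_lit 5) (nat_lit 23) (nat_lit 5) (nat_lit 24) (nat_lit 5) (nat_lit 357) (nat_lit 264) (nat_lit 159)))) (XT.nd (nat_lit 78) (nat_lit 152) (nat_lit 0) (XT.lf (nat_lit 0) (nat_lit 24475139299) (nat_lit 228) (nat_lit 4991862800) (nat_lit 76) (nat_lit 858019603) (nat_lit 21) (nat_lit 5) (nat_lit 24) (nat_lit 5) (nat_lit 22) (nat_lit 4) (nat_lit 358) (nat_lit 264) (nat_lit 158)) (XT.nd (nat_lit 78) (nat_lit 76) (nat_lit 0) (XT.lf (nat_lit 0) (nat_lit 3515136507) (nat_lit 76) (nat_lit 25186385918) (nat_lit 152) (nat_lit 2373602692) (nat_lit 20) (nat_lit 5) (nat_lit 21) (nat_lit 5) (nat_lit 22) (nat_lit 4) (nat_lit 359) (nat_lit 264) (nat_lit 157)) (XT.lf (nat_lit 0) (nat_lit 1222155958) (nat_lit 152) (nat_lit 19499038601)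 (nat_lit 76) (nat_lit 11125037759) (nat_lit 19) (nat_lit 5) (nat_lit 21) (nat_lit 5) (nat_lit 20) (nat_lit 5) (nat_lit 360) (nat_lit 264) (nat_lit 156))))))))
noncomputable def xc123 : XT := (XT.nd (nat_lit 1794) (nat_lit 228) (nat_lit 0) (XT.nd (nat_lit 858) (nat_lit 228) (nat_lit 0) (XT.nd (nat_lit 390) (nat_lit 304) (nat_lit 0) (XT.nd (nat_lit 156) (nat_lit 152) (nat_lit 0) (XT.nd (nat_lit 78) (nat_lit 0) (nat_lit 0) (XT.lf (nat_lit 0) (nat_lit 4866270281) (nat_lit 152) (nat_lit 11239559276) (nat_lit 76) (nat_lit 16534303154) (nat_lit 19) (nat_lit 5) (nat_lit 21) (nat_lit 5) (nat_lit 20) (nat_lit 5) (nat_lit 361) (nat_lit 264) (nat_lit 155)) (XT.lf (nat_lit 0) (nat_lit 8608241990) (nat_lit 152) (nat_lit 2751517095) (nat_lit 76) (nat_lit 22098445408) (nat_lit 19) (nat_lit 5) (nat_lit 21) (nat_lit 5) (nat_lit 20) (nat_lit 5) (nat_lit 362) (nat_lit 264) (nat_lit 154))) (XT.nd (nat_lit 78) (nat_lit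 0) (nat_lit 0) (XT.lf (nat_lit 0) (nat_lit 6091369231) (nat_lit 152) (nat_lit 6418525506) (nat_lit 228) (nat_lit 21789511129) (nat_lit 17) (nat_lit 5) (nat_lit 19) (nat_lit 5) (nat_lit 20) (nat_lit 5) (nat_lit 363) (nat_lit 264) (nat_lit 153)) (XT.nd (nat_lit 78) (nat_lit 0) (nat_lit 0) (XT.lf (nat_lit 0) (nat_lit 15237466834) (nat_lit 152) (nat_lit 1307929686) (nat_lit 228) (nat_lit 18619952574) (nat_lit 17) (nat_lit 5) (nat_lit 19) (nat_lit 5) (nat_lit 20) (nat_lit 5) (nat_lit 364) (nat_lit 264) (nat_lit 152)) (XT.lf (nat_lit 0) (nat_lit 20729255256) (nat_lit 228) (nat_lit 11455550640) (nat_lit 76) (nat_lit 3871655480) (nat_lit 17) (nat_lit 5) (nat_lit 20) (nat_lit 5) (nat_lit 18) (nat_lit 4) (nat_lit 365) (nat_lit 264) (nat_lit 151))))) (XT.nd (nat_lit 234) (nat_lit 228) (nat_lit 0) (XT.nd (nat_lit 78) (nat_lit 76) (nat_lit 0) (XT.lf (nat_lit 0) (nat_lit 25041156795) (nat_lit 228) (nat_lit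 2759668818) (nat_lit 76) (nat_lit 9173414838) (nat_lit 17) (nat_lit 5) (nat_lit 20) (nat_lit 5) (nat_lit 18) (nat_lit 4) (nat_lit 366) (nat_lit 264) (nat_lit 150)) (XT.nd (nat_lit 78) (nat_lit 0) (nat_lit 0) (XT.lf (nat_lit 0) (nat_lit 6302926973) (nat_lit 76) (nat_lit 23229956813) (nat_lit 152) (nat_lit 8385164027) (nat_lit 16) (nat_lit 5) (nat_lit 17) (nat_lit 5) (nat_lit 18) (nat_lit 4) (nat_lit 367) (nat_lit 264) (nat_lit 149)) (XT.lf (nat_lit 0) (nat_lit 15676984044) (nat_lit 76) (nat_lit 18500258050) (nat_lit 152) (nat_lit 4712399624) (nat_lit 16) (nat_lit 5) (nat_lit 17) (nat_lit 5) (nat_lit 18) (nat_lit 4) (nat_lit 368) (nat_lit 264) (nat_lit 148)))) (XT.nd (nat_lit 78) (nat_lit 228) (nat_lit 0) (XT.lf (nat_lit 0) (nat_lit 25315770495) (nat_lit 76) (nat_lit 13635463821) (nat_lit 152) (nat_lit 939448481) (nat_lit 16) (nat_lit 5) (nat_lit 17) (nat_lit 5) (nat_lit 18) (nat_lit 4) (nat_lit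 369) (nat_lit 264) (nat_lit 147)) (XT.nd (nat_lit 78) (nat_lit 152) (nat_lit 0) (XT.lf (nat_lit 0) (nat_lit 2879674977) (nat_lit 152) (nat_lit 5722569288) (nat_lit 76) (nat_lit 32318954519) (nat_lit 15) (nat_lit 5) (nat_lit 17) (nat_lit 5) (nat_lit 16) (nat_lit 5) (nat_lit 370) (nat_lit 264) (nat_lit 146)) (XT.lf (nat_lit 0) (nat_lit 3437381027) (nat_lit 152) (nat_lit 3380912832) (nat_lit 228) (nat_lit 35163350971) (nat_lit 13) (nat_lit 5) (nat_lit 15) (nat_lit 5) (nat_lit 16) (nat_lit 5) (nat_lit 371) (nat_lit 264) (nat_lit 145)))))) (XT.nd (nat_lit 468) (nat_lit 152) (nat_lit 0) (XT.nd (nat_lit 234) (nat_lit 76) (nat_lit 0) (XT.nd (nat_lit 78) (nat_lit 0) (nat_lit 0) (XT.lf (nat_lit 0) (nat_lit 10943445784) (nat_lit 228) (nat_lit 30118304709) (nat_lit 76) (nat_lit 2010110041) (nat_lit 13) (nat_lit 5) (nat_lit 16) (nat_lit 5) (nat_lit 14) (nat_lit 4) (nat_lit 372) (nat_lit 264) (nat_lit 144))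 (XT.nd (nat_lit 78) (nat_lit 0) (nat_lit 0) (XT.lf (nat_lit 0) (nat_lit 15216912721) (nat_lit 228) (nat_lit 21488382847) (nat_lit 76) (nat_lit 7488757618) (nat_lit 13) (nat_lit 5) (nat_lit 16) (nat_lit 5) (nat_lit 14) (nat_lit 4) (nat_lit 373) (nat_lit 264) (nat_lit 143)) (XT.lf (nat_lit 0) (nat_lit 19609929365) (nat_lit 228) (nat_lit 12614458109) (nat_lit 76) (nat_lit 13125790851) (nat_lit 13) (nat_lit 5) (nat_lit 16) (nat_lit 5) (nat_lit 14) (nat_lit 4) (nat_lit 374) (nat_lit 264) (nat_lit 142)))) (XT.nd (nat_lit 78) (nat_lit 76) (nat_lit 0) (XT.lf (nat_lit 0) (nat_lit 24126334274) (nat_lit 228) (nat_lit 3488776579) (nat_lit 76) (nat_lit 18926135306) (nat_lit 13) (nat_lit 5) (nat_lit 16) (nat_lit 5) (nat_lit 14) (nat_lit 4) (nat_lit 375) (nat_lit 264) (nat_lit 141)) (XT.nd (nat_lit 78) (nat_lit 0) (nat_lit 0) (XT.lf (nat_lit 0) (nat_lit 6013990250) (nat_lit 76) (nat_lit 22813893725) (nat_lit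 152) (nat_lit 18938679145) (nat_lit 12) (nat_lit 5) (nat_lit 13) (nat_lit 5) (nat_lit 14) (nat_lit 4) (nat_lit 376) (nat_lit 264) (nat_lit 140)) (XT.lf (nat_lit 0) (nat_lit 15859454471) (nat_lit 76) (nat_lit 17838201952) (nat_lit 152) (nat_lit 15330174358) (nat_lit 12) (nat_lit 5) (nat_lit 13) (nat_lit 5) (nat_lit 14) (nat_lit 4) (nat_lit 377) (nat_lit 264) (nat_lit 139))))) (XT.nd (nat_lit 234) (nat_lit 152) (nat_lit 0) (XT.nd (nat_lit 78) (nat_lit 0) (nat_lit 0) (XT.lf (nat_lit 0) (nat_lit 25986785422) (nat_lit 76) (nat_lit 12718917646) (nat_lit 152) (nat_lit 11621474263) (nat_lit 12) (nat_lit 5) (nat_lit 13) (nat_lit 5) (nat_lit 14) (nat_lit 4) (nat_lit 378) (nat_lit 264) (nat_lit 138)) (XT.nd (nat_lit 78) (nat_lit 0) (nat_lit 0) (XT.lf (nat_lit 0) (nat_lit 36404832227) (nat_lit 76) (nat_lit 7451567644) (nat_lit 152) (nat_lit 7809338250) (nat_lit 12) (nat_lit 5) (nat_lit 13) (nat_lit 5) (nat_lit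 14) (nat_lit 4) (nat_lit 379) (nat_lit 264) (nat_lit 137)) (XT.lf (nat_lit 0) (nat_lit 47122698033) (nat_lit 76) (nat_lit 2031549408) (nat_lit 152) (nat_lit 3890435325) (nat_lit 12) (nat_lit 5) (nat_lit 13) (nat_lit 5) (nat_lit 14) (nat_lit 4) (nat_lit 380) (nat_lit 264) (nat_lit 136)))) (XT.nd (nat_lit 78) (nat_lit 0) (nat_lit 0) (XT.lf (nat_lit 0) (nat_lit 206518676) (nat_lit 152) (nat_lit 50742046911) (nat_lit 76) (nat_lit 3514493630) (nat_lit 10) (nat_lit 5) (nat_lit 12) (nat_lit 5) (nat_lit 11) (nat_lit 4) (nat_lit 381) (nat_lit 264) (nat_lit 135)) (XT.nd (nat_lit 78) (nat_lit 0) (nat_lit 0) (XT.lf (nat_lit 0) (nat_lit 4421503597) (nat_lit 152) (nat_lit 42219272487) (nat_lit 76) (nat_lit 9279861242) (nat_lit 10) (nat_lit 5) (nat_lit 12) (nat_lit 5) (nat_lit 11) (nat_lit 4) (nat_lit 382) (nat_lit 264) (nat_lit 134)) (XT.lf (nat_lit 0) (nat_lit 8755956832) (nat_lit 152) (nat_lit 33452997434)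 (nat_lit 76) (nat_lit 15213203216) (nat_lit 10) (nat_lit 5) (nat_lit 12) (nat_lit 5) (nat_lit 11) (nat_lit 4) (nat_lit 383) (nat_lit 264) (nat_lit 133))))))) (XT.nd (nat_lit 936) (nat_lit 76) (nat_lit 0) (XT.nd (nat_lit 468) (nat_lit 76) (nat_lit 0) (XT.nd (nat_lit 234) (nat_lit 76) (nat_lit 0) (XT.nd (nat_lit 78) (nat_lit 0) (nat_lit 0) (XT.lf (nat_lit 0) (nat_lit 13213665768) (nat_lit 152) (nat_lit 24435561901) (nat_lit 76) (nat_lit 21319704024) (nat_lit 10) (nat_lit 5) (nat_lit 12) (nat_lit 5) (nat_lit 11) (nat_lit 4) (nat_lit 384) (nat_lit 264) (nat_lit 132)) (XT.nd (nat_lit 78) (nat_lit 0) (nat_lit 0) (XT.lf (nat_lit 0) (nat_lit 17798525491) (nat_lit 152) (nat_lit 15159086575) (nat_lit 76) (nat_lit 27604699446) (nat_lit 10) (nat_lit 5) (nat_lit 12) (nat_lit 5) (nat_lit 11) (nat_lit 4) (nat_lit 385) (nat_lit 264) (nat_lit 131)) (XT.lf (nat_lit 0) (nat_lit 22514542187) (nat_lit 152) (nat_lit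 5615465797) (nat_lit 76) (nat_lit 34073681224) (nat_lit 10) (nat_lit 5) (nat_lit 12) (nat_lit 5) (nat_lit 11) (nat_lit 4) (nat_lit 386) (nat_lit 264) (nat_lit 130)))) (XT.nd (nat_lit 78) (nat_lit 0) (nat_lit 0) (XT.lf (nat_lit 0) (nat_lit 4287300185) (nat_lit 76) (nat_lit 23119748615) (nat_lit 152) (nat_lit 36486213833) (nat_lit 9) (nat_lit 5) (nat_lit 10) (nat_lit 5) (nat_lit 11) (nat_lit 4) (nat_lit 387) (nat_lit 264) (nat_lit 129)) (XT.nd (nat_lit 78) (nat_lit 0) (nat_lit 0) (XT.lf (nat_lit 0) (nat_lit 14591542724) (nat_lit 76) (nat_lit 17905367982) (nat_lit 152) (nat_lit 33135099696) (nat_lit 9) (nat_lit 5) (nat_lit 10) (nat_lit 5) (nat_lit 11) (nat_lit 4) (nat_lit 388) (nat_lit 264) (nat_lit 128)) (XT.lf (nat_lit 0) (nat_lit 25194506745) (nat_lit 76) (nat_lit 12539015023) (nat_lit 152) (nat_lit 29689581648) (nat_lit 9) (nat_lit 5) (nat_lit 10) (nat_lit 5) (nat_lit 11) (nat_lit 4) (nat_lit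 389) (nat_lit 264) (nat_lit 127))))) (XT.nd (nat_lit 234) (nat_lit 76) (nat_lit 0) (XT.nd (nat_lit 78) (nat_lit 0) (nat_lit 0) (XT.lf (nat_lit 0) (nat_lit 36105456975) (nat_lit 76) (nat_lit 7016000694) (nat_lit 152) (nat_lit 26146649041) (nat_lit 9) (nat_lit 5) (nat_lit 10) (nat_lit 5) (nat_lit 11) (nat_lit 4) (nat_lit 390) (nat_lit 264) (nat_lit 126)) (XT.nd (nat_lit 78) (nat_lit 0) (nat_lit 0) (XT.lf (nat_lit 0) (nat_lit 47333927252) (nat_lit 76) (nat_lit 1331499057) (nat_lit 152) (nat_lit 22503206108) (nat_lit 9) (nat_lit 5) (nat_lit 10) (nat_lit 5) (nat_lit 11) (nat_lit 4) (nat_lit 391) (nat_lit 264) (nat_lit 125)) (XT.lf (nat_lit 0) (nat_lit 54413715723) (nat_lit 152) (nat_lit 14280056120) (nat_lit 0) (nat_lit 4431266041) (nat_lit 9) (nat_lit 5) (nat_lit 11) (nat_lit 4) (nat_lit 9) (nat_lit 4) (nat_lit 392) (nat_lit 264) (nat_lit 124)))) (XT.nd (nat_lit 78) (nat_lit 76) (nat_lit 0) (XT.lf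 (nat_lit 0) (nat_lit 60342315328) (nat_lit 152) (nat_lit 4461320518) (nat_lit 0) (nat_lit 10336267744) (nat_lit 9) (nat_lit 5) (nat_lit 11) (nat_lit 4) (nat_lit 9) (nat_lit 4) (nat_lit 393) (nat_lit 264) (nat_lit 123)) (XT.nd (nat_lit 78) (nat_lit 0) (nat_lit 0) (XT.lf (nat_lit 0) (nat_lit 5755184685) (nat_lit 76) (nat_lit 60743743941) (nat_lit 76) (nat_lit 10714785773) (nat_lit 8) (nat_lit 4) (nat_lit 9) (nat_lit 5) (nat_lit 9) (nat_lit 4) (nat_lit 394) (nat_lit 264) (nat_lit 122)) (XT.lf (nat_lit 0) (nat_lit 16360630075) (nat_lit 76) (nat_lit 56519558085) (nat_lit 76) (nat_lit 6468356631) (nat_lit 8) (nat_lit 4) (nat_lit 9) (nat_lit 5) (nat_lit 9) (nat_lit 4) (nat_lit 395) (nat_lit 264) (nat_lit 121)))))) (XT.nd (nat_lit 30732) (nat_lit 0) (nat_lit 17784) (XT.nd (nat_lit 30498) (nat_lit 0) (nat_lit 18772) (XT.nd (nat_lit 78) (nat_lit 76) (nat_lit 0) (XT.lf (nat_lit 0) (nat_lit 27275493522)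 (nat_lit 76) (nat_lit 52172437832) (nat_lit 76) (nat_lit 2099640954) (nat_lit 8) (nat_lit 4) (nat_lit 9) (nat_lit 5) (nat_lit 9) (nat_lit 4) (nat_lit 396) (nat_lit 264) (nat_lit 120)) (XT.nd (nat_lit 30342) (nat_lit 0) (nat_lit 19152) (XT.lf (nat_lit 0) (nat_lit 2348440021) (nat_lit 152) (nat_lit 45326430065) (nat_lit 76) (nat_lit 36137157622) (nat_lit 7) (nat_lit 5) (nat_lit 9) (nat_lit 5) (nat_lit 8) (nat_lit 4) (nat_lit 397) (nat_lit 264) (nat_lit 119)) (XT.lf (nat_lit 0) (nat_lit 3043100698) (nat_lit 380) (nat_lit 117024186) (nat_lit 380) (nat_lit 117024186) (nat_lit 259) (nat_lit 3) (nat_lit 264) (nat_lit 3) (nat_lit 264) (nat_lit 5) (nat_lit 265) (nat_lit 265) (nat_lit 250)))) (XT.nd (nat_lit 78) (nat_lit 0) (nat_lit 0) (XT.lf (nat_lit 0) (nat_lit 1786772026) (nat_lit 380) (nat_lit 3902155302) (nat_lit 456) (nat_lit 888726000) (nat_lit 254) (nat_lit 5) (nat_lit 259) (nat_lit 3) (nat_lit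 260) (nat_lit 5) (nat_lit 266) (nat_lit 265) (nat_lit 249)) (XT.nd (nat_lit 78) (nat_lit 0) (nat_lit 0) (XT.lf (nat_lit 0) (nat_lit 4014933762) (nat_lit 380) (nat_lit 976392189) (nat_lit 456) (nat_lit 1613085923) (nat_lit 254) (nat_lit 5) (nat_lit 259) (nat_lit 3) (nat_lit 260) (nat_lit 5) (nat_lit 267) (nat_lit 265) (nat_lit 248)) (XT.lf (nat_lit 76) (nat_lit 2030925481) (nat_lit 0) (nat_lit 4213749359) (nat_lit 456) (nat_lit 389541152) (nat_lit 255) (nat_lit 5) (nat_lit 254) (nat_lit 5) (nat_lit 260) (nat_lit 5) (nat_lit 268) (nat_lit 265) (nat_lit 247))))) (XT.nd (nat_lit 234) (nat_lit 532) (nat_lit 0) (XT.nd (nat_lit 78) (nat_lit 0) (nat_lit 0) (XT.lf (nat_lit 0) (nat_lit 1765890606) (nat_lit 456) (nat_lit 1581612039) (nat_lit 532) (nat_lit 3319355620) (nat_lit 248) (nat_lit 5) (nat_lit 254) (nat_lit 5) (nat_lit 255) (nat_lit 5) (nat_lit 269) (nat_lit 265) (nat_lit 246)) (XT.nd (nat_lit 78)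 (nat_lit 0) (nat_lit 0) (XT.lf (nat_lit 76) (nat_lit 1510374843) (nat_lit 0) (nat_lit 2400896454) (nat_lit 532) (nat_lit 2791360021) (nat_lit 249) (nat_lit 5) (nat_lit 248) (nat_lit 5) (nat_lit 255) (nat_lit 5) (nat_lit 270) (nat_lit 265) (nat_lit 245)) (XT.lf (nat_lit 76) (nat_lit 4682035443) (nat_lit 0) (nat_lit 1375479397) (nat_lit 532) (nat_lit 684120765) (nat_lit 249) (nat_lit 5) (nat_lit 248) (nat_lit 5) (nat_lit 255) (nat_lit 5) (nat_lit 271) (nat_lit 265) (nat_lit 244)))) (XT.nd (nat_lit 78) (nat_lit 0) (nat_lit 76) (XT.lf (nat_lit 76) (nat_lit 1128799187) (nat_lit 0) (nat_lit 261223495) (nat_lit 608) (nat_lit 5393616546) (nat_lit 242) (nat_lit 5) (nat_lit 241) (nat_lit 5) (nat_lit 249) (nat_lit 5) (nat_lit 272) (nat_lit 265) (nat_lit 243)) (XT.nd (nat_lit 78) (nat_lit 0) (nat_lit 0) (XT.lf (nat_lit 0) (nat_lit 3466140310) (nat_lit 532) (nat_lit 2435051856) (nat_lit 608) (nat_lit 927134200)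 (nat_lit 242) (nat_lit 5) (nat_lit 249) (nat_lit 5) (nat_lit 250) (nat_lit 5) (nat_lit 273) (nat_lit 265) (nat_lit 242)) (XT.lf (nat_lit 76) (nat_lit 848363727) (nat_lit 0) (nat_lit 4693108405) (nat_lit 608) (nat_lit 1334998927) (nat_lit 243) (nat_lit 5) (nat_lit 242) (nat_lit 5) (nat_lit 250) (nat_lit 5) (nat_lit 274) (nat_lit 265) (nat_lit 241))))))))
noncomputable def xc124 : XT := (XT.nd (nat_lit 1794) (nat_lit 5016) (nat_lit 0) (XT.nd (nat_lit 858) (nat_lit 5092) (nat_lit 0) (XT.nd (nat_lit 390) (nat_lit 2356) (nat_lit 0) (XT.nd (nat_lit 156) (nat_lit 608) (nat_lit 0) (XT.nd (nat_lit 78) (nat_lit 0) (nat_lit 0) (XT.lf (nat_lit 0) (nat_lit 690107106) (nat_lit 608) (nat_lit 2700746129) (nat_lit 684) (nat_lit 3536647752) (nat_lit 234) (nat_lit 5) (nat_lit 242) (nat_lit 5) (nat_lit 243) (nat_lit 5) (nat_lit 275) (nat_lit 265) (nat_lit 240)) (XT.lf (nat_lit 76) (nat_lit 679744623) (nat_lit 0)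 (nat_lit 2005015312) (nat_lit 684) (nat_lit 4297042351) (nat_lit 235) (nat_lit 5) (nat_lit 234) (nat_lit 5) (nat_lit 243) (nat_lit 5) (nat_lit 276) (nat_lit 265) (nat_lit 239))) (XT.nd (nat_lit 78) (nat_lit 608) (nat_lit 0) (XT.lf (nat_lit 76) (nat_lit 4170733218) (nat_lit 0) (nat_lit 526503449) (nat_lit 684) (nat_lit 2341956217) (nat_lit 235) (nat_lit 5) (nat_lit 234) (nat_lit 5) (nat_lit 243) (nat_lit 5) (nat_lit 277) (nat_lit 265) (nat_lit 238)) (XT.nd (nat_lit 78) (nat_lit 76) (nat_lit 0) (XT.lf (nat_lit 0) (nat_lit 623374520) (nat_lit 608) (nat_lit 6095227995) (nat_lit 684) (nat_lit 381441210) (nat_lit 227) (nat_lit 5) (nat_lit 235) (nat_lit 5) (nat_lit 236) (nat_lit 5) (nat_lit 278) (nat_lit 265) (nat_lit 237)) (XT.lf (nat_lit 0) (nat_lit 1574007146) (nat_lit 684) (nat_lit 2952728994) (nat_lit 76) (nat_lit 2636652082) (nat_lit 226) (nat_lit 5) (nat_lit 235) (nat_lit 5) (nat_lit 227) (nat_lit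 5) (nat_lit 279) (nat_lit 265) (nat_lit 236))))) (XT.nd (nat_lit 234) (nat_lit 836) (nat_lit 0) (XT.nd (nat_lit 78) (nat_lit 836) (nat_lit 0) (XT.lf (nat_lit 0) (nat_lit 638626195) (nat_lit 684) (nat_lit 2883512123) (nat_lit 760) (nat_lit 3708308368) (nat_lit 217) (nat_lit 5) (nat_lit 226) (nat_lit 5) (nat_lit 227) (nat_lit 5) (nat_lit 280) (nat_lit 265) (nat_lit 235)) (XT.nd (nat_lit 78) (nat_lit 836) (nat_lit 0) (XT.lf (nat_lit 0) (nat_lit 4351722284) (nat_lit 684) (nat_lit 1143785021) (nat_lit 760) (nat_lit 1805178122) (nat_lit 217) (nat_lit 5) (nat_lit 226) (nat_lit 5) (nat_lit 227) (nat_lit 5) (nat_lit 281) (nat_lit 265) (nat_lit 234)) (XT.lf (nat_lit 0) (nat_lit 103932774) (nat_lit 836) (nat_lit 6611102146) (nat_lit 76) (nat_lit 659556776) (nat_lit 206) (nat_lit 5) (nat_lit 217) (nat_lit 5) (nat_lit 207) (nat_lit 5) (nat_lit 282) (nat_lit 265) (nat_lit 233)))) (XT.nd (nat_lit 78) (nat_lit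 836) (nat_lit 0) (XT.lf (nat_lit 0) (nat_lit 2014976303) (nat_lit 836) (nat_lit 2879774021) (nat_lit 76) (nat_lit 2556158106) (nat_lit 206) (nat_lit 5) (nat_lit 217) (nat_lit 5) (nat_lit 207) (nat_lit 5) (nat_lit 283) (nat_lit 265) (nat_lit 232)) (XT.nd (nat_lit 78) (nat_lit 0) (nat_lit 0) (XT.lf (nat_lit 0) (nat_lit 934915761) (nat_lit 836) (nat_lit 2998726641) (nat_lit 912) (nat_lit 3597516645) (nat_lit 195) (nat_lit 5) (nat_lit 206) (nat_lit 5) (nat_lit 207) (nat_lit 5) (nat_lit 284) (nat_lit 265) (nat_lit 231)) (XT.lf (nat_lit 0) (nat_lit 4876716058) (nat_lit 836) (nat_lit 1004800696) (nat_lit 912) (nat_lit 1733299643) (nat_lit 195) (nat_lit 5) (nat_lit 206) (nat_lit 5) (nat_lit 207) (nat_lit 5) (nat_lit 285) (nat_lit 265) (nat_lit 230)))))) (XT.nd (nat_lit 468) (nat_lit 1976) (nat_lit 0) (XT.nd (nat_lit 234) (nat_lit 1140) (nat_lit 0) (XT.nd (nat_lit 78) (nat_lit 988) (nat_lit 0) (XT.lf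 (nat_lit 0) (nat_lit 148703500) (nat_lit 988) (nat_lit 6501375250) (nat_lit 76) (nat_lit 1052025796) (nat_lit 182) (nat_lit 5) (nat_lit 195) (nat_lit 5) (nat_lit 183) (nat_lit 5) (nat_lit 286) (nat_lit 265) (nat_lit 229)) (XT.nd (nat_lit 78) (nat_lit 988) (nat_lit 0) (XT.lf (nat_lit 0) (nat_lit 2035042632) (nat_lit 988) (nat_lit 2552419758) (nat_lit 76) (nat_lit 3204688746) (nat_lit 182) (nat_lit 5) (nat_lit 195) (nat_lit 5) (nat_lit 183) (nat_lit 5) (nat_lit 287) (nat_lit 265) (nat_lit 228)) (XT.lf (nat_lit 0) (nat_lit 1497917228) (nat_lit 988) (nat_lit 2440901934) (nat_lit 1064) (nat_lit 3947386630) (nat_lit 169) (nat_lit 5) (nat_lit 182) (nat_lit 5) (nat_lit 183) (nat_lit 5) (nat_lit 288) (nat_lit 265) (nat_lit 227)))) (XT.nd (nat_lit 78) (nat_lit 1140) (nat_lit 0) (XT.lf (nat_lit 0) (nat_lit 5676223587) (nat_lit 988) (nat_lit 196827061) (nat_lit 1064) (nat_lit 2110959427) (nat_lit 169) (nat_lit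 5) (nat_lit 182) (nat_lit 5) (nat_lit 183) (nat_lit 5) (nat_lit 289) (nat_lit 265) (nat_lit 226)) (XT.nd (nat_lit 78) (nat_lit 76) (nat_lit 0) (XT.lf (nat_lit 0) (nat_lit 1864956104) (nat_lit 1064) (nat_lit 5987762321) (nat_lit 1140) (nat_lit 232532283) (nat_lit 155) (nat_lit 5) (nat_lit 169) (nat_lit 5) (nat_lit 170) (nat_lit 5) (nat_lit 290) (nat_lit 265) (nat_lit 225)) (XT.lf (nat_lit 0) (nat_lit 1644099185) (nat_lit 1140) (nat_lit 2044091058) (nat_lit 76) (nat_lit 4501712723) (nat_lit 154) (nat_lit 5) (nat_lit 169) (nat_lit 5) (nat_lit 155) (nat_lit 5) (nat_lit 291) (nat_lit 265) (nat_lit 224))))) (XT.nd (nat_lit 234) (nat_lit 608) (nat_lit 0) (XT.nd (nat_lit 78) (nat_lit 532) (nat_lit 0) (XT.lf (nat_lit 0) (nat_lit 2253529611) (nat_lit 836) (nat_lit 1291541885) (nat_lit 912) (nat_lit 4753486699) (nat_lit 143) (nat_lit 5) (nat_lit 154) (nat_lit 5) (nat_lit 155) (nat_lit 5) (nat_lit 292) (nat_lit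 265) (nat_lit 223)) (XT.nd (nat_lit 78) (nat_lit 532) (nat_lit 0) (XT.lf (nat_lit 0) (nat_lit 5487305665) (nat_lit 912) (nat_lit 1746062973) (nat_lit 76) (nat_lit 1177688079) (nat_lit 143) (nat_lit 5) (nat_lit 155) (nat_lit 5) (nat_lit 144) (nat_lit 5) (nat_lit 293) (nat_lit 265) (nat_lit 222)) (XT.lf (nat_lit 0) (nat_lit 2675990205) (nat_lit 532) (nat_lit 4803796293) (nat_lit 608) (nat_lit 1047491702) (nat_lit 136) (nat_lit 5) (nat_lit 143) (nat_lit 5) (nat_lit 144) (nat_lit 5) (nat_lit 294) (nat_lit 265) (nat_lit 221)))) (XT.nd (nat_lit 78) (nat_lit 532) (nat_lit 0) (XT.lf (nat_lit 0) (nat_lit 839430224) (nat_lit 608) (nat_lit 1434529836) (nat_lit 76) (nat_lit 6373722907) (nat_lit 135) (nat_lit 5) (nat_lit 143) (nat_lit 5) (nat_lit 136) (nat_lit 5) (nat_lit 295) (nat_lit 265) (nat_lit 220)) (XT.nd (nat_lit 78) (nat_lit 0) (nat_lit 0) (XT.lf (nat_lit 0) (nat_lit 2750679348) (nat_lit 608) (nat_lit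 5654818172) (nat_lit 76) (nat_lit 366326311) (nat_lit 128) (nat_lit 5) (nat_lit 136) (nat_lit 5) (nat_lit 129) (nat_lit 5) (nat_lit 296) (nat_lit 265) (nat_lit 219)) (XT.lf (nat_lit 0) (nat_lit 4712472848) (nat_lit 608) (nat_lit 1132944740) (nat_lit 76) (nat_lit 3054570546) (nat_lit 128) (nat_lit 5) (nat_lit 136) (nat_lit 5) (nat_lit 129) (nat_lit 5) (nat_lit 297) (nat_lit 265) (nat_lit 218))))))) (XT.nd (nat_lit 858) (nat_lit 2204) (nat_lit 0) (XT.nd (nat_lit 390) (nat_lit 1292) (nat_lit 0) (XT.nd (nat_lit 156) (nat_lit 1064) (nat_lit 0) (XT.nd (nat_lit 78) (nat_lit 0) (nat_lit 0) (XT.lf (nat_lit 0) (nat_lit 3549651187) (nat_lit 456) (nat_lit 3174933182) (nat_lit 532) (nat_lit 2307761711) (nat_lit 122) (nat_lit 5) (nat_lit 128) (nat_lit 5) (nat_lit 129) (nat_lit 5) (nat_lit 298) (nat_lit 265) (nat_lit 217)) (XT.lf (nat_lit 0) (nat_lit 8352182397) (nat_lit 456) (nat_lit 414481886) (nat_lit 532)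 (nat_lit 403012272) (nat_lit 122) (nat_lit 5) (nat_lit 128) (nat_lit 5) (nat_lit 129) (nat_lit 5) (nat_lit 299) (nat_lit 265) (nat_lit 216))) (XT.nd (nat_lit 78) (nat_lit 456) (nat_lit 0) (XT.lf (nat_lit 0) (nat_lit 1549732650) (nat_lit 608) (nat_lit 5327211166) (nat_lit 76) (nat_lit 2433180191) (nat_lit 114) (nat_lit 5) (nat_lit 122) (nat_lit 5) (nat_lit 115) (nat_lit 5) (nat_lit 300) (nat_lit 265) (nat_lit 215)) (XT.nd (nat_lit 78) (nat_lit 456) (nat_lit 0) (XT.lf (nat_lit 0) (nat_lit 3525054357) (nat_lit 608) (nat_lit 562859041) (nat_lit 76) (nat_lit 5367671250) (nat_lit 114) (nat_lit 5) (nat_lit 122) (nat_lit 5) (nat_lit 115) (nat_lit 5) (nat_lit 301) (nat_lit 265) (nat_lit 214)) (XT.lf (nat_lit 0) (nat_lit 4387083926) (nat_lit 456) (nat_lit 1175552232) (nat_lit 532) (nat_lit 4042762849) (nat_lit 108) (nat_lit 5) (nat_lit 114) (nat_lit 5) (nat_lit 115) (nat_lit 5) (nat_lit 302) (nat_lit 265)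 (nat_lit 213))))) (XT.nd (nat_lit 234) (nat_lit 760) (nat_lit 0) (XT.nd (nat_lit 78) (nat_lit 532) (nat_lit 0) (XT.lf (nat_lit 0) (nat_lit 7646142519) (nat_lit 532) (nat_lit 323783382) (nat_lit 76) (nat_lit 1790315569) (nat_lit 108) (nat_lit 5) (nat_lit 115) (nat_lit 5) (nat_lit 109) (nat_lit 5) (nat_lit 303) (nat_lit 265) (nat_lit 212)) (XT.nd (nat_lit 78) (nat_lit 76) (nat_lit 0) (XT.lf (nat_lit 0) (nat_lit 4756313348) (nat_lit 456) (nat_lit 5055843091) (nat_lit 532) (nat_lit 107048021) (nat_lit 102) (nat_lit 5) (nat_lit 108) (nat_lit 5) (nat_lit 109) (nat_lit 5) (nat_lit 304) (nat_lit 265) (nat_lit 211)) (XT.lf (nat_lit 0) (nat_lit 1888157455) (nat_lit 532) (nat_lit 149101179) (nat_lit 76) (nat_lit 8046197608) (nat_lit 101) (nat_lit 5) (nat_lit 108) (nat_lit 5) (nat_lit 102) (nat_lit 5) (nat_lit 305) (nat_lit 265) (nat_lit 210)))) (XT.nd (nat_lit 78) (nat_lit 380) (nat_lit 0) (XT.lf (nat_lit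 0) (nat_lit 3964533088) (nat_lit 456) (nat_lit 5191620500) (nat_lit 76) (nat_lit 1095815161) (nat_lit 96) (nat_lit 5) (nat_lit 102) (nat_lit 5) (nat_lit 97) (nat_lit 5) (nat_lit 306) (nat_lit 265) (nat_lit 209)) (XT.nd (nat_lit 78) (nat_lit 380) (nat_lit 0) (XT.lf (nat_lit 0) (nat_lit 6089461765) (nat_lit 456) (nat_lit 58794499) (nat_lit 76) (nat_lit 4277759439) (nat_lit 96) (nat_lit 5) (nat_lit 102) (nat_lit 5) (nat_lit 97) (nat_lit 5) (nat_lit 307) (nat_lit 265) (nat_lit 208)) (XT.lf (nat_lit 0) (nat_lit 5290223477) (nat_lit 380) (nat_lit 3004369981) (nat_lit 456) (nat_lit 2310261930) (nat_lit 91) (nat_lit 5) (nat_lit 96) (nat_lit 5) (nat_lit 97) (nat_lit 5) (nat_lit 308) (nat_lit 265) (nat_lit 207)))))) (XT.nd (nat_lit 468) (nat_lit 1064) (nat_lit 0) (XT.nd (nat_lit 234) (nat_lit 684) (nat_lit 0) (XT.nd (nat_lit 78) (nat_lit 456) (nat_lit 0) (XT.lf (nat_lit 0) (nat_lit 10534874412) (nat_lit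 456) (nat_lit 32011737) (nat_lit 76) (nat_lit 223167338) (nat_lit 91) (nat_lit 5) (nat_lit 97) (nat_lit 5) (nat_lit 92) (nat_lit 5) (nat_lit 309) (nat_lit 265) (nat_lit 206)) (XT.nd (nat_lit 78) (nat_lit 0) (nat_lit 0) (XT.lf (nat_lit 0) (nat_lit 1874880449) (nat_lit 456) (nat_lit 5552597769) (nat_lit 76) (nat_lit 3551362447) (nat_lit 85) (nat_lit 5) (nat_lit 91) (nat_lit 5) (nat_lit 86) (nat_lit 5) (nat_lit 310) (nat_lit 265) (nat_lit 205)) (XT.lf (nat_lit 0) (nat_lit 4031367815) (nat_lit 456) (nat_lit 167642067) (nat_lit 76) (nat_lit 6975233863) (nat_lit 85) (nat_lit 5) (nat_lit 91) (nat_lit 5) (nat_lit 86) (nat_lit 5) (nat_lit 311) (nat_lit 265) (nat_lit 204)))) (XT.nd (nat_lit 78) (nat_lit 304) (nat_lit 0) (XT.lf (nat_lit 0) (nat_lit 5445579586) (nat_lit 380) (nat_lit 827596503) (nat_lit 456) (nat_lit 5101770088) (nat_lit 80) (nat_lit 5) (nat_lit 85) (nat_lit 5) (nat_lit 86) (nat_lit 5) (nat_lit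 312) (nat_lit 265) (nat_lit 203)) (XT.nd (nat_lit 78) (nat_lit 304) (nat_lit 0) (XT.lf (nat_lit 0) (nat_lit 8578123953) (nat_lit 456) (nat_lit 416496959) (nat_lit 76) (nat_lit 2587226629) (nat_lit 80) (nat_lit 5) (nat_lit 86) (nat_lit 5) (nat_lit 81) (nat_lit 5) (nat_lit 313) (nat_lit 265) (nat_lit 202)) (XT.lf (nat_lit 0) (nat_lit 5318443107) (nat_lit 304) (nat_lit 5662756226) (nat_lit 380) (nat_lit 812940070) (nat_lit 76) (nat_lit 5) (nat_lit 80) (nat_lit 5) (nat_lit 81) (nat_lit 5) (nat_lit 314) (nat_lit 265) (nat_lit 201))))) (XT.nd (nat_lit 234) (nat_lit 684) (nat_lit 0) (XT.nd (nat_lit 78) (nat_lit 304) (nat_lit 0) (XT.lf (nat_lit 0) (nat_lit 1389473902) (nat_lit 380) (nat_lit 831795254) (nat_lit 76) (nat_lit 9791942086) (nat_lit 75) (nat_lit 5) (nat_lit 80) (nat_lit 5) (nat_lit 76) (nat_lit 5) (nat_lit 315) (nat_lit 265) (nat_lit 200)) (XT.nd (nat_lit 78) (nat_lit 0) (nat_lit 0) (XT.lf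 (nat_lit 0) (nat_lit 3673910871) (nat_lit 380) (nat_lit 7217720638) (nat_lit 76) (nat_lit 1346061914) (nat_lit 71) (nat_lit 5) (nat_lit 76) (nat_lit 5) (nat_lit 72) (nat_lit 5) (nat_lit 316) (nat_lit 265) (nat_lit 199)) (XT.lf (nat_lit 0) (nat_lit 6028469889) (nat_lit 380) (nat_lit 1464873663) (nat_lit 76) (nat_lit 4975565790) (nat_lit 71) (nat_lit 5) (nat_lit 76) (nat_lit 5) (nat_lit 72) (nat_lit 5) (nat_lit 317) (nat_lit 265) (nat_lit 198)))) (XT.nd (nat_lit 78) (nat_lit 380) (nat_lit 0) (XT.lf (nat_lit 0) (nat_lit 4511225379) (nat_lit 304) (nat_lit 3957759822) (nat_lit 380) (nat_lit 4237662523) (nat_lit 67) (nat_lit 5) (nat_lit 71) (nat_lit 5) (nat_lit 72) (nat_lit 5) (nat_lit 318) (nat_lit 265) (nat_lit 197)) (XT.nd (nat_lit 78) (nat_lit 380) (nat_lit 0) (XT.lf (nat_lit 0) (nat_lit 10659638579) (nat_lit 304) (nat_lit 310285820) (nat_lit 380) (nat_lit 1982021853) (nat_lit 67) (nat_lit 5) (nat_lit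 71) (nat_lit 5) (nat_lit 72) (nat_lit 5) (nat_lit 319) (nat_lit 265) (nat_lit 196)) (XT.lf (nat_lit 0) (nat_lit 377723534) (nat_lit 380) (nat_lit 9414979851) (nat_lit 76) (nat_lit 3410550778) (nat_lit 62) (nat_lit 5) (nat_lit 67) (nat_lit 5) (nat_lit 63) (nat_lit 5) (nat_lit 320) (nat_lit 265) (nat_lit 195))))))))
noncomputable def xc125 : XT := (XT.nd (nat_lit 1794) (nat_lit 1216) (nat_lit 0) (XT.nd (nat_lit 858) (nat_lit 912) (nat_lit 0) (XT.nd (nat_lit 390) (nat_lit 760) (nat_lit 0) (XT.nd (nat_lit 156) (nat_lit 304) (nat_lit 0) (XT.nd (nat_lit 78) (nat_lit 228) (nat_lit 0) (XT.lf (nat_lit 0) (nat_lit 2768136214) (nat_lit 380) (nat_lit 3422959608) (nat_lit 76) (nat_lit 7270465913) (nat_lit 62) (nat_lit 5) (nat_lit 67) (nat_lit 5) (nat_lit 63) (nat_lit 5) (nat_lit 321) (nat_lit 265) (nat_lit 194)) (XT.lf (nat_lit 0) (nat_lit 2766998604) (nat_lit 228) (nat_lit 2463901987) (nat_lit 304) (nat_lit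 8496738076) (nat_lit 59) (nat_lit 5) (nat_lit 62) (nat_lit 5) (nat_lit 63) (nat_lit 5) (nat_lit 322) (nat_lit 265) (nat_lit 193))) (XT.nd (nat_lit 78) (nat_lit 304) (nat_lit 0) (XT.lf (nat_lit 0) (nat_lit 7790034707) (nat_lit 304) (nat_lit 4837573378) (nat_lit 76) (nat_lit 1373453384) (nat_lit 59) (nat_lit 5) (nat_lit 63) (nat_lit 5) (nat_lit 60) (nat_lit 5) (nat_lit 323) (nat_lit 265) (nat_lit 192)) (XT.nd (nat_lit 78) (nat_lit 0) (nat_lit 0) (XT.lf (nat_lit 0) (nat_lit 1437724351) (nat_lit 304) (nat_lit 9001541638) (nat_lit 380) (nat_lit 3843058328) (nat_lit 55) (nat_lit 5) (nat_lit 59) (nat_lit 5) (nat_lit 60) (nat_lit 5) (nat_lit 324) (nat_lit 265) (nat_lit 191)) (XT.lf (nat_lit 0) (nat_lit 7965669781) (nat_lit 304) (nat_lit 5226652941) (nat_lit 380) (nat_lit 1379007847) (nat_lit 55) (nat_lit 5) (nat_lit 59) (nat_lit 5) (nat_lit 60) (nat_lit 5) (nat_lit 325) (nat_lit 265) (nat_lit 190)))))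 (XT.nd (nat_lit 234) (nat_lit 456) (nat_lit 0) (XT.nd (nat_lit 78) (nat_lit 228) (nat_lit 0) (XT.lf (nat_lit 0) (nat_lit 1112290956) (nat_lit 380) (nat_lit 224970642) (nat_lit 76) (nat_lit 13532166831) (nat_lit 54) (nat_lit 5) (nat_lit 59) (nat_lit 5) (nat_lit 55) (nat_lit 5) (nat_lit 326) (nat_lit 265) (nat_lit 189)) (XT.nd (nat_lit 78) (nat_lit 0) (nat_lit 0) (XT.lf (nat_lit 0) (nat_lit 3715327479) (nat_lit 304) (nat_lit 8775650883) (nat_lit 76) (nat_lit 2683172717) (nat_lit 51) (nat_lit 5) (nat_lit 55) (nat_lit 5) (nat_lit 52) (nat_lit 5) (nat_lit 327) (nat_lit 265) (nat_lit 188)) (XT.lf (nat_lit 0) (nat_lit 6388900464) (nat_lit 304) (nat_lit 2309501092) (nat_lit 76) (nat_lit 6789872455) (nat_lit 51) (nat_lit 5) (nat_lit 55) (nat_lit 5) (nat_lit 52) (nat_lit 5) (nat_lit 328) (nat_lit 265) (nat_lit 187)))) (XT.nd (nat_lit 78) (nat_lit 228) (nat_lit 0) (XT.lf (nat_lit 0) (nat_lit 4403970551)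 (nat_lit 228) (nat_lit 4758627143) (nat_lit 304) (nat_lit 6648656458) (nat_lit 48) (nat_lit 5) (nat_lit 51) (nat_lit 5) (nat_lit 52) (nat_lit 5) (nat_lit 329) (nat_lit 265) (nat_lit 186)) (XT.nd (nat_lit 78) (nat_lit 228) (nat_lit 0) (XT.lf (nat_lit 0) (nat_lit 11333908490) (nat_lit 228) (nat_lit 686844791) (nat_lit 304) (nat_lit 4123163121) (nat_lit 48) (nat_lit 5) (nat_lit 51) (nat_lit 5) (nat_lit 52) (nat_lit 5) (nat_lit 330) (nat_lit 265) (nat_lit 185)) (XT.lf (nat_lit 0) (nat_lit 1957759594) (nat_lit 228) (nat_lit 13037899119) (nat_lit 304) (nat_lit 1489998904) (nat_lit 45) (nat_lit 5) (nat_lit 48) (nat_lit 5) (nat_lit 49) (nat_lit 5) (nat_lit 331) (nat_lit 265) (nat_lit 184)))))) (XT.nd (nat_lit 468) (nat_lit 456) (nat_lit 0) (XT.nd (nat_lit 234) (nat_lit 152) (nat_lit 0) (XT.nd (nat_lit 78) (nat_lit 228) (nat_lit 0) (XT.lf (nat_lit 0) (nat_lit 1232723580) (nat_lit 304) (nat_lit 7860121314)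 (nat_lit 76) (nat_lit 7743448940) (nat_lit 44) (nat_lit 5) (nat_lit 48) (nat_lit 5) (nat_lit 45) (nat_lit 5) (nat_lit 332) (nat_lit 265) (nat_lit 183)) (XT.nd (nat_lit 78) (nat_lit 228) (nat_lit 0) (XT.lf (nat_lit 0) (nat_lit 3986363822) (nat_lit 304) (nat_lit 1038188490) (nat_lit 76) (nat_lit 12173105513) (nat_lit 44) (nat_lit 5) (nat_lit 48) (nat_lit 5) (nat_lit 45) (nat_lit 5) (nat_lit 333) (nat_lit 265) (nat_lit 182)) (XT.lf (nat_lit 0) (nat_lit 6076763688) (nat_lit 228) (nat_lit 784053040) (nat_lit 304) (nat_lit 10707925894) (nat_lit 41) (nat_lit 5) (nat_lit 44) (nat_lit 5) (nat_lit 45) (nat_lit 5) (nat_lit 334) (nat_lit 265) (nat_lit 181)))) (XT.nd (nat_lit 78) (nat_lit 152) (nat_lit 0) (XT.lf (nat_lit 0) (nat_lit 9846533687) (nat_lit 304) (nat_lit 4589199495) (nat_lit 76) (nat_lit 3514501100) (nat_lit 41) (nat_lit 5) (nat_lit 45) (nat_lit 5) (nat_lit 42) (nat_lit 5) (nat_lit 335) (nat_lit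 265) (nat_lit 180)) (XT.nd (nat_lit 78) (nat_lit 0) (nat_lit 0) (XT.lf (nat_lit 0) (nat_lit 2532762407) (nat_lit 152) (nat_lit 10401746446) (nat_lit 228) (nat_lit 5408305736) (nat_lit 39) (nat_lit 5) (nat_lit 41) (nat_lit 5) (nat_lit 42) (nat_lit 5) (nat_lit 336) (nat_lit 265) (nat_lit 179)) (XT.lf (nat_lit 0) (nat_lit 9933185737) (nat_lit 152) (nat_lit 6209141120) (nat_lit 228) (nat_lit 2604053124) (nat_lit 39) (nat_lit 5) (nat_lit 41) (nat_lit 5) (nat_lit 42) (nat_lit 5) (nat_lit 337) (nat_lit 265) (nat_lit 178))))) (XT.nd (nat_lit 234) (nat_lit 152) (nat_lit 0) (XT.nd (nat_lit 78) (nat_lit 228) (nat_lit 0) (XT.lf (nat_lit 0) (nat_lit 259991305) (nat_lit 228) (nat_lit 1637978972) (nat_lit 76) (nat_lit 17264586108) (nat_lit 38) (nat_lit 5) (nat_lit 41) (nat_lit 5) (nat_lit 39) (nat_lit 5) (nat_lit 338) (nat_lit 265) (nat_lit 177)) (XT.nd (nat_lit 78) (nat_lit 0) (nat_lit 0) (XT.lf (nat_lit 0)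 (nat_lit 3220403078) (nat_lit 304) (nat_lit 13802342707) (nat_lit 76) (nat_lit 2565837034) (nat_lit 35) (nat_lit 5) (nat_lit 39) (nat_lit 5) (nat_lit 36) (nat_lit 5) (nat_lit 339) (nat_lit 265) (nat_lit 176)) (XT.lf (nat_lit 0) (nat_lit 6287054313) (nat_lit 304) (nat_lit 6607255273) (nat_lit 76) (nat_lit 7132578780) (nat_lit 35) (nat_lit 5) (nat_lit 39) (nat_lit 5) (nat_lit 36) (nat_lit 5) (nat_lit 340) (nat_lit 265) (nat_lit 175)))) (XT.nd (nat_lit 78) (nat_lit 0) (nat_lit 0) (XT.lf (nat_lit 0) (nat_lit 791787230) (nat_lit 152) (nat_lit 8643986458) (nat_lit 228) (nat_lit 11042887850) (nat_lit 33) (nat_lit 5) (nat_lit 35) (nat_lit 5) (nat_lit 36) (nat_lit 5) (nat_lit 341) (nat_lit 265) (nat_lit 174)) (XT.nd (nat_lit 78) (nat_lit 0) (nat_lit 0) (XT.lf (nat_lit 0) (nat_lit 8521163209) (nat_lit 152) (nat_lit 4207219854) (nat_lit 228) (nat_lit 8214141907) (nat_lit 33) (nat_lit 5) (nat_lit 35) (nat_lit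 5) (nat_lit 36) (nat_lit 5) (nat_lit 342) (nat_lit 265) (nat_lit 173)) (XT.lf (nat_lit 0) (nat_lit 16106377126) (nat_lit 228) (nat_lit 4968092802) (nat_lit 76) (nat_lit 346255524) (nat_lit 33) (nat_lit 5) (nat_lit 36) (nat_lit 5) (nat_lit 34) (nat_lit 5) (nat_lit 343) (nat_lit 265) (nat_lit 172))))))) (XT.nd (nat_lit 936) (nat_lit 456) (nat_lit 0) (XT.nd (nat_lit 468) (nat_lit 380) (nat_lit 0) (XT.nd (nat_lit 234) (nat_lit 152) (nat_lit 0) (XT.nd (nat_lit 78) (nat_lit 76) (nat_lit 0) (XT.lf (nat_lit 0) (nat_lit 2693738508) (nat_lit 152) (nat_lit 16943134041) (nat_lit 228) (nat_lit 2274883330) (nat_lit 31) (nat_lit 5) (nat_lit 33) (nat_lit 5) (nat_lit 34) (nat_lit 5) (nat_lit 344) (nat_lit 265) (nat_lit 171)) (XT.nd (nat_lit 78) (nat_lit 0) (nat_lit 0) (XT.lf (nat_lit 0) (nat_lit 873395809) (nat_lit 228) (nat_lit 11763502303) (nat_lit 76) (nat_lit 9779360141) (nat_lit 30) (nat_lit 5) (nat_lit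 33) (nat_lit 5) (nat_lit 31) (nat_lit 5) (nat_lit 345) (nat_lit 265) (nat_lit 170)) (XT.lf (nat_lit 0) (nat_lit 4054540764) (nat_lit 228) (nat_lit 4133150196) (nat_lit 76) (nat_lit 14748022003) (nat_lit 30) (nat_lit 5) (nat_lit 33) (nat_lit 5) (nat_lit 31) (nat_lit 5) (nat_lit 346) (nat_lit 265) (nat_lit 169)))) (XT.nd (nat_lit 78) (nat_lit 0) (nat_lit 0) (XT.lf (nat_lit 0) (nat_lit 3775242393) (nat_lit 152) (nat_lit 3576769889) (nat_lit 228) (nat_lit 16118128948) (nat_lit 28) (nat_lit 5) (nat_lit 30) (nat_lit 5) (nat_lit 31) (nat_lit 5) (nat_lit 347) (nat_lit 265) (nat_lit 168)) (XT.nd (nat_lit 78) (nat_lit 0) (nat_lit 0) (XT.lf (nat_lit 0) (nat_lit 10786558040) (nat_lit 228) (nat_lit 12050103914) (nat_lit 76) (nat_lit 1182812083) (nat_lit 28) (nat_lit 5) (nat_lit 31) (nat_lit 5) (nat_lit 29) (nat_lit 5) (nat_lit 348) (nat_lit 265) (nat_lit 167)) (XT.lf (nat_lit 0) (nat_lit 14344728067) (nat_lit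 228) (nat_lit 4235341950) (nat_lit 76) (nat_lit 6004614900) (nat_lit 28) (nat_lit 5) (nat_lit 31) (nat_lit 5) (nat_lit 29) (nat_lit 5) (nat_lit 349) (nat_lit 265) (nat_lit 166))))) (XT.nd (nat_lit 234) (nat_lit 228) (nat_lit 0) (XT.nd (nat_lit 78) (nat_lit 0) (nat_lit 0) (XT.lf (nat_lit 0) (nat_lit 3866037913) (nat_lit 152) (nat_lit 14166374151) (nat_lit 228) (nat_lit 7133772258) (nat_lit 26) (nat_lit 5) (nat_lit 28) (nat_lit 5) (nat_lit 29) (nat_lit 5) (nat_lit 350) (nat_lit 265) (nat_lit 165)) (XT.nd (nat_lit 78) (nat_lit 0) (nat_lit 0) (XT.lf (nat_lit 0) (nat_lit 12274242336) (nat_lit 152) (nat_lit 9585056834) (nat_lit 228) (nat_lit 3904987184) (nat_lit 26) (nat_lit 5) (nat_lit 28) (nat_lit 5) (nat_lit 29) (nat_lit 5) (nat_lit 351) (nat_lit 265) (nat_lit 164)) (XT.lf (nat_lit 0) (nat_lit 20912326686) (nat_lit 152) (nat_lit 4874883621) (nat_lit 228) (nat_lit 593549008) (nat_lit 26) (nat_lit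 5) (nat_lit 28) (nat_lit 5) (nat_lit 29) (nat_lit 5) (nat_lit 352) (nat_lit 265) (nat_lit 163)))) (XT.nd (nat_lit 78) (nat_lit 0) (nat_lit 0) (XT.lf (nat_lit 0) (nat_lit 2775868080) (nat_lit 228) (nat_lit 24215379820) (nat_lit 76) (nat_lit 23271395) (nat_lit 23) (nat_lit 5) (nat_lit 26) (nat_lit 5) (nat_lit 24) (nat_lit 5) (nat_lit 353) (nat_lit 265) (nat_lit 162)) (XT.nd (nat_lit 78) (nat_lit 0) (nat_lit 0) (XT.lf (nat_lit 0) (nat_lit 6325047457) (nat_lit 228) (nat_lit 16315603058) (nat_lit 76) (nat_lit 5023760141) (nat_lit 23) (nat_lit 5) (nat_lit 26) (nat_lit 5) (nat_lit 24) (nat_lit 5) (nat_lit 354) (nat_lit 265) (nat_lit 161)) (XT.lf (nat_lit 0) (nat_lit 9967669363) (nat_lit 228) (nat_lit 8200303105) (nat_lit 76) (nat_lit 10166230061) (nat_lit 23) (nat_lit 5) (nat_lit 26) (nat_lit 5) (nat_lit 24) (nat_lit 5) (nat_lit 355) (nat_lit 265) (nat_lit 160)))))) (XT.nd (nat_lit 468) (nat_lit 152)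 (nat_lit 0) (XT.nd (nat_lit 234) (nat_lit 152) (nat_lit 0) (XT.nd (nat_lit 78) (nat_lit 0) (nat_lit 0) (XT.lf (nat_lit 0) (nat_lit 140349809) (nat_lit 152) (nat_lit 13567915992) (nat_lit 228) (nat_lit 15316173893) (nat_lit 21) (nat_lit 5) (nat_lit 23) (nat_lit 5) (nat_lit 24) (nat_lit 5) (nat_lit 356) (nat_lit 265) (nat_lit 159)) (XT.nd (nat_lit 78) (nat_lit 0) (nat_lit 0) (XT.lf (nat_lit 0) (nat_lit 8878680078) (nat_lit 152) (nat_lit 8752723917) (nat_lit 228) (nat_lit 12101882316) (nat_lit 21) (nat_lit 5) (nat_lit 23) (nat_lit 5) (nat_lit 24) (nat_lit 5) (nat_lit 357) (nat_lit 265) (nat_lit 158)) (XT.lf (nat_lit 0) (nat_lit 17859121025) (nat_lit 152) (nat_lit 3800995775) (nat_lit 228) (nat_lit 8803656812) (nat_lit 21) (nat_lit 5) (nat_lit 23) (nat_lit 5) (nat_lit 24) (nat_lit 5) (nat_lit 358) (nat_lit 265) (nat_lit 157)))) (XT.nd (nat_lit 78) (nat_lit 152) (nat_lit 0) (XT.lf (nat_lit 0) (nat_lit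 25810340054) (nat_lit 228) (nat_lit 4139435854) (nat_lit 76) (nat_lit 1266391511) (nat_lit 21) (nat_lit 5) (nat_lit 24) (nat_lit 5) (nat_lit 22) (nat_lit 4) (nat_lit 359) (nat_lit 265) (nat_lit 156)) (XT.nd (nat_lit 78) (nat_lit 76) (nat_lit 0) (XT.lf (nat_lit 0) (nat_lit 4612948111) (nat_lit 76) (nat_lit 25542602413) (nat_lit 152) (nat_lit 1833479130) (nat_lit 20) (nat_lit 5) (nat_lit 21) (nat_lit 5) (nat_lit 22) (nat_lit 4) (nat_lit 360) (nat_lit 265) (nat_lit 155)) (XT.lf (nat_lit 0) (nat_lit 1840764676) (nat_lit 152) (nat_lit 19108446427) (nat_lit 76) (nat_lit 11834422250) (nat_lit 19) (nat_lit 5) (nat_lit 21) (nat_lit 5) (nat_lit 20) (nat_lit 5) (nat_lit 361) (nat_lit 265) (nat_lit 154))))) (XT.nd (nat_lit 234) (nat_lit 0) (nat_lit 0) (XT.nd (nat_lit 78) (nat_lit 152) (nat_lit 0) (XT.lf (nat_lit 0) (nat_lit 5577252602) (nat_lit 152) (nat_lit 10629597188) (nat_lit 76) (nat_lit 17395024831)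 (nat_lit 19) (nat_lit 5) (nat_lit 21) (nat_lit 5) (nat_lit 20) (nat_lit 5) (nat_lit 362) (nat_lit 265) (nat_lit 153)) (XT.nd (nat_lit 78) (nat_lit 152) (nat_lit 0) (XT.lf (nat_lit 0) (nat_lit 9415027320) (nat_lit 152) (nat_lit 1914500602) (nat_lit 76) (nat_lit 23115469238) (nat_lit 19) (nat_lit 5) (nat_lit 21) (nat_lit 5) (nat_lit 20) (nat_lit 5) (nat_lit 363) (nat_lit 265) (nat_lit 152)) (XT.lf (nat_lit 0) (nat_lit 7184656999) (nat_lit 152) (nat_lit 6241848545) (nat_lit 228) (nat_lit 21885160238) (nat_lit 17) (nat_lit 5) (nat_lit 19) (nat_lit 5) (nat_lit 20) (nat_lit 5) (nat_lit 364) (nat_lit 265) (nat_lit 151)))) (XT.nd (nat_lit 78) (nat_lit 0) (nat_lit 0) (XT.lf (nat_lit 0) (nat_lit 16578616754) (nat_lit 152) (nat_lit 988689201) (nat_lit 228) (nat_lit 18636768409) (nat_lit 17) (nat_lit 5) (nat_lit 19) (nat_lit 5) (nat_lit 20) (nat_lit 5) (nat_lit 365) (nat_lit 265) (nat_lit 150)) (XT.nd (nat_lit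 78) (nat_lit 0) (nat_lit 0) (XT.lf (nat_lit 0) (nat_lit 21864718790) (nat_lit 228) (nat_lit 10928522786) (nat_lit 76) (nat_lit 4329050942) (nat_lit 17) (nat_lit 5) (nat_lit 20) (nat_lit 5) (nat_lit 18) (nat_lit 4) (nat_lit 366) (nat_lit 265) (nat_lit 149)) (XT.lf (nat_lit 0) (nat_lit 26291018563) (nat_lit 228) (nat_lit 1997124540) (nat_lit 76) (nat_lit 9779923883) (nat_lit 17) (nat_lit 5) (nat_lit 20) (nat_lit 5) (nat_lit 18) (nat_lit 4) (nat_lit 367) (nat_lit 265) (nat_lit 148))))))))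
noncomputable def xc126 : XT := (XT.nd (nat_lit 1794) (nat_lit 76) (nat_lit 0) (XT.nd (nat_lit 858) (nat_lit 228) (nat_lit 0) (XT.nd (nat_lit 390) (nat_lit 76) (nat_lit 0) (XT.nd (nat_lit 156) (nat_lit 228) (nat_lit 0) (XT.nd (nat_lit 78) (nat_lit 0) (nat_lit 0) (XT.lf (nat_lit 0) (nat_lit 7329061534) (nat_lit 76) (nat_lit 23581958918) (nat_lit 152) (nat_lit 8129375295) (nat_lit 16) (nat_lit 5) (nat_lit 17) (nat_lit 5) (nat_lit 18) (nat_lit 4) (nat_lit 368) (nat_lit 265) (nat_lit 147)) (XT.lf (nat_lit 0) (nat_lit 16959960314) (nat_lit 76) (nat_lit 18720414724) (nat_lit 152) (nat_lit 4361204959) (nat_lit 16) (nat_lit 5) (nat_lit 17) (nat_lit 5) (nat_lit 18) (nat_lit 4) (nat_lit 369) (nat_lit 265) (nat_lit 146))) (XT.nd (nat_lit 78) (nat_lit 228) (nat_lit 0) (XT.lf (nat_lit 0) (nat_lit 26864240453) (nat_lit 76) (nat_lit 13719429612) (nat_lit 152) (nat_lit 489411883) (nat_lit 16) (nat_lit 5) (nat_lit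 17) (nat_lit 5) (nat_lit 18) (nat_lit 4) (nat_lit 370) (nat_lit 265) (nat_lit 145)) (XT.nd (nat_lit 78) (nat_lit 152) (nat_lit 0) (XT.lf (nat_lit 0) (nat_lit 3421296543) (nat_lit 152) (nat_lit 5118788859) (nat_lit 76) (nat_lit 33594711247) (nat_lit 15) (nat_lit 5) (nat_lit 17) (nat_lit 5) (nat_lit 16) (nat_lit 5) (nat_lit 371) (nat_lit 265) (nat_lit 144)) (XT.lf (nat_lit 0) (nat_lit 4308357441) (nat_lit 152) (nat_lit 3163838478) (nat_lit 228) (nat_lit 35755047602) (nat_lit 13) (nat_lit 5) (nat_lit 15) (nat_lit 5) (nat_lit 16) (nat_lit 5) (nat_lit 372) (nat_lit 265) (nat_lit 143))))) (XT.nd (nat_lit 234) (nat_lit 76) (nat_lit 0) (XT.nd (nat_lit 78) (nat_lit 0) (nat_lit 0) (XT.lf (nat_lit 0) (nat_lit 11710986903) (nat_lit 228) (nat_lit 30265888798) (nat_lit 76) (nat_lit 2373604238) (nat_lit 13) (nat_lit 5) (nat_lit 16) (nat_lit 5) (nat_lit 14) (nat_lit 4) (nat_lit 373) (nat_lit 265) (nat_lit 142))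 (XT.nd (nat_lit 78) (nat_lit 0) (nat_lit 0) (XT.lf (nat_lit 0) (nat_lit 16099864515) (nat_lit 228) (nat_lit 21399087680) (nat_lit 76) (nat_lit 8007780439) (nat_lit 13) (nat_lit 5) (nat_lit 16) (nat_lit 5) (nat_lit 14) (nat_lit 4) (nat_lit 374) (nat_lit 265) (nat_lit 141)) (XT.lf (nat_lit 0) (nat_lit 20612250948) (nat_lit 228) (nat_lit 12280322287) (nat_lit 76) (nat_lit 13805351075) (nat_lit 13) (nat_lit 5) (nat_lit 16) (nat_lit 5) (nat_lit 14) (nat_lit 4) (nat_lit 375) (nat_lit 265) (nat_lit 140)))) (XT.nd (nat_lit 78) (nat_lit 76) (nat_lit 0) (XT.lf (nat_lit 0) (nat_lit 25252089062) (nat_lit 228) (nat_lit 2901624764) (nat_lit 76) (nat_lit 19771381984) (nat_lit 13) (nat_lit 5) (nat_lit 16) (nat_lit 5) (nat_lit 14) (nat_lit 4) (nat_lit 376) (nat_lit 265) (nat_lit 139)) (XT.nd (nat_lit 78) (nat_lit 0) (nat_lit 0) (XT.lf (nat_lit 0) (nat_lit 6879442568) (nat_lit 76) (nat_lit 23210119926) (nat_lit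 152) (nat_lit 19097773045) (nat_lit 12) (nat_lit 5) (nat_lit 13) (nat_lit 5) (nat_lit 14) (nat_lit 4) (nat_lit 377) (nat_lit 265) (nat_lit 138)) (XT.lf (nat_lit 0) (nat_lit 17000318310) (nat_lit 76) (nat_lit 18093551301) (nat_lit 152) (nat_lit 15392927672) (nat_lit 12) (nat_lit 5) (nat_lit 13) (nat_lit 5) (nat_lit 14) (nat_lit 4) (nat_lit 378) (nat_lit 265) (nat_lit 137)))))) (XT.nd (nat_lit 468) (nat_lit 76) (nat_lit 0) (XT.nd (nat_lit 234) (nat_lit 152) (nat_lit 0) (XT.nd (nat_lit 78) (nat_lit 0) (nat_lit 0) (XT.lf (nat_lit 0) (nat_lit 27412097922) (nat_lit 76) (nat_lit 12828837884) (nat_lit 152) (nat_lit 11584534106) (nat_lit 12) (nat_lit 5) (nat_lit 13) (nat_lit 5) (nat_lit 14) (nat_lit 4) (nat_lit 379) (nat_lit 265) (nat_lit 136)) (XT.nd (nat_lit 78) (nat_lit 0) (nat_lit 0) (XT.lf (nat_lit 0) (nat_lit 38123879074) (nat_lit 76) (nat_lit 7411379439) (nat_lit 152) (nat_lit 7669264625) (nat_lit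 12) (nat_lit 5) (nat_lit 13) (nat_lit 5) (nat_lit 14) (nat_lit 4) (nat_lit 380) (nat_lit 265) (nat_lit 135)) (XT.lf (nat_lit 0) (nat_lit 49145021577) (nat_lit 76) (nat_lit 1836442265) (nat_lit 152) (nat_lit 3643698120) (nat_lit 12) (nat_lit 5) (nat_lit 13) (nat_lit 5) (nat_lit 14) (nat_lit 4) (nat_lit 381) (nat_lit 265) (nat_lit 134)))) (XT.nd (nat_lit 78) (nat_lit 0) (nat_lit 0) (XT.lf (nat_lit 0) (nat_lit 567037621) (nat_lit 152) (nat_lit 51645996143) (nat_lit 76) (nat_lit 3873020191) (nat_lit 10) (nat_lit 5) (nat_lit 12) (nat_lit 5) (nat_lit 11) (nat_lit 4) (nat_lit 382) (nat_lit 265) (nat_lit 133)) (XT.nd (nat_lit 78) (nat_lit 0) (nat_lit 0) (XT.lf (nat_lit 0) (nat_lit 4898151991) (nat_lit 152) (nat_lit 42885547578) (nat_lit 76) (nat_lit 9803977227) (nat_lit 10) (nat_lit 5) (nat_lit 12) (nat_lit 5) (nat_lit 11) (nat_lit 4) (nat_lit 383) (nat_lit 265) (nat_lit 132)) (XT.lf (nat_lit 0) (nat_lit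 9352619311) (nat_lit 152) (nat_lit 33873768829) (nat_lit 76) (nat_lit 15908162562) (nat_lit 10) (nat_lit 5) (nat_lit 12) (nat_lit 5) (nat_lit 11) (nat_lit 4) (nat_lit 384) (nat_lit 265) (nat_lit 131))))) (XT.nd (nat_lit 234) (nat_lit 76) (nat_lit 0) (XT.nd (nat_lit 78) (nat_lit 0) (nat_lit 0) (XT.lf (nat_lit 0) (nat_lit 13934331832) (nat_lit 152) (nat_lit 24602785527) (nat_lit 76) (nat_lit 22190909951) (nat_lit 10) (nat_lit 5) (nat_lit 12) (nat_lit 5) (nat_lit 11) (nat_lit 4) (nat_lit 385) (nat_lit 265) (nat_lit 130)) (XT.nd (nat_lit 78) (nat_lit 0) (nat_lit 0) (XT.lf (nat_lit 0) (nat_lit 18647292994) (nat_lit 152) (nat_lit 15064496812) (nat_lit 76) (nat_lit 28657709173) (nat_lit 10) (nat_lit 5) (nat_lit 12) (nat_lit 5) (nat_lit 11) (nat_lit 4) (nat_lit 386) (nat_lit 265) (nat_lit 129)) (XT.lf (nat_lit 0) (nat_lit 23495620917) (nat_lit 152) (nat_lit 5250568257) (nat_lit 76) (nat_lit 35314210829)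 (nat_lit 10) (nat_lit 5) (nat_lit 12) (nat_lit 5) (nat_lit 11) (nat_lit 4) (nat_lit 387) (nat_lit 265) (nat_lit 128)))) (XT.nd (nat_lit 78) (nat_lit 0) (nat_lit 0) (XT.lf (nat_lit 0) (nat_lit 4944051671) (nat_lit 76) (nat_lit 23587025583) (nat_lit 152) (nat_lit 37269704858) (nat_lit 9) (nat_lit 5) (nat_lit 10) (nat_lit 5) (nat_lit 11) (nat_lit 4) (nat_lit 388) (nat_lit 265) (nat_lit 127)) (XT.nd (nat_lit 78) (nat_lit 0) (nat_lit 0) (XT.lf (nat_lit 0) (nat_lit 15542038987) (nat_lit 76) (nat_lit 18222805244) (nat_lit 152) (nat_lit 33827118328) (nat_lit 9) (nat_lit 5) (nat_lit 10) (nat_lit 5) (nat_lit 11) (nat_lit 4) (nat_lit 389) (nat_lit 265) (nat_lit 126)) (XT.lf (nat_lit 0) (nat_lit 26448157463) (nat_lit 76) (nat_lit 12701861418) (nat_lit 152) (nat_lit 30287031856) (nat_lit 9) (nat_lit 5) (nat_lit 10) (nat_lit 5) (nat_lit 11) (nat_lit 4) (nat_lit 390) (nat_lit 265) (nat_lit 125))))))) (XT.nd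 (nat_lit 31278) (nat_lit 0) (nat_lit 15808) (XT.nd (nat_lit 468) (nat_lit 0) (nat_lit 0) (XT.nd (nat_lit 234) (nat_lit 76) (nat_lit 0) (XT.nd (nat_lit 78) (nat_lit 0) (nat_lit 0) (XT.lf (nat_lit 0) (nat_lit 37671936718) (nat_lit 76) (nat_lit 7019369981) (nat_lit 152) (nat_lit 26646352161) (nat_lit 9) (nat_lit 5) (nat_lit 10) (nat_lit 5) (nat_lit 11) (nat_lit 4) (nat_lit 391) (nat_lit 265) (nat_lit 124)) (XT.nd (nat_lit 78) (nat_lit 0) (nat_lit 0) (XT.lf (nat_lit 0) (nat_lit 49223183938) (nat_lit 76) (nat_lit 1170365647) (nat_lit 152) (nat_lit 22901898067) (nat_lit 9) (nat_lit 5) (nat_lit 10) (nat_lit 5) (nat_lit 11) (nat_lit 4) (nat_lit 392) (nat_lit 265) (nat_lit 123)) (XT.lf (nat_lit 0) (nat_lit 56308353772) (nat_lit 152) (nat_lit 14246759049) (nat_lit 0) (nat_lit 4755616274) (nat_lit 9) (nat_lit 5) (nat_lit 11) (nat_lit 4) (nat_lit 9) (nat_lit 4) (nat_lit 393) (nat_lit 265) (nat_lit 122))))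 (XT.nd (nat_lit 78) (nat_lit 76) (nat_lit 0) (XT.lf (nat_lit 0) (nat_lit 62407173697) (nat_lit 152) (nat_lit 4146908914) (nat_lit 0) (nat_lit 10832192913) (nat_lit 9) (nat_lit 5) (nat_lit 11) (nat_lit 4) (nat_lit 9) (nat_lit 4) (nat_lit 394) (nat_lit 265) (nat_lit 121)) (XT.nd (nat_lit 78) (nat_lit 0) (nat_lit 0) (XT.lf (nat_lit 0) (nat_lit 6371696824) (nat_lit 76) (nat_lit 62373639980) (nat_lit 76) (nat_lit 10777063773) (nat_lit 8) (nat_lit 4) (nat_lit 9) (nat_lit 5) (nat_lit 9) (nat_lit 4) (nat_lit 395) (nat_lit 265) (nat_lit 120)) (XT.lf (nat_lit 0) (nat_lit 17282377715) (nat_lit 76) (nat_lit 58028332906) (nat_lit 76) (nat_lit 6410790269) (nat_lit 8) (nat_lit 4) (nat_lit 9) (nat_lit 5) (nat_lit 9) (nat_lit 4) (nat_lit 396) (nat_lit 265) (nat_lit 119))))) (XT.nd (nat_lit 30576) (nat_lit 0) (nat_lit 18164) (XT.nd (nat_lit 30420) (nat_lit 0) (nat_lit 18696) (XT.lf (nat_lit 0) (nat_lit 28512135742)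 (nat_lit 76) (nat_lit 53556240169) (nat_lit 76) (nat_lit 1918341774) (nat_lit 8) (nat_lit 4) (nat_lit 9) (nat_lit 5) (nat_lit 9) (nat_lit 4) (nat_lit 397) (nat_lit 265) (nat_lit 118)) (XT.nd (nat_lit 78) (nat_lit 0) (nat_lit 0) (XT.lf (nat_lit 0) (nat_lit 994099332) (nat_lit 0) (nat_lit 994099332) (nat_lit 380) (nat_lit 1313152003) (nat_lit 254) (nat_lit 5) (nat_lit 254) (nat_lit 3) (nat_lit 259) (nat_lit 3) (nat_lit 266) (nat_lit 266) (nat_lit 248)) (XT.lf (nat_lit 0) (nat_lit 4927050335) (nat_lit 0) (nat_lit 1228437954) (nat_lit 380) (nat_lit 475584036) (nat_lit 254) (nat_lit 5) (nat_lit 254) (nat_lit 3) (nat_lit 259) (nat_lit 3) (nat_lit 267) (nat_lit 266) (nat_lit 247)))) (XT.nd (nat_lit 78) (nat_lit 0) (nat_lit 76) (XT.lf (nat_lit 76) (nat_lit 1258310211) (nat_lit 0) (nat_lit 375689845) (nat_lit 532) (nat_lit 5028212523) (nat_lit 248) (nat_lit 5) (nat_lit 247) (nat_lit 3) (nat_lit 254) (nat_lit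 5) (nat_lit 268) (nat_lit 266) (nat_lit 246)) (XT.nd (nat_lit 78) (nat_lit 0) (nat_lit 0) (XT.lf (nat_lit 0) (nat_lit 3738118968) (nat_lit 456) (nat_lit 2404996429) (nat_lit 532) (nat_lit 553066877) (nat_lit 248) (nat_lit 5) (nat_lit 254) (nat_lit 5) (nat_lit 255) (nat_lit 5) (nat_lit 269) (nat_lit 266) (nat_lit 245)) (XT.lf (nat_lit 76) (nat_lit 648186058) (nat_lit 0) (nat_lit 5188093545) (nat_lit 532) (nat_lit 897216998) (nat_lit 249) (nat_lit 5) (nat_lit 248) (nat_lit 5) (nat_lit 255) (nat_lit 5) (nat_lit 270) (nat_lit 266) (nat_lit 244)))))) (XT.nd (nat_lit 468) (nat_lit 1292) (nat_lit 0) (XT.nd (nat_lit 234) (nat_lit 608) (nat_lit 0) (XT.nd (nat_lit 78) (nat_lit 0) (nat_lit 0) (XT.lf (nat_lit 0) (nat_lit 1147907936) (nat_lit 532) (nat_lit 2986933991) (nat_lit 608) (nat_lit 2638582606) (nat_lit 241) (nat_lit 5) (nat_lit 248) (nat_lit 5) (nat_lit 249) (nat_lit 5) (nat_lit 271) (nat_lit 266)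 (nat_lit 243)) (XT.nd (nat_lit 78) (nat_lit 0) (nat_lit 0) (XT.lf (nat_lit 76) (nat_lit 153876287) (nat_lit 0) (nat_lit 3008072884) (nat_lit 608) (nat_lit 3654798370) (nat_lit 242) (nat_lit 5) (nat_lit 241) (nat_lit 5) (nat_lit 249) (nat_lit 5) (nat_lit 272) (nat_lit 266) (nat_lit 242)) (XT.lf (nat_lit 76) (nat_lit 3405940795) (nat_lit 0) (nat_lit 1786534924) (nat_lit 608) (nat_lit 1670437460) (nat_lit 242) (nat_lit 5) (nat_lit 241) (nat_lit 5) (nat_lit 249) (nat_lit 5) (nat_lit 273) (nat_lit 266) (nat_lit 241)))) (XT.nd (nat_lit 78) (nat_lit 0) (nat_lit 76) (XT.lf (nat_lit 0) (nat_lit 293300604) (nat_lit 608) (nat_lit 203060497) (nat_lit 684) (nat_lit 6416392934) (nat_lit 233) (nat_lit 5) (nat_lit 241) (nat_lit 5) (nat_lit 242) (nat_lit 5) (nat_lit 274) (nat_lit 266) (nat_lit 240)) (XT.nd (nat_lit 78) (nat_lit 0) (nat_lit 0) (XT.lf (nat_lit 0) (nat_lit 2250643952) (nat_lit 608) (nat_lit 3823619661)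 (nat_lit 684) (nat_lit 890488095) (nat_lit 234) (nat_lit 5) (nat_lit 242) (nat_lit 5) (nat_lit 243) (nat_lit 5) (nat_lit 275) (nat_lit 266) (nat_lit 239)) (XT.lf (nat_lit 0) (nat_lit 4204849825) (nat_lit 608) (nat_lit 478746104) (nat_lit 684) (nat_lit 2336768905) (nat_lit 234) (nat_lit 5) (nat_lit 242) (nat_lit 5) (nat_lit 243) (nat_lit 5) (nat_lit 276) (nat_lit 266) (nat_lit 238))))) (XT.nd (nat_lit 234) (nat_lit 684) (nat_lit 0) (XT.nd (nat_lit 78) (nat_lit 684) (nat_lit 0) (XT.lf (nat_lit 76) (nat_lit 2980580719) (nat_lit 0) (nat_lit 3198914401) (nat_lit 684) (nat_lit 899490807) (nat_lit 235) (nat_lit 5) (nat_lit 234) (nat_lit 5) (nat_lit 243) (nat_lit 5) (nat_lit 277) (nat_lit 266) (nat_lit 237)) (XT.nd (nat_lit 78) (nat_lit 0) (nat_lit 76) (XT.lf (nat_lit 0) (nat_lit 991796701) (nat_lit 684) (nat_lit 641213472) (nat_lit 760) (nat_lit 5508066376) (nat_lit 225) (nat_lit 5) (nat_lit 234) (nat_lit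 5) (nat_lit 235) (nat_lit 5) (nat_lit 278) (nat_lit 266) (nat_lit 236)) (XT.lf (nat_lit 0) (nat_lit 2886005423) (nat_lit 684) (nat_lit 4282353756) (nat_lit 76) (nat_lit 37653202) (nat_lit 226) (nat_lit 5) (nat_lit 235) (nat_lit 5) (nat_lit 227) (nat_lit 5) (nat_lit 279) (nat_lit 266) (nat_lit 235)))) (XT.nd (nat_lit 78) (nat_lit 760) (nat_lit 0) (XT.lf (nat_lit 0) (nat_lit 4797172291) (nat_lit 684) (nat_lit 725933311) (nat_lit 76) (nat_lit 1751159068) (nat_lit 226) (nat_lit 5) (nat_lit 235) (nat_lit 5) (nat_lit 227) (nat_lit 5) (nat_lit 280) (nat_lit 266) (nat_lit 234)) (XT.nd (nat_lit 78) (nat_lit 76) (nat_lit 0) (XT.lf (nat_lit 0) (nat_lit 2950462754) (nat_lit 684) (nat_lit 3782820015) (nat_lit 760) (nat_lit 612420820) (nat_lit 217) (nat_lit 5) (nat_lit 226) (nat_lit 5) (nat_lit 227) (nat_lit 5) (nat_lit 281) (nat_lit 266) (nat_lit 233)) (XT.lf (nat_lit 0) (nat_lit 1229913883) (nat_lit 760)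 (nat_lit 724893638) (nat_lit 76) (nat_lit 5465841101) (nat_lit 216) (nat_lit 5) (nat_lit 226) (nat_lit 5) (nat_lit 217) (nat_lit 5) (nat_lit 282) (nat_lit 266) (nat_lit 232))))))))
noncomputable def xc127 : XT := (XT.nd (nat_lit 1794) (nat_lit 3800) (nat_lit 0) (XT.nd (nat_lit 858) (nat_lit 3192) (nat_lit 0) (XT.nd (nat_lit 390) (nat_lit 2964) (nat_lit 0) (XT.nd (nat_lit 156) (nat_lit 1824) (nat_lit 0) (XT.nd (nat_lit 78) (nat_lit 0) (nat_lit 0) (XT.lf (nat_lit 0) (nat_lit 3065422903) (nat_lit 760) (nat_lit 20852842) (nat_lit 836) (nat_lit 4412405489) (nat_lit 206) (nat_lit 5) (nat_lit 216) (nat_lit 5) (nat_lit 217) (nat_lit 5) (nat_lit 283) (nat_lit 266) (nat_lit 231)) (XT.lf (nat_lit 0) (nat_lit 4967682425) (nat_lit 836) (nat_lit 659004786) (nat_lit 76) (nat_lit 1953435656) (nat_lit 206) (nat_lit 5) (nat_lit 217) (nat_lit 5) (nat_lit 207) (nat_lit 5) (nat_lit 284) (nat_lit 266) (nat_lit 230)))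 (XT.nd (nat_lit 78) (nat_lit 988) (nat_lit 0) (XT.lf (nat_lit 0) (nat_lit 3247506450) (nat_lit 836) (nat_lit 3634121994) (nat_lit 912) (nat_lit 783240722) (nat_lit 195) (nat_lit 5) (nat_lit 206) (nat_lit 5) (nat_lit 207) (nat_lit 5) (nat_lit 285) (nat_lit 266) (nat_lit 229)) (XT.nd (nat_lit 78) (nat_lit 912) (nat_lit 0) (XT.lf (nat_lit 0) (nat_lit 1031265913) (nat_lit 912) (nat_lit 522812180) (nat_lit 76) (nat_lit 6199340985) (nat_lit 194) (nat_lit 5) (nat_lit 206) (nat_lit 5) (nat_lit 195) (nat_lit 5) (nat_lit 286) (nat_lit 266) (nat_lit 228)) (XT.lf (nat_lit 0) (nat_lit 2871109803) (nat_lit 988) (nat_lit 4345661248) (nat_lit 76) (nat_lit 628154542) (nat_lit 182) (nat_lit 5) (nat_lit 195) (nat_lit 5) (nat_lit 183) (nat_lit 5) (nat_lit 287) (nat_lit 266) (nat_lit 227))))) (XT.nd (nat_lit 234) (nat_lit 1900) (nat_lit 0) (XT.nd (nat_lit 78) (nat_lit 1064) (nat_lit 0) (XT.lf (nat_lit 0) (nat_lit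 4734875657) (nat_lit 988) (nat_lit 346705692) (nat_lit 76) (nat_lit 2858662391) (nat_lit 182) (nat_lit 5) (nat_lit 195) (nat_lit 5) (nat_lit 183) (nat_lit 5) (nat_lit 288) (nat_lit 266) (nat_lit 226)) (XT.nd (nat_lit 78) (nat_lit 76) (nat_lit 0) (XT.lf (nat_lit 0) (nat_lit 3802766045) (nat_lit 988) (nat_lit 2837865367) (nat_lit 1064) (nat_lit 1398332213) (nat_lit 169) (nat_lit 5) (nat_lit 182) (nat_lit 5) (nat_lit 183) (nat_lit 5) (nat_lit 289) (nat_lit 266) (nat_lit 225)) (XT.lf (nat_lit 0) (nat_lit 407386538) (nat_lit 1064) (nat_lit 105538689) (nat_lit 76) (nat_lit 7629098592) (nat_lit 168) (nat_lit 5) (nat_lit 182) (nat_lit 5) (nat_lit 169) (nat_lit 5) (nat_lit 290) (nat_lit 266) (nat_lit 224)))) (XT.nd (nat_lit 78) (nat_lit 836) (nat_lit 0) (XT.lf (nat_lit 0) (nat_lit 2249393282) (nat_lit 1140) (nat_lit 4093218949) (nat_lit 76) (nat_lit 1904955532) (nat_lit 154) (nat_lit 5) (nat_lit 169)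 (nat_lit 5) (nat_lit 155) (nat_lit 5) (nat_lit 291) (nat_lit 266) (nat_lit 223)) (XT.nd (nat_lit 78) (nat_lit 0) (nat_lit 0) (XT.lf (nat_lit 0) (nat_lit 141405930) (nat_lit 836) (nat_lit 3965247225) (nat_lit 912) (nat_lit 4250935701) (nat_lit 143) (nat_lit 5) (nat_lit 154) (nat_lit 5) (nat_lit 155) (nat_lit 5) (nat_lit 292) (nat_lit 266) (nat_lit 222)) (XT.lf (nat_lit 0) (nat_lit 4543195289) (nat_lit 836) (nat_lit 1471211173) (nat_lit 912) (nat_lit 2456768246) (nat_lit 143) (nat_lit 5) (nat_lit 154) (nat_lit 5) (nat_lit 155) (nat_lit 5) (nat_lit 293) (nat_lit 266) (nat_lit 221)))))) (XT.nd (nat_lit 468) (nat_lit 1596) (nat_lit 0) (XT.nd (nat_lit 234) (nat_lit 456) (nat_lit 0) (XT.nd (nat_lit 78) (nat_lit 608) (nat_lit 0) (XT.lf (nat_lit 0) (nat_lit 442970604) (nat_lit 532) (nat_lit 7506055231) (nat_lit 608) (nat_lit 640157565) (nat_lit 136) (nat_lit 5) (nat_lit 143) (nat_lit 5) (nat_lit 144)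 (nat_lit 5) (nat_lit 294) (nat_lit 266) (nat_lit 220)) (XT.nd (nat_lit 78) (nat_lit 532) (nat_lit 0) (XT.lf (nat_lit 0) (nat_lit 1216738725) (nat_lit 608) (nat_lit 3755316594) (nat_lit 76) (nat_lit 3738126109) (nat_lit 135) (nat_lit 5) (nat_lit 143) (nat_lit 5) (nat_lit 136) (nat_lit 5) (nat_lit 295) (nat_lit 266) (nat_lit 219)) (XT.lf (nat_lit 0) (nat_lit 731998622) (nat_lit 532) (nat_lit 2348002027) (nat_lit 608) (nat_lit 5755808263) (nat_lit 128) (nat_lit 5) (nat_lit 135) (nat_lit 5) (nat_lit 136) (nat_lit 5) (nat_lit 296) (nat_lit 266) (nat_lit 218)))) (XT.nd (nat_lit 78) (nat_lit 456) (nat_lit 0) (XT.lf (nat_lit 0) (nat_lit 4998210317) (nat_lit 608) (nat_lit 3581139918) (nat_lit 76) (nat_lit 385976130) (nat_lit 128) (nat_lit 5) (nat_lit 136) (nat_lit 5) (nat_lit 129) (nat_lit 5) (nat_lit 297) (nat_lit 266) (nat_lit 217)) (XT.nd (nat_lit 78) (nat_lit 0) (nat_lit 0) (XT.lf (nat_lit 0) (nat_lit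 1031172098) (nat_lit 456) (nat_lit 5934539219) (nat_lit 532) (nat_lit 2133355617) (nat_lit 122) (nat_lit 5) (nat_lit 128) (nat_lit 5) (nat_lit 129) (nat_lit 5) (nat_lit 298) (nat_lit 266) (nat_lit 216)) (XT.lf (nat_lit 0) (nat_lit 5812771245) (nat_lit 456) (nat_lit 3175011631) (nat_lit 532) (nat_lit 249257801) (nat_lit 122) (nat_lit 5) (nat_lit 128) (nat_lit 5) (nat_lit 129) (nat_lit 5) (nat_lit 299) (nat_lit 266) (nat_lit 215))))) (XT.nd (nat_lit 234) (nat_lit 532) (nat_lit 0) (XT.nd (nat_lit 78) (nat_lit 456) (nat_lit 0) (XT.lf (nat_lit 0) (nat_lit 1326153343) (nat_lit 532) (nat_lit 305045314) (nat_lit 608) (nat_lit 7748364323) (nat_lit 114) (nat_lit 5) (nat_lit 121) (nat_lit 5) (nat_lit 122) (nat_lit 5) (nat_lit 300) (nat_lit 266) (nat_lit 214)) (XT.nd (nat_lit 78) (nat_lit 456) (nat_lit 0) (XT.lf (nat_lit 0) (nat_lit 3584292077) (nat_lit 608) (nat_lit 3307281649) (nat_lit 76) (nat_lit 2634156109)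 (nat_lit 114) (nat_lit 5) (nat_lit 122) (nat_lit 5) (nat_lit 115) (nat_lit 5) (nat_lit 301) (nat_lit 266) (nat_lit 213)) (XT.lf (nat_lit 0) (nat_lit 1567092924) (nat_lit 456) (nat_lit 4008939490) (nat_lit 532) (nat_lit 4100925244) (nat_lit 108) (nat_lit 5) (nat_lit 114) (nat_lit 5) (nat_lit 115) (nat_lit 5) (nat_lit 302) (nat_lit 266) (nat_lit 212)))) (XT.nd (nat_lit 78) (nat_lit 532) (nat_lit 0) (XT.lf (nat_lit 0) (nat_lit 6614206924) (nat_lit 456) (nat_lit 1009395891) (nat_lit 532) (nat_lit 2209312490) (nat_lit 108) (nat_lit 5) (nat_lit 114) (nat_lit 5) (nat_lit 115) (nat_lit 5) (nat_lit 303) (nat_lit 266) (nat_lit 211)) (XT.nd (nat_lit 78) (nat_lit 76) (nat_lit 0) (XT.lf (nat_lit 0) (nat_lit 1792966023) (nat_lit 456) (nat_lit 7940595636) (nat_lit 532) (nat_lit 260034315) (nat_lit 102) (nat_lit 5) (nat_lit 108) (nat_lit 5) (nat_lit 109) (nat_lit 5) (nat_lit 304) (nat_lit 266) (nat_lit 210))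 (XT.lf (nat_lit 0) (nat_lit 1720409053) (nat_lit 532) (nat_lit 3205857246) (nat_lit 76) (nat_lit 5232191955) (nat_lit 101) (nat_lit 5) (nat_lit 108) (nat_lit 5) (nat_lit 102) (nat_lit 5) (nat_lit 305) (nat_lit 266) (nat_lit 209))))))) (XT.nd (nat_lit 936) (nat_lit 1520) (nat_lit 0) (XT.nd (nat_lit 468) (nat_lit 1064) (nat_lit 0) (XT.nd (nat_lit 234) (nat_lit 456) (nat_lit 0) (XT.nd (nat_lit 78) (nat_lit 380) (nat_lit 0) (XT.lf (nat_lit 0) (nat_lit 1933535362) (nat_lit 380) (nat_lit 1805112322) (nat_lit 456) (nat_lit 6590100155) (nat_lit 96) (nat_lit 5) (nat_lit 101) (nat_lit 5) (nat_lit 102) (nat_lit 5) (nat_lit 306) (nat_lit 266) (nat_lit 208)) (XT.nd (nat_lit 78) (nat_lit 380) (nat_lit 0) (XT.lf (nat_lit 0) (nat_lit 5829279834) (nat_lit 456) (nat_lit 3265243557) (nat_lit 76) (nat_lit 1409332306) (nat_lit 96) (nat_lit 5) (nat_lit 102) (nat_lit 5) (nat_lit 97) (nat_lit 5) (nat_lit 307) (nat_lit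 266) (nat_lit 207)) (XT.lf (nat_lit 0) (nat_lit 1999948997) (nat_lit 380) (nat_lit 5986383249) (nat_lit 456) (nat_lit 2697836589) (nat_lit 91) (nat_lit 5) (nat_lit 96) (nat_lit 5) (nat_lit 97) (nat_lit 5) (nat_lit 308) (nat_lit 266) (nat_lit 206)))) (XT.nd (nat_lit 78) (nat_lit 456) (nat_lit 0) (XT.lf (nat_lit 0) (nat_lit 7450592863) (nat_lit 380) (nat_lit 2757673679) (nat_lit 456) (nat_lit 661680964) (nat_lit 91) (nat_lit 5) (nat_lit 96) (nat_lit 5) (nat_lit 97) (nat_lit 5) (nat_lit 309) (nat_lit 266) (nat_lit 205)) (XT.nd (nat_lit 78) (nat_lit 0) (nat_lit 0) (XT.lf (nat_lit 0) (nat_lit 1400170020) (nat_lit 456) (nat_lit 9077565945) (nat_lit 76) (nat_lit 583428608) (nat_lit 85) (nat_lit 5) (nat_lit 91) (nat_lit 5) (nat_lit 86) (nat_lit 5) (nat_lit 310) (nat_lit 266) (nat_lit 204)) (XT.lf (nat_lit 0) (nat_lit 3541031793) (nat_lit 456) (nat_lit 3712090829) (nat_lit 76) (nat_lit 4003941409) (nat_lit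 85) (nat_lit 5) (nat_lit 91) (nat_lit 5) (nat_lit 86) (nat_lit 5) (nat_lit 311) (nat_lit 266) (nat_lit 203))))) (XT.nd (nat_lit 234) (nat_lit 380) (nat_lit 0) (XT.nd (nat_lit 78) (nat_lit 304) (nat_lit 0) (XT.lf (nat_lit 0) (nat_lit 1811299743) (nat_lit 380) (nat_lit 3921434924) (nat_lit 456) (nat_lit 5726561767) (nat_lit 80) (nat_lit 5) (nat_lit 85) (nat_lit 5) (nat_lit 86) (nat_lit 5) (nat_lit 312) (nat_lit 266) (nat_lit 202)) (XT.nd (nat_lit 78) (nat_lit 304) (nat_lit 0) (XT.lf (nat_lit 0) (nat_lit 7538468887) (nat_lit 380) (nat_lit 458940033) (nat_lit 456) (nat_lit 3670023111) (nat_lit 80) (nat_lit 5) (nat_lit 85) (nat_lit 5) (nat_lit 86) (nat_lit 5) (nat_lit 313) (nat_lit 266) (nat_lit 201)) (XT.lf (nat_lit 0) (nat_lit 1517614523) (nat_lit 304) (nat_lit 8827412222) (nat_lit 380) (nat_lit 1536386142) (nat_lit 76) (nat_lit 5) (nat_lit 80) (nat_lit 5) (nat_lit 81) (nat_lit 5) (nat_lit 314)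 (nat_lit 266) (nat_lit 200)))) (XT.nd (nat_lit 78) (nat_lit 304) (nat_lit 0) (XT.lf (nat_lit 0) (nat_lit 665715052) (nat_lit 380) (nat_lit 4731677858) (nat_lit 76) (nat_lit 6703757155) (nat_lit 75) (nat_lit 5) (nat_lit 80) (nat_lit 5) (nat_lit 76) (nat_lit 5) (nat_lit 315) (nat_lit 266) (nat_lit 199)) (XT.nd (nat_lit 78) (nat_lit 0) (nat_lit 0) (XT.lf (nat_lit 0) (nat_lit 1037516390) (nat_lit 304) (nat_lit 1847016946) (nat_lit 380) (nat_lit 9443090593) (nat_lit 71) (nat_lit 5) (nat_lit 75) (nat_lit 5) (nat_lit 76) (nat_lit 5) (nat_lit 316) (nat_lit 266) (nat_lit 198)) (XT.lf (nat_lit 0) (nat_lit 5207522361) (nat_lit 380) (nat_lit 5537911620) (nat_lit 76) (nat_lit 1814375416) (nat_lit 71) (nat_lit 5) (nat_lit 76) (nat_lit 5) (nat_lit 72) (nat_lit 5) (nat_lit 317) (nat_lit 266) (nat_lit 197)))))) (XT.nd (nat_lit 468) (nat_lit 608) (nat_lit 0) (XT.nd (nat_lit 234) (nat_lit 608) (nat_lit 0) (XT.nd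 (nat_lit 78) (nat_lit 0) (nat_lit 0) (XT.lf (nat_lit 0) (nat_lit 338900715) (nat_lit 304) (nat_lit 7255617072) (nat_lit 380) (nat_lit 5204657384) (nat_lit 67) (nat_lit 5) (nat_lit 71) (nat_lit 5) (nat_lit 72) (nat_lit 5) (nat_lit 318) (nat_lit 266) (nat_lit 196)) (XT.nd (nat_lit 78) (nat_lit 0) (nat_lit 0) (XT.lf (nat_lit 0) (nat_lit 6469619483) (nat_lit 304) (nat_lit 3612645133) (nat_lit 380) (nat_lit 2962626016) (nat_lit 67) (nat_lit 5) (nat_lit 71) (nat_lit 5) (nat_lit 72) (nat_lit 5) (nat_lit 319) (nat_lit 266) (nat_lit 195)) (XT.lf (nat_lit 0) (nat_lit 12619900135) (nat_lit 380) (nat_lit 550669736) (nat_lit 76) (nat_lit 128191701) (nat_lit 67) (nat_lit 5) (nat_lit 72) (nat_lit 5) (nat_lit 68) (nat_lit 5) (nat_lit 320) (nat_lit 266) (nat_lit 194)))) (XT.nd (nat_lit 78) (nat_lit 228) (nat_lit 0) (XT.lf (nat_lit 0) (nat_lit 1706558527) (nat_lit 380) (nat_lit 7879597070) (nat_lit 76) (nat_lit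 3971675874) (nat_lit 62) (nat_lit 5) (nat_lit 67) (nat_lit 5) (nat_lit 63) (nat_lit 5) (nat_lit 321) (nat_lit 266) (nat_lit 193)) (XT.nd (nat_lit 78) (nat_lit 228) (nat_lit 0) (XT.lf (nat_lit 0) (nat_lit 4130309705) (nat_lit 380) (nat_lit 1760762788) (nat_lit 76) (nat_lit 7934025107) (nat_lit 62) (nat_lit 5) (nat_lit 67) (nat_lit 5) (nat_lit 63) (nat_lit 5) (nat_lit 322) (nat_lit 266) (nat_lit 192)) (XT.lf (nat_lit 0) (nat_lit 4597591370) (nat_lit 228) (nat_lit 2048908282) (nat_lit 304) (nat_lit 7453327329) (nat_lit 59) (nat_lit 5) (nat_lit 62) (nat_lit 5) (nat_lit 63) (nat_lit 5) (nat_lit 323) (nat_lit 266) (nat_lit 191))))) (XT.nd (nat_lit 234) (nat_lit 304) (nat_lit 0) (XT.nd (nat_lit 78) (nat_lit 304) (nat_lit 0) (XT.lf (nat_lit 0) (nat_lit 9250310266) (nat_lit 304) (nat_lit 3252094808) (nat_lit 76) (nat_lit 1880065097) (nat_lit 59) (nat_lit 5) (nat_lit 63) (nat_lit 5) (nat_lit 60) (nat_lit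 5) (nat_lit 324) (nat_lit 266) (nat_lit 190)) (XT.nd (nat_lit 78) (nat_lit 0) (nat_lit 0) (XT.lf (nat_lit 0) (nat_lit 3194495130) (nat_lit 304) (nat_lit 8765270431) (nat_lit 380) (nat_lit 2713036112) (nat_lit 55) (nat_lit 5) (nat_lit 59) (nat_lit 5) (nat_lit 60) (nat_lit 5) (nat_lit 325) (nat_lit 266) (nat_lit 189)) (XT.lf (nat_lit 0) (nat_lit 9868367107) (nat_lit 304) (nat_lit 4891882184) (nat_lit 380) (nat_lit 211335397) (nat_lit 55) (nat_lit 5) (nat_lit 59) (nat_lit 5) (nat_lit 60) (nat_lit 5) (nat_lit 326) (nat_lit 266) (nat_lit 188)))) (XT.nd (nat_lit 78) (nat_lit 0) (nat_lit 0) (XT.lf (nat_lit 0) (nat_lit 1436100798) (nat_lit 228) (nat_lit 874285807) (nat_lit 304) (nat_lit 12968560575) (nat_lit 51) (nat_lit 5) (nat_lit 54) (nat_lit 5) (nat_lit 55) (nat_lit 5) (nat_lit 327) (nat_lit 266) (nat_lit 187)) (XT.nd (nat_lit 78) (nat_lit 0) (nat_lit 0) (XT.lf (nat_lit 0) (nat_lit 4964512759) (nat_lit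 304) (nat_lit 7384351519) (nat_lit 76) (nat_lit 3244804526) (nat_lit 51) (nat_lit 5) (nat_lit 55) (nat_lit 5) (nat_lit 52) (nat_lit 5) (nat_lit 328) (nat_lit 266) (nat_lit 186)) (XT.lf (nat_lit 0) (nat_lit 7685155299) (nat_lit 304) (nat_lit 772408561) (nat_lit 76) (nat_lit 7460691568) (nat_lit 51) (nat_lit 5) (nat_lit 55) (nat_lit 5) (nat_lit 52) (nat_lit 5) (nat_lit 329) (nat_lit 266) (nat_lit 185))))))))
noncomputable def xc128 : XT := (XT.nd (nat_lit 1794) (nat_lit 988) (nat_lit 0) (XT.nd (nat_lit 858) (nat_lit 684) (nat_lit 0) (XT.nd (nat_lit 390) (nat_lit 456) (nat_lit 0) (XT.nd (nat_lit 156) (nat_lit 532) (nat_lit 0) (XT.nd (nat_lit 78) (nat_lit 0) (nat_lit 0) (XT.lf (nat_lit 0) (nat_lit 6126718432) (nat_lit 228) (nat_lit 4398462650) (nat_lit 304) (nat_lit 5726294901) (nat_lit 48) (nat_lit 5) (nat_lit 51) (nat_lit 5) (nat_lit 52) (nat_lit 5) (nat_lit 330) (nat_lit 266) (nat_lit 184)) (XT.lf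 (nat_lit 0) (nat_lit 13218225516) (nat_lit 228) (nat_lit 219175080) (nat_lit 304) (nat_lit 3157711169) (nat_lit 48) (nat_lit 5) (nat_lit 51) (nat_lit 5) (nat_lit 52) (nat_lit 5) (nat_lit 331) (nat_lit 266) (nat_lit 183))) (XT.nd (nat_lit 78) (nat_lit 304) (nat_lit 0) (XT.lf (nat_lit 0) (nat_lit 3573801779) (nat_lit 228) (nat_lit 12916520112) (nat_lit 304) (nat_lit 457162247) (nat_lit 45) (nat_lit 5) (nat_lit 48) (nat_lit 5) (nat_lit 49) (nat_lit 5) (nat_lit 332) (nat_lit 266) (nat_lit 182)) (XT.nd (nat_lit 78) (nat_lit 228) (nat_lit 0) (XT.lf (nat_lit 0) (nat_lit 2295443156) (nat_lit 304) (nat_lit 6562240813) (nat_lit 76) (nat_lit 8451607470) (nat_lit 44) (nat_lit 5) (nat_lit 48) (nat_lit 5) (nat_lit 45) (nat_lit 5) (nat_lit 333) (nat_lit 266) (nat_lit 181)) (XT.lf (nat_lit 0) (nat_lit 428032029) (nat_lit 228) (nat_lit 4677899220) (nat_lit 304) (nat_lit 12576376360) (nat_lit 41) (nat_lit 5) (nat_lit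 44) (nat_lit 5) (nat_lit 45) (nat_lit 5) (nat_lit 334) (nat_lit 266) (nat_lit 180))))) (XT.nd (nat_lit 234) (nat_lit 304) (nat_lit 0) (XT.nd (nat_lit 78) (nat_lit 152) (nat_lit 0) (XT.lf (nat_lit 0) (nat_lit 7733482153) (nat_lit 228) (nat_lit 314188380) (nat_lit 304) (nat_lit 10017460135) (nat_lit 41) (nat_lit 5) (nat_lit 44) (nat_lit 5) (nat_lit 45) (nat_lit 5) (nat_lit 335) (nat_lit 266) (nat_lit 179)) (XT.nd (nat_lit 78) (nat_lit 152) (nat_lit 0) (XT.lf (nat_lit 0) (nat_lit 11098989925) (nat_lit 304) (nat_lit 3270227851) (nat_lit 76) (nat_lit 4089604588) (nat_lit 41) (nat_lit 5) (nat_lit 45) (nat_lit 5) (nat_lit 42) (nat_lit 5) (nat_lit 336) (nat_lit 266) (nat_lit 178)) (XT.lf (nat_lit 0) (nat_lit 4051112048) (nat_lit 152) (nat_lit 10214481667) (nat_lit 228) (nat_lit 4598041842) (nat_lit 39) (nat_lit 5) (nat_lit 41) (nat_lit 5) (nat_lit 42) (nat_lit 5) (nat_lit 337) (nat_lit 266) (nat_lit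 177)))) (XT.nd (nat_lit 78) (nat_lit 304) (nat_lit 0) (XT.lf (nat_lit 0) (nat_lit 11631537396) (nat_lit 152) (nat_lit 5910641400) (nat_lit 228) (nat_lit 1737987275) (nat_lit 39) (nat_lit 5) (nat_lit 41) (nat_lit 5) (nat_lit 42) (nat_lit 5) (nat_lit 338) (nat_lit 266) (nat_lit 176)) (XT.nd (nat_lit 78) (nat_lit 228) (nat_lit 0) (XT.lf (nat_lit 0) (nat_lit 1166590019) (nat_lit 228) (nat_lit 308588935) (nat_lit 76) (nat_lit 18234217625) (nat_lit 38) (nat_lit 5) (nat_lit 41) (nat_lit 5) (nat_lit 39) (nat_lit 5) (nat_lit 339) (nat_lit 266) (nat_lit 175)) (XT.lf (nat_lit 0) (nat_lit 4207363951) (nat_lit 304) (nat_lit 12828392098) (nat_lit 76) (nat_lit 3112732503) (nat_lit 35) (nat_lit 5) (nat_lit 39) (nat_lit 5) (nat_lit 36) (nat_lit 5) (nat_lit 340) (nat_lit 266) (nat_lit 174)))))) (XT.nd (nat_lit 468) (nat_lit 304) (nat_lit 0) (XT.nd (nat_lit 234) (nat_lit 228) (nat_lit 0) (XT.nd (nat_lit 78) (nat_lit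 152) (nat_lit 0) (XT.lf (nat_lit 0) (nat_lit 7340082235) (nat_lit 304) (nat_lit 5457879833) (nat_lit 76) (nat_lit 7802789500) (nat_lit 35) (nat_lit 5) (nat_lit 39) (nat_lit 5) (nat_lit 36) (nat_lit 5) (nat_lit 341) (nat_lit 266) (nat_lit 173)) (XT.nd (nat_lit 78) (nat_lit 0) (nat_lit 0) (XT.lf (nat_lit 0) (nat_lit 2149922248) (nat_lit 152) (nat_lit 8420990659) (nat_lit 228) (nat_lit 10495564981) (nat_lit 33) (nat_lit 5) (nat_lit 35) (nat_lit 5) (nat_lit 36) (nat_lit 5) (nat_lit 342) (nat_lit 266) (nat_lit 172)) (XT.lf (nat_lit 0) (nat_lit 10072314029) (nat_lit 152) (nat_lit 3865169078) (nat_lit 228) (nat_lit 7607547228) (nat_lit 33) (nat_lit 5) (nat_lit 35) (nat_lit 5) (nat_lit 36) (nat_lit 5) (nat_lit 343) (nat_lit 266) (nat_lit 171)))) (XT.nd (nat_lit 78) (nat_lit 228) (nat_lit 0) (XT.lf (nat_lit 0) (nat_lit 17397092542) (nat_lit 228) (nat_lit 3838703514) (nat_lit 76) (nat_lit 802400265) (nat_lit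 33) (nat_lit 5) (nat_lit 36) (nat_lit 5) (nat_lit 34) (nat_lit 5) (nat_lit 344) (nat_lit 266) (nat_lit 170)) (XT.nd (nat_lit 78) (nat_lit 76) (nat_lit 0) (XT.lf (nat_lit 0) (nat_lit 4040449089) (nat_lit 152) (nat_lit 16981702209) (nat_lit 228) (nat_lit 1522173855) (nat_lit 31) (nat_lit 5) (nat_lit 33) (nat_lit 5) (nat_lit 34) (nat_lit 5) (nat_lit 345) (nat_lit 266) (nat_lit 169)) (XT.lf (nat_lit 0) (nat_lit 1681089108) (nat_lit 228) (nat_lit 10870979900) (nat_lit 76) (nat_lit 10512385587) (nat_lit 30) (nat_lit 5) (nat_lit 33) (nat_lit 5) (nat_lit 31) (nat_lit 5) (nat_lit 346) (nat_lit 266) (nat_lit 168))))) (XT.nd (nat_lit 234) (nat_lit 152) (nat_lit 0) (XT.nd (nat_lit 78) (nat_lit 152) (nat_lit 0) (XT.lf (nat_lit 0) (nat_lit 4934906525) (nat_lit 228) (nat_lit 3047991816) (nat_lit 76) (nat_lit 15617302121) (nat_lit 30) (nat_lit 5) (nat_lit 33) (nat_lit 5) (nat_lit 31) (nat_lit 5) (nat_lit 347)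 (nat_lit 266) (nat_lit 167)) (XT.nd (nat_lit 78) (nat_lit 0) (nat_lit 0) (XT.lf (nat_lit 0) (nat_lit 5085798110) (nat_lit 152) (nat_lit 3234914324) (nat_lit 228) (nat_lit 15830290777) (nat_lit 28) (nat_lit 5) (nat_lit 30) (nat_lit 5) (nat_lit 31) (nat_lit 5) (nat_lit 348) (nat_lit 266) (nat_lit 166)) (XT.lf (nat_lit 0) (nat_lit 11840695919) (nat_lit 228) (nat_lit 11230807893) (nat_lit 76) (nat_lit 1645863395) (nat_lit 28) (nat_lit 5) (nat_lit 31) (nat_lit 5) (nat_lit 29) (nat_lit 5) (nat_lit 349) (nat_lit 266) (nat_lit 165)))) (XT.nd (nat_lit 78) (nat_lit 152) (nat_lit 0) (XT.lf (nat_lit 0) (nat_lit 15484333150) (nat_lit 228) (nat_lit 3215995277) (nat_lit 76) (nat_lit 6599866890) (nat_lit 28) (nat_lit 5) (nat_lit 31) (nat_lit 5) (nat_lit 29) (nat_lit 5) (nat_lit 350) (nat_lit 266) (nat_lit 164)) (XT.nd (nat_lit 78) (nat_lit 0) (nat_lit 0) (XT.lf (nat_lit 0) (nat_lit 5117186698) (nat_lit 152)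 (nat_lit 14155714743) (nat_lit 228) (nat_lit 6626552562) (nat_lit 26) (nat_lit 5) (nat_lit 28) (nat_lit 5) (nat_lit 29) (nat_lit 5) (nat_lit 351) (nat_lit 266) (nat_lit 163)) (XT.lf (nat_lit 0) (nat_lit 13744574119) (nat_lit 152) (nat_lit 9449646759) (nat_lit 228) (nat_lit 3321910718) (nat_lit 26) (nat_lit 5) (nat_lit 28) (nat_lit 5) (nat_lit 29) (nat_lit 5) (nat_lit 352) (nat_lit 266) (nat_lit 162))))))) (XT.nd (nat_lit 858) (nat_lit 456) (nat_lit 0) (XT.nd (nat_lit 390) (nat_lit 152) (nat_lit 0) (XT.nd (nat_lit 156) (nat_lit 152) (nat_lit 0) (XT.nd (nat_lit 78) (nat_lit 152) (nat_lit 0) (XT.lf (nat_lit 0) (nat_lit 67139461) (nat_lit 228) (nat_lit 4542670186) (nat_lit 76) (nat_lit 22541883429) (nat_lit 25) (nat_lit 5) (nat_lit 28) (nat_lit 5) (nat_lit 26) (nat_lit 5) (nat_lit 353) (nat_lit 266) (nat_lit 161)) (XT.lf (nat_lit 0) (nat_lit 3520609471) (nat_lit 228) (nat_lit 23852153773) (nat_lit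 76) (nat_lit 431698772) (nat_lit 23) (nat_lit 5) (nat_lit 26) (nat_lit 5) (nat_lit 24) (nat_lit 5) (nat_lit 354) (nat_lit 266) (nat_lit 160))) (XT.nd (nat_lit 78) (nat_lit 152) (nat_lit 0) (XT.lf (nat_lit 0) (nat_lit 7156998248) (nat_lit 228) (nat_lit 15747122178) (nat_lit 76) (nat_lit 5570326571) (nat_lit 23) (nat_lit 5) (nat_lit 26) (nat_lit 5) (nat_lit 24) (nat_lit 5) (nat_lit 355) (nat_lit 266) (nat_lit 159)) (XT.nd (nat_lit 78) (nat_lit 152) (nat_lit 0) (XT.lf (nat_lit 0) (nat_lit 10890193976) (nat_lit 228) (nat_lit 7419177274) (nat_lit 76) (nat_lit 10855540871) (nat_lit 23) (nat_lit 5) (nat_lit 26) (nat_lit 5) (nat_lit 24) (nat_lit 5) (nat_lit 356) (nat_lit 266) (nat_lit 158)) (XT.lf (nat_lit 0) (nat_lit 1161625277) (nat_lit 152) (nat_lit 13572999645) (nat_lit 228) (nat_lit 15141500796) (nat_lit 21) (nat_lit 5) (nat_lit 23) (nat_lit 5) (nat_lit 24) (nat_lit 5) (nat_lit 357) (nat_lit 266)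 (nat_lit 157))))) (XT.nd (nat_lit 234) (nat_lit 152) (nat_lit 0) (XT.nd (nat_lit 78) (nat_lit 0) (nat_lit 0) (XT.lf (nat_lit 0) (nat_lit 10132482202) (nat_lit 152) (nat_lit 8625059201) (nat_lit 228) (nat_lit 11849251101) (nat_lit 21) (nat_lit 5) (nat_lit 23) (nat_lit 5) (nat_lit 24) (nat_lit 5) (nat_lit 358) (nat_lit 266) (nat_lit 156)) (XT.nd (nat_lit 78) (nat_lit 0) (nat_lit 0) (XT.lf (nat_lit 0) (nat_lit 19353575939) (nat_lit 152) (nat_lit 3536145615) (nat_lit 228) (nat_lit 8470011483) (nat_lit 21) (nat_lit 5) (nat_lit 23) (nat_lit 5) (nat_lit 24) (nat_lit 5) (nat_lit 359) (nat_lit 266) (nat_lit 155)) (XT.lf (nat_lit 0) (nat_lit 27151100040) (nat_lit 228) (nat_lit 3318965494) (nat_lit 76) (nat_lit 1665049974) (nat_lit 21) (nat_lit 5) (nat_lit 24) (nat_lit 5) (nat_lit 22) (nat_lit 4) (nat_lit 360) (nat_lit 266) (nat_lit 154)))) (XT.nd (nat_lit 78) (nat_lit 76) (nat_lit 0) (XT.lf (nat_lit 0)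 (nat_lit 5686728682) (nat_lit 76) (nat_lit 25932431165) (nat_lit 152) (nat_lit 1312244799) (nat_lit 20) (nat_lit 5) (nat_lit 21) (nat_lit 5) (nat_lit 22) (nat_lit 4) (nat_lit 361) (nat_lit 266) (nat_lit 153)) (XT.nd (nat_lit 78) (nat_lit 0) (nat_lit 0) (XT.lf (nat_lit 0) (nat_lit 2444525686) (nat_lit 152) (nat_lit 18762137814) (nat_lit 76) (nat_lit 12543525386) (nat_lit 19) (nat_lit 5) (nat_lit 21) (nat_lit 5) (nat_lit 20) (nat_lit 5) (nat_lit 362) (nat_lit 266) (nat_lit 152)) (XT.lf (nat_lit 0) (nat_lit 6277131413) (nat_lit 152) (nat_lit 10055706458) (nat_lit 76) (nat_lit 18260633311) (nat_lit 19) (nat_lit 5) (nat_lit 21) (nat_lit 5) (nat_lit 20) (nat_lit 5) (nat_lit 363) (nat_lit 266) (nat_lit 151)))))) (XT.nd (nat_lit 468) (nat_lit 228) (nat_lit 0) (XT.nd (nat_lit 234) (nat_lit 76) (nat_lit 0) (XT.nd (nat_lit 78) (nat_lit 152) (nat_lit 0) (XT.lf (nat_lit 0) (nat_lit 10214527881) (nat_lit 152)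 (nat_lit 1105160236) (nat_lit 76) (nat_lit 24142678690) (nat_lit 19) (nat_lit 5) (nat_lit 21) (nat_lit 5) (nat_lit 20) (nat_lit 5) (nat_lit 364) (nat_lit 266) (nat_lit 150)) (XT.nd (nat_lit 78) (nat_lit 0) (nat_lit 0) (XT.lf (nat_lit 0) (nat_lit 8258474296) (nat_lit 152) (nat_lit 6081066743) (nat_lit 228) (nat_lit 22015712383) (nat_lit 17) (nat_lit 5) (nat_lit 19) (nat_lit 5) (nat_lit 20) (nat_lit 5) (nat_lit 365) (nat_lit 266) (nat_lit 149)) (XT.lf (nat_lit 0) (nat_lit 17909254467) (nat_lit 152) (nat_lit 680449627) (nat_lit 228) (nat_lit 18685189264) (nat_lit 17) (nat_lit 5) (nat_lit 19) (nat_lit 5) (nat_lit 20) (nat_lit 5) (nat_lit 366) (nat_lit 266) (nat_lit 148)))) (XT.nd (nat_lit 78) (nat_lit 76) (nat_lit 0) (XT.lf (nat_lit 0) (nat_lit 23004764299) (nat_lit 228) (nat_lit 10435665515) (nat_lit 76) (nat_lit 4780579363) (nat_lit 17) (nat_lit 5) (nat_lit 20) (nat_lit 5) (nat_lit 18) (nat_lit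 4) (nat_lit 367) (nat_lit 266) (nat_lit 147)) (XT.nd (nat_lit 78) (nat_lit 76) (nat_lit 0) (XT.lf (nat_lit 0) (nat_lit 27549752950) (nat_lit 228) (nat_lit 1260229583) (nat_lit 76) (nat_lit 10385609844) (nat_lit 17) (nat_lit 5) (nat_lit 20) (nat_lit 5) (nat_lit 18) (nat_lit 4) (nat_lit 368) (nat_lit 266) (nat_lit 146)) (XT.lf (nat_lit 0) (nat_lit 8337930224) (nat_lit 76) (nat_lit 23964319561) (nat_lit 152) (nat_lit 7895036501) (nat_lit 16) (nat_lit 5) (nat_lit 17) (nat_lit 5) (nat_lit 18) (nat_lit 4) (nat_lit 369) (nat_lit 266) (nat_lit 145))))) (XT.nd (nat_lit 234) (nat_lit 152) (nat_lit 0) (XT.nd (nat_lit 78) (nat_lit 76) (nat_lit 0) (XT.lf (nat_lit 0) (nat_lit 18234775476) (nat_lit 76) (nat_lit 18966397918) (nat_lit 152) (nat_lit 4027749795) (nat_lit 16) (nat_lit 5) (nat_lit 17) (nat_lit 5) (nat_lit 18) (nat_lit 4) (nat_lit 370) (nat_lit 266) (nat_lit 144)) (XT.nd (nat_lit 78) (nat_lit 76)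 (nat_lit 0) (XT.lf (nat_lit 0) (nat_lit 28413872864) (nat_lit 76) (nat_lit 13824576338) (nat_lit 152) (nat_lit 53325975) (nat_lit 16) (nat_lit 5) (nat_lit 17) (nat_lit 5) (nat_lit 18) (nat_lit 4) (nat_lit 371) (nat_lit 266) (nat_lit 143)) (XT.lf (nat_lit 0) (nat_lit 3953034616) (nat_lit 152) (nat_lit 4541409451) (nat_lit 76) (nat_lit 34891164228) (nat_lit 15) (nat_lit 5) (nat_lit 17) (nat_lit 5) (nat_lit 16) (nat_lit 5) (nat_lit 372) (nat_lit 266) (nat_lit 142)))) (XT.nd (nat_lit 78) (nat_lit 0) (nat_lit 0) (XT.lf (nat_lit 0) (nat_lit 5161385130) (nat_lit 152) (nat_lit 2958535196) (nat_lit 228) (nat_lit 36391084930) (nat_lit 13) (nat_lit 5) (nat_lit 15) (nat_lit 5) (nat_lit 16) (nat_lit 5) (nat_lit 373) (nat_lit 266) (nat_lit 141)) (XT.nd (nat_lit 78) (nat_lit 0) (nat_lit 0) (XT.lf (nat_lit 0) (nat_lit 12476340212) (nat_lit 228) (nat_lit 30461295896) (nat_lit 76) (nat_lit 2730598863) (nat_lit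 13) (nat_lit 5) (nat_lit 16) (nat_lit 5) (nat_lit 14) (nat_lit 4) (nat_lit 374) (nat_lit 266) (nat_lit 140)) (XT.lf (nat_lit 0) (nat_lit 16984825210) (nat_lit 228) (nat_lit 21349245198) (nat_lit 76) (nat_lit 8525476472) (nat_lit 13) (nat_lit 5) (nat_lit 16) (nat_lit 5) (nat_lit 14) (nat_lit 4) (nat_lit 375) (nat_lit 266) (nat_lit 139))))))))
noncomputable def xc129 : XT := (XT.nd (nat_lit 32214) (nat_lit 0) (nat_lit 11096) (XT.nd (nat_lit 858) (nat_lit 152) (nat_lit 0) (XT.nd (nat_lit 390) (nat_lit 152) (nat_lit 0) (XT.nd (nat_lit 156) (nat_lit 76) (nat_lit 0) (XT.nd (nat_lit 78) (nat_lit 0) (nat_lit 0) (XT.lf (nat_lit 0) (nat_lit 21620875524) (nat_lit 228) (nat_lit 11977066798) (nat_lit 76) (nat_lit 14488892791) (nat_lit 13) (nat_lit 5) (nat_lit 16) (nat_lit 5) (nat_lit 14) (nat_lit 4) (nat_lit 376) (nat_lit 266) (nat_lit 138)) (XT.lf (nat_lit 0) (nat_lit 26388542071) (nat_lit 228) (nat_lit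 2336571412) (nat_lit 76) (nat_lit 20626058574) (nat_lit 13) (nat_lit 5) (nat_lit 16) (nat_lit 5) (nat_lit 14) (nat_lit 4) (nat_lit 377) (nat_lit 266) (nat_lit 137))) (XT.nd (nat_lit 78) (nat_lit 0) (nat_lit 0) (XT.lf (nat_lit 0) (nat_lit 7731534782) (nat_lit 76) (nat_lit 23634776233) (nat_lit 152) (nat_lit 19285121851) (nat_lit 12) (nat_lit 5) (nat_lit 13) (nat_lit 5) (nat_lit 14) (nat_lit 4) (nat_lit 378) (nat_lit 266) (nat_lit 136)) (XT.nd (nat_lit 78) (nat_lit 0) (nat_lit 0) (XT.lf (nat_lit 0) (nat_lit 18137229740) (nat_lit 76) (nat_lit 18372622607) (nat_lit 152) (nat_lit 15480361729) (nat_lit 12) (nat_lit 5) (nat_lit 13) (nat_lit 5) (nat_lit 14) (nat_lit 4) (nat_lit 379) (nat_lit 266) (nat_lit 135)) (XT.lf (nat_lit 0) (nat_lit 28843103462) (nat_lit 76) (nat_lit 12957649395) (nat_lit 152) (nat_lit 11568619864) (nat_lit 12) (nat_lit 5) (nat_lit 13) (nat_lit 5) (nat_lit 14) (nat_lit 4) (nat_lit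 380) (nat_lit 266) (nat_lit 134))))) (XT.nd (nat_lit 234) (nat_lit 0) (nat_lit 0) (XT.nd (nat_lit 78) (nat_lit 152) (nat_lit 0) (XT.lf (nat_lit 0) (nat_lit 39858510594) (nat_lit 76) (nat_lit 7385125070) (nat_lit 152) (nat_lit 7546478229) (nat_lit 12) (nat_lit 5) (nat_lit 13) (nat_lit 5) (nat_lit 14) (nat_lit 4) (nat_lit 381) (nat_lit 266) (nat_lit 133)) (XT.nd (nat_lit 78) (nat_lit 152) (nat_lit 0) (XT.lf (nat_lit 0) (nat_lit 51193076251) (nat_lit 76) (nat_lit 1650180434) (nat_lit 152) (nat_lit 3410422331) (nat_lit 12) (nat_lit 5) (nat_lit 13) (nat_lit 5) (nat_lit 14) (nat_lit 4) (nat_lit 382) (nat_lit 266) (nat_lit 132)) (XT.lf (nat_lit 0) (nat_lit 918032523) (nat_lit 152) (nat_lit 52612557499) (nat_lit 76) (nat_lit 4227774047) (nat_lit 10) (nat_lit 5) (nat_lit 12) (nat_lit 5) (nat_lit 11) (nat_lit 4) (nat_lit 383) (nat_lit 266) (nat_lit 131)))) (XT.nd (nat_lit 78) (nat_lit 0) (nat_lit 0) (XT.lf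 (nat_lit 0) (nat_lit 5369352642) (nat_lit 152) (nat_lit 43606270775) (nat_lit 76) (nat_lit 10329711350) (nat_lit 10) (nat_lit 5) (nat_lit 12) (nat_lit 5) (nat_lit 11) (nat_lit 4) (nat_lit 384) (nat_lit 266) (nat_lit 130)) (XT.nd (nat_lit 78) (nat_lit 0) (nat_lit 0) (XT.lf (nat_lit 0) (nat_lit 9948009628) (nat_lit 152) (nat_lit 34340619534) (nat_lit 76) (nat_lit 16610276183) (nat_lit 10) (nat_lit 5) (nat_lit 12) (nat_lit 5) (nat_lit 11) (nat_lit 4) (nat_lit 385) (nat_lit 266) (nat_lit 129)) (XT.lf (nat_lit 0) (nat_lit 14658004252) (nat_lit 152) (nat_lit 24807507579) (nat_lit 76) (nat_lit 23074956418) (nat_lit 10) (nat_lit 5) (nat_lit 12) (nat_lit 5) (nat_lit 11) (nat_lit 4) (nat_lit 386) (nat_lit 266) (nat_lit 128)))))) (XT.nd (nat_lit 468) (nat_lit 76) (nat_lit 0) (XT.nd (nat_lit 234) (nat_lit 0) (nat_lit 0) (XT.nd (nat_lit 78) (nat_lit 76) (nat_lit 0) (XT.lf (nat_lit 0) (nat_lit 19503452041)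 (nat_lit 152) (nat_lit 14998605003) (nat_lit 76) (nat_lit 29729400806) (nat_lit 10) (nat_lit 5) (nat_lit 12) (nat_lit 5) (nat_lit 11) (nat_lit 4) (nat_lit 387) (nat_lit 266) (nat_lit 127)) (XT.nd (nat_lit 78) (nat_lit 76) (nat_lit 0) (XT.lf (nat_lit 0) (nat_lit 24488586882) (nat_lit 152) (nat_lit 4905340923) (nat_lit 76) (nat_lit 36579423909) (nat_lit 10) (nat_lit 5) (nat_lit 12) (nat_lit 5) (nat_lit 11) (nat_lit 4) (nat_lit 388) (nat_lit 266) (nat_lit 126)) (XT.lf (nat_lit 0) (nat_lit 5590188736) (nat_lit 76) (nat_lit 24081312295) (nat_lit 152) (nat_lit 38094558762) (nat_lit 9) (nat_lit 5) (nat_lit 10) (nat_lit 5) (nat_lit 11) (nat_lit 4) (nat_lit 389) (nat_lit 266) (nat_lit 125)))) (XT.nd (nat_lit 78) (nat_lit 0) (nat_lit 0) (XT.lf (nat_lit 0) (nat_lit 16491616190) (nat_lit 76) (nat_lit 18562378668) (nat_lit 152) (nat_lit 34557235527) (nat_lit 9) (nat_lit 5) (nat_lit 10) (nat_lit 5) (nat_lit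 11) (nat_lit 4) (nat_lit 390) (nat_lit 266) (nat_lit 124)) (XT.nd (nat_lit 78) (nat_lit 0) (nat_lit 0) (XT.lf (nat_lit 0) (nat_lit 27710841055) (nat_lit 76) (nat_lit 12881838879) (nat_lit 152) (nat_lit 30919238587) (nat_lit 9) (nat_lit 5) (nat_lit 10) (nat_lit 5) (nat_lit 11) (nat_lit 4) (nat_lit 391) (nat_lit 266) (nat_lit 123)) (XT.lf (nat_lit 0) (nat_lit 39257666536) (nat_lit 76) (nat_lit 7034729350) (nat_lit 152) (nat_lit 27177389110) (nat_lit 9) (nat_lit 5) (nat_lit 10) (nat_lit 5) (nat_lit 11) (nat_lit 4) (nat_lit 392) (nat_lit 266) (nat_lit 122))))) (XT.nd (nat_lit 234) (nat_lit 76) (nat_lit 0) (XT.nd (nat_lit 78) (nat_lit 0) (nat_lit 0) (XT.lf (nat_lit 0) (nat_lit 51142182094) (nat_lit 76) (nat_lit 1015940956) (nat_lit 152) (nat_lit 23328417518) (nat_lit 9) (nat_lit 5) (nat_lit 10) (nat_lit 5) (nat_lit 11) (nat_lit 4) (nat_lit 393) (nat_lit 266) (nat_lit 121)) (XT.nd (nat_lit 78) (nat_lit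 0) (nat_lit 0) (XT.lf (nat_lit 0) (nat_lit 58244778084) (nat_lit 152) (nat_lit 14238966462) (nat_lit 0) (nat_lit 5078709167) (nat_lit 9) (nat_lit 5) (nat_lit 11) (nat_lit 4) (nat_lit 9) (nat_lit 4) (nat_lit 394) (nat_lit 266) (nat_lit 120)) (XT.lf (nat_lit 0) (nat_lit 64519363373) (nat_lit 152) (nat_lit 3848796416) (nat_lit 0) (nat_lit 11332328026) (nat_lit 9) (nat_lit 5) (nat_lit 11) (nat_lit 4) (nat_lit 9) (nat_lit 4) (nat_lit 395) (nat_lit 266) (nat_lit 119)))) (XT.nd (nat_lit 78) (nat_lit 0) (nat_lit 0) (XT.lf (nat_lit 0) (nat_lit 6981225144) (nat_lit 76) (nat_lit 64063478382) (nat_lit 76) (nat_lit 10856087277) (nat_lit 8) (nat_lit 4) (nat_lit 9) (nat_lit 5) (nat_lit 9) (nat_lit 4) (nat_lit 396) (nat_lit 266) (nat_lit 118)) (XT.nd (nat_lit 30498) (nat_lit 0) (nat_lit 18164) (XT.lf (nat_lit 0) (nat_lit 18207040711) (nat_lit 76) (nat_lit 59593094741) (nat_lit 76) (nat_lit 6365940764) (nat_lit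 8) (nat_lit 4) (nat_lit 9) (nat_lit 5) (nat_lit 9) (nat_lit 4) (nat_lit 397) (nat_lit 266) (nat_lit 117)) (XT.lf (nat_lit 0) (nat_lit 800582092) (nat_lit 532) (nat_lit 1264791709) (nat_lit 532) (nat_lit 1264791709) (nat_lit 247) (nat_lit 3) (nat_lit 254) (nat_lit 3) (nat_lit 254) (nat_lit 5) (nat_lit 267) (nat_lit 267) (nat_lit 246))))))) (XT.nd (nat_lit 936) (nat_lit 5396) (nat_lit 0) (XT.nd (nat_lit 468) (nat_lit 608) (nat_lit 0) (XT.nd (nat_lit 234) (nat_lit 532) (nat_lit 0) (XT.nd (nat_lit 78) (nat_lit 532) (nat_lit 0) (XT.lf (nat_lit 76) (nat_lit 390537698) (nat_lit 0) (nat_lit 3262507290) (nat_lit 532) (nat_lit 3039870240) (nat_lit 248) (nat_lit 5) (nat_lit 247) (nat_lit 3) (nat_lit 254) (nat_lit 5) (nat_lit 268) (nat_lit 267) (nat_lit 245)) (XT.nd (nat_lit 78) (nat_lit 532) (nat_lit 0) (XT.lf (nat_lit 76) (nat_lit 3408495112) (nat_lit 0) (nat_lit 2304135523) (nat_lit 532) (nat_lit 1015714960)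 (nat_lit 248) (nat_lit 5) (nat_lit 247) (nat_lit 3) (nat_lit 254) (nat_lit 5) (nat_lit 269) (nat_lit 267) (nat_lit 244)) (XT.lf (nat_lit 0) (nat_lit 970214676) (nat_lit 532) (nat_lit 300326780) (nat_lit 608) (nat_lit 5496570261) (nat_lit 240) (nat_lit 5) (nat_lit 247) (nat_lit 3) (nat_lit 248) (nat_lit 5) (nat_lit 270) (nat_lit 267) (nat_lit 243)))) (XT.nd (nat_lit 78) (nat_lit 532) (nat_lit 0) (XT.lf (nat_lit 76) (nat_lit 2813658141) (nat_lit 0) (nat_lit 132883134) (nat_lit 608) (nat_lit 3861892440) (nat_lit 241) (nat_lit 5) (nat_lit 240) (nat_lit 5) (nat_lit 248) (nat_lit 5) (nat_lit 271) (nat_lit 267) (nat_lit 242)) (XT.nd (nat_lit 78) (nat_lit 608) (nat_lit 0) (XT.lf (nat_lit 0) (nat_lit 4921533773) (nat_lit 532) (nat_lit 877038805) (nat_lit 608) (nat_lit 1054466378) (nat_lit 241) (nat_lit 5) (nat_lit 248) (nat_lit 5) (nat_lit 249) (nat_lit 5) (nat_lit 272) (nat_lit 267) (nat_lit 241)) (XT.lf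 (nat_lit 0) (nat_lit 7246071) (nat_lit 608) (nat_lit 4564272259) (nat_lit 684) (nat_lit 2329112781) (nat_lit 233) (nat_lit 5) (nat_lit 241) (nat_lit 5) (nat_lit 242) (nat_lit 5) (nat_lit 273) (nat_lit 267) (nat_lit 240))))) (XT.nd (nat_lit 234) (nat_lit 608) (nat_lit 0) (XT.nd (nat_lit 78) (nat_lit 0) (nat_lit 0) (XT.lf (nat_lit 0) (nat_lit 1903538665) (nat_lit 608) (nat_lit 1347735766) (nat_lit 684) (nat_lit 3699862664) (nat_lit 233) (nat_lit 5) (nat_lit 241) (nat_lit 5) (nat_lit 242) (nat_lit 5) (nat_lit 274) (nat_lit 267) (nat_lit 239)) (XT.nd (nat_lit 78) (nat_lit 0) (nat_lit 0) (XT.lf (nat_lit 76) (nat_lit 1961558553) (nat_lit 0) (nat_lit 1845333771) (nat_lit 684) (nat_lit 3197960555) (nat_lit 234) (nat_lit 5) (nat_lit 233) (nat_lit 5) (nat_lit 242) (nat_lit 5) (nat_lit 275) (nat_lit 267) (nat_lit 238)) (XT.lf (nat_lit 76) (nat_lit 5356155538) (nat_lit 0) (nat_lit 357717699) (nat_lit 684)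 (nat_lit 1348105067) (nat_lit 234) (nat_lit 5) (nat_lit 233) (nat_lit 5) (nat_lit 242) (nat_lit 5) (nat_lit 276) (nat_lit 267) (nat_lit 237)))) (XT.nd (nat_lit 78) (nat_lit 0) (nat_lit 0) (XT.lf (nat_lit 0) (nat_lit 508666945) (nat_lit 684) (nat_lit 5416006577) (nat_lit 760) (nat_lit 1197297266) (nat_lit 225) (nat_lit 5) (nat_lit 234) (nat_lit 5) (nat_lit 235) (nat_lit 5) (nat_lit 277) (nat_lit 267) (nat_lit 236)) (XT.nd (nat_lit 78) (nat_lit 0) (nat_lit 0) (XT.lf (nat_lit 0) (nat_lit 2350768978) (nat_lit 684) (nat_lit 1989041516) (nat_lit 760) (nat_lit 2845027961) (nat_lit 225) (nat_lit 5) (nat_lit 234) (nat_lit 5) (nat_lit 235) (nat_lit 5) (nat_lit 278) (nat_lit 267) (nat_lit 235)) (XT.lf (nat_lit 76) (nat_lit 1528017736) (nat_lit 0) (nat_lit 2672459588) (nat_lit 760) (nat_lit 3050716870) (nat_lit 226) (nat_lit 5) (nat_lit 225) (nat_lit 5) (nat_lit 235) (nat_lit 5) (nat_lit 279) (nat_lit 267)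 (nat_lit 234)))))) (XT.nd (nat_lit 468) (nat_lit 3040) (nat_lit 0) (XT.nd (nat_lit 234) (nat_lit 1672) (nat_lit 0) (XT.nd (nat_lit 78) (nat_lit 684) (nat_lit 0) (XT.lf (nat_lit 76) (nat_lit 5149247259) (nat_lit 0) (nat_lit 915581133) (nat_lit 760) (nat_lit 1256104989) (nat_lit 226) (nat_lit 5) (nat_lit 225) (nat_lit 5) (nat_lit 235) (nat_lit 5) (nat_lit 280) (nat_lit 267) (nat_lit 233)) (XT.nd (nat_lit 78) (nat_lit 0) (nat_lit 0) (XT.lf (nat_lit 0) (nat_lit 543943926) (nat_lit 760) (nat_lit 5936041164) (nat_lit 76) (nat_lit 913871824) (nat_lit 216) (nat_lit 5) (nat_lit 226) (nat_lit 5) (nat_lit 217) (nat_lit 5) (nat_lit 281) (nat_lit 267) (nat_lit 232)) (XT.lf (nat_lit 0) (nat_lit 2345559350) (nat_lit 760) (nat_lit 2293204054) (nat_lit 76) (nat_lit 2830800426) (nat_lit 216) (nat_lit 5) (nat_lit 226) (nat_lit 5) (nat_lit 217) (nat_lit 5) (nat_lit 282) (nat_lit 267) (nat_lit 231)))) (XT.nd (nat_lit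 78) (nat_lit 912) (nat_lit 0) (XT.lf (nat_lit 0) (nat_lit 1444488903) (nat_lit 760) (nat_lit 2713920080) (nat_lit 836) (nat_lit 3390566058) (nat_lit 206) (nat_lit 5) (nat_lit 216) (nat_lit 5) (nat_lit 217) (nat_lit 5) (nat_lit 283) (nat_lit 267) (nat_lit 230)) (XT.nd (nat_lit 78) (nat_lit 912) (nat_lit 0) (XT.lf (nat_lit 0) (nat_lit 5299122445) (nat_lit 760) (nat_lit 694224765) (nat_lit 836) (nat_lit 1638534617) (nat_lit 206) (nat_lit 5) (nat_lit 216) (nat_lit 5) (nat_lit 217) (nat_lit 5) (nat_lit 284) (nat_lit 267) (nat_lit 229)) (XT.lf (nat_lit 0) (nat_lit 136700205) (nat_lit 912) (nat_lit 6193808655) (nat_lit 76) (nat_lit 1387638630) (nat_lit 194) (nat_lit 5) (nat_lit 206) (nat_lit 5) (nat_lit 195) (nat_lit 5) (nat_lit 285) (nat_lit 267) (nat_lit 228))))) (XT.nd (nat_lit 234) (nat_lit 2128) (nat_lit 0) (XT.nd (nat_lit 78) (nat_lit 912) (nat_lit 0) (XT.lf (nat_lit 0) (nat_lit 1909710184) (nat_lit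 912) (nat_lit 2328274578) (nat_lit 76) (nat_lit 3569338220) (nat_lit 194) (nat_lit 5) (nat_lit 206) (nat_lit 5) (nat_lit 195) (nat_lit 5) (nat_lit 286) (nat_lit 267) (nat_lit 227)) (XT.nd (nat_lit 78) (nat_lit 0) (nat_lit 0) (XT.lf (nat_lit 0) (nat_lit 1642936025) (nat_lit 912) (nat_lit 2057105204) (nat_lit 988) (nat_lit 4200336824) (nat_lit 182) (nat_lit 5) (nat_lit 194) (nat_lit 5) (nat_lit 195) (nat_lit 5) (nat_lit 287) (nat_lit 267) (nat_lit 226)) (XT.lf (nat_lit 0) (nat_lit 5519167123) (nat_lit 988) (nat_lit 2260218795) (nat_lit 76) (nat_lit 217710812) (nat_lit 182) (nat_lit 5) (nat_lit 195) (nat_lit 5) (nat_lit 183) (nat_lit 5) (nat_lit 288) (nat_lit 267) (nat_lit 225)))) (XT.nd (nat_lit 78) (nat_lit 1140) (nat_lit 0) (XT.lf (nat_lit 0) (nat_lit 1829874651) (nat_lit 988) (nat_lit 5551942029) (nat_lit 1064) (nat_lit 715352665) (nat_lit 169) (nat_lit 5) (nat_lit 182) (nat_lit 5) (nat_lit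 183) (nat_lit 5) (nat_lit 289) (nat_lit 267) (nat_lit 224)) (XT.nd (nat_lit 78) (nat_lit 1064) (nat_lit 0) (XT.lf (nat_lit 0) (nat_lit 1053110830) (nat_lit 1064) (nat_lit 2164408726) (nat_lit 76) (nat_lit 4983286988) (nat_lit 168) (nat_lit 5) (nat_lit 182) (nat_lit 5) (nat_lit 169) (nat_lit 5) (nat_lit 290) (nat_lit 267) (nat_lit 223)) (XT.lf (nat_lit 0) (nat_lit 2052739756) (nat_lit 1064) (nat_lit 780083983) (nat_lit 1140) (nat_lit 5475450056) (nat_lit 154) (nat_lit 5) (nat_lit 168) (nat_lit 5) (nat_lit 169) (nat_lit 5) (nat_lit 291) (nat_lit 267) (nat_lit 222))))))))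
noncomputable def xc130 : XT := (XT.nd (nat_lit 1794) (nat_lit 2964) (nat_lit 0) (XT.nd (nat_lit 858) (nat_lit 2584) (nat_lit 0) (XT.nd (nat_lit 390) (nat_lit 1596) (nat_lit 0) (XT.nd (nat_lit 156) (nat_lit 608) (nat_lit 0) (XT.nd (nat_lit 78) (nat_lit 836) (nat_lit 0) (XT.lf (nat_lit 0) (nat_lit 4658498104) (nat_lit 1140) (nat_lit 2037316118) (nat_lit 76) (nat_lit 1723481136) (nat_lit 154) (nat_lit 5) (nat_lit 169) (nat_lit 5) (nat_lit 155) (nat_lit 5) (nat_lit 292) (nat_lit 267) (nat_lit 221)) (XT.lf (nat_lit 0) (nat_lit 2302987709) (nat_lit 836) (nat_lit 4221023119) (nat_lit 912) (nat_lit 2010188962) (nat_lit 143) (nat_lit 5) (nat_lit 154) (nat_lit 5) (nat_lit 155) (nat_lit 5) (nat_lit 293) (nat_lit 267) (nat_lit 220))) (XT.nd (nat_lit 78) (nat_lit 608) (nat_lit 0) (XT.lf (nat_lit 0) (nat_lit 6773995615) (nat_lit 836) (nat_lit 1648180981) (nat_lit 912) (nat_lit 231175362) (nat_lit 143) (nat_lit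 5) (nat_lit 154) (nat_lit 5) (nat_lit 155) (nat_lit 5) (nat_lit 294) (nat_lit 267) (nat_lit 219)) (XT.nd (nat_lit 78) (nat_lit 0) (nat_lit 0) (XT.lf (nat_lit 0) (nat_lit 1561855340) (nat_lit 608) (nat_lit 6188980562) (nat_lit 76) (nat_lit 1025119694) (nat_lit 135) (nat_lit 5) (nat_lit 143) (nat_lit 5) (nat_lit 136) (nat_lit 5) (nat_lit 295) (nat_lit 267) (nat_lit 218)) (XT.lf (nat_lit 0) (nat_lit 3397271080) (nat_lit 608) (nat_lit 1736635874) (nat_lit 76) (nat_lit 3768557148) (nat_lit 135) (nat_lit 5) (nat_lit 143) (nat_lit 5) (nat_lit 136) (nat_lit 5) (nat_lit 296) (nat_lit 267) (nat_lit 217))))) (XT.nd (nat_lit 234) (nat_lit 608) (nat_lit 0) (XT.nd (nat_lit 78) (nat_lit 456) (nat_lit 0) (XT.lf (nat_lit 0) (nat_lit 2864403306) (nat_lit 532) (nat_lit 2409866961) (nat_lit 608) (nat_lit 3758991909) (nat_lit 128) (nat_lit 5) (nat_lit 135) (nat_lit 5) (nat_lit 136) (nat_lit 5) (nat_lit 297) (nat_lit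 267) (nat_lit 216)) (XT.nd (nat_lit 78) (nat_lit 456) (nat_lit 0) (XT.lf (nat_lit 0) (nat_lit 7188886751) (nat_lit 608) (nat_lit 1574027223) (nat_lit 76) (nat_lit 405718322) (nat_lit 128) (nat_lit 5) (nat_lit 136) (nat_lit 5) (nat_lit 129) (nat_lit 5) (nat_lit 298) (nat_lit 267) (nat_lit 215)) (XT.lf (nat_lit 0) (nat_lit 3155923302) (nat_lit 456) (nat_lit 6020177778) (nat_lit 532) (nat_lit 131592438) (nat_lit 122) (nat_lit 5) (nat_lit 128) (nat_lit 5) (nat_lit 129) (nat_lit 5) (nat_lit 299) (nat_lit 267) (nat_lit 214)))) (XT.nd (nat_lit 78) (nat_lit 532) (nat_lit 0) (XT.lf (nat_lit 0) (nat_lit 1714733866) (nat_lit 532) (nat_lit 1448506239) (nat_lit 76) (nat_lit 6287936174) (nat_lit 121) (nat_lit 5) (nat_lit 128) (nat_lit 5) (nat_lit 122) (nat_lit 5) (nat_lit 300) (nat_lit 267) (nat_lit 213)) (XT.nd (nat_lit 78) (nat_lit 0) (nat_lit 0) (XT.lf (nat_lit 0) (nat_lit 3421608150) (nat_lit 532) (nat_lit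 187470871) (nat_lit 608) (nat_lit 5990064780) (nat_lit 114) (nat_lit 5) (nat_lit 121) (nat_lit 5) (nat_lit 122) (nat_lit 5) (nat_lit 301) (nat_lit 267) (nat_lit 212)) (XT.lf (nat_lit 0) (nat_lit 5565765082) (nat_lit 608) (nat_lit 1351880575) (nat_lit 76) (nat_lit 2833814701) (nat_lit 114) (nat_lit 5) (nat_lit 122) (nat_lit 5) (nat_lit 115) (nat_lit 5) (nat_lit 302) (nat_lit 267) (nat_lit 211)))))) (XT.nd (nat_lit 468) (nat_lit 1216) (nat_lit 0) (XT.nd (nat_lit 234) (nat_lit 380) (nat_lit 0) (XT.nd (nat_lit 78) (nat_lit 532) (nat_lit 0) (XT.lf (nat_lit 0) (nat_lit 3648581906) (nat_lit 456) (nat_lit 3933651453) (nat_lit 532) (nat_lit 2326153736) (nat_lit 108) (nat_lit 5) (nat_lit 114) (nat_lit 5) (nat_lit 115) (nat_lit 5) (nat_lit 303) (nat_lit 267) (nat_lit 210)) (XT.nd (nat_lit 78) (nat_lit 532) (nat_lit 0) (XT.lf (nat_lit 0) (nat_lit 8787852739) (nat_lit 456) (nat_lit 849817358) (nat_lit 532)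 (nat_lit 433068306) (nat_lit 108) (nat_lit 5) (nat_lit 114) (nat_lit 5) (nat_lit 115) (nat_lit 5) (nat_lit 304) (nat_lit 267) (nat_lit 209)) (XT.lf (nat_lit 0) (nat_lit 1512650268) (nat_lit 532) (nat_lit 6394694914) (nat_lit 76) (nat_lit 2329481407) (nat_lit 101) (nat_lit 5) (nat_lit 108) (nat_lit 5) (nat_lit 102) (nat_lit 5) (nat_lit 305) (nat_lit 267) (nat_lit 208)))) (XT.nd (nat_lit 78) (nat_lit 380) (nat_lit 0) (XT.lf (nat_lit 0) (nat_lit 3495573927) (nat_lit 532) (nat_lit 1312344285) (nat_lit 76) (nat_lit 5600289420) (nat_lit 101) (nat_lit 5) (nat_lit 108) (nat_lit 5) (nat_lit 102) (nat_lit 5) (nat_lit 306) (nat_lit 267) (nat_lit 207)) (XT.nd (nat_lit 78) (nat_lit 0) (nat_lit 0) (XT.lf (nat_lit 0) (nat_lit 3961723350) (nat_lit 380) (nat_lit 1581374400) (nat_lit 456) (nat_lit 5041542066) (nat_lit 96) (nat_lit 5) (nat_lit 101) (nat_lit 5) (nat_lit 102) (nat_lit 5) (nat_lit 307) (nat_lit 267)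 (nat_lit 206)) (XT.lf (nat_lit 0) (nat_lit 7649752303) (nat_lit 456) (nat_lit 1400597831) (nat_lit 76) (nat_lit 1716144927) (nat_lit 96) (nat_lit 5) (nat_lit 102) (nat_lit 5) (nat_lit 97) (nat_lit 5) (nat_lit 308) (nat_lit 267) (nat_lit 205))))) (XT.nd (nat_lit 234) (nat_lit 380) (nat_lit 0) (XT.nd (nat_lit 78) (nat_lit 456) (nat_lit 0) (XT.lf (nat_lit 0) (nat_lit 4003309294) (nat_lit 380) (nat_lit 5838957852) (nat_lit 456) (nat_lit 1110918459) (nat_lit 91) (nat_lit 5) (nat_lit 96) (nat_lit 5) (nat_lit 97) (nat_lit 5) (nat_lit 309) (nat_lit 267) (nat_lit 204)) (XT.nd (nat_lit 78) (nat_lit 380) (nat_lit 0) (XT.lf (nat_lit 0) (nat_lit 919444829) (nat_lit 456) (nat_lit 1594182338) (nat_lit 76) (nat_lit 8632140285) (nat_lit 90) (nat_lit 5) (nat_lit 96) (nat_lit 5) (nat_lit 91) (nat_lit 5) (nat_lit 310) (nat_lit 267) (nat_lit 203)) (XT.lf (nat_lit 0) (nat_lit 3005189617) (nat_lit 456) (nat_lit 7401266833)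 (nat_lit 76) (nat_lit 936890777) (nat_lit 85) (nat_lit 5) (nat_lit 91) (nat_lit 5) (nat_lit 86) (nat_lit 5) (nat_lit 311) (nat_lit 267) (nat_lit 202)))) (XT.nd (nat_lit 78) (nat_lit 380) (nat_lit 0) (XT.lf (nat_lit 0) (nat_lit 5164752549) (nat_lit 456) (nat_lit 1931583564) (nat_lit 76) (nat_lit 4450233739) (nat_lit 85) (nat_lit 5) (nat_lit 91) (nat_lit 5) (nat_lit 86) (nat_lit 5) (nat_lit 312) (nat_lit 267) (nat_lit 201)) (XT.nd (nat_lit 78) (nat_lit 0) (nat_lit 0) (XT.lf (nat_lit 0) (nat_lit 3738960980) (nat_lit 380) (nat_lit 3657054316) (nat_lit 456) (nat_lit 4359717765) (nat_lit 80) (nat_lit 5) (nat_lit 85) (nat_lit 5) (nat_lit 86) (nat_lit 5) (nat_lit 313) (nat_lit 267) (nat_lit 200)) (XT.lf (nat_lit 0) (nat_lit 9583382415) (nat_lit 380) (nat_lit 101811480) (nat_lit 456) (nat_lit 2286297731) (nat_lit 80) (nat_lit 5) (nat_lit 85) (nat_lit 5) (nat_lit 86) (nat_lit 5) (nat_lit 314) (nat_lit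 267) (nat_lit 199))))))) (XT.nd (nat_lit 858) (nat_lit 1368) (nat_lit 0) (XT.nd (nat_lit 390) (nat_lit 608) (nat_lit 0) (XT.nd (nat_lit 156) (nat_lit 608) (nat_lit 0) (XT.nd (nat_lit 78) (nat_lit 76) (nat_lit 0) (XT.lf (nat_lit 0) (nat_lit 3406053855) (nat_lit 304) (nat_lit 8676192272) (nat_lit 380) (nat_lit 110349222) (nat_lit 76) (nat_lit 5) (nat_lit 80) (nat_lit 5) (nat_lit 81) (nat_lit 5) (nat_lit 315) (nat_lit 267) (nat_lit 198)) (XT.lf (nat_lit 0) (nat_lit 2087047644) (nat_lit 380) (nat_lit 3054191474) (nat_lit 76) (nat_lit 7278591610) (nat_lit 75) (nat_lit 5) (nat_lit 80) (nat_lit 5) (nat_lit 76) (nat_lit 5) (nat_lit 316) (nat_lit 267) (nat_lit 197))) (XT.nd (nat_lit 78) (nat_lit 304) (nat_lit 0) (XT.lf (nat_lit 0) (nat_lit 2870240987) (nat_lit 304) (nat_lit 1478691219) (nat_lit 380) (nat_lit 8304938919) (nat_lit 71) (nat_lit 5) (nat_lit 75) (nat_lit 5) (nat_lit 76) (nat_lit 5) (nat_lit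 317) (nat_lit 267) (nat_lit 196)) (XT.nd (nat_lit 78) (nat_lit 304) (nat_lit 0) (XT.lf (nat_lit 0) (nat_lit 6705433548) (nat_lit 380) (nat_lit 3916566041) (nat_lit 76) (nat_lit 2272173295) (nat_lit 71) (nat_lit 5) (nat_lit 76) (nat_lit 5) (nat_lit 72) (nat_lit 5) (nat_lit 318) (nat_lit 267) (nat_lit 195)) (XT.lf (nat_lit 0) (nat_lit 2119026321) (nat_lit 304) (nat_lit 7022948221) (nat_lit 380) (nat_lit 3999470520) (nat_lit 67) (nat_lit 5) (nat_lit 71) (nat_lit 5) (nat_lit 72) (nat_lit 5) (nat_lit 319) (nat_lit 267) (nat_lit 194))))) (XT.nd (nat_lit 234) (nat_lit 228) (nat_lit 0) (XT.nd (nat_lit 78) (nat_lit 380) (nat_lit 0) (XT.lf (nat_lit 0) (nat_lit 8382114461) (nat_lit 304) (nat_lit 3283803746) (nat_lit 380) (nat_lit 1729828500) (nat_lit 67) (nat_lit 5) (nat_lit 71) (nat_lit 5) (nat_lit 72) (nat_lit 5) (nat_lit 320) (nat_lit 267) (nat_lit 193)) (XT.nd (nat_lit 78) (nat_lit 0) (nat_lit 0) (XT.lf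 (nat_lit 0) (nat_lit 587930824) (nat_lit 380) (nat_lit 12504707195) (nat_lit 76) (nat_lit 565145527) (nat_lit 62) (nat_lit 5) (nat_lit 67) (nat_lit 5) (nat_lit 63) (nat_lit 5) (nat_lit 321) (nat_lit 267) (nat_lit 192)) (XT.lf (nat_lit 0) (nat_lit 2999628492) (nat_lit 380) (nat_lit 6402503809) (nat_lit 76) (nat_lit 4523297234) (nat_lit 62) (nat_lit 5) (nat_lit 67) (nat_lit 5) (nat_lit 63) (nat_lit 5) (nat_lit 322) (nat_lit 267) (nat_lit 191)))) (XT.nd (nat_lit 78) (nat_lit 228) (nat_lit 0) (XT.lf (nat_lit 0) (nat_lit 5459921141) (nat_lit 380) (nat_lit 150011717) (nat_lit 76) (nat_lit 8591920699) (nat_lit 62) (nat_lit 5) (nat_lit 67) (nat_lit 5) (nat_lit 63) (nat_lit 5) (nat_lit 323) (nat_lit 267) (nat_lit 190)) (XT.nd (nat_lit 78) (nat_lit 0) (nat_lit 0) (XT.lf (nat_lit 0) (nat_lit 6382783517) (nat_lit 228) (nat_lit 1649530244) (nat_lit 304) (nat_lit 6453142730) (nat_lit 59) (nat_lit 5) (nat_lit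 62) (nat_lit 5) (nat_lit 63) (nat_lit 5) (nat_lit 324) (nat_lit 267) (nat_lit 189)) (XT.lf (nat_lit 0) (nat_lit 10683983696) (nat_lit 304) (nat_lit 1718395731) (nat_lit 76) (nat_lit 2375158832) (nat_lit 59) (nat_lit 5) (nat_lit 63) (nat_lit 5) (nat_lit 60) (nat_lit 5) (nat_lit 325) (nat_lit 267) (nat_lit 188)))))) (XT.nd (nat_lit 468) (nat_lit 532) (nat_lit 0) (XT.nd (nat_lit 234) (nat_lit 228) (nat_lit 0) (XT.nd (nat_lit 78) (nat_lit 304) (nat_lit 0) (XT.lf (nat_lit 0) (nat_lit 4905599141) (nat_lit 304) (nat_lit 8550975781) (nat_lit 380) (nat_lit 1620599345) (nat_lit 55) (nat_lit 5) (nat_lit 59) (nat_lit 5) (nat_lit 60) (nat_lit 5) (nat_lit 326) (nat_lit 267) (nat_lit 187)) (XT.nd (nat_lit 78) (nat_lit 228) (nat_lit 0) (XT.lf (nat_lit 0) (nat_lit 903972407) (nat_lit 380) (nat_lit 3662185697) (nat_lit 76) (nat_lit 10819539846) (nat_lit 54) (nat_lit 5) (nat_lit 59) (nat_lit 5) (nat_lit 55) (nat_lit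 5) (nat_lit 327) (nat_lit 267) (nat_lit 186)) (XT.lf (nat_lit 0) (nat_lit 3055611609) (nat_lit 228) (nat_lit 424094779) (nat_lit 304) (nat_lit 12223079793) (nat_lit 51) (nat_lit 5) (nat_lit 54) (nat_lit 5) (nat_lit 55) (nat_lit 5) (nat_lit 328) (nat_lit 267) (nat_lit 185)))) (XT.nd (nat_lit 78) (nat_lit 228) (nat_lit 0) (XT.lf (nat_lit 0) (nat_lit 6185863502) (nat_lit 304) (nat_lit 6046292197) (nat_lit 76) (nat_lit 3795666079) (nat_lit 51) (nat_lit 5) (nat_lit 55) (nat_lit 5) (nat_lit 52) (nat_lit 5) (nat_lit 329) (nat_lit 267) (nat_lit 184)) (XT.nd (nat_lit 78) (nat_lit 0) (nat_lit 0) (XT.lf (nat_lit 0) (nat_lit 732885334) (nat_lit 228) (nat_lit 8231049527) (nat_lit 304) (nat_lit 7398980094) (nat_lit 48) (nat_lit 5) (nat_lit 51) (nat_lit 5) (nat_lit 52) (nat_lit 5) (nat_lit 330) (nat_lit 267) (nat_lit 183)) (XT.lf (nat_lit 0) (nat_lit 7809840151) (nat_lit 228) (nat_lit 4056363077) (nat_lit 304)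 (nat_lit 4840659626) (nat_lit 48) (nat_lit 5) (nat_lit 51) (nat_lit 5) (nat_lit 52) (nat_lit 5) (nat_lit 331) (nat_lit 267) (nat_lit 182))))) (XT.nd (nat_lit 234) (nat_lit 228) (nat_lit 0) (XT.nd (nat_lit 78) (nat_lit 304) (nat_lit 0) (XT.lf (nat_lit 0) (nat_lit 14838181308) (nat_lit 304) (nat_lit 1993575523) (nat_lit 76) (nat_lit 229919880) (nat_lit 48) (nat_lit 5) (nat_lit 52) (nat_lit 5) (nat_lit 49) (nat_lit 5) (nat_lit 332) (nat_lit 267) (nat_lit 181)) (XT.nd (nat_lit 78) (nat_lit 0) (nat_lit 0) (XT.lf (nat_lit 0) (nat_lit 534173402) (nat_lit 304) (nat_lit 12281352743) (nat_lit 76) (nat_lit 4609361793) (nat_lit 44) (nat_lit 5) (nat_lit 48) (nat_lit 5) (nat_lit 45) (nat_lit 5) (nat_lit 333) (nat_lit 267) (nat_lit 180)) (XT.lf (nat_lit 0) (nat_lit 3331162769) (nat_lit 304) (nat_lit 5313463641) (nat_lit 76) (nat_lit 9153694728) (nat_lit 44) (nat_lit 5) (nat_lit 48) (nat_lit 5) (nat_lit 45)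 (nat_lit 5) (nat_lit 334) (nat_lit 267) (nat_lit 179)))) (XT.nd (nat_lit 78) (nat_lit 0) (nat_lit 0) (XT.lf (nat_lit 0) (nat_lit 1872344403) (nat_lit 228) (nat_lit 4339220419) (nat_lit 304) (nat_lit 11971431208) (nat_lit 41) (nat_lit 5) (nat_lit 44) (nat_lit 5) (nat_lit 45) (nat_lit 5) (nat_lit 335) (nat_lit 267) (nat_lit 178)) (XT.nd (nat_lit 78) (nat_lit 0) (nat_lit 0) (XT.lf (nat_lit 0) (nat_lit 9215174559) (nat_lit 304) (nat_lit 9224266196) (nat_lit 76) (nat_lit 138689635) (nat_lit 41) (nat_lit 5) (nat_lit 45) (nat_lit 5) (nat_lit 42) (nat_lit 5) (nat_lit 336) (nat_lit 267) (nat_lit 177)) (XT.lf (nat_lit 0) (nat_lit 12334080677) (nat_lit 304) (nat_lit 1995304591) (nat_lit 76) (nat_lit 4655000290) (nat_lit 41) (nat_lit 5) (nat_lit 45) (nat_lit 5) (nat_lit 42) (nat_lit 5) (nat_lit 337) (nat_lit 267) (nat_lit 176))))))))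
noncomputable def xc131 : XT := (XT.nd (nat_lit 1794) (nat_lit 836) (nat_lit 0) (XT.nd (nat_lit 858) (nat_lit 684) (nat_lit 0) (XT.nd (nat_lit 390) (nat_lit 380) (nat_lit 0) (XT.nd (nat_lit 156) (nat_lit 304) (nat_lit 0) (XT.nd (nat_lit 78) (nat_lit 0) (nat_lit 0) (XT.lf (nat_lit 0) (nat_lit 5532214426) (nat_lit 152) (nat_lit 10050261794) (nat_lit 228) (nat_lit 3819296259) (nat_lit 39) (nat_lit 5) (nat_lit 41) (nat_lit 5) (nat_lit 42) (nat_lit 5) (nat_lit 338) (nat_lit 267) (nat_lit 175)) (XT.lf (nat_lit 0) (nat_lit 13300453437) (nat_lit 152) (nat_lit 5631014697) (nat_lit 228) (nat_lit 900139672) (nat_lit 39) (nat_lit 5) (nat_lit 41) (nat_lit 5) (nat_lit 42) (nat_lit 5) (nat_lit 339) (nat_lit 267) (nat_lit 174))) (XT.nd (nat_lit 78) (nat_lit 0) (nat_lit 0) (XT.lf (nat_lit 0) (nat_lit 1001084337) (nat_lit 228) (nat_lit 1057330656) (nat_lit 304) (nat_lit 18215547705) (nat_lit 35) (nat_lit 5) (nat_lit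 38) (nat_lit 5) (nat_lit 39) (nat_lit 5) (nat_lit 340) (nat_lit 267) (nat_lit 173)) (XT.nd (nat_lit 78) (nat_lit 0) (nat_lit 0) (XT.lf (nat_lit 0) (nat_lit 5172823988) (nat_lit 304) (nat_lit 11904901047) (nat_lit 76) (nat_lit 3649059485) (nat_lit 35) (nat_lit 5) (nat_lit 39) (nat_lit 5) (nat_lit 36) (nat_lit 5) (nat_lit 341) (nat_lit 267) (nat_lit 172)) (XT.lf (nat_lit 0) (nat_lit 8375079962) (nat_lit 304) (nat_lit 4351380486) (nat_lit 76) (nat_lit 8466916881) (nat_lit 35) (nat_lit 5) (nat_lit 39) (nat_lit 5) (nat_lit 36) (nat_lit 5) (nat_lit 342) (nat_lit 267) (nat_lit 171))))) (XT.nd (nat_lit 234) (nat_lit 228) (nat_lit 0) (XT.nd (nat_lit 78) (nat_lit 0) (nat_lit 0) (XT.lf (nat_lit 0) (nat_lit 3472202365) (nat_lit 152) (nat_lit 8218991863) (nat_lit 228) (nat_lit 9982258206) (nat_lit 33) (nat_lit 5) (nat_lit 35) (nat_lit 5) (nat_lit 36) (nat_lit 5) (nat_lit 343) (nat_lit 267) (nat_lit 170))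 (XT.nd (nat_lit 78) (nat_lit 0) (nat_lit 0) (XT.lf (nat_lit 0) (nat_lit 11595631460) (nat_lit 152) (nat_lit 3539737242) (nat_lit 228) (nat_lit 7031721485) (nat_lit 33) (nat_lit 5) (nat_lit 35) (nat_lit 5) (nat_lit 36) (nat_lit 5) (nat_lit 344) (nat_lit 267) (nat_lit 169)) (XT.lf (nat_lit 0) (nat_lit 18680174233) (nat_lit 228) (nat_lit 2748819777) (nat_lit 76) (nat_lit 1246641070) (nat_lit 33) (nat_lit 5) (nat_lit 36) (nat_lit 5) (nat_lit 34) (nat_lit 5) (nat_lit 345) (nat_lit 267) (nat_lit 168)))) (XT.nd (nat_lit 78) (nat_lit 76) (nat_lit 0) (XT.lf (nat_lit 0) (nat_lit 5354893238) (nat_lit 152) (nat_lit 17048391608) (nat_lit 228) (nat_lit 794009327) (nat_lit 31) (nat_lit 5) (nat_lit 33) (nat_lit 5) (nat_lit 34) (nat_lit 5) (nat_lit 346) (nat_lit 267) (nat_lit 167)) (XT.nd (nat_lit 78) (nat_lit 0) (nat_lit 0) (XT.lf (nat_lit 0) (nat_lit 2468152400) (nat_lit 228) (nat_lit 10023174456) (nat_lit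 76) (nat_lit 11242164396) (nat_lit 30) (nat_lit 5) (nat_lit 33) (nat_lit 5) (nat_lit 31) (nat_lit 5) (nat_lit 347) (nat_lit 267) (nat_lit 166)) (XT.lf (nat_lit 0) (nat_lit 5798129079) (nat_lit 228) (nat_lit 1999689007) (nat_lit 76) (nat_lit 16488158312) (nat_lit 30) (nat_lit 5) (nat_lit 33) (nat_lit 5) (nat_lit 31) (nat_lit 5) (nat_lit 348) (nat_lit 267) (nat_lit 165)))))) (XT.nd (nat_lit 468) (nat_lit 304) (nat_lit 0) (XT.nd (nat_lit 234) (nat_lit 228) (nat_lit 0) (XT.nd (nat_lit 78) (nat_lit 0) (nat_lit 0) (XT.lf (nat_lit 0) (nat_lit 6366940671) (nat_lit 152) (nat_lit 2908586637) (nat_lit 228) (nat_lit 15578097945) (nat_lit 28) (nat_lit 5) (nat_lit 30) (nat_lit 5) (nat_lit 31) (nat_lit 5) (nat_lit 349) (nat_lit 267) (nat_lit 164)) (XT.nd (nat_lit 78) (nat_lit 0) (nat_lit 0) (XT.lf (nat_lit 0) (nat_lit 12884521885) (nat_lit 228) (nat_lit 10454715692) (nat_lit 76) (nat_lit 2098262155) (nat_lit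 28) (nat_lit 5) (nat_lit 31) (nat_lit 5) (nat_lit 29) (nat_lit 5) (nat_lit 350) (nat_lit 267) (nat_lit 163)) (XT.lf (nat_lit 0) (nat_lit 16617411774) (nat_lit 228) (nat_lit 2231876652) (nat_lit 76) (nat_lit 7189147225) (nat_lit 28) (nat_lit 5) (nat_lit 31) (nat_lit 5) (nat_lit 29) (nat_lit 5) (nat_lit 351) (nat_lit 267) (nat_lit 162)))) (XT.nd (nat_lit 78) (nat_lit 76) (nat_lit 0) (XT.lf (nat_lit 0) (nat_lit 6340706679) (nat_lit 152) (nat_lit 14169743680) (nat_lit 228) (nat_lit 6145517992) (nat_lit 26) (nat_lit 5) (nat_lit 28) (nat_lit 5) (nat_lit 29) (nat_lit 5) (nat_lit 352) (nat_lit 267) (nat_lit 161)) (XT.nd (nat_lit 78) (nat_lit 76) (nat_lit 0) (XT.lf (nat_lit 0) (nat_lit 15195750547) (nat_lit 152) (nat_lit 9334454118) (nat_lit 228) (nat_lit 2761537799) (nat_lit 26) (nat_lit 5) (nat_lit 28) (nat_lit 5) (nat_lit 29) (nat_lit 5) (nat_lit 353) (nat_lit 267) (nat_lit 160)) (XT.lf (nat_lit 0)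 (nat_lit 697455269) (nat_lit 228) (nat_lit 3657234108) (nat_lit 76) (nat_lit 23592075445) (nat_lit 25) (nat_lit 5) (nat_lit 28) (nat_lit 5) (nat_lit 26) (nat_lit 5) (nat_lit 354) (nat_lit 267) (nat_lit 159))))) (XT.nd (nat_lit 234) (nat_lit 152) (nat_lit 0) (XT.nd (nat_lit 78) (nat_lit 0) (nat_lit 0) (XT.lf (nat_lit 0) (nat_lit 4249722286) (nat_lit 228) (nat_lit 23540583462) (nat_lit 76) (nat_lit 828973644) (nat_lit 23) (nat_lit 5) (nat_lit 26) (nat_lit 5) (nat_lit 24) (nat_lit 5) (nat_lit 355) (nat_lit 267) (nat_lit 158)) (XT.nd (nat_lit 78) (nat_lit 0) (nat_lit 0) (XT.lf (nat_lit 0) (nat_lit 7977042692) (nat_lit 228) (nat_lit 15222317471) (nat_lit 76) (nat_lit 6110566377) (nat_lit 23) (nat_lit 5) (nat_lit 26) (nat_lit 5) (nat_lit 24) (nat_lit 5) (nat_lit 356) (nat_lit 267) (nat_lit 157)) (XT.lf (nat_lit 0) (nat_lit 11804603189) (nat_lit 228) (nat_lit 6673579414) (nat_lit 76) (nat_lit 11543469242)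 (nat_lit 23) (nat_lit 5) (nat_lit 26) (nat_lit 5) (nat_lit 24) (nat_lit 5) (nat_lit 357) (nat_lit 267) (nat_lit 156)))) (XT.nd (nat_lit 78) (nat_lit 0) (nat_lit 0) (XT.lf (nat_lit 0) (nat_lit 2155155319) (nat_lit 152) (nat_lit 13601309602) (nat_lit 228) (nat_lit 14997990787) (nat_lit 21) (nat_lit 5) (nat_lit 23) (nat_lit 5) (nat_lit 24) (nat_lit 5) (nat_lit 358) (nat_lit 267) (nat_lit 155)) (XT.nd (nat_lit 78) (nat_lit 0) (nat_lit 0) (XT.lf (nat_lit 0) (nat_lit 11367215196) (nat_lit 152) (nat_lit 8515966284) (nat_lit 228) (nat_lit 11624383942) (nat_lit 21) (nat_lit 5) (nat_lit 23) (nat_lit 5) (nat_lit 24) (nat_lit 5) (nat_lit 359) (nat_lit 267) (nat_lit 154)) (XT.lf (nat_lit 0) (nat_lit 20837832274) (nat_lit 152) (nat_lit 3285099215) (nat_lit 228) (nat_lit 8160670379) (nat_lit 21) (nat_lit 5) (nat_lit 23) (nat_lit 5) (nat_lit 24) (nat_lit 5) (nat_lit 360) (nat_lit 267) (nat_lit 153))))))) (XT.nd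 (nat_lit 936) (nat_lit 380) (nat_lit 0) (XT.nd (nat_lit 468) (nat_lit 152) (nat_lit 0) (XT.nd (nat_lit 234) (nat_lit 152) (nat_lit 0) (XT.nd (nat_lit 78) (nat_lit 152) (nat_lit 0) (XT.lf (nat_lit 0) (nat_lit 28499566290) (nat_lit 228) (nat_lit 2528107994) (nat_lit 76) (nat_lit 2054964445) (nat_lit 21) (nat_lit 5) (nat_lit 24) (nat_lit 5) (nat_lit 22) (nat_lit 4) (nat_lit 361) (nat_lit 267) (nat_lit 152)) (XT.nd (nat_lit 78) (nat_lit 76) (nat_lit 0) (XT.lf (nat_lit 0) (nat_lit 6739027335) (nat_lit 76) (nat_lit 26355564511) (nat_lit 152) (nat_lit 808451897) (nat_lit 20) (nat_lit 5) (nat_lit 21) (nat_lit 5) (nat_lit 22) (nat_lit 4) (nat_lit 362) (nat_lit 267) (nat_lit 151)) (XT.lf (nat_lit 0) (nat_lit 3034911198) (nat_lit 152) (nat_lit 18458226563) (nat_lit 76) (nat_lit 13253576522) (nat_lit 19) (nat_lit 5) (nat_lit 21) (nat_lit 5) (nat_lit 20) (nat_lit 5) (nat_lit 363) (nat_lit 267) (nat_lit 150))))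 (XT.nd (nat_lit 78) (nat_lit 152) (nat_lit 0) (XT.lf (nat_lit 0) (nat_lit 6967435395) (nat_lit 152) (nat_lit 9515848152) (nat_lit 76) (nat_lit 19132476946) (nat_lit 19) (nat_lit 5) (nat_lit 21) (nat_lit 5) (nat_lit 20) (nat_lit 5) (nat_lit 364) (nat_lit 267) (nat_lit 149)) (XT.nd (nat_lit 78) (nat_lit 152) (nat_lit 0) (XT.lf (nat_lit 0) (nat_lit 11008332688) (nat_lit 152) (nat_lit 321296111) (nat_lit 76) (nat_lit 25181546075) (nat_lit 19) (nat_lit 5) (nat_lit 21) (nat_lit 5) (nat_lit 20) (nat_lit 5) (nat_lit 365) (nat_lit 267) (nat_lit 148)) (XT.lf (nat_lit 0) (nat_lit 9315237468) (nat_lit 152) (nat_lit 5935440250) (nat_lit 228) (nat_lit 22180375797) (nat_lit 17) (nat_lit 5) (nat_lit 19) (nat_lit 5) (nat_lit 20) (nat_lit 5) (nat_lit 366) (nat_lit 267) (nat_lit 147))))) (XT.nd (nat_lit 234) (nat_lit 152) (nat_lit 0) (XT.nd (nat_lit 78) (nat_lit 0) (nat_lit 0) (XT.lf (nat_lit 0) (nat_lit 19231977676)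 (nat_lit 152) (nat_lit 382359722) (nat_lit 228) (nat_lit 18764377993) (nat_lit 17) (nat_lit 5) (nat_lit 19) (nat_lit 5) (nat_lit 20) (nat_lit 5) (nat_lit 367) (nat_lit 267) (nat_lit 146)) (XT.nd (nat_lit 78) (nat_lit 0) (nat_lit 0) (XT.lf (nat_lit 0) (nat_lit 24151221627) (nat_lit 228) (nat_lit 9975134807) (nat_lit 76) (nat_lit 5227189215) (nat_lit 17) (nat_lit 5) (nat_lit 20) (nat_lit 5) (nat_lit 18) (nat_lit 4) (nat_lit 368) (nat_lit 267) (nat_lit 145)) (XT.lf (nat_lit 0) (nat_lit 28819269227) (nat_lit 228) (nat_lit 546967855) (nat_lit 76) (nat_lit 10991539762) (nat_lit 17) (nat_lit 5) (nat_lit 20) (nat_lit 5) (nat_lit 18) (nat_lit 4) (nat_lit 369) (nat_lit 267) (nat_lit 144)))) (XT.nd (nat_lit 78) (nat_lit 76) (nat_lit 0) (XT.lf (nat_lit 0) (nat_lit 9331773327) (nat_lit 76) (nat_lit 24376812986) (nat_lit 152) (nat_lit 7681119332) (nat_lit 16) (nat_lit 5) (nat_lit 17) (nat_lit 5) (nat_lit 18)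 (nat_lit 4) (nat_lit 370) (nat_lit 267) (nat_lit 143)) (XT.nd (nat_lit 78) (nat_lit 76) (nat_lit 0) (XT.lf (nat_lit 0) (nat_lit 19503862621) (nat_lit 76) (nat_lit 19237879019) (nat_lit 152) (nat_lit 3710943197) (nat_lit 16) (nat_lit 5) (nat_lit 17) (nat_lit 5) (nat_lit 18) (nat_lit 4) (nat_lit 371) (nat_lit 267) (nat_lit 142)) (XT.lf (nat_lit 0) (nat_lit 362747187) (nat_lit 152) (nat_lit 13584057933) (nat_lit 76) (nat_lit 29600892304) (nat_lit 15) (nat_lit 5) (nat_lit 17) (nat_lit 5) (nat_lit 16) (nat_lit 5) (nat_lit 372) (nat_lit 267) (nat_lit 141)))))) (XT.nd (nat_lit 468) (nat_lit 228) (nat_lit 0) (XT.nd (nat_lit 234) (nat_lit 0) (nat_lit 0) (XT.nd (nat_lit 78) (nat_lit 152) (nat_lit 0) (XT.lf (nat_lit 0) (nat_lit 4476092784) (nat_lit 152) (nat_lit 3988667782) (nat_lit 76) (nat_lit 36209943309) (nat_lit 15) (nat_lit 5) (nat_lit 17) (nat_lit 5) (nat_lit 16) (nat_lit 5) (nat_lit 373) (nat_lit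 267) (nat_lit 140)) (XT.nd (nat_lit 78) (nat_lit 0) (nat_lit 0) (XT.lf (nat_lit 0) (nat_lit 5998455891) (nat_lit 152) (nat_lit 2764306582) (nat_lit 228) (nat_lit 37071266814) (nat_lit 13) (nat_lit 5) (nat_lit 15) (nat_lit 5) (nat_lit 16) (nat_lit 5) (nat_lit 374) (nat_lit 267) (nat_lit 139)) (XT.lf (nat_lit 0) (nat_lit 13240887466) (nat_lit 228) (nat_lit 30703469615) (nat_lit 76) (nat_lit 3081898013) (nat_lit 13) (nat_lit 5) (nat_lit 16) (nat_lit 5) (nat_lit 14) (nat_lit 4) (nat_lit 375) (nat_lit 267) (nat_lit 138)))) (XT.nd (nat_lit 78) (nat_lit 0) (nat_lit 0) (XT.lf (nat_lit 0) (nat_lit 17873260304) (nat_lit 228) (nat_lit 21337620460) (nat_lit 76) (nat_lit 9042775896) (nat_lit 13) (nat_lit 5) (nat_lit 16) (nat_lit 5) (nat_lit 14) (nat_lit 4) (nat_lit 376) (nat_lit 267) (nat_lit 137)) (XT.nd (nat_lit 78) (nat_lit 0) (nat_lit 0) (XT.lf (nat_lit 0) (nat_lit 22637356486) (nat_lit 228) (nat_lit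 11703269972) (nat_lit 76) (nat_lit 15177477177) (nat_lit 13) (nat_lit 5) (nat_lit 16) (nat_lit 5) (nat_lit 14) (nat_lit 4) (nat_lit 377) (nat_lit 267) (nat_lit 136)) (XT.lf (nat_lit 0) (nat_lit 27537338816) (nat_lit 228) (nat_lit 1791999788) (nat_lit 76) (nat_lit 21491362275) (nat_lit 13) (nat_lit 5) (nat_lit 16) (nat_lit 5) (nat_lit 14) (nat_lit 4) (nat_lit 378) (nat_lit 267) (nat_lit 135))))) (XT.nd (nat_lit 234) (nat_lit 152) (nat_lit 0) (XT.nd (nat_lit 78) (nat_lit 0) (nat_lit 0) (XT.lf (nat_lit 0) (nat_lit 8572123428) (nat_lit 76) (nat_lit 24087765895) (nat_lit 152) (nat_lit 19500225242) (nat_lit 12) (nat_lit 5) (nat_lit 13) (nat_lit 5) (nat_lit 14) (nat_lit 4) (nat_lit 379) (nat_lit 267) (nat_lit 134)) (XT.nd (nat_lit 78) (nat_lit 0) (nat_lit 0) (XT.lf (nat_lit 0) (nat_lit 19272261780) (nat_lit 76) (nat_lit 18675205532) (nat_lit 152) (nat_lit 15591908247) (nat_lit 12) (nat_lit 5) (nat_lit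 13) (nat_lit 5) (nat_lit 14) (nat_lit 4) (nat_lit 380) (nat_lit 267) (nat_lit 133)) (XT.lf (nat_lit 0) (nat_lit 30282100593) (nat_lit 76) (nat_lit 13105023778) (nat_lit 152) (nat_lit 11573091728) (nat_lit 12) (nat_lit 5) (nat_lit 13) (nat_lit 5) (nat_lit 14) (nat_lit 4) (nat_lit 381) (nat_lit 267) (nat_lit 132)))) (XT.nd (nat_lit 78) (nat_lit 152) (nat_lit 0) (XT.lf (nat_lit 0) (nat_lit 41611260113) (nat_lit 76) (nat_lit 7372353483) (nat_lit 152) (nat_lit 7440264098) (nat_lit 12) (nat_lit 5) (nat_lit 13) (nat_lit 5) (nat_lit 14) (nat_lit 4) (nat_lit 382) (nat_lit 267) (nat_lit 131)) (XT.nd (nat_lit 78) (nat_lit 152) (nat_lit 0) (XT.lf (nat_lit 0) (nat_lit 53269639608) (nat_lit 76) (nat_lit 1472185517) (nat_lit 152) (nat_lit 3189814149) (nat_lit 12) (nat_lit 5) (nat_lit 13) (nat_lit 5) (nat_lit 14) (nat_lit 4) (nat_lit 383) (nat_lit 267) (nat_lit 130)) (XT.lf (nat_lit 0) (nat_lit 1260385237) (nat_lit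 152) (nat_lit 53641571864) (nat_lit 76) (nat_lit 4579476013) (nat_lit 10) (nat_lit 5) (nat_lit 12) (nat_lit 5) (nat_lit 11) (nat_lit 4) (nat_lit 384) (nat_lit 267) (nat_lit 129))))))))
noncomputable def xc132 : XT := (XT.nd (nat_lit 32370) (nat_lit 0) (nat_lit 7980) (XT.nd (nat_lit 858) (nat_lit 0) (nat_lit 0) (XT.nd (nat_lit 390) (nat_lit 76) (nat_lit 0) (XT.nd (nat_lit 156) (nat_lit 0) (nat_lit 0) (XT.nd (nat_lit 78) (nat_lit 0) (nat_lit 0) (XT.lf (nat_lit 0) (nat_lit 5836075685) (nat_lit 152) (nat_lit 44381097383) (nat_lit 76) (nat_lit 10857921859) (nat_lit 10) (nat_lit 5) (nat_lit 12) (nat_lit 5) (nat_lit 11) (nat_lit 4) (nat_lit 385) (nat_lit 267) (nat_lit 128)) (XT.lf (nat_lit 0) (nat_lit 10543190174) (nat_lit 152) (nat_lit 34853011407) (nat_lit 76) (nat_lit 17320544826) (nat_lit 10) (nat_lit 5) (nat_lit 12) (nat_lit 5) (nat_lit 11) (nat_lit 4) (nat_lit 386) (nat_lit 267) (nat_lit 127)))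 (XT.nd (nat_lit 78) (nat_lit 0) (nat_lit 0) (XT.lf (nat_lit 0) (nat_lit 15385841716) (nat_lit 152) (nat_lit 25048988424) (nat_lit 76) (nat_lit 23972991866) (nat_lit 10) (nat_lit 5) (nat_lit 12) (nat_lit 5) (nat_lit 11) (nat_lit 4) (nat_lit 387) (nat_lit 267) (nat_lit 126)) (XT.nd (nat_lit 78) (nat_lit 0) (nat_lit 0) (XT.lf (nat_lit 0) (nat_lit 20368261754) (nat_lit 152) (nat_lit 14960461812) (nat_lit 76) (nat_lit 30821075797) (nat_lit 10) (nat_lit 5) (nat_lit 12) (nat_lit 5) (nat_lit 11) (nat_lit 4) (nat_lit 388) (nat_lit 267) (nat_lit 125)) (XT.lf (nat_lit 0) (nat_lit 25494803859) (nat_lit 152) (nat_lit 4578616353) (nat_lit 76) (nat_lit 37870780381) (nat_lit 10) (nat_lit 5) (nat_lit 12) (nat_lit 5) (nat_lit 11) (nat_lit 4) (nat_lit 389) (nat_lit 267) (nat_lit 124))))) (XT.nd (nat_lit 234) (nat_lit 0) (nat_lit 0) (XT.nd (nat_lit 78) (nat_lit 0) (nat_lit 0) (XT.lf (nat_lit 0) (nat_lit 6227133266)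 (nat_lit 76) (nat_lit 24602673282) (nat_lit 152) (nat_lit 38960991301) (nat_lit 9) (nat_lit 5) (nat_lit 10) (nat_lit 5) (nat_lit 11) (nat_lit 4) (nat_lit 390) (nat_lit 267) (nat_lit 123)) (XT.nd (nat_lit 78) (nat_lit 0) (nat_lit 0) (XT.lf (nat_lit 0) (nat_lit 17441936393) (nat_lit 76) (nat_lit 18924028297) (nat_lit 152) (nat_lit 35325598977) (nat_lit 9) (nat_lit 5) (nat_lit 10) (nat_lit 5) (nat_lit 11) (nat_lit 4) (nat_lit 391) (nat_lit 267) (nat_lit 122)) (XT.lf (nat_lit 0) (nat_lit 28984468924) (nat_lit 76) (nat_lit 13078758385) (nat_lit 152) (nat_lit 31586278254) (nat_lit 9) (nat_lit 5) (nat_lit 10) (nat_lit 5) (nat_lit 11) (nat_lit 4) (nat_lit 392) (nat_lit 267) (nat_lit 121)))) (XT.nd (nat_lit 78) (nat_lit 0) (nat_lit 0) (XT.lf (nat_lit 0) (nat_lit 40864816569) (nat_lit 76) (nat_lit 7061756026) (nat_lit 152) (nat_lit 27739761763) (nat_lit 9) (nat_lit 5) (nat_lit 10) (nat_lit 5) (nat_lit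 11) (nat_lit 4) (nat_lit 393) (nat_lit 267) (nat_lit 120)) (XT.nd (nat_lit 78) (nat_lit 0) (nat_lit 0) (XT.lf (nat_lit 0) (nat_lit 53093360213) (nat_lit 76) (nat_lit 867763646) (nat_lit 152) (nat_lit 23782688471) (nat_lit 9) (nat_lit 5) (nat_lit 10) (nat_lit 5) (nat_lit 11) (nat_lit 4) (nat_lit 394) (nat_lit 267) (nat_lit 119)) (XT.lf (nat_lit 0) (nat_lit 60225106343) (nat_lit 152) (nat_lit 14255922091) (nat_lit 0) (nat_lit 5401137748) (nat_lit 9) (nat_lit 5) (nat_lit 11) (nat_lit 4) (nat_lit 9) (nat_lit 4) (nat_lit 395) (nat_lit 267) (nat_lit 118)))))) (XT.nd (nat_lit 31044) (nat_lit 0) (nat_lit 16340) (XT.nd (nat_lit 30810) (nat_lit 0) (nat_lit 17556) (XT.nd (nat_lit 30654) (nat_lit 0) (nat_lit 17556) (XT.lf (nat_lit 0) (nat_lit 66681143223) (nat_lit 152) (nat_lit 3565994907) (nat_lit 0) (nat_lit 11837411756) (nat_lit 9) (nat_lit 5) (nat_lit 11) (nat_lit 4) (nat_lit 9) (nat_lit 4) (nat_lit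 396) (nat_lit 267) (nat_lit 117)) (XT.nd (nat_lit 78) (nat_lit 532) (nat_lit 0) (XT.lf (nat_lit 0) (nat_lit 2829251832) (nat_lit 532) (nat_lit 267128276) (nat_lit 532) (nat_lit 267128276) (nat_lit 247) (nat_lit 3) (nat_lit 254) (nat_lit 3) (nat_lit 254) (nat_lit 5) (nat_lit 268) (nat_lit 268) (nat_lit 244)) (XT.lf (nat_lit 0) (nat_lit 893237959) (nat_lit 532) (nat_lit 4319459532) (nat_lit 608) (nat_lit 1550904262) (nat_lit 240) (nat_lit 5) (nat_lit 247) (nat_lit 3) (nat_lit 248) (nat_lit 5) (nat_lit 269) (nat_lit 268) (nat_lit 243)))) (XT.nd (nat_lit 78) (nat_lit 0) (nat_lit 0) (XT.lf (nat_lit 0) (nat_lit 2822001198) (nat_lit 532) (nat_lit 1329883007) (nat_lit 608) (nat_lit 2651425237) (nat_lit 240) (nat_lit 5) (nat_lit 247) (nat_lit 3) (nat_lit 248) (nat_lit 5) (nat_lit 270) (nat_lit 268) (nat_lit 242)) (XT.nd (nat_lit 78) (nat_lit 0) (nat_lit 0) (XT.lf (nat_lit 76) (nat_lit 1743626101) (nat_lit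 0) (nat_lit 3008157508) (nat_lit 608) (nat_lit 2094354929) (nat_lit 241) (nat_lit 5) (nat_lit 240) (nat_lit 5) (nat_lit 248) (nat_lit 5) (nat_lit 271) (nat_lit 268) (nat_lit 241)) (XT.lf (nat_lit 76) (nat_lit 4897212632) (nat_lit 0) (nat_lit 1783836730) (nat_lit 608) (nat_lit 211173761) (nat_lit 241) (nat_lit 5) (nat_lit 240) (nat_lit 5) (nat_lit 248) (nat_lit 5) (nat_lit 272) (nat_lit 268) (nat_lit 240))))) (XT.nd (nat_lit 234) (nat_lit 608) (nat_lit 0) (XT.nd (nat_lit 78) (nat_lit 0) (nat_lit 76) (XT.lf (nat_lit 76) (nat_lit 1172119709) (nat_lit 0) (nat_lit 463275634) (nat_lit 684) (nat_lit 5305783569) (nat_lit 233) (nat_lit 5) (nat_lit 232) (nat_lit 5) (nat_lit 241) (nat_lit 5) (nat_lit 273) (nat_lit 268) (nat_lit 239)) (XT.nd (nat_lit 78) (nat_lit 0) (nat_lit 0) (XT.lf (nat_lit 0) (nat_lit 3493400455) (nat_lit 608) (nat_lit 2568766634) (nat_lit 684) (nat_lit 930764850) (nat_lit 233) (nat_lit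 5) (nat_lit 241) (nat_lit 5) (nat_lit 242) (nat_lit 5) (nat_lit 274) (nat_lit 268) (nat_lit 238)) (XT.lf (nat_lit 76) (nat_lit 695732478) (nat_lit 0) (nat_lit 4656005009) (nat_lit 684) (nat_lit 1696356285) (nat_lit 234) (nat_lit 5) (nat_lit 233) (nat_lit 5) (nat_lit 242) (nat_lit 5) (nat_lit 275) (nat_lit 268) (nat_lit 237)))) (XT.nd (nat_lit 78) (nat_lit 0) (nat_lit 0) (XT.lf (nat_lit 0) (nat_lit 118012027) (nat_lit 684) (nat_lit 3036999359) (nat_lit 760) (nat_lit 3951228368) (nat_lit 224) (nat_lit 5) (nat_lit 233) (nat_lit 5) (nat_lit 234) (nat_lit 5) (nat_lit 276) (nat_lit 268) (nat_lit 236)) (XT.nd (nat_lit 78) (nat_lit 0) (nat_lit 76) (XT.lf (nat_lit 76) (nat_lit 326736434) (nat_lit 0) (nat_lit 1565083323) (nat_lit 760) (nat_lit 5275810896) (nat_lit 225) (nat_lit 5) (nat_lit 224) (nat_lit 5) (nat_lit 234) (nat_lit 5) (nat_lit 277) (nat_lit 268) (nat_lit 235)) (XT.lf (nat_lit 0) (nat_lit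 3688165435) (nat_lit 684) (nat_lit 3419836290) (nat_lit 760) (nat_lit 123954183) (nat_lit 225) (nat_lit 5) (nat_lit 234) (nat_lit 5) (nat_lit 235) (nat_lit 5) (nat_lit 278) (nat_lit 268) (nat_lit 234))))))) (XT.nd (nat_lit 858) (nat_lit 5168) (nat_lit 0) (XT.nd (nat_lit 390) (nat_lit 2508) (nat_lit 0) (XT.nd (nat_lit 156) (nat_lit 760) (nat_lit 0) (XT.nd (nat_lit 78) (nat_lit 0) (nat_lit 0) (XT.lf (nat_lit 76) (nat_lit 48001080) (nat_lit 0) (nat_lit 5445828578) (nat_lit 760) (nat_lit 1805885736) (nat_lit 226) (nat_lit 5) (nat_lit 225) (nat_lit 5) (nat_lit 235) (nat_lit 5) (nat_lit 279) (nat_lit 268) (nat_lit 233)) (XT.lf (nat_lit 76) (nat_lit 3649088602) (nat_lit 0) (nat_lit 3679949673) (nat_lit 760) (nat_lit 41370601) (nat_lit 226) (nat_lit 5) (nat_lit 225) (nat_lit 5) (nat_lit 235) (nat_lit 5) (nat_lit 280) (nat_lit 268) (nat_lit 232))) (XT.nd (nat_lit 78) (nat_lit 0) (nat_lit 76) (XT.lf (nat_lit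 0) (nat_lit 1683262867) (nat_lit 760) (nat_lit 143095130) (nat_lit 836) (nat_lit 5618250887) (nat_lit 215) (nat_lit 5) (nat_lit 225) (nat_lit 5) (nat_lit 226) (nat_lit 5) (nat_lit 281) (nat_lit 268) (nat_lit 231)) (XT.nd (nat_lit 78) (nat_lit 0) (nat_lit 0) (XT.lf (nat_lit 0) (nat_lit 3437974617) (nat_lit 760) (nat_lit 3951180229) (nat_lit 76) (nat_lit 132641295) (nat_lit 216) (nat_lit 5) (nat_lit 226) (nat_lit 5) (nat_lit 217) (nat_lit 5) (nat_lit 282) (nat_lit 268) (nat_lit 230)) (XT.lf (nat_lit 0) (nat_lit 5209821638) (nat_lit 760) (nat_lit 262056321) (nat_lit 76) (nat_lit 2130630571) (nat_lit 216) (nat_lit 5) (nat_lit 226) (nat_lit 5) (nat_lit 217) (nat_lit 5) (nat_lit 283) (nat_lit 268) (nat_lit 229))))) (XT.nd (nat_lit 234) (nat_lit 912) (nat_lit 0) (XT.nd (nat_lit 78) (nat_lit 912) (nat_lit 0) (XT.lf (nat_lit 0) (nat_lit 3567179740) (nat_lit 760) (nat_lit 3448489467) (nat_lit 836) (nat_lit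 670687857) (nat_lit 206) (nat_lit 5) (nat_lit 216) (nat_lit 5) (nat_lit 217) (nat_lit 5) (nat_lit 284) (nat_lit 268) (nat_lit 228)) (XT.nd (nat_lit 78) (nat_lit 836) (nat_lit 0) (XT.lf (nat_lit 0) (nat_lit 1031199255) (nat_lit 836) (nat_lit 307567108) (nat_lit 76) (nat_lit 6435276170) (nat_lit 205) (nat_lit 5) (nat_lit 216) (nat_lit 5) (nat_lit 206) (nat_lit 5) (nat_lit 285) (nat_lit 268) (nat_lit 227)) (XT.lf (nat_lit 0) (nat_lit 2762845644) (nat_lit 912) (nat_lit 4230249942) (nat_lit 76) (nat_lit 871426518) (nat_lit 194) (nat_lit 5) (nat_lit 206) (nat_lit 5) (nat_lit 195) (nat_lit 5) (nat_lit 286) (nat_lit 268) (nat_lit 226)))) (XT.nd (nat_lit 78) (nat_lit 912) (nat_lit 0) (XT.lf (nat_lit 0) (nat_lit 4512675697) (nat_lit 912) (nat_lit 311352939) (nat_lit 76) (nat_lit 3134824899) (nat_lit 194) (nat_lit 5) (nat_lit 206) (nat_lit 5) (nat_lit 195) (nat_lit 5) (nat_lit 287) (nat_lit 268) (nat_lit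 225)) (XT.nd (nat_lit 78) (nat_lit 0) (nat_lit 0) (XT.lf (nat_lit 0) (nat_lit 3758535454) (nat_lit 912) (nat_lit 2543898017) (nat_lit 988) (nat_lit 1754079329) (nat_lit 182) (nat_lit 5) (nat_lit 194) (nat_lit 5) (nat_lit 195) (nat_lit 5) (nat_lit 288) (nat_lit 268) (nat_lit 224)) (XT.lf (nat_lit 0) (nat_lit 7917376202) (nat_lit 912) (nat_lit 183993701) (nat_lit 988) (nat_lit 57184717) (nat_lit 182) (nat_lit 5) (nat_lit 194) (nat_lit 5) (nat_lit 195) (nat_lit 5) (nat_lit 289) (nat_lit 268) (nat_lit 223)))))) (XT.nd (nat_lit 468) (nat_lit 1596) (nat_lit 0) (XT.nd (nat_lit 234) (nat_lit 1444) (nat_lit 0) (XT.nd (nat_lit 78) (nat_lit 1064) (nat_lit 0) (XT.lf (nat_lit 0) (nat_lit 1671048049) (nat_lit 1064) (nat_lit 4326842576) (nat_lit 76) (nat_lit 2264987509) (nat_lit 168) (nat_lit 5) (nat_lit 182) (nat_lit 5) (nat_lit 169) (nat_lit 5) (nat_lit 290) (nat_lit 268) (nat_lit 222)) (XT.nd (nat_lit 78)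 (nat_lit 1064) (nat_lit 0) (XT.lf (nat_lit 0) (nat_lit 3408474461) (nat_lit 1064) (nat_lit 169740735) (nat_lit 76) (nat_lit 4793451688) (nat_lit 168) (nat_lit 5) (nat_lit 182) (nat_lit 5) (nat_lit 169) (nat_lit 5) (nat_lit 291) (nat_lit 268) (nat_lit 221)) (XT.lf (nat_lit 0) (nat_lit 4153730042) (nat_lit 1064) (nat_lit 1039770123) (nat_lit 1140) (nat_lit 3290459105) (nat_lit 154) (nat_lit 5) (nat_lit 168) (nat_lit 5) (nat_lit 169) (nat_lit 5) (nat_lit 292) (nat_lit 268) (nat_lit 220)))) (XT.nd (nat_lit 78) (nat_lit 1444) (nat_lit 0) (XT.lf (nat_lit 0) (nat_lit 7005457329) (nat_lit 1140) (nat_lit 44802460) (nat_lit 76) (nat_lit 1550260448) (nat_lit 154) (nat_lit 5) (nat_lit 169) (nat_lit 5) (nat_lit 155) (nat_lit 5) (nat_lit 293) (nat_lit 268) (nat_lit 219)) (XT.nd (nat_lit 78) (nat_lit 532) (nat_lit 0) (XT.lf (nat_lit 0) (nat_lit 158673599) (nat_lit 912) (nat_lit 4316342458) (nat_lit 76) (nat_lit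 4245300932) (nat_lit 142) (nat_lit 5) (nat_lit 154) (nat_lit 5) (nat_lit 143) (nat_lit 5) (nat_lit 294) (nat_lit 268) (nat_lit 218)) (XT.lf (nat_lit 0) (nat_lit 89564731) (nat_lit 532) (nat_lit 1802846966) (nat_lit 608) (nat_lit 6952131346) (nat_lit 135) (nat_lit 5) (nat_lit 142) (nat_lit 5) (nat_lit 143) (nat_lit 5) (nat_lit 295) (nat_lit 268) (nat_lit 217))))) (XT.nd (nat_lit 234) (nat_lit 1064) (nat_lit 0) (XT.nd (nat_lit 78) (nat_lit 532) (nat_lit 0) (XT.lf (nat_lit 0) (nat_lit 3690293713) (nat_lit 608) (nat_lit 4305387631) (nat_lit 76) (nat_lit 976540522) (nat_lit 135) (nat_lit 5) (nat_lit 143) (nat_lit 5) (nat_lit 136) (nat_lit 5) (nat_lit 296) (nat_lit 268) (nat_lit 216)) (XT.nd (nat_lit 78) (nat_lit 0) (nat_lit 0) (XT.lf (nat_lit 0) (nat_lit 224641178) (nat_lit 532) (nat_lit 5297661513) (nat_lit 608) (nat_lit 3582109973) (nat_lit 128) (nat_lit 5) (nat_lit 135) (nat_lit 5) (nat_lit 136)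 (nat_lit 5) (nat_lit 297) (nat_lit 268) (nat_lit 215)) (XT.lf (nat_lit 0) (nat_lit 4939631970) (nat_lit 532) (nat_lit 2474080090) (nat_lit 608) (nat_lit 1826808700) (nat_lit 128) (nat_lit 5) (nat_lit 135) (nat_lit 5) (nat_lit 136) (nat_lit 5) (nat_lit 298) (nat_lit 268) (nat_lit 214)))) (XT.nd (nat_lit 78) (nat_lit 608) (nat_lit 0) (XT.lf (nat_lit 0) (nat_lit 379317052) (nat_lit 456) (nat_lit 8952466395) (nat_lit 532) (nat_lit 49913371) (nat_lit 122) (nat_lit 5) (nat_lit 128) (nat_lit 5) (nat_lit 129) (nat_lit 5) (nat_lit 299) (nat_lit 268) (nat_lit 213)) (XT.nd (nat_lit 78) (nat_lit 532) (nat_lit 0) (XT.lf (nat_lit 0) (nat_lit 1776288710) (nat_lit 532) (nat_lit 4319463751) (nat_lit 76) (nat_lit 3429997692) (nat_lit 121) (nat_lit 5) (nat_lit 128) (nat_lit 5) (nat_lit 122) (nat_lit 5) (nat_lit 300) (nat_lit 268) (nat_lit 212)) (XT.lf (nat_lit 0) (nat_lit 474141932) (nat_lit 532) (nat_lit 3150168434)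 (nat_lit 608) (nat_lit 6050834121) (nat_lit 114) (nat_lit 5) (nat_lit 121) (nat_lit 5) (nat_lit 122) (nat_lit 5) (nat_lit 301) (nat_lit 268) (nat_lit 211))))))))
noncomputable def xc133 : XT := (XT.nd (nat_lit 1794) (nat_lit 2204) (nat_lit 0) (XT.nd (nat_lit 858) (nat_lit 1976) (nat_lit 0) (XT.nd (nat_lit 390) (nat_lit 1216) (nat_lit 0) (XT.nd (nat_lit 156) (nat_lit 532) (nat_lit 0) (XT.nd (nat_lit 78) (nat_lit 456) (nat_lit 0) (XT.lf (nat_lit 0) (nat_lit 5461922722) (nat_lit 532) (nat_lit 73643775) (nat_lit 608) (nat_lit 4293293471) (nat_lit 114) (nat_lit 5) (nat_lit 121) (nat_lit 5) (nat_lit 122) (nat_lit 5) (nat_lit 302) (nat_lit 268) (nat_lit 210)) (XT.lf (nat_lit 0) (nat_lit 555070387) (nat_lit 456) (nat_lit 6949375501) (nat_lit 532) (nat_lit 2482803459) (nat_lit 108) (nat_lit 5) (nat_lit 114) (nat_lit 5) (nat_lit 115) (nat_lit 5) (nat_lit 303) (nat_lit 268) (nat_lit 209))) (XT.nd (nat_lit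 78) (nat_lit 532) (nat_lit 0) (XT.lf (nat_lit 0) (nat_lit 5675728302) (nat_lit 456) (nat_lit 3867330502) (nat_lit 532) (nat_lit 607080523) (nat_lit 108) (nat_lit 5) (nat_lit 114) (nat_lit 5) (nat_lit 115) (nat_lit 5) (nat_lit 304) (nat_lit 268) (nat_lit 208)) (XT.nd (nat_lit 78) (nat_lit 0) (nat_lit 0) (XT.lf (nat_lit 0) (nat_lit 593519332) (nat_lit 456) (nat_lit 677694647) (nat_lit 532) (nat_lit 9047220314) (nat_lit 101) (nat_lit 5) (nat_lit 107) (nat_lit 5) (nat_lit 108) (nat_lit 5) (nat_lit 305) (nat_lit 268) (nat_lit 207)) (XT.lf (nat_lit 0) (nat_lit 3231381817) (nat_lit 532) (nat_lit 4654799181) (nat_lit 76) (nat_lit 2604348088) (nat_lit 101) (nat_lit 5) (nat_lit 108) (nat_lit 5) (nat_lit 102) (nat_lit 5) (nat_lit 306) (nat_lit 268) (nat_lit 206))))) (XT.nd (nat_lit 234) (nat_lit 456) (nat_lit 0) (XT.nd (nat_lit 78) (nat_lit 380) (nat_lit 0) (XT.lf (nat_lit 0) (nat_lit 534181601) (nat_lit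 380) (nat_lit 4696008056) (nat_lit 456) (nat_lit 5438263263) (nat_lit 96) (nat_lit 5) (nat_lit 101) (nat_lit 5) (nat_lit 102) (nat_lit 5) (nat_lit 307) (nat_lit 268) (nat_lit 205)) (XT.nd (nat_lit 78) (nat_lit 380) (nat_lit 0) (XT.lf (nat_lit 0) (nat_lit 5937660474) (nat_lit 380) (nat_lit 1366876438) (nat_lit 456) (nat_lit 3546769764) (nat_lit 96) (nat_lit 5) (nat_lit 101) (nat_lit 5) (nat_lit 102) (nat_lit 5) (nat_lit 308) (nat_lit 268) (nat_lit 204)) (XT.lf (nat_lit 0) (nat_lit 415432406) (nat_lit 380) (nat_lit 9018936098) (nat_lit 456) (nat_lit 1605537654) (nat_lit 91) (nat_lit 5) (nat_lit 96) (nat_lit 5) (nat_lit 97) (nat_lit 5) (nat_lit 309) (nat_lit 268) (nat_lit 203)))) (XT.nd (nat_lit 78) (nat_lit 380) (nat_lit 0) (XT.lf (nat_lit 0) (nat_lit 419516415) (nat_lit 456) (nat_lit 5282129091) (nat_lit 76) (nat_lit 5531460772) (nat_lit 90) (nat_lit 5) (nat_lit 96) (nat_lit 5) (nat_lit 91) (nat_lit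 5) (nat_lit 310) (nat_lit 268) (nat_lit 202)) (XT.nd (nat_lit 78) (nat_lit 0) (nat_lit 0) (XT.lf (nat_lit 0) (nat_lit 172270624) (nat_lit 380) (nat_lit 2272951451) (nat_lit 456) (nat_lit 8987291177) (nat_lit 85) (nat_lit 5) (nat_lit 90) (nat_lit 5) (nat_lit 91) (nat_lit 5) (nat_lit 311) (nat_lit 268) (nat_lit 201)) (XT.lf (nat_lit 0) (nat_lit 4568636376) (nat_lit 456) (nat_lit 5786537857) (nat_lit 76) (nat_lit 1281671372) (nat_lit 85) (nat_lit 5) (nat_lit 91) (nat_lit 5) (nat_lit 86) (nat_lit 5) (nat_lit 312) (nat_lit 268) (nat_lit 200)))))) (XT.nd (nat_lit 468) (nat_lit 912) (nat_lit 0) (XT.nd (nat_lit 234) (nat_lit 684) (nat_lit 0) (XT.nd (nat_lit 78) (nat_lit 380) (nat_lit 0) (XT.lf (nat_lit 0) (nat_lit 6750074805) (nat_lit 456) (nat_lit 206262157) (nat_lit 76) (nat_lit 4891191112) (nat_lit 85) (nat_lit 5) (nat_lit 91) (nat_lit 5) (nat_lit 86) (nat_lit 5) (nat_lit 313) (nat_lit 268) (nat_lit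 199)) (XT.nd (nat_lit 78) (nat_lit 0) (nat_lit 0) (XT.lf (nat_lit 0) (nat_lit 5616915695) (nat_lit 380) (nat_lit 3406672010) (nat_lit 456) (nat_lit 3040192723) (nat_lit 80) (nat_lit 5) (nat_lit 85) (nat_lit 5) (nat_lit 86) (nat_lit 5) (nat_lit 314) (nat_lit 268) (nat_lit 198)) (XT.lf (nat_lit 0) (nat_lit 11342851768) (nat_lit 456) (nat_lit 704424971) (nat_lit 76) (nat_lit 239964179) (nat_lit 80) (nat_lit 5) (nat_lit 86) (nat_lit 5) (nat_lit 81) (nat_lit 5) (nat_lit 315) (nat_lit 268) (nat_lit 197)))) (XT.nd (nat_lit 78) (nat_lit 304) (nat_lit 0) (XT.lf (nat_lit 0) (nat_lit 1249103007) (nat_lit 380) (nat_lit 7282601755) (nat_lit 76) (nat_lit 3983639244) (nat_lit 75) (nat_lit 5) (nat_lit 80) (nat_lit 5) (nat_lit 76) (nat_lit 5) (nat_lit 316) (nat_lit 268) (nat_lit 196)) (XT.nd (nat_lit 78) (nat_lit 304) (nat_lit 0) (XT.lf (nat_lit 0) (nat_lit 3470576352) (nat_lit 380) (nat_lit 1430823609) (nat_lit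 76) (nat_lit 7849217942) (nat_lit 75) (nat_lit 5) (nat_lit 80) (nat_lit 5) (nat_lit 76) (nat_lit 5) (nat_lit 317) (nat_lit 268) (nat_lit 195)) (XT.lf (nat_lit 0) (nat_lit 4654528163) (nat_lit 304) (nat_lit 1123639913) (nat_lit 380) (nat_lit 7214239418) (nat_lit 71) (nat_lit 5) (nat_lit 75) (nat_lit 5) (nat_lit 76) (nat_lit 5) (nat_lit 318) (nat_lit 268) (nat_lit 194))))) (XT.nd (nat_lit 234) (nat_lit 608) (nat_lit 0) (XT.nd (nat_lit 78) (nat_lit 304) (nat_lit 0) (XT.lf (nat_lit 0) (nat_lit 8171263833) (nat_lit 380) (nat_lit 2349188928) (nat_lit 76) (nat_lit 2720550217) (nat_lit 71) (nat_lit 5) (nat_lit 76) (nat_lit 5) (nat_lit 72) (nat_lit 5) (nat_lit 319) (nat_lit 268) (nat_lit 193)) (XT.nd (nat_lit 78) (nat_lit 0) (nat_lit 0) (XT.lf (nat_lit 0) (nat_lit 3850952832) (nat_lit 304) (nat_lit 6809150512) (nat_lit 380) (nat_lit 2836273766) (nat_lit 67) (nat_lit 5) (nat_lit 71) (nat_lit 5) (nat_lit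 72) (nat_lit 5) (nat_lit 320) (nat_lit 268) (nat_lit 192)) (XT.lf (nat_lit 0) (nat_lit 10253340731) (nat_lit 304) (nat_lit 2970195376) (nat_lit 380) (nat_lit 535916685) (nat_lit 67) (nat_lit 5) (nat_lit 71) (nat_lit 5) (nat_lit 72) (nat_lit 5) (nat_lit 321) (nat_lit 268) (nat_lit 191)))) (XT.nd (nat_lit 78) (nat_lit 228) (nat_lit 0) (XT.lf (nat_lit 0) (nat_lit 1811270893) (nat_lit 380) (nat_lit 11216274456) (nat_lit 76) (nat_lit 1001974732) (nat_lit 62) (nat_lit 5) (nat_lit 67) (nat_lit 5) (nat_lit 63) (nat_lit 5) (nat_lit 322) (nat_lit 268) (nat_lit 190)) (XT.nd (nat_lit 78) (nat_lit 228) (nat_lit 0) (XT.lf (nat_lit 0) (nat_lit 4260201953) (nat_lit 380) (nat_lit 4979458579) (nat_lit 76) (nat_lit 5066641626) (nat_lit 62) (nat_lit 5) (nat_lit 67) (nat_lit 5) (nat_lit 63) (nat_lit 5) (nat_lit 323) (nat_lit 268) (nat_lit 189)) (XT.lf (nat_lit 0) (nat_lit 1441698668) (nat_lit 228) (nat_lit 5332368505)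 (nat_lit 304) (nat_lit 7817610446) (nat_lit 59) (nat_lit 5) (nat_lit 62) (nat_lit 5) (nat_lit 63) (nat_lit 5) (nat_lit 324) (nat_lit 268) (nat_lit 188))))))) (XT.nd (nat_lit 936) (nat_lit 836) (nat_lit 0) (XT.nd (nat_lit 468) (nat_lit 760) (nat_lit 0) (XT.nd (nat_lit 234) (nat_lit 304) (nat_lit 0) (XT.nd (nat_lit 78) (nat_lit 304) (nat_lit 0) (XT.lf (nat_lit 0) (nat_lit 8126971713) (nat_lit 228) (nat_lit 1264625269) (nat_lit 304) (nat_lit 5493202826) (nat_lit 59) (nat_lit 5) (nat_lit 62) (nat_lit 5) (nat_lit 63) (nat_lit 5) (nat_lit 325) (nat_lit 268) (nat_lit 187)) (XT.nd (nat_lit 78) (nat_lit 304) (nat_lit 0) (XT.lf (nat_lit 0) (nat_lit 12094298779) (nat_lit 304) (nat_lit 232326789) (nat_lit 76) (nat_lit 2859922676) (nat_lit 59) (nat_lit 5) (nat_lit 63) (nat_lit 5) (nat_lit 60) (nat_lit 5) (nat_lit 326) (nat_lit 268) (nat_lit 186)) (XT.lf (nat_lit 0) (nat_lit 6575313215) (nat_lit 304) (nat_lit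 8357648553) (nat_lit 380) (nat_lit 562771995) (nat_lit 55) (nat_lit 5) (nat_lit 59) (nat_lit 5) (nat_lit 60) (nat_lit 5) (nat_lit 327) (nat_lit 268) (nat_lit 185)))) (XT.nd (nat_lit 78) (nat_lit 228) (nat_lit 0) (XT.lf (nat_lit 0) (nat_lit 1984348468) (nat_lit 380) (nat_lit 2271404664) (nat_lit 76) (nat_lit 11558433420) (nat_lit 54) (nat_lit 5) (nat_lit 59) (nat_lit 5) (nat_lit 55) (nat_lit 5) (nat_lit 328) (nat_lit 268) (nat_lit 184)) (XT.nd (nat_lit 78) (nat_lit 0) (nat_lit 0) (XT.lf (nat_lit 0) (nat_lit 4621078583) (nat_lit 304) (nat_lit 11508225932) (nat_lit 76) (nat_lit 12014433) (nat_lit 51) (nat_lit 5) (nat_lit 55) (nat_lit 5) (nat_lit 52) (nat_lit 5) (nat_lit 329) (nat_lit 268) (nat_lit 183)) (XT.lf (nat_lit 0) (nat_lit 7382293738) (nat_lit 304) (nat_lit 4757617933) (nat_lit 76) (nat_lit 4337019723) (nat_lit 51) (nat_lit 5) (nat_lit 55) (nat_lit 5) (nat_lit 52) (nat_lit 5) (nat_lit 330)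 (nat_lit 268) (nat_lit 182))))) (XT.nd (nat_lit 234) (nat_lit 532) (nat_lit 0) (XT.nd (nat_lit 78) (nat_lit 0) (nat_lit 0) (XT.lf (nat_lit 0) (nat_lit 2210522541) (nat_lit 228) (nat_lit 8017734943) (nat_lit 304) (nat_lit 6594324136) (nat_lit 48) (nat_lit 5) (nat_lit 51) (nat_lit 5) (nat_lit 52) (nat_lit 5) (nat_lit 331) (nat_lit 268) (nat_lit 181)) (XT.nd (nat_lit 78) (nat_lit 0) (nat_lit 0) (XT.lf (nat_lit 0) (nat_lit 9457388410) (nat_lit 228) (nat_lit 3731213125) (nat_lit 304) (nat_lit 3989155764) (nat_lit 48) (nat_lit 5) (nat_lit 51) (nat_lit 5) (nat_lit 52) (nat_lit 5) (nat_lit 332) (nat_lit 268) (nat_lit 180)) (XT.lf (nat_lit 0) (nat_lit 16225761230) (nat_lit 304) (nat_lit 656034062) (nat_lit 76) (nat_lit 662178030) (nat_lit 48) (nat_lit 5) (nat_lit 52) (nat_lit 5) (nat_lit 49) (nat_lit 5) (nat_lit 333) (nat_lit 268) (nat_lit 179)))) (XT.nd (nat_lit 78) (nat_lit 228) (nat_lit 0) (XT.lf (nat_lit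 0) (nat_lit 1488894059) (nat_lit 304) (nat_lit 11246255076) (nat_lit 76) (nat_lit 5183117438) (nat_lit 44) (nat_lit 5) (nat_lit 48) (nat_lit 5) (nat_lit 45) (nat_lit 5) (nat_lit 334) (nat_lit 268) (nat_lit 178)) (XT.nd (nat_lit 78) (nat_lit 228) (nat_lit 0) (XT.lf (nat_lit 0) (nat_lit 4342452463) (nat_lit 304) (nat_lit 4110209056) (nat_lit 76) (nat_lit 9851096629) (nat_lit 44) (nat_lit 5) (nat_lit 48) (nat_lit 5) (nat_lit 45) (nat_lit 5) (nat_lit 335) (nat_lit 268) (nat_lit 177)) (XT.lf (nat_lit 0) (nat_lit 3277813832) (nat_lit 228) (nat_lit 4017878718) (nat_lit 304) (nat_lit 11404722092) (nat_lit 41) (nat_lit 5) (nat_lit 44) (nat_lit 5) (nat_lit 45) (nat_lit 5) (nat_lit 336) (nat_lit 268) (nat_lit 176)))))) (XT.nd (nat_lit 468) (nat_lit 380) (nat_lit 0) (XT.nd (nat_lit 234) (nat_lit 304) (nat_lit 0) (XT.nd (nat_lit 78) (nat_lit 152) (nat_lit 0) (XT.lf (nat_lit 0) (nat_lit 10367475480) (nat_lit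 304) (nat_lit 8167955254) (nat_lit 76) (nat_lit 572663494) (nat_lit 41) (nat_lit 5) (nat_lit 45) (nat_lit 5) (nat_lit 42) (nat_lit 5) (nat_lit 337) (nat_lit 268) (nat_lit 175)) (XT.nd (nat_lit 78) (nat_lit 152) (nat_lit 0) (XT.lf (nat_lit 0) (nat_lit 13554438712) (nat_lit 304) (nat_lit 760951177) (nat_lit 76) (nat_lit 5211944638) (nat_lit 41) (nat_lit 5) (nat_lit 45) (nat_lit 5) (nat_lit 42) (nat_lit 5) (nat_lit 338) (nat_lit 268) (nat_lit 174)) (XT.lf (nat_lit 0) (nat_lit 6979705052) (nat_lit 152) (nat_lit 9908132808) (nat_lit 228) (nat_lit 3069809884) (nat_lit 39) (nat_lit 5) (nat_lit 41) (nat_lit 5) (nat_lit 42) (nat_lit 5) (nat_lit 339) (nat_lit 268) (nat_lit 173)))) (XT.nd (nat_lit 78) (nat_lit 304) (nat_lit 0) (XT.lf (nat_lit 0) (nat_lit 14943665285) (nat_lit 152) (nat_lit 5369229759) (nat_lit 228) (nat_lit 88245548) (nat_lit 39) (nat_lit 5) (nat_lit 41) (nat_lit 5) (nat_lit 42) (nat_lit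 5) (nat_lit 340) (nat_lit 268) (nat_lit 172)) (XT.nd (nat_lit 78) (nat_lit 0) (nat_lit 0) (XT.lf (nat_lit 0) (nat_lit 2280298421) (nat_lit 228) (nat_lit 650448167) (nat_lit 304) (nat_lit 17926164689) (nat_lit 35) (nat_lit 5) (nat_lit 38) (nat_lit 5) (nat_lit 39) (nat_lit 5) (nat_lit 341) (nat_lit 268) (nat_lit 171)) (XT.lf (nat_lit 0) (nat_lit 6119072067) (nat_lit 304) (nat_lit 11028809494) (nat_lit 76) (nat_lit 4176049421) (nat_lit 35) (nat_lit 5) (nat_lit 39) (nat_lit 5) (nat_lit 36) (nat_lit 5) (nat_lit 342) (nat_lit 268) (nat_lit 170))))) (XT.nd (nat_lit 234) (nat_lit 228) (nat_lit 0) (XT.nd (nat_lit 78) (nat_lit 152) (nat_lit 0) (XT.lf (nat_lit 0) (nat_lit 9394355041) (nat_lit 304) (nat_lit 3284602887) (nat_lit 76) (nat_lit 9126281815) (nat_lit 35) (nat_lit 5) (nat_lit 39) (nat_lit 5) (nat_lit 36) (nat_lit 5) (nat_lit 343) (nat_lit 268) (nat_lit 169)) (XT.nd (nat_lit 78) (nat_lit 0) (nat_lit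 0) (XT.lf (nat_lit 0) (nat_lit 4761949028) (nat_lit 152) (nat_lit 8037030640) (nat_lit 228) (nat_lit 9501092787) (nat_lit 33) (nat_lit 5) (nat_lit 35) (nat_lit 5) (nat_lit 36) (nat_lit 5) (nat_lit 344) (nat_lit 268) (nat_lit 168)) (XT.lf (nat_lit 0) (nat_lit 13094549522) (nat_lit 152) (nat_lit 3229879865) (nat_lit 228) (nat_lit 6484776854) (nat_lit 33) (nat_lit 5) (nat_lit 35) (nat_lit 5) (nat_lit 36) (nat_lit 5) (nat_lit 345) (nat_lit 268) (nat_lit 167)))) (XT.nd (nat_lit 78) (nat_lit 228) (nat_lit 0) (XT.lf (nat_lit 0) (nat_lit 19958054165) (nat_lit 228) (nat_lit 1695414032) (nat_lit 76) (nat_lit 1680089690) (nat_lit 33) (nat_lit 5) (nat_lit 36) (nat_lit 5) (nat_lit 34) (nat_lit 5) (nat_lit 346) (nat_lit 268) (nat_lit 166)) (XT.nd (nat_lit 78) (nat_lit 76) (nat_lit 0) (XT.lf (nat_lit 0) (nat_lit 6640274390) (nat_lit 152) (nat_lit 17142498020) (nat_lit 228) (nat_lit 88420856) (nat_lit 31) (nat_lit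 5) (nat_lit 33) (nat_lit 5) (nat_lit 34) (nat_lit 5) (nat_lit 347) (nat_lit 268) (nat_lit 165)) (XT.lf (nat_lit 0) (nat_lit 3236541981) (nat_lit 228) (nat_lit 9217323511) (nat_lit 76) (nat_lit 11970047898) (nat_lit 30) (nat_lit 5) (nat_lit 33) (nat_lit 5) (nat_lit 31) (nat_lit 5) (nat_lit 348) (nat_lit 268) (nat_lit 164))))))))
noncomputable def xc134 : XT := (XT.nd (nat_lit 1794) (nat_lit 532) (nat_lit 0) (XT.nd (nat_lit 858) (nat_lit 380) (nat_lit 0) (XT.nd (nat_lit 390) (nat_lit 380) (nat_lit 0) (XT.nd (nat_lit 156) (nat_lit 152) (nat_lit 0) (XT.nd (nat_lit 78) (nat_lit 152) (nat_lit 0) (XT.lf (nat_lit 0) (nat_lit 6646194319) (nat_lit 228) (nat_lit 985362999) (nat_lit 76) (nat_lit 17362044391) (nat_lit 30) (nat_lit 5) (nat_lit 33) (nat_lit 5) (nat_lit 31) (nat_lit 5) (nat_lit 349) (nat_lit 268) (nat_lit 163)) (XT.lf (nat_lit 0) (nat_lit 7621733053) (nat_lit 152) (nat_lit 2596772583) (nat_lit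 228) (nat_lit 15360077932) (nat_lit 28) (nat_lit 5) (nat_lit 30) (nat_lit 5) (nat_lit 31) (nat_lit 5) (nat_lit 350) (nat_lit 268) (nat_lit 162))) (XT.nd (nat_lit 78) (nat_lit 152) (nat_lit 0) (XT.lf (nat_lit 0) (nat_lit 13920133881) (nat_lit 228) (nat_lit 9719232421) (nat_lit 76) (nat_lit 2541097716) (nat_lit 28) (nat_lit 5) (nat_lit 31) (nat_lit 5) (nat_lit 29) (nat_lit 5) (nat_lit 351) (nat_lit 268) (nat_lit 161)) (XT.nd (nat_lit 78) (nat_lit 152) (nat_lit 0) (XT.lf (nat_lit 0) (nat_lit 17746105330) (nat_lit 228) (nat_lit 1280265242) (nat_lit 76) (nat_lit 7773644648) (nat_lit 28) (nat_lit 5) (nat_lit 31) (nat_lit 5) (nat_lit 29) (nat_lit 5) (nat_lit 352) (nat_lit 268) (nat_lit 160)) (XT.lf (nat_lit 0) (nat_lit 7539509632) (nat_lit 152) (nat_lit 14207766045) (nat_lit 228) (nat_lit 5689077473) (nat_lit 26) (nat_lit 5) (nat_lit 28) (nat_lit 5) (nat_lit 29) (nat_lit 5) (nat_lit 353) (nat_lit 268)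 (nat_lit 159))))) (XT.nd (nat_lit 234) (nat_lit 152) (nat_lit 0) (XT.nd (nat_lit 78) (nat_lit 228) (nat_lit 0) (XT.lf (nat_lit 0) (nat_lit 16630828648) (nat_lit 152) (nat_lit 9238691678) (nat_lit 228) (nat_lit 2222242129) (nat_lit 26) (nat_lit 5) (nat_lit 28) (nat_lit 5) (nat_lit 29) (nat_lit 5) (nat_lit 354) (nat_lit 268) (nat_lit 158)) (XT.nd (nat_lit 78) (nat_lit 152) (nat_lit 0) (XT.lf (nat_lit 0) (nat_lit 1310613468) (nat_lit 228) (nat_lit 2803885636) (nat_lit 76) (nat_lit 24652307794) (nat_lit 25) (nat_lit 5) (nat_lit 28) (nat_lit 5) (nat_lit 26) (nat_lit 5) (nat_lit 355) (nat_lit 268) (nat_lit 157)) (XT.lf (nat_lit 0) (nat_lit 4964917350) (nat_lit 228) (nat_lit 23278627788) (nat_lit 76) (nat_lit 1216104998) (nat_lit 23) (nat_lit 5) (nat_lit 26) (nat_lit 5) (nat_lit 24) (nat_lit 5) (nat_lit 356) (nat_lit 268) (nat_lit 156)))) (XT.nd (nat_lit 78) (nat_lit 152) (nat_lit 0) (XT.lf (nat_lit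 0) (nat_lit 8786939792) (nat_lit 228) (nat_lit 14739013036) (nat_lit 76) (nat_lit 6645594189) (nat_lit 23) (nat_lit 5) (nat_lit 26) (nat_lit 5) (nat_lit 24) (nat_lit 5) (nat_lit 357) (nat_lit 268) (nat_lit 155)) (XT.nd (nat_lit 78) (nat_lit 152) (nat_lit 0) (XT.lf (nat_lit 0) (nat_lit 12712708101) (nat_lit 228) (nat_lit 5961190720) (nat_lit 76) (nat_lit 12231240135) (nat_lit 23) (nat_lit 5) (nat_lit 26) (nat_lit 5) (nat_lit 24) (nat_lit 5) (nat_lit 358) (nat_lit 268) (nat_lit 154)) (XT.lf (nat_lit 0) (nat_lit 3123459035) (nat_lit 152) (nat_lit 13652218121) (nat_lit 228) (nat_lit 14884489062) (nat_lit 21) (nat_lit 5) (nat_lit 23) (nat_lit 5) (nat_lit 24) (nat_lit 5) (nat_lit 359) (nat_lit 268) (nat_lit 153)))))) (XT.nd (nat_lit 468) (nat_lit 228) (nat_lit 0) (XT.nd (nat_lit 234) (nat_lit 152) (nat_lit 0) (XT.nd (nat_lit 78) (nat_lit 0) (nat_lit 0) (XT.lf (nat_lit 0) (nat_lit 12585560833) (nat_lit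 152) (nat_lit 8424716371) (nat_lit 228) (nat_lit 11426084928) (nat_lit 21) (nat_lit 5) (nat_lit 23) (nat_lit 5) (nat_lit 24) (nat_lit 5) (nat_lit 360) (nat_lit 268) (nat_lit 152)) (XT.nd (nat_lit 78) (nat_lit 0) (nat_lit 0) (XT.lf (nat_lit 0) (nat_lit 22314743146) (nat_lit 152) (nat_lit 3047022189) (nat_lit 228) (nat_lit 7874392886) (nat_lit 21) (nat_lit 5) (nat_lit 23) (nat_lit 5) (nat_lit 24) (nat_lit 5) (nat_lit 361) (nat_lit 268) (nat_lit 151)) (XT.lf (nat_lit 0) (nat_lit 29857836575) (nat_lit 228) (nat_lit 1764638891) (nat_lit 76) (nat_lit 2437061085) (nat_lit 21) (nat_lit 5) (nat_lit 24) (nat_lit 5) (nat_lit 22) (nat_lit 4) (nat_lit 362) (nat_lit 268) (nat_lit 150)))) (XT.nd (nat_lit 78) (nat_lit 76) (nat_lit 0) (XT.lf (nat_lit 0) (nat_lit 7772281946) (nat_lit 76) (nat_lit 26811761102) (nat_lit 152) (nat_lit 320724828) (nat_lit 20) (nat_lit 5) (nat_lit 21) (nat_lit 5) (nat_lit 22) (nat_lit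 4) (nat_lit 363) (nat_lit 268) (nat_lit 149)) (XT.nd (nat_lit 78) (nat_lit 0) (nat_lit 0) (XT.lf (nat_lit 0) (nat_lit 3613327505) (nat_lit 152) (nat_lit 18194954429) (nat_lit 76) (nat_lit 13965770842) (nat_lit 19) (nat_lit 5) (nat_lit 21) (nat_lit 5) (nat_lit 20) (nat_lit 5) (nat_lit 364) (nat_lit 268) (nat_lit 148)) (XT.lf (nat_lit 0) (nat_lit 7649632215) (nat_lit 152) (nat_lit 9008101332) (nat_lit 76) (nat_lit 20011875550) (nat_lit 19) (nat_lit 5) (nat_lit 21) (nat_lit 5) (nat_lit 20) (nat_lit 5) (nat_lit 365) (nat_lit 268) (nat_lit 147))))) (XT.nd (nat_lit 234) (nat_lit 76) (nat_lit 0) (XT.nd (nat_lit 78) (nat_lit 0) (nat_lit 0) (XT.lf (nat_lit 0) (nat_lit 447924325) (nat_lit 152) (nat_lit 11354356064) (nat_lit 228) (nat_lit 25789902297) (nat_lit 17) (nat_lit 5) (nat_lit 19) (nat_lit 5) (nat_lit 20) (nat_lit 5) (nat_lit 366) (nat_lit 268) (nat_lit 146)) (XT.nd (nat_lit 78) (nat_lit 0) (nat_lit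 0) (XT.lf (nat_lit 0) (nat_lit 10357263111) (nat_lit 152) (nat_lit 5804276862) (nat_lit 228) (nat_lit 22378440518) (nat_lit 17) (nat_lit 5) (nat_lit 19) (nat_lit 5) (nat_lit 20) (nat_lit 5) (nat_lit 367) (nat_lit 268) (nat_lit 145)) (XT.lf (nat_lit 0) (nat_lit 20549294792) (nat_lit 152) (nat_lit 93610518) (nat_lit 228) (nat_lit 18873574816) (nat_lit 17) (nat_lit 5) (nat_lit 19) (nat_lit 5) (nat_lit 20) (nat_lit 5) (nat_lit 368) (nat_lit 268) (nat_lit 144)))) (XT.nd (nat_lit 78) (nat_lit 76) (nat_lit 0) (XT.lf (nat_lit 0) (nat_lit 25305878362) (nat_lit 228) (nat_lit 9545196021) (nat_lit 76) (nat_lit 5669792874) (nat_lit 17) (nat_lit 5) (nat_lit 20) (nat_lit 5) (nat_lit 18) (nat_lit 4) (nat_lit 369) (nat_lit 268) (nat_lit 143)) (XT.nd (nat_lit 78) (nat_lit 0) (nat_lit 0) (XT.lf (nat_lit 0) (nat_lit 147454684) (nat_lit 76) (nat_lit 29955402361) (nat_lit 152) (nat_lit 11452712757) (nat_lit 16) (nat_lit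 5) (nat_lit 17) (nat_lit 5) (nat_lit 18) (nat_lit 4) (nat_lit 370) (nat_lit 268) (nat_lit 142)) (XT.lf (nat_lit 0) (nat_lit 10312740003) (nat_lit 76) (nat_lit 24819271903) (nat_lit 152) (nat_lit 7486660589) (nat_lit 16) (nat_lit 5) (nat_lit 17) (nat_lit 5) (nat_lit 18) (nat_lit 4) (nat_lit 371) (nat_lit 268) (nat_lit 141))))))) (XT.nd (nat_lit 858) (nat_lit 228) (nat_lit 0) (XT.nd (nat_lit 390) (nat_lit 76) (nat_lit 0) (XT.nd (nat_lit 156) (nat_lit 152) (nat_lit 0) (XT.nd (nat_lit 78) (nat_lit 76) (nat_lit 0) (XT.lf (nat_lit 0) (nat_lit 20769574108) (nat_lit 76) (nat_lit 19534582892) (nat_lit 152) (nat_lit 3409754675) (nat_lit 16) (nat_lit 5) (nat_lit 17) (nat_lit 5) (nat_lit 18) (nat_lit 4) (nat_lit 372) (nat_lit 268) (nat_lit 140)) (XT.lf (nat_lit 0) (nat_lit 766316135) (nat_lit 152) (nat_lit 13322663213) (nat_lit 76) (nat_lit 30753039611) (nat_lit 15) (nat_lit 5) (nat_lit 17) (nat_lit 5) (nat_lit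 16) (nat_lit 5) (nat_lit 373) (nat_lit 268) (nat_lit 139))) (XT.nd (nat_lit 78) (nat_lit 152) (nat_lit 0) (XT.lf (nat_lit 0) (nat_lit 4991624628) (nat_lit 152) (nat_lit 3458894362) (nat_lit 76) (nat_lit 37552669315) (nat_lit 15) (nat_lit 5) (nat_lit 17) (nat_lit 5) (nat_lit 16) (nat_lit 5) (nat_lit 374) (nat_lit 268) (nat_lit 138)) (XT.nd (nat_lit 78) (nat_lit 0) (nat_lit 0) (XT.lf (nat_lit 0) (nat_lit 6821476027) (nat_lit 152) (nat_lit 2580495588) (nat_lit 228) (nat_lit 37795478846) (nat_lit 13) (nat_lit 5) (nat_lit 15) (nat_lit 5) (nat_lit 16) (nat_lit 5) (nat_lit 375) (nat_lit 268) (nat_lit 137)) (XT.lf (nat_lit 0) (nat_lit 14005968787) (nat_lit 228) (nat_lit 30991464874) (nat_lit 76) (nat_lit 3428272556) (nat_lit 13) (nat_lit 5) (nat_lit 16) (nat_lit 5) (nat_lit 14) (nat_lit 4) (nat_lit 376) (nat_lit 268) (nat_lit 136))))) (XT.nd (nat_lit 234) (nat_lit 76) (nat_lit 0) (XT.nd (nat_lit 78)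 (nat_lit 0) (nat_lit 0) (XT.lf (nat_lit 0) (nat_lit 18766598595) (nat_lit 228) (nat_lit 21363080307) (nat_lit 76) (nat_lit 9560581117) (nat_lit 13) (nat_lit 5) (nat_lit 16) (nat_lit 5) (nat_lit 14) (nat_lit 4) (nat_lit 377) (nat_lit 268) (nat_lit 135)) (XT.nd (nat_lit 78) (nat_lit 0) (nat_lit 0) (XT.lf (nat_lit 0) (nat_lit 23663215513) (nat_lit 228) (nat_lit 11457602278) (nat_lit 76) (nat_lit 15872143185) (nat_lit 13) (nat_lit 5) (nat_lit 16) (nat_lit 5) (nat_lit 14) (nat_lit 4) (nat_lit 378) (nat_lit 268) (nat_lit 134)) (XT.lf (nat_lit 0) (nat_lit 28700098138) (nat_lit 228) (nat_lit 1266375517) (nat_lit 76) (nat_lit 22368473718) (nat_lit 13) (nat_lit 5) (nat_lit 16) (nat_lit 5) (nat_lit 14) (nat_lit 4) (nat_lit 379) (nat_lit 268) (nat_lit 133)))) (XT.nd (nat_lit 78) (nat_lit 0) (nat_lit 0) (XT.lf (nat_lit 0) (nat_lit 9402991158) (nat_lit 76) (nat_lit 24569043773) (nat_lit 152) (nat_lit 19742645267)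 (nat_lit 12) (nat_lit 5) (nat_lit 13) (nat_lit 5) (nat_lit 14) (nat_lit 4) (nat_lit 380) (nat_lit 268) (nat_lit 132)) (XT.nd (nat_lit 78) (nat_lit 0) (nat_lit 0) (XT.lf (nat_lit 0) (nat_lit 20407423835) (nat_lit 76) (nat_lit 19001136359) (nat_lit 152) (nat_lit 15727057016) (nat_lit 12) (nat_lit 5) (nat_lit 13) (nat_lit 5) (nat_lit 14) (nat_lit 4) (nat_lit 381) (nat_lit 268) (nat_lit 131)) (XT.lf (nat_lit 0) (nat_lit 31731334680) (nat_lit 76) (nat_lit 13270674162) (nat_lit 152) (nat_lit 11597363627) (nat_lit 12) (nat_lit 5) (nat_lit 13) (nat_lit 5) (nat_lit 14) (nat_lit 4) (nat_lit 382) (nat_lit 268) (nat_lit 130)))))) (XT.nd (nat_lit 468) (nat_lit 76) (nat_lit 0) (XT.nd (nat_lit 234) (nat_lit 0) (nat_lit 0) (XT.nd (nat_lit 78) (nat_lit 152) (nat_lit 0) (XT.lf (nat_lit 0) (nat_lit 43384618372) (nat_lit 76) (nat_lit 7372649981) (nat_lit 152) (nat_lit 7349956630) (nat_lit 12) (nat_lit 5) (nat_lit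 13) (nat_lit 5) (nat_lit 14) (nat_lit 4) (nat_lit 383) (nat_lit 268) (nat_lit 129)) (XT.nd (nat_lit 78) (nat_lit 152) (nat_lit 0) (XT.lf (nat_lit 0) (nat_lit 55377457393) (nat_lit 76) (nat_lit 1301910203) (nat_lit 152) (nat_lit 2981124699) (nat_lit 12) (nat_lit 5) (nat_lit 13) (nat_lit 5) (nat_lit 14) (nat_lit 4) (nat_lit 384) (nat_lit 268) (nat_lit 128)) (XT.lf (nat_lit 0) (nat_lit 1594937051) (nat_lit 152) (nat_lit 54732992307) (nat_lit 76) (nat_lit 4928820651) (nat_lit 10) (nat_lit 5) (nat_lit 12) (nat_lit 5) (nat_lit 11) (nat_lit 4) (nat_lit 385) (nat_lit 268) (nat_lit 127)))) (XT.nd (nat_lit 78) (nat_lit 0) (nat_lit 0) (XT.lf (nat_lit 0) (nat_lit 6299255293) (nat_lit 152) (nat_lit 45209785923) (nat_lit 76) (nat_lit 11389446270) (nat_lit 10) (nat_lit 5) (nat_lit 12) (nat_lit 5) (nat_lit 11) (nat_lit 4) (nat_lit 386) (nat_lit 268) (nat_lit 126)) (XT.nd (nat_lit 78) (nat_lit 0) (nat_lit 0)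 (XT.lf (nat_lit 0) (nat_lit 11139192032) (nat_lit 152) (nat_lit 35410500408) (nat_lit 76) (nat_lit 18039954137) (nat_lit 10) (nat_lit 5) (nat_lit 12) (nat_lit 5) (nat_lit 11) (nat_lit 4) (nat_lit 387) (nat_lit 268) (nat_lit 125)) (XT.lf (nat_lit 0) (nat_lit 16118976338) (nat_lit 152) (nat_lit 25326573280) (nat_lit 76) (nat_lit 24886155376) (nat_lit 10) (nat_lit 5) (nat_lit 12) (nat_lit 5) (nat_lit 11) (nat_lit 4) (nat_lit 388) (nat_lit 268) (nat_lit 124))))) (XT.nd (nat_lit 234) (nat_lit 0) (nat_lit 0) (XT.nd (nat_lit 78) (nat_lit 76) (nat_lit 0) (XT.lf (nat_lit 0) (nat_lit 21242959481) (nat_lit 152) (nat_lit 14949193339) (nat_lit 76) (nat_lit 31934032103) (nat_lit 10) (nat_lit 5) (nat_lit 12) (nat_lit 5) (nat_lit 11) (nat_lit 4) (nat_lit 389) (nat_lit 268) (nat_lit 123)) (XT.nd (nat_lit 78) (nat_lit 76) (nat_lit 0) (XT.lf (nat_lit 0) (nat_lit 26515618727) (nat_lit 152) (nat_lit 4269292972) (nat_lit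 76) (nat_lit 39189742659) (nat_lit 10) (nat_lit 5) (nat_lit 12) (nat_lit 5) (nat_lit 11) (nat_lit 4) (nat_lit 390) (nat_lit 268) (nat_lit 122)) (XT.lf (nat_lit 0) (nat_lit 6856249902) (nat_lit 76) (nat_lit 25151217819) (nat_lit 152) (nat_lit 39869283549) (nat_lit 9) (nat_lit 5) (nat_lit 10) (nat_lit 5) (nat_lit 11) (nat_lit 4) (nat_lit 391) (nat_lit 268) (nat_lit 121)))) (XT.nd (nat_lit 78) (nat_lit 0) (nat_lit 0) (XT.lf (nat_lit 0) (nat_lit 18394614521) (nat_lit 76) (nat_lit 19307733942) (nat_lit 152) (nat_lit 36132417926) (nat_lit 9) (nat_lit 5) (nat_lit 10) (nat_lit 5) (nat_lit 11) (nat_lit 4) (nat_lit 392) (nat_lit 268) (nat_lit 120)) (XT.nd (nat_lit 78) (nat_lit 0) (nat_lit 0) (XT.lf (nat_lit 0) (nat_lit 30270915648) (nat_lit 76) (nat_lit 13292465598) (nat_lit 152) (nat_lit 32288285028) (nat_lit 9) (nat_lit 5) (nat_lit 10) (nat_lit 5) (nat_lit 11) (nat_lit 4) (nat_lit 393) (nat_lit 268)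 (nat_lit 119)) (XT.lf (nat_lit 0) (nat_lit 42495530635) (nat_lit 76) (nat_lit 7100156728) (nat_lit 152) (nat_lit 28333525904) (nat_lit 9) (nat_lit 5) (nat_lit 10) (nat_lit 5) (nat_lit 11) (nat_lit 4) (nat_lit 394) (nat_lit 268) (nat_lit 118))))))))
noncomputable def xc135 : XT := (XT.nd (nat_lit 32448) (nat_lit 0) (nat_lit 5776) (XT.nd (nat_lit 31512) (nat_lit 0) (nat_lit 13072) (XT.nd (nat_lit 31044) (nat_lit 0) (nat_lit 16340) (XT.nd (nat_lit 30810) (nat_lit 0) (nat_lit 17556) (XT.nd (nat_lit 78) (nat_lit 0) (nat_lit 0) (XT.lf (nat_lit 0) (nat_lit 55079141184) (nat_lit 76) (nat_lit 725396576) (nat_lit 152) (nat_lit 24264684939) (nat_lit 9) (nat_lit 5) (nat_lit 10) (nat_lit 5) (nat_lit 11) (nat_lit 4) (nat_lit 395) (nat_lit 268) (nat_lit 117)) (XT.lf (nat_lit 0) (nat_lit 62251470164) (nat_lit 152) (nat_lit 14296934315) (nat_lit 0) (nat_lit 5723476627) (nat_lit 9) (nat_lit 5) (nat_lit 11) (nat_lit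 4) (nat_lit 9) (nat_lit 4) (nat_lit 396) (nat_lit 268) (nat_lit 116))) (XT.nd (nat_lit 78) (nat_lit 0) (nat_lit 0) (XT.lf (nat_lit 0) (nat_lit 694144254) (nat_lit 0) (nat_lit 694144254) (nat_lit 532) (nat_lit 2012571259) (nat_lit 240) (nat_lit 5) (nat_lit 240) (nat_lit 3) (nat_lit 247) (nat_lit 3) (nat_lit 269) (nat_lit 269) (nat_lit 242)) (XT.nd (nat_lit 78) (nat_lit 0) (nat_lit 0) (XT.lf (nat_lit 0) (nat_lit 4410469078) (nat_lit 0) (nat_lit 247648258) (nat_lit 532) (nat_lit 2184837347) (nat_lit 240) (nat_lit 5) (nat_lit 240) (nat_lit 3) (nat_lit 247) (nat_lit 3) (nat_lit 270) (nat_lit 269) (nat_lit 241)) (XT.lf (nat_lit 76) (nat_lit 602103951) (nat_lit 0) (nat_lit 5937239921) (nat_lit 608) (nat_lit 348004126) (nat_lit 241) (nat_lit 5) (nat_lit 240) (nat_lit 5) (nat_lit 248) (nat_lit 5) (nat_lit 271) (nat_lit 269) (nat_lit 240))))) (XT.nd (nat_lit 234) (nat_lit 608) (nat_lit 0) (XT.nd (nat_lit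 78) (nat_lit 0) (nat_lit 0) (XT.lf (nat_lit 0) (nat_lit 1470419561) (nat_lit 608) (nat_lit 3212131504) (nat_lit 684) (nat_lit 2251584198) (nat_lit 232) (nat_lit 5) (nat_lit 240) (nat_lit 5) (nat_lit 241) (nat_lit 5) (nat_lit 272) (nat_lit 269) (nat_lit 239)) (XT.nd (nat_lit 78) (nat_lit 0) (nat_lit 0) (XT.lf (nat_lit 0) (nat_lit 3267813737) (nat_lit 608) (nat_lit 88964036) (nat_lit 684) (nat_lit 3627702423) (nat_lit 232) (nat_lit 5) (nat_lit 240) (nat_lit 5) (nat_lit 241) (nat_lit 5) (nat_lit 273) (nat_lit 269) (nat_lit 238)) (XT.lf (nat_lit 76) (nat_lit 3151836242) (nat_lit 0) (nat_lit 1931000891) (nat_lit 684) (nat_lit 1954781092) (nat_lit 233) (nat_lit 5) (nat_lit 232) (nat_lit 5) (nat_lit 241) (nat_lit 5) (nat_lit 274) (nat_lit 269) (nat_lit 237)))) (XT.nd (nat_lit 78) (nat_lit 608) (nat_lit 0) (XT.lf (nat_lit 76) (nat_lit 6454486608) (nat_lit 0) (nat_lit 433714950) (nat_lit 684) (nat_lit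 206260446) (nat_lit 233) (nat_lit 5) (nat_lit 232) (nat_lit 5) (nat_lit 241) (nat_lit 5) (nat_lit 275) (nat_lit 269) (nat_lit 236)) (XT.nd (nat_lit 78) (nat_lit 0) (nat_lit 0) (XT.lf (nat_lit 0) (nat_lit 1536979717) (nat_lit 684) (nat_lit 4462126021) (nat_lit 760) (nat_lit 1154421511) (nat_lit 224) (nat_lit 5) (nat_lit 233) (nat_lit 5) (nat_lit 234) (nat_lit 5) (nat_lit 276) (nat_lit 269) (nat_lit 235)) (XT.lf (nat_lit 0) (nat_lit 3277019970) (nat_lit 684) (nat_lit 1124215645) (nat_lit 760) (nat_lit 2814780454) (nat_lit 224) (nat_lit 5) (nat_lit 233) (nat_lit 5) (nat_lit 234) (nat_lit 5) (nat_lit 277) (nat_lit 269) (nat_lit 234)))))) (XT.nd (nat_lit 468) (nat_lit 2584) (nat_lit 0) (XT.nd (nat_lit 234) (nat_lit 0) (nat_lit 0) (XT.nd (nat_lit 78) (nat_lit 684) (nat_lit 0) (XT.lf (nat_lit 76) (nat_lit 2320786205) (nat_lit 0) (nat_lit 2710422706) (nat_lit 760) (nat_lit 2250479537) (nat_lit 225) (nat_lit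 5) (nat_lit 224) (nat_lit 5) (nat_lit 234) (nat_lit 5) (nat_lit 278) (nat_lit 269) (nat_lit 233)) (XT.nd (nat_lit 78) (nat_lit 684) (nat_lit 0) (XT.lf (nat_lit 76) (nat_lit 5854226508) (nat_lit 0) (nat_lit 936181285) (nat_lit 760) (nat_lit 560514125) (nat_lit 225) (nat_lit 5) (nat_lit 224) (nat_lit 5) (nat_lit 234) (nat_lit 5) (nat_lit 279) (nat_lit 269) (nat_lit 232)) (XT.lf (nat_lit 0) (nat_lit 1128038747) (nat_lit 760) (nat_lit 5370080793) (nat_lit 836) (nat_lit 924798118) (nat_lit 215) (nat_lit 5) (nat_lit 225) (nat_lit 5) (nat_lit 226) (nat_lit 5) (nat_lit 280) (nat_lit 269) (nat_lit 231)))) (XT.nd (nat_lit 78) (nat_lit 0) (nat_lit 0) (XT.lf (nat_lit 0) (nat_lit 2824049439) (nat_lit 760) (nat_lit 1811865911) (nat_lit 836) (nat_lit 2862098083) (nat_lit 215) (nat_lit 5) (nat_lit 225) (nat_lit 5) (nat_lit 226) (nat_lit 5) (nat_lit 281) (nat_lit 269) (nat_lit 230)) (XT.nd (nat_lit 78) (nat_lit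 0) (nat_lit 0) (XT.lf (nat_lit 76) (nat_lit 1850552436) (nat_lit 0) (nat_lit 2683355842) (nat_lit 836) (nat_lit 3042709097) (nat_lit 216) (nat_lit 5) (nat_lit 215) (nat_lit 5) (nat_lit 226) (nat_lit 5) (nat_lit 282) (nat_lit 269) (nat_lit 229)) (XT.lf (nat_lit 76) (nat_lit 5621709845) (nat_lit 0) (nat_lit 638057317) (nat_lit 836) (nat_lit 1399011274) (nat_lit 216) (nat_lit 5) (nat_lit 215) (nat_lit 5) (nat_lit 226) (nat_lit 5) (nat_lit 283) (nat_lit 269) (nat_lit 228))))) (XT.nd (nat_lit 234) (nat_lit 988) (nat_lit 0) (XT.nd (nat_lit 78) (nat_lit 836) (nat_lit 0) (XT.lf (nat_lit 0) (nat_lit 266907670) (nat_lit 836) (nat_lit 6003284973) (nat_lit 76) (nat_lit 1473899575) (nat_lit 205) (nat_lit 5) (nat_lit 216) (nat_lit 5) (nat_lit 206) (nat_lit 5) (nat_lit 284) (nat_lit 269) (nat_lit 227)) (XT.nd (nat_lit 78) (nat_lit 836) (nat_lit 0) (XT.lf (nat_lit 0) (nat_lit 1930396898) (nat_lit 836) (nat_lit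 2217712228) (nat_lit 76) (nat_lit 3684297629) (nat_lit 205) (nat_lit 5) (nat_lit 216) (nat_lit 5) (nat_lit 206) (nat_lit 5) (nat_lit 285) (nat_lit 269) (nat_lit 226)) (XT.lf (nat_lit 0) (nat_lit 1675512761) (nat_lit 836) (nat_lit 1934500593) (nat_lit 912) (nat_lit 4314495201) (nat_lit 194) (nat_lit 5) (nat_lit 205) (nat_lit 5) (nat_lit 206) (nat_lit 5) (nat_lit 286) (nat_lit 269) (nat_lit 225)))) (XT.nd (nat_lit 78) (nat_lit 988) (nat_lit 0) (XT.lf (nat_lit 0) (nat_lit 5317259370) (nat_lit 912) (nat_lit 2331167269) (nat_lit 76) (nat_lit 371750413) (nat_lit 194) (nat_lit 5) (nat_lit 206) (nat_lit 5) (nat_lit 195) (nat_lit 5) (nat_lit 287) (nat_lit 269) (nat_lit 224)) (XT.nd (nat_lit 78) (nat_lit 76) (nat_lit 0) (XT.lf (nat_lit 0) (nat_lit 1679051564) (nat_lit 912) (nat_lit 5384686567) (nat_lit 988) (nat_lit 1055454366) (nat_lit 182) (nat_lit 5) (nat_lit 194) (nat_lit 5) (nat_lit 195) (nat_lit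 5) (nat_lit 288) (nat_lit 269) (nat_lit 223)) (XT.lf (nat_lit 0) (nat_lit 605849612) (nat_lit 988) (nat_lit 2408925797) (nat_lit 76) (nat_lit 5207020636) (nat_lit 181) (nat_lit 5) (nat_lit 194) (nat_lit 5) (nat_lit 182) (nat_lit 5) (nat_lit 289) (nat_lit 269) (nat_lit 222))))))) (XT.nd (nat_lit 936) (nat_lit 2736) (nat_lit 0) (XT.nd (nat_lit 468) (nat_lit 1596) (nat_lit 0) (XT.nd (nat_lit 234) (nat_lit 912) (nat_lit 0) (XT.nd (nat_lit 78) (nat_lit 1064) (nat_lit 0) (XT.lf (nat_lit 0) (nat_lit 1728229550) (nat_lit 988) (nat_lit 538686777) (nat_lit 1064) (nat_lit 6061221151) (nat_lit 168) (nat_lit 5) (nat_lit 181) (nat_lit 5) (nat_lit 182) (nat_lit 5) (nat_lit 290) (nat_lit 269) (nat_lit 221)) (XT.nd (nat_lit 78) (nat_lit 1064) (nat_lit 0) (XT.lf (nat_lit 0) (nat_lit 3977267166) (nat_lit 1064) (nat_lit 2457035957) (nat_lit 76) (nat_lit 2003486736) (nat_lit 168) (nat_lit 5) (nat_lit 182) (nat_lit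 5) (nat_lit 169) (nat_lit 5) (nat_lit 291) (nat_lit 269) (nat_lit 220)) (XT.lf (nat_lit 0) (nat_lit 1801695380) (nat_lit 1064) (nat_lit 3916728696) (nat_lit 1140) (nat_lit 2833024100) (nat_lit 154) (nat_lit 5) (nat_lit 168) (nat_lit 5) (nat_lit 169) (nat_lit 5) (nat_lit 292) (nat_lit 269) (nat_lit 219)))) (XT.nd (nat_lit 78) (nat_lit 912) (nat_lit 0) (XT.lf (nat_lit 0) (nat_lit 6200679669) (nat_lit 1064) (nat_lit 1293683200) (nat_lit 1140) (nat_lit 1174775241) (nat_lit 154) (nat_lit 5) (nat_lit 168) (nat_lit 5) (nat_lit 169) (nat_lit 5) (nat_lit 293) (nat_lit 269) (nat_lit 218)) (XT.nd (nat_lit 78) (nat_lit 0) (nat_lit 0) (XT.lf (nat_lit 0) (nat_lit 513702466) (nat_lit 912) (nat_lit 6868552006) (nat_lit 76) (nat_lit 1408316548) (nat_lit 142) (nat_lit 5) (nat_lit 154) (nat_lit 5) (nat_lit 143) (nat_lit 5) (nat_lit 294) (nat_lit 269) (nat_lit 217)) (XT.lf (nat_lit 0) (nat_lit 2226555141) (nat_lit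 912) (nat_lit 2483439362) (nat_lit 76) (nat_lit 4205473440) (nat_lit 142) (nat_lit 5) (nat_lit 154) (nat_lit 5) (nat_lit 143) (nat_lit 5) (nat_lit 295) (nat_lit 269) (nat_lit 216))))) (XT.nd (nat_lit 234) (nat_lit 532) (nat_lit 0) (XT.nd (nat_lit 78) (nat_lit 532) (nat_lit 0) (XT.lf (nat_lit 0) (nat_lit 2035405892) (nat_lit 532) (nat_lit 1935487364) (nat_lit 608) (nat_lit 5073902845) (nat_lit 135) (nat_lit 5) (nat_lit 142) (nat_lit 5) (nat_lit 143) (nat_lit 5) (nat_lit 296) (nat_lit 269) (nat_lit 215)) (XT.nd (nat_lit 78) (nat_lit 532) (nat_lit 0) (XT.lf (nat_lit 0) (nat_lit 5763093874) (nat_lit 608) (nat_lit 2484071037) (nat_lit 76) (nat_lit 931058001) (nat_lit 135) (nat_lit 5) (nat_lit 143) (nat_lit 5) (nat_lit 136) (nat_lit 5) (nat_lit 297) (nat_lit 269) (nat_lit 214)) (XT.lf (nat_lit 0) (nat_lit 2162736302) (nat_lit 532) (nat_lit 5448743902) (nat_lit 608) (nat_lit 1704182043) (nat_lit 128)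 (nat_lit 5) (nat_lit 135) (nat_lit 5) (nat_lit 136) (nat_lit 5) (nat_lit 298) (nat_lit 269) (nat_lit 213)))) (XT.nd (nat_lit 78) (nat_lit 456) (nat_lit 0) (XT.lf (nat_lit 0) (nat_lit 45054662) (nat_lit 608) (nat_lit 2495173977) (nat_lit 76) (nat_lit 6917414107) (nat_lit 127) (nat_lit 5) (nat_lit 135) (nat_lit 5) (nat_lit 128) (nat_lit 5) (nat_lit 299) (nat_lit 269) (nat_lit 212)) (XT.nd (nat_lit 78) (nat_lit 0) (nat_lit 0) (XT.lf (nat_lit 0) (nat_lit 1803169179) (nat_lit 532) (nat_lit 7315105825) (nat_lit 76) (nat_lit 485457197) (nat_lit 121) (nat_lit 5) (nat_lit 128) (nat_lit 5) (nat_lit 122) (nat_lit 5) (nat_lit 300) (nat_lit 269) (nat_lit 211)) (XT.lf (nat_lit 0) (nat_lit 3629166442) (nat_lit 532) (nat_lit 2549192186) (nat_lit 76) (nat_lit 3575464664) (nat_lit 121) (nat_lit 5) (nat_lit 128) (nat_lit 5) (nat_lit 122) (nat_lit 5) (nat_lit 301) (nat_lit 269) (nat_lit 210)))))) (XT.nd (nat_lit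 468) (nat_lit 1216) (nat_lit 0) (XT.nd (nat_lit 234) (nat_lit 532) (nat_lit 0) (XT.nd (nat_lit 78) (nat_lit 456) (nat_lit 0) (XT.lf (nat_lit 0) (nat_lit 2369595634) (nat_lit 532) (nat_lit 3128701426) (nat_lit 608) (nat_lit 4410540453) (nat_lit 114) (nat_lit 5) (nat_lit 121) (nat_lit 5) (nat_lit 122) (nat_lit 5) (nat_lit 302) (nat_lit 269) (nat_lit 209)) (XT.nd (nat_lit 78) (nat_lit 456) (nat_lit 0) (XT.lf (nat_lit 0) (nat_lit 7415828790) (nat_lit 608) (nat_lit 2616948298) (nat_lit 76) (nat_lit 36024193) (nat_lit 114) (nat_lit 5) (nat_lit 122) (nat_lit 5) (nat_lit 115) (nat_lit 5) (nat_lit 303) (nat_lit 269) (nat_lit 208)) (XT.lf (nat_lit 0) (nat_lit 2433556419) (nat_lit 456) (nat_lit 6978895121) (nat_lit 532) (nat_lit 820532393) (nat_lit 108) (nat_lit 5) (nat_lit 114) (nat_lit 5) (nat_lit 115) (nat_lit 5) (nat_lit 304) (nat_lit 269) (nat_lit 207)))) (XT.nd (nat_lit 78) (nat_lit 456) (nat_lit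 0) (XT.lf (nat_lit 0) (nat_lit 1040175593) (nat_lit 532) (nat_lit 2758921918) (nat_lit 76) (nat_lit 6602926571) (nat_lit 107) (nat_lit 5) (nat_lit 114) (nat_lit 5) (nat_lit 108) (nat_lit 5) (nat_lit 305) (nat_lit 269) (nat_lit 206)) (XT.nd (nat_lit 78) (nat_lit 0) (nat_lit 0) (XT.lf (nat_lit 0) (nat_lit 2436960056) (nat_lit 456) (nat_lit 495052878) (nat_lit 532) (nat_lit 7644186027) (nat_lit 101) (nat_lit 5) (nat_lit 107) (nat_lit 5) (nat_lit 108) (nat_lit 5) (nat_lit 306) (nat_lit 269) (nat_lit 205)) (XT.lf (nat_lit 0) (nat_lit 4905618060) (nat_lit 532) (nat_lit 2973596158) (nat_lit 76) (nat_lit 2875693950) (nat_lit 101) (nat_lit 5) (nat_lit 108) (nat_lit 5) (nat_lit 102) (nat_lit 5) (nat_lit 307) (nat_lit 269) (nat_lit 204))))) (XT.nd (nat_lit 234) (nat_lit 456) (nat_lit 0) (XT.nd (nat_lit 78) (nat_lit 380) (nat_lit 0) (XT.lf (nat_lit 0) (nat_lit 2353202606) (nat_lit 380) (nat_lit 4582578400)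 (nat_lit 456) (nat_lit 4003334886) (nat_lit 96) (nat_lit 5) (nat_lit 101) (nat_lit 5) (nat_lit 102) (nat_lit 5) (nat_lit 308) (nat_lit 269) (nat_lit 203)) (XT.nd (nat_lit 78) (nat_lit 380) (nat_lit 0) (XT.lf (nat_lit 0) (nat_lit 7866271412) (nat_lit 380) (nat_lit 1160979918) (nat_lit 456) (nat_lit 2101642492) (nat_lit 96) (nat_lit 5) (nat_lit 101) (nat_lit 5) (nat_lit 102) (nat_lit 5) (nat_lit 309) (nat_lit 269) (nat_lit 202)) (XT.lf (nat_lit 0) (nat_lit 2206346746) (nat_lit 380) (nat_lit 8990237397) (nat_lit 456) (nat_lit 127381813) (nat_lit 91) (nat_lit 5) (nat_lit 96) (nat_lit 5) (nat_lit 97) (nat_lit 5) (nat_lit 310) (nat_lit 269) (nat_lit 201)))) (XT.nd (nat_lit 78) (nat_lit 380) (nat_lit 0) (XT.lf (nat_lit 0) (nat_lit 1885051355) (nat_lit 456) (nat_lit 3682421301) (nat_lit 76) (nat_lit 5956435020) (nat_lit 90) (nat_lit 5) (nat_lit 96) (nat_lit 5) (nat_lit 91) (nat_lit 5) (nat_lit 311) (nat_lit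 269) (nat_lit 200)) (XT.nd (nat_lit 78) (nat_lit 0) (nat_lit 0) (XT.lf (nat_lit 0) (nat_lit 1918373429) (nat_lit 380) (nat_lit 2027570769) (nat_lit 456) (nat_lit 7784196005) (nat_lit 85) (nat_lit 5) (nat_lit 90) (nat_lit 5) (nat_lit 91) (nat_lit 5) (nat_lit 312) (nat_lit 269) (nat_lit 199)) (XT.lf (nat_lit 0) (nat_lit 6094413603) (nat_lit 456) (nat_lit 4228804950) (nat_lit 76) (nat_lit 1618617008) (nat_lit 85) (nat_lit 5) (nat_lit 91) (nat_lit 5) (nat_lit 86) (nat_lit 5) (nat_lit 313) (nat_lit 269) (nat_lit 198))))))))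
noncomputable def xc136 : XT := (XT.nd (nat_lit 1794) (nat_lit 1596) (nat_lit 0) (XT.nd (nat_lit 858) (nat_lit 1368) (nat_lit 0) (XT.nd (nat_lit 390) (nat_lit 684) (nat_lit 0) (XT.nd (nat_lit 156) (nat_lit 684) (nat_lit 0) (XT.nd (nat_lit 78) (nat_lit 0) (nat_lit 0) (XT.lf (nat_lit 0) (nat_lit 1497677034) (nat_lit 380) (nat_lit 6817566638) (nat_lit 456) (nat_lit 3844447851) (nat_lit 80) (nat_lit 5) (nat_lit 85) (nat_lit 5) (nat_lit 86) (nat_lit 5) (nat_lit 314) (nat_lit 269) (nat_lit 197)) (XT.lf (nat_lit 0) (nat_lit 7449845717) (nat_lit 380) (nat_lit 3169449100) (nat_lit 456) (nat_lit 1764336033) (nat_lit 80) (nat_lit 5) (nat_lit 85) (nat_lit 5) (nat_lit 86) (nat_lit 5) (nat_lit 315) (nat_lit 269) (nat_lit 196))) (XT.nd (nat_lit 78) (nat_lit 304) (nat_lit 0) (XT.lf (nat_lit 0) (nat_lit 359993999) (nat_lit 380) (nat_lit 11671654863) (nat_lit 76) (nat_lit 582897560) (nat_lit 75) (nat_lit 5) (nat_lit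 80) (nat_lit 5) (nat_lit 76) (nat_lit 5) (nat_lit 316) (nat_lit 269) (nat_lit 195)) (XT.nd (nat_lit 78) (nat_lit 304) (nat_lit 0) (XT.lf (nat_lit 0) (nat_lit 2569020057) (nat_lit 380) (nat_lit 5836037469) (nat_lit 76) (nat_lit 4445156755) (nat_lit 75) (nat_lit 5) (nat_lit 80) (nat_lit 5) (nat_lit 76) (nat_lit 5) (nat_lit 317) (nat_lit 269) (nat_lit 194)) (XT.lf (nat_lit 0) (nat_lit 145639595) (nat_lit 304) (nat_lit 4675545246) (nat_lit 380) (nat_lit 8272501787) (nat_lit 71) (nat_lit 5) (nat_lit 75) (nat_lit 5) (nat_lit 76) (nat_lit 5) (nat_lit 318) (nat_lit 269) (nat_lit 193))))) (XT.nd (nat_lit 234) (nat_lit 380) (nat_lit 0) (XT.nd (nat_lit 78) (nat_lit 304) (nat_lit 0) (XT.lf (nat_lit 0) (nat_lit 6394861478) (nat_lit 304) (nat_lit 780864953) (nat_lit 380) (nat_lit 6167731670) (nat_lit 71) (nat_lit 5) (nat_lit 75) (nat_lit 5) (nat_lit 76) (nat_lit 5) (nat_lit 319) (nat_lit 269) (nat_lit 192))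 (XT.nd (nat_lit 78) (nat_lit 304) (nat_lit 0) (XT.lf (nat_lit 0) (nat_lit 9608471951) (nat_lit 380) (nat_lit 831509166) (nat_lit 76) (nat_lit 3160552738) (nat_lit 71) (nat_lit 5) (nat_lit 76) (nat_lit 5) (nat_lit 72) (nat_lit 5) (nat_lit 320) (nat_lit 269) (nat_lit 191)) (XT.lf (nat_lit 0) (nat_lit 5539066695) (nat_lit 304) (nat_lit 6613306113) (nat_lit 380) (nat_lit 1711840939) (nat_lit 67) (nat_lit 5) (nat_lit 71) (nat_lit 5) (nat_lit 72) (nat_lit 5) (nat_lit 321) (nat_lit 269) (nat_lit 190)))) (XT.nd (nat_lit 78) (nat_lit 304) (nat_lit 0) (XT.lf (nat_lit 0) (nat_lit 610154808) (nat_lit 380) (nat_lit 2054520097) (nat_lit 76) (nat_lit 11471406600) (nat_lit 66) (nat_lit 5) (nat_lit 71) (nat_lit 5) (nat_lit 67) (nat_lit 5) (nat_lit 322) (nat_lit 269) (nat_lit 189)) (XT.nd (nat_lit 78) (nat_lit 0) (nat_lit 0) (XT.lf (nat_lit 0) (nat_lit 3002098929) (nat_lit 380) (nat_lit 9984684685) (nat_lit 76)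 (nat_lit 1427806279) (nat_lit 62) (nat_lit 5) (nat_lit 67) (nat_lit 5) (nat_lit 63) (nat_lit 5) (nat_lit 323) (nat_lit 269) (nat_lit 188)) (XT.lf (nat_lit 0) (nat_lit 5491396272) (nat_lit 380) (nat_lit 3606436507) (nat_lit 76) (nat_lit 5602885831) (nat_lit 62) (nat_lit 5) (nat_lit 67) (nat_lit 5) (nat_lit 63) (nat_lit 5) (nat_lit 324) (nat_lit 269) (nat_lit 187)))))) (XT.nd (nat_lit 468) (nat_lit 532) (nat_lit 0) (XT.nd (nat_lit 234) (nat_lit 304) (nat_lit 0) (XT.nd (nat_lit 78) (nat_lit 304) (nat_lit 0) (XT.lf (nat_lit 0) (nat_lit 2992429910) (nat_lit 228) (nat_lit 5070600839) (nat_lit 304) (nat_lit 6932202655) (nat_lit 59) (nat_lit 5) (nat_lit 62) (nat_lit 5) (nat_lit 63) (nat_lit 5) (nat_lit 325) (nat_lit 269) (nat_lit 186)) (XT.nd (nat_lit 78) (nat_lit 304) (nat_lit 0) (XT.lf (nat_lit 0) (nat_lit 9834353954) (nat_lit 228) (nat_lit 893108959) (nat_lit 304) (nat_lit 4570682305) (nat_lit 59)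 (nat_lit 5) (nat_lit 62) (nat_lit 5) (nat_lit 63) (nat_lit 5) (nat_lit 326) (nat_lit 269) (nat_lit 185)) (XT.lf (nat_lit 0) (nat_lit 1234141031) (nat_lit 304) (nat_lit 12262086878) (nat_lit 380) (nat_lit 2113214610) (nat_lit 55) (nat_lit 5) (nat_lit 59) (nat_lit 5) (nat_lit 60) (nat_lit 5) (nat_lit 327) (nat_lit 269) (nat_lit 184)))) (XT.nd (nat_lit 78) (nat_lit 228) (nat_lit 0) (XT.lf (nat_lit 0) (nat_lit 454235508) (nat_lit 380) (nat_lit 7725522715) (nat_lit 76) (nat_lit 7748895940) (nat_lit 54) (nat_lit 5) (nat_lit 59) (nat_lit 5) (nat_lit 55) (nat_lit 5) (nat_lit 328) (nat_lit 269) (nat_lit 183)) (XT.nd (nat_lit 78) (nat_lit 228) (nat_lit 0) (XT.lf (nat_lit 0) (nat_lit 3036674558) (nat_lit 380) (nat_lit 925043454) (nat_lit 76) (nat_lit 12295710862) (nat_lit 54) (nat_lit 5) (nat_lit 59) (nat_lit 5) (nat_lit 55) (nat_lit 5) (nat_lit 329) (nat_lit 269) (nat_lit 182)) (XT.lf (nat_lit 0) (nat_lit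 5741122913) (nat_lit 304) (nat_lit 10426227050) (nat_lit 76) (nat_lit 427407548) (nat_lit 51) (nat_lit 5) (nat_lit 55) (nat_lit 5) (nat_lit 52) (nat_lit 5) (nat_lit 330) (nat_lit 269) (nat_lit 181))))) (XT.nd (nat_lit 234) (nat_lit 304) (nat_lit 0) (XT.nd (nat_lit 78) (nat_lit 228) (nat_lit 0) (XT.lf (nat_lit 0) (nat_lit 8556589708) (nat_lit 304) (nat_lit 3514671074) (nat_lit 76) (nat_lit 4870074665) (nat_lit 51) (nat_lit 5) (nat_lit 55) (nat_lit 5) (nat_lit 52) (nat_lit 5) (nat_lit 331) (nat_lit 269) (nat_lit 180)) (XT.nd (nat_lit 78) (nat_lit 0) (nat_lit 0) (XT.lf (nat_lit 0) (nat_lit 3648928562) (nat_lit 228) (nat_lit 7824440928) (nat_lit 304) (nat_lit 5824460995) (nat_lit 48) (nat_lit 5) (nat_lit 51) (nat_lit 5) (nat_lit 52) (nat_lit 5) (nat_lit 332) (nat_lit 269) (nat_lit 179)) (XT.lf (nat_lit 0) (nat_lit 11073236611) (nat_lit 228) (nat_lit 3421959167) (nat_lit 304) (nat_lit 3169322801)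 (nat_lit 48) (nat_lit 5) (nat_lit 51) (nat_lit 5) (nat_lit 52) (nat_lit 5) (nat_lit 333) (nat_lit 269) (nat_lit 178)))) (XT.nd (nat_lit 78) (nat_lit 76) (nat_lit 0) (XT.lf (nat_lit 0) (nat_lit 654185626) (nat_lit 228) (nat_lit 16952971762) (nat_lit 304) (nat_lit 435089295) (nat_lit 45) (nat_lit 5) (nat_lit 48) (nat_lit 5) (nat_lit 49) (nat_lit 5) (nat_lit 334) (nat_lit 269) (nat_lit 177)) (XT.nd (nat_lit 78) (nat_lit 0) (nat_lit 0) (XT.lf (nat_lit 0) (nat_lit 2418371376) (nat_lit 304) (nat_lit 10260673316) (nat_lit 76) (nat_lit 5749087717) (nat_lit 44) (nat_lit 5) (nat_lit 48) (nat_lit 5) (nat_lit 45) (nat_lit 5) (nat_lit 335) (nat_lit 269) (nat_lit 176)) (XT.lf (nat_lit 0) (nat_lit 5331765353) (nat_lit 304) (nat_lit 2949079006) (nat_lit 76) (nat_lit 10545150650) (nat_lit 44) (nat_lit 5) (nat_lit 48) (nat_lit 5) (nat_lit 45) (nat_lit 5) (nat_lit 336) (nat_lit 269) (nat_lit 175))))))) (XT.nd (nat_lit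 858) (nat_lit 760) (nat_lit 0) (XT.nd (nat_lit 390) (nat_lit 380) (nat_lit 0) (XT.nd (nat_lit 156) (nat_lit 228) (nat_lit 0) (XT.nd (nat_lit 78) (nat_lit 0) (nat_lit 0) (XT.lf (nat_lit 0) (nat_lit 4647992056) (nat_lit 228) (nat_lit 3712815764) (nat_lit 304) (nat_lit 10874159397) (nat_lit 41) (nat_lit 5) (nat_lit 44) (nat_lit 5) (nat_lit 45) (nat_lit 5) (nat_lit 337) (nat_lit 269) (nat_lit 174)) (XT.lf (nat_lit 0) (nat_lit 11504068302) (nat_lit 304) (nat_lit 7156476871) (nat_lit 76) (nat_lit 994983534) (nat_lit 41) (nat_lit 5) (nat_lit 45) (nat_lit 5) (nat_lit 42) (nat_lit 5) (nat_lit 338) (nat_lit 269) (nat_lit 173))) (XT.nd (nat_lit 78) (nat_lit 76) (nat_lit 0) (XT.lf (nat_lit 0) (nat_lit 444819779) (nat_lit 152) (nat_lit 14322050846) (nat_lit 228) (nat_lit 5321099015) (nat_lit 39) (nat_lit 5) (nat_lit 41) (nat_lit 5) (nat_lit 42) (nat_lit 5) (nat_lit 339) (nat_lit 269) (nat_lit 172)) (XT.nd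 (nat_lit 78) (nat_lit 76) (nat_lit 0) (XT.lf (nat_lit 0) (nat_lit 8397055665) (nat_lit 152) (nat_lit 9787206521) (nat_lit 228) (nat_lit 2347439798) (nat_lit 39) (nat_lit 5) (nat_lit 41) (nat_lit 5) (nat_lit 42) (nat_lit 5) (nat_lit 340) (nat_lit 269) (nat_lit 171)) (XT.lf (nat_lit 0) (nat_lit 686192624) (nat_lit 228) (nat_lit 4431194273) (nat_lit 76) (nat_lit 15871629596) (nat_lit 38) (nat_lit 5) (nat_lit 41) (nat_lit 5) (nat_lit 39) (nat_lit 5) (nat_lit 341) (nat_lit 269) (nat_lit 170))))) (XT.nd (nat_lit 234) (nat_lit 152) (nat_lit 0) (XT.nd (nat_lit 78) (nat_lit 0) (nat_lit 0) (XT.lf (nat_lit 0) (nat_lit 3526180797) (nat_lit 228) (nat_lit 256536776) (nat_lit 304) (nat_lit 17676081359) (nat_lit 35) (nat_lit 5) (nat_lit 38) (nat_lit 5) (nat_lit 39) (nat_lit 5) (nat_lit 342) (nat_lit 269) (nat_lit 169)) (XT.nd (nat_lit 78) (nat_lit 0) (nat_lit 0) (XT.lf (nat_lit 0) (nat_lit 7048297316) (nat_lit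 304) (nat_lit 10197228135) (nat_lit 76) (nat_lit 4694881804) (nat_lit 35) (nat_lit 5) (nat_lit 39) (nat_lit 5) (nat_lit 36) (nat_lit 5) (nat_lit 343) (nat_lit 269) (nat_lit 168)) (XT.lf (nat_lit 0) (nat_lit 10400120728) (nat_lit 304) (nat_lit 2254552970) (nat_lit 76) (nat_lit 9782158524) (nat_lit 35) (nat_lit 5) (nat_lit 39) (nat_lit 5) (nat_lit 36) (nat_lit 5) (nat_lit 344) (nat_lit 269) (nat_lit 167)))) (XT.nd (nat_lit 78) (nat_lit 0) (nat_lit 0) (XT.lf (nat_lit 0) (nat_lit 6022330915) (nat_lit 152) (nat_lit 7874210011) (nat_lit 228) (nat_lit 9050303944) (nat_lit 33) (nat_lit 5) (nat_lit 35) (nat_lit 5) (nat_lit 36) (nat_lit 5) (nat_lit 345) (nat_lit 269) (nat_lit 166)) (XT.nd (nat_lit 78) (nat_lit 0) (nat_lit 0) (XT.lf (nat_lit 0) (nat_lit 14572360198) (nat_lit 152) (nat_lit 2934609709) (nat_lit 228) (nat_lit 5964930229) (nat_lit 33) (nat_lit 5) (nat_lit 35) (nat_lit 5) (nat_lit 36) (nat_lit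 5) (nat_lit 346) (nat_lit 269) (nat_lit 165)) (XT.lf (nat_lit 0) (nat_lit 21233084512) (nat_lit 228) (nat_lit 675609719) (nat_lit 76) (nat_lit 2103806914) (nat_lit 33) (nat_lit 5) (nat_lit 36) (nat_lit 5) (nat_lit 34) (nat_lit 5) (nat_lit 347) (nat_lit 269) (nat_lit 164)))))) (XT.nd (nat_lit 468) (nat_lit 380) (nat_lit 0) (XT.nd (nat_lit 234) (nat_lit 152) (nat_lit 0) (XT.nd (nat_lit 78) (nat_lit 0) (nat_lit 0) (XT.lf (nat_lit 0) (nat_lit 584825056) (nat_lit 228) (nat_lit 16672654311) (nat_lit 76) (nat_lit 7308921980) (nat_lit 30) (nat_lit 5) (nat_lit 33) (nat_lit 5) (nat_lit 31) (nat_lit 5) (nat_lit 348) (nat_lit 269) (nat_lit 163)) (XT.nd (nat_lit 78) (nat_lit 0) (nat_lit 0) (XT.lf (nat_lit 0) (nat_lit 3988125004) (nat_lit 228) (nat_lit 8450817315) (nat_lit 76) (nat_lit 12697344801) (nat_lit 30) (nat_lit 5) (nat_lit 33) (nat_lit 5) (nat_lit 31) (nat_lit 5) (nat_lit 349) (nat_lit 269) (nat_lit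 162)) (XT.lf (nat_lit 0) (nat_lit 7481004192) (nat_lit 228) (nat_lit 2277383) (nat_lit 76) (nat_lit 18240377050) (nat_lit 30) (nat_lit 5) (nat_lit 33) (nat_lit 5) (nat_lit 31) (nat_lit 5) (nat_lit 350) (nat_lit 269) (nat_lit 161)))) (XT.nd (nat_lit 78) (nat_lit 0) (nat_lit 0) (XT.lf (nat_lit 0) (nat_lit 8853103643) (nat_lit 152) (nat_lit 2298512453) (nat_lit 228) (nat_lit 15174859956) (nat_lit 28) (nat_lit 5) (nat_lit 30) (nat_lit 5) (nat_lit 31) (nat_lit 5) (nat_lit 351) (nat_lit 269) (nat_lit 160)) (XT.nd (nat_lit 78) (nat_lit 0) (nat_lit 0) (XT.lf (nat_lit 0) (nat_lit 14949554599) (nat_lit 228) (nat_lit 9021908704) (nat_lit 76) (nat_lit 2975411237) (nat_lit 28) (nat_lit 5) (nat_lit 31) (nat_lit 5) (nat_lit 29) (nat_lit 5) (nat_lit 352) (nat_lit 269) (nat_lit 159)) (XT.lf (nat_lit 0) (nat_lit 18872485288) (nat_lit 228) (nat_lit 358575442) (nat_lit 76) (nat_lit 8354505045) (nat_lit 28) (nat_lit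 5) (nat_lit 31) (nat_lit 5) (nat_lit 29) (nat_lit 5) (nat_lit 353) (nat_lit 269) (nat_lit 158))))) (XT.nd (nat_lit 234) (nat_lit 152) (nat_lit 0) (XT.nd (nat_lit 78) (nat_lit 76) (nat_lit 0) (XT.lf (nat_lit 0) (nat_lit 8716379954) (nat_lit 152) (nat_lit 14269148480) (nat_lit 228) (nat_lit 5255728628) (nat_lit 26) (nat_lit 5) (nat_lit 28) (nat_lit 5) (nat_lit 29) (nat_lit 5) (nat_lit 354) (nat_lit 269) (nat_lit 157)) (XT.nd (nat_lit 78) (nat_lit 76) (nat_lit 0) (XT.lf (nat_lit 0) (nat_lit 18052748686) (nat_lit 152) (nat_lit 9161628597) (nat_lit 228) (nat_lit 1702481074) (nat_lit 26) (nat_lit 5) (nat_lit 28) (nat_lit 5) (nat_lit 29) (nat_lit 5) (nat_lit 355) (nat_lit 269) (nat_lit 156)) (XT.lf (nat_lit 0) (nat_lit 1908169727) (nat_lit 228) (nat_lit 1980220609) (nat_lit 76) (nat_lit 25724113888) (nat_lit 25) (nat_lit 5) (nat_lit 28) (nat_lit 5) (nat_lit 26) (nat_lit 5) (nat_lit 356) (nat_lit 269)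 (nat_lit 155)))) (XT.nd (nat_lit 78) (nat_lit 0) (nat_lit 0) (XT.lf (nat_lit 0) (nat_lit 5667831686) (nat_lit 228) (nat_lit 23064390546) (nat_lit 76) (nat_lit 1594054963) (nat_lit 23) (nat_lit 5) (nat_lit 26) (nat_lit 5) (nat_lit 24) (nat_lit 5) (nat_lit 357) (nat_lit 269) (nat_lit 154)) (XT.nd (nat_lit 78) (nat_lit 0) (nat_lit 0) (XT.lf (nat_lit 0) (nat_lit 9588379846) (nat_lit 228) (nat_lit 14295167819) (nat_lit 76) (nat_lit 7176483194) (nat_lit 23) (nat_lit 5) (nat_lit 26) (nat_lit 5) (nat_lit 24) (nat_lit 5) (nat_lit 358) (nat_lit 269) (nat_lit 153)) (XT.lf (nat_lit 0) (nat_lit 13616256198) (nat_lit 228) (nat_lit 5279817113) (nat_lit 76) (nat_lit 12920042562) (nat_lit 23) (nat_lit 5) (nat_lit 26) (nat_lit 5) (nat_lit 24) (nat_lit 5) (nat_lit 359) (nat_lit 269) (nat_lit 152))))))))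
noncomputable def xc137 : XT := (XT.nd (nat_lit 1794) (nat_lit 228) (nat_lit 0) (XT.nd (nat_lit 858) (nat_lit 380) (nat_lit 0) (XT.nd (nat_lit 390) (nat_lit 152) (nat_lit 0) (XT.nd (nat_lit 156) (nat_lit 152) (nat_lit 0) (XT.nd (nat_lit 78) (nat_lit 0) (nat_lit 0) (XT.lf (nat_lit 0) (nat_lit 4068938710) (nat_lit 152) (nat_lit 13725154663) (nat_lit 228) (nat_lit 14799926129) (nat_lit 21) (nat_lit 5) (nat_lit 23) (nat_lit 5) (nat_lit 24) (nat_lit 5) (nat_lit 360) (nat_lit 269) (nat_lit 151)) (XT.lf (nat_lit 0) (nat_lit 13790094555) (nat_lit 152) (nat_lit 8350632618) (nat_lit 228) (nat_lit 11253238734) (nat_lit 21) (nat_lit 5) (nat_lit 23) (nat_lit 5) (nat_lit 24) (nat_lit 5) (nat_lit 361) (nat_lit 269) (nat_lit 150))) (XT.nd (nat_lit 78) (nat_lit 152) (nat_lit 0) (XT.lf (nat_lit 0) (nat_lit 23787065922) (nat_lit 152) (nat_lit 2821126792) (nat_lit 228) (nat_lit 7610014243) (nat_lit 21) (nat_lit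 5) (nat_lit 23) (nat_lit 5) (nat_lit 24) (nat_lit 5) (nat_lit 362) (nat_lit 269) (nat_lit 149)) (XT.nd (nat_lit 78) (nat_lit 152) (nat_lit 0) (XT.lf (nat_lit 0) (nat_lit 31227964449) (nat_lit 228) (nat_lit 1026445677) (nat_lit 76) (nat_lit 2812225615) (nat_lit 21) (nat_lit 5) (nat_lit 24) (nat_lit 5) (nat_lit 22) (nat_lit 4) (nat_lit 363) (nat_lit 269) (nat_lit 148)) (XT.lf (nat_lit 0) (nat_lit 149273435) (nat_lit 152) (nat_lit 27150062751) (nat_lit 76) (nat_lit 8638045780) (nat_lit 19) (nat_lit 5) (nat_lit 21) (nat_lit 5) (nat_lit 20) (nat_lit 5) (nat_lit 364) (nat_lit 269) (nat_lit 147))))) (XT.nd (nat_lit 234) (nat_lit 0) (nat_lit 0) (XT.nd (nat_lit 78) (nat_lit 152) (nat_lit 0) (XT.lf (nat_lit 0) (nat_lit 4181119328) (nat_lit 152) (nat_lit 17970684359) (nat_lit 76) (nat_lit 14681272410) (nat_lit 19) (nat_lit 5) (nat_lit 21) (nat_lit 5) (nat_lit 20) (nat_lit 5) (nat_lit 365) (nat_lit 269)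 (nat_lit 146)) (XT.nd (nat_lit 78) (nat_lit 152) (nat_lit 0) (XT.lf (nat_lit 0) (nat_lit 8325132830) (nat_lit 152) (nat_lit 8530656311) (nat_lit 76) (nat_lit 20900123508) (nat_lit 19) (nat_lit 5) (nat_lit 21) (nat_lit 5) (nat_lit 20) (nat_lit 5) (nat_lit 366) (nat_lit 269) (nat_lit 145)) (XT.lf (nat_lit 0) (nat_lit 1201719840) (nat_lit 152) (nat_lit 11394766750) (nat_lit 228) (nat_lit 26109864849) (nat_lit 17) (nat_lit 5) (nat_lit 19) (nat_lit 5) (nat_lit 20) (nat_lit 5) (nat_lit 367) (nat_lit 269) (nat_lit 144)))) (XT.nd (nat_lit 78) (nat_lit 0) (nat_lit 0) (XT.lf (nat_lit 0) (nat_lit 11386774971) (nat_lit 152) (nat_lit 5686929443) (nat_lit 228) (nat_lit 22609274785) (nat_lit 17) (nat_lit 5) (nat_lit 19) (nat_lit 5) (nat_lit 20) (nat_lit 5) (nat_lit 368) (nat_lit 269) (nat_lit 143)) (XT.nd (nat_lit 78) (nat_lit 0) (nat_lit 0) (XT.lf (nat_lit 0) (nat_lit 21678857949) (nat_lit 228) (nat_lit 18827319853)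 (nat_lit 76) (nat_lit 182926706) (nat_lit 17) (nat_lit 5) (nat_lit 20) (nat_lit 5) (nat_lit 18) (nat_lit 4) (nat_lit 369) (nat_lit 269) (nat_lit 142)) (XT.lf (nat_lit 0) (nat_lit 26470484146) (nat_lit 228) (nat_lit 9144217724) (nat_lit 76) (nat_lit 6109269244) (nat_lit 17) (nat_lit 5) (nat_lit 20) (nat_lit 5) (nat_lit 18) (nat_lit 4) (nat_lit 370) (nat_lit 269) (nat_lit 141)))))) (XT.nd (nat_lit 468) (nat_lit 76) (nat_lit 0) (XT.nd (nat_lit 234) (nat_lit 228) (nat_lit 0) (XT.nd (nat_lit 78) (nat_lit 0) (nat_lit 0) (XT.lf (nat_lit 0) (nat_lit 832473932) (nat_lit 76) (nat_lit 30573631934) (nat_lit 152) (nat_lit 11383777321) (nat_lit 16) (nat_lit 5) (nat_lit 17) (nat_lit 5) (nat_lit 18) (nat_lit 4) (nat_lit 371) (nat_lit 269) (nat_lit 140)) (XT.nd (nat_lit 78) (nat_lit 0) (nat_lit 0) (XT.lf (nat_lit 0) (nat_lit 11282894639) (nat_lit 76) (nat_lit 25291585499) (nat_lit 152) (nat_lit 7310758642) (nat_lit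 16) (nat_lit 5) (nat_lit 17) (nat_lit 5) (nat_lit 18) (nat_lit 4) (nat_lit 372) (nat_lit 269) (nat_lit 139)) (XT.lf (nat_lit 0) (nat_lit 22034187967) (nat_lit 76) (nat_lit 19856285853) (nat_lit 152) (nat_lit 3123210651) (nat_lit 16) (nat_lit 5) (nat_lit 17) (nat_lit 5) (nat_lit 18) (nat_lit 4) (nat_lit 373) (nat_lit 269) (nat_lit 138)))) (XT.nd (nat_lit 78) (nat_lit 152) (nat_lit 0) (XT.lf (nat_lit 0) (nat_lit 1159450339) (nat_lit 152) (nat_lit 13091825193) (nat_lit 76) (nat_lit 31924589738) (nat_lit 15) (nat_lit 5) (nat_lit 17) (nat_lit 5) (nat_lit 16) (nat_lit 5) (nat_lit 374) (nat_lit 269) (nat_lit 137)) (XT.nd (nat_lit 78) (nat_lit 152) (nat_lit 0) (XT.lf (nat_lit 0) (nat_lit 5500737173) (nat_lit 152) (nat_lit 2950507875) (nat_lit 76) (nat_lit 38920957102) (nat_lit 15) (nat_lit 5) (nat_lit 17) (nat_lit 5) (nat_lit 16) (nat_lit 5) (nat_lit 375) (nat_lit 269) (nat_lit 136)) (XT.lf (nat_lit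 0) (nat_lit 7632272122) (nat_lit 152) (nat_lit 2406482242) (nat_lit 228) (nat_lit 38563685776) (nat_lit 13) (nat_lit 5) (nat_lit 15) (nat_lit 5) (nat_lit 16) (nat_lit 5) (nat_lit 376) (nat_lit 269) (nat_lit 135))))) (XT.nd (nat_lit 234) (nat_lit 76) (nat_lit 0) (XT.nd (nat_lit 78) (nat_lit 0) (nat_lit 0) (XT.lf (nat_lit 0) (nat_lit 14772886183) (nat_lit 228) (nat_lit 31324443027) (nat_lit 76) (nat_lit 3770462425) (nat_lit 13) (nat_lit 5) (nat_lit 16) (nat_lit 5) (nat_lit 14) (nat_lit 4) (nat_lit 377) (nat_lit 269) (nat_lit 134)) (XT.nd (nat_lit 78) (nat_lit 0) (nat_lit 0) (XT.lf (nat_lit 0) (nat_lit 19666235711) (nat_lit 228) (nat_lit 21424588451) (nat_lit 76) (nat_lit 10079769126) (nat_lit 13) (nat_lit 5) (nat_lit 16) (nat_lit 5) (nat_lit 14) (nat_lit 4) (nat_lit 378) (nat_lit 269) (nat_lit 133)) (XT.lf (nat_lit 0) (nat_lit 24699946112) (nat_lit 228) (nat_lit 11238821352) (nat_lit 76) (nat_lit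 16573909981) (nat_lit 13) (nat_lit 5) (nat_lit 16) (nat_lit 5) (nat_lit 14) (nat_lit 4) (nat_lit 379) (nat_lit 269) (nat_lit 132)))) (XT.nd (nat_lit 78) (nat_lit 76) (nat_lit 0) (XT.lf (nat_lit 0) (nat_lit 29878415774) (nat_lit 228) (nat_lit 758241544) (nat_lit 76) (nat_lit 23258559484) (nat_lit 13) (nat_lit 5) (nat_lit 16) (nat_lit 5) (nat_lit 14) (nat_lit 4) (nat_lit 380) (nat_lit 269) (nat_lit 131)) (XT.nd (nat_lit 78) (nat_lit 0) (nat_lit 0) (XT.lf (nat_lit 0) (nat_lit 10225851962) (nat_lit 76) (nat_lit 25078614756) (nat_lit 152) (nat_lit 20012003772) (nat_lit 12) (nat_lit 5) (nat_lit 13) (nat_lit 5) (nat_lit 14) (nat_lit 4) (nat_lit 381) (nat_lit 269) (nat_lit 130)) (XT.lf (nat_lit 0) (nat_lit 21544667005) (nat_lit 76) (nat_lit 19350296343) (nat_lit 152) (nat_lit 15885353336) (nat_lit 12) (nat_lit 5) (nat_lit 13) (nat_lit 5) (nat_lit 14) (nat_lit 4) (nat_lit 382) (nat_lit 269) (nat_lit 129)))))))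 (XT.nd (nat_lit 936) (nat_lit 0) (nat_lit 0) (XT.nd (nat_lit 468) (nat_lit 76) (nat_lit 0) (XT.nd (nat_lit 234) (nat_lit 152) (nat_lit 0) (XT.nd (nat_lit 78) (nat_lit 0) (nat_lit 0) (XT.lf (nat_lit 0) (nat_lit 33193003317) (nat_lit 76) (nat_lit 13454353507) (nat_lit 152) (nat_lit 11640900662) (nat_lit 12) (nat_lit 5) (nat_lit 13) (nat_lit 5) (nat_lit 14) (nat_lit 4) (nat_lit 383) (nat_lit 269) (nat_lit 128)) (XT.nd (nat_lit 78) (nat_lit 0) (nat_lit 0) (XT.lf (nat_lit 0) (nat_lit 45181039057) (nat_lit 76) (nat_lit 7385634451) (nat_lit 152) (nat_lit 7274937004) (nat_lit 12) (nat_lit 5) (nat_lit 13) (nat_lit 5) (nat_lit 14) (nat_lit 4) (nat_lit 384) (nat_lit 269) (nat_lit 127)) (XT.lf (nat_lit 0) (nat_lit 57519249206) (nat_lit 76) (nat_lit 1138836413) (nat_lit 152) (nat_lit 2783647445) (nat_lit 12) (nat_lit 5) (nat_lit 13) (nat_lit 5) (nat_lit 14) (nat_lit 4) (nat_lit 385) (nat_lit 269) (nat_lit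 126)))) (XT.nd (nat_lit 78) (nat_lit 0) (nat_lit 0) (XT.lf (nat_lit 0) (nat_lit 1922491315) (nat_lit 152) (nat_lit 55886880735) (nat_lit 76) (nat_lit 5276478237) (nat_lit 10) (nat_lit 5) (nat_lit 12) (nat_lit 5) (nat_lit 11) (nat_lit 4) (nat_lit 386) (nat_lit 269) (nat_lit 125)) (XT.nd (nat_lit 78) (nat_lit 0) (nat_lit 0) (XT.lf (nat_lit 0) (nat_lit 6759792323) (nat_lit 152) (nat_lit 46092194704) (nat_lit 76) (nat_lit 11925103412) (nat_lit 10) (nat_lit 5) (nat_lit 12) (nat_lit 5) (nat_lit 11) (nat_lit 4) (nat_lit 387) (nat_lit 269) (nat_lit 124)) (XT.lf (nat_lit 0) (nat_lit 11737017667) (nat_lit 152) (nat_lit 36012733093) (nat_lit 76) (nat_lit 18769476794) (nat_lit 10) (nat_lit 5) (nat_lit 12) (nat_lit 5) (nat_lit 11) (nat_lit 4) (nat_lit 388) (nat_lit 269) (nat_lit 123))))) (XT.nd (nat_lit 234) (nat_lit 76) (nat_lit 0) (XT.nd (nat_lit 78) (nat_lit 0) (nat_lit 0) (XT.lf (nat_lit 0) (nat_lit 16858516381)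 (nat_lit 152) (nat_lit 25639688606) (nat_lit 76) (nat_lit 25815578904) (nat_lit 10) (nat_lit 5) (nat_lit 12) (nat_lit 5) (nat_lit 11) (nat_lit 4) (nat_lit 389) (nat_lit 269) (nat_lit 122)) (XT.nd (nat_lit 78) (nat_lit 0) (nat_lit 0) (XT.lf (nat_lit 0) (nat_lit 22128763559) (nat_lit 152) (nat_lit 14963997419) (nat_lit 76) (nat_lit 33069566529) (nat_lit 10) (nat_lit 5) (nat_lit 12) (nat_lit 5) (nat_lit 11) (nat_lit 4) (nat_lit 390) (nat_lit 269) (nat_lit 121)) (XT.lf (nat_lit 0) (nat_lit 27552364273) (nat_lit 152) (nat_lit 3976331256) (nat_lit 76) (nat_lit 40537778106) (nat_lit 10) (nat_lit 5) (nat_lit 12) (nat_lit 5) (nat_lit 11) (nat_lit 4) (nat_lit 391) (nat_lit 269) (nat_lit 120)))) (XT.nd (nat_lit 78) (nat_lit 0) (nat_lit 0) (XT.lf (nat_lit 0) (nat_lit 7478850056) (nat_lit 76) (nat_lit 25727098816) (nat_lit 152) (nat_lit 40819780482) (nat_lit 9) (nat_lit 5) (nat_lit 10) (nat_lit 5) (nat_lit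 11) (nat_lit 4) (nat_lit 392) (nat_lit 269) (nat_lit 119)) (XT.nd (nat_lit 78) (nat_lit 0) (nat_lit 0) (XT.lf (nat_lit 0) (nat_lit 19351222526) (nat_lit 76) (nat_lit 19713513981) (nat_lit 152) (nat_lit 36977961752) (nat_lit 9) (nat_lit 5) (nat_lit 10) (nat_lit 5) (nat_lit 11) (nat_lit 4) (nat_lit 393) (nat_lit 269) (nat_lit 118)) (XT.lf (nat_lit 0) (nat_lit 31572023283) (nat_lit 76) (nat_lit 13522839586) (nat_lit 152) (nat_lit 33025449393) (nat_lit 9) (nat_lit 5) (nat_lit 10) (nat_lit 5) (nat_lit 11) (nat_lit 4) (nat_lit 394) (nat_lit 269) (nat_lit 117)))))) (XT.nd (nat_lit 31200) (nat_lit 0) (nat_lit 15580) (XT.nd (nat_lit 30966) (nat_lit 0) (nat_lit 16872) (XT.nd (nat_lit 78) (nat_lit 0) (nat_lit 0) (XT.lf (nat_lit 0) (nat_lit 44151930695) (nat_lit 76) (nat_lit 7149666304) (nat_lit 152) (nat_lit 28958789752) (nat_lit 9) (nat_lit 5) (nat_lit 10) (nat_lit 5) (nat_lit 11) (nat_lit 4) (nat_lit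 395) (nat_lit 269) (nat_lit 116)) (XT.nd (nat_lit 30810) (nat_lit 0) (nat_lit 17556) (XT.lf (nat_lit 0) (nat_lit 57101936915) (nat_lit 76) (nat_lit 588425342) (nat_lit 152) (nat_lit 24774429440) (nat_lit 9) (nat_lit 5) (nat_lit 10) (nat_lit 5) (nat_lit 11) (nat_lit 4) (nat_lit 396) (nat_lit 269) (nat_lit 115)) (XT.lf (nat_lit 0) (nat_lit 1626071332) (nat_lit 0) (nat_lit 1626071332) (nat_lit 532) (nat_lit 190536608) (nat_lit 240) (nat_lit 5) (nat_lit 240) (nat_lit 3) (nat_lit 247) (nat_lit 3) (nat_lit 270) (nat_lit 270) (nat_lit 240)))) (XT.nd (nat_lit 78) (nat_lit 0) (nat_lit 0) (XT.lf (nat_lit 0) (nat_lit 1377373619) (nat_lit 684) (nat_lit 632926867) (nat_lit 684) (nat_lit 4920632312) (nat_lit 231) (nat_lit 3) (nat_lit 240) (nat_lit 3) (nat_lit 240) (nat_lit 5) (nat_lit 271) (nat_lit 270) (nat_lit 239)) (XT.nd (nat_lit 78) (nat_lit 0) (nat_lit 76) (XT.lf (nat_lit 76) (nat_lit 2466318447) (nat_lit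 0) (nat_lit 669748197) (nat_lit 684) (nat_lit 3843239674) (nat_lit 232) (nat_lit 5) (nat_lit 231) (nat_lit 3) (nat_lit 240) (nat_lit 5) (nat_lit 272) (nat_lit 270) (nat_lit 238)) (XT.lf (nat_lit 0) (nat_lit 4894219845) (nat_lit 608) (nat_lit 1401887739) (nat_lit 684) (nat_lit 734816449) (nat_lit 232) (nat_lit 5) (nat_lit 240) (nat_lit 5) (nat_lit 241) (nat_lit 5) (nat_lit 273) (nat_lit 270) (nat_lit 237))))) (XT.nd (nat_lit 234) (nat_lit 684) (nat_lit 0) (XT.nd (nat_lit 78) (nat_lit 684) (nat_lit 0) (XT.lf (nat_lit 76) (nat_lit 1794458844) (nat_lit 0) (nat_lit 4869888933) (nat_lit 684) (nat_lit 421153917) (nat_lit 233) (nat_lit 5) (nat_lit 232) (nat_lit 5) (nat_lit 241) (nat_lit 5) (nat_lit 274) (nat_lit 270) (nat_lit 236)) (XT.nd (nat_lit 78) (nat_lit 0) (nat_lit 0) (XT.lf (nat_lit 0) (nat_lit 1269977947) (nat_lit 684) (nat_lit 2076500055) (nat_lit 760) (nat_lit 3796516743) (nat_lit 223) (nat_lit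 5) (nat_lit 232) (nat_lit 5) (nat_lit 233) (nat_lit 5) (nat_lit 275) (nat_lit 270) (nat_lit 235)) (XT.lf (nat_lit 76) (nat_lit 1217599230) (nat_lit 0) (nat_lit 1735427018) (nat_lit 760) (nat_lit 4250744165) (nat_lit 224) (nat_lit 5) (nat_lit 223) (nat_lit 5) (nat_lit 233) (nat_lit 5) (nat_lit 276) (nat_lit 270) (nat_lit 234)))) (XT.nd (nat_lit 78) (nat_lit 684) (nat_lit 0) (XT.lf (nat_lit 76) (nat_lit 4616975558) (nat_lit 0) (nat_lit 29962326) (nat_lit 760) (nat_lit 2620787632) (nat_lit 224) (nat_lit 5) (nat_lit 223) (nat_lit 5) (nat_lit 233) (nat_lit 5) (nat_lit 277) (nat_lit 270) (nat_lit 233)) (XT.nd (nat_lit 78) (nat_lit 760) (nat_lit 0) (XT.lf (nat_lit 76) (nat_lit 745466623) (nat_lit 0) (nat_lit 5611360661) (nat_lit 760) (nat_lit 977979620) (nat_lit 225) (nat_lit 5) (nat_lit 224) (nat_lit 5) (nat_lit 234) (nat_lit 5) (nat_lit 278) (nat_lit 270) (nat_lit 232)) (XT.lf (nat_lit 0) (nat_lit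 669534718) (nat_lit 760) (nat_lit 3150774664) (nat_lit 836) (nat_lit 3584457829) (nat_lit 214) (nat_lit 5) (nat_lit 224) (nat_lit 5) (nat_lit 225) (nat_lit 5) (nat_lit 279) (nat_lit 270) (nat_lit 231))))))))
noncomputable def xc138 : XT := (XT.nd (nat_lit 1794) (nat_lit 4484) (nat_lit 0) (XT.nd (nat_lit 858) (nat_lit 4560) (nat_lit 0) (XT.nd (nat_lit 390) (nat_lit 1748) (nat_lit 0) (XT.nd (nat_lit 156) (nat_lit 760) (nat_lit 0) (XT.nd (nat_lit 78) (nat_lit 0) (nat_lit 76) (XT.lf (nat_lit 76) (nat_lit 351068716) (nat_lit 0) (nat_lit 1942840483) (nat_lit 836) (nat_lit 5184362567) (nat_lit 215) (nat_lit 5) (nat_lit 214) (nat_lit 5) (nat_lit 225) (nat_lit 5) (nat_lit 280) (nat_lit 270) (nat_lit 230)) (XT.lf (nat_lit 0) (nat_lit 3944238793) (nat_lit 760) (nat_lit 3569353739) (nat_lit 836) (nat_lit 41216540) (nat_lit 215) (nat_lit 5) (nat_lit 225) (nat_lit 5) (nat_lit 226) (nat_lit 5) (nat_lit 281)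 (nat_lit 270) (nat_lit 229))) (XT.nd (nat_lit 78) (nat_lit 836) (nat_lit 0) (XT.lf (nat_lit 76) (nat_lit 39232492) (nat_lit 0) (nat_lit 5571234861) (nat_lit 836) (nat_lit 2024323599) (nat_lit 216) (nat_lit 5) (nat_lit 215) (nat_lit 5) (nat_lit 226) (nat_lit 5) (nat_lit 282) (nat_lit 270) (nat_lit 228)) (XT.nd (nat_lit 78) (nat_lit 836) (nat_lit 0) (XT.lf (nat_lit 76) (nat_lit 3792084403) (nat_lit 0) (nat_lit 3518610759) (nat_lit 836) (nat_lit 407092801) (nat_lit 216) (nat_lit 5) (nat_lit 215) (nat_lit 5) (nat_lit 226) (nat_lit 5) (nat_lit 283) (nat_lit 270) (nat_lit 227)) (XT.lf (nat_lit 0) (nat_lit 1182948755) (nat_lit 836) (nat_lit 195075927) (nat_lit 912) (nat_lit 6426549829) (nat_lit 204) (nat_lit 5) (nat_lit 215) (nat_lit 5) (nat_lit 216) (nat_lit 5) (nat_lit 284) (nat_lit 270) (nat_lit 226))))) (XT.nd (nat_lit 234) (nat_lit 988) (nat_lit 0) (XT.nd (nat_lit 78) (nat_lit 836) (nat_lit 0)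 (XT.lf (nat_lit 0) (nat_lit 2806686968) (nat_lit 836) (nat_lit 4223771928) (nat_lit 76) (nat_lit 863684015) (nat_lit 205) (nat_lit 5) (nat_lit 216) (nat_lit 5) (nat_lit 206) (nat_lit 5) (nat_lit 285) (nat_lit 270) (nat_lit 225)) (XT.nd (nat_lit 78) (nat_lit 836) (nat_lit 0) (XT.lf (nat_lit 0) (nat_lit 4446339940) (nat_lit 836) (nat_lit 381708066) (nat_lit 76) (nat_lit 3159455153) (nat_lit 205) (nat_lit 5) (nat_lit 216) (nat_lit 5) (nat_lit 206) (nat_lit 5) (nat_lit 286) (nat_lit 270) (nat_lit 224)) (XT.lf (nat_lit 0) (nat_lit 3609661363) (nat_lit 836) (nat_lit 2513199424) (nat_lit 912) (nat_lit 1961290434) (nat_lit 194) (nat_lit 5) (nat_lit 205) (nat_lit 5) (nat_lit 206) (nat_lit 5) (nat_lit 287) (nat_lit 270) (nat_lit 223)))) (XT.nd (nat_lit 78) (nat_lit 988) (nat_lit 0) (XT.lf (nat_lit 0) (nat_lit 7692559480) (nat_lit 836) (nat_lit 114975402) (nat_lit 912) (nat_lit 377542051) (nat_lit 194)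 (nat_lit 5) (nat_lit 205) (nat_lit 5) (nat_lit 206) (nat_lit 5) (nat_lit 288) (nat_lit 270) (nat_lit 222)) (XT.nd (nat_lit 78) (nat_lit 0) (nat_lit 0) (XT.lf (nat_lit 0) (nat_lit 1242150021) (nat_lit 988) (nat_lit 4680541965) (nat_lit 76) (nat_lit 2365697406) (nat_lit 181) (nat_lit 5) (nat_lit 194) (nat_lit 5) (nat_lit 182) (nat_lit 5) (nat_lit 289) (nat_lit 270) (nat_lit 221)) (XT.lf (nat_lit 0) (nat_lit 2864854645) (nat_lit 988) (nat_lit 595413811) (nat_lit 76) (nat_lit 4935664596) (nat_lit 181) (nat_lit 5) (nat_lit 194) (nat_lit 5) (nat_lit 182) (nat_lit 5) (nat_lit 290) (nat_lit 270) (nat_lit 220)))))) (XT.nd (nat_lit 468) (nat_lit 1596) (nat_lit 0) (XT.nd (nat_lit 234) (nat_lit 912) (nat_lit 0) (XT.nd (nat_lit 78) (nat_lit 1064) (nat_lit 0) (XT.lf (nat_lit 0) (nat_lit 3647368159) (nat_lit 988) (nat_lit 881067873) (nat_lit 1064) (nat_lit 3978602352) (nat_lit 168) (nat_lit 5) (nat_lit 181)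 (nat_lit 5) (nat_lit 182) (nat_lit 5) (nat_lit 291) (nat_lit 270) (nat_lit 219)) (XT.nd (nat_lit 78) (nat_lit 1064) (nat_lit 0) (XT.lf (nat_lit 0) (nat_lit 6223164195) (nat_lit 1064) (nat_lit 645921043) (nat_lit 76) (nat_lit 1753052741) (nat_lit 168) (nat_lit 5) (nat_lit 182) (nat_lit 5) (nat_lit 169) (nat_lit 5) (nat_lit 292) (nat_lit 270) (nat_lit 218)) (XT.lf (nat_lit 0) (nat_lit 3722093549) (nat_lit 1064) (nat_lit 4250463541) (nat_lit 1140) (nat_lit 768114205) (nat_lit 154) (nat_lit 5) (nat_lit 168) (nat_lit 5) (nat_lit 169) (nat_lit 5) (nat_lit 293) (nat_lit 270) (nat_lit 217)))) (XT.nd (nat_lit 78) (nat_lit 836) (nat_lit 0) (XT.lf (nat_lit 0) (nat_lit 860145081) (nat_lit 1140) (nat_lit 673597772) (nat_lit 76) (nat_lit 7329856875) (nat_lit 153) (nat_lit 5) (nat_lit 168) (nat_lit 5) (nat_lit 154) (nat_lit 5) (nat_lit 294) (nat_lit 270) (nat_lit 216)) (XT.nd (nat_lit 78) (nat_lit 0) (nat_lit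 0) (XT.lf (nat_lit 0) (nat_lit 2532143962) (nat_lit 912) (nat_lit 5169372286) (nat_lit 76) (nat_lit 1288249034) (nat_lit 142) (nat_lit 5) (nat_lit 154) (nat_lit 5) (nat_lit 143) (nat_lit 5) (nat_lit 295) (nat_lit 270) (nat_lit 215)) (XT.lf (nat_lit 0) (nat_lit 4238041525) (nat_lit 912) (nat_lit 708198581) (nat_lit 76) (nat_lit 4174048313) (nat_lit 142) (nat_lit 5) (nat_lit 154) (nat_lit 5) (nat_lit 143) (nat_lit 5) (nat_lit 296) (nat_lit 270) (nat_lit 214))))) (XT.nd (nat_lit 234) (nat_lit 456) (nat_lit 0) (XT.nd (nat_lit 78) (nat_lit 608) (nat_lit 0) (XT.lf (nat_lit 0) (nat_lit 3928077286) (nat_lit 532) (nat_lit 2067597597) (nat_lit 608) (nat_lit 3259117911) (nat_lit 135) (nat_lit 5) (nat_lit 142) (nat_lit 5) (nat_lit 143) (nat_lit 5) (nat_lit 297) (nat_lit 270) (nat_lit 213)) (XT.nd (nat_lit 78) (nat_lit 608) (nat_lit 0) (XT.lf (nat_lit 0) (nat_lit 7785445970) (nat_lit 608) (nat_lit 720080373)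 (nat_lit 76) (nat_lit 888503609) (nat_lit 135) (nat_lit 5) (nat_lit 143) (nat_lit 5) (nat_lit 136) (nat_lit 5) (nat_lit 298) (nat_lit 270) (nat_lit 212)) (XT.lf (nat_lit 0) (nat_lit 113848341) (nat_lit 608) (nat_lit 5489811253) (nat_lit 76) (nat_lit 3933108564) (nat_lit 127) (nat_lit 5) (nat_lit 135) (nat_lit 5) (nat_lit 128) (nat_lit 5) (nat_lit 299) (nat_lit 270) (nat_lit 211)))) (XT.nd (nat_lit 78) (nat_lit 456) (nat_lit 0) (XT.lf (nat_lit 0) (nat_lit 1827865985) (nat_lit 608) (nat_lit 763398730) (nat_lit 76) (nat_lit 7092951829) (nat_lit 127) (nat_lit 5) (nat_lit 135) (nat_lit 5) (nat_lit 128) (nat_lit 5) (nat_lit 300) (nat_lit 270) (nat_lit 210)) (XT.nd (nat_lit 78) (nat_lit 0) (nat_lit 0) (XT.lf (nat_lit 0) (nat_lit 3604438110) (nat_lit 532) (nat_lit 5690039118) (nat_lit 76) (nat_lit 541348137) (nat_lit 121) (nat_lit 5) (nat_lit 128) (nat_lit 5) (nat_lit 122) (nat_lit 5) (nat_lit 301) (nat_lit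 270) (nat_lit 209)) (XT.lf (nat_lit 0) (nat_lit 5434326732) (nat_lit 532) (nat_lit 834871949) (nat_lit 76) (nat_lit 3722852123) (nat_lit 121) (nat_lit 5) (nat_lit 128) (nat_lit 5) (nat_lit 122) (nat_lit 5) (nat_lit 302) (nat_lit 270) (nat_lit 208))))))) (XT.nd (nat_lit 858) (nat_lit 1748) (nat_lit 0) (XT.nd (nat_lit 390) (nat_lit 1216) (nat_lit 0) (XT.nd (nat_lit 156) (nat_lit 988) (nat_lit 0) (XT.nd (nat_lit 78) (nat_lit 0) (nat_lit 0) (XT.lf (nat_lit 0) (nat_lit 4213922682) (nat_lit 532) (nat_lit 3113247679) (nat_lit 608) (nat_lit 2825617822) (nat_lit 114) (nat_lit 5) (nat_lit 121) (nat_lit 5) (nat_lit 122) (nat_lit 5) (nat_lit 303) (nat_lit 270) (nat_lit 207)) (XT.lf (nat_lit 0) (nat_lit 9254784419) (nat_lit 608) (nat_lit 923123897) (nat_lit 76) (nat_lit 141164787) (nat_lit 114) (nat_lit 5) (nat_lit 122) (nat_lit 5) (nat_lit 115) (nat_lit 5) (nat_lit 304) (nat_lit 270) (nat_lit 206))) (XT.nd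 (nat_lit 78) (nat_lit 456) (nat_lit 0) (XT.lf (nat_lit 0) (nat_lit 776456936) (nat_lit 532) (nat_lit 6235275830) (nat_lit 76) (nat_lit 3477222520) (nat_lit 107) (nat_lit 5) (nat_lit 114) (nat_lit 5) (nat_lit 108) (nat_lit 5) (nat_lit 305) (nat_lit 270) (nat_lit 205)) (XT.nd (nat_lit 78) (nat_lit 456) (nat_lit 0) (XT.lf (nat_lit 0) (nat_lit 2629743399) (nat_lit 532) (nat_lit 1103815375) (nat_lit 76) (nat_lit 6930757209) (nat_lit 107) (nat_lit 5) (nat_lit 114) (nat_lit 5) (nat_lit 108) (nat_lit 5) (nat_lit 306) (nat_lit 270) (nat_lit 204)) (XT.lf (nat_lit 0) (nat_lit 4230905076) (nat_lit 456) (nat_lit 318583314) (nat_lit 532) (nat_lit 6295181043) (nat_lit 101) (nat_lit 5) (nat_lit 107) (nat_lit 5) (nat_lit 108) (nat_lit 5) (nat_lit 307) (nat_lit 270) (nat_lit 203))))) (XT.nd (nat_lit 234) (nat_lit 836) (nat_lit 0) (XT.nd (nat_lit 78) (nat_lit 380) (nat_lit 0) (XT.lf (nat_lit 0) (nat_lit 6539538217)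 (nat_lit 532) (nat_lit 1346481111) (nat_lit 76) (nat_lit 3144088832) (nat_lit 101) (nat_lit 5) (nat_lit 108) (nat_lit 5) (nat_lit 102) (nat_lit 5) (nat_lit 308) (nat_lit 270) (nat_lit 202)) (XT.nd (nat_lit 78) (nat_lit 0) (nat_lit 0) (XT.lf (nat_lit 0) (nat_lit 4123294921) (nat_lit 380) (nat_lit 4480344283) (nat_lit 456) (nat_lit 2617094773) (nat_lit 96) (nat_lit 5) (nat_lit 101) (nat_lit 5) (nat_lit 102) (nat_lit 5) (nat_lit 309) (nat_lit 270) (nat_lit 201)) (XT.lf (nat_lit 0) (nat_lit 9752255901) (nat_lit 380) (nat_lit 963079734) (nat_lit 456) (nat_lit 702225593) (nat_lit 96) (nat_lit 5) (nat_lit 101) (nat_lit 5) (nat_lit 102) (nat_lit 5) (nat_lit 310) (nat_lit 270) (nat_lit 200)))) (XT.nd (nat_lit 78) (nat_lit 380) (nat_lit 0) (XT.lf (nat_lit 0) (nat_lit 1281987511) (nat_lit 456) (nat_lit 7682923801) (nat_lit 76) (nat_lit 2653965060) (nat_lit 90) (nat_lit 5) (nat_lit 96) (nat_lit 5) (nat_lit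 91) (nat_lit 5) (nat_lit 311) (nat_lit 270) (nat_lit 199)) (XT.nd (nat_lit 78) (nat_lit 380) (nat_lit 0) (XT.lf (nat_lit 0) (nat_lit 3311147101) (nat_lit 456) (nat_lit 2135648523) (nat_lit 76) (nat_lit 6379289090) (nat_lit 90) (nat_lit 5) (nat_lit 96) (nat_lit 5) (nat_lit 91) (nat_lit 5) (nat_lit 312) (nat_lit 270) (nat_lit 198)) (XT.lf (nat_lit 0) (nat_lit 3616922545) (nat_lit 380) (nat_lit 1792828823) (nat_lit 456) (nat_lit 6629547781) (nat_lit 85) (nat_lit 5) (nat_lit 90) (nat_lit 5) (nat_lit 91) (nat_lit 5) (nat_lit 313) (nat_lit 270) (nat_lit 197)))))) (XT.nd (nat_lit 468) (nat_lit 684) (nat_lit 0) (XT.nd (nat_lit 234) (nat_lit 684) (nat_lit 0) (XT.nd (nat_lit 78) (nat_lit 380) (nat_lit 0) (XT.lf (nat_lit 0) (nat_lit 7586246045) (nat_lit 456) (nat_lit 2723725426) (nat_lit 76) (nat_lit 1948536152) (nat_lit 85) (nat_lit 5) (nat_lit 91) (nat_lit 5) (nat_lit 86) (nat_lit 5) (nat_lit 314) (nat_lit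 270) (nat_lit 196)) (XT.nd (nat_lit 78) (nat_lit 0) (nat_lit 0) (XT.lf (nat_lit 0) (nat_lit 3158551570) (nat_lit 380) (nat_lit 6692556676) (nat_lit 456) (nat_lit 2632536169) (nat_lit 80) (nat_lit 5) (nat_lit 85) (nat_lit 5) (nat_lit 86) (nat_lit 5) (nat_lit 315) (nat_lit 270) (nat_lit 195)) (XT.lf (nat_lit 0) (nat_lit 9242218977) (nat_lit 380) (nat_lit 2944593776) (nat_lit 456) (nat_lit 528678622) (nat_lit 80) (nat_lit 5) (nat_lit 85) (nat_lit 5) (nat_lit 86) (nat_lit 5) (nat_lit 316) (nat_lit 270) (nat_lit 194)))) (XT.nd (nat_lit 78) (nat_lit 304) (nat_lit 0) (XT.lf (nat_lit 0) (nat_lit 1615885042) (nat_lit 380) (nat_lit 10405258549) (nat_lit 76) (nat_lit 932431413) (nat_lit 75) (nat_lit 5) (nat_lit 80) (nat_lit 5) (nat_lit 76) (nat_lit 5) (nat_lit 317) (nat_lit 270) (nat_lit 193)) (XT.nd (nat_lit 78) (nat_lit 304) (nat_lit 0) (XT.lf (nat_lit 0) (nat_lit 3854917089) (nat_lit 380) (nat_lit 4441656496)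 (nat_lit 76) (nat_lit 4900887114) (nat_lit 75) (nat_lit 5) (nat_lit 80) (nat_lit 5) (nat_lit 76) (nat_lit 5) (nat_lit 318) (nat_lit 270) (nat_lit 192)) (XT.lf (nat_lit 0) (nat_lit 1704083997) (nat_lit 304) (nat_lit 4450293005) (nat_lit 380) (nat_lit 7294526422) (nat_lit 71) (nat_lit 5) (nat_lit 75) (nat_lit 5) (nat_lit 76) (nat_lit 5) (nat_lit 319) (nat_lit 270) (nat_lit 191))))) (XT.nd (nat_lit 234) (nat_lit 380) (nat_lit 0) (XT.nd (nat_lit 78) (nat_lit 304) (nat_lit 0) (XT.lf (nat_lit 0) (nat_lit 8095518210) (nat_lit 304) (nat_lit 449418476) (nat_lit 380) (nat_lit 5162326320) (nat_lit 71) (nat_lit 5) (nat_lit 75) (nat_lit 5) (nat_lit 76) (nat_lit 5) (nat_lit 320) (nat_lit 270) (nat_lit 190)) (XT.nd (nat_lit 78) (nat_lit 0) (nat_lit 0) (XT.lf (nat_lit 0) (nat_lit 653282258) (nat_lit 304) (nat_lit 10373364096) (nat_lit 380) (nat_lit 2946180001) (nat_lit 67) (nat_lit 5) (nat_lit 71) (nat_lit 5)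 (nat_lit 72) (nat_lit 5) (nat_lit 321) (nat_lit 270) (nat_lit 189)) (XT.lf (nat_lit 0) (nat_lit 7187551146) (nat_lit 304) (nat_lit 6434554844) (nat_lit 380) (nat_lit 623106584) (nat_lit 67) (nat_lit 5) (nat_lit 71) (nat_lit 5) (nat_lit 72) (nat_lit 5) (nat_lit 322) (nat_lit 270) (nat_lit 188)))) (XT.nd (nat_lit 78) (nat_lit 304) (nat_lit 0) (XT.lf (nat_lit 0) (nat_lit 1713743267) (nat_lit 380) (nat_lit 653747159) (nat_lit 76) (nat_lit 12158444046) (nat_lit 66) (nat_lit 5) (nat_lit 71) (nat_lit 5) (nat_lit 67) (nat_lit 5) (nat_lit 323) (nat_lit 270) (nat_lit 187)) (XT.nd (nat_lit 78) (nat_lit 0) (nat_lit 0) (XT.lf (nat_lit 0) (nat_lit 4163412636) (nat_lit 380) (nat_lit 8806161314) (nat_lit 76) (nat_lit 1843693823) (nat_lit 62) (nat_lit 5) (nat_lit 67) (nat_lit 5) (nat_lit 63) (nat_lit 5) (nat_lit 324) (nat_lit 270) (nat_lit 186)) (XT.lf (nat_lit 0) (nat_lit 6696187421) (nat_lit 380) (nat_lit 2279616095)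 (nat_lit 76) (nat_lit 6133160130) (nat_lit 62) (nat_lit 5) (nat_lit 67) (nat_lit 5) (nat_lit 63) (nat_lit 5) (nat_lit 325) (nat_lit 270) (nat_lit 185))))))))
noncomputable def xc139 : XT := (XT.nd (nat_lit 1794) (nat_lit 1140) (nat_lit 0) (XT.nd (nat_lit 858) (nat_lit 988) (nat_lit 0) (XT.nd (nat_lit 390) (nat_lit 532) (nat_lit 0) (XT.nd (nat_lit 156) (nat_lit 608) (nat_lit 0) (XT.nd (nat_lit 78) (nat_lit 0) (nat_lit 0) (XT.lf (nat_lit 0) (nat_lit 4503147555) (nat_lit 228) (nat_lit 4825189672) (nat_lit 304) (nat_lit 6084521546) (nat_lit 59) (nat_lit 5) (nat_lit 62) (nat_lit 5) (nat_lit 63) (nat_lit 5) (nat_lit 326) (nat_lit 270) (nat_lit 184)) (XT.lf (nat_lit 0) (nat_lit 11508942580) (nat_lit 228) (nat_lit 533951555) (nat_lit 304) (nat_lit 3682902590) (nat_lit 59) (nat_lit 5) (nat_lit 62) (nat_lit 5) (nat_lit 63) (nat_lit 5) (nat_lit 327) (nat_lit 270) (nat_lit 183))) (XT.nd (nat_lit 78) (nat_lit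 304) (nat_lit 0) (XT.lf (nat_lit 0) (nat_lit 2664510626) (nat_lit 304) (nat_lit 12218267059) (nat_lit 380) (nat_lit 1164056833) (nat_lit 55) (nat_lit 5) (nat_lit 59) (nat_lit 5) (nat_lit 60) (nat_lit 5) (nat_lit 328) (nat_lit 270) (nat_lit 182)) (XT.nd (nat_lit 78) (nat_lit 228) (nat_lit 0) (XT.lf (nat_lit 0) (nat_lit 1431741831) (nat_lit 380) (nat_lit 6583984173) (nat_lit 76) (nat_lit 8360512759) (nat_lit 54) (nat_lit 5) (nat_lit 59) (nat_lit 5) (nat_lit 55) (nat_lit 5) (nat_lit 329) (nat_lit 270) (nat_lit 181)) (XT.lf (nat_lit 0) (nat_lit 388083213) (nat_lit 228) (nat_lit 3679227178) (nat_lit 304) (nat_lit 12648336206) (nat_lit 51) (nat_lit 5) (nat_lit 54) (nat_lit 5) (nat_lit 55) (nat_lit 5) (nat_lit 330) (nat_lit 270) (nat_lit 180))))) (XT.nd (nat_lit 234) (nat_lit 304) (nat_lit 0) (XT.nd (nat_lit 78) (nat_lit 228) (nat_lit 0) (XT.lf (nat_lit 0) (nat_lit 6838431510) (nat_lit 304) (nat_lit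 9393697942) (nat_lit 76) (nat_lit 831437882) (nat_lit 51) (nat_lit 5) (nat_lit 55) (nat_lit 5) (nat_lit 52) (nat_lit 5) (nat_lit 331) (nat_lit 270) (nat_lit 179)) (XT.nd (nat_lit 78) (nat_lit 228) (nat_lit 0) (XT.lf (nat_lit 0) (nat_lit 9711418380) (nat_lit 304) (nat_lit 2313979245) (nat_lit 76) (nat_lit 5395990602) (nat_lit 51) (nat_lit 5) (nat_lit 55) (nat_lit 5) (nat_lit 52) (nat_lit 5) (nat_lit 332) (nat_lit 270) (nat_lit 178)) (XT.lf (nat_lit 0) (nat_lit 5051723165) (nat_lit 228) (nat_lit 7650251484) (nat_lit 304) (nat_lit 5087051488) (nat_lit 48) (nat_lit 5) (nat_lit 51) (nat_lit 5) (nat_lit 52) (nat_lit 5) (nat_lit 333) (nat_lit 270) (nat_lit 177)))) (XT.nd (nat_lit 78) (nat_lit 304) (nat_lit 0) (XT.lf (nat_lit 0) (nat_lit 12661090744) (nat_lit 228) (nat_lit 3127605639) (nat_lit 304) (nat_lit 2378826430) (nat_lit 48) (nat_lit 5) (nat_lit 51) (nat_lit 5) (nat_lit 52) (nat_lit 5) (nat_lit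 334) (nat_lit 270) (nat_lit 176)) (XT.nd (nat_lit 78) (nat_lit 0) (nat_lit 0) (XT.lf (nat_lit 0) (nat_lit 419642206) (nat_lit 304) (nat_lit 16620958751) (nat_lit 76) (nat_lit 1516166477) (nat_lit 44) (nat_lit 5) (nat_lit 48) (nat_lit 5) (nat_lit 45) (nat_lit 5) (nat_lit 335) (nat_lit 270) (nat_lit 175)) (XT.lf (nat_lit 0) (nat_lit 3324941271) (nat_lit 304) (nat_lit 9321467960) (nat_lit 76) (nat_lit 6308474060) (nat_lit 44) (nat_lit 5) (nat_lit 48) (nat_lit 5) (nat_lit 45) (nat_lit 5) (nat_lit 336) (nat_lit 270) (nat_lit 174)))))) (XT.nd (nat_lit 468) (nat_lit 532) (nat_lit 0) (XT.nd (nat_lit 234) (nat_lit 228) (nat_lit 0) (XT.nd (nat_lit 78) (nat_lit 228) (nat_lit 0) (XT.lf (nat_lit 0) (nat_lit 6301445259) (nat_lit 304) (nat_lit 1826846953) (nat_lit 76) (nat_lit 11237149550) (nat_lit 44) (nat_lit 5) (nat_lit 48) (nat_lit 5) (nat_lit 45) (nat_lit 5) (nat_lit 337) (nat_lit 270) (nat_lit 173)) (XT.nd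 (nat_lit 78) (nat_lit 0) (nat_lit 0) (XT.lf (nat_lit 0) (nat_lit 5986266590) (nat_lit 228) (nat_lit 3423032064) (nat_lit 304) (nat_lit 10377776622) (nat_lit 41) (nat_lit 5) (nat_lit 44) (nat_lit 5) (nat_lit 45) (nat_lit 5) (nat_lit 338) (nat_lit 270) (nat_lit 172)) (XT.lf (nat_lit 0) (nat_lit 12627367898) (nat_lit 304) (nat_lit 6186783356) (nat_lit 76) (nat_lit 1406716474) (nat_lit 41) (nat_lit 5) (nat_lit 45) (nat_lit 5) (nat_lit 42) (nat_lit 5) (nat_lit 339) (nat_lit 270) (nat_lit 171)))) (XT.nd (nat_lit 78) (nat_lit 76) (nat_lit 0) (XT.lf (nat_lit 0) (nat_lit 1630940549) (nat_lit 152) (nat_lit 14345721818) (nat_lit 228) (nat_lit 4689989867) (nat_lit 39) (nat_lit 5) (nat_lit 41) (nat_lit 5) (nat_lit 42) (nat_lit 5) (nat_lit 340) (nat_lit 270) (nat_lit 170)) (XT.nd (nat_lit 78) (nat_lit 76) (nat_lit 0) (XT.lf (nat_lit 0) (nat_lit 9787584982) (nat_lit 152) (nat_lit 9686657131) (nat_lit 228) (nat_lit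 1650152197) (nat_lit 39) (nat_lit 5) (nat_lit 41) (nat_lit 5) (nat_lit 42) (nat_lit 5) (nat_lit 341) (nat_lit 270) (nat_lit 169)) (XT.lf (nat_lit 0) (nat_lit 1437584220) (nat_lit 228) (nat_lit 3443259543) (nat_lit 76) (nat_lit 16715046986) (nat_lit 38) (nat_lit 5) (nat_lit 41) (nat_lit 5) (nat_lit 39) (nat_lit 5) (nat_lit 342) (nat_lit 270) (nat_lit 168))))) (XT.nd (nat_lit 234) (nat_lit 304) (nat_lit 0) (XT.nd (nat_lit 78) (nat_lit 0) (nat_lit 0) (XT.lf (nat_lit 0) (nat_lit 4617594168) (nat_lit 304) (nat_lit 17339468708) (nat_lit 76) (nat_lit 123011509) (nat_lit 35) (nat_lit 5) (nat_lit 39) (nat_lit 5) (nat_lit 36) (nat_lit 5) (nat_lit 343) (nat_lit 270) (nat_lit 167)) (XT.nd (nat_lit 78) (nat_lit 0) (nat_lit 0) (XT.lf (nat_lit 0) (nat_lit 7962595785) (nat_lit 304) (nat_lit 9407428470) (nat_lit 76) (nat_lit 5206687728) (nat_lit 35) (nat_lit 5) (nat_lit 39) (nat_lit 5) (nat_lit 36) (nat_lit 5)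 (nat_lit 344) (nat_lit 270) (nat_lit 166)) (XT.lf (nat_lit 0) (nat_lit 11394502553) (nat_lit 304) (nat_lit 1258387123) (nat_lit 76) (nat_lit 10435778104) (nat_lit 35) (nat_lit 5) (nat_lit 39) (nat_lit 5) (nat_lit 36) (nat_lit 5) (nat_lit 345) (nat_lit 270) (nat_lit 165)))) (XT.nd (nat_lit 78) (nat_lit 152) (nat_lit 0) (XT.lf (nat_lit 0) (nat_lit 7256373843) (nat_lit 152) (nat_lit 7729692087) (nat_lit 228) (nat_lit 8628230606) (nat_lit 33) (nat_lit 5) (nat_lit 35) (nat_lit 5) (nat_lit 36) (nat_lit 5) (nat_lit 346) (nat_lit 270) (nat_lit 164)) (XT.nd (nat_lit 78) (nat_lit 152) (nat_lit 0) (XT.lf (nat_lit 0) (nat_lit 16032223237) (nat_lit 152) (nat_lit 2652993414) (nat_lit 228) (nat_lit 5470497111) (nat_lit 33) (nat_lit 5) (nat_lit 35) (nat_lit 5) (nat_lit 36) (nat_lit 5) (nat_lit 347) (nat_lit 270) (nat_lit 163)) (XT.lf (nat_lit 0) (nat_lit 319563915) (nat_lit 152) (nat_lit 22191051958) (nat_lit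 228) (nat_lit 2202313802) (nat_lit 31) (nat_lit 5) (nat_lit 33) (nat_lit 5) (nat_lit 34) (nat_lit 5) (nat_lit 348) (nat_lit 270) (nat_lit 162))))))) (XT.nd (nat_lit 936) (nat_lit 532) (nat_lit 0) (XT.nd (nat_lit 468) (nat_lit 228) (nat_lit 0) (XT.nd (nat_lit 234) (nat_lit 152) (nat_lit 0) (XT.nd (nat_lit 78) (nat_lit 152) (nat_lit 0) (XT.lf (nat_lit 0) (nat_lit 1237793851) (nat_lit 228) (nat_lit 16160187434) (nat_lit 76) (nat_lit 7885660966) (nat_lit 30) (nat_lit 5) (nat_lit 33) (nat_lit 5) (nat_lit 31) (nat_lit 5) (nat_lit 349) (nat_lit 270) (nat_lit 161)) (XT.nd (nat_lit 78) (nat_lit 152) (nat_lit 0) (XT.lf (nat_lit 0) (nat_lit 4724685301) (nat_lit 228) (nat_lit 7721189887) (nat_lit 76) (nat_lit 13425324686) (nat_lit 30) (nat_lit 5) (nat_lit 33) (nat_lit 5) (nat_lit 31) (nat_lit 5) (nat_lit 350) (nat_lit 270) (nat_lit 160)) (XT.lf (nat_lit 0) (nat_lit 971120813) (nat_lit 152) (nat_lit 7342596615)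 (nat_lit 228) (nat_lit 18162753565) (nat_lit 28) (nat_lit 5) (nat_lit 30) (nat_lit 5) (nat_lit 31) (nat_lit 5) (nat_lit 351) (nat_lit 270) (nat_lit 159)))) (XT.nd (nat_lit 78) (nat_lit 152) (nat_lit 0) (XT.lf (nat_lit 0) (nat_lit 10063855202) (nat_lit 152) (nat_lit 2012897832) (nat_lit 228) (nat_lit 15021169649) (nat_lit 28) (nat_lit 5) (nat_lit 30) (nat_lit 5) (nat_lit 31) (nat_lit 5) (nat_lit 352) (nat_lit 270) (nat_lit 158)) (XT.nd (nat_lit 78) (nat_lit 152) (nat_lit 0) (XT.lf (nat_lit 0) (nat_lit 15974737158) (nat_lit 228) (nat_lit 8360432221) (nat_lit 76) (nat_lit 3402198872) (nat_lit 28) (nat_lit 5) (nat_lit 31) (nat_lit 5) (nat_lit 29) (nat_lit 5) (nat_lit 353) (nat_lit 270) (nat_lit 157)) (XT.lf (nat_lit 0) (nat_lit 546312027) (nat_lit 152) (nat_lit 19457498257) (nat_lit 228) (nat_lit 8391774119) (nat_lit 26) (nat_lit 5) (nat_lit 28) (nat_lit 5) (nat_lit 29) (nat_lit 5) (nat_lit 354)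 (nat_lit 270) (nat_lit 156))))) (XT.nd (nat_lit 234) (nat_lit 152) (nat_lit 0) (XT.nd (nat_lit 78) (nat_lit 76) (nat_lit 0) (XT.lf (nat_lit 0) (nat_lit 9873983176) (nat_lit 152) (nat_lit 14353316301) (nat_lit 228) (nat_lit 4844052604) (nat_lit 26) (nat_lit 5) (nat_lit 28) (nat_lit 5) (nat_lit 29) (nat_lit 5) (nat_lit 355) (nat_lit 270) (nat_lit 155)) (XT.nd (nat_lit 78) (nat_lit 76) (nat_lit 0) (XT.lf (nat_lit 0) (nat_lit 19464342625) (nat_lit 152) (nat_lit 9102587520) (nat_lit 228) (nat_lit 1200790571) (nat_lit 26) (nat_lit 5) (nat_lit 28) (nat_lit 5) (nat_lit 29) (nat_lit 5) (nat_lit 356) (nat_lit 270) (nat_lit 154)) (XT.lf (nat_lit 0) (nat_lit 2491607537) (nat_lit 228) (nat_lit 1183956009) (nat_lit 76) (nat_lit 26809002411) (nat_lit 25) (nat_lit 5) (nat_lit 28) (nat_lit 5) (nat_lit 26) (nat_lit 5) (nat_lit 357) (nat_lit 270) (nat_lit 153)))) (XT.nd (nat_lit 78) (nat_lit 0) (nat_lit 0) (XT.lf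 (nat_lit 0) (nat_lit 6360033490) (nat_lit 228) (nat_lit 22896112933) (nat_lit 76) (nat_lit 1963741835) (nat_lit 23) (nat_lit 5) (nat_lit 26) (nat_lit 5) (nat_lit 24) (nat_lit 5) (nat_lit 358) (nat_lit 270) (nat_lit 152)) (XT.nd (nat_lit 78) (nat_lit 0) (nat_lit 0) (XT.lf (nat_lit 0) (nat_lit 10382989352) (nat_lit 228) (nat_lit 13888868165) (nat_lit 76) (nat_lit 7704268198) (nat_lit 23) (nat_lit 5) (nat_lit 26) (nat_lit 5) (nat_lit 24) (nat_lit 5) (nat_lit 359) (nat_lit 270) (nat_lit 151)) (XT.lf (nat_lit 0) (nat_lit 14516936224) (nat_lit 228) (nat_lit 4627381833) (nat_lit 76) (nat_lit 13611032682) (nat_lit 23) (nat_lit 5) (nat_lit 26) (nat_lit 5) (nat_lit 24) (nat_lit 5) (nat_lit 360) (nat_lit 270) (nat_lit 150)))))) (XT.nd (nat_lit 468) (nat_lit 228) (nat_lit 0) (XT.nd (nat_lit 234) (nat_lit 152) (nat_lit 0) (XT.nd (nat_lit 78) (nat_lit 0) (nat_lit 0) (XT.lf (nat_lit 0) (nat_lit 4993887353)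 (nat_lit 152) (nat_lit 13819603240) (nat_lit 228) (nat_lit 14743313483) (nat_lit 21) (nat_lit 5) (nat_lit 23) (nat_lit 5) (nat_lit 24) (nat_lit 5) (nat_lit 361) (nat_lit 270) (nat_lit 149)) (XT.nd (nat_lit 78) (nat_lit 0) (nat_lit 0) (XT.lf (nat_lit 0) (nat_lit 14983293006) (nat_lit 152) (nat_lit 8293087458) (nat_lit 228) (nat_lit 11104806353) (nat_lit 21) (nat_lit 5) (nat_lit 23) (nat_lit 5) (nat_lit 24) (nat_lit 5) (nat_lit 362) (nat_lit 270) (nat_lit 148)) (XT.lf (nat_lit 0) (nat_lit 25257469758) (nat_lit 152) (nat_lit 2606669199) (nat_lit 228) (nat_lit 7366441328) (nat_lit 21) (nat_lit 5) (nat_lit 23) (nat_lit 5) (nat_lit 24) (nat_lit 5) (nat_lit 363) (nat_lit 270) (nat_lit 147)))) (XT.nd (nat_lit 78) (nat_lit 152) (nat_lit 0) (XT.lf (nat_lit 0) (nat_lit 32611964072) (nat_lit 228) (nat_lit 311520902) (nat_lit 76) (nat_lit 3181306021) (nat_lit 21) (nat_lit 5) (nat_lit 24) (nat_lit 5) (nat_lit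 22) (nat_lit 4) (nat_lit 364) (nat_lit 270) (nat_lit 146)) (XT.nd (nat_lit 78) (nat_lit 0) (nat_lit 0) (XT.lf (nat_lit 0) (nat_lit 599763287) (nat_lit 152) (nat_lit 27216876573) (nat_lit 76) (nat_lit 9185078845) (nat_lit 19) (nat_lit 5) (nat_lit 21) (nat_lit 5) (nat_lit 20) (nat_lit 5) (nat_lit 365) (nat_lit 270) (nat_lit 145)) (XT.lf (nat_lit 0) (nat_lit 4739573926) (nat_lit 152) (nat_lit 17783894150) (nat_lit 76) (nat_lit 15401217079) (nat_lit 19) (nat_lit 5) (nat_lit 21) (nat_lit 5) (nat_lit 20) (nat_lit 5) (nat_lit 366) (nat_lit 270) (nat_lit 144))))) (XT.nd (nat_lit 234) (nat_lit 76) (nat_lit 0) (XT.nd (nat_lit 78) (nat_lit 152) (nat_lit 0) (XT.lf (nat_lit 0) (nat_lit 8995295570) (nat_lit 152) (nat_lit 8081808293) (nat_lit 76) (nat_lit 21798492744) (nat_lit 19) (nat_lit 5) (nat_lit 21) (nat_lit 5) (nat_lit 20) (nat_lit 5) (nat_lit 367) (nat_lit 270) (nat_lit 143)) (XT.nd (nat_lit 78) (nat_lit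 0) (nat_lit 0) (XT.lf (nat_lit 0) (nat_lit 1935629656) (nat_lit 152) (nat_lit 11453623613) (nat_lit 228) (nat_lit 26465472495) (nat_lit 17) (nat_lit 5) (nat_lit 19) (nat_lit 5) (nat_lit 20) (nat_lit 5) (nat_lit 368) (nat_lit 270) (nat_lit 142)) (XT.lf (nat_lit 0) (nat_lit 12405910473) (nat_lit 152) (nat_lit 5582793502) (nat_lit 228) (nat_lit 22872321669) (nat_lit 17) (nat_lit 5) (nat_lit 19) (nat_lit 5) (nat_lit 20) (nat_lit 5) (nat_lit 369) (nat_lit 270) (nat_lit 141)))) (XT.nd (nat_lit 78) (nat_lit 76) (nat_lit 0) (XT.lf (nat_lit 0) (nat_lit 22722844497) (nat_lit 228) (nat_lit 18724824713) (nat_lit 76) (nat_lit 449950996) (nat_lit 17) (nat_lit 5) (nat_lit 20) (nat_lit 5) (nat_lit 18) (nat_lit 4) (nat_lit 370) (nat_lit 270) (nat_lit 140)) (XT.nd (nat_lit 78) (nat_lit 76) (nat_lit 0) (XT.lf (nat_lit 0) (nat_lit 27646754796) (nat_lit 228) (nat_lit 8770665870) (nat_lit 76) (nat_lit 6546466243)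 (nat_lit 17) (nat_lit 5) (nat_lit 20) (nat_lit 5) (nat_lit 18) (nat_lit 4) (nat_lit 371) (nat_lit 270) (nat_lit 139)) (XT.lf (nat_lit 0) (nat_lit 1498974786) (nat_lit 76) (nat_lit 31226506367) (nat_lit 152) (nat_lit 11336453976) (nat_lit 16) (nat_lit 5) (nat_lit 17) (nat_lit 5) (nat_lit 18) (nat_lit 4) (nat_lit 372) (nat_lit 270) (nat_lit 138))))))))
noncomputable def xc140 : XT := (XT.nd (nat_lit 1794) (nat_lit 0) (nat_lit 0) (XT.nd (nat_lit 858) (nat_lit 228) (nat_lit 0) (XT.nd (nat_lit 390) (nat_lit 76) (nat_lit 0) (XT.nd (nat_lit 156) (nat_lit 228) (nat_lit 0) (XT.nd (nat_lit 78) (nat_lit 0) (nat_lit 0) (XT.lf (nat_lit 0) (nat_lit 12244222872) (nat_lit 76) (nat_lit 25793697602) (nat_lit 152) (nat_lit 7152570076) (nat_lit 16) (nat_lit 5) (nat_lit 17) (nat_lit 5) (nat_lit 18) (nat_lit 4) (nat_lit 373) (nat_lit 270) (nat_lit 137)) (XT.lf (nat_lit 0) (nat_lit 23299913989) (nat_lit 76) (nat_lit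 20202813787) (nat_lit 152) (nat_lit 2850391121) (nat_lit 16) (nat_lit 5) (nat_lit 17) (nat_lit 5) (nat_lit 18) (nat_lit 4) (nat_lit 374) (nat_lit 270) (nat_lit 136))) (XT.nd (nat_lit 78) (nat_lit 152) (nat_lit 0) (XT.lf (nat_lit 0) (nat_lit 1543130747) (nat_lit 152) (nat_lit 12890256339) (nat_lit 76) (nat_lit 33116995107) (nat_lit 15) (nat_lit 5) (nat_lit 17) (nat_lit 5) (nat_lit 16) (nat_lit 5) (nat_lit 375) (nat_lit 270) (nat_lit 135)) (XT.nd (nat_lit 78) (nat_lit 152) (nat_lit 0) (XT.lf (nat_lit 0) (nat_lit 6004494141) (nat_lit 152) (nat_lit 2462009899) (nat_lit 76) (nat_lit 40316418512) (nat_lit 15) (nat_lit 5) (nat_lit 17) (nat_lit 5) (nat_lit 16) (nat_lit 5) (nat_lit 376) (nat_lit 270) (nat_lit 134)) (XT.lf (nat_lit 0) (nat_lit 8432596506) (nat_lit 152) (nat_lit 2241681504) (nat_lit 228) (nat_lit 39375929147) (nat_lit 13) (nat_lit 5) (nat_lit 15) (nat_lit 5) (nat_lit 16) (nat_lit 5) (nat_lit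 377) (nat_lit 270) (nat_lit 133))))) (XT.nd (nat_lit 234) (nat_lit 76) (nat_lit 0) (XT.nd (nat_lit 78) (nat_lit 0) (nat_lit 0) (XT.lf (nat_lit 0) (nat_lit 15542906902) (nat_lit 228) (nat_lit 31701667323) (nat_lit 76) (nat_lit 4109178798) (nat_lit 13) (nat_lit 5) (nat_lit 16) (nat_lit 5) (nat_lit 14) (nat_lit 4) (nat_lit 378) (nat_lit 270) (nat_lit 132)) (XT.nd (nat_lit 78) (nat_lit 0) (nat_lit 0) (XT.lf (nat_lit 0) (nat_lit 20573537475) (nat_lit 228) (nat_lit 21521200867) (nat_lit 76) (nat_lit 10601193753) (nat_lit 13) (nat_lit 5) (nat_lit 16) (nat_lit 5) (nat_lit 14) (nat_lit 4) (nat_lit 379) (nat_lit 270) (nat_lit 131)) (XT.lf (nat_lit 0) (nat_lit 25749017013) (nat_lit 228) (nat_lit 11045767314) (nat_lit 76) (nat_lit 17283779275) (nat_lit 13) (nat_lit 5) (nat_lit 16) (nat_lit 5) (nat_lit 14) (nat_lit 4) (nat_lit 380) (nat_lit 270) (nat_lit 130)))) (XT.nd (nat_lit 78) (nat_lit 76) (nat_lit 0)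 (XT.lf (nat_lit 0) (nat_lit 31073867779) (nat_lit 228) (nat_lit 266213375) (nat_lit 76) (nat_lit 24162774515) (nat_lit 13) (nat_lit 5) (nat_lit 16) (nat_lit 5) (nat_lit 14) (nat_lit 4) (nat_lit 381) (nat_lit 270) (nat_lit 129)) (XT.nd (nat_lit 78) (nat_lit 0) (nat_lit 0) (XT.lf (nat_lit 0) (nat_lit 11042356118) (nat_lit 76) (nat_lit 25616532319) (nat_lit 152) (nat_lit 20307980011) (nat_lit 12) (nat_lit 5) (nat_lit 13) (nat_lit 5) (nat_lit 14) (nat_lit 4) (nat_lit 382) (nat_lit 270) (nat_lit 128)) (XT.lf (nat_lit 0) (nat_lit 22685889149) (nat_lit 76) (nat_lit 19722610205) (nat_lit 152) (nat_lit 16066395611) (nat_lit 12) (nat_lit 5) (nat_lit 13) (nat_lit 5) (nat_lit 14) (nat_lit 4) (nat_lit 383) (nat_lit 270) (nat_lit 127)))))) (XT.nd (nat_lit 468) (nat_lit 76) (nat_lit 0) (XT.nd (nat_lit 234) (nat_lit 152) (nat_lit 0) (XT.nd (nat_lit 78) (nat_lit 0) (nat_lit 0) (XT.lf (nat_lit 0) (nat_lit 34669261508)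 (nat_lit 76) (nat_lit 13655853016) (nat_lit 152) (nat_lit 11703216686) (nat_lit 12) (nat_lit 5) (nat_lit 13) (nat_lit 5) (nat_lit 14) (nat_lit 4) (nat_lit 384) (nat_lit 270) (nat_lit 126)) (XT.nd (nat_lit 78) (nat_lit 0) (nat_lit 0) (XT.lf (nat_lit 0) (nat_lit 47002944103) (nat_lit 76) (nat_lit 7410959702) (nat_lit 152) (nat_lit 7214630750) (nat_lit 12) (nat_lit 5) (nat_lit 13) (nat_lit 5) (nat_lit 14) (nat_lit 4) (nat_lit 385) (nat_lit 270) (nat_lit 125)) (XT.lf (nat_lit 0) (nat_lit 59697713939) (nat_lit 76) (nat_lit 982473561) (nat_lit 152) (nat_lit 2596715738) (nat_lit 12) (nat_lit 5) (nat_lit 13) (nat_lit 5) (nat_lit 14) (nat_lit 4) (nat_lit 386) (nat_lit 270) (nat_lit 124)))) (XT.nd (nat_lit 78) (nat_lit 0) (nat_lit 0) (XT.lf (nat_lit 0) (nat_lit 2243815929) (nat_lit 152) (nat_lit 57103404829) (nat_lit 76) (nat_lit 5623096617) (nat_lit 10) (nat_lit 5) (nat_lit 12) (nat_lit 5) (nat_lit 11)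 (nat_lit 4) (nat_lit 387) (nat_lit 270) (nat_lit 123)) (XT.nd (nat_lit 78) (nat_lit 0) (nat_lit 0) (XT.lf (nat_lit 0) (nat_lit 7218556844) (nat_lit 152) (nat_lit 47028278673) (nat_lit 76) (nat_lit 12465695381) (nat_lit 10) (nat_lit 5) (nat_lit 12) (nat_lit 5) (nat_lit 11) (nat_lit 4) (nat_lit 388) (nat_lit 270) (nat_lit 122)) (XT.lf (nat_lit 0) (nat_lit 12337643491) (nat_lit 152) (nat_lit 36659443366) (nat_lit 76) (nat_lit 19510074561) (nat_lit 10) (nat_lit 5) (nat_lit 12) (nat_lit 5) (nat_lit 11) (nat_lit 4) (nat_lit 389) (nat_lit 270) (nat_lit 121))))) (XT.nd (nat_lit 234) (nat_lit 76) (nat_lit 0) (XT.nd (nat_lit 78) (nat_lit 0) (nat_lit 0) (XT.lf (nat_lit 0) (nat_lit 17605548856) (nat_lit 152) (nat_lit 25987838760) (nat_lit 76) (nat_lit 26762389439) (nat_lit 10) (nat_lit 5) (nat_lit 12) (nat_lit 5) (nat_lit 11) (nat_lit 4) (nat_lit 390) (nat_lit 270) (nat_lit 120)) (XT.nd (nat_lit 78) (nat_lit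 0) (nat_lit 0) (XT.lf (nat_lit 0) (nat_lit 23026875965) (nat_lit 152) (nat_lit 15004140152) (nat_lit 76) (nat_lit 34228976989) (nat_lit 10) (nat_lit 5) (nat_lit 12) (nat_lit 5) (nat_lit 11) (nat_lit 4) (nat_lit 391) (nat_lit 270) (nat_lit 119)) (XT.lf (nat_lit 0) (nat_lit 28606361899) (nat_lit 152) (nat_lit 3698750137) (nat_lit 76) (nat_lit 41916361414) (nat_lit 10) (nat_lit 5) (nat_lit 12) (nat_lit 5) (nat_lit 11) (nat_lit 4) (nat_lit 392) (nat_lit 270) (nat_lit 118)))) (XT.nd (nat_lit 78) (nat_lit 0) (nat_lit 0) (XT.lf (nat_lit 0) (nat_lit 8096195722) (nat_lit 76) (nat_lit 26330511801) (nat_lit 152) (nat_lit 41812889710) (nat_lit 9) (nat_lit 5) (nat_lit 10) (nat_lit 5) (nat_lit 11) (nat_lit 4) (nat_lit 393) (nat_lit 270) (nat_lit 117)) (XT.nd (nat_lit 78) (nat_lit 0) (nat_lit 0) (XT.lf (nat_lit 0) (nat_lit 20313293342) (nat_lit 76) (nat_lit 20141424275) (nat_lit 152) (nat_lit 37862558676) (nat_lit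 9) (nat_lit 5) (nat_lit 10) (nat_lit 5) (nat_lit 11) (nat_lit 4) (nat_lit 394) (nat_lit 270) (nat_lit 116)) (XT.lf (nat_lit 0) (nat_lit 32889605477) (nat_lit 76) (nat_lit 13769791642) (nat_lit 152) (nat_lit 33798016827) (nat_lit 9) (nat_lit 5) (nat_lit 10) (nat_lit 5) (nat_lit 11) (nat_lit 4) (nat_lit 395) (nat_lit 270) (nat_lit 115))))))) (XT.nd (nat_lit 31668) (nat_lit 0) (nat_lit 12084) (XT.nd (nat_lit 31200) (nat_lit 0) (nat_lit 15504) (XT.nd (nat_lit 30966) (nat_lit 0) (nat_lit 16188) (XT.nd (nat_lit 30888) (nat_lit 0) (nat_lit 16872) (XT.lf (nat_lit 0) (nat_lit 45836121136) (nat_lit 76) (nat_lit 7210046456) (nat_lit 152) (nat_lit 29615712623) (nat_lit 9) (nat_lit 5) (nat_lit 10) (nat_lit 5) (nat_lit 11) (nat_lit 4) (nat_lit 396) (nat_lit 270) (nat_lit 114)) (XT.lf (nat_lit 0) (nat_lit 1547306511) (nat_lit 684) (nat_lit 970723923) (nat_lit 684) (nat_lit 970723923) (nat_lit 231) (nat_lit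 3) (nat_lit 240) (nat_lit 3) (nat_lit 240) (nat_lit 5) (nat_lit 271) (nat_lit 271) (nat_lit 238))) (XT.nd (nat_lit 78) (nat_lit 684) (nat_lit 0) (XT.lf (nat_lit 76) (nat_lit 1114484890) (nat_lit 0) (nat_lit 3693038817) (nat_lit 684) (nat_lit 2219827552) (nat_lit 232) (nat_lit 5) (nat_lit 231) (nat_lit 3) (nat_lit 240) (nat_lit 5) (nat_lit 272) (nat_lit 271) (nat_lit 237)) (XT.nd (nat_lit 78) (nat_lit 684) (nat_lit 0) (XT.lf (nat_lit 76) (nat_lit 4267855519) (nat_lit 0) (nat_lit 2258623416) (nat_lit 684) (nat_lit 553758745) (nat_lit 232) (nat_lit 5) (nat_lit 231) (nat_lit 3) (nat_lit 240) (nat_lit 5) (nat_lit 273) (nat_lit 271) (nat_lit 236)) (XT.lf (nat_lit 76) (nat_lit 342125090) (nat_lit 0) (nat_lit 736915746) (nat_lit 760) (nat_lit 6057329310) (nat_lit 223) (nat_lit 5) (nat_lit 222) (nat_lit 5) (nat_lit 232) (nat_lit 5) (nat_lit 274) (nat_lit 271) (nat_lit 235))))) (XT.nd (nat_lit 234) (nat_lit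 760) (nat_lit 0) (XT.nd (nat_lit 78) (nat_lit 0) (nat_lit 0) (XT.lf (nat_lit 0) (nat_lit 2724300812) (nat_lit 684) (nat_lit 3594632335) (nat_lit 760) (nat_lit 876023106) (nat_lit 223) (nat_lit 5) (nat_lit 232) (nat_lit 5) (nat_lit 233) (nat_lit 5) (nat_lit 275) (nat_lit 271) (nat_lit 234)) (XT.nd (nat_lit 78) (nat_lit 0) (nat_lit 0) (XT.lf (nat_lit 0) (nat_lit 4365965218) (nat_lit 684) (nat_lit 341734901) (nat_lit 760) (nat_lit 2549355743) (nat_lit 223) (nat_lit 5) (nat_lit 232) (nat_lit 5) (nat_lit 233) (nat_lit 5) (nat_lit 276) (nat_lit 271) (nat_lit 233)) (XT.lf (nat_lit 76) (nat_lit 3033569126) (nat_lit 0) (nat_lit 2993976230) (nat_lit 760) (nat_lit 1294515576) (nat_lit 224) (nat_lit 5) (nat_lit 223) (nat_lit 5) (nat_lit 233) (nat_lit 5) (nat_lit 277) (nat_lit 271) (nat_lit 232)))) (XT.nd (nat_lit 78) (nat_lit 0) (nat_lit 76) (XT.lf (nat_lit 0) (nat_lit 288774486) (nat_lit 760) (nat_lit 910516673)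 (nat_lit 836) (nat_lit 6191407795) (nat_lit 213) (nat_lit 5) (nat_lit 223) (nat_lit 5) (nat_lit 224) (nat_lit 5) (nat_lit 278) (nat_lit 271) (nat_lit 231)) (XT.nd (nat_lit 78) (nat_lit 0) (nat_lit 0) (XT.lf (nat_lit 0) (nat_lit 1868935696) (nat_lit 760) (nat_lit 4897072795) (nat_lit 836) (nat_lit 695890052) (nat_lit 214) (nat_lit 5) (nat_lit 224) (nat_lit 5) (nat_lit 225) (nat_lit 5) (nat_lit 279) (nat_lit 271) (nat_lit 230)) (XT.lf (nat_lit 0) (nat_lit 3463017151) (nat_lit 760) (nat_lit 1419798167) (nat_lit 836) (nat_lit 2653567668) (nat_lit 214) (nat_lit 5) (nat_lit 224) (nat_lit 5) (nat_lit 225) (nat_lit 5) (nat_lit 280) (nat_lit 271) (nat_lit 229)))))) (XT.nd (nat_lit 468) (nat_lit 2736) (nat_lit 0) (XT.nd (nat_lit 234) (nat_lit 0) (nat_lit 0) (XT.nd (nat_lit 78) (nat_lit 760) (nat_lit 0) (XT.lf (nat_lit 76) (nat_lit 2169203458) (nat_lit 0) (nat_lit 2903516656) (nat_lit 836) (nat_lit 2541488006)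 (nat_lit 215) (nat_lit 5) (nat_lit 214) (nat_lit 5) (nat_lit 225) (nat_lit 5) (nat_lit 281) (nat_lit 271) (nat_lit 228)) (XT.nd (nat_lit 78) (nat_lit 760) (nat_lit 0) (XT.lf (nat_lit 76) (nat_lit 5860401745) (nat_lit 0) (nat_lit 832809790) (nat_lit 836) (nat_lit 1002417597) (nat_lit 215) (nat_lit 5) (nat_lit 214) (nat_lit 5) (nat_lit 225) (nat_lit 5) (nat_lit 282) (nat_lit 271) (nat_lit 227)) (XT.lf (nat_lit 0) (nat_lit 551445218) (nat_lit 836) (nat_lit 5914129281) (nat_lit 912) (nat_lit 1314478639) (nat_lit 204) (nat_lit 5) (nat_lit 215) (nat_lit 5) (nat_lit 216) (nat_lit 5) (nat_lit 283) (nat_lit 271) (nat_lit 226)))) (XT.nd (nat_lit 78) (nat_lit 0) (nat_lit 0) (XT.lf (nat_lit 0) (nat_lit 2109082039) (nat_lit 836) (nat_lit 2205217710) (nat_lit 912) (nat_lit 3553217698) (nat_lit 204) (nat_lit 5) (nat_lit 215) (nat_lit 5) (nat_lit 216) (nat_lit 5) (nat_lit 284) (nat_lit 271) (nat_lit 225)) (XT.nd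 (nat_lit 78) (nat_lit 0) (nat_lit 76) (XT.lf (nat_lit 76) (nat_lit 1611316653) (nat_lit 0) (nat_lit 2069410945) (nat_lit 912) (nat_lit 4277980572) (nat_lit 205) (nat_lit 5) (nat_lit 204) (nat_lit 5) (nat_lit 216) (nat_lit 5) (nat_lit 285) (nat_lit 271) (nat_lit 224)) (XT.lf (nat_lit 0) (nat_lit 5277325572) (nat_lit 836) (nat_lit 2503363213) (nat_lit 76) (nat_lit 272729094) (nat_lit 205) (nat_lit 5) (nat_lit 216) (nat_lit 5) (nat_lit 206) (nat_lit 5) (nat_lit 286) (nat_lit 271) (nat_lit 223))))) (XT.nd (nat_lit 234) (nat_lit 988) (nat_lit 0) (XT.nd (nat_lit 78) (nat_lit 988) (nat_lit 0) (XT.lf (nat_lit 0) (nat_lit 1428028884) (nat_lit 836) (nat_lit 5482358433) (nat_lit 912) (nat_lit 1241038524) (nat_lit 194) (nat_lit 5) (nat_lit 205) (nat_lit 5) (nat_lit 206) (nat_lit 5) (nat_lit 287) (nat_lit 271) (nat_lit 222)) (XT.nd (nat_lit 78) (nat_lit 912) (nat_lit 0) (XT.lf (nat_lit 0) (nat_lit 313752514)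 (nat_lit 912) (nat_lit 2762450187) (nat_lit 76) (nat_lit 5176771021) (nat_lit 193) (nat_lit 5) (nat_lit 205) (nat_lit 5) (nat_lit 194) (nat_lit 5) (nat_lit 288) (nat_lit 271) (nat_lit 221)) (XT.lf (nat_lit 0) (nat_lit 1295368632) (nat_lit 912) (nat_lit 563435837) (nat_lit 988) (nat_lit 6499442388) (nat_lit 181) (nat_lit 5) (nat_lit 193) (nat_lit 5) (nat_lit 194) (nat_lit 5) (nat_lit 289) (nat_lit 271) (nat_lit 220)))) (XT.nd (nat_lit 78) (nat_lit 988) (nat_lit 0) (XT.lf (nat_lit 0) (nat_lit 3454977186) (nat_lit 988) (nat_lit 2990104089) (nat_lit 76) (nat_lit 2021555067) (nat_lit 181) (nat_lit 5) (nat_lit 194) (nat_lit 5) (nat_lit 182) (nat_lit 5) (nat_lit 290) (nat_lit 271) (nat_lit 219)) (XT.nd (nat_lit 78) (nat_lit 0) (nat_lit 0) (XT.lf (nat_lit 0) (nat_lit 1187422959) (nat_lit 988) (nat_lit 3886988322) (nat_lit 1064) (nat_lit 3504703226) (nat_lit 168) (nat_lit 5) (nat_lit 181) (nat_lit 5)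 (nat_lit 182) (nat_lit 5) (nat_lit 291) (nat_lit 271) (nat_lit 218)) (XT.lf (nat_lit 0) (nat_lit 5516890743) (nat_lit 988) (nat_lit 1214994010) (nat_lit 1064) (nat_lit 1963493994) (nat_lit 168) (nat_lit 5) (nat_lit 181) (nat_lit 5) (nat_lit 182) (nat_lit 5) (nat_lit 292) (nat_lit 271) (nat_lit 217))))))))
noncomputable def xc141 : XT := (XT.nd (nat_lit 1794) (nat_lit 3344) (nat_lit 0) (XT.nd (nat_lit 858) (nat_lit 2204) (nat_lit 0) (XT.nd (nat_lit 390) (nat_lit 1596) (nat_lit 0) (XT.nd (nat_lit 156) (nat_lit 1368) (nat_lit 0) (XT.nd (nat_lit 78) (nat_lit 76) (nat_lit 0) (XT.lf (nat_lit 0) (nat_lit 1133448253) (nat_lit 1064) (nat_lit 7291810944) (nat_lit 1140) (nat_lit 390379056) (nat_lit 154) (nat_lit 5) (nat_lit 168) (nat_lit 5) (nat_lit 169) (nat_lit 5) (nat_lit 293) (nat_lit 271) (nat_lit 216)) (XT.lf (nat_lit 0) (nat_lit 1211224160) (nat_lit 1140) (nat_lit 3358342623) (nat_lit 76) (nat_lit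 4369512541) (nat_lit 153) (nat_lit 5) (nat_lit 168) (nat_lit 5) (nat_lit 154) (nat_lit 5) (nat_lit 294) (nat_lit 271) (nat_lit 215))) (XT.nd (nat_lit 78) (nat_lit 532) (nat_lit 0) (XT.lf (nat_lit 0) (nat_lit 1077895256) (nat_lit 836) (nat_lit 1747486884) (nat_lit 912) (nat_lit 6241639729) (nat_lit 142) (nat_lit 5) (nat_lit 153) (nat_lit 5) (nat_lit 154) (nat_lit 5) (nat_lit 295) (nat_lit 271) (nat_lit 214)) (XT.nd (nat_lit 78) (nat_lit 532) (nat_lit 0) (XT.lf (nat_lit 0) (nat_lit 4496156562) (nat_lit 912) (nat_lit 3528585530) (nat_lit 76) (nat_lit 1173897156) (nat_lit 142) (nat_lit 5) (nat_lit 154) (nat_lit 5) (nat_lit 143) (nat_lit 5) (nat_lit 296) (nat_lit 271) (nat_lit 213)) (XT.lf (nat_lit 0) (nat_lit 1034299460) (nat_lit 532) (nat_lit 5173882213) (nat_lit 608) (nat_lit 3126369563) (nat_lit 135) (nat_lit 5) (nat_lit 142) (nat_lit 5) (nat_lit 143) (nat_lit 5) (nat_lit 297) (nat_lit 271) (nat_lit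 212))))) (XT.nd (nat_lit 234) (nat_lit 988) (nat_lit 0) (XT.nd (nat_lit 78) (nat_lit 608) (nat_lit 0) (XT.lf (nat_lit 0) (nat_lit 5772386960) (nat_lit 532) (nat_lit 2199420616) (nat_lit 608) (nat_lit 1502803393) (nat_lit 135) (nat_lit 5) (nat_lit 142) (nat_lit 5) (nat_lit 143) (nat_lit 5) (nat_lit 298) (nat_lit 271) (nat_lit 211)) (XT.nd (nat_lit 78) (nat_lit 0) (nat_lit 0) (XT.lf (nat_lit 0) (nat_lit 149605731) (nat_lit 608) (nat_lit 8609883686) (nat_lit 76) (nat_lit 859904049) (nat_lit 127) (nat_lit 5) (nat_lit 135) (nat_lit 5) (nat_lit 128) (nat_lit 5) (nat_lit 299) (nat_lit 271) (nat_lit 210)) (XT.lf (nat_lit 0) (nat_lit 1846836299) (nat_lit 608) (nat_lit 3900495429) (nat_lit 76) (nat_lit 4020048713) (nat_lit 127) (nat_lit 5) (nat_lit 135) (nat_lit 5) (nat_lit 128) (nat_lit 5) (nat_lit 300) (nat_lit 271) (nat_lit 209)))) (XT.nd (nat_lit 78) (nat_lit 532) (nat_lit 0) (XT.lf (nat_lit 0) (nat_lit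 934864366) (nat_lit 456) (nat_lit 2636020696) (nat_lit 532) (nat_lit 6349713858) (nat_lit 121) (nat_lit 5) (nat_lit 127) (nat_lit 5) (nat_lit 128) (nat_lit 5) (nat_lit 301) (nat_lit 271) (nat_lit 208)) (XT.nd (nat_lit 78) (nat_lit 532) (nat_lit 0) (XT.lf (nat_lit 0) (nat_lit 5359450181) (nat_lit 532) (nat_lit 4122103397) (nat_lit 76) (nat_lit 596543454) (nat_lit 121) (nat_lit 5) (nat_lit 128) (nat_lit 5) (nat_lit 122) (nat_lit 5) (nat_lit 302) (nat_lit 271) (nat_lit 207)) (XT.lf (nat_lit 0) (nat_lit 844559270) (nat_lit 532) (nat_lit 6359827265) (nat_lit 608) (nat_lit 3035917102) (nat_lit 114) (nat_lit 5) (nat_lit 121) (nat_lit 5) (nat_lit 122) (nat_lit 5) (nat_lit 303) (nat_lit 271) (nat_lit 206)))))) (XT.nd (nat_lit 468) (nat_lit 836) (nat_lit 0) (XT.nd (nat_lit 234) (nat_lit 836) (nat_lit 0) (XT.nd (nat_lit 78) (nat_lit 532) (nat_lit 0) (XT.lf (nat_lit 0) (nat_lit 6011788357) (nat_lit 532)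 (nat_lit 3103605435) (nat_lit 608) (nat_lit 1291724045) (nat_lit 114) (nat_lit 5) (nat_lit 121) (nat_lit 5) (nat_lit 122) (nat_lit 5) (nat_lit 304) (nat_lit 271) (nat_lit 205)) (XT.nd (nat_lit 78) (nat_lit 0) (nat_lit 0) (XT.lf (nat_lit 0) (nat_lit 474122304) (nat_lit 532) (nat_lit 9850161693) (nat_lit 76) (nat_lit 255191023) (nat_lit 107) (nat_lit 5) (nat_lit 114) (nat_lit 5) (nat_lit 108) (nat_lit 5) (nat_lit 305) (nat_lit 271) (nat_lit 204)) (XT.lf (nat_lit 0) (nat_lit 2312723982) (nat_lit 532) (nat_lit 4735077600) (nat_lit 76) (nat_lit 3707503118) (nat_lit 107) (nat_lit 5) (nat_lit 114) (nat_lit 5) (nat_lit 108) (nat_lit 5) (nat_lit 306) (nat_lit 271) (nat_lit 203)))) (XT.nd (nat_lit 78) (nat_lit 380) (nat_lit 0) (XT.lf (nat_lit 0) (nat_lit 511157804) (nat_lit 456) (nat_lit 3671297610) (nat_lit 532) (nat_lit 6754730752) (nat_lit 101) (nat_lit 5) (nat_lit 107) (nat_lit 5) (nat_lit 108) (nat_lit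 5) (nat_lit 307) (nat_lit 271) (nat_lit 202)) (XT.nd (nat_lit 78) (nat_lit 380) (nat_lit 0) (XT.lf (nat_lit 0) (nat_lit 5979885408) (nat_lit 456) (nat_lit 147802280) (nat_lit 532) (nat_lit 4996308540) (nat_lit 101) (nat_lit 5) (nat_lit 107) (nat_lit 5) (nat_lit 108) (nat_lit 5) (nat_lit 308) (nat_lit 271) (nat_lit 201)) (XT.lf (nat_lit 0) (nat_lit 235519259) (nat_lit 380) (nat_lit 7903875051) (nat_lit 456) (nat_lit 3176825591) (nat_lit 96) (nat_lit 5) (nat_lit 101) (nat_lit 5) (nat_lit 102) (nat_lit 5) (nat_lit 309) (nat_lit 271) (nat_lit 200))))) (XT.nd (nat_lit 234) (nat_lit 380) (nat_lit 0) (XT.nd (nat_lit 78) (nat_lit 456) (nat_lit 0) (XT.lf (nat_lit 0) (nat_lit 5848931969) (nat_lit 380) (nat_lit 4388803562) (nat_lit 456) (nat_lit 1275737544) (nat_lit 96) (nat_lit 5) (nat_lit 101) (nat_lit 5) (nat_lit 102) (nat_lit 5) (nat_lit 310) (nat_lit 271) (nat_lit 199)) (XT.nd (nat_lit 78) (nat_lit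 380) (nat_lit 0) (XT.lf (nat_lit 0) (nat_lit 642436525) (nat_lit 456) (nat_lit 123678300) (nat_lit 76) (nat_lit 10951179509) (nat_lit 95) (nat_lit 5) (nat_lit 101) (nat_lit 5) (nat_lit 96) (nat_lit 5) (nat_lit 311) (nat_lit 271) (nat_lit 198)) (XT.lf (nat_lit 0) (nat_lit 2650101704) (nat_lit 456) (nat_lit 6304435382) (nat_lit 76) (nat_lit 2970633544) (nat_lit 90) (nat_lit 5) (nat_lit 96) (nat_lit 5) (nat_lit 91) (nat_lit 5) (nat_lit 312) (nat_lit 271) (nat_lit 197)))) (XT.nd (nat_lit 78) (nat_lit 380) (nat_lit 0) (XT.lf (nat_lit 0) (nat_lit 4701408279) (nat_lit 456) (nat_lit 637605228) (nat_lit 76) (nat_lit 6800812940) (nat_lit 90) (nat_lit 5) (nat_lit 96) (nat_lit 5) (nat_lit 91) (nat_lit 5) (nat_lit 313) (nat_lit 271) (nat_lit 196)) (XT.nd (nat_lit 78) (nat_lit 0) (nat_lit 0) (XT.lf (nat_lit 0) (nat_lit 5272228141) (nat_lit 380) (nat_lit 1568011492) (nat_lit 456) (nat_lit 5519946983) (nat_lit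 85) (nat_lit 5) (nat_lit 90) (nat_lit 5) (nat_lit 91) (nat_lit 5) (nat_lit 314) (nat_lit 271) (nat_lit 195)) (XT.lf (nat_lit 0) (nat_lit 9047691503) (nat_lit 456) (nat_lit 1267173759) (nat_lit 76) (nat_lit 2272201618) (nat_lit 85) (nat_lit 5) (nat_lit 91) (nat_lit 5) (nat_lit 86) (nat_lit 5) (nat_lit 315) (nat_lit 271) (nat_lit 194))))))) (XT.nd (nat_lit 936) (nat_lit 1368) (nat_lit 0) (XT.nd (nat_lit 468) (nat_lit 912) (nat_lit 0) (XT.nd (nat_lit 234) (nat_lit 304) (nat_lit 0) (XT.nd (nat_lit 78) (nat_lit 380) (nat_lit 0) (XT.lf (nat_lit 0) (nat_lit 4776490533) (nat_lit 380) (nat_lit 6582713184) (nat_lit 456) (nat_lit 1460456437) (nat_lit 80) (nat_lit 5) (nat_lit 85) (nat_lit 5) (nat_lit 86) (nat_lit 5) (nat_lit 316) (nat_lit 271) (nat_lit 193)) (XT.nd (nat_lit 78) (nat_lit 304) (nat_lit 0) (XT.lf (nat_lit 0) (nat_lit 657002676) (nat_lit 456) (nat_lit 2067721472) (nat_lit 76) (nat_lit 10334666311)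 (nat_lit 79) (nat_lit 5) (nat_lit 85) (nat_lit 5) (nat_lit 80) (nat_lit 5) (nat_lit 317) (nat_lit 271) (nat_lit 192)) (XT.lf (nat_lit 0) (nat_lit 2837979487) (nat_lit 380) (nat_lit 9193666696) (nat_lit 76) (nat_lit 1273390429) (nat_lit 75) (nat_lit 5) (nat_lit 80) (nat_lit 5) (nat_lit 76) (nat_lit 5) (nat_lit 318) (nat_lit 271) (nat_lit 191)))) (XT.nd (nat_lit 78) (nat_lit 304) (nat_lit 0) (XT.lf (nat_lit 0) (nat_lit 5109999449) (nat_lit 380) (nat_lit 3095537638) (nat_lit 76) (nat_lit 5351783702) (nat_lit 75) (nat_lit 5) (nat_lit 80) (nat_lit 5) (nat_lit 76) (nat_lit 5) (nat_lit 319) (nat_lit 271) (nat_lit 190)) (XT.nd (nat_lit 78) (nat_lit 0) (nat_lit 0) (XT.lf (nat_lit 0) (nat_lit 3220071456) (nat_lit 304) (nat_lit 4239265458) (nat_lit 380) (nat_lit 6357597846) (nat_lit 71) (nat_lit 5) (nat_lit 75) (nat_lit 5) (nat_lit 76) (nat_lit 5) (nat_lit 320) (nat_lit 271) (nat_lit 189)) (XT.lf (nat_lit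 0) (nat_lit 9760582726) (nat_lit 304) (nat_lit 128399733) (nat_lit 380) (nat_lit 4195094781) (nat_lit 71) (nat_lit 5) (nat_lit 75) (nat_lit 5) (nat_lit 76) (nat_lit 5) (nat_lit 321) (nat_lit 271) (nat_lit 188))))) (XT.nd (nat_lit 234) (nat_lit 228) (nat_lit 0) (XT.nd (nat_lit 78) (nat_lit 380) (nat_lit 0) (XT.lf (nat_lit 0) (nat_lit 2112019027) (nat_lit 304) (nat_lit 10318399532) (nat_lit 380) (nat_lit 1927682311) (nat_lit 67) (nat_lit 5) (nat_lit 71) (nat_lit 5) (nat_lit 72) (nat_lit 5) (nat_lit 322) (nat_lit 271) (nat_lit 187)) (XT.nd (nat_lit 78) (nat_lit 304) (nat_lit 0) (XT.lf (nat_lit 0) (nat_lit 424397650) (nat_lit 380) (nat_lit 5843407782) (nat_lit 76) (nat_lit 8371716098) (nat_lit 66) (nat_lit 5) (nat_lit 71) (nat_lit 5) (nat_lit 67) (nat_lit 5) (nat_lit 323) (nat_lit 271) (nat_lit 186)) (XT.lf (nat_lit 0) (nat_lit 719133621) (nat_lit 304) (nat_lit 2075918781) (nat_lit 380) (nat_lit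 12134188156) (nat_lit 62) (nat_lit 5) (nat_lit 66) (nat_lit 5) (nat_lit 67) (nat_lit 5) (nat_lit 324) (nat_lit 271) (nat_lit 185)))) (XT.nd (nat_lit 78) (nat_lit 228) (nat_lit 0) (XT.lf (nat_lit 0) (nat_lit 5298071579) (nat_lit 380) (nat_lit 7677129157) (nat_lit 76) (nat_lit 2250643205) (nat_lit 62) (nat_lit 5) (nat_lit 67) (nat_lit 5) (nat_lit 63) (nat_lit 5) (nat_lit 325) (nat_lit 271) (nat_lit 184)) (XT.nd (nat_lit 78) (nat_lit 228) (nat_lit 0) (XT.lf (nat_lit 0) (nat_lit 7877419223) (nat_lit 380) (nat_lit 995366717) (nat_lit 76) (nat_lit 6658551601) (nat_lit 62) (nat_lit 5) (nat_lit 67) (nat_lit 5) (nat_lit 63) (nat_lit 5) (nat_lit 326) (nat_lit 271) (nat_lit 183)) (XT.lf (nat_lit 0) (nat_lit 5977618687) (nat_lit 228) (nat_lit 4595235971) (nat_lit 304) (nat_lit 5272008469) (nat_lit 59) (nat_lit 5) (nat_lit 62) (nat_lit 5) (nat_lit 63) (nat_lit 5) (nat_lit 327) (nat_lit 271) (nat_lit 182))))))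 (XT.nd (nat_lit 468) (nat_lit 760) (nat_lit 0) (XT.nd (nat_lit 234) (nat_lit 228) (nat_lit 0) (XT.nd (nat_lit 78) (nat_lit 380) (nat_lit 0) (XT.lf (nat_lit 0) (nat_lit 13154576590) (nat_lit 228) (nat_lit 186174577) (nat_lit 304) (nat_lit 2827322947) (nat_lit 59) (nat_lit 5) (nat_lit 62) (nat_lit 5) (nat_lit 63) (nat_lit 5) (nat_lit 328) (nat_lit 271) (nat_lit 181)) (XT.nd (nat_lit 78) (nat_lit 76) (nat_lit 0) (XT.lf (nat_lit 0) (nat_lit 4057807585) (nat_lit 304) (nat_lit 12196764900) (nat_lit 380) (nat_lit 244549077) (nat_lit 55) (nat_lit 5) (nat_lit 59) (nat_lit 5) (nat_lit 60) (nat_lit 5) (nat_lit 329) (nat_lit 271) (nat_lit 180)) (XT.lf (nat_lit 0) (nat_lit 2383242731) (nat_lit 380) (nat_lit 5487032756) (nat_lit 76) (nat_lit 8968713326) (nat_lit 54) (nat_lit 5) (nat_lit 59) (nat_lit 5) (nat_lit 55) (nat_lit 5) (nat_lit 330) (nat_lit 271) (nat_lit 179)))) (XT.nd (nat_lit 78) (nat_lit 0) (nat_lit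 0) (XT.lf (nat_lit 0) (nat_lit 1681505761) (nat_lit 228) (nat_lit 3402231259) (nat_lit 304) (nat_lit 12105303401) (nat_lit 51) (nat_lit 5) (nat_lit 54) (nat_lit 5) (nat_lit 55) (nat_lit 5) (nat_lit 331) (nat_lit 271) (nat_lit 178)) (XT.nd (nat_lit 78) (nat_lit 0) (nat_lit 0) (XT.lf (nat_lit 0) (nat_lit 7915556282) (nat_lit 304) (nat_lit 8407419598) (nat_lit 76) (nat_lit 1225132180) (nat_lit 51) (nat_lit 5) (nat_lit 55) (nat_lit 5) (nat_lit 52) (nat_lit 5) (nat_lit 332) (nat_lit 271) (nat_lit 177)) (XT.lf (nat_lit 0) (nat_lit 10849335520) (nat_lit 304) (nat_lit 1152243979) (nat_lit 76) (nat_lit 5915881157) (nat_lit 51) (nat_lit 5) (nat_lit 55) (nat_lit 5) (nat_lit 52) (nat_lit 5) (nat_lit 333) (nat_lit 271) (nat_lit 176))))) (XT.nd (nat_lit 234) (nat_lit 228) (nat_lit 0) (XT.nd (nat_lit 78) (nat_lit 304) (nat_lit 0) (XT.lf (nat_lit 0) (nat_lit 6422359359) (nat_lit 228) (nat_lit 7494310191) (nat_lit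 304) (nat_lit 4379880456) (nat_lit 48) (nat_lit 5) (nat_lit 51) (nat_lit 5) (nat_lit 52) (nat_lit 5) (nat_lit 334) (nat_lit 271) (nat_lit 175)) (XT.nd (nat_lit 78) (nat_lit 304) (nat_lit 0) (XT.lf (nat_lit 0) (nat_lit 14224500650) (nat_lit 228) (nat_lit 2847211636) (nat_lit 304) (nat_lit 1615450857) (nat_lit 48) (nat_lit 5) (nat_lit 51) (nat_lit 5) (nat_lit 52) (nat_lit 5) (nat_lit 335) (nat_lit 271) (nat_lit 174)) (XT.lf (nat_lit 0) (nat_lit 1241958417) (nat_lit 304) (nat_lit 15908883091) (nat_lit 76) (nat_lit 1937295851) (nat_lit 44) (nat_lit 5) (nat_lit 48) (nat_lit 5) (nat_lit 45) (nat_lit 5) (nat_lit 336) (nat_lit 271) (nat_lit 173)))) (XT.nd (nat_lit 78) (nat_lit 228) (nat_lit 0) (XT.lf (nat_lit 0) (nat_lit 4210832174) (nat_lit 304) (nat_lit 8425670811) (nat_lit 76) (nat_lit 6862431563) (nat_lit 44) (nat_lit 5) (nat_lit 48) (nat_lit 5) (nat_lit 45) (nat_lit 5) (nat_lit 337) (nat_lit 271)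 (nat_lit 172)) (XT.nd (nat_lit 78) (nat_lit 228) (nat_lit 0) (XT.lf (nat_lit 0) (nat_lit 7253733922) (nat_lit 304) (nat_lit 740447325) (nat_lit 76) (nat_lit 11928344892) (nat_lit 44) (nat_lit 5) (nat_lit 48) (nat_lit 5) (nat_lit 45) (nat_lit 5) (nat_lit 338) (nat_lit 271) (nat_lit 171)) (XT.lf (nat_lit 0) (nat_lit 7295871339) (nat_lit 228) (nat_lit 3147583547) (nat_lit 304) (nat_lit 9913723402) (nat_lit 41) (nat_lit 5) (nat_lit 44) (nat_lit 5) (nat_lit 45) (nat_lit 5) (nat_lit 339) (nat_lit 271) (nat_lit 170))))))))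
noncomputable def xc142 : XT := (XT.nd (nat_lit 1794) (nat_lit 684) (nat_lit 0) (XT.nd (nat_lit 858) (nat_lit 684) (nat_lit 0) (XT.nd (nat_lit 390) (nat_lit 380) (nat_lit 0) (XT.nd (nat_lit 156) (nat_lit 304) (nat_lit 0) (XT.nd (nat_lit 78) (nat_lit 152) (nat_lit 0) (XT.lf (nat_lit 0) (nat_lit 13739695906) (nat_lit 304) (nat_lit 5255987741) (nat_lit 76) (nat_lit 1808879731) (nat_lit 41) (nat_lit 5) (nat_lit 45) (nat_lit 5) (nat_lit 42) (nat_lit 5) (nat_lit 340) (nat_lit 271) (nat_lit 169)) (XT.lf (nat_lit 0) (nat_lit 2785322792) (nat_lit 152) (nat_lit 14393408437) (nat_lit 228) (nat_lit 4085339277) (nat_lit 39) (nat_lit 5) (nat_lit 41) (nat_lit 5) (nat_lit 42) (nat_lit 5) (nat_lit 341) (nat_lit 271) (nat_lit 168))) (XT.nd (nat_lit 78) (nat_lit 304) (nat_lit 0) (XT.lf (nat_lit 0) (nat_lit 11154468868) (nat_lit 152) (nat_lit 9605717975) (nat_lit 228) (nat_lit 976015709) (nat_lit 39) (nat_lit 5)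 (nat_lit 41) (nat_lit 5) (nat_lit 42) (nat_lit 5) (nat_lit 342) (nat_lit 271) (nat_lit 167)) (XT.nd (nat_lit 78) (nat_lit 228) (nat_lit 0) (XT.lf (nat_lit 0) (nat_lit 2169566321) (nat_lit 228) (nat_lit 2490029326) (nat_lit 76) (nat_lit 17562684185) (nat_lit 38) (nat_lit 5) (nat_lit 41) (nat_lit 5) (nat_lit 39) (nat_lit 5) (nat_lit 343) (nat_lit 271) (nat_lit 166)) (XT.lf (nat_lit 0) (nat_lit 5438500196) (nat_lit 304) (nat_lit 16795850333) (nat_lit 76) (nat_lit 486856679) (nat_lit 35) (nat_lit 5) (nat_lit 39) (nat_lit 5) (nat_lit 36) (nat_lit 5) (nat_lit 344) (nat_lit 271) (nat_lit 165))))) (XT.nd (nat_lit 234) (nat_lit 228) (nat_lit 0) (XT.nd (nat_lit 78) (nat_lit 152) (nat_lit 0) (XT.lf (nat_lit 0) (nat_lit 8863976768) (nat_lit 304) (nat_lit 8656833425) (nat_lit 76) (nat_lit 5712553239) (nat_lit 35) (nat_lit 5) (nat_lit 39) (nat_lit 5) (nat_lit 36) (nat_lit 5) (nat_lit 345) (nat_lit 271) (nat_lit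 164)) (XT.nd (nat_lit 78) (nat_lit 152) (nat_lit 0) (XT.lf (nat_lit 0) (nat_lit 12379544532) (nat_lit 304) (nat_lit 293402913) (nat_lit 76) (nat_lit 11088331912) (nat_lit 35) (nat_lit 5) (nat_lit 39) (nat_lit 5) (nat_lit 36) (nat_lit 5) (nat_lit 346) (nat_lit 271) (nat_lit 163)) (XT.lf (nat_lit 0) (nat_lit 8466970139) (nat_lit 152) (nat_lit 7602694901) (nat_lit 228) (nat_lit 8233309538) (nat_lit 33) (nat_lit 5) (nat_lit 35) (nat_lit 5) (nat_lit 36) (nat_lit 5) (nat_lit 347) (nat_lit 271) (nat_lit 162)))) (XT.nd (nat_lit 78) (nat_lit 228) (nat_lit 0) (XT.lf (nat_lit 0) (nat_lit 17477175449) (nat_lit 152) (nat_lit 2384148315) (nat_lit 228) (nat_lit 4999885825) (nat_lit 33) (nat_lit 5) (nat_lit 35) (nat_lit 5) (nat_lit 36) (nat_lit 5) (nat_lit 348) (nat_lit 271) (nat_lit 161)) (XT.nd (nat_lit 78) (nat_lit 76) (nat_lit 0) (XT.lf (nat_lit 0) (nat_lit 1299356567) (nat_lit 152) (nat_lit 22496777763)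 (nat_lit 228) (nat_lit 1639188820) (nat_lit 31) (nat_lit 5) (nat_lit 33) (nat_lit 5) (nat_lit 34) (nat_lit 5) (nat_lit 349) (nat_lit 271) (nat_lit 160)) (XT.lf (nat_lit 0) (nat_lit 1873875770) (nat_lit 228) (nat_lit 15690476603) (nat_lit 76) (nat_lit 8459181805) (nat_lit 30) (nat_lit 5) (nat_lit 33) (nat_lit 5) (nat_lit 31) (nat_lit 5) (nat_lit 350) (nat_lit 271) (nat_lit 159)))))) (XT.nd (nat_lit 468) (nat_lit 380) (nat_lit 0) (XT.nd (nat_lit 234) (nat_lit 152) (nat_lit 0) (XT.nd (nat_lit 78) (nat_lit 152) (nat_lit 0) (XT.lf (nat_lit 0) (nat_lit 5447928873) (nat_lit 228) (nat_lit 7026110580) (nat_lit 76) (nat_lit 14155221329) (nat_lit 30) (nat_lit 5) (nat_lit 33) (nat_lit 5) (nat_lit 31) (nat_lit 5) (nat_lit 351) (nat_lit 271) (nat_lit 158)) (XT.nd (nat_lit 78) (nat_lit 0) (nat_lit 0) (XT.lf (nat_lit 0) (nat_lit 1917884000) (nat_lit 152) (nat_lit 7218631800) (nat_lit 228) (nat_lit 18116436070)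 (nat_lit 28) (nat_lit 5) (nat_lit 30) (nat_lit 5) (nat_lit 31) (nat_lit 5) (nat_lit 352) (nat_lit 271) (nat_lit 157)) (XT.lf (nat_lit 0) (nat_lit 11256673346) (nat_lit 152) (nat_lit 1739068540) (nat_lit 228) (nat_lit 14897824057) (nat_lit 28) (nat_lit 5) (nat_lit 30) (nat_lit 5) (nat_lit 31) (nat_lit 5) (nat_lit 353) (nat_lit 271) (nat_lit 156)))) (XT.nd (nat_lit 78) (nat_lit 152) (nat_lit 0) (XT.lf (nat_lit 0) (nat_lit 16997570488) (nat_lit 228) (nat_lit 7732619734) (nat_lit 76) (nat_lit 3822414804) (nat_lit 28) (nat_lit 5) (nat_lit 31) (nat_lit 5) (nat_lit 29) (nat_lit 5) (nat_lit 354) (nat_lit 271) (nat_lit 155)) (XT.nd (nat_lit 78) (nat_lit 0) (nat_lit 0) (XT.lf (nat_lit 0) (nat_lit 1432712866) (nat_lit 152) (nat_lit 19707333270) (nat_lit 228) (nat_lit 8090762408) (nat_lit 26) (nat_lit 5) (nat_lit 28) (nat_lit 5) (nat_lit 29) (nat_lit 5) (nat_lit 355) (nat_lit 271) (nat_lit 154)) (XT.lf (nat_lit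 0) (nat_lit 11014874011) (nat_lit 152) (nat_lit 14459750805) (nat_lit 228) (nat_lit 4452709197) (nat_lit 26) (nat_lit 5) (nat_lit 28) (nat_lit 5) (nat_lit 29) (nat_lit 5) (nat_lit 356) (nat_lit 271) (nat_lit 153))))) (XT.nd (nat_lit 234) (nat_lit 152) (nat_lit 0) (XT.nd (nat_lit 78) (nat_lit 228) (nat_lit 0) (XT.lf (nat_lit 0) (nat_lit 20868342165) (nat_lit 152) (nat_lit 9060941858) (nat_lit 228) (nat_lit 715780322) (nat_lit 26) (nat_lit 5) (nat_lit 28) (nat_lit 5) (nat_lit 29) (nat_lit 5) (nat_lit 357) (nat_lit 271) (nat_lit 152)) (XT.nd (nat_lit 78) (nat_lit 152) (nat_lit 0) (XT.lf (nat_lit 0) (nat_lit 3062342867) (nat_lit 228) (nat_lit 412922499) (nat_lit 76) (nat_lit 27908460631) (nat_lit 25) (nat_lit 5) (nat_lit 28) (nat_lit 5) (nat_lit 26) (nat_lit 5) (nat_lit 358) (nat_lit 271) (nat_lit 151)) (XT.lf (nat_lit 0) (nat_lit 7043026835) (nat_lit 228) (nat_lit 22772166527) (nat_lit 76) (nat_lit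 2326042933) (nat_lit 23) (nat_lit 5) (nat_lit 26) (nat_lit 5) (nat_lit 24) (nat_lit 5) (nat_lit 359) (nat_lit 271) (nat_lit 150)))) (XT.nd (nat_lit 78) (nat_lit 152) (nat_lit 0) (XT.lf (nat_lit 0) (nat_lit 11172335674) (nat_lit 228) (nat_lit 13518320818) (nat_lit 76) (nat_lit 8229948519) (nat_lit 23) (nat_lit 5) (nat_lit 26) (nat_lit 5) (nat_lit 24) (nat_lit 5) (nat_lit 360) (nat_lit 271) (nat_lit 149)) (XT.nd (nat_lit 78) (nat_lit 152) (nat_lit 0) (XT.lf (nat_lit 0) (nat_lit 15416382798) (nat_lit 228) (nat_lit 4001918441) (nat_lit 76) (nat_lit 14305336745) (nat_lit 23) (nat_lit 5) (nat_lit 26) (nat_lit 5) (nat_lit 24) (nat_lit 5) (nat_lit 361) (nat_lit 271) (nat_lit 148)) (XT.lf (nat_lit 0) (nat_lit 5900495832) (nat_lit 152) (nat_lit 13935099941) (nat_lit 228) (nat_lit 14713739545) (nat_lit 21) (nat_lit 5) (nat_lit 23) (nat_lit 5) (nat_lit 24) (nat_lit 5) (nat_lit 362) (nat_lit 271) (nat_lit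 147))))))) (XT.nd (nat_lit 936) (nat_lit 304) (nat_lit 0) (XT.nd (nat_lit 468) (nat_lit 228) (nat_lit 0) (XT.nd (nat_lit 234) (nat_lit 76) (nat_lit 0) (XT.nd (nat_lit 78) (nat_lit 76) (nat_lit 0) (XT.lf (nat_lit 0) (nat_lit 16167541173) (nat_lit 152) (nat_lit 8251500085) (nat_lit 228) (nat_lit 10979821084) (nat_lit 21) (nat_lit 5) (nat_lit 23) (nat_lit 5) (nat_lit 24) (nat_lit 5) (nat_lit 363) (nat_lit 271) (nat_lit 146)) (XT.nd (nat_lit 78) (nat_lit 76) (nat_lit 0) (XT.lf (nat_lit 0) (nat_lit 26728542761) (nat_lit 152) (nat_lit 2402946949) (nat_lit 228) (nat_lit 7142648685) (nat_lit 21) (nat_lit 5) (nat_lit 23) (nat_lit 5) (nat_lit 24) (nat_lit 5) (nat_lit 364) (nat_lit 271) (nat_lit 145)) (XT.lf (nat_lit 0) (nat_lit 389647775) (nat_lit 76) (nat_lit 33625912590) (nat_lit 152) (nat_lit 3159212869) (nat_lit 20) (nat_lit 5) (nat_lit 21) (nat_lit 5) (nat_lit 22) (nat_lit 4) (nat_lit 365) (nat_lit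 271) (nat_lit 144)))) (XT.nd (nat_lit 78) (nat_lit 0) (nat_lit 0) (XT.lf (nat_lit 0) (nat_lit 1038164941) (nat_lit 152) (nat_lit 27328615162) (nat_lit 76) (nat_lit 9731996741) (nat_lit 19) (nat_lit 5) (nat_lit 21) (nat_lit 5) (nat_lit 20) (nat_lit 5) (nat_lit 366) (nat_lit 271) (nat_lit 143)) (XT.nd (nat_lit 78) (nat_lit 0) (nat_lit 0) (XT.lf (nat_lit 0) (nat_lit 5289924984) (nat_lit 152) (nat_lit 17633170482) (nat_lit 76) (nat_lit 16126715271) (nat_lit 19) (nat_lit 5) (nat_lit 21) (nat_lit 5) (nat_lit 20) (nat_lit 5) (nat_lit 367) (nat_lit 271) (nat_lit 142)) (XT.lf (nat_lit 0) (nat_lit 9661430010) (nat_lit 152) (nat_lit 7659951384) (nat_lit 76) (nat_lit 22708235566) (nat_lit 19) (nat_lit 5) (nat_lit 21) (nat_lit 5) (nat_lit 20) (nat_lit 5) (nat_lit 368) (nat_lit 271) (nat_lit 141))))) (XT.nd (nat_lit 234) (nat_lit 76) (nat_lit 0) (XT.nd (nat_lit 78) (nat_lit 0) (nat_lit 0) (XT.lf (nat_lit 0)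 (nat_lit 2651496849) (nat_lit 152) (nat_lit 11530490743) (nat_lit 228) (nat_lit 26856299428) (nat_lit 17) (nat_lit 5) (nat_lit 19) (nat_lit 5) (nat_lit 20) (nat_lit 5) (nat_lit 369) (nat_lit 271) (nat_lit 140)) (XT.nd (nat_lit 78) (nat_lit 0) (nat_lit 0) (XT.lf (nat_lit 0) (nat_lit 13416726917) (nat_lit 152) (nat_lit 5491304901) (nat_lit 228) (nat_lit 23167095939) (nat_lit 17) (nat_lit 5) (nat_lit 19) (nat_lit 5) (nat_lit 20) (nat_lit 5) (nat_lit 370) (nat_lit 271) (nat_lit 139)) (XT.lf (nat_lit 0) (nat_lit 23775555196) (nat_lit 228) (nat_lit 18657561313) (nat_lit 76) (nat_lit 709972750) (nat_lit 17) (nat_lit 5) (nat_lit 20) (nat_lit 5) (nat_lit 18) (nat_lit 4) (nat_lit 371) (nat_lit 271) (nat_lit 138)))) (XT.nd (nat_lit 78) (nat_lit 76) (nat_lit 0) (XT.lf (nat_lit 0) (nat_lit 28836376240) (nat_lit 228) (nat_lit 8423098331) (nat_lit 76) (nat_lit 6982203167) (nat_lit 17) (nat_lit 5) (nat_lit 20)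 (nat_lit 5) (nat_lit 18) (nat_lit 4) (nat_lit 372) (nat_lit 271) (nat_lit 137)) (XT.nd (nat_lit 78) (nat_lit 0) (nat_lit 0) (XT.lf (nat_lit 0) (nat_lit 2148644413) (nat_lit 76) (nat_lit 31914140915) (nat_lit 152) (nat_lit 11310031746) (nat_lit 16) (nat_lit 5) (nat_lit 17) (nat_lit 5) (nat_lit 18) (nat_lit 4) (nat_lit 373) (nat_lit 271) (nat_lit 136)) (XT.lf (nat_lit 0) (nat_lit 13198637308) (nat_lit 76) (nat_lit 26325604994) (nat_lit 152) (nat_lit 7011306548) (nat_lit 16) (nat_lit 5) (nat_lit 17) (nat_lit 5) (nat_lit 18) (nat_lit 4) (nat_lit 374) (nat_lit 271) (nat_lit 135)))))) (XT.nd (nat_lit 468) (nat_lit 76) (nat_lit 0) (XT.nd (nat_lit 234) (nat_lit 152) (nat_lit 0) (XT.nd (nat_lit 78) (nat_lit 76) (nat_lit 0) (XT.lf (nat_lit 0) (nat_lit 24568899516) (nat_lit 76) (nat_lit 20574040399) (nat_lit 152) (nat_lit 2590426514) (nat_lit 16) (nat_lit 5) (nat_lit 17) (nat_lit 5) (nat_lit 18) (nat_lit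 4) (nat_lit 375) (nat_lit 271) (nat_lit 134)) (XT.nd (nat_lit 78) (nat_lit 0) (nat_lit 0) (XT.lf (nat_lit 0) (nat_lit 1918293459) (nat_lit 152) (nat_lit 12716757027) (nat_lit 76) (nat_lit 34331701753) (nat_lit 15) (nat_lit 5) (nat_lit 17) (nat_lit 5) (nat_lit 16) (nat_lit 5) (nat_lit 376) (nat_lit 271) (nat_lit 133)) (XT.lf (nat_lit 0) (nat_lit 6503919051) (nat_lit 152) (nat_lit 1991979902) (nat_lit 76) (nat_lit 41740665235) (nat_lit 15) (nat_lit 5) (nat_lit 17) (nat_lit 5) (nat_lit 16) (nat_lit 5) (nat_lit 377) (nat_lit 271) (nat_lit 132)))) (XT.nd (nat_lit 78) (nat_lit 0) (nat_lit 0) (XT.lf (nat_lit 0) (nat_lit 9224132437) (nat_lit 152) (nat_lit 2085541237) (nat_lit 228) (nat_lit 40232325127) (nat_lit 13) (nat_lit 5) (nat_lit 15) (nat_lit 5) (nat_lit 16) (nat_lit 5) (nat_lit 378) (nat_lit 271) (nat_lit 131)) (XT.nd (nat_lit 78) (nat_lit 0) (nat_lit 0) (XT.lf (nat_lit 0) (nat_lit 16317266626)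 (nat_lit 228) (nat_lit 32122498665) (nat_lit 76) (nat_lit 4445106157) (nat_lit 13) (nat_lit 5) (nat_lit 16) (nat_lit 5) (nat_lit 14) (nat_lit 4) (nat_lit 379) (nat_lit 271) (nat_lit 130)) (XT.lf (nat_lit 0) (nat_lit 21489843130) (nat_lit 228) (nat_lit 21652061477) (nat_lit 76) (nat_lit 11125687813) (nat_lit 13) (nat_lit 5) (nat_lit 16) (nat_lit 5) (nat_lit 14) (nat_lit 4) (nat_lit 380) (nat_lit 271) (nat_lit 129))))) (XT.nd (nat_lit 234) (nat_lit 0) (nat_lit 0) (XT.nd (nat_lit 78) (nat_lit 76) (nat_lit 0) (XT.lf (nat_lit 0) (nat_lit 26811875418) (nat_lit 228) (nat_lit 10877358377) (nat_lit 76) (nat_lit 18002737553) (nat_lit 13) (nat_lit 5) (nat_lit 16) (nat_lit 5) (nat_lit 14) (nat_lit 4) (nat_lit 381) (nat_lit 271) (nat_lit 128)) (XT.nd (nat_lit 78) (nat_lit 0) (nat_lit 0) (XT.lf (nat_lit 0) (nat_lit 215225243) (nat_lit 76) (nat_lit 32074857440) (nat_lit 152) (nat_lit 24869108083) (nat_lit 12)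 (nat_lit 5) (nat_lit 13) (nat_lit 5) (nat_lit 14) (nat_lit 4) (nat_lit 382) (nat_lit 271) (nat_lit 127)) (XT.lf (nat_lit 0) (nat_lit 11854094893) (nat_lit 76) (nat_lit 26182897193) (nat_lit 152) (nat_lit 20630308416) (nat_lit 12) (nat_lit 5) (nat_lit 13) (nat_lit 5) (nat_lit 14) (nat_lit 4) (nat_lit 383) (nat_lit 271) (nat_lit 126)))) (XT.nd (nat_lit 78) (nat_lit 0) (nat_lit 0) (XT.lf (nat_lit 0) (nat_lit 23832939698) (nat_lit 76) (nat_lit 20118044728) (nat_lit 152) (nat_lit 16269833115) (nat_lit 12) (nat_lit 5) (nat_lit 13) (nat_lit 5) (nat_lit 14) (nat_lit 4) (nat_lit 384) (nat_lit 271) (nat_lit 125)) (XT.nd (nat_lit 78) (nat_lit 0) (nat_lit 0) (XT.lf (nat_lit 0) (nat_lit 36162226610) (nat_lit 76) (nat_lit 13875000662) (nat_lit 152) (nat_lit 11783872057) (nat_lit 12) (nat_lit 5) (nat_lit 13) (nat_lit 5) (nat_lit 14) (nat_lit 4) (nat_lit 385) (nat_lit 271) (nat_lit 124)) (XT.lf (nat_lit 0) (nat_lit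 48852728792) (nat_lit 76) (nat_lit 7448309907) (nat_lit 152) (nat_lit 7168505469) (nat_lit 12) (nat_lit 5) (nat_lit 13) (nat_lit 5) (nat_lit 14) (nat_lit 4) (nat_lit 386) (nat_lit 271) (nat_lit 123))))))))
noncomputable def xc143 : XT := (XT.nd (nat_lit 32760) (nat_lit 0) (nat_lit 6992) (XT.nd (nat_lit 31824) (nat_lit 0) (nat_lit 14744) (XT.nd (nat_lit 390) (nat_lit 76) (nat_lit 0) (XT.nd (nat_lit 156) (nat_lit 0) (nat_lit 0) (XT.nd (nat_lit 78) (nat_lit 152) (nat_lit 0) (XT.lf (nat_lit 0) (nat_lit 61915535033) (nat_lit 76) (nat_lit 832356907) (nat_lit 152) (nat_lit 2419700507) (nat_lit 12) (nat_lit 5) (nat_lit 13) (nat_lit 5) (nat_lit 14) (nat_lit 4) (nat_lit 387) (nat_lit 271) (nat_lit 122)) (XT.lf (nat_lit 0) (nat_lit 2559645700) (nat_lit 152) (nat_lit 58382835255) (nat_lit 76) (nat_lit 5969302978) (nat_lit 10) (nat_lit 5) (nat_lit 12) (nat_lit 5) (nat_lit 11) (nat_lit 4) (nat_lit 388) (nat_lit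 271) (nat_lit 121))) (XT.nd (nat_lit 78) (nat_lit 0) (nat_lit 0) (XT.lf (nat_lit 0) (nat_lit 7676390534) (nat_lit 152) (nat_lit 48018086529) (nat_lit 76) (nat_lit 13012009410) (nat_lit 10) (nat_lit 5) (nat_lit 12) (nat_lit 5) (nat_lit 11) (nat_lit 4) (nat_lit 389) (nat_lit 271) (nat_lit 120)) (XT.nd (nat_lit 78) (nat_lit 0) (nat_lit 0) (XT.lf (nat_lit 0) (nat_lit 12942022294) (nat_lit 152) (nat_lit 37350449478) (nat_lit 76) (nat_lit 20262700262) (nat_lit 10) (nat_lit 5) (nat_lit 12) (nat_lit 5) (nat_lit 11) (nat_lit 4) (nat_lit 390) (nat_lit 271) (nat_lit 119)) (XT.lf (nat_lit 0) (nat_lit 18361142020) (nat_lit 152) (nat_lit 26370602865) (nat_lit 76) (nat_lit 27727711087) (nat_lit 10) (nat_lit 5) (nat_lit 12) (nat_lit 5) (nat_lit 11) (nat_lit 4) (nat_lit 391) (nat_lit 271) (nat_lit 118))))) (XT.nd (nat_lit 234) (nat_lit 0) (nat_lit 0) (XT.nd (nat_lit 78) (nat_lit 76) (nat_lit 0) (XT.lf (nat_lit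 0) (nat_lit 23938484863) (nat_lit 152) (nat_lit 15068952651) (nat_lit 76) (nat_lit 35413564711) (nat_lit 10) (nat_lit 5) (nat_lit 12) (nat_lit 5) (nat_lit 11) (nat_lit 4) (nat_lit 392) (nat_lit 271) (nat_lit 117)) (XT.nd (nat_lit 78) (nat_lit 76) (nat_lit 0) (XT.lf (nat_lit 0) (nat_lit 29678924231) (nat_lit 152) (nat_lit 3435623606) (nat_lit 76) (nat_lit 43326976929) (nat_lit 10) (nat_lit 5) (nat_lit 12) (nat_lit 5) (nat_lit 11) (nat_lit 4) (nat_lit 393) (nat_lit 271) (nat_lit 116)) (XT.lf (nat_lit 0) (nat_lit 8709503089) (nat_lit 76) (nat_lit 26961694023) (nat_lit 152) (nat_lit 42849080355) (nat_lit 9) (nat_lit 5) (nat_lit 10) (nat_lit 5) (nat_lit 11) (nat_lit 4) (nat_lit 394) (nat_lit 271) (nat_lit 115)))) (XT.nd (nat_lit 31044) (nat_lit 0) (nat_lit 16188) (XT.lf (nat_lit 0) (nat_lit 21282324662) (nat_lit 76) (nat_lit 20591557167) (nat_lit 152) (nat_lit 38786594614) (nat_lit 9) (nat_lit 5)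 (nat_lit 10) (nat_lit 5) (nat_lit 11) (nat_lit 4) (nat_lit 395) (nat_lit 271) (nat_lit 114)) (XT.nd (nat_lit 78) (nat_lit 684) (nat_lit 0) (XT.lf (nat_lit 0) (nat_lit 3233587730) (nat_lit 684) (nat_lit 152927219) (nat_lit 684) (nat_lit 152927219) (nat_lit 231) (nat_lit 3) (nat_lit 240) (nat_lit 3) (nat_lit 240) (nat_lit 5) (nat_lit 272) (nat_lit 272) (nat_lit 236)) (XT.lf (nat_lit 0) (nat_lit 999299427) (nat_lit 684) (nat_lit 4317529660) (nat_lit 760) (nat_lit 1815759644) (nat_lit 222) (nat_lit 5) (nat_lit 231) (nat_lit 3) (nat_lit 232) (nat_lit 5) (nat_lit 273) (nat_lit 272) (nat_lit 235)))))) (XT.nd (nat_lit 468) (nat_lit 760) (nat_lit 0) (XT.nd (nat_lit 234) (nat_lit 684) (nat_lit 0) (XT.nd (nat_lit 78) (nat_lit 0) (nat_lit 0) (XT.lf (nat_lit 0) (nat_lit 2587462835) (nat_lit 684) (nat_lit 1191519206) (nat_lit 760) (nat_lit 3410679272) (nat_lit 222) (nat_lit 5) (nat_lit 231) (nat_lit 3) (nat_lit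 232) (nat_lit 5) (nat_lit 274) (nat_lit 272) (nat_lit 234)) (XT.nd (nat_lit 78) (nat_lit 0) (nat_lit 0) (XT.lf (nat_lit 76) (nat_lit 2035476272) (nat_lit 0) (nat_lit 2147167414) (nat_lit 760) (nat_lit 3067188530) (nat_lit 223) (nat_lit 5) (nat_lit 222) (nat_lit 5) (nat_lit 232) (nat_lit 5) (nat_lit 275) (nat_lit 272) (nat_lit 233)) (XT.lf (nat_lit 76) (nat_lit 5351510599) (nat_lit 0) (nat_lit 427451396) (nat_lit 760) (nat_lit 1534410235) (nat_lit 223) (nat_lit 5) (nat_lit 222) (nat_lit 5) (nat_lit 232) (nat_lit 5) (nat_lit 276) (nat_lit 272) (nat_lit 232)))) (XT.nd (nat_lit 78) (nat_lit 0) (nat_lit 0) (XT.lf (nat_lit 0) (nat_lit 12310187) (nat_lit 760) (nat_lit 6011397025) (nat_lit 836) (nat_lit 1356186838) (nat_lit 213) (nat_lit 5) (nat_lit 223) (nat_lit 5) (nat_lit 224) (nat_lit 5) (nat_lit 277) (nat_lit 272) (nat_lit 231)) (XT.nd (nat_lit 78) (nat_lit 0) (nat_lit 0) (XT.lf (nat_lit 0) (nat_lit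 1542677643) (nat_lit 760) (nat_lit 2662769000) (nat_lit 836) (nat_lit 3243615211) (nat_lit 213) (nat_lit 5) (nat_lit 223) (nat_lit 5) (nat_lit 224) (nat_lit 5) (nat_lit 278) (nat_lit 272) (nat_lit 230)) (XT.lf (nat_lit 76) (nat_lit 767989578) (nat_lit 0) (nat_lit 2303830728) (nat_lit 836) (nat_lit 4450042791) (nat_lit 214) (nat_lit 5) (nat_lit 213) (nat_lit 5) (nat_lit 224) (nat_lit 5) (nat_lit 279) (nat_lit 272) (nat_lit 229))))) (XT.nd (nat_lit 234) (nat_lit 0) (nat_lit 0) (XT.nd (nat_lit 78) (nat_lit 760) (nat_lit 0) (XT.lf (nat_lit 76) (nat_lit 4323267150) (nat_lit 0) (nat_lit 297211451) (nat_lit 836) (nat_lit 2977300664) (nat_lit 214) (nat_lit 5) (nat_lit 213) (nat_lit 5) (nat_lit 224) (nat_lit 5) (nat_lit 280) (nat_lit 272) (nat_lit 228)) (XT.nd (nat_lit 78) (nat_lit 836) (nat_lit 0) (XT.lf (nat_lit 76) (nat_lit 263457476) (nat_lit 0) (nat_lit 5920174797) (nat_lit 836) (nat_lit 1493435621)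 (nat_lit 215) (nat_lit 5) (nat_lit 214) (nat_lit 5) (nat_lit 225) (nat_lit 5) (nat_lit 281) (nat_lit 272) (nat_lit 227)) (XT.lf (nat_lit 0) (nat_lit 19641957) (nat_lit 836) (nat_lit 3821371878) (nat_lit 912) (nat_lit 3918278152) (nat_lit 203) (nat_lit 5) (nat_lit 214) (nat_lit 5) (nat_lit 215) (nat_lit 5) (nat_lit 282) (nat_lit 272) (nat_lit 226)))) (XT.nd (nat_lit 78) (nat_lit 0) (nat_lit 76) (XT.lf (nat_lit 0) (nat_lit 1498621758) (nat_lit 836) (nat_lit 169854743) (nat_lit 912) (nat_lit 6176671415) (nat_lit 203) (nat_lit 5) (nat_lit 214) (nat_lit 5) (nat_lit 215) (nat_lit 5) (nat_lit 283) (nat_lit 272) (nat_lit 225)) (XT.nd (nat_lit 78) (nat_lit 0) (nat_lit 0) (XT.lf (nat_lit 0) (nat_lit 3014789995) (nat_lit 836) (nat_lit 4310750892) (nat_lit 912) (nat_lit 608374939) (nat_lit 204) (nat_lit 5) (nat_lit 215) (nat_lit 5) (nat_lit 216) (nat_lit 5) (nat_lit 284) (nat_lit 272) (nat_lit 224)) (XT.lf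 (nat_lit 0) (nat_lit 4547889859) (nat_lit 836) (nat_lit 542440001) (nat_lit 912) (nat_lit 2935990870) (nat_lit 204) (nat_lit 5) (nat_lit 215) (nat_lit 5) (nat_lit 216) (nat_lit 5) (nat_lit 285) (nat_lit 272) (nat_lit 223))))))) (XT.nd (nat_lit 936) (nat_lit 3116) (nat_lit 0) (XT.nd (nat_lit 468) (nat_lit 2964) (nat_lit 0) (XT.nd (nat_lit 234) (nat_lit 912) (nat_lit 0) (XT.nd (nat_lit 78) (nat_lit 836) (nat_lit 0) (XT.lf (nat_lit 76) (nat_lit 3371640058) (nat_lit 0) (nat_lit 2742311014) (nat_lit 912) (nat_lit 2008051596) (nat_lit 205) (nat_lit 5) (nat_lit 204) (nat_lit 5) (nat_lit 216) (nat_lit 5) (nat_lit 286) (nat_lit 272) (nat_lit 222)) (XT.nd (nat_lit 78) (nat_lit 836) (nat_lit 0) (XT.lf (nat_lit 76) (nat_lit 7381513252) (nat_lit 0) (nat_lit 306525286) (nat_lit 912) (nat_lit 533795811) (nat_lit 205) (nat_lit 5) (nat_lit 204) (nat_lit 5) (nat_lit 216) (nat_lit 5) (nat_lit 287) (nat_lit 272)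 (nat_lit 221)) (XT.lf (nat_lit 0) (nat_lit 974306650) (nat_lit 912) (nat_lit 5139165094) (nat_lit 76) (nat_lit 2210744528) (nat_lit 193) (nat_lit 5) (nat_lit 205) (nat_lit 5) (nat_lit 194) (nat_lit 5) (nat_lit 288) (nat_lit 272) (nat_lit 220)))) (XT.nd (nat_lit 78) (nat_lit 912) (nat_lit 0) (XT.lf (nat_lit 0) (nat_lit 2485915270) (nat_lit 912) (nat_lit 1123337031) (nat_lit 76) (nat_lit 4821290275) (nat_lit 193) (nat_lit 5) (nat_lit 205) (nat_lit 5) (nat_lit 194) (nat_lit 5) (nat_lit 289) (nat_lit 272) (nat_lit 219)) (XT.nd (nat_lit 78) (nat_lit 0) (nat_lit 0) (XT.lf (nat_lit 0) (nat_lit 3039334131) (nat_lit 912) (nat_lit 991382436) (nat_lit 988) (nat_lit 4509805051) (nat_lit 181) (nat_lit 5) (nat_lit 193) (nat_lit 5) (nat_lit 194) (nat_lit 5) (nat_lit 290) (nat_lit 272) (nat_lit 218)) (XT.lf (nat_lit 0) (nat_lit 5609302970) (nat_lit 988) (nat_lit 1354051593) (nat_lit 76) (nat_lit 1690917657)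 (nat_lit 181) (nat_lit 5) (nat_lit 194) (nat_lit 5) (nat_lit 182) (nat_lit 5) (nat_lit 291) (nat_lit 272) (nat_lit 217))))) (XT.nd (nat_lit 234) (nat_lit 836) (nat_lit 0) (XT.nd (nat_lit 78) (nat_lit 1140) (nat_lit 0) (XT.lf (nat_lit 0) (nat_lit 2931882094) (nat_lit 988) (nat_lit 4302135934) (nat_lit 1064) (nat_lit 1537546819) (nat_lit 168) (nat_lit 5) (nat_lit 181) (nat_lit 5) (nat_lit 182) (nat_lit 5) (nat_lit 292) (nat_lit 272) (nat_lit 216)) (XT.nd (nat_lit 78) (nat_lit 1140) (nat_lit 0) (XT.lf (nat_lit 0) (nat_lit 7341461976) (nat_lit 988) (nat_lit 1541286513) (nat_lit 1064) (nat_lit 10459491) (nat_lit 168) (nat_lit 5) (nat_lit 181) (nat_lit 5) (nat_lit 182) (nat_lit 5) (nat_lit 293) (nat_lit 272) (nat_lit 215)) (XT.lf (nat_lit 0) (nat_lit 1534827122) (nat_lit 1140) (nat_lit 6158123217) (nat_lit 76) (nat_lit 1325098005) (nat_lit 153) (nat_lit 5) (nat_lit 168) (nat_lit 5) (nat_lit 154) (nat_lit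 5) (nat_lit 294) (nat_lit 272) (nat_lit 214)))) (XT.nd (nat_lit 78) (nat_lit 836) (nat_lit 0) (XT.lf (nat_lit 0) (nat_lit 3120445660) (nat_lit 1140) (nat_lit 1759415870) (nat_lit 76) (nat_lit 4267026088) (nat_lit 153) (nat_lit 5) (nat_lit 168) (nat_lit 5) (nat_lit 154) (nat_lit 5) (nat_lit 295) (nat_lit 272) (nat_lit 213)) (XT.nd (nat_lit 78) (nat_lit 0) (nat_lit 0) (XT.lf (nat_lit 0) (nat_lit 2793245646) (nat_lit 836) (nat_lit 1951410846) (nat_lit 912) (nat_lit 4535284778) (nat_lit 142) (nat_lit 5) (nat_lit 153) (nat_lit 5) (nat_lit 154) (nat_lit 5) (nat_lit 296) (nat_lit 272) (nat_lit 212)) (XT.lf (nat_lit 0) (nat_lit 6410707845) (nat_lit 912) (nat_lit 1941665337) (nat_lit 76) (nat_lit 1064897509) (nat_lit 142) (nat_lit 5) (nat_lit 154) (nat_lit 5) (nat_lit 143) (nat_lit 5) (nat_lit 297) (nat_lit 272) (nat_lit 211)))))) (XT.nd (nat_lit 468) (nat_lit 1520) (nat_lit 0) (XT.nd (nat_lit 234) (nat_lit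 456) (nat_lit 0) (XT.nd (nat_lit 78) (nat_lit 608) (nat_lit 0) (XT.lf (nat_lit 0) (nat_lit 2741510342) (nat_lit 532) (nat_lit 5396860904) (nat_lit 608) (nat_lit 1420075158) (nat_lit 135) (nat_lit 5) (nat_lit 142) (nat_lit 5) (nat_lit 143) (nat_lit 5) (nat_lit 298) (nat_lit 272) (nat_lit 210)) (XT.nd (nat_lit 78) (nat_lit 532) (nat_lit 0) (XT.lf (nat_lit 0) (nat_lit 195870122) (nat_lit 608) (nat_lit 2133343776) (nat_lit 76) (nat_lit 7375071609) (nat_lit 134) (nat_lit 5) (nat_lit 142) (nat_lit 5) (nat_lit 135) (nat_lit 5) (nat_lit 299) (nat_lit 272) (nat_lit 209)) (XT.lf (nat_lit 0) (nat_lit 1833290513) (nat_lit 608) (nat_lit 7165257709) (nat_lit 76) (nat_lit 855552522) (nat_lit 127) (nat_lit 5) (nat_lit 135) (nat_lit 5) (nat_lit 128) (nat_lit 5) (nat_lit 300) (nat_lit 272) (nat_lit 208)))) (XT.nd (nat_lit 78) (nat_lit 456) (nat_lit 0) (XT.lf (nat_lit 0) (nat_lit 3532529359) (nat_lit 608) (nat_lit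 2364187488) (nat_lit 76) (nat_lit 4111379642) (nat_lit 127) (nat_lit 5) (nat_lit 135) (nat_lit 5) (nat_lit 128) (nat_lit 5) (nat_lit 301) (nat_lit 272) (nat_lit 207)) (XT.nd (nat_lit 78) (nat_lit 0) (nat_lit 0) (XT.lf (nat_lit 0) (nat_lit 2600024053) (nat_lit 456) (nat_lit 2676528355) (nat_lit 532) (nat_lit 4890410464) (nat_lit 121) (nat_lit 5) (nat_lit 127) (nat_lit 5) (nat_lit 128) (nat_lit 5) (nat_lit 302) (nat_lit 272) (nat_lit 206)) (XT.lf (nat_lit 0) (nat_lit 7072575027) (nat_lit 532) (nat_lit 2606934474) (nat_lit 76) (nat_lit 651158462) (nat_lit 121) (nat_lit 5) (nat_lit 128) (nat_lit 5) (nat_lit 122) (nat_lit 5) (nat_lit 303) (nat_lit 272) (nat_lit 205))))) (XT.nd (nat_lit 234) (nat_lit 456) (nat_lit 0) (XT.nd (nat_lit 78) (nat_lit 532) (nat_lit 0) (XT.lf (nat_lit 0) (nat_lit 2492661092) (nat_lit 532) (nat_lit 6450583564) (nat_lit 608) (nat_lit 1555477809) (nat_lit 114) (nat_lit 5) (nat_lit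 121) (nat_lit 5) (nat_lit 122) (nat_lit 5) (nat_lit 304) (nat_lit 272) (nat_lit 204)) (XT.nd (nat_lit 78) (nat_lit 456) (nat_lit 0) (XT.lf (nat_lit 0) (nat_lit 191458309) (nat_lit 608) (nat_lit 2906197161) (nat_lit 76) (nat_lit 7574250388) (nat_lit 113) (nat_lit 5) (nat_lit 121) (nat_lit 5) (nat_lit 114) (nat_lit 5) (nat_lit 305) (nat_lit 272) (nat_lit 203)) (XT.lf (nat_lit 0) (nat_lit 1957252126) (nat_lit 532) (nat_lit 8507553432) (nat_lit 76) (nat_lit 385141825) (nat_lit 107) (nat_lit 5) (nat_lit 114) (nat_lit 5) (nat_lit 108) (nat_lit 5) (nat_lit 306) (nat_lit 272) (nat_lit 202)))) (XT.nd (nat_lit 78) (nat_lit 456) (nat_lit 0) (XT.lf (nat_lit 0) (nat_lit 3808228180) (nat_lit 532) (nat_lit 3286728848) (nat_lit 76) (nat_lit 3937461289) (nat_lit 107) (nat_lit 5) (nat_lit 114) (nat_lit 5) (nat_lit 108) (nat_lit 5) (nat_lit 307) (nat_lit 272) (nat_lit 201)) (XT.nd (nat_lit 78) (nat_lit 0) (nat_lit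 0) (XT.lf (nat_lit 0) (nat_lit 2101301451) (nat_lit 456) (nat_lit 3606350583) (nat_lit 532) (nat_lit 5512976622) (nat_lit 101) (nat_lit 5) (nat_lit 107) (nat_lit 5) (nat_lit 108) (nat_lit 5) (nat_lit 308) (nat_lit 272) (nat_lit 200)) (XT.lf (nat_lit 0) (nat_lit 7670643270) (nat_lit 532) (nat_lit 3726292140) (nat_lit 76) (nat_lit 17403649) (nat_lit 101) (nat_lit 5) (nat_lit 108) (nat_lit 5) (nat_lit 102) (nat_lit 5) (nat_lit 309) (nat_lit 272) (nat_lit 199))))))))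
noncomputable def xc144 : XT := (XT.nd (nat_lit 1794) (nat_lit 1748) (nat_lit 0) (XT.nd (nat_lit 858) (nat_lit 1824) (nat_lit 0) (XT.nd (nat_lit 390) (nat_lit 760) (nat_lit 0) (XT.nd (nat_lit 156) (nat_lit 760) (nat_lit 0) (XT.nd (nat_lit 78) (nat_lit 76) (nat_lit 0) (XT.lf (nat_lit 0) (nat_lit 1797864642) (nat_lit 380) (nat_lit 7921621351) (nat_lit 456) (nat_lit 1893615726) (nat_lit 96) (nat_lit 5) (nat_lit 101) (nat_lit 5) (nat_lit 102) (nat_lit 5) (nat_lit 310) (nat_lit 272) (nat_lit 198)) (XT.lf (nat_lit 0) (nat_lit 23878815) (nat_lit 456) (nat_lit 4283367188) (nat_lit 76) (nat_lit 7510260377) (nat_lit 95) (nat_lit 5) (nat_lit 101) (nat_lit 5) (nat_lit 96) (nat_lit 5) (nat_lit 311) (nat_lit 272) (nat_lit 197))) (XT.nd (nat_lit 78) (nat_lit 380) (nat_lit 0) (XT.lf (nat_lit 0) (nat_lit 1393472024) (nat_lit 380) (nat_lit 555659128) (nat_lit 456) (nat_lit 10078746361) (nat_lit 90) (nat_lit 5)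 (nat_lit 95) (nat_lit 5) (nat_lit 96) (nat_lit 5) (nat_lit 312) (nat_lit 272) (nat_lit 196)) (XT.nd (nat_lit 78) (nat_lit 380) (nat_lit 0) (XT.lf (nat_lit 0) (nat_lit 3982931712) (nat_lit 456) (nat_lit 4976954123) (nat_lit 76) (nat_lit 3283194471) (nat_lit 90) (nat_lit 5) (nat_lit 96) (nat_lit 5) (nat_lit 91) (nat_lit 5) (nat_lit 313) (nat_lit 272) (nat_lit 195)) (XT.lf (nat_lit 0) (nat_lit 831941886) (nat_lit 380) (nat_lit 5235328064) (nat_lit 456) (nat_lit 6397826479) (nat_lit 85) (nat_lit 5) (nat_lit 90) (nat_lit 5) (nat_lit 91) (nat_lit 5) (nat_lit 314) (nat_lit 272) (nat_lit 194))))) (XT.nd (nat_lit 234) (nat_lit 380) (nat_lit 0) (XT.nd (nat_lit 78) (nat_lit 380) (nat_lit 0) (XT.lf (nat_lit 0) (nat_lit 6888400377) (nat_lit 380) (nat_lit 1352442547) (nat_lit 456) (nat_lit 4452170680) (nat_lit 85) (nat_lit 5) (nat_lit 90) (nat_lit 5) (nat_lit 91) (nat_lit 5) (nat_lit 315) (nat_lit 272) (nat_lit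 193)) (XT.nd (nat_lit 78) (nat_lit 0) (nat_lit 0) (XT.lf (nat_lit 0) (nat_lit 147653087) (nat_lit 380) (nat_lit 10335918067) (nat_lit 456) (nat_lit 2444119189) (nat_lit 80) (nat_lit 5) (nat_lit 85) (nat_lit 5) (nat_lit 86) (nat_lit 5) (nat_lit 316) (nat_lit 272) (nat_lit 192)) (XT.lf (nat_lit 0) (nat_lit 6355530763) (nat_lit 380) (nat_lit 6487405258) (nat_lit 456) (nat_lit 325030034) (nat_lit 80) (nat_lit 5) (nat_lit 85) (nat_lit 5) (nat_lit 86) (nat_lit 5) (nat_lit 317) (nat_lit 272) (nat_lit 191)))) (XT.nd (nat_lit 78) (nat_lit 304) (nat_lit 0) (XT.lf (nat_lit 0) (nat_lit 1799265061) (nat_lit 456) (nat_lit 711603756) (nat_lit 76) (nat_lit 10904746101) (nat_lit 79) (nat_lit 5) (nat_lit 85) (nat_lit 5) (nat_lit 80) (nat_lit 5) (nat_lit 318) (nat_lit 272) (nat_lit 190)) (XT.nd (nat_lit 78) (nat_lit 0) (nat_lit 0) (XT.lf (nat_lit 0) (nat_lit 4029366296) (nat_lit 380) (nat_lit 8033196549) (nat_lit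 76) (nat_lit 1606611535) (nat_lit 75) (nat_lit 5) (nat_lit 80) (nat_lit 5) (nat_lit 76) (nat_lit 5) (nat_lit 319) (nat_lit 272) (nat_lit 189)) (XT.lf (nat_lit 0) (nat_lit 6337326059) (nat_lit 380) (nat_lit 1793957022) (nat_lit 76) (nat_lit 5798763808) (nat_lit 75) (nat_lit 5) (nat_lit 80) (nat_lit 5) (nat_lit 76) (nat_lit 5) (nat_lit 320) (nat_lit 272) (nat_lit 188)))))) (XT.nd (nat_lit 468) (nat_lit 836) (nat_lit 0) (XT.nd (nat_lit 234) (nat_lit 380) (nat_lit 0) (XT.nd (nat_lit 78) (nat_lit 304) (nat_lit 0) (XT.lf (nat_lit 0) (nat_lit 4697449299) (nat_lit 304) (nat_lit 4041684881) (nat_lit 380) (nat_lit 5458907015) (nat_lit 71) (nat_lit 5) (nat_lit 75) (nat_lit 5) (nat_lit 76) (nat_lit 5) (nat_lit 321) (nat_lit 272) (nat_lit 187)) (XT.nd (nat_lit 78) (nat_lit 304) (nat_lit 0) (XT.lf (nat_lit 0) (nat_lit 11212670877) (nat_lit 380) (nat_lit 3081971241) (nat_lit 76) (nat_lit 179475906) (nat_lit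 71) (nat_lit 5) (nat_lit 76) (nat_lit 5) (nat_lit 72) (nat_lit 5) (nat_lit 322) (nat_lit 272) (nat_lit 186)) (XT.lf (nat_lit 0) (nat_lit 3531905473) (nat_lit 304) (nat_lit 10282805428) (nat_lit 380) (nat_lit 942169307) (nat_lit 67) (nat_lit 5) (nat_lit 71) (nat_lit 5) (nat_lit 72) (nat_lit 5) (nat_lit 323) (nat_lit 272) (nat_lit 185)))) (XT.nd (nat_lit 78) (nat_lit 304) (nat_lit 0) (XT.lf (nat_lit 0) (nat_lit 1430318010) (nat_lit 380) (nat_lit 4680399037) (nat_lit 76) (nat_lit 8936665306) (nat_lit 66) (nat_lit 5) (nat_lit 71) (nat_lit 5) (nat_lit 67) (nat_lit 5) (nat_lit 324) (nat_lit 272) (nat_lit 184)) (XT.nd (nat_lit 78) (nat_lit 0) (nat_lit 0) (XT.lf (nat_lit 0) (nat_lit 2065897912) (nat_lit 304) (nat_lit 1790005214) (nat_lit 380) (nat_lit 11490420043) (nat_lit 62) (nat_lit 5) (nat_lit 66) (nat_lit 5) (nat_lit 67) (nat_lit 5) (nat_lit 325) (nat_lit 272) (nat_lit 183)) (XT.lf (nat_lit 0) (nat_lit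 6408806133) (nat_lit 380) (nat_lit 6594202389) (nat_lit 76) (nat_lit 2649615576) (nat_lit 62) (nat_lit 5) (nat_lit 67) (nat_lit 5) (nat_lit 63) (nat_lit 5) (nat_lit 326) (nat_lit 272) (nat_lit 182))))) (XT.nd (nat_lit 234) (nat_lit 608) (nat_lit 0) (XT.nd (nat_lit 78) (nat_lit 0) (nat_lit 0) (XT.lf (nat_lit 0) (nat_lit 254733972) (nat_lit 228) (nat_lit 8785526783) (nat_lit 304) (nat_lit 6927821937) (nat_lit 59) (nat_lit 5) (nat_lit 62) (nat_lit 5) (nat_lit 63) (nat_lit 5) (nat_lit 327) (nat_lit 272) (nat_lit 181)) (XT.nd (nat_lit 78) (nat_lit 0) (nat_lit 0) (XT.lf (nat_lit 0) (nat_lit 7419438251) (nat_lit 228) (nat_lit 4379893512) (nat_lit 304) (nat_lit 4492239868) (nat_lit 59) (nat_lit 5) (nat_lit 62) (nat_lit 5) (nat_lit 63) (nat_lit 5) (nat_lit 328) (nat_lit 272) (nat_lit 180)) (XT.lf (nat_lit 0) (nat_lit 14625233919) (nat_lit 304) (nat_lit 1851832706) (nat_lit 76) (nat_lit 148202832) (nat_lit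 59) (nat_lit 5) (nat_lit 63) (nat_lit 5) (nat_lit 60) (nat_lit 5) (nat_lit 329) (nat_lit 272) (nat_lit 179)))) (XT.nd (nat_lit 78) (nat_lit 228) (nat_lit 0) (XT.lf (nat_lit 0) (nat_lit 635115707) (nat_lit 380) (nat_lit 11555364214) (nat_lit 76) (nat_lit 4775981991) (nat_lit 54) (nat_lit 5) (nat_lit 59) (nat_lit 5) (nat_lit 55) (nat_lit 5) (nat_lit 330) (nat_lit 272) (nat_lit 178)) (XT.nd (nat_lit 78) (nat_lit 228) (nat_lit 0) (XT.lf (nat_lit 0) (nat_lit 3311134249) (nat_lit 380) (nat_lit 4431480723) (nat_lit 76) (nat_lit 9574644537) (nat_lit 54) (nat_lit 5) (nat_lit 59) (nat_lit 5) (nat_lit 55) (nat_lit 5) (nat_lit 331) (nat_lit 272) (nat_lit 177)) (XT.lf (nat_lit 0) (nat_lit 2940151566) (nat_lit 228) (nat_lit 3139162243) (nat_lit 304) (nat_lit 11598933904) (nat_lit 51) (nat_lit 5) (nat_lit 54) (nat_lit 5) (nat_lit 55) (nat_lit 5) (nat_lit 332) (nat_lit 272) (nat_lit 176))))))) (XT.nd (nat_lit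 858) (nat_lit 836) (nat_lit 0) (XT.nd (nat_lit 390) (nat_lit 380) (nat_lit 0) (XT.nd (nat_lit 156) (nat_lit 532) (nat_lit 0) (XT.nd (nat_lit 78) (nat_lit 0) (nat_lit 0) (XT.lf (nat_lit 0) (nat_lit 8974940046) (nat_lit 304) (nat_lit 7464346415) (nat_lit 76) (nat_lit 1609469482) (nat_lit 51) (nat_lit 5) (nat_lit 55) (nat_lit 5) (nat_lit 52) (nat_lit 5) (nat_lit 333) (nat_lit 272) (nat_lit 175)) (XT.lf (nat_lit 0) (nat_lit 11972793329) (nat_lit 304) (nat_lit 26329968) (nat_lit 76) (nat_lit 6430817142) (nat_lit 51) (nat_lit 5) (nat_lit 55) (nat_lit 5) (nat_lit 52) (nat_lit 5) (nat_lit 334) (nat_lit 272) (nat_lit 174))) (XT.nd (nat_lit 78) (nat_lit 304) (nat_lit 0) (XT.lf (nat_lit 0) (nat_lit 7764134203) (nat_lit 228) (nat_lit 7355816999) (nat_lit 304) (nat_lit 3700849330) (nat_lit 48) (nat_lit 5) (nat_lit 51) (nat_lit 5) (nat_lit 52) (nat_lit 5) (nat_lit 335) (nat_lit 272) (nat_lit 173)) (XT.nd (nat_lit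 78) (nat_lit 304) (nat_lit 0) (XT.lf (nat_lit 0) (nat_lit 15766870682) (nat_lit 228) (nat_lit 2579887696) (nat_lit 304) (nat_lit 877091528) (nat_lit 48) (nat_lit 5) (nat_lit 51) (nat_lit 5) (nat_lit 52) (nat_lit 5) (nat_lit 336) (nat_lit 272) (nat_lit 172)) (XT.lf (nat_lit 0) (nat_lit 2042462476) (nat_lit 304) (nat_lit 15244944548) (nat_lit 76) (nat_lit 2349495582) (nat_lit 44) (nat_lit 5) (nat_lit 48) (nat_lit 5) (nat_lit 45) (nat_lit 5) (nat_lit 337) (nat_lit 272) (nat_lit 171))))) (XT.nd (nat_lit 234) (nat_lit 152) (nat_lit 0) (XT.nd (nat_lit 78) (nat_lit 228) (nat_lit 0) (XT.lf (nat_lit 0) (nat_lit 5078172000) (nat_lit 304) (nat_lit 7570474881) (nat_lit 76) (nat_lit 7412072331) (nat_lit 44) (nat_lit 5) (nat_lit 48) (nat_lit 5) (nat_lit 45) (nat_lit 5) (nat_lit 338) (nat_lit 272) (nat_lit 170)) (XT.nd (nat_lit 78) (nat_lit 0) (nat_lit 0) (XT.lf (nat_lit 0) (nat_lit 319264452) (nat_lit 228)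 (nat_lit 7874582356) (nat_lit 304) (nat_lit 12303754917) (nat_lit 41) (nat_lit 5) (nat_lit 44) (nat_lit 5) (nat_lit 45) (nat_lit 5) (nat_lit 339) (nat_lit 272) (nat_lit 169)) (XT.lf (nat_lit 0) (nat_lit 8579896646) (nat_lit 228) (nat_lit 2885578327) (nat_lit 304) (nat_lit 9480258945) (nat_lit 41) (nat_lit 5) (nat_lit 44) (nat_lit 5) (nat_lit 45) (nat_lit 5) (nat_lit 340) (nat_lit 272) (nat_lit 168)))) (XT.nd (nat_lit 78) (nat_lit 152) (nat_lit 0) (XT.lf (nat_lit 0) (nat_lit 14843287454) (nat_lit 304) (nat_lit 4361354134) (nat_lit 76) (nat_lit 2202444608) (nat_lit 41) (nat_lit 5) (nat_lit 45) (nat_lit 5) (nat_lit 42) (nat_lit 5) (nat_lit 341) (nat_lit 272) (nat_lit 167)) (XT.nd (nat_lit 78) (nat_lit 0) (nat_lit 0) (XT.lf (nat_lit 0) (nat_lit 3910878918) (nat_lit 152) (nat_lit 14464493342) (nat_lit 228) (nat_lit 3505335324) (nat_lit 39) (nat_lit 5) (nat_lit 41) (nat_lit 5) (nat_lit 42) (nat_lit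 5) (nat_lit 342) (nat_lit 272) (nat_lit 166)) (XT.lf (nat_lit 0) (nat_lit 12500749966) (nat_lit 152) (nat_lit 9543678497) (nat_lit 228) (nat_lit 323195082) (nat_lit 39) (nat_lit 5) (nat_lit 41) (nat_lit 5) (nat_lit 42) (nat_lit 5) (nat_lit 343) (nat_lit 272) (nat_lit 165)))))) (XT.nd (nat_lit 468) (nat_lit 380) (nat_lit 0) (XT.nd (nat_lit 234) (nat_lit 152) (nat_lit 0) (XT.nd (nat_lit 78) (nat_lit 228) (nat_lit 0) (XT.lf (nat_lit 0) (nat_lit 2883964814) (nat_lit 228) (nat_lit 1568851232) (nat_lit 76) (nat_lit 18415878018) (nat_lit 38) (nat_lit 5) (nat_lit 41) (nat_lit 5) (nat_lit 39) (nat_lit 5) (nat_lit 344) (nat_lit 272) (nat_lit 164)) (XT.nd (nat_lit 78) (nat_lit 0) (nat_lit 0) (XT.lf (nat_lit 0) (nat_lit 6244862105) (nat_lit 304) (nat_lit 16296990019) (nat_lit 76) (nat_lit 840942844) (nat_lit 35) (nat_lit 5) (nat_lit 39) (nat_lit 5) (nat_lit 36) (nat_lit 5) (nat_lit 345) (nat_lit 272) (nat_lit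 163)) (XT.lf (nat_lit 0) (nat_lit 9754368792) (nat_lit 304) (nat_lit 7943008501) (nat_lit 76) (nat_lit 6213522520) (nat_lit 35) (nat_lit 5) (nat_lit 39) (nat_lit 5) (nat_lit 36) (nat_lit 5) (nat_lit 346) (nat_lit 272) (nat_lit 162)))) (XT.nd (nat_lit 78) (nat_lit 0) (nat_lit 0) (XT.lf (nat_lit 0) (nat_lit 655766042) (nat_lit 152) (nat_lit 12707752645) (nat_lit 228) (nat_lit 11091512348) (nat_lit 33) (nat_lit 5) (nat_lit 35) (nat_lit 5) (nat_lit 36) (nat_lit 5) (nat_lit 347) (nat_lit 272) (nat_lit 161)) (XT.nd (nat_lit 78) (nat_lit 0) (nat_lit 0) (XT.lf (nat_lit 0) (nat_lit 9656887510) (nat_lit 152) (nat_lit 7492489436) (nat_lit 228) (nat_lit 7864069796) (nat_lit 33) (nat_lit 5) (nat_lit 35) (nat_lit 5) (nat_lit 36) (nat_lit 5) (nat_lit 348) (nat_lit 272) (nat_lit 160)) (XT.lf (nat_lit 0) (nat_lit 18910139516) (nat_lit 152) (nat_lit 2127239451) (nat_lit 228) (nat_lit 4551592080) (nat_lit 33) (nat_lit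 5) (nat_lit 35) (nat_lit 5) (nat_lit 36) (nat_lit 5) (nat_lit 349) (nat_lit 272) (nat_lit 159))))) (XT.nd (nat_lit 234) (nat_lit 152) (nat_lit 0) (XT.nd (nat_lit 78) (nat_lit 76) (nat_lit 0) (XT.lf (nat_lit 0) (nat_lit 2252849220) (nat_lit 152) (nat_lit 22832341146) (nat_lit 228) (nat_lit 1095288422) (nat_lit 31) (nat_lit 5) (nat_lit 33) (nat_lit 5) (nat_lit 34) (nat_lit 5) (nat_lit 350) (nat_lit 272) (nat_lit 158)) (XT.nd (nat_lit 78) (nat_lit 0) (nat_lit 0) (XT.lf (nat_lit 0) (nat_lit 2494658075) (nat_lit 228) (nat_lit 15261467597) (nat_lit 76) (nat_lit 9030565903) (nat_lit 30) (nat_lit 5) (nat_lit 33) (nat_lit 5) (nat_lit 31) (nat_lit 5) (nat_lit 351) (nat_lit 272) (nat_lit 157)) (XT.lf (nat_lit 0) (nat_lit 6159489101) (nat_lit 228) (nat_lit 6363376126) (nat_lit 76) (nat_lit 14888235875) (nat_lit 30) (nat_lit 5) (nat_lit 33) (nat_lit 5) (nat_lit 31) (nat_lit 5) (nat_lit 352) (nat_lit 272)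 (nat_lit 156)))) (XT.nd (nat_lit 78) (nat_lit 0) (nat_lit 0) (XT.lf (nat_lit 0) (nat_lit 2840374391) (nat_lit 152) (nat_lit 7110708980) (nat_lit 228) (nat_lit 18102666354) (nat_lit 28) (nat_lit 5) (nat_lit 30) (nat_lit 5) (nat_lit 31) (nat_lit 5) (nat_lit 353) (nat_lit 272) (nat_lit 155)) (XT.nd (nat_lit 78) (nat_lit 0) (nat_lit 0) (XT.lf (nat_lit 0) (nat_lit 12434134587) (nat_lit 152) (nat_lit 1476209748) (nat_lit 228) (nat_lit 14803726936) (nat_lit 28) (nat_lit 5) (nat_lit 30) (nat_lit 5) (nat_lit 31) (nat_lit 5) (nat_lit 354) (nat_lit 272) (nat_lit 154)) (XT.lf (nat_lit 0) (nat_lit 18019884459) (nat_lit 228) (nat_lit 7136409567) (nat_lit 76) (nat_lit 4236974104) (nat_lit 28) (nat_lit 5) (nat_lit 31) (nat_lit 5) (nat_lit 29) (nat_lit 5) (nat_lit 355) (nat_lit 272) (nat_lit 153))))))))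
noncomputable def xc145 : XT := (XT.nd (nat_lit 1794) (nat_lit 456) (nat_lit 0) (XT.nd (nat_lit 858) (nat_lit 380) (nat_lit 0) (XT.nd (nat_lit 390) (nat_lit 228) (nat_lit 0) (XT.nd (nat_lit 156) (nat_lit 228) (nat_lit 0) (XT.nd (nat_lit 78) (nat_lit 0) (nat_lit 0) (XT.lf (nat_lit 0) (nat_lit 2295763514) (nat_lit 152) (nat_lit 19983829981) (nat_lit 228) (nat_lit 7812451313) (nat_lit 26) (nat_lit 5) (nat_lit 28) (nat_lit 5) (nat_lit 29) (nat_lit 5) (nat_lit 356) (nat_lit 272) (nat_lit 152)) (XT.lf (nat_lit 0) (nat_lit 12141503980) (nat_lit 152) (nat_lit 14587986740) (nat_lit 228) (nat_lit 4080432253) (nat_lit 26) (nat_lit 5) (nat_lit 28) (nat_lit 5) (nat_lit 29) (nat_lit 5) (nat_lit 357) (nat_lit 272) (nat_lit 151))) (XT.nd (nat_lit 78) (nat_lit 228) (nat_lit 0) (XT.lf (nat_lit 0) (nat_lit 22267386361) (nat_lit 152) (nat_lit 9036113232) (nat_lit 228) (nat_lit 246129246) (nat_lit 26) (nat_lit 5)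 (nat_lit 28) (nat_lit 5) (nat_lit 29) (nat_lit 5) (nat_lit 358) (nat_lit 272) (nat_lit 150)) (XT.nd (nat_lit 78) (nat_lit 0) (nat_lit 0) (XT.lf (nat_lit 0) (nat_lit 341608635) (nat_lit 152) (nat_lit 3283403684) (nat_lit 228) (nat_lit 28685632705) (nat_lit 23) (nat_lit 5) (nat_lit 25) (nat_lit 5) (nat_lit 26) (nat_lit 5) (nat_lit 359) (nat_lit 272) (nat_lit 149)) (XT.lf (nat_lit 0) (nat_lit 7718256127) (nat_lit 228) (nat_lit 22691046676) (nat_lit 76) (nat_lit 2681797303) (nat_lit 23) (nat_lit 5) (nat_lit 26) (nat_lit 5) (nat_lit 24) (nat_lit 5) (nat_lit 360) (nat_lit 272) (nat_lit 148))))) (XT.nd (nat_lit 234) (nat_lit 76) (nat_lit 0) (XT.nd (nat_lit 78) (nat_lit 152) (nat_lit 0) (XT.lf (nat_lit 0) (nat_lit 11957931459) (nat_lit 228) (nat_lit 13181846319) (nat_lit 76) (nat_lit 8754490744) (nat_lit 23) (nat_lit 5) (nat_lit 26) (nat_lit 5) (nat_lit 24) (nat_lit 5) (nat_lit 361) (nat_lit 272) (nat_lit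 147)) (XT.nd (nat_lit 78) (nat_lit 152) (nat_lit 0) (XT.lf (nat_lit 0) (nat_lit 16316180801) (nat_lit 228) (nat_lit 3401564224) (nat_lit 76) (nat_lit 15004053904) (nat_lit 23) (nat_lit 5) (nat_lit 26) (nat_lit 5) (nat_lit 24) (nat_lit 5) (nat_lit 362) (nat_lit 272) (nat_lit 146)) (XT.lf (nat_lit 0) (nat_lit 6790859617) (nat_lit 152) (nat_lit 14071230612) (nat_lit 228) (nat_lit 14710365849) (nat_lit 21) (nat_lit 5) (nat_lit 23) (nat_lit 5) (nat_lit 24) (nat_lit 5) (nat_lit 363) (nat_lit 272) (nat_lit 145)))) (XT.nd (nat_lit 78) (nat_lit 76) (nat_lit 0) (XT.lf (nat_lit 0) (nat_lit 17345139165) (nat_lit 152) (nat_lit 8225334090) (nat_lit 228) (nat_lit 10877384763) (nat_lit 21) (nat_lit 5) (nat_lit 23) (nat_lit 5) (nat_lit 24) (nat_lit 5) (nat_lit 364) (nat_lit 272) (nat_lit 144)) (XT.nd (nat_lit 78) (nat_lit 76) (nat_lit 0) (XT.lf (nat_lit 0) (nat_lit 28202798807) (nat_lit 152) (nat_lit 2209296525)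 (nat_lit 228) (nat_lit 6937674792) (nat_lit 21) (nat_lit 5) (nat_lit 23) (nat_lit 5) (nat_lit 24) (nat_lit 5) (nat_lit 365) (nat_lit 272) (nat_lit 143)) (XT.lf (nat_lit 0) (nat_lit 1077084383) (nat_lit 76) (nat_lit 34362734969) (nat_lit 152) (nat_lit 2837702154) (nat_lit 20) (nat_lit 5) (nat_lit 21) (nat_lit 5) (nat_lit 22) (nat_lit 4) (nat_lit 366) (nat_lit 272) (nat_lit 142)))))) (XT.nd (nat_lit 468) (nat_lit 152) (nat_lit 0) (XT.nd (nat_lit 234) (nat_lit 152) (nat_lit 0) (XT.nd (nat_lit 78) (nat_lit 0) (nat_lit 0) (XT.lf (nat_lit 0) (nat_lit 1465585462) (nat_lit 152) (nat_lit 27484162459) (nat_lit 76) (nat_lit 10279744683) (nat_lit 19) (nat_lit 5) (nat_lit 21) (nat_lit 5) (nat_lit 20) (nat_lit 5) (nat_lit 367) (nat_lit 272) (nat_lit 141)) (XT.nd (nat_lit 78) (nat_lit 0) (nat_lit 0) (XT.lf (nat_lit 0) (nat_lit 5833356299) (nat_lit 152) (nat_lit 17517203307) (nat_lit 76) (nat_lit 16858854632)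 (nat_lit 19) (nat_lit 5) (nat_lit 21) (nat_lit 5) (nat_lit 20) (nat_lit 5) (nat_lit 368) (nat_lit 272) (nat_lit 140)) (XT.lf (nat_lit 0) (nat_lit 10324800645) (nat_lit 152) (nat_lit 7263572945) (nat_lit 76) (nat_lit 23630587392) (nat_lit 19) (nat_lit 5) (nat_lit 21) (nat_lit 5) (nat_lit 20) (nat_lit 5) (nat_lit 369) (nat_lit 272) (nat_lit 139)))) (XT.nd (nat_lit 78) (nat_lit 0) (nat_lit 0) (XT.lf (nat_lit 0) (nat_lit 3351079744) (nat_lit 152) (nat_lit 11624975945) (nat_lit 228) (nat_lit 27281992896) (nat_lit 17) (nat_lit 5) (nat_lit 19) (nat_lit 5) (nat_lit 20) (nat_lit 5) (nat_lit 370) (nat_lit 272) (nat_lit 138)) (XT.nd (nat_lit 78) (nat_lit 0) (nat_lit 0) (XT.lf (nat_lit 0) (nat_lit 14421207356) (nat_lit 152) (nat_lit 5411937718) (nat_lit 228) (nat_lit 23493181133) (nat_lit 17) (nat_lit 5) (nat_lit 19) (nat_lit 5) (nat_lit 20) (nat_lit 5) (nat_lit 371) (nat_lit 272) (nat_lit 137)) (XT.lf (nat_lit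 0) (nat_lit 24838548843) (nat_lit 228) (nat_lit 18624387653) (nat_lit 76) (nat_lit 963643716) (nat_lit 17) (nat_lit 5) (nat_lit 20) (nat_lit 5) (nat_lit 18) (nat_lit 4) (nat_lit 372) (nat_lit 272) (nat_lit 136))))) (XT.nd (nat_lit 234) (nat_lit 76) (nat_lit 0) (XT.nd (nat_lit 78) (nat_lit 76) (nat_lit 0) (XT.lf (nat_lit 0) (nat_lit 30041008294) (nat_lit 228) (nat_lit 8100159728) (nat_lit 76) (nat_lit 7417272934) (nat_lit 17) (nat_lit 5) (nat_lit 20) (nat_lit 5) (nat_lit 18) (nat_lit 4) (nat_lit 373) (nat_lit 272) (nat_lit 135)) (XT.nd (nat_lit 78) (nat_lit 0) (nat_lit 0) (XT.lf (nat_lit 0) (nat_lit 2783091852) (nat_lit 76) (nat_lit 32636707341) (nat_lit 152) (nat_lit 11303856358) (nat_lit 16) (nat_lit 5) (nat_lit 17) (nat_lit 5) (nat_lit 18) (nat_lit 4) (nat_lit 374) (nat_lit 272) (nat_lit 134)) (XT.lf (nat_lit 0) (nat_lit 14147982939) (nat_lit 76) (nat_lit 26887355861) (nat_lit 152) (nat_lit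 6886231821) (nat_lit 16) (nat_lit 5) (nat_lit 17) (nat_lit 5) (nat_lit 18) (nat_lit 4) (nat_lit 375) (nat_lit 272) (nat_lit 133)))) (XT.nd (nat_lit 78) (nat_lit 76) (nat_lit 0) (XT.lf (nat_lit 0) (nat_lit 25843234959) (nat_lit 76) (nat_lit 20969885607) (nat_lit 152) (nat_lit 2342494724) (nat_lit 16) (nat_lit 5) (nat_lit 17) (nat_lit 5) (nat_lit 18) (nat_lit 4) (nat_lit 376) (nat_lit 272) (nat_lit 132)) (XT.nd (nat_lit 78) (nat_lit 0) (nat_lit 0) (XT.lf (nat_lit 0) (nat_lit 2285832638) (nat_lit 152) (nat_lit 12570210909) (nat_lit 76) (nat_lit 35570151998) (nat_lit 15) (nat_lit 5) (nat_lit 17) (nat_lit 5) (nat_lit 16) (nat_lit 5) (nat_lit 377) (nat_lit 272) (nat_lit 131)) (XT.lf (nat_lit 0) (nat_lit 6999998152) (nat_lit 152) (nat_lit 1539070534) (nat_lit 76) (nat_lit 43195311591) (nat_lit 15) (nat_lit 5) (nat_lit 17) (nat_lit 5) (nat_lit 16) (nat_lit 5) (nat_lit 378) (nat_lit 272) (nat_lit 130)))))))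 (XT.nd (nat_lit 936) (nat_lit 76) (nat_lit 0) (XT.nd (nat_lit 468) (nat_lit 152) (nat_lit 0) (XT.nd (nat_lit 234) (nat_lit 76) (nat_lit 0) (XT.nd (nat_lit 78) (nat_lit 0) (nat_lit 0) (XT.lf (nat_lit 0) (nat_lit 10008499012) (nat_lit 152) (nat_lit 1937540304) (nat_lit 228) (nat_lit 41133062536) (nat_lit 13) (nat_lit 5) (nat_lit 15) (nat_lit 5) (nat_lit 16) (nat_lit 5) (nat_lit 379) (nat_lit 272) (nat_lit 129)) (XT.nd (nat_lit 78) (nat_lit 0) (nat_lit 0) (XT.lf (nat_lit 0) (nat_lit 17097172519) (nat_lit 228) (nat_lit 32586391669) (nat_lit 76) (nat_lit 4778904241) (nat_lit 13) (nat_lit 5) (nat_lit 16) (nat_lit 5) (nat_lit 14) (nat_lit 4) (nat_lit 380) (nat_lit 272) (nat_lit 128)) (XT.lf (nat_lit 0) (nat_lit 22416468419) (nat_lit 228) (nat_lit 21816398121) (nat_lit 76) (nat_lit 11654065146) (nat_lit 13) (nat_lit 5) (nat_lit 16) (nat_lit 5) (nat_lit 14) (nat_lit 4) (nat_lit 381) (nat_lit 272) (nat_lit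 127)))) (XT.nd (nat_lit 78) (nat_lit 76) (nat_lit 0) (XT.lf (nat_lit 0) (nat_lit 27889950121) (nat_lit 228) (nat_lit 10732586701) (nat_lit 76) (nat_lit 18731758222) (nat_lit 13) (nat_lit 5) (nat_lit 16) (nat_lit 5) (nat_lit 14) (nat_lit 4) (nat_lit 382) (nat_lit 272) (nat_lit 126)) (XT.nd (nat_lit 78) (nat_lit 0) (nat_lit 0) (XT.lf (nat_lit 0) (nat_lit 688155874) (nat_lit 76) (nat_lit 32840859381) (nat_lit 152) (nat_lit 25336626962) (nat_lit 12) (nat_lit 5) (nat_lit 13) (nat_lit 5) (nat_lit 14) (nat_lit 4) (nat_lit 383) (nat_lit 272) (nat_lit 125)) (XT.lf (nat_lit 0) (nat_lit 12662604996) (nat_lit 76) (nat_lit 26777856164) (nat_lit 152) (nat_lit 20978776538) (nat_lit 12) (nat_lit 5) (nat_lit 13) (nat_lit 5) (nat_lit 14) (nat_lit 4) (nat_lit 384) (nat_lit 272) (nat_lit 124))))) (XT.nd (nat_lit 234) (nat_lit 152) (nat_lit 0) (XT.nd (nat_lit 78) (nat_lit 0) (nat_lit 0) (XT.lf (nat_lit 0) (nat_lit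 24987624254) (nat_lit 76) (nat_lit 20536607483) (nat_lit 152) (nat_lit 16495363905) (nat_lit 12) (nat_lit 5) (nat_lit 13) (nat_lit 5) (nat_lit 14) (nat_lit 4) (nat_lit 385) (nat_lit 272) (nat_lit 123)) (XT.nd (nat_lit 78) (nat_lit 0) (nat_lit 0) (XT.lf (nat_lit 0) (nat_lit 37673983083) (nat_lit 76) (nat_lit 14111659821) (nat_lit 152) (nat_lit 11882471516) (nat_lit 12) (nat_lit 5) (nat_lit 13) (nat_lit 5) (nat_lit 14) (nat_lit 4) (nat_lit 386) (nat_lit 272) (nat_lit 122)) (XT.lf (nat_lit 0) (nat_lit 50732766651) (nat_lit 76) (nat_lit 7497399145) (nat_lit 152) (nat_lit 7136068688) (nat_lit 12) (nat_lit 5) (nat_lit 13) (nat_lit 5) (nat_lit 14) (nat_lit 4) (nat_lit 387) (nat_lit 272) (nat_lit 121)))) (XT.nd (nat_lit 78) (nat_lit 152) (nat_lit 0) (XT.lf (nat_lit 0) (nat_lit 64175385545) (nat_lit 76) (nat_lit 688046004) (nat_lit 152) (nat_lit 2252008081) (nat_lit 12) (nat_lit 5) (nat_lit 13) (nat_lit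 5) (nat_lit 14) (nat_lit 4) (nat_lit 388) (nat_lit 272) (nat_lit 120)) (XT.nd (nat_lit 78) (nat_lit 0) (nat_lit 0) (XT.lf (nat_lit 0) (nat_lit 2870684570) (nat_lit 152) (nat_lit 59725543123) (nat_lit 76) (nat_lit 6315705531) (nat_lit 10) (nat_lit 5) (nat_lit 12) (nat_lit 5) (nat_lit 11) (nat_lit 4) (nat_lit 389) (nat_lit 272) (nat_lit 119)) (XT.lf (nat_lit 0) (nat_lit 8134108948) (nat_lit 152) (nat_lit 49061758067) (nat_lit 76) (nat_lit 13564819658) (nat_lit 10) (nat_lit 5) (nat_lit 12) (nat_lit 5) (nat_lit 11) (nat_lit 4) (nat_lit 390) (nat_lit 272) (nat_lit 118)))))) (XT.nd (nat_lit 31512) (nat_lit 0) (nat_lit 15428) (XT.nd (nat_lit 234) (nat_lit 76) (nat_lit 0) (XT.nd (nat_lit 78) (nat_lit 0) (nat_lit 0) (XT.lf (nat_lit 0) (nat_lit 13551085583) (nat_lit 152) (nat_lit 38085651256) (nat_lit 76) (nat_lit 21028299682) (nat_lit 10) (nat_lit 5) (nat_lit 12) (nat_lit 5) (nat_lit 11) (nat_lit 4) (nat_lit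 391) (nat_lit 272) (nat_lit 117)) (XT.nd (nat_lit 78) (nat_lit 0) (nat_lit 0) (XT.lf (nat_lit 0) (nat_lit 19126347756) (nat_lit 152) (nat_lit 26787631916) (nat_lit 76) (nat_lit 28712667092) (nat_lit 10) (nat_lit 5) (nat_lit 12) (nat_lit 5) (nat_lit 11) (nat_lit 4) (nat_lit 392) (nat_lit 272) (nat_lit 116)) (XT.lf (nat_lit 0) (nat_lit 24864767055) (nat_lit 152) (nat_lit 15157827992) (nat_lit 76) (nat_lit 36624636383) (nat_lit 10) (nat_lit 5) (nat_lit 12) (nat_lit 5) (nat_lit 11) (nat_lit 4) (nat_lit 393) (nat_lit 272) (nat_lit 115)))) (XT.nd (nat_lit 78) (nat_lit 76) (nat_lit 0) (XT.lf (nat_lit 0) (nat_lit 30771357634) (nat_lit 152) (nat_lit 3186077520) (nat_lit 76) (nat_lit 44771120927) (nat_lit 10) (nat_lit 5) (nat_lit 12) (nat_lit 5) (nat_lit 11) (nat_lit 4) (nat_lit 394) (nat_lit 272) (nat_lit 114)) (XT.nd (nat_lit 31122) (nat_lit 0) (nat_lit 16188) (XT.lf (nat_lit 0) (nat_lit 9319945968)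 (nat_lit 76) (nat_lit 27620923643) (nat_lit 152) (nat_lit 43928882064) (nat_lit 9) (nat_lit 5) (nat_lit 10) (nat_lit 5) (nat_lit 11) (nat_lit 4) (nat_lit 395) (nat_lit 272) (nat_lit 113)) (XT.lf (nat_lit 0) (nat_lit 634504580) (nat_lit 0) (nat_lit 634504580) (nat_lit 684) (nat_lit 2324996939) (nat_lit 222) (nat_lit 5) (nat_lit 222) (nat_lit 3) (nat_lit 231) (nat_lit 3) (nat_lit 273) (nat_lit 273) (nat_lit 234))))) (XT.nd (nat_lit 234) (nat_lit 760) (nat_lit 0) (XT.nd (nat_lit 78) (nat_lit 0) (nat_lit 0) (XT.lf (nat_lit 0) (nat_lit 4084331168) (nat_lit 684) (nat_lit 2796811219) (nat_lit 760) (nat_lit 365280336) (nat_lit 222) (nat_lit 5) (nat_lit 231) (nat_lit 3) (nat_lit 232) (nat_lit 5) (nat_lit 274) (nat_lit 273) (nat_lit 233)) (XT.nd (nat_lit 78) (nat_lit 0) (nat_lit 0) (XT.lf (nat_lit 76) (nat_lit 382375706) (nat_lit 0) (nat_lit 5252457282) (nat_lit 760) (nat_lit 1673181032) (nat_lit 223)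 (nat_lit 5) (nat_lit 222) (nat_lit 5) (nat_lit 232) (nat_lit 5) (nat_lit 275) (nat_lit 273) (nat_lit 232)) (XT.lf (nat_lit 76) (nat_lit 3683011884) (nat_lit 0) (nat_lit 3520041476) (nat_lit 760) (nat_lit 169421303) (nat_lit 223) (nat_lit 5) (nat_lit 222) (nat_lit 5) (nat_lit 232) (nat_lit 5) (nat_lit 276) (nat_lit 273) (nat_lit 231)))) (XT.nd (nat_lit 78) (nat_lit 0) (nat_lit 76) (XT.lf (nat_lit 0) (nat_lit 1296457243) (nat_lit 760) (nat_lit 401074600) (nat_lit 836) (nat_lit 5742770420) (nat_lit 212) (nat_lit 5) (nat_lit 222) (nat_lit 5) (nat_lit 223) (nat_lit 5) (nat_lit 277) (nat_lit 273) (nat_lit 230)) (XT.nd (nat_lit 78) (nat_lit 0) (nat_lit 0) (XT.lf (nat_lit 0) (nat_lit 2779679692) (nat_lit 760) (nat_lit 4500903427) (nat_lit 836) (nat_lit 230372398) (nat_lit 213) (nat_lit 5) (nat_lit 223) (nat_lit 5) (nat_lit 224) (nat_lit 5) (nat_lit 278) (nat_lit 273) (nat_lit 229)) (XT.lf (nat_lit 0)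 (nat_lit 4275365933) (nat_lit 760) (nat_lit 1101064197) (nat_lit 836) (nat_lit 2208399351) (nat_lit 213) (nat_lit 5) (nat_lit 223) (nat_lit 5) (nat_lit 224) (nat_lit 5) (nat_lit 279) (nat_lit 273) (nat_lit 228))))))))
noncomputable def xc146 : XT := (XT.nd (nat_lit 1794) (nat_lit 4636) (nat_lit 0) (XT.nd (nat_lit 858) (nat_lit 4104) (nat_lit 0) (XT.nd (nat_lit 390) (nat_lit 1672) (nat_lit 0) (XT.nd (nat_lit 156) (nat_lit 760) (nat_lit 0) (XT.nd (nat_lit 78) (nat_lit 0) (nat_lit 0) (XT.lf (nat_lit 76) (nat_lit 2416523139) (nat_lit 0) (nat_lit 3371240086) (nat_lit 836) (nat_lit 1874137271) (nat_lit 214) (nat_lit 5) (nat_lit 213) (nat_lit 5) (nat_lit 224) (nat_lit 5) (nat_lit 280) (nat_lit 273) (nat_lit 227)) (XT.lf (nat_lit 76) (nat_lit 6031114556) (nat_lit 0) (nat_lit 1275345693) (nat_lit 836) (nat_lit 436127642) (nat_lit 214) (nat_lit 5) (nat_lit 213) (nat_lit 5) (nat_lit 224) (nat_lit 5) (nat_lit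 281) (nat_lit 273) (nat_lit 226))) (XT.nd (nat_lit 78) (nat_lit 0) (nat_lit 0) (XT.lf (nat_lit 0) (nat_lit 1002742170) (nat_lit 836) (nat_lit 5910727700) (nat_lit 912) (nat_lit 912705817) (nat_lit 203) (nat_lit 5) (nat_lit 214) (nat_lit 5) (nat_lit 215) (nat_lit 5) (nat_lit 282) (nat_lit 273) (nat_lit 225)) (XT.nd (nat_lit 78) (nat_lit 0) (nat_lit 0) (XT.lf (nat_lit 0) (nat_lit 2458060616) (nat_lit 836) (nat_lit 2275329015) (nat_lit 912) (nat_lit 3179411369) (nat_lit 203) (nat_lit 5) (nat_lit 214) (nat_lit 5) (nat_lit 215) (nat_lit 5) (nat_lit 283) (nat_lit 273) (nat_lit 224)) (XT.lf (nat_lit 76) (nat_lit 1465970562) (nat_lit 0) (nat_lit 2458526315) (nat_lit 912) (nat_lit 4078621803) (nat_lit 204) (nat_lit 5) (nat_lit 203) (nat_lit 5) (nat_lit 215) (nat_lit 5) (nat_lit 284) (nat_lit 273) (nat_lit 223))))) (XT.nd (nat_lit 234) (nat_lit 836) (nat_lit 0) (XT.nd (nat_lit 78) (nat_lit 836) (nat_lit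 0) (XT.lf (nat_lit 76) (nat_lit 5334695154) (nat_lit 0) (nat_lit 77629774) (nat_lit 912) (nat_lit 2684612937) (nat_lit 204) (nat_lit 5) (nat_lit 203) (nat_lit 5) (nat_lit 215) (nat_lit 5) (nat_lit 285) (nat_lit 273) (nat_lit 222)) (XT.nd (nat_lit 78) (nat_lit 912) (nat_lit 0) (XT.lf (nat_lit 76) (nat_lit 1092287606) (nat_lit 0) (nat_lit 5841708597) (nat_lit 912) (nat_lit 1260009790) (nat_lit 205) (nat_lit 5) (nat_lit 204) (nat_lit 5) (nat_lit 216) (nat_lit 5) (nat_lit 286) (nat_lit 273) (nat_lit 221)) (XT.lf (nat_lit 0) (nat_lit 188552272) (nat_lit 912) (nat_lit 3209878368) (nat_lit 988) (nat_lit 4896042004) (nat_lit 192) (nat_lit 5) (nat_lit 204) (nat_lit 5) (nat_lit 205) (nat_lit 5) (nat_lit 287) (nat_lit 273) (nat_lit 220)))) (XT.nd (nat_lit 78) (nat_lit 836) (nat_lit 0) (XT.lf (nat_lit 76) (nat_lit 769442190) (nat_lit 0) (nat_lit 850800975) (nat_lit 988) (nat_lit 6778487193) (nat_lit 193)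 (nat_lit 5) (nat_lit 192) (nat_lit 5) (nat_lit 205) (nat_lit 5) (nat_lit 288) (nat_lit 273) (nat_lit 219)) (XT.nd (nat_lit 78) (nat_lit 912) (nat_lit 0) (XT.lf (nat_lit 0) (nat_lit 3103293306) (nat_lit 912) (nat_lit 3621508336) (nat_lit 76) (nat_lit 1781160188) (nat_lit 193) (nat_lit 5) (nat_lit 205) (nat_lit 5) (nat_lit 194) (nat_lit 5) (nat_lit 289) (nat_lit 273) (nat_lit 218)) (XT.lf (nat_lit 0) (nat_lit 475376754) (nat_lit 912) (nat_lit 4128285058) (nat_lit 988) (nat_lit 4013659049) (nat_lit 181) (nat_lit 5) (nat_lit 193) (nat_lit 5) (nat_lit 194) (nat_lit 5) (nat_lit 290) (nat_lit 273) (nat_lit 217)))))) (XT.nd (nat_lit 468) (nat_lit 1976) (nat_lit 0) (XT.nd (nat_lit 234) (nat_lit 1064) (nat_lit 0) (XT.nd (nat_lit 78) (nat_lit 1064) (nat_lit 0) (XT.lf (nat_lit 0) (nat_lit 4737738625) (nat_lit 912) (nat_lit 1408571853) (nat_lit 988) (nat_lit 2585884754) (nat_lit 181) (nat_lit 5) (nat_lit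 193) (nat_lit 5) (nat_lit 194) (nat_lit 5) (nat_lit 291) (nat_lit 273) (nat_lit 216)) (XT.nd (nat_lit 78) (nat_lit 76) (nat_lit 0) (XT.lf (nat_lit 0) (nat_lit 236634639) (nat_lit 988) (nat_lit 7476181346) (nat_lit 1064) (nat_lit 1138462468) (nat_lit 168) (nat_lit 5) (nat_lit 181) (nat_lit 5) (nat_lit 182) (nat_lit 5) (nat_lit 292) (nat_lit 273) (nat_lit 215)) (XT.lf (nat_lit 0) (nat_lit 362452410) (nat_lit 1064) (nat_lit 4346488205) (nat_lit 76) (nat_lit 4264468330) (nat_lit 167) (nat_lit 5) (nat_lit 181) (nat_lit 5) (nat_lit 168) (nat_lit 5) (nat_lit 293) (nat_lit 273) (nat_lit 214)))) (XT.nd (nat_lit 78) (nat_lit 0) (nat_lit 0) (XT.lf (nat_lit 0) (nat_lit 6952291) (nat_lit 1064) (nat_lit 1841990775) (nat_lit 1140) (nat_lit 7251101531) (nat_lit 153) (nat_lit 5) (nat_lit 167) (nat_lit 5) (nat_lit 168) (nat_lit 5) (nat_lit 294) (nat_lit 273) (nat_lit 213)) (XT.nd (nat_lit 78) (nat_lit 0) (nat_lit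 0) (XT.lf (nat_lit 0) (nat_lit 3399206668) (nat_lit 1140) (nat_lit 4692695038) (nat_lit 76) (nat_lit 1138082179) (nat_lit 153) (nat_lit 5) (nat_lit 168) (nat_lit 5) (nat_lit 154) (nat_lit 5) (nat_lit 295) (nat_lit 273) (nat_lit 212)) (XT.lf (nat_lit 0) (nat_lit 4979432556) (nat_lit 1140) (nat_lit 210089728) (nat_lit 76) (nat_lit 4174873020) (nat_lit 153) (nat_lit 5) (nat_lit 168) (nat_lit 5) (nat_lit 154) (nat_lit 5) (nat_lit 296) (nat_lit 273) (nat_lit 211))))) (XT.nd (nat_lit 234) (nat_lit 532) (nat_lit 0) (XT.nd (nat_lit 78) (nat_lit 608) (nat_lit 0) (XT.lf (nat_lit 0) (nat_lit 4463444686) (nat_lit 836) (nat_lit 2152755845) (nat_lit 912) (nat_lit 2886439803) (nat_lit 142) (nat_lit 5) (nat_lit 153) (nat_lit 5) (nat_lit 154) (nat_lit 5) (nat_lit 297) (nat_lit 273) (nat_lit 210)) (XT.nd (nat_lit 78) (nat_lit 608) (nat_lit 0) (XT.lf (nat_lit 0) (nat_lit 8280535524) (nat_lit 912) (nat_lit 404309906)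 (nat_lit 76) (nat_lit 960906494) (nat_lit 142) (nat_lit 5) (nat_lit 154) (nat_lit 5) (nat_lit 143) (nat_lit 5) (nat_lit 298) (nat_lit 273) (nat_lit 209)) (XT.lf (nat_lit 0) (nat_lit 229508144) (nat_lit 608) (nat_lit 5390813400) (nat_lit 76) (nat_lit 4171892126) (nat_lit 134) (nat_lit 5) (nat_lit 142) (nat_lit 5) (nat_lit 135) (nat_lit 5) (nat_lit 299) (nat_lit 273) (nat_lit 208)))) (XT.nd (nat_lit 78) (nat_lit 532) (nat_lit 0) (XT.lf (nat_lit 0) (nat_lit 1816934045) (nat_lit 608) (nat_lit 627858075) (nat_lit 76) (nat_lit 7498769592) (nat_lit 134) (nat_lit 5) (nat_lit 142) (nat_lit 5) (nat_lit 135) (nat_lit 5) (nat_lit 300) (nat_lit 273) (nat_lit 207)) (XT.nd (nat_lit 78) (nat_lit 0) (nat_lit 0) (XT.lf (nat_lit 0) (nat_lit 3471093083) (nat_lit 608) (nat_lit 5775047670) (nat_lit 76) (nat_lit 852801106) (nat_lit 127) (nat_lit 5) (nat_lit 135) (nat_lit 5) (nat_lit 128) (nat_lit 5) (nat_lit 301) (nat_lit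 273) (nat_lit 206)) (XT.lf (nat_lit 0) (nat_lit 5175208011) (nat_lit 608) (nat_lit 876697802) (nat_lit 76) (nat_lit 4207130748) (nat_lit 127) (nat_lit 5) (nat_lit 135) (nat_lit 5) (nat_lit 128) (nat_lit 5) (nat_lit 302) (nat_lit 273) (nat_lit 205))))))) (XT.nd (nat_lit 858) (nat_lit 1824) (nat_lit 0) (XT.nd (nat_lit 390) (nat_lit 1292) (nat_lit 0) (XT.nd (nat_lit 156) (nat_lit 1064) (nat_lit 0) (XT.nd (nat_lit 78) (nat_lit 0) (nat_lit 0) (XT.lf (nat_lit 0) (nat_lit 4221161504) (nat_lit 456) (nat_lit 2720465489) (nat_lit 532) (nat_lit 3482032939) (nat_lit 121) (nat_lit 5) (nat_lit 127) (nat_lit 5) (nat_lit 128) (nat_lit 5) (nat_lit 303) (nat_lit 273) (nat_lit 204)) (XT.lf (nat_lit 0) (nat_lit 8747982875) (nat_lit 532) (nat_lit 1140386147) (nat_lit 76) (nat_lit 705304116) (nat_lit 121) (nat_lit 5) (nat_lit 128) (nat_lit 5) (nat_lit 122) (nat_lit 5) (nat_lit 304) (nat_lit 273) (nat_lit 203))) (XT.nd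 (nat_lit 78) (nat_lit 532) (nat_lit 0) (XT.lf (nat_lit 0) (nat_lit 4097052616) (nat_lit 532) (nat_lit 6549805173) (nat_lit 608) (nat_lit 120836830) (nat_lit 114) (nat_lit 5) (nat_lit 121) (nat_lit 5) (nat_lit 122) (nat_lit 5) (nat_lit 305) (nat_lit 273) (nat_lit 202)) (XT.nd (nat_lit 78) (nat_lit 456) (nat_lit 0) (XT.lf (nat_lit 0) (nat_lit 1607298865) (nat_lit 608) (nat_lit 1477497640) (nat_lit 76) (nat_lit 7862201775) (nat_lit 113) (nat_lit 5) (nat_lit 121) (nat_lit 5) (nat_lit 114) (nat_lit 5) (nat_lit 306) (nat_lit 273) (nat_lit 201)) (XT.lf (nat_lit 0) (nat_lit 3400554620) (nat_lit 532) (nat_lit 7218701316) (nat_lit 76) (nat_lit 511970912) (nat_lit 107) (nat_lit 5) (nat_lit 114) (nat_lit 5) (nat_lit 108) (nat_lit 5) (nat_lit 307) (nat_lit 273) (nat_lit 200))))) (XT.nd (nat_lit 234) (nat_lit 836) (nat_lit 0) (XT.nd (nat_lit 78) (nat_lit 456) (nat_lit 0) (XT.lf (nat_lit 0) (nat_lit 5266732239)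 (nat_lit 532) (nat_lit 1886225162) (nat_lit 76) (nat_lit 4167502442) (nat_lit 107) (nat_lit 5) (nat_lit 114) (nat_lit 5) (nat_lit 108) (nat_lit 5) (nat_lit 308) (nat_lit 273) (nat_lit 199)) (XT.nd (nat_lit 78) (nat_lit 0) (nat_lit 0) (XT.lf (nat_lit 0) (nat_lit 3648748933) (nat_lit 456) (nat_lit 3549505795) (nat_lit 532) (nat_lit 4316884110) (nat_lit 101) (nat_lit 5) (nat_lit 107) (nat_lit 5) (nat_lit 108) (nat_lit 5) (nat_lit 309) (nat_lit 273) (nat_lit 198)) (XT.lf (nat_lit 0) (nat_lit 9183247572) (nat_lit 532) (nat_lit 2357565666) (nat_lit 76) (nat_lit 175027575) (nat_lit 101) (nat_lit 5) (nat_lit 108) (nat_lit 5) (nat_lit 102) (nat_lit 5) (nat_lit 310) (nat_lit 273) (nat_lit 197)))) (XT.nd (nat_lit 78) (nat_lit 456) (nat_lit 0) (XT.lf (nat_lit 0) (nat_lit 3317800964) (nat_lit 380) (nat_lit 7952492772) (nat_lit 456) (nat_lit 651041943) (nat_lit 96) (nat_lit 5) (nat_lit 101) (nat_lit 5) (nat_lit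 102) (nat_lit 5) (nat_lit 311) (nat_lit 273) (nat_lit 196)) (XT.nd (nat_lit 78) (nat_lit 380) (nat_lit 0) (XT.lf (nat_lit 0) (nat_lit 1261514234) (nat_lit 456) (nat_lit 2961704111) (nat_lit 76) (nat_lit 7909460019) (nat_lit 95) (nat_lit 5) (nat_lit 101) (nat_lit 5) (nat_lit 96) (nat_lit 5) (nat_lit 312) (nat_lit 273) (nat_lit 195)) (XT.lf (nat_lit 0) (nat_lit 2871222983) (nat_lit 380) (nat_lit 351077589) (nat_lit 456) (nat_lit 9127792174) (nat_lit 90) (nat_lit 5) (nat_lit 95) (nat_lit 5) (nat_lit 96) (nat_lit 5) (nat_lit 313) (nat_lit 273) (nat_lit 194)))))) (XT.nd (nat_lit 468) (nat_lit 684) (nat_lit 0) (XT.nd (nat_lit 234) (nat_lit 760) (nat_lit 0) (XT.nd (nat_lit 78) (nat_lit 380) (nat_lit 0) (XT.lf (nat_lit 0) (nat_lit 5283800525) (nat_lit 456) (nat_lit 3696708292) (nat_lit 76) (nat_lit 3592305745) (nat_lit 90) (nat_lit 5) (nat_lit 96) (nat_lit 5) (nat_lit 91) (nat_lit 5) (nat_lit 314) (nat_lit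 273) (nat_lit 193)) (XT.nd (nat_lit 78) (nat_lit 0) (nat_lit 0) (XT.lf (nat_lit 0) (nat_lit 2272439357) (nat_lit 380) (nat_lit 5137427430) (nat_lit 456) (nat_lit 5392310097) (nat_lit 85) (nat_lit 5) (nat_lit 90) (nat_lit 5) (nat_lit 91) (nat_lit 5) (nat_lit 315) (nat_lit 273) (nat_lit 192)) (XT.lf (nat_lit 0) (nat_lit 8469362305) (nat_lit 380) (nat_lit 1145481381) (nat_lit 456) (nat_lit 3423161843) (nat_lit 85) (nat_lit 5) (nat_lit 90) (nat_lit 5) (nat_lit 91) (nat_lit 5) (nat_lit 316) (nat_lit 273) (nat_lit 191)))) (XT.nd (nat_lit 78) (nat_lit 380) (nat_lit 0) (XT.lf (nat_lit 0) (nat_lit 1546010363) (nat_lit 380) (nat_lit 10361734132) (nat_lit 456) (nat_lit 1372549468) (nat_lit 80) (nat_lit 5) (nat_lit 85) (nat_lit 5) (nat_lit 86) (nat_lit 5) (nat_lit 317) (nat_lit 273) (nat_lit 190)) (XT.nd (nat_lit 78) (nat_lit 304) (nat_lit 0) (XT.lf (nat_lit 0) (nat_lit 761608453) (nat_lit 456) (nat_lit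 5636746192) (nat_lit 76) (nat_lit 7130225328) (nat_lit 79) (nat_lit 5) (nat_lit 85) (nat_lit 5) (nat_lit 80) (nat_lit 5) (nat_lit 318) (nat_lit 273) (nat_lit 189)) (XT.lf (nat_lit 0) (nat_lit 615806519) (nat_lit 304) (nat_lit 2301469213) (nat_lit 380) (nat_lit 10867113927) (nat_lit 75) (nat_lit 5) (nat_lit 79) (nat_lit 5) (nat_lit 80) (nat_lit 5) (nat_lit 319) (nat_lit 273) (nat_lit 188))))) (XT.nd (nat_lit 234) (nat_lit 380) (nat_lit 0) (XT.nd (nat_lit 78) (nat_lit 304) (nat_lit 0) (XT.lf (nat_lit 0) (nat_lit 5192991582) (nat_lit 380) (nat_lit 6920360654) (nat_lit 76) (nat_lit 1932893953) (nat_lit 75) (nat_lit 5) (nat_lit 80) (nat_lit 5) (nat_lit 76) (nat_lit 5) (nat_lit 320) (nat_lit 273) (nat_lit 187)) (XT.nd (nat_lit 78) (nat_lit 304) (nat_lit 0) (XT.lf (nat_lit 0) (nat_lit 7539818945) (nat_lit 380) (nat_lit 533375935) (nat_lit 76) (nat_lit 6242711258) (nat_lit 75) (nat_lit 5) (nat_lit 80)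 (nat_lit 5) (nat_lit 76) (nat_lit 5) (nat_lit 321) (nat_lit 273) (nat_lit 186)) (XT.lf (nat_lit 0) (nat_lit 6139886303) (nat_lit 304) (nat_lit 3856819355) (nat_lit 380) (nat_lit 4595792554) (nat_lit 71) (nat_lit 5) (nat_lit 75) (nat_lit 5) (nat_lit 76) (nat_lit 5) (nat_lit 322) (nat_lit 273) (nat_lit 185)))) (XT.nd (nat_lit 78) (nat_lit 380) (nat_lit 0) (XT.lf (nat_lit 0) (nat_lit 12518313167) (nat_lit 380) (nat_lit 1883114680) (nat_lit 76) (nat_lit 476260810) (nat_lit 71) (nat_lit 5) (nat_lit 76) (nat_lit 5) (nat_lit 72) (nat_lit 5) (nat_lit 323) (nat_lit 273) (nat_lit 184)) (XT.nd (nat_lit 78) (nat_lit 0) (nat_lit 0) (XT.lf (nat_lit 0) (nat_lit 12762896) (nat_lit 380) (nat_lit 10253064521) (nat_lit 76) (nat_lit 4903626600) (nat_lit 66) (nat_lit 5) (nat_lit 71) (nat_lit 5) (nat_lit 67) (nat_lit 5) (nat_lit 324) (nat_lit 273) (nat_lit 183)) (XT.lf (nat_lit 0) (nat_lit 2409402903) (nat_lit 380)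 (nat_lit 3559324555) (nat_lit 76) (nat_lit 9500549718) (nat_lit 66) (nat_lit 5) (nat_lit 71) (nat_lit 5) (nat_lit 67) (nat_lit 5) (nat_lit 325) (nat_lit 273) (nat_lit 182))))))))
noncomputable def xc147 : XT := (XT.nd (nat_lit 1794) (nat_lit 1216) (nat_lit 0) (XT.nd (nat_lit 858) (nat_lit 1140) (nat_lit 0) (XT.nd (nat_lit 390) (nat_lit 836) (nat_lit 0) (XT.nd (nat_lit 156) (nat_lit 228) (nat_lit 0) (XT.nd (nat_lit 78) (nat_lit 0) (nat_lit 0) (XT.lf (nat_lit 0) (nat_lit 3376993789) (nat_lit 304) (nat_lit 1515501835) (nat_lit 380) (nat_lit 10885190372) (nat_lit 62) (nat_lit 5) (nat_lit 66) (nat_lit 5) (nat_lit 67) (nat_lit 5) (nat_lit 326) (nat_lit 273) (nat_lit 181)) (XT.lf (nat_lit 0) (nat_lit 7498225945) (nat_lit 380) (nat_lit 5554173205) (nat_lit 76) (nat_lit 3041530356) (nat_lit 62) (nat_lit 5) (nat_lit 67) (nat_lit 5) (nat_lit 63) (nat_lit 5) (nat_lit 327) (nat_lit 273) (nat_lit 180))) (XT.nd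 (nat_lit 78) (nat_lit 0) (nat_lit 0) (XT.lf (nat_lit 0) (nat_lit 1488095412) (nat_lit 228) (nat_lit 8706180413) (nat_lit 304) (nat_lit 6225046056) (nat_lit 59) (nat_lit 5) (nat_lit 62) (nat_lit 5) (nat_lit 63) (nat_lit 5) (nat_lit 328) (nat_lit 273) (nat_lit 179)) (XT.nd (nat_lit 78) (nat_lit 0) (nat_lit 0) (XT.lf (nat_lit 0) (nat_lit 8832040253) (nat_lit 228) (nat_lit 4178365876) (nat_lit 304) (nat_lit 3742919163) (nat_lit 59) (nat_lit 5) (nat_lit 62) (nat_lit 5) (nat_lit 63) (nat_lit 5) (nat_lit 329) (nat_lit 273) (nat_lit 178)) (XT.lf (nat_lit 0) (nat_lit 15899228497) (nat_lit 304) (nat_lit 728929368) (nat_lit 76) (nat_lit 469569194) (nat_lit 59) (nat_lit 5) (nat_lit 63) (nat_lit 5) (nat_lit 60) (nat_lit 5) (nat_lit 330) (nat_lit 273) (nat_lit 177))))) (XT.nd (nat_lit 234) (nat_lit 228) (nat_lit 0) (XT.nd (nat_lit 78) (nat_lit 228) (nat_lit 0) (XT.lf (nat_lit 0) (nat_lit 1485619893) (nat_lit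 380) (nat_lit 10717400854) (nat_lit 76) (nat_lit 5246319520) (nat_lit 54) (nat_lit 5) (nat_lit 59) (nat_lit 5) (nat_lit 55) (nat_lit 5) (nat_lit 331) (nat_lit 273) (nat_lit 176)) (XT.nd (nat_lit 78) (nat_lit 228) (nat_lit 0) (XT.lf (nat_lit 0) (nat_lit 4217701980) (nat_lit 380) (nat_lit 3414304479) (nat_lit 76) (nat_lit 10179415980) (nat_lit 54) (nat_lit 5) (nat_lit 59) (nat_lit 5) (nat_lit 55) (nat_lit 5) (nat_lit 332) (nat_lit 273) (nat_lit 175)) (XT.lf (nat_lit 0) (nat_lit 4167201087) (nat_lit 228) (nat_lit 2889161453) (nat_lit 304) (nat_lit 11127287821) (nat_lit 51) (nat_lit 5) (nat_lit 54) (nat_lit 5) (nat_lit 55) (nat_lit 5) (nat_lit 333) (nat_lit 273) (nat_lit 174)))) (XT.nd (nat_lit 78) (nat_lit 228) (nat_lit 0) (XT.lf (nat_lit 0) (nat_lit 10018923921) (nat_lit 304) (nat_lit 6561595905) (nat_lit 76) (nat_lit 1985384198) (nat_lit 51) (nat_lit 5) (nat_lit 55) (nat_lit 5) (nat_lit 52) (nat_lit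 5) (nat_lit 334) (nat_lit 273) (nat_lit 173)) (XT.nd (nat_lit 78) (nat_lit 0) (nat_lit 0) (XT.lf (nat_lit 0) (nat_lit 1087975406) (nat_lit 228) (nat_lit 12006630565) (nat_lit 304) (nat_lit 5864312527) (nat_lit 48) (nat_lit 5) (nat_lit 51) (nat_lit 5) (nat_lit 52) (nat_lit 5) (nat_lit 335) (nat_lit 273) (nat_lit 172)) (XT.lf (nat_lit 0) (nat_lit 9080199017) (nat_lit 228) (nat_lit 7234025209) (nat_lit 304) (nat_lit 3047969126) (nat_lit 48) (nat_lit 5) (nat_lit 51) (nat_lit 5) (nat_lit 52) (nat_lit 5) (nat_lit 336) (nat_lit 273) (nat_lit 171)))))) (XT.nd (nat_lit 468) (nat_lit 608) (nat_lit 0) (XT.nd (nat_lit 234) (nat_lit 228) (nat_lit 0) (XT.nd (nat_lit 78) (nat_lit 304) (nat_lit 0) (XT.lf (nat_lit 0) (nat_lit 17291469801) (nat_lit 228) (nat_lit 2324792773) (nat_lit 304) (nat_lit 161748271) (nat_lit 48) (nat_lit 5) (nat_lit 51) (nat_lit 5) (nat_lit 52) (nat_lit 5) (nat_lit 337) (nat_lit 273) (nat_lit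 170)) (XT.nd (nat_lit 78) (nat_lit 0) (nat_lit 0) (XT.lf (nat_lit 0) (nat_lit 2823168253) (nat_lit 304) (nat_lit 14626597685) (nat_lit 76) (nat_lit 2753735616) (nat_lit 44) (nat_lit 5) (nat_lit 48) (nat_lit 5) (nat_lit 45) (nat_lit 5) (nat_lit 338) (nat_lit 273) (nat_lit 169)) (XT.lf (nat_lit 0) (nat_lit 5928994736) (nat_lit 304) (nat_lit 6753224857) (nat_lit 76) (nat_lit 7958468643) (nat_lit 44) (nat_lit 5) (nat_lit 48) (nat_lit 5) (nat_lit 45) (nat_lit 5) (nat_lit 339) (nat_lit 273) (nat_lit 168)))) (XT.nd (nat_lit 78) (nat_lit 0) (nat_lit 0) (XT.lf (nat_lit 0) (nat_lit 1362967791) (nat_lit 228) (nat_lit 7764768636) (nat_lit 304) (nat_lit 11963279060) (nat_lit 41) (nat_lit 5) (nat_lit 44) (nat_lit 5) (nat_lit 45) (nat_lit 5) (nat_lit 340) (nat_lit 273) (nat_lit 167)) (XT.nd (nat_lit 78) (nat_lit 0) (nat_lit 0) (XT.lf (nat_lit 0) (nat_lit 9841298793) (nat_lit 228) (nat_lit 2636173648) (nat_lit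 304) (nat_lit 9075745834) (nat_lit 41) (nat_lit 5) (nat_lit 44) (nat_lit 5) (nat_lit 45) (nat_lit 5) (nat_lit 341) (nat_lit 273) (nat_lit 166)) (XT.lf (nat_lit 0) (nat_lit 15940297521) (nat_lit 304) (nat_lit 3500288603) (nat_lit 76) (nat_lit 2588339311) (nat_lit 41) (nat_lit 5) (nat_lit 45) (nat_lit 5) (nat_lit 42) (nat_lit 5) (nat_lit 342) (nat_lit 273) (nat_lit 165))))) (XT.nd (nat_lit 234) (nat_lit 380) (nat_lit 0) (XT.nd (nat_lit 78) (nat_lit 76) (nat_lit 0) (XT.lf (nat_lit 0) (nat_lit 5010386870) (nat_lit 152) (nat_lit 14558417445) (nat_lit 228) (nat_lit 2948261308) (nat_lit 39) (nat_lit 5) (nat_lit 41) (nat_lit 5) (nat_lit 42) (nat_lit 5) (nat_lit 343) (nat_lit 273) (nat_lit 164)) (XT.nd (nat_lit 78) (nat_lit 0) (nat_lit 0) (XT.lf (nat_lit 0) (nat_lit 304004484) (nat_lit 228) (nat_lit 9192807045) (nat_lit 76) (nat_lit 13522272486) (nat_lit 38) (nat_lit 5) (nat_lit 41) (nat_lit 5) (nat_lit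 39) (nat_lit 5) (nat_lit 344) (nat_lit 273) (nat_lit 163)) (XT.lf (nat_lit 0) (nat_lit 3582522126) (nat_lit 228) (nat_lit 677205322) (nat_lit 76) (nat_lit 19275935948) (nat_lit 38) (nat_lit 5) (nat_lit 41) (nat_lit 5) (nat_lit 39) (nat_lit 5) (nat_lit 345) (nat_lit 273) (nat_lit 162)))) (XT.nd (nat_lit 78) (nat_lit 152) (nat_lit 0) (XT.lf (nat_lit 0) (nat_lit 7038492163) (nat_lit 304) (nat_lit 15840725034) (nat_lit 76) (nat_lit 1186164026) (nat_lit 35) (nat_lit 5) (nat_lit 39) (nat_lit 5) (nat_lit 36) (nat_lit 5) (nat_lit 346) (nat_lit 273) (nat_lit 161)) (XT.nd (nat_lit 78) (nat_lit 152) (nat_lit 0) (XT.lf (nat_lit 0) (nat_lit 10635625288) (nat_lit 304) (nat_lit 7263653431) (nat_lit 76) (nat_lit 6710600911) (nat_lit 35) (nat_lit 5) (nat_lit 39) (nat_lit 5) (nat_lit 36) (nat_lit 5) (nat_lit 347) (nat_lit 273) (nat_lit 160)) (XT.lf (nat_lit 0) (nat_lit 1584087827) (nat_lit 152) (nat_lit 12760551912)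 (nat_lit 228) (nat_lit 10825967399) (nat_lit 33) (nat_lit 5) (nat_lit 35) (nat_lit 5) (nat_lit 36) (nat_lit 5) (nat_lit 348) (nat_lit 273) (nat_lit 159))))))) (XT.nd (nat_lit 936) (nat_lit 456) (nat_lit 0) (XT.nd (nat_lit 468) (nat_lit 380) (nat_lit 0) (XT.nd (nat_lit 234) (nat_lit 228) (nat_lit 0) (XT.nd (nat_lit 78) (nat_lit 152) (nat_lit 0) (XT.lf (nat_lit 0) (nat_lit 10828777440) (nat_lit 152) (nat_lit 7398396825) (nat_lit 228) (nat_lit 7519127502) (nat_lit 33) (nat_lit 5) (nat_lit 35) (nat_lit 5) (nat_lit 36) (nat_lit 5) (nat_lit 349) (nat_lit 273) (nat_lit 158)) (XT.nd (nat_lit 78) (nat_lit 152) (nat_lit 0) (XT.lf (nat_lit 0) (nat_lit 20333932346) (nat_lit 152) (nat_lit 1881476738) (nat_lit 228) (nat_lit 4124193835) (nat_lit 33) (nat_lit 5) (nat_lit 35) (nat_lit 5) (nat_lit 36) (nat_lit 5) (nat_lit 350) (nat_lit 273) (nat_lit 157)) (XT.lf (nat_lit 0) (nat_lit 3182449926) (nat_lit 152) (nat_lit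 23197450931) (nat_lit 228) (nat_lit 569116003) (nat_lit 31) (nat_lit 5) (nat_lit 33) (nat_lit 5) (nat_lit 34) (nat_lit 5) (nat_lit 351) (nat_lit 273) (nat_lit 156)))) (XT.nd (nat_lit 78) (nat_lit 152) (nat_lit 0) (XT.lf (nat_lit 0) (nat_lit 3101655450) (nat_lit 228) (nat_lit 14871236118) (nat_lit 76) (nat_lit 9600859488) (nat_lit 30) (nat_lit 5) (nat_lit 33) (nat_lit 5) (nat_lit 31) (nat_lit 5) (nat_lit 352) (nat_lit 273) (nat_lit 155)) (XT.nd (nat_lit 78) (nat_lit 152) (nat_lit 0) (XT.lf (nat_lit 0) (nat_lit 6860931670) (nat_lit 228) (nat_lit 5730903132) (nat_lit 76) (nat_lit 15625539853) (nat_lit 30) (nat_lit 5) (nat_lit 33) (nat_lit 5) (nat_lit 31) (nat_lit 5) (nat_lit 353) (nat_lit 273) (nat_lit 154)) (XT.lf (nat_lit 0) (nat_lit 3740887604) (nat_lit 152) (nat_lit 7018175057) (nat_lit 228) (nat_lit 18120472711) (nat_lit 28) (nat_lit 5) (nat_lit 30) (nat_lit 5) (nat_lit 31) (nat_lit 5) (nat_lit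 354) (nat_lit 273) (nat_lit 153))))) (XT.nd (nat_lit 234) (nat_lit 228) (nat_lit 0) (XT.nd (nat_lit 78) (nat_lit 152) (nat_lit 0) (XT.lf (nat_lit 0) (nat_lit 13598713946) (nat_lit 152) (nat_lit 1223549252) (nat_lit 228) (nat_lit 14737864343) (nat_lit 28) (nat_lit 5) (nat_lit 30) (nat_lit 5) (nat_lit 31) (nat_lit 5) (nat_lit 355) (nat_lit 273) (nat_lit 152)) (XT.nd (nat_lit 78) (nat_lit 152) (nat_lit 0) (XT.lf (nat_lit 0) (nat_lit 19043454747) (nat_lit 228) (nat_lit 6569854518) (nat_lit 76) (nat_lit 4646755450) (nat_lit 28) (nat_lit 5) (nat_lit 31) (nat_lit 5) (nat_lit 29) (nat_lit 5) (nat_lit 356) (nat_lit 273) (nat_lit 151)) (XT.lf (nat_lit 0) (nat_lit 3137630350) (nat_lit 152) (nat_lit 20286687998) (nat_lit 228) (nat_lit 7555700368) (nat_lit 26) (nat_lit 5) (nat_lit 28) (nat_lit 5) (nat_lit 29) (nat_lit 5) (nat_lit 357) (nat_lit 273) (nat_lit 150)))) (XT.nd (nat_lit 78) (nat_lit 228) (nat_lit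 0) (XT.lf (nat_lit 0) (nat_lit 13256228643) (nat_lit 152) (nat_lit 14737609951) (nat_lit 228) (nat_lit 3726025332) (nat_lit 26) (nat_lit 5) (nat_lit 28) (nat_lit 5) (nat_lit 29) (nat_lit 5) (nat_lit 358) (nat_lit 273) (nat_lit 149)) (XT.nd (nat_lit 78) (nat_lit 152) (nat_lit 0) (XT.lf (nat_lit 0) (nat_lit 205332291) (nat_lit 228) (nat_lit 8820163320) (nat_lit 76) (nat_lit 23456623123) (nat_lit 25) (nat_lit 5) (nat_lit 28) (nat_lit 5) (nat_lit 26) (nat_lit 5) (nat_lit 359) (nat_lit 273) (nat_lit 148)) (XT.lf (nat_lit 0) (nat_lit 1082730036) (nat_lit 152) (nat_lit 3098736370) (nat_lit 228) (nat_lit 29084624990) (nat_lit 23) (nat_lit 5) (nat_lit 25) (nat_lit 5) (nat_lit 26) (nat_lit 5) (nat_lit 360) (nat_lit 273) (nat_lit 147)))))) (XT.nd (nat_lit 468) (nat_lit 304) (nat_lit 0) (XT.nd (nat_lit 234) (nat_lit 152) (nat_lit 0) (XT.nd (nat_lit 78) (nat_lit 0) (nat_lit 0) (XT.lf (nat_lit 0) (nat_lit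 8387110331) (nat_lit 228) (nat_lit 22651366307) (nat_lit 76) (nat_lit 3031808280) (nat_lit 23) (nat_lit 5) (nat_lit 26) (nat_lit 5) (nat_lit 24) (nat_lit 5) (nat_lit 361) (nat_lit 273) (nat_lit 146)) (XT.nd (nat_lit 78) (nat_lit 0) (nat_lit 0) (XT.lf (nat_lit 0) (nat_lit 12741238840) (nat_lit 228) (nat_lit 12877872806) (nat_lit 76) (nat_lit 9278831347) (nat_lit 23) (nat_lit 5) (nat_lit 26) (nat_lit 5) (nat_lit 24) (nat_lit 5) (nat_lit 362) (nat_lit 273) (nat_lit 145)) (XT.lf (nat_lit 0) (nat_lit 17217869562) (nat_lit 228) (nat_lit 2824553964) (nat_lit 76) (nat_lit 15708258901) (nat_lit 23) (nat_lit 5) (nat_lit 26) (nat_lit 5) (nat_lit 24) (nat_lit 5) (nat_lit 363) (nat_lit 273) (nat_lit 144)))) (XT.nd (nat_lit 78) (nat_lit 0) (nat_lit 0) (XT.lf (nat_lit 0) (nat_lit 7666985169) (nat_lit 152) (nat_lit 14227628698) (nat_lit 228) (nat_lit 14732423471) (nat_lit 21) (nat_lit 5) (nat_lit 23) (nat_lit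 5) (nat_lit 24) (nat_lit 5) (nat_lit 364) (nat_lit 273) (nat_lit 143)) (XT.nd (nat_lit 78) (nat_lit 0) (nat_lit 0) (XT.lf (nat_lit 0) (nat_lit 18518308645) (nat_lit 152) (nat_lit 8214095247) (nat_lit 228) (nat_lit 10796664215) (nat_lit 21) (nat_lit 5) (nat_lit 23) (nat_lit 5) (nat_lit 24) (nat_lit 5) (nat_lit 365) (nat_lit 273) (nat_lit 142)) (XT.lf (nat_lit 0) (nat_lit 29682684038) (nat_lit 152) (nat_lit 2025091085) (nat_lit 228) (nat_lit 6750618540) (nat_lit 21) (nat_lit 5) (nat_lit 23) (nat_lit 5) (nat_lit 24) (nat_lit 5) (nat_lit 366) (nat_lit 273) (nat_lit 141))))) (XT.nd (nat_lit 234) (nat_lit 152) (nat_lit 0) (XT.nd (nat_lit 78) (nat_lit 76) (nat_lit 0) (XT.lf (nat_lit 0) (nat_lit 1746353438) (nat_lit 76) (nat_lit 35137273349) (nat_lit 152) (nat_lit 2530442700) (nat_lit 20) (nat_lit 5) (nat_lit 21) (nat_lit 5) (nat_lit 22) (nat_lit 4) (nat_lit 367) (nat_lit 273) (nat_lit 140)) (XT.nd (nat_lit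 78) (nat_lit 0) (nat_lit 0) (XT.lf (nat_lit 0) (nat_lit 1883080760) (nat_lit 152) (nat_lit 27682510353) (nat_lit 76) (nat_lit 10829241783) (nat_lit 19) (nat_lit 5) (nat_lit 21) (nat_lit 5) (nat_lit 20) (nat_lit 5) (nat_lit 368) (nat_lit 273) (nat_lit 139)) (XT.lf (nat_lit 0) (nat_lit 6371005274) (nat_lit 152) (nat_lit 17434780591) (nat_lit 76) (nat_lit 17598702561) (nat_lit 19) (nat_lit 5) (nat_lit 21) (nat_lit 5) (nat_lit 20) (nat_lit 5) (nat_lit 369) (nat_lit 273) (nat_lit 138)))) (XT.nd (nat_lit 78) (nat_lit 152) (nat_lit 0) (XT.lf (nat_lit 0) (nat_lit 10986630378) (nat_lit 152) (nat_lit 6891248274) (nat_lit 76) (nat_lit 24566769374) (nat_lit 19) (nat_lit 5) (nat_lit 21) (nat_lit 5) (nat_lit 20) (nat_lit 5) (nat_lit 370) (nat_lit 273) (nat_lit 137)) (XT.nd (nat_lit 78) (nat_lit 0) (nat_lit 0) (XT.lf (nat_lit 0) (nat_lit 4036057410) (nat_lit 152) (nat_lit 11736728787) (nat_lit 228) (nat_lit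 27742270465) (nat_lit 17) (nat_lit 5) (nat_lit 19) (nat_lit 5) (nat_lit 20) (nat_lit 5) (nat_lit 371) (nat_lit 273) (nat_lit 136)) (XT.lf (nat_lit 0) (nat_lit 15421266172) (nat_lit 152) (nat_lit 5344202221) (nat_lit 228) (nat_lit 23850226841) (nat_lit 17) (nat_lit 5) (nat_lit 19) (nat_lit 5) (nat_lit 20) (nat_lit 5) (nat_lit 372) (nat_lit 273) (nat_lit 135))))))))
noncomputable def xc148 : XT := (XT.nd (nat_lit 32916) (nat_lit 0) (nat_lit 10868) (XT.nd (nat_lit 858) (nat_lit 228) (nat_lit 0) (XT.nd (nat_lit 390) (nat_lit 228) (nat_lit 0) (XT.nd (nat_lit 156) (nat_lit 76) (nat_lit 0) (XT.nd (nat_lit 78) (nat_lit 0) (nat_lit 0) (XT.lf (nat_lit 0) (nat_lit 25913356538) (nat_lit 228) (nat_lit 18624253696) (nat_lit 76) (nat_lit 1211585719) (nat_lit 17) (nat_lit 5) (nat_lit 20) (nat_lit 5) (nat_lit 18) (nat_lit 4) (nat_lit 373) (nat_lit 273) (nat_lit 134)) (XT.lf (nat_lit 0) (nat_lit 31262288282) (nat_lit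 228) (nat_lit 7800576572) (nat_lit 76) (nat_lit 7852444221) (nat_lit 17) (nat_lit 5) (nat_lit 20) (nat_lit 5) (nat_lit 18) (nat_lit 4) (nat_lit 374) (nat_lit 273) (nat_lit 133))) (XT.nd (nat_lit 78) (nat_lit 0) (nat_lit 0) (XT.lf (nat_lit 0) (nat_lit 3403853065) (nat_lit 76) (nat_lit 33394432558) (nat_lit 152) (nat_lit 11317327463) (nat_lit 16) (nat_lit 5) (nat_lit 17) (nat_lit 5) (nat_lit 18) (nat_lit 4) (nat_lit 375) (nat_lit 273) (nat_lit 132)) (XT.nd (nat_lit 78) (nat_lit 0) (nat_lit 0) (XT.lf (nat_lit 0) (nat_lit 15094042289) (nat_lit 76) (nat_lit 27479048378) (nat_lit 152) (nat_lit 6776658984) (nat_lit 16) (nat_lit 5) (nat_lit 17) (nat_lit 5) (nat_lit 18) (nat_lit 4) (nat_lit 376) (nat_lit 273) (nat_lit 131)) (XT.lf (nat_lit 0) (nat_lit 27124959058) (nat_lit 76) (nat_lit 21390314060) (nat_lit 152) (nat_lit 2105818312) (nat_lit 16) (nat_lit 5) (nat_lit 17) (nat_lit 5) (nat_lit 18) (nat_lit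 4) (nat_lit 377) (nat_lit 273) (nat_lit 130))))) (XT.nd (nat_lit 234) (nat_lit 0) (nat_lit 0) (XT.nd (nat_lit 78) (nat_lit 152) (nat_lit 0) (XT.lf (nat_lit 0) (nat_lit 2646603277) (nat_lit 152) (nat_lit 12449580571) (nat_lit 76) (nat_lit 36833787043) (nat_lit 15) (nat_lit 5) (nat_lit 17) (nat_lit 5) (nat_lit 16) (nat_lit 5) (nat_lit 378) (nat_lit 273) (nat_lit 129)) (XT.nd (nat_lit 78) (nat_lit 152) (nat_lit 0) (XT.lf (nat_lit 0) (nat_lit 7493683203) (nat_lit 152) (nat_lit 1102003168) (nat_lit 76) (nat_lit 44681977236) (nat_lit 15) (nat_lit 5) (nat_lit 17) (nat_lit 5) (nat_lit 16) (nat_lit 5) (nat_lit 379) (nat_lit 273) (nat_lit 128)) (XT.lf (nat_lit 0) (nat_lit 10787255822) (nat_lit 152) (nat_lit 1797186759) (nat_lit 228) (nat_lit 42078401056) (nat_lit 13) (nat_lit 5) (nat_lit 15) (nat_lit 5) (nat_lit 16) (nat_lit 5) (nat_lit 380) (nat_lit 273) (nat_lit 127)))) (XT.nd (nat_lit 78) (nat_lit 0)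 (nat_lit 0) (XT.lf (nat_lit 0) (nat_lit 17883806136) (nat_lit 228) (nat_lit 33092890991) (nat_lit 76) (nat_lit 5111209911) (nat_lit 13) (nat_lit 5) (nat_lit 16) (nat_lit 5) (nat_lit 14) (nat_lit 4) (nat_lit 381) (nat_lit 273) (nat_lit 126)) (XT.nd (nat_lit 78) (nat_lit 0) (nat_lit 0) (XT.lf (nat_lit 0) (nat_lit 23354708531) (nat_lit 228) (nat_lit 22013518776) (nat_lit 76) (nat_lit 12187122578) (nat_lit 13) (nat_lit 5) (nat_lit 16) (nat_lit 5) (nat_lit 14) (nat_lit 4) (nat_lit 382) (nat_lit 273) (nat_lit 125)) (XT.lf (nat_lit 0) (nat_lit 28984654508) (nat_lit 228) (nat_lit 10610514507) (nat_lit 76) (nat_lit 19471803666) (nat_lit 13) (nat_lit 5) (nat_lit 16) (nat_lit 5) (nat_lit 14) (nat_lit 4) (nat_lit 383) (nat_lit 273) (nat_lit 124)))))) (XT.nd (nat_lit 468) (nat_lit 152) (nat_lit 0) (XT.nd (nat_lit 234) (nat_lit 0) (nat_lit 0) (XT.nd (nat_lit 78) (nat_lit 0) (nat_lit 0) (XT.lf (nat_lit 0) (nat_lit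 1148496916) (nat_lit 76) (nat_lit 33641106576) (nat_lit 152) (nat_lit 25834161566) (nat_lit 12) (nat_lit 5) (nat_lit 13) (nat_lit 5) (nat_lit 14) (nat_lit 4) (nat_lit 384) (nat_lit 273) (nat_lit 123)) (XT.nd (nat_lit 78) (nat_lit 0) (nat_lit 0) (XT.lf (nat_lit 0) (nat_lit 13469372822) (nat_lit 76) (nat_lit 27401600988) (nat_lit 152) (nat_lit 21353223132) (nat_lit 12) (nat_lit 5) (nat_lit 13) (nat_lit 5) (nat_lit 14) (nat_lit 4) (nat_lit 385) (nat_lit 273) (nat_lit 122)) (XT.lf (nat_lit 0) (nat_lit 26151708978) (nat_lit 76) (nat_lit 20978345649) (nat_lit 152) (nat_lit 16742732877) (nat_lit 12) (nat_lit 5) (nat_lit 13) (nat_lit 5) (nat_lit 14) (nat_lit 4) (nat_lit 386) (nat_lit 273) (nat_lit 121)))) (XT.nd (nat_lit 78) (nat_lit 0) (nat_lit 0) (XT.lf (nat_lit 0) (nat_lit 39206587038) (nat_lit 76) (nat_lit 14365728005) (nat_lit 152) (nat_lit 11998662220) (nat_lit 12) (nat_lit 5) (nat_lit 13) (nat_lit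 5) (nat_lit 14) (nat_lit 4) (nat_lit 387) (nat_lit 273) (nat_lit 120)) (XT.nd (nat_lit 78) (nat_lit 0) (nat_lit 0) (XT.lf (nat_lit 0) (nat_lit 52645414177) (nat_lit 76) (nat_lit 7557970041) (nat_lit 152) (nat_lit 7116865855) (nat_lit 12) (nat_lit 5) (nat_lit 13) (nat_lit 5) (nat_lit 14) (nat_lit 4) (nat_lit 388) (nat_lit 273) (nat_lit 119)) (XT.lf (nat_lit 0) (nat_lit 66479933059) (nat_lit 76) (nat_lit 549123230) (nat_lit 152) (nat_lit 2093078134) (nat_lit 12) (nat_lit 5) (nat_lit 13) (nat_lit 5) (nat_lit 14) (nat_lit 4) (nat_lit 389) (nat_lit 273) (nat_lit 118))))) (XT.nd (nat_lit 234) (nat_lit 0) (nat_lit 0) (XT.nd (nat_lit 78) (nat_lit 0) (nat_lit 0) (XT.lf (nat_lit 0) (nat_lit 3177607727) (nat_lit 152) (nat_lit 61131997711) (nat_lit 76) (nat_lit 6662895110) (nat_lit 10) (nat_lit 5) (nat_lit 12) (nat_lit 5) (nat_lit 11) (nat_lit 4) (nat_lit 390) (nat_lit 273) (nat_lit 117)) (XT.nd (nat_lit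 78) (nat_lit 0) (nat_lit 0) (XT.lf (nat_lit 0) (nat_lit 8592503691) (nat_lit 152) (nat_lit 50159521774) (nat_lit 76) (nat_lit 14124888920) (nat_lit 10) (nat_lit 5) (nat_lit 12) (nat_lit 5) (nat_lit 11) (nat_lit 4) (nat_lit 391) (nat_lit 273) (nat_lit 116)) (XT.lf (nat_lit 0) (nat_lit 14165745796) (nat_lit 152) (nat_lit 38865027556) (nat_lit 76) (nat_lit 21807813403) (nat_lit 10) (nat_lit 5) (nat_lit 12) (nat_lit 5) (nat_lit 11) (nat_lit 4) (nat_lit 392) (nat_lit 273) (nat_lit 115)))) (XT.nd (nat_lit 78) (nat_lit 0) (nat_lit 0) (XT.lf (nat_lit 0) (nat_lit 19902203864) (nat_lit 152) (nat_lit 27238646080) (nat_lit 76) (nat_lit 29718381795) (nat_lit 10) (nat_lit 5) (nat_lit 12) (nat_lit 5) (nat_lit 11) (nat_lit 4) (nat_lit 393) (nat_lit 273) (nat_lit 114)) (XT.nd (nat_lit 78) (nat_lit 0) (nat_lit 0) (XT.lf (nat_lit 0) (nat_lit 25806890334) (nat_lit 152) (nat_lit 15270218372) (nat_lit 76) (nat_lit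 37863506242) (nat_lit 10) (nat_lit 5) (nat_lit 12) (nat_lit 5) (nat_lit 11) (nat_lit 4) (nat_lit 394) (nat_lit 273) (nat_lit 113)) (XT.lf (nat_lit 0) (nat_lit 31884964642) (nat_lit 152) (nat_lit 2949286583) (nat_lit 76) (nat_lit 46250303843) (nat_lit 10) (nat_lit 5) (nat_lit 12) (nat_lit 5) (nat_lit 11) (nat_lit 4) (nat_lit 395) (nat_lit 273) (nat_lit 112))))))) (XT.nd (nat_lit 858) (nat_lit 3724) (nat_lit 0) (XT.nd (nat_lit 390) (nat_lit 760) (nat_lit 0) (XT.nd (nat_lit 156) (nat_lit 760) (nat_lit 0) (XT.nd (nat_lit 78) (nat_lit 0) (nat_lit 0) (XT.lf (nat_lit 0) (nat_lit 1398638550) (nat_lit 0) (nat_lit 1398638550) (nat_lit 684) (nat_lit 855720880) (nat_lit 222) (nat_lit 5) (nat_lit 222) (nat_lit 3) (nat_lit 231) (nat_lit 3) (nat_lit 274) (nat_lit 274) (nat_lit 232)) (XT.lf (nat_lit 0) (nat_lit 6033692973) (nat_lit 0) (nat_lit 1063067213) (nat_lit 684) (nat_lit 272353639) (nat_lit 222) (nat_lit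 5) (nat_lit 222) (nat_lit 3) (nat_lit 231) (nat_lit 3) (nat_lit 275) (nat_lit 274) (nat_lit 231))) (XT.nd (nat_lit 78) (nat_lit 0) (nat_lit 0) (XT.lf (nat_lit 0) (nat_lit 1156312478) (nat_lit 760) (nat_lit 5512390615) (nat_lit 836) (nat_lit 766121432) (nat_lit 212) (nat_lit 5) (nat_lit 222) (nat_lit 5) (nat_lit 223) (nat_lit 5) (nat_lit 276) (nat_lit 274) (nat_lit 230)) (XT.nd (nat_lit 78) (nat_lit 0) (nat_lit 0) (XT.lf (nat_lit 0) (nat_lit 2592065975) (nat_lit 760) (nat_lit 2240750099) (nat_lit 836) (nat_lit 2670662862) (nat_lit 212) (nat_lit 5) (nat_lit 222) (nat_lit 5) (nat_lit 223) (nat_lit 5) (nat_lit 277) (nat_lit 274) (nat_lit 229)) (XT.lf (nat_lit 76) (nat_lit 1121118894) (nat_lit 0) (nat_lit 2907693139) (nat_lit 836) (nat_lit 3546783476) (nat_lit 213) (nat_lit 5) (nat_lit 212) (nat_lit 5) (nat_lit 223) (nat_lit 5) (nat_lit 278) (nat_lit 274) (nat_lit 228))))) (XT.nd (nat_lit 234) (nat_lit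 0) (nat_lit 0) (XT.nd (nat_lit 78) (nat_lit 760) (nat_lit 0) (XT.lf (nat_lit 76) (nat_lit 4600271470) (nat_lit 0) (nat_lit 879415157) (nat_lit 836) (nat_lit 2171194214) (nat_lit 213) (nat_lit 5) (nat_lit 212) (nat_lit 5) (nat_lit 223) (nat_lit 5) (nat_lit 279) (nat_lit 274) (nat_lit 227)) (XT.nd (nat_lit 78) (nat_lit 836) (nat_lit 0) (XT.lf (nat_lit 76) (nat_lit 421482532) (nat_lit 0) (nat_lit 6518393080) (nat_lit 836) (nat_lit 789707560) (nat_lit 214) (nat_lit 5) (nat_lit 213) (nat_lit 5) (nat_lit 224) (nat_lit 5) (nat_lit 280) (nat_lit 274) (nat_lit 226)) (XT.lf (nat_lit 0) (nat_lit 611347367) (nat_lit 836) (nat_lit 3795844762) (nat_lit 912) (nat_lit 3403681932) (nat_lit 202) (nat_lit 5) (nat_lit 213) (nat_lit 5) (nat_lit 214) (nat_lit 5) (nat_lit 281) (nat_lit 274) (nat_lit 225)))) (XT.nd (nat_lit 78) (nat_lit 0) (nat_lit 76) (XT.lf (nat_lit 0) (nat_lit 1990661499) (nat_lit 836) (nat_lit 216423613)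 (nat_lit 912) (nat_lit 5688841877) (nat_lit 202) (nat_lit 5) (nat_lit 213) (nat_lit 5) (nat_lit 214) (nat_lit 5) (nat_lit 282) (nat_lit 274) (nat_lit 224)) (XT.nd (nat_lit 78) (nat_lit 0) (nat_lit 0) (XT.lf (nat_lit 0) (nat_lit 3399649096) (nat_lit 836) (nat_lit 4475734949) (nat_lit 912) (nat_lit 108615994) (nat_lit 203) (nat_lit 5) (nat_lit 214) (nat_lit 5) (nat_lit 215) (nat_lit 5) (nat_lit 283) (nat_lit 274) (nat_lit 223)) (XT.lf (nat_lit 0) (nat_lit 4829690455) (nat_lit 836) (nat_lit 778234922) (nat_lit 912) (nat_lit 2467540314) (nat_lit 203) (nat_lit 5) (nat_lit 214) (nat_lit 5) (nat_lit 215) (nat_lit 5) (nat_lit 284) (nat_lit 274) (nat_lit 222)))))) (XT.nd (nat_lit 468) (nat_lit 2964) (nat_lit 0) (XT.nd (nat_lit 234) (nat_lit 0) (nat_lit 0) (XT.nd (nat_lit 78) (nat_lit 836) (nat_lit 0) (XT.lf (nat_lit 76) (nat_lit 3059957035) (nat_lit 0) (nat_lit 3228133611) (nat_lit 912) (nat_lit 1882131559)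 (nat_lit 204) (nat_lit 5) (nat_lit 203) (nat_lit 5) (nat_lit 215) (nat_lit 5) (nat_lit 285) (nat_lit 274) (nat_lit 221)) (XT.nd (nat_lit 78) (nat_lit 836) (nat_lit 0) (XT.lf (nat_lit 76) (nat_lit 6999597520) (nat_lit 0) (nat_lit 755542653) (nat_lit 912) (nat_lit 513841715) (nat_lit 204) (nat_lit 5) (nat_lit 203) (nat_lit 5) (nat_lit 215) (nat_lit 5) (nat_lit 286) (nat_lit 274) (nat_lit 220)) (XT.lf (nat_lit 0) (nat_lit 879442600) (nat_lit 912) (nat_lit 5687621369) (nat_lit 988) (nat_lit 1803440779) (nat_lit 192) (nat_lit 5) (nat_lit 204) (nat_lit 5) (nat_lit 205) (nat_lit 5) (nat_lit 287) (nat_lit 274) (nat_lit 219)))) (XT.nd (nat_lit 78) (nat_lit 0) (nat_lit 0) (XT.lf (nat_lit 0) (nat_lit 2283459068) (nat_lit 912) (nat_lit 1738530811) (nat_lit 988) (nat_lit 4453651230) (nat_lit 192) (nat_lit 5) (nat_lit 204) (nat_lit 5) (nat_lit 205) (nat_lit 5) (nat_lit 288) (nat_lit 274) (nat_lit 218)) (XT.nd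 (nat_lit 78) (nat_lit 0) (nat_lit 76) (XT.lf (nat_lit 76) (nat_lit 2344800305) (nat_lit 0) (nat_lit 1367369850) (nat_lit 988) (nat_lit 4872379603) (nat_lit 193) (nat_lit 5) (nat_lit 192) (nat_lit 5) (nat_lit 205) (nat_lit 5) (nat_lit 289) (nat_lit 274) (nat_lit 217)) (XT.lf (nat_lit 0) (nat_lit 5175614894) (nat_lit 912) (nat_lit 2154291854) (nat_lit 76) (nat_lit 1367155390) (nat_lit 193) (nat_lit 5) (nat_lit 205) (nat_lit 5) (nat_lit 194) (nat_lit 5) (nat_lit 290) (nat_lit 274) (nat_lit 216))))) (XT.nd (nat_lit 234) (nat_lit 1064) (nat_lit 0) (XT.nd (nat_lit 78) (nat_lit 1064) (nat_lit 0) (XT.lf (nat_lit 0) (nat_lit 2050050163) (nat_lit 912) (nat_lit 4628296662) (nat_lit 988) (nat_lit 2134831492) (nat_lit 181) (nat_lit 5) (nat_lit 193) (nat_lit 5) (nat_lit 194) (nat_lit 5) (nat_lit 291) (nat_lit 274) (nat_lit 215)) (XT.nd (nat_lit 78) (nat_lit 1064) (nat_lit 0) (XT.lf (nat_lit 0) (nat_lit 6394833994)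 (nat_lit 912) (nat_lit 1816035855) (nat_lit 988) (nat_lit 722454181) (nat_lit 181) (nat_lit 5) (nat_lit 193) (nat_lit 5) (nat_lit 194) (nat_lit 5) (nat_lit 292) (nat_lit 274) (nat_lit 214)) (XT.lf (nat_lit 0) (nat_lit 709704913) (nat_lit 1064) (nat_lit 7256799771) (nat_lit 76) (nat_lit 1090689556) (nat_lit 167) (nat_lit 5) (nat_lit 181) (nat_lit 5) (nat_lit 168) (nat_lit 5) (nat_lit 293) (nat_lit 274) (nat_lit 213)))) (XT.nd (nat_lit 78) (nat_lit 1064) (nat_lit 0) (XT.lf (nat_lit 0) (nat_lit 2178606845) (nat_lit 1064) (nat_lit 2918619305) (nat_lit 76) (nat_lit 4087170770) (nat_lit 167) (nat_lit 5) (nat_lit 181) (nat_lit 5) (nat_lit 168) (nat_lit 5) (nat_lit 294) (nat_lit 274) (nat_lit 212)) (XT.nd (nat_lit 78) (nat_lit 0) (nat_lit 0) (XT.lf (nat_lit 0) (nat_lit 1550147313) (nat_lit 1064) (nat_lit 2121796041) (nat_lit 1140) (nat_lit 5644138885) (nat_lit 153) (nat_lit 5) (nat_lit 167) (nat_lit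 5) (nat_lit 168) (nat_lit 5) (nat_lit 295) (nat_lit 274) (nat_lit 211)) (XT.lf (nat_lit 0) (nat_lit 5215137748) (nat_lit 1140) (nat_lit 3278030629) (nat_lit 76) (nat_lit 958473333) (nat_lit 153) (nat_lit 5) (nat_lit 168) (nat_lit 5) (nat_lit 154) (nat_lit 5) (nat_lit 296) (nat_lit 274) (nat_lit 210))))))))
noncomputable def xc149 : XT := (XT.nd (nat_lit 1794) (nat_lit 2888) (nat_lit 0) (XT.nd (nat_lit 858) (nat_lit 2584) (nat_lit 0) (XT.nd (nat_lit 390) (nat_lit 1064) (nat_lit 0) (XT.nd (nat_lit 156) (nat_lit 1140) (nat_lit 0) (XT.nd (nat_lit 78) (nat_lit 0) (nat_lit 0) (XT.lf (nat_lit 0) (nat_lit 1319496742) (nat_lit 836) (nat_lit 5486036465) (nat_lit 912) (nat_lit 2785780732) (nat_lit 142) (nat_lit 5) (nat_lit 153) (nat_lit 5) (nat_lit 154) (nat_lit 5) (nat_lit 297) (nat_lit 274) (nat_lit 209)) (XT.lf (nat_lit 0) (nat_lit 6092683751) (nat_lit 836) (nat_lit 2351943735) (nat_lit 912) (nat_lit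 1290590242) (nat_lit 142) (nat_lit 5) (nat_lit 153) (nat_lit 5) (nat_lit 154) (nat_lit 5) (nat_lit 298) (nat_lit 274) (nat_lit 208))) (XT.nd (nat_lit 78) (nat_lit 532) (nat_lit 0) (XT.lf (nat_lit 0) (nat_lit 232331263) (nat_lit 608) (nat_lit 8776930694) (nat_lit 76) (nat_lit 874539370) (nat_lit 134) (nat_lit 5) (nat_lit 142) (nat_lit 5) (nat_lit 135) (nat_lit 5) (nat_lit 299) (nat_lit 274) (nat_lit 207)) (XT.nd (nat_lit 78) (nat_lit 532) (nat_lit 0) (XT.lf (nat_lit 0) (nat_lit 1804536902) (nat_lit 608) (nat_lit 4028764972) (nat_lit 76) (nat_lit 4202336109) (nat_lit 134) (nat_lit 5) (nat_lit 142) (nat_lit 5) (nat_lit 135) (nat_lit 5) (nat_lit 300) (nat_lit 274) (nat_lit 206)) (XT.lf (nat_lit 0) (nat_lit 849269587) (nat_lit 532) (nat_lit 2552805607) (nat_lit 608) (nat_lit 6790672634) (nat_lit 127) (nat_lit 5) (nat_lit 134) (nat_lit 5) (nat_lit 135) (nat_lit 5) (nat_lit 301) (nat_lit 274) (nat_lit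 205))))) (XT.nd (nat_lit 234) (nat_lit 608) (nat_lit 0) (XT.nd (nat_lit 78) (nat_lit 456) (nat_lit 0) (XT.lf (nat_lit 0) (nat_lit 5067170314) (nat_lit 608) (nat_lit 4435274526) (nat_lit 76) (nat_lit 851598455) (nat_lit 127) (nat_lit 5) (nat_lit 135) (nat_lit 5) (nat_lit 128) (nat_lit 5) (nat_lit 302) (nat_lit 274) (nat_lit 204)) (XT.nd (nat_lit 78) (nat_lit 0) (nat_lit 0) (XT.lf (nat_lit 0) (nat_lit 577220817) (nat_lit 456) (nat_lit 6207281780) (nat_lit 532) (nat_lit 3735665963) (nat_lit 121) (nat_lit 5) (nat_lit 127) (nat_lit 5) (nat_lit 128) (nat_lit 5) (nat_lit 303) (nat_lit 274) (nat_lit 203)) (XT.lf (nat_lit 0) (nat_lit 5802350718) (nat_lit 456) (nat_lit 2767807876) (nat_lit 532) (nat_lit 2120672607) (nat_lit 121) (nat_lit 5) (nat_lit 127) (nat_lit 5) (nat_lit 128) (nat_lit 5) (nat_lit 304) (nat_lit 274) (nat_lit 202)))) (XT.nd (nat_lit 78) (nat_lit 76) (nat_lit 0) (XT.lf (nat_lit 0) (nat_lit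 287085365) (nat_lit 532) (nat_lit 10105331811) (nat_lit 608) (nat_lit 474761607) (nat_lit 114) (nat_lit 5) (nat_lit 121) (nat_lit 5) (nat_lit 122) (nat_lit 5) (nat_lit 305) (nat_lit 274) (nat_lit 201)) (XT.nd (nat_lit 78) (nat_lit 0) (nat_lit 0) (XT.lf (nat_lit 0) (nat_lit 1246992791) (nat_lit 608) (nat_lit 5397831427) (nat_lit 76) (nat_lit 4402184945) (nat_lit 113) (nat_lit 5) (nat_lit 121) (nat_lit 5) (nat_lit 114) (nat_lit 5) (nat_lit 306) (nat_lit 274) (nat_lit 200)) (XT.lf (nat_lit 0) (nat_lit 2984669312) (nat_lit 608) (nat_lit 92955159) (nat_lit 76) (nat_lit 8155305905) (nat_lit 113) (nat_lit 5) (nat_lit 121) (nat_lit 5) (nat_lit 114) (nat_lit 5) (nat_lit 307) (nat_lit 274) (nat_lit 199)))))) (XT.nd (nat_lit 468) (nat_lit 1216) (nat_lit 0) (XT.nd (nat_lit 234) (nat_lit 456) (nat_lit 0) (XT.nd (nat_lit 78) (nat_lit 456) (nat_lit 0) (XT.lf (nat_lit 0) (nat_lit 4807675350) (nat_lit 532) (nat_lit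 5979820073) (nat_lit 76) (nat_lit 635987626) (nat_lit 107) (nat_lit 5) (nat_lit 114) (nat_lit 5) (nat_lit 108) (nat_lit 5) (nat_lit 308) (nat_lit 274) (nat_lit 198)) (XT.nd (nat_lit 78) (nat_lit 456) (nat_lit 0) (XT.lf (nat_lit 0) (nat_lit 6691825557) (nat_lit 532) (nat_lit 529761156) (nat_lit 76) (nat_lit 4398020317) (nat_lit 107) (nat_lit 5) (nat_lit 114) (nat_lit 5) (nat_lit 108) (nat_lit 5) (nat_lit 309) (nat_lit 274) (nat_lit 197)) (XT.lf (nat_lit 0) (nat_lit 5157408722) (nat_lit 456) (nat_lit 3500429366) (nat_lit 532) (nat_lit 3163063449) (nat_lit 101) (nat_lit 5) (nat_lit 107) (nat_lit 5) (nat_lit 108) (nat_lit 5) (nat_lit 310) (nat_lit 274) (nat_lit 196)))) (XT.nd (nat_lit 78) (nat_lit 456) (nat_lit 0) (XT.lf (nat_lit 0) (nat_lit 10667610117) (nat_lit 532) (nat_lit 1032765029) (nat_lit 76) (nat_lit 328361933) (nat_lit 101) (nat_lit 5) (nat_lit 108) (nat_lit 5) (nat_lit 102) (nat_lit 5)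 (nat_lit 311) (nat_lit 274) (nat_lit 195)) (XT.nd (nat_lit 78) (nat_lit 0) (nat_lit 0) (XT.lf (nat_lit 0) (nat_lit 543404382) (nat_lit 456) (nat_lit 7447268494) (nat_lit 76) (nat_lit 4250289256) (nat_lit 95) (nat_lit 5) (nat_lit 101) (nat_lit 5) (nat_lit 96) (nat_lit 5) (nat_lit 312) (nat_lit 274) (nat_lit 194)) (XT.lf (nat_lit 0) (nat_lit 2465274502) (nat_lit 456) (nat_lit 1683636493) (nat_lit 76) (nat_lit 8310653548) (nat_lit 95) (nat_lit 5) (nat_lit 101) (nat_lit 5) (nat_lit 96) (nat_lit 5) (nat_lit 313) (nat_lit 274) (nat_lit 193))))) (XT.nd (nat_lit 234) (nat_lit 456) (nat_lit 0) (XT.nd (nat_lit 78) (nat_lit 380) (nat_lit 0) (XT.lf (nat_lit 0) (nat_lit 4310877250) (nat_lit 380) (nat_lit 153059334) (nat_lit 456) (nat_lit 8220254859) (nat_lit 90) (nat_lit 5) (nat_lit 95) (nat_lit 5) (nat_lit 96) (nat_lit 5) (nat_lit 314) (nat_lit 274) (nat_lit 192)) (XT.nd (nat_lit 78) (nat_lit 380) (nat_lit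 0) (XT.lf (nat_lit 0) (nat_lit 6555879309) (nat_lit 456) (nat_lit 2460117359) (nat_lit 76) (nat_lit 3898600169) (nat_lit 90) (nat_lit 5) (nat_lit 96) (nat_lit 5) (nat_lit 91) (nat_lit 5) (nat_lit 315) (nat_lit 274) (nat_lit 191)) (XT.lf (nat_lit 0) (nat_lit 3674894011) (nat_lit 380) (nat_lit 5051225552) (nat_lit 456) (nat_lit 4425366820) (nat_lit 85) (nat_lit 5) (nat_lit 90) (nat_lit 5) (nat_lit 91) (nat_lit 5) (nat_lit 316) (nat_lit 274) (nat_lit 190)))) (XT.nd (nat_lit 78) (nat_lit 456) (nat_lit 0) (XT.lf (nat_lit 0) (nat_lit 10018862081) (nat_lit 380) (nat_lit 946520870) (nat_lit 456) (nat_lit 2430019241) (nat_lit 85) (nat_lit 5) (nat_lit 90) (nat_lit 5) (nat_lit 91) (nat_lit 5) (nat_lit 317) (nat_lit 274) (nat_lit 189)) (XT.nd (nat_lit 78) (nat_lit 76) (nat_lit 0) (XT.lf (nat_lit 0) (nat_lit 2906301206) (nat_lit 380) (nat_lit 10404642450) (nat_lit 456) (nat_lit 334554213) (nat_lit 80) (nat_lit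 5) (nat_lit 85) (nat_lit 5) (nat_lit 86) (nat_lit 5) (nat_lit 318) (nat_lit 274) (nat_lit 188)) (XT.lf (nat_lit 0) (nat_lit 1811751086) (nat_lit 456) (nat_lit 4508041019) (nat_lit 76) (nat_lit 7582105342) (nat_lit 79) (nat_lit 5) (nat_lit 85) (nat_lit 5) (nat_lit 80) (nat_lit 5) (nat_lit 319) (nat_lit 274) (nat_lit 187))))))) (XT.nd (nat_lit 936) (nat_lit 1064) (nat_lit 0) (XT.nd (nat_lit 468) (nat_lit 836) (nat_lit 0) (XT.nd (nat_lit 234) (nat_lit 380) (nat_lit 0) (XT.nd (nat_lit 78) (nat_lit 304) (nat_lit 0) (XT.lf (nat_lit 0) (nat_lit 1919364670) (nat_lit 304) (nat_lit 2095155532) (nat_lit 380) (nat_lit 10151438397) (nat_lit 75) (nat_lit 5) (nat_lit 79) (nat_lit 5) (nat_lit 80) (nat_lit 5) (nat_lit 320) (nat_lit 274) (nat_lit 186)) (XT.nd (nat_lit 78) (nat_lit 304) (nat_lit 0) (XT.lf (nat_lit 0) (nat_lit 6331667839) (nat_lit 380) (nat_lit 5851855165) (nat_lit 76) (nat_lit 2253001681) (nat_lit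 75) (nat_lit 5) (nat_lit 80) (nat_lit 5) (nat_lit 76) (nat_lit 5) (nat_lit 321) (nat_lit 274) (nat_lit 185)) (XT.lf (nat_lit 0) (nat_lit 703294467) (nat_lit 304) (nat_lit 8023738289) (nat_lit 380) (nat_lit 5987944945) (nat_lit 71) (nat_lit 5) (nat_lit 75) (nat_lit 5) (nat_lit 76) (nat_lit 5) (nat_lit 322) (nat_lit 274) (nat_lit 184)))) (XT.nd (nat_lit 78) (nat_lit 380) (nat_lit 0) (XT.lf (nat_lit 0) (nat_lit 7550884217) (nat_lit 304) (nat_lit 3683980179) (nat_lit 380) (nat_lit 3765731868) (nat_lit 71) (nat_lit 5) (nat_lit 75) (nat_lit 5) (nat_lit 76) (nat_lit 5) (nat_lit 323) (nat_lit 274) (nat_lit 183)) (XT.nd (nat_lit 78) (nat_lit 380) (nat_lit 0) (XT.lf (nat_lit 0) (nat_lit 13807485112) (nat_lit 380) (nat_lit 722419226) (nat_lit 76) (nat_lit 765221672) (nat_lit 71) (nat_lit 5) (nat_lit 76) (nat_lit 5) (nat_lit 72) (nat_lit 5) (nat_lit 324) (nat_lit 274) (nat_lit 182)) (XT.lf (nat_lit 0) (nat_lit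 922053892) (nat_lit 380) (nat_lit 9335912327) (nat_lit 76) (nat_lit 5337904770) (nat_lit 66) (nat_lit 5) (nat_lit 71) (nat_lit 5) (nat_lit 67) (nat_lit 5) (nat_lit 325) (nat_lit 274) (nat_lit 181))))) (XT.nd (nat_lit 234) (nat_lit 532) (nat_lit 0) (XT.nd (nat_lit 78) (nat_lit 304) (nat_lit 0) (XT.lf (nat_lit 0) (nat_lit 3364120047) (nat_lit 380) (nat_lit 2477032321) (nat_lit 76) (nat_lit 10064371424) (nat_lit 66) (nat_lit 5) (nat_lit 71) (nat_lit 5) (nat_lit 67) (nat_lit 5) (nat_lit 326) (nat_lit 274) (nat_lit 180)) (XT.nd (nat_lit 78) (nat_lit 0) (nat_lit 0) (XT.lf (nat_lit 0) (nat_lit 4655718004) (nat_lit 304) (nat_lit 1251603581) (nat_lit 380) (nat_lit 10316334383) (nat_lit 62) (nat_lit 5) (nat_lit 66) (nat_lit 5) (nat_lit 67) (nat_lit 5) (nat_lit 327) (nat_lit 274) (nat_lit 179)) (XT.lf (nat_lit 0) (nat_lit 8568827949) (nat_lit 380) (nat_lit 4554001100) (nat_lit 76) (nat_lit 3427268031) (nat_lit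 62) (nat_lit 5) (nat_lit 67) (nat_lit 5) (nat_lit 63) (nat_lit 5) (nat_lit 328) (nat_lit 274) (nat_lit 178)))) (XT.nd (nat_lit 78) (nat_lit 304) (nat_lit 0) (XT.lf (nat_lit 0) (nat_lit 2688096386) (nat_lit 228) (nat_lit 8644138213) (nat_lit 304) (nat_lit 5553459669) (nat_lit 59) (nat_lit 5) (nat_lit 62) (nat_lit 5) (nat_lit 63) (nat_lit 5) (nat_lit 329) (nat_lit 274) (nat_lit 177)) (XT.nd (nat_lit 78) (nat_lit 304) (nat_lit 0) (XT.lf (nat_lit 0) (nat_lit 10218708366) (nat_lit 228) (nat_lit 3989903637) (nat_lit 304) (nat_lit 3021869098) (nat_lit 59) (nat_lit 5) (nat_lit 62) (nat_lit 5) (nat_lit 63) (nat_lit 5) (nat_lit 330) (nat_lit 274) (nat_lit 176)) (XT.lf (nat_lit 0) (nat_lit 367177700) (nat_lit 304) (nat_lit 16799848697) (nat_lit 380) (nat_lit 418735862) (nat_lit 55) (nat_lit 5) (nat_lit 59) (nat_lit 5) (nat_lit 60) (nat_lit 5) (nat_lit 331) (nat_lit 274) (nat_lit 175)))))) (XT.nd (nat_lit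 468) (nat_lit 532) (nat_lit 0) (XT.nd (nat_lit 234) (nat_lit 228) (nat_lit 0) (XT.nd (nat_lit 78) (nat_lit 228) (nat_lit 0) (XT.lf (nat_lit 0) (nat_lit 2313910532) (nat_lit 380) (nat_lit 9922300873) (nat_lit 76) (nat_lit 5711992705) (nat_lit 54) (nat_lit 5) (nat_lit 59) (nat_lit 5) (nat_lit 55) (nat_lit 5) (nat_lit 332) (nat_lit 274) (nat_lit 174)) (XT.nd (nat_lit 78) (nat_lit 228) (nat_lit 0) (XT.lf (nat_lit 0) (nat_lit 5105128226) (nat_lit 380) (nat_lit 2432634578) (nat_lit 76) (nat_lit 10784102925) (nat_lit 54) (nat_lit 5) (nat_lit 59) (nat_lit 5) (nat_lit 55) (nat_lit 5) (nat_lit 333) (nat_lit 274) (nat_lit 173)) (XT.lf (nat_lit 0) (nat_lit 5365687733) (nat_lit 228) (nat_lit 2651417731) (nat_lit 304) (nat_lit 10688541558) (nat_lit 51) (nat_lit 5) (nat_lit 54) (nat_lit 5) (nat_lit 55) (nat_lit 5) (nat_lit 334) (nat_lit 274) (nat_lit 172)))) (XT.nd (nat_lit 78) (nat_lit 228) (nat_lit 0) (XT.lf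 (nat_lit 0) (nat_lit 11049754316) (nat_lit 304) (nat_lit 5696438971) (nat_lit 76) (nat_lit 2353769017) (nat_lit 51) (nat_lit 5) (nat_lit 55) (nat_lit 5) (nat_lit 52) (nat_lit 5) (nat_lit 335) (nat_lit 274) (nat_lit 171)) (XT.nd (nat_lit 78) (nat_lit 0) (nat_lit 0) (XT.lf (nat_lit 0) (nat_lit 2172207666) (nat_lit 228) (nat_lit 12034337929) (nat_lit 304) (nat_lit 5298585899) (nat_lit 48) (nat_lit 5) (nat_lit 51) (nat_lit 5) (nat_lit 52) (nat_lit 5) (nat_lit 336) (nat_lit 274) (nat_lit 170)) (XT.lf (nat_lit 0) (nat_lit 10373569064) (nat_lit 228) (nat_lit 7128238632) (nat_lit 304) (nat_lit 2419353827) (nat_lit 48) (nat_lit 5) (nat_lit 51) (nat_lit 5) (nat_lit 52) (nat_lit 5) (nat_lit 337) (nat_lit 274) (nat_lit 169))))) (XT.nd (nat_lit 234) (nat_lit 228) (nat_lit 0) (XT.nd (nat_lit 78) (nat_lit 228) (nat_lit 0) (XT.lf (nat_lit 0) (nat_lit 522090569) (nat_lit 304) (nat_lit 1553768718) (nat_lit 76)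 (nat_lit 18274078492) (nat_lit 47) (nat_lit 5) (nat_lit 51) (nat_lit 5) (nat_lit 48) (nat_lit 5) (nat_lit 338) (nat_lit 274) (nat_lit 168)) (XT.nd (nat_lit 78) (nat_lit 0) (nat_lit 0) (XT.lf (nat_lit 0) (nat_lit 3585996870) (nat_lit 304) (nat_lit 14051449722) (nat_lit 76) (nat_lit 3150943938) (nat_lit 44) (nat_lit 5) (nat_lit 48) (nat_lit 5) (nat_lit 45) (nat_lit 5) (nat_lit 339) (nat_lit 274) (nat_lit 167)) (XT.lf (nat_lit 0) (nat_lit 6765246683) (nat_lit 304) (nat_lit 5971408114) (nat_lit 76) (nat_lit 8502655959) (nat_lit 44) (nat_lit 5) (nat_lit 48) (nat_lit 5) (nat_lit 45) (nat_lit 5) (nat_lit 340) (nat_lit 274) (nat_lit 166)))) (XT.nd (nat_lit 78) (nat_lit 0) (nat_lit 0) (XT.lf (nat_lit 0) (nat_lit 2378619201) (nat_lit 228) (nat_lit 7671525259) (nat_lit 304) (nat_lit 11653322210) (nat_lit 41) (nat_lit 5) (nat_lit 44) (nat_lit 5) (nat_lit 45) (nat_lit 5) (nat_lit 341) (nat_lit 274) (nat_lit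 165)) (XT.nd (nat_lit 78) (nat_lit 0) (nat_lit 0) (XT.lf (nat_lit 0) (nat_lit 11082908996) (nat_lit 228) (nat_lit 2398572997) (nat_lit 304) (nat_lit 8698644208) (nat_lit 41) (nat_lit 5) (nat_lit 44) (nat_lit 5) (nat_lit 45) (nat_lit 5) (nat_lit 342) (nat_lit 274) (nat_lit 164)) (XT.lf (nat_lit 0) (nat_lit 17032806987) (nat_lit 304) (nat_lit 2670330577) (nat_lit 76) (nat_lit 2967451799) (nat_lit 41) (nat_lit 5) (nat_lit 45) (nat_lit 5) (nat_lit 42) (nat_lit 5) (nat_lit 343) (nat_lit 274) (nat_lit 163))))))))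
noncomputable def xc150 : XT := (XT.nd (nat_lit 1794) (nat_lit 684) (nat_lit 0) (XT.nd (nat_lit 858) (nat_lit 684) (nat_lit 0) (XT.nd (nat_lit 390) (nat_lit 380) (nat_lit 0) (XT.nd (nat_lit 156) (nat_lit 228) (nat_lit 0) (XT.nd (nat_lit 78) (nat_lit 76) (nat_lit 0) (XT.lf (nat_lit 0) (nat_lit 6086498820) (nat_lit 152) (nat_lit 14674677276) (nat_lit 228) (nat_lit 2412490017) (nat_lit 39) (nat_lit 5) (nat_lit 41) (nat_lit 5) (nat_lit 42) (nat_lit 5) (nat_lit 344) (nat_lit 274) (nat_lit 162)) (XT.lf (nat_lit 0) (nat_lit 907336625) (nat_lit 228) (nat_lit 8557220920) (nat_lit 76) (nat_lit 14226563563) (nat_lit 38) (nat_lit 5) (nat_lit 41) (nat_lit 5) (nat_lit 39) (nat_lit 5) (nat_lit 345) (nat_lit 274) (nat_lit 161))) (XT.nd (nat_lit 78) (nat_lit 0) (nat_lit 0) (XT.lf (nat_lit 0) (nat_lit 191031805) (nat_lit 228) (nat_lit 4077707159) (nat_lit 304) (nat_lit 19954943683) (nat_lit 35) (nat_lit 5) (nat_lit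 38) (nat_lit 5) (nat_lit 39) (nat_lit 5) (nat_lit 346) (nat_lit 274) (nat_lit 160)) (XT.nd (nat_lit 78) (nat_lit 0) (nat_lit 0) (XT.lf (nat_lit 0) (nat_lit 7821127930) (nat_lit 304) (nat_lit 15425028993) (nat_lit 76) (nat_lit 1523372943) (nat_lit 35) (nat_lit 5) (nat_lit 39) (nat_lit 5) (nat_lit 36) (nat_lit 5) (nat_lit 347) (nat_lit 274) (nat_lit 159)) (XT.lf (nat_lit 0) (nat_lit 11509529971) (nat_lit 304) (nat_lit 6616594303) (nat_lit 76) (nat_lit 7204757769) (nat_lit 35) (nat_lit 5) (nat_lit 39) (nat_lit 5) (nat_lit 36) (nat_lit 5) (nat_lit 348) (nat_lit 274) (nat_lit 158))))) (XT.nd (nat_lit 234) (nat_lit 228) (nat_lit 0) (XT.nd (nat_lit 78) (nat_lit 0) (nat_lit 0) (XT.lf (nat_lit 0) (nat_lit 2488099106) (nat_lit 152) (nat_lit 12833788572) (nat_lit 228) (nat_lit 10586800414) (nat_lit 33) (nat_lit 5) (nat_lit 35) (nat_lit 5) (nat_lit 36) (nat_lit 5) (nat_lit 349) (nat_lit 274) (nat_lit 157))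 (XT.nd (nat_lit 78) (nat_lit 0) (nat_lit 0) (XT.lf (nat_lit 0) (nat_lit 11985183136) (nat_lit 152) (nat_lit 7319785723) (nat_lit 228) (nat_lit 7197180932) (nat_lit 33) (nat_lit 5) (nat_lit 35) (nat_lit 5) (nat_lit 36) (nat_lit 5) (nat_lit 350) (nat_lit 274) (nat_lit 156)) (XT.lf (nat_lit 0) (nat_lit 21751273009) (nat_lit 152) (nat_lit 1646112295) (nat_lit 228) (nat_lit 3716346451) (nat_lit 33) (nat_lit 5) (nat_lit 35) (nat_lit 5) (nat_lit 36) (nat_lit 5) (nat_lit 351) (nat_lit 274) (nat_lit 155)))) (XT.nd (nat_lit 78) (nat_lit 76) (nat_lit 0) (XT.lf (nat_lit 0) (nat_lit 4090455452) (nat_lit 152) (nat_lit 23591875308) (nat_lit 228) (nat_lit 59249083) (nat_lit 31) (nat_lit 5) (nat_lit 33) (nat_lit 5) (nat_lit 34) (nat_lit 5) (nat_lit 352) (nat_lit 274) (nat_lit 154)) (XT.nd (nat_lit 78) (nat_lit 0) (nat_lit 0) (XT.lf (nat_lit 0) (nat_lit 3696314721) (nat_lit 228) (nat_lit 14517980699) (nat_lit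 76) (nat_lit 10171076439) (nat_lit 30) (nat_lit 5) (nat_lit 33) (nat_lit 5) (nat_lit 31) (nat_lit 5) (nat_lit 353) (nat_lit 274) (nat_lit 153)) (XT.lf (nat_lit 0) (nat_lit 7553759238) (nat_lit 228) (nat_lit 5126721000) (nat_lit 76) (nat_lit 16368278054) (nat_lit 30) (nat_lit 5) (nat_lit 33) (nat_lit 5) (nat_lit 31) (nat_lit 5) (nat_lit 354) (nat_lit 274) (nat_lit 152)))))) (XT.nd (nat_lit 468) (nat_lit 304) (nat_lit 0) (XT.nd (nat_lit 234) (nat_lit 228) (nat_lit 0) (XT.nd (nat_lit 78) (nat_lit 0) (nat_lit 0) (XT.lf (nat_lit 0) (nat_lit 4621614545) (nat_lit 152) (nat_lit 6940422456) (nat_lit 228) (nat_lit 18168966114) (nat_lit 28) (nat_lit 5) (nat_lit 30) (nat_lit 5) (nat_lit 31) (nat_lit 5) (nat_lit 355) (nat_lit 274) (nat_lit 151)) (XT.nd (nat_lit 78) (nat_lit 0) (nat_lit 0) (XT.lf (nat_lit 0) (nat_lit 14752792172) (nat_lit 152) (nat_lit 980354901) (nat_lit 228) (nat_lit 14699300489) (nat_lit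 28) (nat_lit 5) (nat_lit 30) (nat_lit 5) (nat_lit 31) (nat_lit 5) (nat_lit 356) (nat_lit 274) (nat_lit 150)) (XT.lf (nat_lit 0) (nat_lit 20070007474) (nat_lit 228) (nat_lit 6031115168) (nat_lit 76) (nat_lit 5052603701) (nat_lit 28) (nat_lit 5) (nat_lit 31) (nat_lit 5) (nat_lit 29) (nat_lit 5) (nat_lit 357) (nat_lit 274) (nat_lit 149)))) (XT.nd (nat_lit 78) (nat_lit 76) (nat_lit 0) (XT.lf (nat_lit 0) (nat_lit 3960380177) (nat_lit 152) (nat_lit 20615661074) (nat_lit 228) (nat_lit 7319439448) (nat_lit 26) (nat_lit 5) (nat_lit 28) (nat_lit 5) (nat_lit 29) (nat_lit 5) (nat_lit 358) (nat_lit 274) (nat_lit 148)) (XT.nd (nat_lit 78) (nat_lit 76) (nat_lit 0) (XT.lf (nat_lit 0) (nat_lit 14361314451) (nat_lit 152) (nat_lit 14908255178) (nat_lit 228) (nat_lit 3388357616) (nat_lit 26) (nat_lit 5) (nat_lit 28) (nat_lit 5) (nat_lit 29) (nat_lit 5) (nat_lit 359) (nat_lit 274) (nat_lit 147)) (XT.lf (nat_lit 0)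 (nat_lit 639335092) (nat_lit 228) (nat_lit 8389029215) (nat_lit 76) (nat_lit 24414953706) (nat_lit 25) (nat_lit 5) (nat_lit 28) (nat_lit 5) (nat_lit 26) (nat_lit 5) (nat_lit 360) (nat_lit 274) (nat_lit 146))))) (XT.nd (nat_lit 234) (nat_lit 152) (nat_lit 0) (XT.nd (nat_lit 78) (nat_lit 0) (nat_lit 0) (XT.lf (nat_lit 0) (nat_lit 1804129971) (nat_lit 152) (nat_lit 2924784120) (nat_lit 228) (nat_lit 29522083434) (nat_lit 23) (nat_lit 5) (nat_lit 25) (nat_lit 5) (nat_lit 26) (nat_lit 5) (nat_lit 361) (nat_lit 274) (nat_lit 145)) (XT.nd (nat_lit 78) (nat_lit 0) (nat_lit 0) (XT.lf (nat_lit 0) (nat_lit 9050926977) (nat_lit 228) (nat_lit 22651850108) (nat_lit 76) (nat_lit 3376845908) (nat_lit 23) (nat_lit 5) (nat_lit 26) (nat_lit 5) (nat_lit 24) (nat_lit 5) (nat_lit 362) (nat_lit 274) (nat_lit 144)) (XT.lf (nat_lit 0) (nat_lit 13523673419) (nat_lit 228) (nat_lit 12604930168) (nat_lit 76) (nat_lit 9803879180)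 (nat_lit 23) (nat_lit 5) (nat_lit 26) (nat_lit 5) (nat_lit 24) (nat_lit 5) (nat_lit 363) (nat_lit 274) (nat_lit 143)))) (XT.nd (nat_lit 78) (nat_lit 152) (nat_lit 0) (XT.lf (nat_lit 0) (nat_lit 18122946827) (nat_lit 228) (nat_lit 2269214056) (nat_lit 76) (nat_lit 16419004622) (nat_lit 23) (nat_lit 5) (nat_lit 26) (nat_lit 5) (nat_lit 24) (nat_lit 5) (nat_lit 364) (nat_lit 274) (nat_lit 142)) (XT.nd (nat_lit 78) (nat_lit 0) (nat_lit 0) (XT.lf (nat_lit 0) (nat_lit 8530795991) (nat_lit 152) (nat_lit 14403973223) (nat_lit 228) (nat_lit 14779209680) (nat_lit 21) (nat_lit 5) (nat_lit 23) (nat_lit 5) (nat_lit 24) (nat_lit 5) (nat_lit 365) (nat_lit 274) (nat_lit 141)) (XT.lf (nat_lit 0) (nat_lit 19689198940) (nat_lit 152) (nat_lit 8217329429) (nat_lit 228) (nat_lit 10736887932) (nat_lit 21) (nat_lit 5) (nat_lit 23) (nat_lit 5) (nat_lit 24) (nat_lit 5) (nat_lit 366) (nat_lit 274) (nat_lit 140))))))) (XT.nd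 (nat_lit 858) (nat_lit 304) (nat_lit 0) (XT.nd (nat_lit 390) (nat_lit 228) (nat_lit 0) (XT.nd (nat_lit 156) (nat_lit 76) (nat_lit 0) (XT.nd (nat_lit 78) (nat_lit 76) (nat_lit 0) (XT.lf (nat_lit 0) (nat_lit 31170583041) (nat_lit 152) (nat_lit 1849738307) (nat_lit 228) (nat_lit 6580635922) (nat_lit 21) (nat_lit 5) (nat_lit 23) (nat_lit 5) (nat_lit 24) (nat_lit 5) (nat_lit 367) (nat_lit 274) (nat_lit 139)) (XT.lf (nat_lit 0) (nat_lit 2399136653) (nat_lit 76) (nat_lit 35949763056) (nat_lit 152) (nat_lit 2236490284) (nat_lit 20) (nat_lit 5) (nat_lit 21) (nat_lit 5) (nat_lit 22) (nat_lit 4) (nat_lit 368) (nat_lit 274) (nat_lit 138))) (XT.nd (nat_lit 78) (nat_lit 0) (nat_lit 0) (XT.lf (nat_lit 0) (nat_lit 2291658897) (nat_lit 152) (nat_lit 27922753804) (nat_lit 76) (nat_lit 11381383396) (nat_lit 19) (nat_lit 5) (nat_lit 21) (nat_lit 5) (nat_lit 20) (nat_lit 5) (nat_lit 369) (nat_lit 274) (nat_lit 137))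 (XT.nd (nat_lit 78) (nat_lit 0) (nat_lit 0) (XT.lf (nat_lit 0) (nat_lit 6903966222) (nat_lit 152) (nat_lit 17384783368) (nat_lit 76) (nat_lit 18347308648) (nat_lit 19) (nat_lit 5) (nat_lit 21) (nat_lit 5) (nat_lit 20) (nat_lit 5) (nat_lit 370) (nat_lit 274) (nat_lit 136)) (XT.lf (nat_lit 0) (nat_lit 11648103843) (nat_lit 152) (nat_lit 6541635586) (nat_lit 76) (nat_lit 25517990911) (nat_lit 19) (nat_lit 5) (nat_lit 21) (nat_lit 5) (nat_lit 20) (nat_lit 5) (nat_lit 371) (nat_lit 274) (nat_lit 135))))) (XT.nd (nat_lit 234) (nat_lit 76) (nat_lit 0) (XT.nd (nat_lit 78) (nat_lit 0) (nat_lit 0) (XT.lf (nat_lit 0) (nat_lit 4708034855) (nat_lit 152) (nat_lit 11865438778) (nat_lit 228) (nat_lit 28236917486) (nat_lit 17) (nat_lit 5) (nat_lit 19) (nat_lit 5) (nat_lit 20) (nat_lit 5) (nat_lit 372) (nat_lit 274) (nat_lit 134)) (XT.nd (nat_lit 78) (nat_lit 0) (nat_lit 0) (XT.lf (nat_lit 0) (nat_lit 16418754374)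 (nat_lit 152) (nat_lit 5287642975) (nat_lit 228) (nat_lit 24237946177) (nat_lit 17) (nat_lit 5) (nat_lit 19) (nat_lit 5) (nat_lit 20) (nat_lit 5) (nat_lit 373) (nat_lit 274) (nat_lit 133)) (XT.lf (nat_lit 0) (nat_lit 27001485136) (nat_lit 228) (nat_lit 18656196892) (nat_lit 76) (nat_lit 1454392610) (nat_lit 17) (nat_lit 5) (nat_lit 20) (nat_lit 5) (nat_lit 18) (nat_lit 4) (nat_lit 374) (nat_lit 274) (nat_lit 132)))) (XT.nd (nat_lit 78) (nat_lit 76) (nat_lit 0) (XT.lf (nat_lit 0) (nat_lit 32501834504) (nat_lit 228) (nat_lit 7523152690) (nat_lit 76) (nat_lit 8288463489) (nat_lit 17) (nat_lit 5) (nat_lit 20) (nat_lit 5) (nat_lit 18) (nat_lit 4) (nat_lit 375) (nat_lit 274) (nat_lit 131)) (XT.nd (nat_lit 78) (nat_lit 0) (nat_lit 0) (XT.lf (nat_lit 0) (nat_lit 4012395708) (nat_lit 76) (nat_lit 34187597419) (nat_lit 152) (nat_lit 11349896033) (nat_lit 16) (nat_lit 5) (nat_lit 17) (nat_lit 5) (nat_lit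 18) (nat_lit 4) (nat_lit 376) (nat_lit 274) (nat_lit 130)) (XT.lf (nat_lit 0) (nat_lit 16038540306) (nat_lit 76) (nat_lit 28100829426) (nat_lit 152) (nat_lit 6681947828) (nat_lit 16) (nat_lit 5) (nat_lit 17) (nat_lit 5) (nat_lit 18) (nat_lit 4) (nat_lit 377) (nat_lit 274) (nat_lit 129)))))) (XT.nd (nat_lit 468) (nat_lit 76) (nat_lit 0) (XT.nd (nat_lit 234) (nat_lit 152) (nat_lit 0) (XT.nd (nat_lit 78) (nat_lit 76) (nat_lit 0) (XT.lf (nat_lit 0) (nat_lit 28416063896) (nat_lit 76) (nat_lit 21835333770) (nat_lit 152) (nat_lit 1879661865) (nat_lit 16) (nat_lit 5) (nat_lit 17) (nat_lit 5) (nat_lit 18) (nat_lit 4) (nat_lit 378) (nat_lit 274) (nat_lit 128)) (XT.nd (nat_lit 78) (nat_lit 0) (nat_lit 0) (XT.lf (nat_lit 0) (nat_lit 3001423808) (nat_lit 152) (nat_lit 12353903443) (nat_lit 76) (nat_lit 38124049486) (nat_lit 15) (nat_lit 5) (nat_lit 17) (nat_lit 5) (nat_lit 16) (nat_lit 5) (nat_lit 379) (nat_lit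 274) (nat_lit 127)) (XT.lf (nat_lit 0) (nat_lit 7985894120) (nat_lit 152) (nat_lit 679563705) (nat_lit 76) (nat_lit 46202289787) (nat_lit 15) (nat_lit 5) (nat_lit 17) (nat_lit 5) (nat_lit 16) (nat_lit 5) (nat_lit 380) (nat_lit 274) (nat_lit 126)))) (XT.nd (nat_lit 78) (nat_lit 0) (nat_lit 0) (XT.lf (nat_lit 0) (nat_lit 11561907373) (nat_lit 152) (nat_lit 1664016158) (nat_lit 228) (nat_lit 43068669616) (nat_lit 13) (nat_lit 5) (nat_lit 15) (nat_lit 5) (nat_lit 16) (nat_lit 5) (nat_lit 381) (nat_lit 274) (nat_lit 125)) (XT.nd (nat_lit 78) (nat_lit 0) (nat_lit 0) (XT.lf (nat_lit 0) (nat_lit 18678326203) (nat_lit 228) (nat_lit 33641627926) (nat_lit 76) (nat_lit 5442638905) (nat_lit 13) (nat_lit 5) (nat_lit 16) (nat_lit 5) (nat_lit 14) (nat_lit 4) (nat_lit 382) (nat_lit 274) (nat_lit 124)) (XT.lf (nat_lit 0) (nat_lit 24305840936) (nat_lit 228) (nat_lit 22242808033) (nat_lit 76) (nat_lit 12725641787)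 (nat_lit 13) (nat_lit 5) (nat_lit 16) (nat_lit 5) (nat_lit 14) (nat_lit 4) (nat_lit 383) (nat_lit 274) (nat_lit 123))))) (XT.nd (nat_lit 234) (nat_lit 0) (nat_lit 0) (XT.nd (nat_lit 78) (nat_lit 76) (nat_lit 0) (XT.lf (nat_lit 0) (nat_lit 30097389433) (nat_lit 228) (nat_lit 10510270422) (nat_lit 76) (nat_lit 20223827224) (nat_lit 13) (nat_lit 5) (nat_lit 16) (nat_lit 5) (nat_lit 14) (nat_lit 4) (nat_lit 384) (nat_lit 274) (nat_lit 122)) (XT.nd (nat_lit 78) (nat_lit 0) (nat_lit 0) (XT.lf (nat_lit 0) (nat_lit 1597407820) (nat_lit 76) (nat_lit 34475979714) (nat_lit 152) (nat_lit 26361694469) (nat_lit 12) (nat_lit 5) (nat_lit 13) (nat_lit 5) (nat_lit 14) (nat_lit 4) (nat_lit 385) (nat_lit 274) (nat_lit 121)) (XT.lf (nat_lit 0) (nat_lit 14275838468) (nat_lit 76) (nat_lit 28054367407) (nat_lit 152) (nat_lit 21753536384) (nat_lit 12) (nat_lit 5) (nat_lit 13) (nat_lit 5) (nat_lit 14) (nat_lit 4) (nat_lit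 386) (nat_lit 274) (nat_lit 120)))) (XT.nd (nat_lit 78) (nat_lit 0) (nat_lit 0) (XT.lf (nat_lit 0) (nat_lit 27326924773) (nat_lit 76) (nat_lit 21443344940) (nat_lit 152) (nat_lit 17011729969) (nat_lit 12) (nat_lit 5) (nat_lit 13) (nat_lit 5) (nat_lit 14) (nat_lit 4) (nat_lit 387) (nat_lit 274) (nat_lit 119)) (XT.nd (nat_lit 78) (nat_lit 0) (nat_lit 0) (XT.lf (nat_lit 0) (nat_lit 40762070597) (nat_lit 76) (nat_lit 14637135691) (nat_lit 152) (nat_lit 12132131897) (nat_lit 12) (nat_lit 5) (nat_lit 13) (nat_lit 5) (nat_lit 14) (nat_lit 4) (nat_lit 388) (nat_lit 274) (nat_lit 118)) (XT.lf (nat_lit 0) (nat_lit 54593015386) (nat_lit 76) (nat_lit 7629792488) (nat_lit 152) (nat_lit 7110478443) (nat_lit 12) (nat_lit 5) (nat_lit 13) (nat_lit 5) (nat_lit 14) (nat_lit 4) (nat_lit 389) (nat_lit 274) (nat_lit 117))))))))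
noncomputable def xc151 : XT := (XT.nd (nat_lit 33072) (nat_lit 0) (nat_lit 6080) (XT.nd (nat_lit 32136) (nat_lit 0) (nat_lit 12996) (XT.nd (nat_lit 31668) (nat_lit 0) (nat_lit 14516) (XT.nd (nat_lit 156) (nat_lit 0) (nat_lit 0) (XT.nd (nat_lit 78) (nat_lit 152) (nat_lit 0) (XT.lf (nat_lit 0) (nat_lit 68831844434) (nat_lit 76) (nat_lit 415192408) (nat_lit 152) (nat_lit 1942381753) (nat_lit 12) (nat_lit 5) (nat_lit 13) (nat_lit 5) (nat_lit 14) (nat_lit 4) (nat_lit 390) (nat_lit 274) (nat_lit 116)) (XT.lf (nat_lit 0) (nat_lit 3481063604) (nat_lit 152) (nat_lit 62602764404) (nat_lit 76) (nat_lit 7011446694) (nat_lit 10) (nat_lit 5) (nat_lit 12) (nat_lit 5) (nat_lit 11) (nat_lit 4) (nat_lit 391) (nat_lit 274) (nat_lit 115))) (XT.nd (nat_lit 78) (nat_lit 0) (nat_lit 0) (XT.lf (nat_lit 0) (nat_lit 9052344478) (nat_lit 152) (nat_lit 51311692633) (nat_lit 76) (nat_lit 14692970277) (nat_lit 10) (nat_lit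 5) (nat_lit 12) (nat_lit 5) (nat_lit 11) (nat_lit 4) (nat_lit 392) (nat_lit 274) (nat_lit 114)) (XT.nd (nat_lit 78) (nat_lit 0) (nat_lit 0) (XT.lf (nat_lit 0) (nat_lit 14786898437) (nat_lit 152) (nat_lit 39688633922) (nat_lit 76) (nat_lit 22602178572) (nat_lit 10) (nat_lit 5) (nat_lit 12) (nat_lit 5) (nat_lit 11) (nat_lit 4) (nat_lit 393) (nat_lit 274) (nat_lit 113)) (XT.lf (nat_lit 0) (nat_lit 20689736259) (nat_lit 152) (nat_lit 27723432200) (nat_lit 76) (nat_lit 30745982537) (nat_lit 10) (nat_lit 5) (nat_lit 12) (nat_lit 5) (nat_lit 11) (nat_lit 4) (nat_lit 394) (nat_lit 274) (nat_lit 112))))) (XT.nd (nat_lit 234) (nat_lit 760) (nat_lit 0) (XT.nd (nat_lit 78) (nat_lit 0) (nat_lit 0) (XT.lf (nat_lit 0) (nat_lit 558178232) (nat_lit 836) (nat_lit 1579110080) (nat_lit 836) (nat_lit 1579110080) (nat_lit 211) (nat_lit 3) (nat_lit 222) (nat_lit 3) (nat_lit 222) (nat_lit 5) (nat_lit 275) (nat_lit 275)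 (nat_lit 230)) (XT.nd (nat_lit 78) (nat_lit 0) (nat_lit 0) (XT.lf (nat_lit 76) (nat_lit 54307090) (nat_lit 0) (nat_lit 2433051328) (nat_lit 836) (nat_lit 5012712111) (nat_lit 212) (nat_lit 5) (nat_lit 211) (nat_lit 3) (nat_lit 222) (nat_lit 5) (nat_lit 276) (nat_lit 275) (nat_lit 229)) (XT.lf (nat_lit 76) (nat_lit 3400128886) (nat_lit 0) (nat_lit 478153462) (nat_lit 836) (nat_lit 3691856509) (nat_lit 212) (nat_lit 5) (nat_lit 211) (nat_lit 3) (nat_lit 222) (nat_lit 5) (nat_lit 277) (nat_lit 275) (nat_lit 228)))) (XT.nd (nat_lit 78) (nat_lit 836) (nat_lit 0) (XT.lf (nat_lit 0) (nat_lit 5274375714) (nat_lit 760) (nat_lit 839672927) (nat_lit 836) (nat_lit 1529493387) (nat_lit 212) (nat_lit 5) (nat_lit 222) (nat_lit 5) (nat_lit 223) (nat_lit 5) (nat_lit 278) (nat_lit 275) (nat_lit 227)) (XT.nd (nat_lit 78) (nat_lit 836) (nat_lit 0) (XT.lf (nat_lit 76) (nat_lit 2608657042) (nat_lit 0) (nat_lit 4083682318)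 (nat_lit 836) (nat_lit 1027540394) (nat_lit 213) (nat_lit 5) (nat_lit 212) (nat_lit 5) (nat_lit 223) (nat_lit 5) (nat_lit 279) (nat_lit 275) (nat_lit 226)) (XT.lf (nat_lit 0) (nat_lit 306736739) (nat_lit 836) (nat_lit 1653010408) (nat_lit 912) (nat_lit 5840003280) (nat_lit 201) (nat_lit 5) (nat_lit 212) (nat_lit 5) (nat_lit 213) (nat_lit 5) (nat_lit 280) (nat_lit 275) (nat_lit 225)))))) (XT.nd (nat_lit 468) (nat_lit 760) (nat_lit 0) (XT.nd (nat_lit 234) (nat_lit 836) (nat_lit 0) (XT.nd (nat_lit 78) (nat_lit 0) (nat_lit 0) (XT.lf (nat_lit 0) (nat_lit 1633580790) (nat_lit 836) (nat_lit 5977448946) (nat_lit 912) (nat_lit 271607416) (nat_lit 202) (nat_lit 5) (nat_lit 213) (nat_lit 5) (nat_lit 214) (nat_lit 5) (nat_lit 281) (nat_lit 275) (nat_lit 224)) (XT.nd (nat_lit 78) (nat_lit 0) (nat_lit 0) (XT.lf (nat_lit 0) (nat_lit 2989986077) (nat_lit 836) (nat_lit 2412559108) (nat_lit 912) (nat_lit 2565889970)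 (nat_lit 202) (nat_lit 5) (nat_lit 213) (nat_lit 5) (nat_lit 214) (nat_lit 5) (nat_lit 282) (nat_lit 275) (nat_lit 223)) (XT.lf (nat_lit 76) (nat_lit 1255130154) (nat_lit 0) (nat_lit 3098868005) (nat_lit 912) (nat_lit 3703915437) (nat_lit 203) (nat_lit 5) (nat_lit 202) (nat_lit 5) (nat_lit 214) (nat_lit 5) (nat_lit 283) (nat_lit 275) (nat_lit 222)))) (XT.nd (nat_lit 78) (nat_lit 836) (nat_lit 0) (XT.lf (nat_lit 76) (nat_lit 5053946588) (nat_lit 0) (nat_lit 685238151) (nat_lit 912) (nat_lit 2411594644) (nat_lit 203) (nat_lit 5) (nat_lit 202) (nat_lit 5) (nat_lit 214) (nat_lit 5) (nat_lit 284) (nat_lit 275) (nat_lit 221)) (XT.nd (nat_lit 78) (nat_lit 912) (nat_lit 0) (XT.lf (nat_lit 76) (nat_lit 687326487) (nat_lit 0) (nat_lit 6459841532) (nat_lit 912) (nat_lit 1099933290) (nat_lit 204) (nat_lit 5) (nat_lit 203) (nat_lit 5) (nat_lit 215) (nat_lit 5) (nat_lit 285) (nat_lit 275) (nat_lit 220)) (XT.lf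 (nat_lit 0) (nat_lit 242319349) (nat_lit 912) (nat_lit 3736118103) (nat_lit 988) (nat_lit 4368020039) (nat_lit 191) (nat_lit 5) (nat_lit 203) (nat_lit 5) (nat_lit 204) (nat_lit 5) (nat_lit 286) (nat_lit 275) (nat_lit 219))))) (XT.nd (nat_lit 234) (nat_lit 760) (nat_lit 0) (XT.nd (nat_lit 78) (nat_lit 0) (nat_lit 76) (XT.lf (nat_lit 76) (nat_lit 165729460) (nat_lit 0) (nat_lit 1397600272) (nat_lit 988) (nat_lit 6886418263) (nat_lit 192) (nat_lit 5) (nat_lit 191) (nat_lit 5) (nat_lit 204) (nat_lit 5) (nat_lit 287) (nat_lit 275) (nat_lit 218)) (XT.nd (nat_lit 78) (nat_lit 0) (nat_lit 0) (XT.lf (nat_lit 0) (nat_lit 2934224159) (nat_lit 912) (nat_lit 4336265633) (nat_lit 988) (nat_lit 1285435231) (nat_lit 192) (nat_lit 5) (nat_lit 204) (nat_lit 5) (nat_lit 205) (nat_lit 5) (nat_lit 288) (nat_lit 275) (nat_lit 217)) (XT.lf (nat_lit 0) (nat_lit 4321281559) (nat_lit 912) (nat_lit 313032001) (nat_lit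 988) (nat_lit 4031815359) (nat_lit 192) (nat_lit 5) (nat_lit 204) (nat_lit 5) (nat_lit 205) (nat_lit 5) (nat_lit 289) (nat_lit 275) (nat_lit 216)))) (XT.nd (nat_lit 78) (nat_lit 836) (nat_lit 0) (XT.lf (nat_lit 76) (nat_lit 3878312238) (nat_lit 0) (nat_lit 1871247808) (nat_lit 988) (nat_lit 3030180546) (nat_lit 193) (nat_lit 5) (nat_lit 192) (nat_lit 5) (nat_lit 205) (nat_lit 5) (nat_lit 290) (nat_lit 275) (nat_lit 215)) (XT.nd (nat_lit 78) (nat_lit 912) (nat_lit 0) (XT.lf (nat_lit 0) (nat_lit 7196490645) (nat_lit 912) (nat_lit 733519789) (nat_lit 76) (nat_lit 967563393) (nat_lit 193) (nat_lit 5) (nat_lit 205) (nat_lit 5) (nat_lit 194) (nat_lit 5) (nat_lit 291) (nat_lit 275) (nat_lit 214)) (XT.lf (nat_lit 0) (nat_lit 3582389736) (nat_lit 912) (nat_lit 5121715316) (nat_lit 988) (nat_lit 314403509) (nat_lit 181) (nat_lit 5) (nat_lit 193) (nat_lit 5) (nat_lit 194) (nat_lit 5) (nat_lit 292) (nat_lit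 275) (nat_lit 213))))))) (XT.nd (nat_lit 936) (nat_lit 2356) (nat_lit 0) (XT.nd (nat_lit 468) (nat_lit 1596) (nat_lit 0) (XT.nd (nat_lit 234) (nat_lit 1900) (nat_lit 0) (XT.nd (nat_lit 78) (nat_lit 988) (nat_lit 0) (XT.lf (nat_lit 0) (nat_lit 1064276373) (nat_lit 988) (nat_lit 1139735933) (nat_lit 76) (nat_lit 6939653660) (nat_lit 180) (nat_lit 5) (nat_lit 193) (nat_lit 5) (nat_lit 181) (nat_lit 5) (nat_lit 293) (nat_lit 275) (nat_lit 212)) (XT.nd (nat_lit 78) (nat_lit 0) (nat_lit 0) (XT.lf (nat_lit 0) (nat_lit 2483695927) (nat_lit 1064) (nat_lit 5961626534) (nat_lit 76) (nat_lit 827068874) (nat_lit 167) (nat_lit 5) (nat_lit 181) (nat_lit 5) (nat_lit 168) (nat_lit 5) (nat_lit 294) (nat_lit 275) (nat_lit 211)) (XT.lf (nat_lit 0) (nat_lit 3945615406) (nat_lit 1064) (nat_lit 1537365040) (nat_lit 76) (nat_lit 3922075826) (nat_lit 167) (nat_lit 5) (nat_lit 181) (nat_lit 5) (nat_lit 168) (nat_lit 5)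 (nat_lit 295) (nat_lit 275) (nat_lit 210)))) (XT.nd (nat_lit 78) (nat_lit 836) (nat_lit 0) (XT.lf (nat_lit 0) (nat_lit 3051064450) (nat_lit 1064) (nat_lit 2397105633) (nat_lit 1140) (nat_lit 4093700876) (nat_lit 153) (nat_lit 5) (nat_lit 167) (nat_lit 5) (nat_lit 168) (nat_lit 5) (nat_lit 296) (nat_lit 275) (nat_lit 209)) (XT.nd (nat_lit 78) (nat_lit 836) (nat_lit 0) (XT.lf (nat_lit 0) (nat_lit 6987158739) (nat_lit 1140) (nat_lit 1910215209) (nat_lit 76) (nat_lit 785746421) (nat_lit 153) (nat_lit 5) (nat_lit 168) (nat_lit 5) (nat_lit 154) (nat_lit 5) (nat_lit 297) (nat_lit 275) (nat_lit 208)) (XT.lf (nat_lit 0) (nat_lit 2810863902) (nat_lit 836) (nat_lit 5781302234) (nat_lit 912) (nat_lit 1235914586) (nat_lit 142) (nat_lit 5) (nat_lit 153) (nat_lit 5) (nat_lit 154) (nat_lit 5) (nat_lit 298) (nat_lit 275) (nat_lit 207))))) (XT.nd (nat_lit 234) (nat_lit 988) (nat_lit 0) (XT.nd (nat_lit 78) (nat_lit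 532) (nat_lit 0) (XT.lf (nat_lit 0) (nat_lit 251549382) (nat_lit 912) (nat_lit 2295290834) (nat_lit 76) (nat_lit 7430872062) (nat_lit 141) (nat_lit 5) (nat_lit 153) (nat_lit 5) (nat_lit 142) (nat_lit 5) (nat_lit 299) (nat_lit 275) (nat_lit 206)) (XT.nd (nat_lit 78) (nat_lit 0) (nat_lit 0) (XT.lf (nat_lit 0) (nat_lit 1761770631) (nat_lit 608) (nat_lit 7560847519) (nat_lit 76) (nat_lit 808821394) (nat_lit 134) (nat_lit 5) (nat_lit 142) (nat_lit 5) (nat_lit 135) (nat_lit 5) (nat_lit 300) (nat_lit 275) (nat_lit 205)) (XT.lf (nat_lit 0) (nat_lit 3336798670) (nat_lit 608) (nat_lit 2713325886) (nat_lit 76) (nat_lit 4239130312) (nat_lit 134) (nat_lit 5) (nat_lit 142) (nat_lit 5) (nat_lit 135) (nat_lit 5) (nat_lit 301) (nat_lit 275) (nat_lit 204)))) (XT.nd (nat_lit 78) (nat_lit 456) (nat_lit 0) (XT.lf (nat_lit 0) (nat_lit 2296968318) (nat_lit 532) (nat_lit 2655913844) (nat_lit 608) (nat_lit 5499167813)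 (nat_lit 127) (nat_lit 5) (nat_lit 134) (nat_lit 5) (nat_lit 135) (nat_lit 5) (nat_lit 302) (nat_lit 275) (nat_lit 203)) (XT.nd (nat_lit 78) (nat_lit 456) (nat_lit 0) (XT.lf (nat_lit 0) (nat_lit 6625486148) (nat_lit 608) (nat_lit 3142161988) (nat_lit 76) (nat_lit 851897391) (nat_lit 127) (nat_lit 5) (nat_lit 135) (nat_lit 5) (nat_lit 128) (nat_lit 5) (nat_lit 303) (nat_lit 275) (nat_lit 202)) (XT.lf (nat_lit 0) (nat_lit 2006726149) (nat_lit 456) (nat_lit 6360226857) (nat_lit 532) (nat_lit 2424608447) (nat_lit 121) (nat_lit 5) (nat_lit 127) (nat_lit 5) (nat_lit 128) (nat_lit 5) (nat_lit 304) (nat_lit 275) (nat_lit 201)))))) (XT.nd (nat_lit 468) (nat_lit 836) (nat_lit 0) (XT.nd (nat_lit 234) (nat_lit 912) (nat_lit 0) (XT.nd (nat_lit 78) (nat_lit 608) (nat_lit 0) (XT.lf (nat_lit 0) (nat_lit 7347478237) (nat_lit 456) (nat_lit 2818537864) (nat_lit 532) (nat_lit 802615605) (nat_lit 121) (nat_lit 5)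 (nat_lit 127) (nat_lit 5) (nat_lit 128) (nat_lit 5) (nat_lit 305) (nat_lit 275) (nat_lit 200)) (XT.nd (nat_lit 78) (nat_lit 0) (nat_lit 0) (XT.lf (nat_lit 0) (nat_lit 849689264) (nat_lit 608) (nat_lit 9463928201) (nat_lit 76) (nat_lit 837239848) (nat_lit 113) (nat_lit 5) (nat_lit 121) (nat_lit 5) (nat_lit 114) (nat_lit 5) (nat_lit 306) (nat_lit 275) (nat_lit 199)) (XT.lf (nat_lit 0) (nat_lit 2574840906) (nat_lit 608) (nat_lit 4172516457) (nat_lit 76) (nat_lit 4589821441) (nat_lit 113) (nat_lit 5) (nat_lit 121) (nat_lit 5) (nat_lit 114) (nat_lit 5) (nat_lit 307) (nat_lit 275) (nat_lit 198)))) (XT.nd (nat_lit 78) (nat_lit 456) (nat_lit 0) (XT.lf (nat_lit 0) (nat_lit 1276000119) (nat_lit 456) (nat_lit 3063327715) (nat_lit 532) (nat_lit 7190183033) (nat_lit 107) (nat_lit 5) (nat_lit 113) (nat_lit 5) (nat_lit 114) (nat_lit 5) (nat_lit 308) (nat_lit 275) (nat_lit 197)) (XT.nd (nat_lit 78) (nat_lit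 456) (nat_lit 0) (XT.lf (nat_lit 0) (nat_lit 6182091388) (nat_lit 532) (nat_lit 4787320733) (nat_lit 76) (nat_lit 757487451) (nat_lit 107) (nat_lit 5) (nat_lit 114) (nat_lit 5) (nat_lit 108) (nat_lit 5) (nat_lit 309) (nat_lit 275) (nat_lit 196)) (XT.lf (nat_lit 0) (nat_lit 801930425) (nat_lit 456) (nat_lit 7292713668) (nat_lit 532) (nat_lit 3835176230) (nat_lit 101) (nat_lit 5) (nat_lit 107) (nat_lit 5) (nat_lit 108) (nat_lit 5) (nat_lit 310) (nat_lit 275) (nat_lit 195))))) (XT.nd (nat_lit 234) (nat_lit 380) (nat_lit 0) (XT.nd (nat_lit 78) (nat_lit 456) (nat_lit 0) (XT.lf (nat_lit 0) (nat_lit 6631008655) (nat_lit 456) (nat_lit 3458810516) (nat_lit 532) (nat_lit 2048296398) (nat_lit 101) (nat_lit 5) (nat_lit 107) (nat_lit 5) (nat_lit 108) (nat_lit 5) (nat_lit 311) (nat_lit 275) (nat_lit 194)) (XT.nd (nat_lit 78) (nat_lit 76) (nat_lit 0) (XT.lf (nat_lit 0) (nat_lit 256679371) (nat_lit 380) (nat_lit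 11872897722) (nat_lit 456) (nat_lit 223583708) (nat_lit 96) (nat_lit 5) (nat_lit 101) (nat_lit 5) (nat_lit 102) (nat_lit 5) (nat_lit 312) (nat_lit 275) (nat_lit 193)) (XT.lf (nat_lit 0) (nat_lit 1691662669) (nat_lit 456) (nat_lit 6343580975) (nat_lit 76) (nat_lit 4536933593) (nat_lit 95) (nat_lit 5) (nat_lit 101) (nat_lit 5) (nat_lit 96) (nat_lit 5) (nat_lit 313) (nat_lit 275) (nat_lit 192)))) (XT.nd (nat_lit 78) (nat_lit 380) (nat_lit 0) (XT.lf (nat_lit 0) (nat_lit 3638219296) (nat_lit 456) (nat_lit 445693574) (nat_lit 76) (nat_lit 8714473794) (nat_lit 95) (nat_lit 5) (nat_lit 101) (nat_lit 5) (nat_lit 96) (nat_lit 5) (nat_lit 314) (nat_lit 275) (nat_lit 191)) (XT.nd (nat_lit 78) (nat_lit 0) (nat_lit 0) (XT.lf (nat_lit 0) (nat_lit 5677470085) (nat_lit 456) (nat_lit 7314753344) (nat_lit 76) (nat_lit 38168189) (nat_lit 90) (nat_lit 5) (nat_lit 96) (nat_lit 5) (nat_lit 91) (nat_lit 5) (nat_lit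 315) (nat_lit 275) (nat_lit 190)) (XT.lf (nat_lit 0) (nat_lit 7802197282) (nat_lit 456) (nat_lit 1263780263) (nat_lit 76) (nat_lit 4202687264) (nat_lit 90) (nat_lit 5) (nat_lit 96) (nat_lit 5) (nat_lit 91) (nat_lit 5) (nat_lit 316) (nat_lit 275) (nat_lit 189))))))))
noncomputable def xc152 : XT := (XT.nd (nat_lit 1794) (nat_lit 1824) (nat_lit 0) (XT.nd (nat_lit 858) (nat_lit 1444) (nat_lit 0) (XT.nd (nat_lit 390) (nat_lit 684) (nat_lit 0) (XT.nd (nat_lit 156) (nat_lit 760) (nat_lit 0) (XT.nd (nat_lit 78) (nat_lit 0) (nat_lit 0) (XT.lf (nat_lit 0) (nat_lit 5042829090) (nat_lit 380) (nat_lit 4976233238) (nat_lit 456) (nat_lit 3494207963) (nat_lit 85) (nat_lit 5) (nat_lit 90) (nat_lit 5) (nat_lit 91) (nat_lit 5) (nat_lit 317) (nat_lit 275) (nat_lit 188)) (XT.lf (nat_lit 0) (nat_lit 11540484505) (nat_lit 380) (nat_lit 754985351) (nat_lit 456) (nat_lit 1469987915) (nat_lit 85) (nat_lit 5) (nat_lit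 90) (nat_lit 5) (nat_lit 91) (nat_lit 5) (nat_lit 318) (nat_lit 275) (nat_lit 187))) (XT.nd (nat_lit 78) (nat_lit 304) (nat_lit 0) (XT.lf (nat_lit 0) (nat_lit 659506552) (nat_lit 456) (nat_lit 9798052807) (nat_lit 76) (nat_lit 3565810660) (nat_lit 79) (nat_lit 5) (nat_lit 85) (nat_lit 5) (nat_lit 80) (nat_lit 5) (nat_lit 319) (nat_lit 275) (nat_lit 186)) (XT.nd (nat_lit 78) (nat_lit 304) (nat_lit 0) (XT.lf (nat_lit 0) (nat_lit 2834427098) (nat_lit 456) (nat_lit 3419974154) (nat_lit 76) (nat_lit 8033881119) (nat_lit 79) (nat_lit 5) (nat_lit 85) (nat_lit 5) (nat_lit 80) (nat_lit 5) (nat_lit 320) (nat_lit 275) (nat_lit 185)) (XT.lf (nat_lit 0) (nat_lit 3188260489) (nat_lit 304) (nat_lit 1898459101) (nat_lit 380) (nat_lit 9474089809) (nat_lit 75) (nat_lit 5) (nat_lit 79) (nat_lit 5) (nat_lit 80) (nat_lit 5) (nat_lit 321) (nat_lit 275) (nat_lit 184))))) (XT.nd (nat_lit 234) (nat_lit 380) (nat_lit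 0) (XT.nd (nat_lit 78) (nat_lit 304) (nat_lit 0) (XT.lf (nat_lit 0) (nat_lit 7448082676) (nat_lit 380) (nat_lit 4824548808) (nat_lit 76) (nat_lit 2567665828) (nat_lit 75) (nat_lit 5) (nat_lit 80) (nat_lit 5) (nat_lit 76) (nat_lit 5) (nat_lit 322) (nat_lit 275) (nat_lit 183)) (XT.nd (nat_lit 78) (nat_lit 0) (nat_lit 0) (XT.lf (nat_lit 0) (nat_lit 1915462548) (nat_lit 304) (nat_lit 7984310867) (nat_lit 380) (nat_lit 5227841096) (nat_lit 71) (nat_lit 5) (nat_lit 75) (nat_lit 5) (nat_lit 76) (nat_lit 5) (nat_lit 323) (nat_lit 275) (nat_lit 182)) (XT.lf (nat_lit 0) (nat_lit 8933788653) (nat_lit 304) (nat_lit 3522519419) (nat_lit 380) (nat_lit 2966332759) (nat_lit 71) (nat_lit 5) (nat_lit 75) (nat_lit 5) (nat_lit 76) (nat_lit 5) (nat_lit 324) (nat_lit 275) (nat_lit 181)))) (XT.nd (nat_lit 78) (nat_lit 76) (nat_lit 0) (XT.lf (nat_lit 0) (nat_lit 411250446) (nat_lit 304) (nat_lit 14675589288) (nat_lit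 380) (nat_lit 639786749) (nat_lit 67) (nat_lit 5) (nat_lit 71) (nat_lit 5) (nat_lit 72) (nat_lit 5) (nat_lit 325) (nat_lit 275) (nat_lit 180)) (XT.nd (nat_lit 78) (nat_lit 0) (nat_lit 0) (XT.lf (nat_lit 0) (nat_lit 1806448574) (nat_lit 380) (nat_lit 8461550890) (nat_lit 76) (nat_lit 5768726587) (nat_lit 66) (nat_lit 5) (nat_lit 71) (nat_lit 5) (nat_lit 67) (nat_lit 5) (nat_lit 326) (nat_lit 275) (nat_lit 179)) (XT.lf (nat_lit 0) (nat_lit 4296823324) (nat_lit 380) (nat_lit 1430528916) (nat_lit 76) (nat_lit 10629103222) (nat_lit 66) (nat_lit 5) (nat_lit 71) (nat_lit 5) (nat_lit 67) (nat_lit 5) (nat_lit 327) (nat_lit 275) (nat_lit 178)))))) (XT.nd (nat_lit 468) (nat_lit 532) (nat_lit 0) (XT.nd (nat_lit 234) (nat_lit 380) (nat_lit 0) (XT.nd (nat_lit 78) (nat_lit 228) (nat_lit 0) (XT.lf (nat_lit 0) (nat_lit 5905215544) (nat_lit 304) (nat_lit 997547099) (nat_lit 380) (nat_lit 9781813009) (nat_lit 62)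 (nat_lit 5) (nat_lit 66) (nat_lit 5) (nat_lit 67) (nat_lit 5) (nat_lit 328) (nat_lit 275) (nat_lit 177)) (XT.nd (nat_lit 78) (nat_lit 228) (nat_lit 0) (XT.lf (nat_lit 0) (nat_lit 9623003944) (nat_lit 380) (nat_lit 3590802770) (nat_lit 76) (nat_lit 3807672803) (nat_lit 62) (nat_lit 5) (nat_lit 67) (nat_lit 5) (nat_lit 63) (nat_lit 5) (nat_lit 329) (nat_lit 275) (nat_lit 176)) (XT.lf (nat_lit 0) (nat_lit 3857775108) (nat_lit 228) (nat_lit 8598789335) (nat_lit 304) (nat_lit 4910997789) (nat_lit 59) (nat_lit 5) (nat_lit 62) (nat_lit 5) (nat_lit 63) (nat_lit 5) (nat_lit 330) (nat_lit 275) (nat_lit 175)))) (XT.nd (nat_lit 78) (nat_lit 380) (nat_lit 0) (XT.lf (nat_lit 0) (nat_lit 11582585956) (nat_lit 228) (nat_lit 3813801693) (nat_lit 304) (nat_lit 2327024521) (nat_lit 59) (nat_lit 5) (nat_lit 62) (nat_lit 5) (nat_lit 63) (nat_lit 5) (nat_lit 331) (nat_lit 275) (nat_lit 174)) (XT.nd (nat_lit 78) (nat_lit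 0) (nat_lit 0) (XT.lf (nat_lit 0) (nat_lit 338013424) (nat_lit 380) (nat_lit 16646897162) (nat_lit 76) (nat_lit 1104649535) (nat_lit 54) (nat_lit 5) (nat_lit 59) (nat_lit 5) (nat_lit 55) (nat_lit 5) (nat_lit 332) (nat_lit 275) (nat_lit 173)) (XT.lf (nat_lit 0) (nat_lit 3122061039) (nat_lit 380) (nat_lit 9167446564) (nat_lit 76) (nat_lit 6173939345) (nat_lit 54) (nat_lit 5) (nat_lit 59) (nat_lit 5) (nat_lit 55) (nat_lit 5) (nat_lit 333) (nat_lit 275) (nat_lit 172))))) (XT.nd (nat_lit 234) (nat_lit 304) (nat_lit 0) (XT.nd (nat_lit 78) (nat_lit 228) (nat_lit 0) (XT.lf (nat_lit 0) (nat_lit 5975498763) (nat_lit 380) (nat_lit 1483746299) (nat_lit 76) (nat_lit 11389749176) (nat_lit 54) (nat_lit 5) (nat_lit 59) (nat_lit 5) (nat_lit 55) (nat_lit 5) (nat_lit 334) (nat_lit 275) (nat_lit 171)) (XT.nd (nat_lit 78) (nat_lit 0) (nat_lit 0) (XT.lf (nat_lit 0) (nat_lit 6538507374) (nat_lit 228) (nat_lit 2425164649)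 (nat_lit 304) (nat_lit 10280981292) (nat_lit 51) (nat_lit 5) (nat_lit 54) (nat_lit 5) (nat_lit 55) (nat_lit 5) (nat_lit 335) (nat_lit 275) (nat_lit 170)) (XT.lf (nat_lit 0) (nat_lit 12069589557) (nat_lit 304) (nat_lit 4866290751) (nat_lit 76) (nat_lit 2715477659) (nat_lit 51) (nat_lit 5) (nat_lit 55) (nat_lit 5) (nat_lit 52) (nat_lit 5) (nat_lit 336) (nat_lit 275) (nat_lit 169)))) (XT.nd (nat_lit 78) (nat_lit 76) (nat_lit 0) (XT.lf (nat_lit 0) (nat_lit 3228601154) (nat_lit 228) (nat_lit 12081962889) (nat_lit 304) (nat_lit 4758461561) (nat_lit 48) (nat_lit 5) (nat_lit 51) (nat_lit 5) (nat_lit 52) (nat_lit 5) (nat_lit 337) (nat_lit 275) (nat_lit 168)) (XT.nd (nat_lit 78) (nat_lit 76) (nat_lit 0) (XT.lf (nat_lit 0) (nat_lit 11647132697) (nat_lit 228) (nat_lit 7037808919) (nat_lit 304) (nat_lit 1813214136) (nat_lit 48) (nat_lit 5) (nat_lit 51) (nat_lit 5) (nat_lit 52) (nat_lit 5) (nat_lit 338) (nat_lit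 275) (nat_lit 167)) (XT.lf (nat_lit 0) (nat_lit 1183846518) (nat_lit 304) (nat_lit 652349835) (nat_lit 76) (nat_lit 19104010100) (nat_lit 47) (nat_lit 5) (nat_lit 51) (nat_lit 5) (nat_lit 48) (nat_lit 5) (nat_lit 339) (nat_lit 275) (nat_lit 166))))))) (XT.nd (nat_lit 858) (nat_lit 760) (nat_lit 0) (XT.nd (nat_lit 390) (nat_lit 608) (nat_lit 0) (XT.nd (nat_lit 156) (nat_lit 228) (nat_lit 0) (XT.nd (nat_lit 78) (nat_lit 0) (nat_lit 0) (XT.lf (nat_lit 0) (nat_lit 4332782704) (nat_lit 304) (nat_lit 13517251963) (nat_lit 76) (nat_lit 3542009399) (nat_lit 44) (nat_lit 5) (nat_lit 48) (nat_lit 5) (nat_lit 45) (nat_lit 5) (nat_lit 340) (nat_lit 275) (nat_lit 165)) (XT.lf (nat_lit 0) (nat_lit 7588792363) (nat_lit 304) (nat_lit 5222646230) (nat_lit 76) (nat_lit 9045635775) (nat_lit 44) (nat_lit 5) (nat_lit 48) (nat_lit 5) (nat_lit 45) (nat_lit 5) (nat_lit 341) (nat_lit 275) (nat_lit 164))) (XT.nd (nat_lit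 78) (nat_lit 0) (nat_lit 0) (XT.lf (nat_lit 0) (nat_lit 3368784805) (nat_lit 228) (nat_lit 7594209016) (nat_lit 304) (nat_lit 11372461680) (nat_lit 41) (nat_lit 5) (nat_lit 44) (nat_lit 5) (nat_lit 45) (nat_lit 5) (nat_lit 342) (nat_lit 275) (nat_lit 163)) (XT.nd (nat_lit 78) (nat_lit 0) (nat_lit 0) (XT.lf (nat_lit 0) (nat_lit 12307441925) (nat_lit 228) (nat_lit 2172023390) (nat_lit 304) (nat_lit 8347506256) (nat_lit 41) (nat_lit 5) (nat_lit 44) (nat_lit 5) (nat_lit 45) (nat_lit 5) (nat_lit 343) (nat_lit 275) (nat_lit 162)) (XT.lf (nat_lit 0) (nat_lit 18122828374) (nat_lit 304) (nat_lit 1869144724) (nat_lit 76) (nat_lit 3340632493) (nat_lit 41) (nat_lit 5) (nat_lit 45) (nat_lit 5) (nat_lit 42) (nat_lit 5) (nat_lit 344) (nat_lit 275) (nat_lit 161))))) (XT.nd (nat_lit 234) (nat_lit 152) (nat_lit 0) (XT.nd (nat_lit 78) (nat_lit 304) (nat_lit 0) (XT.lf (nat_lit 0) (nat_lit 7141749401) (nat_lit 152)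 (nat_lit 14812822493) (nat_lit 228) (nat_lit 1896478319) (nat_lit 39) (nat_lit 5) (nat_lit 41) (nat_lit 5) (nat_lit 42) (nat_lit 5) (nat_lit 345) (nat_lit 275) (nat_lit 160)) (XT.nd (nat_lit 78) (nat_lit 228) (nat_lit 0) (XT.lf (nat_lit 0) (nat_lit 1494658530) (nat_lit 228) (nat_lit 7954883597) (nat_lit 76) (nat_lit 14934841195) (nat_lit 38) (nat_lit 5) (nat_lit 41) (nat_lit 5) (nat_lit 39) (nat_lit 5) (nat_lit 346) (nat_lit 275) (nat_lit 159)) (XT.lf (nat_lit 0) (nat_lit 1047394612) (nat_lit 228) (nat_lit 3901371476) (nat_lit 304) (nat_lit 19984419192) (nat_lit 35) (nat_lit 5) (nat_lit 38) (nat_lit 5) (nat_lit 39) (nat_lit 5) (nat_lit 347) (nat_lit 275) (nat_lit 158)))) (XT.nd (nat_lit 78) (nat_lit 152) (nat_lit 0) (XT.lf (nat_lit 0) (nat_lit 8594437423) (nat_lit 304) (nat_lit 15048004396) (nat_lit 76) (nat_lit 1853383676) (nat_lit 35) (nat_lit 5) (nat_lit 39) (nat_lit 5) (nat_lit 36) (nat_lit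 5) (nat_lit 348) (nat_lit 275) (nat_lit 157)) (XT.nd (nat_lit 78) (nat_lit 152) (nat_lit 0) (XT.lf (nat_lit 0) (nat_lit 12377801943) (nat_lit 304) (nat_lit 5999776146) (nat_lit 76) (nat_lit 7696929186) (nat_lit 35) (nat_lit 5) (nat_lit 39) (nat_lit 5) (nat_lit 36) (nat_lit 5) (nat_lit 349) (nat_lit 275) (nat_lit 156)) (XT.lf (nat_lit 0) (nat_lit 3370064772) (nat_lit 152) (nat_lit 12926993485) (nat_lit 228) (nat_lit 10372831227) (nat_lit 33) (nat_lit 5) (nat_lit 35) (nat_lit 5) (nat_lit 36) (nat_lit 5) (nat_lit 350) (nat_lit 275) (nat_lit 155)))))) (XT.nd (nat_lit 468) (nat_lit 380) (nat_lit 0) (XT.nd (nat_lit 234) (nat_lit 152) (nat_lit 0) (XT.nd (nat_lit 78) (nat_lit 228) (nat_lit 0) (XT.lf (nat_lit 0) (nat_lit 13128547070) (nat_lit 152) (nat_lit 7256069834) (nat_lit 228) (nat_lit 6897005875) (nat_lit 33) (nat_lit 5) (nat_lit 35) (nat_lit 5) (nat_lit 36) (nat_lit 5) (nat_lit 351) (nat_lit 275)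 (nat_lit 154)) (XT.nd (nat_lit 78) (nat_lit 228) (nat_lit 0) (XT.lf (nat_lit 0) (nat_lit 23164790267) (nat_lit 152) (nat_lit 1420437935) (nat_lit 228) (nat_lit 3326778121) (nat_lit 33) (nat_lit 5) (nat_lit 35) (nat_lit 5) (nat_lit 36) (nat_lit 5) (nat_lit 352) (nat_lit 275) (nat_lit 153)) (XT.lf (nat_lit 0) (nat_lit 427163910) (nat_lit 228) (nat_lit 23583962273) (nat_lit 76) (nat_lit 4547581053) (nat_lit 30) (nat_lit 5) (nat_lit 33) (nat_lit 5) (nat_lit 31) (nat_lit 5) (nat_lit 353) (nat_lit 275) (nat_lit 152)))) (XT.nd (nat_lit 78) (nat_lit 152) (nat_lit 0) (XT.lf (nat_lit 0) (nat_lit 4280019326) (nat_lit 228) (nat_lit 14200016017) (nat_lit 76) (nat_lit 10742200971) (nat_lit 30) (nat_lit 5) (nat_lit 33) (nat_lit 5) (nat_lit 31) (nat_lit 5) (nat_lit 354) (nat_lit 275) (nat_lit 151)) (XT.nd (nat_lit 78) (nat_lit 152) (nat_lit 0) (XT.lf (nat_lit 0) (nat_lit 8239415864) (nat_lit 228) (nat_lit 4548965249)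 (nat_lit 76) (nat_lit 17117571288) (nat_lit 30) (nat_lit 5) (nat_lit 33) (nat_lit 5) (nat_lit 31) (nat_lit 5) (nat_lit 355) (nat_lit 275) (nat_lit 150)) (XT.lf (nat_lit 0) (nat_lit 5484648231) (nat_lit 152) (nat_lit 6876886753) (nat_lit 228) (nat_lit 18247336278) (nat_lit 28) (nat_lit 5) (nat_lit 30) (nat_lit 5) (nat_lit 31) (nat_lit 5) (nat_lit 356) (nat_lit 275) (nat_lit 149))))) (XT.nd (nat_lit 234) (nat_lit 228) (nat_lit 0) (XT.nd (nat_lit 78) (nat_lit 152) (nat_lit 0) (XT.lf (nat_lit 0) (nat_lit 15898662588) (nat_lit 152) (nat_lit 745932172) (nat_lit 228) (nat_lit 14687173853) (nat_lit 28) (nat_lit 5) (nat_lit 30) (nat_lit 5) (nat_lit 31) (nat_lit 5) (nat_lit 357) (nat_lit 275) (nat_lit 148)) (XT.nd (nat_lit 78) (nat_lit 152) (nat_lit 0) (XT.lf (nat_lit 0) (nat_lit 21101223624) (nat_lit 228) (nat_lit 5518453576) (nat_lit 76) (nat_lit 5455332333) (nat_lit 28) (nat_lit 5) (nat_lit 31) (nat_lit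 5) (nat_lit 29) (nat_lit 5) (nat_lit 358) (nat_lit 275) (nat_lit 147)) (XT.lf (nat_lit 0) (nat_lit 4765986678) (nat_lit 152) (nat_lit 20970555108) (nat_lit 228) (nat_lit 7102664887) (nat_lit 26) (nat_lit 5) (nat_lit 28) (nat_lit 5) (nat_lit 29) (nat_lit 5) (nat_lit 359) (nat_lit 275) (nat_lit 146)))) (XT.nd (nat_lit 78) (nat_lit 228) (nat_lit 0) (XT.lf (nat_lit 0) (nat_lit 15458945240) (nat_lit 152) (nat_lit 15099604000) (nat_lit 228) (nat_lit 3066360049) (nat_lit 26) (nat_lit 5) (nat_lit 28) (nat_lit 5) (nat_lit 29) (nat_lit 5) (nat_lit 360) (nat_lit 275) (nat_lit 145)) (XT.nd (nat_lit 78) (nat_lit 152) (nat_lit 0) (XT.lf (nat_lit 0) (nat_lit 1061798049) (nat_lit 228) (nat_lit 7984899352) (nat_lit 76) (nat_lit 25387417295) (nat_lit 25) (nat_lit 5) (nat_lit 28) (nat_lit 5) (nat_lit 26) (nat_lit 5) (nat_lit 361) (nat_lit 275) (nat_lit 144)) (XT.lf (nat_lit 0) (nat_lit 2507625190) (nat_lit 152)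 (nat_lit 2760935278) (nat_lit 228) (nat_lit 29997641021) (nat_lit 23) (nat_lit 5) (nat_lit 25) (nat_lit 5) (nat_lit 26) (nat_lit 5) (nat_lit 362) (nat_lit 275) (nat_lit 143))))))))
noncomputable def xc153 : XT := (XT.nd (nat_lit 1794) (nat_lit 228) (nat_lit 0) (XT.nd (nat_lit 858) (nat_lit 304) (nat_lit 0) (XT.nd (nat_lit 390) (nat_lit 304) (nat_lit 0) (XT.nd (nat_lit 156) (nat_lit 152) (nat_lit 0) (XT.nd (nat_lit 78) (nat_lit 0) (nat_lit 0) (XT.lf (nat_lit 0) (nat_lit 9710995965) (nat_lit 228) (nat_lit 22691329085) (nat_lit 76) (nat_lit 3717649239) (nat_lit 23) (nat_lit 5) (nat_lit 26) (nat_lit 5) (nat_lit 24) (nat_lit 5) (nat_lit 363) (nat_lit 275) (nat_lit 142)) (XT.lf (nat_lit 0) (nat_lit 14306608067) (nat_lit 228) (nat_lit 12361644551) (nat_lit 76) (nat_lit 10330517841) (nat_lit 23) (nat_lit 5) (nat_lit 26) (nat_lit 5) (nat_lit 24) (nat_lit 5) (nat_lit 364) (nat_lit 275) (nat_lit 141)))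 (XT.nd (nat_lit 78) (nat_lit 152) (nat_lit 0) (XT.lf (nat_lit 0) (nat_lit 19032872558) (nat_lit 228) (nat_lit 1733956961) (nat_lit 76) (nat_lit 17137324553) (nat_lit 23) (nat_lit 5) (nat_lit 26) (nat_lit 5) (nat_lit 24) (nat_lit 5) (nat_lit 365) (nat_lit 275) (nat_lit 140)) (XT.nd (nat_lit 78) (nat_lit 0) (nat_lit 0) (XT.lf (nat_lit 0) (nat_lit 9384138352) (nat_lit 152) (nat_lit 14599986909) (nat_lit 228) (nat_lit 14850084796) (nat_lit 21) (nat_lit 5) (nat_lit 23) (nat_lit 5) (nat_lit 24) (nat_lit 5) (nat_lit 366) (nat_lit 275) (nat_lit 139)) (XT.lf (nat_lit 0) (nat_lit 20859892851) (nat_lit 152) (nat_lit 8234620661) (nat_lit 228) (nat_lit 10697342944) (nat_lit 21) (nat_lit 5) (nat_lit 23) (nat_lit 5) (nat_lit 24) (nat_lit 5) (nat_lit 367) (nat_lit 275) (nat_lit 138))))) (XT.nd (nat_lit 234) (nat_lit 152) (nat_lit 0) (XT.nd (nat_lit 78) (nat_lit 152) (nat_lit 0) (XT.lf (nat_lit 0) (nat_lit 32668824749)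 (nat_lit 152) (nat_lit 1682678368) (nat_lit 228) (nat_lit 6426936917) (nat_lit 21) (nat_lit 5) (nat_lit 23) (nat_lit 5) (nat_lit 24) (nat_lit 5) (nat_lit 368) (nat_lit 275) (nat_lit 137)) (XT.nd (nat_lit 78) (nat_lit 76) (nat_lit 0) (XT.lf (nat_lit 0) (nat_lit 3037038374) (nat_lit 76) (nat_lit 36800497919) (nat_lit 152) (nat_lit 1954951099) (nat_lit 20) (nat_lit 5) (nat_lit 21) (nat_lit 5) (nat_lit 22) (nat_lit 4) (nat_lit 369) (nat_lit 275) (nat_lit 136)) (XT.lf (nat_lit 0) (nat_lit 2692283218) (nat_lit 152) (nat_lit 28204086281) (nat_lit 76) (nat_lit 11937043354) (nat_lit 19) (nat_lit 5) (nat_lit 21) (nat_lit 5) (nat_lit 20) (nat_lit 5) (nat_lit 370) (nat_lit 275) (nat_lit 135)))) (XT.nd (nat_lit 78) (nat_lit 152) (nat_lit 0) (XT.lf (nat_lit 0) (nat_lit 7433293514) (nat_lit 152) (nat_lit 17366181106) (nat_lit 76) (nat_lit 19105706991) (nat_lit 19) (nat_lit 5) (nat_lit 21) (nat_lit 5) (nat_lit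 20) (nat_lit 5) (nat_lit 371) (nat_lit 275) (nat_lit 134)) (XT.nd (nat_lit 78) (nat_lit 152) (nat_lit 0) (XT.lf (nat_lit 0) (nat_lit 12310370555) (nat_lit 152) (nat_lit 6213471291) (nat_lit 76) (nat_lit 26485452079) (nat_lit 19) (nat_lit 5) (nat_lit 21) (nat_lit 5) (nat_lit 20) (nat_lit 5) (nat_lit 372) (nat_lit 275) (nat_lit 133)) (XT.lf (nat_lit 0) (nat_lit 5368547956) (nat_lit 152) (nat_lit 12010833677) (nat_lit 228) (nat_lit 28765784749) (nat_lit 17) (nat_lit 5) (nat_lit 19) (nat_lit 5) (nat_lit 20) (nat_lit 5) (nat_lit 373) (nat_lit 275) (nat_lit 132)))))) (XT.nd (nat_lit 468) (nat_lit 228) (nat_lit 0) (XT.nd (nat_lit 234) (nat_lit 76) (nat_lit 0) (XT.nd (nat_lit 78) (nat_lit 0) (nat_lit 0) (XT.lf (nat_lit 0) (nat_lit 17415464631) (nat_lit 152) (nat_lit 5241837056) (nat_lit 228) (nat_lit 24656113435) (nat_lit 17) (nat_lit 5) (nat_lit 19) (nat_lit 5) (nat_lit 20) (nat_lit 5) (nat_lit 374)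 (nat_lit 275) (nat_lit 131)) (XT.nd (nat_lit 78) (nat_lit 0) (nat_lit 0) (XT.lf (nat_lit 0) (nat_lit 28104420539) (nat_lit 228) (nat_lit 18719337964) (nat_lit 76) (nat_lit 1692632099) (nat_lit 17) (nat_lit 5) (nat_lit 20) (nat_lit 5) (nat_lit 18) (nat_lit 4) (nat_lit 375) (nat_lit 275) (nat_lit 130)) (XT.lf (nat_lit 0) (nat_lit 33761249587) (nat_lit 228) (nat_lit 7266764907) (nat_lit 76) (nat_lit 8726056918) (nat_lit 17) (nat_lit 5) (nat_lit 20) (nat_lit 5) (nat_lit 18) (nat_lit 4) (nat_lit 376) (nat_lit 275) (nat_lit 129)))) (XT.nd (nat_lit 78) (nat_lit 0) (nat_lit 0) (XT.lf (nat_lit 0) (nat_lit 4610123645) (nat_lit 76) (nat_lit 35016535630) (nat_lit 152) (nat_lit 11401061918) (nat_lit 16) (nat_lit 5) (nat_lit 17) (nat_lit 5) (nat_lit 18) (nat_lit 4) (nat_lit 377) (nat_lit 275) (nat_lit 128)) (XT.nd (nat_lit 78) (nat_lit 0) (nat_lit 0) (XT.lf (nat_lit 0) (nat_lit 16983149007) (nat_lit 76) (nat_lit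 28752893424) (nat_lit 152) (nat_lit 6601502383) (nat_lit 16) (nat_lit 5) (nat_lit 17) (nat_lit 5) (nat_lit 18) (nat_lit 4) (nat_lit 378) (nat_lit 275) (nat_lit 127)) (XT.lf (nat_lit 0) (nat_lit 29718499688) (nat_lit 76) (nat_lit 22304994866) (nat_lit 152) (nat_lit 1663329507) (nat_lit 16) (nat_lit 5) (nat_lit 17) (nat_lit 5) (nat_lit 18) (nat_lit 4) (nat_lit 379) (nat_lit 275) (nat_lit 126))))) (XT.nd (nat_lit 234) (nat_lit 0) (nat_lit 0) (XT.nd (nat_lit 78) (nat_lit 152) (nat_lit 0) (XT.lf (nat_lit 0) (nat_lit 3351078582) (nat_lit 152) (nat_lit 12282287965) (nat_lit 76) (nat_lit 39442385761) (nat_lit 15) (nat_lit 5) (nat_lit 17) (nat_lit 5) (nat_lit 16) (nat_lit 5) (nat_lit 380) (nat_lit 275) (nat_lit 125)) (XT.nd (nat_lit 78) (nat_lit 152) (nat_lit 0) (XT.lf (nat_lit 0) (nat_lit 8477521486) (nat_lit 152) (nat_lit 270598596) (nat_lit 76) (nat_lit 47757887404) (nat_lit 15) (nat_lit 5) (nat_lit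 17) (nat_lit 5) (nat_lit 16) (nat_lit 5) (nat_lit 381) (nat_lit 275) (nat_lit 124)) (XT.lf (nat_lit 0) (nat_lit 12333907281) (nat_lit 152) (nat_lit 1537589953) (nat_lit 228) (nat_lit 44104264936) (nat_lit 13) (nat_lit 5) (nat_lit 15) (nat_lit 5) (nat_lit 16) (nat_lit 5) (nat_lit 382) (nat_lit 275) (nat_lit 123)))) (XT.nd (nat_lit 78) (nat_lit 0) (nat_lit 0) (XT.lf (nat_lit 0) (nat_lit 19481871279) (nat_lit 228) (nat_lit 34232317243) (nat_lit 76) (nat_lit 5773787520) (nat_lit 13) (nat_lit 5) (nat_lit 16) (nat_lit 5) (nat_lit 14) (nat_lit 4) (nat_lit 383) (nat_lit 275) (nat_lit 122)) (XT.nd (nat_lit 78) (nat_lit 0) (nat_lit 0) (XT.lf (nat_lit 0) (nat_lit 25271128096) (nat_lit 228) (nat_lit 22503723808) (nat_lit 76) (nat_lit 13270391087) (nat_lit 13) (nat_lit 5) (nat_lit 16) (nat_lit 5) (nat_lit 14) (nat_lit 4) (nat_lit 384) (nat_lit 275) (nat_lit 121)) (XT.lf (nat_lit 0) (nat_lit 31229546002) (nat_lit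 228) (nat_lit 10431046043) (nat_lit 76) (nat_lit 20988775095) (nat_lit 13) (nat_lit 5) (nat_lit 16) (nat_lit 5) (nat_lit 14) (nat_lit 4) (nat_lit 385) (nat_lit 275) (nat_lit 120))))))) (XT.nd (nat_lit 32292) (nat_lit 0) (nat_lit 13756) (XT.nd (nat_lit 468) (nat_lit 152) (nat_lit 0) (XT.nd (nat_lit 234) (nat_lit 0) (nat_lit 0) (XT.nd (nat_lit 78) (nat_lit 0) (nat_lit 0) (XT.lf (nat_lit 0) (nat_lit 2035994580) (nat_lit 76) (nat_lit 35345908027) (nat_lit 152) (nat_lit 26919260408) (nat_lit 12) (nat_lit 5) (nat_lit 13) (nat_lit 5) (nat_lit 14) (nat_lit 4) (nat_lit 386) (nat_lit 275) (nat_lit 119)) (XT.nd (nat_lit 78) (nat_lit 0) (nat_lit 0) (XT.lf (nat_lit 0) (nat_lit 15083399570) (nat_lit 76) (nat_lit 28736434275) (nat_lit 152) (nat_lit 22179652287) (nat_lit 12) (nat_lit 5) (nat_lit 13) (nat_lit 5) (nat_lit 14) (nat_lit 4) (nat_lit 387) (nat_lit 275) (nat_lit 118)) (XT.lf (nat_lit 0) (nat_lit 28514971300)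 (nat_lit 76) (nat_lit 21931728634) (nat_lit 152) (nat_lit 17302188481) (nat_lit 12) (nat_lit 5) (nat_lit 13) (nat_lit 5) (nat_lit 14) (nat_lit 4) (nat_lit 388) (nat_lit 275) (nat_lit 117)))) (XT.nd (nat_lit 78) (nat_lit 0) (nat_lit 0) (XT.lf (nat_lit 0) (nat_lit 42342446097) (nat_lit 76) (nat_lit 14925845243) (nat_lit 152) (nat_lit 12282607129) (nat_lit 12) (nat_lit 5) (nat_lit 13) (nat_lit 5) (nat_lit 14) (nat_lit 4) (nat_lit 389) (nat_lit 275) (nat_lit 116)) (XT.nd (nat_lit 78) (nat_lit 0) (nat_lit 0) (XT.lf (nat_lit 0) (nat_lit 56577906219) (nat_lit 76) (nat_lit 7712662458) (nat_lit 152) (nat_lit 7116522189) (nat_lit 12) (nat_lit 5) (nat_lit 13) (nat_lit 5) (nat_lit 14) (nat_lit 4) (nat_lit 390) (nat_lit 275) (nat_lit 115)) (XT.lf (nat_lit 0) (nat_lit 71233790419) (nat_lit 76) (nat_lit 285877496) (nat_lit 152) (nat_lit 1799419606) (nat_lit 12) (nat_lit 5) (nat_lit 13) (nat_lit 5) (nat_lit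 14) (nat_lit 4) (nat_lit 391) (nat_lit 275) (nat_lit 114))))) (XT.nd (nat_lit 31590) (nat_lit 0) (nat_lit 15276) (XT.nd (nat_lit 78) (nat_lit 0) (nat_lit 0) (XT.lf (nat_lit 0) (nat_lit 3781675780) (nat_lit 152) (nat_lit 64138502876) (nat_lit 76) (nat_lit 7361920861) (nat_lit 10) (nat_lit 5) (nat_lit 12) (nat_lit 5) (nat_lit 11) (nat_lit 4) (nat_lit 392) (nat_lit 275) (nat_lit 113)) (XT.nd (nat_lit 78) (nat_lit 0) (nat_lit 0) (XT.lf (nat_lit 0) (nat_lit 9514381091) (nat_lit 152) (nat_lit 52518670150) (nat_lit 76) (nat_lit 15269808674) (nat_lit 10) (nat_lit 5) (nat_lit 12) (nat_lit 5) (nat_lit 11) (nat_lit 4) (nat_lit 393) (nat_lit 275) (nat_lit 112)) (XT.lf (nat_lit 0) (nat_lit 15415424108) (nat_lit 152) (nat_lit 40556600452) (nat_lit 76) (nat_lit 23412330617) (nat_lit 10) (nat_lit 5) (nat_lit 12) (nat_lit 5) (nat_lit 11) (nat_lit 4) (nat_lit 394) (nat_lit 275) (nat_lit 111)))) (XT.nd (nat_lit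 78) (nat_lit 0) (nat_lit 0) (XT.lf (nat_lit 0) (nat_lit 1915645228) (nat_lit 836) (nat_lit 934233736) (nat_lit 836) (nat_lit 934233736) (nat_lit 211) (nat_lit 3) (nat_lit 222) (nat_lit 3) (nat_lit 222) (nat_lit 5) (nat_lit 276) (nat_lit 276) (nat_lit 228)) (XT.nd (nat_lit 78) (nat_lit 0) (nat_lit 0) (XT.lf (nat_lit 76) (nat_lit 1426862073) (nat_lit 0) (nat_lit 3751638282) (nat_lit 836) (nat_lit 2461171810) (nat_lit 212) (nat_lit 5) (nat_lit 211) (nat_lit 3) (nat_lit 222) (nat_lit 5) (nat_lit 277) (nat_lit 276) (nat_lit 227)) (XT.lf (nat_lit 76) (nat_lit 4833128646) (nat_lit 0) (nat_lit 1701814002) (nat_lit 836) (nat_lit 1179387287) (nat_lit 212) (nat_lit 5) (nat_lit 211) (nat_lit 3) (nat_lit 222) (nat_lit 5) (nat_lit 278) (nat_lit 276) (nat_lit 226)))))) (XT.nd (nat_lit 468) (nat_lit 760) (nat_lit 0) (XT.nd (nat_lit 234) (nat_lit 0) (nat_lit 0) (XT.nd (nat_lit 78) (nat_lit 0) (nat_lit 0) (XT.lf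 (nat_lit 0) (nat_lit 98241518) (nat_lit 836) (nat_lit 7264016933) (nat_lit 912) (nat_lit 430248692) (nat_lit 201) (nat_lit 5) (nat_lit 212) (nat_lit 5) (nat_lit 213) (nat_lit 5) (nat_lit 279) (nat_lit 276) (nat_lit 225)) (XT.nd (nat_lit 78) (nat_lit 0) (nat_lit 0) (XT.lf (nat_lit 0) (nat_lit 1388914993) (nat_lit 836) (nat_lit 3829511676) (nat_lit 912) (nat_lit 2654420951) (nat_lit 201) (nat_lit 5) (nat_lit 212) (nat_lit 5) (nat_lit 213) (nat_lit 5) (nat_lit 280) (nat_lit 276) (nat_lit 224)) (XT.lf (nat_lit 0) (nat_lit 2671889381) (nat_lit 836) (nat_lit 319227856) (nat_lit 912) (nat_lit 4965991008) (nat_lit 201) (nat_lit 5) (nat_lit 212) (nat_lit 5) (nat_lit 213) (nat_lit 5) (nat_lit 281) (nat_lit 276) (nat_lit 223)))) (XT.nd (nat_lit 78) (nat_lit 0) (nat_lit 76) (XT.lf (nat_lit 76) (nat_lit 3334979222) (nat_lit 0) (nat_lit 645364365) (nat_lit 912) (nat_lit 4064057320) (nat_lit 202) (nat_lit 5)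 (nat_lit 201) (nat_lit 5) (nat_lit 213) (nat_lit 5) (nat_lit 282) (nat_lit 276) (nat_lit 222)) (XT.nd (nat_lit 78) (nat_lit 0) (nat_lit 0) (XT.lf (nat_lit 0) (nat_lit 5304493170) (nat_lit 836) (nat_lit 1073718050) (nat_lit 912) (nat_lit 1756918494) (nat_lit 202) (nat_lit 5) (nat_lit 213) (nat_lit 5) (nat_lit 214) (nat_lit 5) (nat_lit 283) (nat_lit 276) (nat_lit 221)) (XT.lf (nat_lit 76) (nat_lit 2690166420) (nat_lit 0) (nat_lit 3967891470) (nat_lit 912) (nat_lit 1570939172) (nat_lit 203) (nat_lit 5) (nat_lit 202) (nat_lit 5) (nat_lit 214) (nat_lit 5) (nat_lit 284) (nat_lit 276) (nat_lit 220))))) (XT.nd (nat_lit 234) (nat_lit 0) (nat_lit 0) (XT.nd (nat_lit 78) (nat_lit 836) (nat_lit 0) (XT.lf (nat_lit 76) (nat_lit 6562246891) (nat_lit 0) (nat_lit 1459249106) (nat_lit 912) (nat_lit 305210709) (nat_lit 203) (nat_lit 5) (nat_lit 202) (nat_lit 5) (nat_lit 214) (nat_lit 5) (nat_lit 285) (nat_lit 276)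 (nat_lit 219)) (XT.nd (nat_lit 78) (nat_lit 0) (nat_lit 0) (XT.lf (nat_lit 0) (nat_lit 969842178) (nat_lit 912) (nat_lit 6310803798) (nat_lit 988) (nat_lit 1146786902) (nat_lit 191) (nat_lit 5) (nat_lit 203) (nat_lit 5) (nat_lit 204) (nat_lit 5) (nat_lit 286) (nat_lit 276) (nat_lit 218)) (XT.lf (nat_lit 0) (nat_lit 2269652907) (nat_lit 912) (nat_lit 2425994033) (nat_lit 988) (nat_lit 3835759437) (nat_lit 191) (nat_lit 5) (nat_lit 203) (nat_lit 5) (nat_lit 204) (nat_lit 5) (nat_lit 287) (nat_lit 276) (nat_lit 217)))) (XT.nd (nat_lit 78) (nat_lit 0) (nat_lit 76) (XT.lf (nat_lit 76) (nat_lit 1578965745) (nat_lit 0) (nat_lit 2006028141) (nat_lit 988) (nat_lit 5054301759) (nat_lit 192) (nat_lit 5) (nat_lit 191) (nat_lit 5) (nat_lit 204) (nat_lit 5) (nat_lit 288) (nat_lit 276) (nat_lit 216)) (XT.nd (nat_lit 78) (nat_lit 0) (nat_lit 0) (XT.lf (nat_lit 0) (nat_lit 4934210805) (nat_lit 912) (nat_lit 3031737355)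 (nat_lit 988) (nat_lit 784730901) (nat_lit 192) (nat_lit 5) (nat_lit 204) (nat_lit 5) (nat_lit 205) (nat_lit 5) (nat_lit 289) (nat_lit 276) (nat_lit 215)) (XT.lf (nat_lit 76) (nat_lit 1091711571) (nat_lit 0) (nat_lit 5225974402) (nat_lit 988) (nat_lit 2547991877) (nat_lit 193) (nat_lit 5) (nat_lit 192) (nat_lit 5) (nat_lit 205) (nat_lit 5) (nat_lit 290) (nat_lit 276) (nat_lit 214))))))))
noncomputable def xc154 : XT := (XT.nd (nat_lit 1794) (nat_lit 3344) (nat_lit 0) (XT.nd (nat_lit 858) (nat_lit 2964) (nat_lit 0) (XT.nd (nat_lit 390) (nat_lit 2508) (nat_lit 0) (XT.nd (nat_lit 156) (nat_lit 988) (nat_lit 0) (XT.nd (nat_lit 78) (nat_lit 912) (nat_lit 0) (XT.lf (nat_lit 76) (nat_lit 5373837705) (nat_lit 0) (nat_lit 2363672228) (nat_lit 988) (nat_lit 1246856115) (nat_lit 193) (nat_lit 5) (nat_lit 192) (nat_lit 5) (nat_lit 205) (nat_lit 5) (nat_lit 291) (nat_lit 276) (nat_lit 213)) (XT.lf (nat_lit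 0) (nat_lit 68477526) (nat_lit 988) (nat_lit 8450613537) (nat_lit 76) (nat_lit 588267290) (nat_lit 180) (nat_lit 5) (nat_lit 193) (nat_lit 5) (nat_lit 181) (nat_lit 5) (nat_lit 292) (nat_lit 276) (nat_lit 212))) (XT.nd (nat_lit 78) (nat_lit 988) (nat_lit 0) (XT.lf (nat_lit 0) (nat_lit 1424118114) (nat_lit 988) (nat_lit 4171083860) (nat_lit 76) (nat_lit 3637768459) (nat_lit 180) (nat_lit 5) (nat_lit 193) (nat_lit 5) (nat_lit 181) (nat_lit 5) (nat_lit 293) (nat_lit 276) (nat_lit 211)) (XT.nd (nat_lit 78) (nat_lit 0) (nat_lit 0) (XT.lf (nat_lit 0) (nat_lit 213743500) (nat_lit 988) (nat_lit 2575423108) (nat_lit 1064) (nat_lit 6574197433) (nat_lit 167) (nat_lit 5) (nat_lit 180) (nat_lit 5) (nat_lit 181) (nat_lit 5) (nat_lit 294) (nat_lit 276) (nat_lit 210)) (XT.lf (nat_lit 0) (nat_lit 4210294529) (nat_lit 1064) (nat_lit 4714443443) (nat_lit 76) (nat_lit 572550778) (nat_lit 167) (nat_lit 5) (nat_lit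 181) (nat_lit 5) (nat_lit 168) (nat_lit 5) (nat_lit 295) (nat_lit 276) (nat_lit 209))))) (XT.nd (nat_lit 234) (nat_lit 1444) (nat_lit 0) (XT.nd (nat_lit 78) (nat_lit 1064) (nat_lit 0) (XT.lf (nat_lit 0) (nat_lit 5667952532) (nat_lit 1064) (nat_lit 198989013) (nat_lit 76) (nat_lit 3768543769) (nat_lit 167) (nat_lit 5) (nat_lit 181) (nat_lit 5) (nat_lit 168) (nat_lit 5) (nat_lit 296) (nat_lit 276) (nat_lit 208)) (XT.nd (nat_lit 78) (nat_lit 0) (nat_lit 0) (XT.lf (nat_lit 0) (nat_lit 4513519862) (nat_lit 1064) (nat_lit 2668524609) (nat_lit 1140) (nat_lit 2595471111) (nat_lit 153) (nat_lit 5) (nat_lit 167) (nat_lit 5) (nat_lit 168) (nat_lit 5) (nat_lit 297) (nat_lit 276) (nat_lit 207)) (XT.lf (nat_lit 0) (nat_lit 8719600214) (nat_lit 1140) (nat_lit 585528698) (nat_lit 76) (nat_lit 619403542) (nat_lit 153) (nat_lit 5) (nat_lit 168) (nat_lit 5) (nat_lit 154) (nat_lit 5) (nat_lit 298) (nat_lit 276)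 (nat_lit 206)))) (XT.nd (nat_lit 78) (nat_lit 532) (nat_lit 0) (XT.lf (nat_lit 0) (nat_lit 261477514) (nat_lit 912) (nat_lit 5813806216) (nat_lit 76) (nat_lit 3999515910) (nat_lit 141) (nat_lit 5) (nat_lit 153) (nat_lit 5) (nat_lit 142) (nat_lit 5) (nat_lit 299) (nat_lit 276) (nat_lit 205)) (XT.nd (nat_lit 78) (nat_lit 532) (nat_lit 0) (XT.lf (nat_lit 0) (nat_lit 1724754971) (nat_lit 912) (nat_lit 1003285160) (nat_lit 76) (nat_lit 7501925258) (nat_lit 141) (nat_lit 5) (nat_lit 153) (nat_lit 5) (nat_lit 142) (nat_lit 5) (nat_lit 300) (nat_lit 276) (nat_lit 204)) (XT.lf (nat_lit 0) (nat_lit 3249697207) (nat_lit 608) (nat_lit 6393204948) (nat_lit 76) (nat_lit 746410424) (nat_lit 134) (nat_lit 5) (nat_lit 142) (nat_lit 5) (nat_lit 135) (nat_lit 5) (nat_lit 301) (nat_lit 276) (nat_lit 203)))))) (XT.nd (nat_lit 468) (nat_lit 1368) (nat_lit 0) (XT.nd (nat_lit 234) (nat_lit 1064) (nat_lit 0) (XT.nd (nat_lit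 78) (nat_lit 532) (nat_lit 0) (XT.lf (nat_lit 0) (nat_lit 4830177831) (nat_lit 608) (nat_lit 1440873240) (nat_lit 76) (nat_lit 4282153142) (nat_lit 134) (nat_lit 5) (nat_lit 142) (nat_lit 5) (nat_lit 135) (nat_lit 5) (nat_lit 302) (nat_lit 276) (nat_lit 202)) (XT.nd (nat_lit 78) (nat_lit 0) (nat_lit 0) (XT.lf (nat_lit 0) (nat_lit 3706456728) (nat_lit 532) (nat_lit 2760592739) (nat_lit 608) (nat_lit 4254749879) (nat_lit 127) (nat_lit 5) (nat_lit 134) (nat_lit 5) (nat_lit 135) (nat_lit 5) (nat_lit 303) (nat_lit 276) (nat_lit 201)) (XT.lf (nat_lit 0) (nat_lit 8149824043) (nat_lit 608) (nat_lit 1892124111) (nat_lit 76) (nat_lit 853654691) (nat_lit 127) (nat_lit 5) (nat_lit 135) (nat_lit 5) (nat_lit 128) (nat_lit 5) (nat_lit 304) (nat_lit 276) (nat_lit 200)))) (XT.nd (nat_lit 78) (nat_lit 608) (nat_lit 0) (XT.lf (nat_lit 0) (nat_lit 3398051232) (nat_lit 456) (nat_lit 6519670314) (nat_lit 532) (nat_lit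 1155912545) (nat_lit 121) (nat_lit 5) (nat_lit 127) (nat_lit 5) (nat_lit 128) (nat_lit 5) (nat_lit 305) (nat_lit 276) (nat_lit 199)) (XT.nd (nat_lit 78) (nat_lit 532) (nat_lit 0) (XT.lf (nat_lit 0) (nat_lit 466387164) (nat_lit 532) (nat_lit 2401547386) (nat_lit 76) (nat_lit 8389158540) (nat_lit 120) (nat_lit 5) (nat_lit 127) (nat_lit 5) (nat_lit 121) (nat_lit 5) (nat_lit 306) (nat_lit 276) (nat_lit 198)) (XT.lf (nat_lit 0) (nat_lit 2128032691) (nat_lit 608) (nat_lit 8401001472) (nat_lit 76) (nat_lit 916309420) (nat_lit 113) (nat_lit 5) (nat_lit 121) (nat_lit 5) (nat_lit 114) (nat_lit 5) (nat_lit 307) (nat_lit 276) (nat_lit 197))))) (XT.nd (nat_lit 234) (nat_lit 912) (nat_lit 0) (XT.nd (nat_lit 78) (nat_lit 456) (nat_lit 0) (XT.lf (nat_lit 0) (nat_lit 3868448025) (nat_lit 608) (nat_lit 2990075858) (nat_lit 76) (nat_lit 4779897033) (nat_lit 113) (nat_lit 5) (nat_lit 121) (nat_lit 5) (nat_lit 114)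 (nat_lit 5) (nat_lit 308) (nat_lit 276) (nat_lit 196)) (XT.nd (nat_lit 78) (nat_lit 0) (nat_lit 0) (XT.lf (nat_lit 0) (nat_lit 2609076449) (nat_lit 456) (nat_lit 3053811470) (nat_lit 532) (nat_lit 6174393862) (nat_lit 107) (nat_lit 5) (nat_lit 113) (nat_lit 5) (nat_lit 114) (nat_lit 5) (nat_lit 309) (nat_lit 276) (nat_lit 195)) (XT.lf (nat_lit 0) (nat_lit 7527122211) (nat_lit 532) (nat_lit 3637798737) (nat_lit 76) (nat_lit 876752932) (nat_lit 107) (nat_lit 5) (nat_lit 114) (nat_lit 5) (nat_lit 108) (nat_lit 5) (nat_lit 310) (nat_lit 276) (nat_lit 194)))) (XT.nd (nat_lit 78) (nat_lit 456) (nat_lit 0) (XT.lf (nat_lit 0) (nat_lit 2106452097) (nat_lit 456) (nat_lit 7369134174) (nat_lit 532) (nat_lit 2775805348) (nat_lit 101) (nat_lit 5) (nat_lit 107) (nat_lit 5) (nat_lit 108) (nat_lit 5) (nat_lit 311) (nat_lit 276) (nat_lit 193)) (XT.nd (nat_lit 78) (nat_lit 456) (nat_lit 0) (XT.lf (nat_lit 0) (nat_lit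 8073107613) (nat_lit 456) (nat_lit 3424360362) (nat_lit 532) (nat_lit 969525708) (nat_lit 101) (nat_lit 5) (nat_lit 107) (nat_lit 5) (nat_lit 108) (nat_lit 5) (nat_lit 312) (nat_lit 276) (nat_lit 192)) (XT.lf (nat_lit 0) (nat_lit 873189150) (nat_lit 456) (nat_lit 11168710160) (nat_lit 76) (nat_lit 646957912) (nat_lit 95) (nat_lit 5) (nat_lit 101) (nat_lit 5) (nat_lit 96) (nat_lit 5) (nat_lit 313) (nat_lit 276) (nat_lit 191))))))) (XT.nd (nat_lit 858) (nat_lit 1520) (nat_lit 0) (XT.nd (nat_lit 390) (nat_lit 1064) (nat_lit 0) (XT.nd (nat_lit 156) (nat_lit 380) (nat_lit 0) (XT.nd (nat_lit 78) (nat_lit 380) (nat_lit 0) (XT.lf (nat_lit 0) (nat_lit 2809389791) (nat_lit 456) (nat_lit 5282964119) (nat_lit 76) (nat_lit 4823042221) (nat_lit 95) (nat_lit 5) (nat_lit 101) (nat_lit 5) (nat_lit 96) (nat_lit 5) (nat_lit 314) (nat_lit 276) (nat_lit 190)) (XT.lf (nat_lit 0) (nat_lit 770459658) (nat_lit 380) (nat_lit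 4020212581) (nat_lit 456) (nat_lit 8358486150) (nat_lit 90) (nat_lit 5) (nat_lit 95) (nat_lit 5) (nat_lit 96) (nat_lit 5) (nat_lit 315) (nat_lit 276) (nat_lit 189))) (XT.nd (nat_lit 78) (nat_lit 380) (nat_lit 0) (XT.lf (nat_lit 0) (nat_lit 6866863696) (nat_lit 456) (nat_lit 6301049714) (nat_lit 76) (nat_lit 220991963) (nat_lit 90) (nat_lit 5) (nat_lit 96) (nat_lit 5) (nat_lit 91) (nat_lit 5) (nat_lit 316) (nat_lit 276) (nat_lit 188)) (XT.nd (nat_lit 78) (nat_lit 380) (nat_lit 0) (XT.lf (nat_lit 0) (nat_lit 9025651074) (nat_lit 456) (nat_lit 104464321) (nat_lit 76) (nat_lit 4505154997) (nat_lit 90) (nat_lit 5) (nat_lit 96) (nat_lit 5) (nat_lit 91) (nat_lit 5) (nat_lit 317) (nat_lit 276) (nat_lit 187)) (XT.lf (nat_lit 0) (nat_lit 6379605770) (nat_lit 380) (nat_lit 4911994851) (nat_lit 456) (nat_lit 2596187694) (nat_lit 85) (nat_lit 5) (nat_lit 90) (nat_lit 5) (nat_lit 91) (nat_lit 5) (nat_lit 318)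 (nat_lit 276) (nat_lit 186))))) (XT.nd (nat_lit 234) (nat_lit 608) (nat_lit 0) (XT.nd (nat_lit 78) (nat_lit 456) (nat_lit 0) (XT.lf (nat_lit 0) (nat_lit 13037661960) (nat_lit 380) (nat_lit 570328713) (nat_lit 456) (nat_lit 540450165) (nat_lit 85) (nat_lit 5) (nat_lit 90) (nat_lit 5) (nat_lit 91) (nat_lit 5) (nat_lit 319) (nat_lit 276) (nat_lit 185)) (XT.nd (nat_lit 78) (nat_lit 0) (nat_lit 0) (XT.lf (nat_lit 0) (nat_lit 1619411631) (nat_lit 456) (nat_lit 8904316628) (nat_lit 76) (nat_lit 3890564219) (nat_lit 79) (nat_lit 5) (nat_lit 85) (nat_lit 5) (nat_lit 80) (nat_lit 5) (nat_lit 320) (nat_lit 276) (nat_lit 184)) (XT.lf (nat_lit 0) (nat_lit 3832197662) (nat_lit 456) (nat_lit 2369488172) (nat_lit 76) (nat_lit 8486333708) (nat_lit 79) (nat_lit 5) (nat_lit 85) (nat_lit 5) (nat_lit 80) (nat_lit 5) (nat_lit 321) (nat_lit 276) (nat_lit 183)))) (XT.nd (nat_lit 78) (nat_lit 304) (nat_lit 0) (XT.lf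 (nat_lit 0) (nat_lit 4425688753) (nat_lit 304) (nat_lit 1710761072) (nat_lit 380) (nat_lit 8832785367) (nat_lit 75) (nat_lit 5) (nat_lit 79) (nat_lit 5) (nat_lit 80) (nat_lit 5) (nat_lit 322) (nat_lit 276) (nat_lit 182)) (XT.nd (nat_lit 78) (nat_lit 304) (nat_lit 0) (XT.lf (nat_lit 0) (nat_lit 8544807089) (nat_lit 380) (nat_lit 3835472460) (nat_lit 76) (nat_lit 2877586836) (nat_lit 75) (nat_lit 5) (nat_lit 80) (nat_lit 5) (nat_lit 76) (nat_lit 5) (nat_lit 323) (nat_lit 276) (nat_lit 181)) (XT.lf (nat_lit 0) (nat_lit 3095623425) (nat_lit 304) (nat_lit 7959781780) (nat_lit 380) (nat_lit 4498879179) (nat_lit 71) (nat_lit 5) (nat_lit 75) (nat_lit 5) (nat_lit 76) (nat_lit 5) (nat_lit 324) (nat_lit 276) (nat_lit 180)))))) (XT.nd (nat_lit 468) (nat_lit 836) (nat_lit 0) (XT.nd (nat_lit 234) (nat_lit 304) (nat_lit 0) (XT.nd (nat_lit 78) (nat_lit 380) (nat_lit 0) (XT.lf (nat_lit 0) (nat_lit 10291799400)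 (nat_lit 304) (nat_lit 3371827610) (nat_lit 380) (nat_lit 2195325508) (nat_lit 71) (nat_lit 5) (nat_lit 75) (nat_lit 5) (nat_lit 76) (nat_lit 5) (nat_lit 325) (nat_lit 276) (nat_lit 179)) (XT.nd (nat_lit 78) (nat_lit 0) (nat_lit 0) (XT.lf (nat_lit 0) (nat_lit 185658403) (nat_lit 380) (nat_lit 14647688421) (nat_lit 76) (nat_lit 1339034444) (nat_lit 66) (nat_lit 5) (nat_lit 71) (nat_lit 5) (nat_lit 67) (nat_lit 5) (nat_lit 326) (nat_lit 276) (nat_lit 178)) (XT.lf (nat_lit 0) (nat_lit 2668195114) (nat_lit 380) (nat_lit 7627228121) (nat_lit 76) (nat_lit 6196934652) (nat_lit 66) (nat_lit 5) (nat_lit 71) (nat_lit 5) (nat_lit 67) (nat_lit 5) (nat_lit 327) (nat_lit 276) (nat_lit 177)))) (XT.nd (nat_lit 78) (nat_lit 304) (nat_lit 0) (XT.lf (nat_lit 0) (nat_lit 5209760143) (nat_lit 380) (nat_lit 416969738) (nat_lit 76) (nat_lit 11195691141) (nat_lit 66) (nat_lit 5) (nat_lit 71) (nat_lit 5) (nat_lit 67)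 (nat_lit 5) (nat_lit 328) (nat_lit 276) (nat_lit 176)) (XT.nd (nat_lit 78) (nat_lit 0) (nat_lit 0) (XT.lf (nat_lit 0) (nat_lit 7128489456) (nat_lit 304) (nat_lit 752608218) (nat_lit 380) (nat_lit 9279705701) (nat_lit 62) (nat_lit 5) (nat_lit 66) (nat_lit 5) (nat_lit 67) (nat_lit 5) (nat_lit 329) (nat_lit 276) (nat_lit 175)) (XT.lf (nat_lit 0) (nat_lit 10663047777) (nat_lit 380) (nat_lit 2661842564) (nat_lit 76) (nat_lit 4183555106) (nat_lit 62) (nat_lit 5) (nat_lit 67) (nat_lit 5) (nat_lit 63) (nat_lit 5) (nat_lit 330) (nat_lit 276) (nat_lit 174))))) (XT.nd (nat_lit 234) (nat_lit 228) (nat_lit 0) (XT.nd (nat_lit 78) (nat_lit 380) (nat_lit 0) (XT.lf (nat_lit 0) (nat_lit 5000029079) (nat_lit 228) (nat_lit 8569569468) (nat_lit 304) (nat_lit 4295705733) (nat_lit 59) (nat_lit 5) (nat_lit 62) (nat_lit 5) (nat_lit 63) (nat_lit 5) (nat_lit 331) (nat_lit 276) (nat_lit 173)) (XT.nd (nat_lit 78) (nat_lit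 380) (nat_lit 0) (XT.lf (nat_lit 0) (nat_lit 12926685591) (nat_lit 228) (nat_lit 3649396766) (nat_lit 304) (nat_lit 1656425557) (nat_lit 59) (nat_lit 5) (nat_lit 62) (nat_lit 5) (nat_lit 63) (nat_lit 5) (nat_lit 332) (nat_lit 276) (nat_lit 172)) (XT.lf (nat_lit 0) (nat_lit 1065370517) (nat_lit 380) (nat_lit 16124436761) (nat_lit 76) (nat_lit 1419912185) (nat_lit 54) (nat_lit 5) (nat_lit 59) (nat_lit 5) (nat_lit 55) (nat_lit 5) (nat_lit 333) (nat_lit 276) (nat_lit 171)))) (XT.nd (nat_lit 78) (nat_lit 228) (nat_lit 0) (XT.lf (nat_lit 0) (nat_lit 3912049754) (nat_lit 380) (nat_lit 8450365771) (nat_lit 76) (nat_lit 6633063510) (nat_lit 54) (nat_lit 5) (nat_lit 59) (nat_lit 5) (nat_lit 55) (nat_lit 5) (nat_lit 334) (nat_lit 276) (nat_lit 170)) (XT.nd (nat_lit 78) (nat_lit 228) (nat_lit 0) (XT.lf (nat_lit 0) (nat_lit 6830809244) (nat_lit 380) (nat_lit 565050737) (nat_lit 76) (nat_lit 11997369792) (nat_lit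 54) (nat_lit 5) (nat_lit 59) (nat_lit 5) (nat_lit 55) (nat_lit 5) (nat_lit 335) (nat_lit 276) (nat_lit 169)) (XT.lf (nat_lit 0) (nat_lit 7688427331) (nat_lit 228) (nat_lit 2209677895) (nat_lit 304) (nat_lit 9902996825) (nat_lit 51) (nat_lit 5) (nat_lit 54) (nat_lit 5) (nat_lit 55) (nat_lit 5) (nat_lit 336) (nat_lit 276) (nat_lit 168))))))))
noncomputable def xc155 : XT := (XT.nd (nat_lit 1794) (nat_lit 1140) (nat_lit 0) (XT.nd (nat_lit 858) (nat_lit 760) (nat_lit 0) (XT.nd (nat_lit 390) (nat_lit 456) (nat_lit 0) (XT.nd (nat_lit 156) (nat_lit 304) (nat_lit 0) (XT.nd (nat_lit 78) (nat_lit 228) (nat_lit 0) (XT.lf (nat_lit 0) (nat_lit 13080506173) (nat_lit 304) (nat_lit 4068701955) (nat_lit 76) (nat_lit 3071327485) (nat_lit 51) (nat_lit 5) (nat_lit 55) (nat_lit 5) (nat_lit 52) (nat_lit 5) (nat_lit 337) (nat_lit 276) (nat_lit 167)) (XT.lf (nat_lit 0) (nat_lit 4259785948) (nat_lit 228) (nat_lit 12149007337)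 (nat_lit 304) (nat_lit 4242263654) (nat_lit 48) (nat_lit 5) (nat_lit 51) (nat_lit 5) (nat_lit 52) (nat_lit 5) (nat_lit 338) (nat_lit 276) (nat_lit 166))) (XT.nd (nat_lit 78) (nat_lit 304) (nat_lit 0) (XT.lf (nat_lit 0) (nat_lit 12903660036) (nat_lit 228) (nat_lit 6962133052) (nat_lit 304) (nat_lit 1227851576) (nat_lit 48) (nat_lit 5) (nat_lit 51) (nat_lit 5) (nat_lit 52) (nat_lit 5) (nat_lit 339) (nat_lit 276) (nat_lit 165)) (XT.nd (nat_lit 78) (nat_lit 0) (nat_lit 0) (XT.lf (nat_lit 0) (nat_lit 226102782) (nat_lit 228) (nat_lit 1604437406) (nat_lit 304) (nat_lit 19718739048) (nat_lit 44) (nat_lit 5) (nat_lit 47) (nat_lit 5) (nat_lit 48) (nat_lit 5) (nat_lit 340) (nat_lit 276) (nat_lit 164)) (XT.lf (nat_lit 0) (nat_lit 5065279077) (nat_lit 304) (nat_lit 13021891728) (nat_lit 76) (nat_lit 3927784378) (nat_lit 44) (nat_lit 5) (nat_lit 48) (nat_lit 5) (nat_lit 45) (nat_lit 5) (nat_lit 341) (nat_lit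 276) (nat_lit 163))))) (XT.nd (nat_lit 234) (nat_lit 228) (nat_lit 0) (XT.nd (nat_lit 78) (nat_lit 228) (nat_lit 0) (XT.lf (nat_lit 0) (nat_lit 8401420108) (nat_lit 304) (nat_lit 4504686982) (nat_lit 76) (nat_lit 9588378341) (nat_lit 44) (nat_lit 5) (nat_lit 48) (nat_lit 5) (nat_lit 45) (nat_lit 5) (nat_lit 342) (nat_lit 276) (nat_lit 162)) (XT.nd (nat_lit 78) (nat_lit 0) (nat_lit 0) (XT.lf (nat_lit 0) (nat_lit 4335912096) (nat_lit 228) (nat_lit 7532222863) (nat_lit 304) (nat_lit 11119366329) (nat_lit 41) (nat_lit 5) (nat_lit 44) (nat_lit 5) (nat_lit 45) (nat_lit 5) (nat_lit 343) (nat_lit 276) (nat_lit 161)) (XT.lf (nat_lit 0) (nat_lit 13517503771) (nat_lit 228) (nat_lit 1955812807) (nat_lit 304) (nat_lit 8020971054) (nat_lit 41) (nat_lit 5) (nat_lit 44) (nat_lit 5) (nat_lit 45) (nat_lit 5) (nat_lit 344) (nat_lit 276) (nat_lit 160)))) (XT.nd (nat_lit 78) (nat_lit 228) (nat_lit 0) (XT.lf (nat_lit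 0) (nat_lit 19212311299) (nat_lit 304) (nat_lit 1094513277) (nat_lit 76) (nat_lit 3708696825) (nat_lit 41) (nat_lit 5) (nat_lit 45) (nat_lit 5) (nat_lit 42) (nat_lit 5) (nat_lit 345) (nat_lit 276) (nat_lit 159)) (XT.nd (nat_lit 78) (nat_lit 76) (nat_lit 0) (XT.lf (nat_lit 0) (nat_lit 8178563497) (nat_lit 152) (nat_lit 14972453562) (nat_lit 228) (nat_lit 1398762056) (nat_lit 39) (nat_lit 5) (nat_lit 41) (nat_lit 5) (nat_lit 42) (nat_lit 5) (nat_lit 346) (nat_lit 276) (nat_lit 158)) (XT.lf (nat_lit 0) (nat_lit 2067447958) (nat_lit 228) (nat_lit 7383789365) (nat_lit 76) (nat_lit 15648209012) (nat_lit 38) (nat_lit 5) (nat_lit 41) (nat_lit 5) (nat_lit 39) (nat_lit 5) (nat_lit 347) (nat_lit 276) (nat_lit 157)))))) (XT.nd (nat_lit 468) (nat_lit 380) (nat_lit 0) (XT.nd (nat_lit 234) (nat_lit 152) (nat_lit 0) (XT.nd (nat_lit 78) (nat_lit 0) (nat_lit 0) (XT.lf (nat_lit 0) (nat_lit 1880618556) (nat_lit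 228) (nat_lit 3736890425) (nat_lit 304) (nat_lit 20047451814) (nat_lit 35) (nat_lit 5) (nat_lit 38) (nat_lit 5) (nat_lit 39) (nat_lit 5) (nat_lit 348) (nat_lit 276) (nat_lit 156)) (XT.nd (nat_lit 78) (nat_lit 0) (nat_lit 0) (XT.lf (nat_lit 0) (nat_lit 9360024015) (nat_lit 304) (nat_lit 14707875609) (nat_lit 76) (nat_lit 2176974200) (nat_lit 35) (nat_lit 5) (nat_lit 39) (nat_lit 5) (nat_lit 36) (nat_lit 5) (nat_lit 349) (nat_lit 276) (nat_lit 155)) (XT.lf (nat_lit 0) (nat_lit 13242100534) (nat_lit 304) (nat_lit 5411255916) (nat_lit 76) (nat_lit 8188020570) (nat_lit 35) (nat_lit 5) (nat_lit 39) (nat_lit 5) (nat_lit 36) (nat_lit 5) (nat_lit 350) (nat_lit 276) (nat_lit 154)))) (XT.nd (nat_lit 78) (nat_lit 0) (nat_lit 0) (XT.lf (nat_lit 0) (nat_lit 4232145783) (nat_lit 152) (nat_lit 13039745560) (nat_lit 228) (nat_lit 10182957440) (nat_lit 33) (nat_lit 5) (nat_lit 35) (nat_lit 5) (nat_lit 36) (nat_lit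 5) (nat_lit 351) (nat_lit 276) (nat_lit 153)) (XT.nd (nat_lit 78) (nat_lit 0) (nat_lit 0) (XT.lf (nat_lit 0) (nat_lit 14261218111) (nat_lit 152) (nat_lit 7206705590) (nat_lit 228) (nat_lit 6617451271) (nat_lit 33) (nat_lit 5) (nat_lit 35) (nat_lit 5) (nat_lit 36) (nat_lit 5) (nat_lit 352) (nat_lit 276) (nat_lit 152)) (XT.lf (nat_lit 0) (nat_lit 24577029731) (nat_lit 152) (nat_lit 1203782783) (nat_lit 228) (nat_lit 2954285562) (nat_lit 33) (nat_lit 5) (nat_lit 35) (nat_lit 5) (nat_lit 36) (nat_lit 5) (nat_lit 353) (nat_lit 276) (nat_lit 151))))) (XT.nd (nat_lit 234) (nat_lit 152) (nat_lit 0) (XT.nd (nat_lit 78) (nat_lit 0) (nat_lit 0) (XT.lf (nat_lit 0) (nat_lit 899022676) (nat_lit 228) (nat_lit 23559923759) (nat_lit 76) (nat_lit 4942253376) (nat_lit 30) (nat_lit 5) (nat_lit 33) (nat_lit 5) (nat_lit 31) (nat_lit 5) (nat_lit 354) (nat_lit 276) (nat_lit 150)) (XT.nd (nat_lit 78) (nat_lit 0) (nat_lit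 0) (XT.lf (nat_lit 0) (nat_lit 4854093545) (nat_lit 228) (nat_lit 13915766613) (nat_lit 76) (nat_lit 11315190196) (nat_lit 30) (nat_lit 5) (nat_lit 33) (nat_lit 5) (nat_lit 31) (nat_lit 5) (nat_lit 355) (nat_lit 276) (nat_lit 149)) (XT.lf (nat_lit 0) (nat_lit 8919291194) (nat_lit 228) (nat_lit 3995871211) (nat_lit 76) (nat_lit 17874519005) (nat_lit 30) (nat_lit 5) (nat_lit 33) (nat_lit 5) (nat_lit 31) (nat_lit 5) (nat_lit 356) (nat_lit 276) (nat_lit 148)))) (XT.nd (nat_lit 78) (nat_lit 0) (nat_lit 0) (XT.lf (nat_lit 0) (nat_lit 6331990252) (nat_lit 152) (nat_lit 6827044447) (nat_lit 228) (nat_lit 18354847968) (nat_lit 28) (nat_lit 5) (nat_lit 30) (nat_lit 5) (nat_lit 31) (nat_lit 5) (nat_lit 357) (nat_lit 276) (nat_lit 147)) (XT.nd (nat_lit 78) (nat_lit 0) (nat_lit 0) (XT.lf (nat_lit 0) (nat_lit 17038537586) (nat_lit 152) (nat_lit 519621877) (nat_lit 228) (nat_lit 14700693536) (nat_lit 28) (nat_lit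 5) (nat_lit 30) (nat_lit 5) (nat_lit 31) (nat_lit 5) (nat_lit 358) (nat_lit 276) (nat_lit 146)) (XT.lf (nat_lit 0) (nat_lit 22138743248) (nat_lit 228) (nat_lit 5030227330) (nat_lit 76) (nat_lit 5855725756) (nat_lit 28) (nat_lit 5) (nat_lit 31) (nat_lit 5) (nat_lit 29) (nat_lit 5) (nat_lit 359) (nat_lit 276) (nat_lit 145))))))) (XT.nd (nat_lit 936) (nat_lit 456) (nat_lit 0) (XT.nd (nat_lit 468) (nat_lit 304) (nat_lit 0) (XT.nd (nat_lit 234) (nat_lit 152) (nat_lit 0) (XT.nd (nat_lit 78) (nat_lit 76) (nat_lit 0) (XT.lf (nat_lit 0) (nat_lit 5556336526) (nat_lit 152) (nat_lit 21351226293) (nat_lit 228) (nat_lit 6904435810) (nat_lit 26) (nat_lit 5) (nat_lit 28) (nat_lit 5) (nat_lit 29) (nat_lit 5) (nat_lit 360) (nat_lit 276) (nat_lit 144)) (XT.nd (nat_lit 78) (nat_lit 76) (nat_lit 0) (XT.lf (nat_lit 0) (nat_lit 16551228400) (nat_lit 152) (nat_lit 15311382927) (nat_lit 228) (nat_lit 2759021700) (nat_lit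 26) (nat_lit 5) (nat_lit 28) (nat_lit 5) (nat_lit 29) (nat_lit 5) (nat_lit 361) (nat_lit 276) (nat_lit 143)) (XT.lf (nat_lit 0) (nat_lit 1473784806) (nat_lit 228) (nat_lit 7606291239) (nat_lit 76) (nat_lit 26375276949) (nat_lit 25) (nat_lit 5) (nat_lit 28) (nat_lit 5) (nat_lit 26) (nat_lit 5) (nat_lit 362) (nat_lit 276) (nat_lit 142)))) (XT.nd (nat_lit 78) (nat_lit 0) (nat_lit 0) (XT.lf (nat_lit 0) (nat_lit 3194948696) (nat_lit 152) (nat_lit 2606613401) (nat_lit 228) (nat_lit 30511007035) (nat_lit 23) (nat_lit 5) (nat_lit 25) (nat_lit 5) (nat_lit 26) (nat_lit 5) (nat_lit 363) (nat_lit 276) (nat_lit 141)) (XT.nd (nat_lit 78) (nat_lit 0) (nat_lit 0) (XT.lf (nat_lit 0) (nat_lit 10368563170) (nat_lit 228) (nat_lit 22768735442) (nat_lit 76) (nat_lit 4054928508) (nat_lit 23) (nat_lit 5) (nat_lit 26) (nat_lit 5) (nat_lit 24) (nat_lit 5) (nat_lit 364) (nat_lit 276) (nat_lit 140)) (XT.lf (nat_lit 0) (nat_lit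 15091376528) (nat_lit 228) (nat_lit 12146733193) (nat_lit 76) (nat_lit 10859607931) (nat_lit 23) (nat_lit 5) (nat_lit 26) (nat_lit 5) (nat_lit 24) (nat_lit 5) (nat_lit 365) (nat_lit 276) (nat_lit 139))))) (XT.nd (nat_lit 234) (nat_lit 152) (nat_lit 0) (XT.nd (nat_lit 78) (nat_lit 152) (nat_lit 0) (XT.lf (nat_lit 0) (nat_lit 19949072539) (nat_lit 228) (nat_lit 1217275967) (nat_lit 76) (nat_lit 17864235119) (nat_lit 23) (nat_lit 5) (nat_lit 26) (nat_lit 5) (nat_lit 24) (nat_lit 5) (nat_lit 366) (nat_lit 276) (nat_lit 138)) (XT.nd (nat_lit 78) (nat_lit 0) (nat_lit 0) (XT.lf (nat_lit 0) (nat_lit 10228786719) (nat_lit 152) (nat_lit 14815434428) (nat_lit 228) (nat_lit 14944469257) (nat_lit 21) (nat_lit 5) (nat_lit 23) (nat_lit 5) (nat_lit 24) (nat_lit 5) (nat_lit 367) (nat_lit 276) (nat_lit 137)) (XT.lf (nat_lit 0) (nat_lit 22032412177) (nat_lit 152) (nat_lit 8265589292) (nat_lit 228) (nat_lit 10677371890)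 (nat_lit 21) (nat_lit 5) (nat_lit 23) (nat_lit 5) (nat_lit 24) (nat_lit 5) (nat_lit 368) (nat_lit 276) (nat_lit 136)))) (XT.nd (nat_lit 78) (nat_lit 152) (nat_lit 0) (XT.lf (nat_lit 0) (nat_lit 34179688074) (nat_lit 152) (nat_lit 1523382031) (nat_lit 228) (nat_lit 6288782556) (nat_lit 21) (nat_lit 5) (nat_lit 23) (nat_lit 5) (nat_lit 24) (nat_lit 5) (nat_lit 369) (nat_lit 276) (nat_lit 135)) (XT.nd (nat_lit 78) (nat_lit 76) (nat_lit 0) (XT.lf (nat_lit 0) (nat_lit 3661590585) (nat_lit 76) (nat_lit 37689829069) (nat_lit 152) (nat_lit 1684978750) (nat_lit 20) (nat_lit 5) (nat_lit 21) (nat_lit 5) (nat_lit 22) (nat_lit 4) (nat_lit 370) (nat_lit 276) (nat_lit 134)) (XT.lf (nat_lit 0) (nat_lit 3085875311) (nat_lit 152) (nat_lit 28525795507) (nat_lit 76) (nat_lit 12497076095) (nat_lit 19) (nat_lit 5) (nat_lit 21) (nat_lit 5) (nat_lit 20) (nat_lit 5) (nat_lit 371) (nat_lit 276) (nat_lit 133)))))) (XT.nd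 (nat_lit 468) (nat_lit 304) (nat_lit 0) (XT.nd (nat_lit 234) (nat_lit 0) (nat_lit 0) (XT.nd (nat_lit 78) (nat_lit 152) (nat_lit 0) (XT.lf (nat_lit 0) (nat_lit 7960004549) (nat_lit 152) (nat_lit 17378027352) (nat_lit 76) (nat_lit 19874918434) (nat_lit 19) (nat_lit 5) (nat_lit 21) (nat_lit 5) (nat_lit 20) (nat_lit 5) (nat_lit 372) (nat_lit 276) (nat_lit 132)) (XT.nd (nat_lit 78) (nat_lit 152) (nat_lit 0) (XT.lf (nat_lit 0) (nat_lit 12974547914) (nat_lit 152) (nat_lit 5905565539) (nat_lit 76) (nat_lit 27470345965) (nat_lit 19) (nat_lit 5) (nat_lit 21) (nat_lit 5) (nat_lit 20) (nat_lit 5) (nat_lit 373) (nat_lit 276) (nat_lit 131)) (XT.lf (nat_lit 0) (nat_lit 6019068110) (nat_lit 152) (nat_lit 12172677902) (nat_lit 228) (nat_lit 29328786323) (nat_lit 17) (nat_lit 5) (nat_lit 19) (nat_lit 5) (nat_lit 20) (nat_lit 5) (nat_lit 374) (nat_lit 276) (nat_lit 130)))) (XT.nd (nat_lit 78) (nat_lit 0) (nat_lit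 0) (XT.lf (nat_lit 0) (nat_lit 18413136060) (nat_lit 152) (nat_lit 5206392376) (nat_lit 228) (nat_lit 25104561917) (nat_lit 17) (nat_lit 5) (nat_lit 19) (nat_lit 5) (nat_lit 20) (nat_lit 5) (nat_lit 375) (nat_lit 276) (nat_lit 129)) (XT.nd (nat_lit 78) (nat_lit 0) (nat_lit 0) (XT.lf (nat_lit 0) (nat_lit 29223630871) (nat_lit 228) (nat_lit 18812876973) (nat_lit 76) (nat_lit 1926847493) (nat_lit 17) (nat_lit 5) (nat_lit 20) (nat_lit 5) (nat_lit 18) (nat_lit 4) (nat_lit 376) (nat_lit 276) (nat_lit 128)) (XT.lf (nat_lit 0) (nat_lit 35042123692) (nat_lit 228) (nat_lit 7030358990) (nat_lit 76) (nat_lit 9165932248) (nat_lit 17) (nat_lit 5) (nat_lit 20) (nat_lit 5) (nat_lit 18) (nat_lit 4) (nat_lit 377) (nat_lit 276) (nat_lit 127))))) (XT.nd (nat_lit 234) (nat_lit 228) (nat_lit 0) (XT.nd (nat_lit 78) (nat_lit 0) (nat_lit 0) (XT.lf (nat_lit 0) (nat_lit 5198381229) (nat_lit 76) (nat_lit 35881632782) (nat_lit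 152) (nat_lit 11470371562) (nat_lit 16) (nat_lit 5) (nat_lit 17) (nat_lit 5) (nat_lit 18) (nat_lit 4) (nat_lit 378) (nat_lit 276) (nat_lit 126)) (XT.nd (nat_lit 78) (nat_lit 0) (nat_lit 0) (XT.lf (nat_lit 0) (nat_lit 17929491899) (nat_lit 76) (nat_lit 29435481277) (nat_lit 152) (nat_lit 6534768606) (nat_lit 16) (nat_lit 5) (nat_lit 17) (nat_lit 5) (nat_lit 18) (nat_lit 4) (nat_lit 379) (nat_lit 276) (nat_lit 125)) (XT.lf (nat_lit 0) (nat_lit 31034179361) (nat_lit 76) (nat_lit 22799388450) (nat_lit 152) (nat_lit 1456162550) (nat_lit 16) (nat_lit 5) (nat_lit 17) (nat_lit 5) (nat_lit 18) (nat_lit 4) (nat_lit 380) (nat_lit 276) (nat_lit 124)))) (XT.nd (nat_lit 78) (nat_lit 152) (nat_lit 0) (XT.lf (nat_lit 0) (nat_lit 3696320204) (nat_lit 152) (nat_lit 12233909982) (nat_lit 76) (nat_lit 40790248521) (nat_lit 15) (nat_lit 5) (nat_lit 17) (nat_lit 5) (nat_lit 16) (nat_lit 5) (nat_lit 381) (nat_lit 276)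 (nat_lit 123)) (XT.nd (nat_lit 78) (nat_lit 0) (nat_lit 0) (XT.lf (nat_lit 0) (nat_lit 128496330) (nat_lit 152) (nat_lit 8842167797) (nat_lit 228) (nat_lit 49223160150) (nat_lit 13) (nat_lit 5) (nat_lit 15) (nat_lit 5) (nat_lit 16) (nat_lit 5) (nat_lit 382) (nat_lit 276) (nat_lit 122)) (XT.lf (nat_lit 0) (nat_lit 13104662257) (nat_lit 152) (nat_lit 1417493982) (nat_lit 228) (nat_lit 45185650243) (nat_lit 13) (nat_lit 5) (nat_lit 15) (nat_lit 5) (nat_lit 16) (nat_lit 5) (nat_lit 383) (nat_lit 276) (nat_lit 121))))))))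
noncomputable def xc156 : XT := (XT.nd (nat_lit 33228) (nat_lit 0) (nat_lit 7372) (XT.nd (nat_lit 32292) (nat_lit 0) (nat_lit 13680) (XT.nd (nat_lit 390) (nat_lit 152) (nat_lit 0) (XT.nd (nat_lit 156) (nat_lit 76) (nat_lit 0) (XT.nd (nat_lit 78) (nat_lit 0) (nat_lit 0) (XT.lf (nat_lit 0) (nat_lit 20295562303) (nat_lit 228) (nat_lit 34864754269) (nat_lit 76) (nat_lit 6105234201) (nat_lit 13) (nat_lit 5) (nat_lit 16) (nat_lit 5) (nat_lit 14) (nat_lit 4) (nat_lit 384) (nat_lit 276) (nat_lit 120)) (XT.lf (nat_lit 0) (nat_lit 26251820080) (nat_lit 228) (nat_lit 22795794268) (nat_lit 76) (nat_lit 13822127145) (nat_lit 13) (nat_lit 5) (nat_lit 16) (nat_lit 5) (nat_lit 14) (nat_lit 4) (nat_lit 385) (nat_lit 276) (nat_lit 119))) (XT.nd (nat_lit 78) (nat_lit 76) (nat_lit 0) (XT.lf (nat_lit 0) (nat_lit 32382508247) (nat_lit 228) (nat_lit 10372092711) (nat_lit 76) (nat_lit 21767588178) (nat_lit 13) (nat_lit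 5) (nat_lit 16) (nat_lit 5) (nat_lit 14) (nat_lit 4) (nat_lit 386) (nat_lit 276) (nat_lit 118)) (XT.nd (nat_lit 78) (nat_lit 0) (nat_lit 0) (XT.lf (nat_lit 0) (nat_lit 2465313202) (nat_lit 76) (nat_lit 36251368614) (nat_lit 152) (nat_lit 27506944833) (nat_lit 12) (nat_lit 5) (nat_lit 13) (nat_lit 5) (nat_lit 14) (nat_lit 4) (nat_lit 387) (nat_lit 276) (nat_lit 117)) (XT.lf (nat_lit 0) (nat_lit 15893414939) (nat_lit 76) (nat_lit 29448122785) (nat_lit 152) (nat_lit 22631553130) (nat_lit 12) (nat_lit 5) (nat_lit 13) (nat_lit 5) (nat_lit 14) (nat_lit 4) (nat_lit 388) (nat_lit 276) (nat_lit 116))))) (XT.nd (nat_lit 234) (nat_lit 152) (nat_lit 0) (XT.nd (nat_lit 78) (nat_lit 0) (nat_lit 0) (XT.lf (nat_lit 0) (nat_lit 29717520811) (nat_lit 76) (nat_lit 22443656688) (nat_lit 152) (nat_lit 17613983528) (nat_lit 12) (nat_lit 5) (nat_lit 13) (nat_lit 5) (nat_lit 14) (nat_lit 4) (nat_lit 389) (nat_lit 276)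 (nat_lit 115)) (XT.nd (nat_lit 78) (nat_lit 0) (nat_lit 0) (XT.lf (nat_lit 0) (nat_lit 43949710132) (nat_lit 76) (nat_lit 15231849916) (nat_lit 152) (nat_lit 12449851743) (nat_lit 12) (nat_lit 5) (nat_lit 13) (nat_lit 5) (nat_lit 14) (nat_lit 4) (nat_lit 390) (nat_lit 276) (nat_lit 114)) (XT.lf (nat_lit 0) (nat_lit 58602418796) (nat_lit 76) (nat_lit 7806400891) (nat_lit 152) (nat_lit 7134645428) (nat_lit 12) (nat_lit 5) (nat_lit 13) (nat_lit 5) (nat_lit 14) (nat_lit 4) (nat_lit 391) (nat_lit 276) (nat_lit 113)))) (XT.nd (nat_lit 78) (nat_lit 152) (nat_lit 0) (XT.lf (nat_lit 0) (nat_lit 73688450141) (nat_lit 76) (nat_lit 160821354) (nat_lit 152) (nat_lit 1663720227) (nat_lit 12) (nat_lit 5) (nat_lit 13) (nat_lit 5) (nat_lit 14) (nat_lit 4) (nat_lit 392) (nat_lit 276) (nat_lit 112)) (XT.nd (nat_lit 78) (nat_lit 0) (nat_lit 0) (XT.lf (nat_lit 0) (nat_lit 4080044771) (nat_lit 152) (nat_lit 65739965474)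 (nat_lit 76) (nat_lit 7714865175) (nat_lit 10) (nat_lit 5) (nat_lit 12) (nat_lit 5) (nat_lit 11) (nat_lit 4) (nat_lit 393) (nat_lit 276) (nat_lit 111)) (XT.lf (nat_lit 0) (nat_lit 9979345259) (nat_lit 152) (nat_lit 53780936577) (nat_lit 76) (nat_lit 15856142436) (nat_lit 10) (nat_lit 5) (nat_lit 12) (nat_lit 5) (nat_lit 11) (nat_lit 4) (nat_lit 394) (nat_lit 276) (nat_lit 110)))))) (XT.nd (nat_lit 468) (nat_lit 760) (nat_lit 0) (XT.nd (nat_lit 234) (nat_lit 0) (nat_lit 0) (XT.nd (nat_lit 78) (nat_lit 836) (nat_lit 0) (XT.lf (nat_lit 0) (nat_lit 3236873327) (nat_lit 836) (nat_lit 309749063) (nat_lit 836) (nat_lit 309749063) (nat_lit 211) (nat_lit 3) (nat_lit 222) (nat_lit 3) (nat_lit 222) (nat_lit 5) (nat_lit 277) (nat_lit 277) (nat_lit 226)) (XT.nd (nat_lit 78) (nat_lit 0) (nat_lit 0) (XT.lf (nat_lit 0) (nat_lit 11582822) (nat_lit 836) (nat_lit 5026580787) (nat_lit 912) (nat_lit 2750197173) (nat_lit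 200) (nat_lit 5) (nat_lit 211) (nat_lit 3) (nat_lit 212) (nat_lit 5) (nat_lit 278) (nat_lit 277) (nat_lit 225)) (XT.lf (nat_lit 0) (nat_lit 1233326552) (nat_lit 836) (nat_lit 1646983944) (nat_lit 912) (nat_lit 4986933057) (nat_lit 200) (nat_lit 5) (nat_lit 211) (nat_lit 3) (nat_lit 212) (nat_lit 5) (nat_lit 279) (nat_lit 277) (nat_lit 224)))) (XT.nd (nat_lit 78) (nat_lit 0) (nat_lit 76) (XT.lf (nat_lit 76) (nat_lit 1844963107) (nat_lit 0) (nat_lit 618117922) (nat_lit 912) (nat_lit 5486388381) (nat_lit 201) (nat_lit 5) (nat_lit 200) (nat_lit 5) (nat_lit 212) (nat_lit 5) (nat_lit 280) (nat_lit 277) (nat_lit 223)) (XT.nd (nat_lit 78) (nat_lit 0) (nat_lit 0) (XT.lf (nat_lit 0) (nat_lit 3717913063) (nat_lit 836) (nat_lit 2601316575) (nat_lit 912) (nat_lit 1715400794) (nat_lit 201) (nat_lit 5) (nat_lit 212) (nat_lit 5) (nat_lit 213) (nat_lit 5) (nat_lit 281) (nat_lit 277) (nat_lit 222)) (XT.lf (nat_lit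 76) (nat_lit 994564446) (nat_lit 0) (nat_lit 3987751318) (nat_lit 912) (nat_lit 3140983367) (nat_lit 202) (nat_lit 5) (nat_lit 201) (nat_lit 5) (nat_lit 213) (nat_lit 5) (nat_lit 282) (nat_lit 277) (nat_lit 221))))) (XT.nd (nat_lit 234) (nat_lit 0) (nat_lit 0) (XT.nd (nat_lit 78) (nat_lit 836) (nat_lit 0) (XT.lf (nat_lit 76) (nat_lit 4726206265) (nat_lit 0) (nat_lit 1541987705) (nat_lit 912) (nat_lit 1947035015) (nat_lit 202) (nat_lit 5) (nat_lit 201) (nat_lit 5) (nat_lit 213) (nat_lit 5) (nat_lit 283) (nat_lit 277) (nat_lit 220)) (XT.nd (nat_lit 78) (nat_lit 912) (nat_lit 0) (XT.lf (nat_lit 76) (nat_lit 228742145) (nat_lit 0) (nat_lit 7334179088) (nat_lit 912) (nat_lit 747991587) (nat_lit 203) (nat_lit 5) (nat_lit 202) (nat_lit 5) (nat_lit 214) (nat_lit 5) (nat_lit 284) (nat_lit 277) (nat_lit 219)) (XT.lf (nat_lit 0) (nat_lit 487503935) (nat_lit 912) (nat_lit 4326009998) (nat_lit 988) (nat_lit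 3595611542) (nat_lit 190) (nat_lit 5) (nat_lit 202) (nat_lit 5) (nat_lit 203) (nat_lit 5) (nat_lit 285) (nat_lit 277) (nat_lit 218)))) (XT.nd (nat_lit 78) (nat_lit 0) (nat_lit 76) (XT.lf (nat_lit 0) (nat_lit 1705356685) (nat_lit 912) (nat_lit 490651614) (nat_lit 988) (nat_lit 6315339668) (nat_lit 190) (nat_lit 5) (nat_lit 202) (nat_lit 5) (nat_lit 203) (nat_lit 5) (nat_lit 286) (nat_lit 277) (nat_lit 217)) (XT.nd (nat_lit 78) (nat_lit 0) (nat_lit 0) (XT.lf (nat_lit 0) (nat_lit 2960164606) (nat_lit 912) (nat_lit 5119343822) (nat_lit 988) (nat_lit 537208758) (nat_lit 191) (nat_lit 5) (nat_lit 203) (nat_lit 5) (nat_lit 204) (nat_lit 5) (nat_lit 287) (nat_lit 277) (nat_lit 216)) (XT.lf (nat_lit 0) (nat_lit 4241846536) (nat_lit 912) (nat_lit 1158206776) (nat_lit 988) (nat_lit 3325607219) (nat_lit 191) (nat_lit 5) (nat_lit 203) (nat_lit 5) (nat_lit 204) (nat_lit 5) (nat_lit 288) (nat_lit 277) (nat_lit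 215))))))) (XT.nd (nat_lit 858) (nat_lit 2584) (nat_lit 0) (XT.nd (nat_lit 390) (nat_lit 2888) (nat_lit 0) (XT.nd (nat_lit 156) (nat_lit 912) (nat_lit 0) (XT.nd (nat_lit 78) (nat_lit 0) (nat_lit 76) (XT.lf (nat_lit 76) (nat_lit 2953758980) (nat_lit 0) (nat_lit 2600189437) (nat_lit 988) (nat_lit 3284251998) (nat_lit 192) (nat_lit 5) (nat_lit 191) (nat_lit 5) (nat_lit 204) (nat_lit 5) (nat_lit 289) (nat_lit 277) (nat_lit 214)) (XT.lf (nat_lit 0) (nat_lit 6884442729) (nat_lit 912) (nat_lit 1770426070) (nat_lit 988) (nat_lit 299961596) (nat_lit 192) (nat_lit 5) (nat_lit 204) (nat_lit 5) (nat_lit 205) (nat_lit 5) (nat_lit 290) (nat_lit 277) (nat_lit 213))) (XT.nd (nat_lit 78) (nat_lit 988) (nat_lit 0) (XT.lf (nat_lit 76) (nat_lit 2463468840) (nat_lit 0) (nat_lit 5806333231) (nat_lit 988) (nat_lit 804791005) (nat_lit 193) (nat_lit 5) (nat_lit 192) (nat_lit 5) (nat_lit 205) (nat_lit 5) (nat_lit 291)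 (nat_lit 277) (nat_lit 212)) (XT.nd (nat_lit 78) (nat_lit 0) (nat_lit 76) (XT.lf (nat_lit 0) (nat_lit 472966625) (nat_lit 988) (nat_lit 2368082062) (nat_lit 1064) (nat_lit 6357315924) (nat_lit 179) (nat_lit 5) (nat_lit 192) (nat_lit 5) (nat_lit 193) (nat_lit 5) (nat_lit 292) (nat_lit 277) (nat_lit 211)) (XT.lf (nat_lit 0) (nat_lit 1761439162) (nat_lit 988) (nat_lit 7320631337) (nat_lit 76) (nat_lit 243958339) (nat_lit 180) (nat_lit 5) (nat_lit 193) (nat_lit 5) (nat_lit 181) (nat_lit 5) (nat_lit 293) (nat_lit 277) (nat_lit 210))))) (XT.nd (nat_lit 234) (nat_lit 1976) (nat_lit 0) (XT.nd (nat_lit 78) (nat_lit 988) (nat_lit 0) (XT.lf (nat_lit 0) (nat_lit 3108499241) (nat_lit 988) (nat_lit 2953011904) (nat_lit 76) (nat_lit 3395486979) (nat_lit 180) (nat_lit 5) (nat_lit 193) (nat_lit 5) (nat_lit 181) (nat_lit 5) (nat_lit 294) (nat_lit 277) (nat_lit 209)) (XT.nd (nat_lit 78) (nat_lit 0) (nat_lit 0)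 (XT.lf (nat_lit 0) (nat_lit 1550191606) (nat_lit 988) (nat_lit 2929277432) (nat_lit 1064) (nat_lit 5112993515) (nat_lit 167) (nat_lit 5) (nat_lit 180) (nat_lit 5) (nat_lit 181) (nat_lit 5) (nat_lit 295) (nat_lit 277) (nat_lit 208)) (XT.lf (nat_lit 0) (nat_lit 5893854494) (nat_lit 1064) (nat_lit 3511704923) (nat_lit 76) (nat_lit 326431833) (nat_lit 167) (nat_lit 5) (nat_lit 181) (nat_lit 5) (nat_lit 168) (nat_lit 5) (nat_lit 296) (nat_lit 277) (nat_lit 207)))) (XT.nd (nat_lit 78) (nat_lit 912) (nat_lit 0) (XT.lf (nat_lit 0) (nat_lit 1121955904) (nat_lit 1064) (nat_lit 6238714431) (nat_lit 1140) (nat_lit 2514802436) (nat_lit 153) (nat_lit 5) (nat_lit 167) (nat_lit 5) (nat_lit 168) (nat_lit 5) (nat_lit 297) (nat_lit 277) (nat_lit 206)) (XT.nd (nat_lit 78) (nat_lit 912) (nat_lit 0) (XT.lf (nat_lit 0) (nat_lit 5941152320) (nat_lit 1064) (nat_lit 2936633705) (nat_lit 1140) (nat_lit 1145348826) (nat_lit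 153) (nat_lit 5) (nat_lit 167) (nat_lit 5) (nat_lit 168) (nat_lit 5) (nat_lit 298) (nat_lit 277) (nat_lit 205)) (XT.lf (nat_lit 0) (nat_lit 242825610) (nat_lit 912) (nat_lit 9464690169) (nat_lit 76) (nat_lit 468211427) (nat_lit 141) (nat_lit 5) (nat_lit 153) (nat_lit 5) (nat_lit 142) (nat_lit 5) (nat_lit 299) (nat_lit 277) (nat_lit 204)))))) (XT.nd (nat_lit 468) (nat_lit 1520) (nat_lit 0) (XT.nd (nat_lit 234) (nat_lit 532) (nat_lit 0) (XT.nd (nat_lit 78) (nat_lit 532) (nat_lit 0) (XT.lf (nat_lit 0) (nat_lit 1692291846) (nat_lit 912) (nat_lit 4666992830) (nat_lit 76) (nat_lit 3972051906) (nat_lit 141) (nat_lit 5) (nat_lit 153) (nat_lit 5) (nat_lit 142) (nat_lit 5) (nat_lit 300) (nat_lit 277) (nat_lit 203)) (XT.nd (nat_lit 78) (nat_lit 0) (nat_lit 0) (XT.lf (nat_lit 0) (nat_lit 254324282) (nat_lit 532) (nat_lit 2906142336) (nat_lit 608) (nat_lit 7331948618) (nat_lit 134) (nat_lit 5) (nat_lit 141)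 (nat_lit 5) (nat_lit 142) (nat_lit 5) (nat_lit 301) (nat_lit 277) (nat_lit 202)) (XT.lf (nat_lit 0) (nat_lit 4699882493) (nat_lit 608) (nat_lit 5270581269) (nat_lit 76) (nat_lit 687102659) (nat_lit 134) (nat_lit 5) (nat_lit 142) (nat_lit 5) (nat_lit 135) (nat_lit 5) (nat_lit 302) (nat_lit 277) (nat_lit 201)))) (XT.nd (nat_lit 78) (nat_lit 532) (nat_lit 0) (XT.lf (nat_lit 0) (nat_lit 6288378670) (nat_lit 608) (nat_lit 207963681) (nat_lit 76) (nat_lit 4331297273) (nat_lit 134) (nat_lit 5) (nat_lit 142) (nat_lit 5) (nat_lit 135) (nat_lit 5) (nat_lit 303) (nat_lit 277) (nat_lit 200)) (XT.nd (nat_lit 78) (nat_lit 0) (nat_lit 0) (XT.lf (nat_lit 0) (nat_lit 5081275050) (nat_lit 532) (nat_lit 2866976812) (nat_lit 608) (nat_lit 3053904329) (nat_lit 127) (nat_lit 5) (nat_lit 134) (nat_lit 5) (nat_lit 135) (nat_lit 5) (nat_lit 304) (nat_lit 277) (nat_lit 199)) (XT.lf (nat_lit 0) (nat_lit 9643798743) (nat_lit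 608) (nat_lit 681753574) (nat_lit 76) (nat_lit 856830906) (nat_lit 127) (nat_lit 5) (nat_lit 135) (nat_lit 5) (nat_lit 128) (nat_lit 5) (nat_lit 305) (nat_lit 277) (nat_lit 198))))) (XT.nd (nat_lit 234) (nat_lit 456) (nat_lit 0) (XT.nd (nat_lit 78) (nat_lit 532) (nat_lit 0) (XT.lf (nat_lit 0) (nat_lit 72399532) (nat_lit 532) (nat_lit 6612566834) (nat_lit 76) (nat_lit 4681573519) (nat_lit 120) (nat_lit 5) (nat_lit 127) (nat_lit 5) (nat_lit 121) (nat_lit 5) (nat_lit 306) (nat_lit 277) (nat_lit 197)) (XT.nd (nat_lit 78) (nat_lit 532) (nat_lit 0) (XT.lf (nat_lit 0) (nat_lit 1684026116) (nat_lit 532) (nat_lit 1229090087) (nat_lit 76) (nat_lit 8643197866) (nat_lit 120) (nat_lit 5) (nat_lit 127) (nat_lit 5) (nat_lit 121) (nat_lit 5) (nat_lit 307) (nat_lit 277) (nat_lit 196)) (XT.lf (nat_lit 0) (nat_lit 3372807548) (nat_lit 608) (nat_lit 7383501329) (nat_lit 76) (nat_lit 994653993) (nat_lit 113) (nat_lit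 5) (nat_lit 121) (nat_lit 5) (nat_lit 114) (nat_lit 5) (nat_lit 308) (nat_lit 277) (nat_lit 195)))) (XT.nd (nat_lit 78) (nat_lit 456) (nat_lit 0) (XT.lf (nat_lit 0) (nat_lit 5131039210) (nat_lit 608) (nat_lit 1847224555) (nat_lit 76) (nat_lit 4972668012) (nat_lit 113) (nat_lit 5) (nat_lit 121) (nat_lit 5) (nat_lit 114) (nat_lit 5) (nat_lit 309) (nat_lit 277) (nat_lit 194)) (XT.nd (nat_lit 78) (nat_lit 0) (nat_lit 0) (XT.lf (nat_lit 0) (nat_lit 3907818464) (nat_lit 456) (nat_lit 3049831435) (nat_lit 532) (nat_lit 5198823846) (nat_lit 107) (nat_lit 5) (nat_lit 113) (nat_lit 5) (nat_lit 114) (nat_lit 5) (nat_lit 310) (nat_lit 277) (nat_lit 193)) (XT.lf (nat_lit 0) (nat_lit 8845940007) (nat_lit 532) (nat_lit 2528022701) (nat_lit 76) (nat_lit 994054538) (nat_lit 107) (nat_lit 5) (nat_lit 114) (nat_lit 5) (nat_lit 108) (nat_lit 5) (nat_lit 311) (nat_lit 277) (nat_lit 192))))))))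
noncomputable def xc157 : XT := (XT.nd (nat_lit 1794) (nat_lit 1976) (nat_lit 0) (XT.nd (nat_lit 858) (nat_lit 1900) (nat_lit 0) (XT.nd (nat_lit 390) (nat_lit 836) (nat_lit 0) (XT.nd (nat_lit 156) (nat_lit 760) (nat_lit 0) (XT.nd (nat_lit 78) (nat_lit 76) (nat_lit 0) (XT.lf (nat_lit 0) (nat_lit 3376605560) (nat_lit 456) (nat_lit 7456019393) (nat_lit 532) (nat_lit 1752070205) (nat_lit 101) (nat_lit 5) (nat_lit 107) (nat_lit 5) (nat_lit 108) (nat_lit 5) (nat_lit 312) (nat_lit 277) (nat_lit 191)) (XT.lf (nat_lit 0) (nat_lit 74668778) (nat_lit 532) (nat_lit 3321387992) (nat_lit 76) (nat_lit 9411683783) (nat_lit 100) (nat_lit 5) (nat_lit 107) (nat_lit 5) (nat_lit 101) (nat_lit 5) (nat_lit 313) (nat_lit 277) (nat_lit 190))) (XT.nd (nat_lit 78) (nat_lit 380) (nat_lit 0) (XT.lf (nat_lit 0) (nat_lit 1935285059) (nat_lit 456) (nat_lit 10289281867) (nat_lit 76) (nat_lit 811998320) (nat_lit 95) (nat_lit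 5) (nat_lit 101) (nat_lit 5) (nat_lit 96) (nat_lit 5) (nat_lit 314) (nat_lit 277) (nat_lit 189)) (XT.nd (nat_lit 78) (nat_lit 380) (nat_lit 0) (XT.lf (nat_lit 0) (nat_lit 3899399868) (nat_lit 456) (nat_lit 4262336928) (nat_lit 76) (nat_lit 5109123459) (nat_lit 95) (nat_lit 5) (nat_lit 101) (nat_lit 5) (nat_lit 96) (nat_lit 5) (nat_lit 315) (nat_lit 277) (nat_lit 188)) (XT.lf (nat_lit 0) (nat_lit 1961129600) (nat_lit 380) (nat_lit 3960921394) (nat_lit 456) (nat_lit 7590179664) (nat_lit 90) (nat_lit 5) (nat_lit 95) (nat_lit 5) (nat_lit 96) (nat_lit 5) (nat_lit 316) (nat_lit 277) (nat_lit 187))))) (XT.nd (nat_lit 234) (nat_lit 456) (nat_lit 0) (XT.nd (nat_lit 78) (nat_lit 380) (nat_lit 0) (XT.lf (nat_lit 0) (nat_lit 8033440358) (nat_lit 456) (nat_lit 5327722614) (nat_lit 76) (nat_lit 398871349) (nat_lit 90) (nat_lit 5) (nat_lit 96) (nat_lit 5) (nat_lit 91) (nat_lit 5) (nat_lit 317) (nat_lit 277)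 (nat_lit 186)) (XT.nd (nat_lit 78) (nat_lit 0) (nat_lit 0) (XT.lf (nat_lit 0) (nat_lit 1041223252) (nat_lit 380) (nat_lit 9197799190) (nat_lit 456) (nat_lit 3775357042) (nat_lit 85) (nat_lit 5) (nat_lit 90) (nat_lit 5) (nat_lit 91) (nat_lit 5) (nat_lit 318) (nat_lit 277) (nat_lit 185)) (XT.lf (nat_lit 0) (nat_lit 7688433671) (nat_lit 380) (nat_lit 4858086543) (nat_lit 456) (nat_lit 1728794308) (nat_lit 85) (nat_lit 5) (nat_lit 90) (nat_lit 5) (nat_lit 91) (nat_lit 5) (nat_lit 319) (nat_lit 277) (nat_lit 184)))) (XT.nd (nat_lit 78) (nat_lit 380) (nat_lit 0) (XT.lf (nat_lit 0) (nat_lit 354036918) (nat_lit 456) (nat_lit 34420602) (nat_lit 76) (nat_lit 14156072761) (nat_lit 84) (nat_lit 5) (nat_lit 90) (nat_lit 5) (nat_lit 85) (nat_lit 5) (nat_lit 320) (nat_lit 277) (nat_lit 183)) (XT.nd (nat_lit 78) (nat_lit 0) (nat_lit 0) (XT.lf (nat_lit 0) (nat_lit 2554147136) (nat_lit 456) (nat_lit 8051945927)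 (nat_lit 76) (nat_lit 4212558966) (nat_lit 79) (nat_lit 5) (nat_lit 85) (nat_lit 5) (nat_lit 80) (nat_lit 5) (nat_lit 321) (nat_lit 277) (nat_lit 182)) (XT.lf (nat_lit 0) (nat_lit 4807506461) (nat_lit 456) (nat_lit 1353679419) (nat_lit 76) (nat_lit 8940222574) (nat_lit 79) (nat_lit 5) (nat_lit 85) (nat_lit 5) (nat_lit 80) (nat_lit 5) (nat_lit 322) (nat_lit 277) (nat_lit 181)))))) (XT.nd (nat_lit 468) (nat_lit 912) (nat_lit 0) (XT.nd (nat_lit 234) (nat_lit 380) (nat_lit 0) (XT.nd (nat_lit 78) (nat_lit 304) (nat_lit 0) (XT.lf (nat_lit 0) (nat_lit 5634696997) (nat_lit 304) (nat_lit 1531476117) (nat_lit 380) (nat_lit 8225370834) (nat_lit 75) (nat_lit 5) (nat_lit 79) (nat_lit 5) (nat_lit 80) (nat_lit 5) (nat_lit 323) (nat_lit 277) (nat_lit 180)) (XT.nd (nat_lit 78) (nat_lit 304) (nat_lit 0) (XT.lf (nat_lit 0) (nat_lit 9624303279) (nat_lit 380) (nat_lit 2881809316) (nat_lit 76) (nat_lit 3183436576)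 (nat_lit 75) (nat_lit 5) (nat_lit 80) (nat_lit 5) (nat_lit 76) (nat_lit 5) (nat_lit 324) (nat_lit 277) (nat_lit 179)) (XT.lf (nat_lit 0) (nat_lit 4246741727) (nat_lit 304) (nat_lit 7949674854) (nat_lit 380) (nat_lit 3798896783) (nat_lit 71) (nat_lit 5) (nat_lit 75) (nat_lit 5) (nat_lit 76) (nat_lit 5) (nat_lit 325) (nat_lit 277) (nat_lit 178)))) (XT.nd (nat_lit 78) (nat_lit 380) (nat_lit 0) (XT.lf (nat_lit 0) (nat_lit 11627980178) (nat_lit 304) (nat_lit 3231331584) (nat_lit 380) (nat_lit 1450555399) (nat_lit 71) (nat_lit 5) (nat_lit 75) (nat_lit 5) (nat_lit 76) (nat_lit 5) (nat_lit 326) (nat_lit 277) (nat_lit 177)) (XT.nd (nat_lit 78) (nat_lit 0) (nat_lit 0) (XT.lf (nat_lit 0) (nat_lit 975260274) (nat_lit 380) (nat_lit 14030644029) (nat_lit 76) (nat_lit 1626920300) (nat_lit 66) (nat_lit 5) (nat_lit 71) (nat_lit 5) (nat_lit 67) (nat_lit 5) (nat_lit 327) (nat_lit 277) (nat_lit 176)) (XT.lf (nat_lit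 0) (nat_lit 3509437200) (nat_lit 380) (nat_lit 6830341037) (nat_lit 76) (nat_lit 6623342519) (nat_lit 66) (nat_lit 5) (nat_lit 71) (nat_lit 5) (nat_lit 67) (nat_lit 5) (nat_lit 328) (nat_lit 277) (nat_lit 175))))) (XT.nd (nat_lit 234) (nat_lit 608) (nat_lit 0) (XT.nd (nat_lit 78) (nat_lit 0) (nat_lit 0) (XT.lf (nat_lit 0) (nat_lit 577621704) (nat_lit 304) (nat_lit 5533009164) (nat_lit 380) (nat_lit 11192987602) (nat_lit 62) (nat_lit 5) (nat_lit 66) (nat_lit 5) (nat_lit 67) (nat_lit 5) (nat_lit 329) (nat_lit 277) (nat_lit 174)) (XT.nd (nat_lit 78) (nat_lit 0) (nat_lit 0) (XT.lf (nat_lit 0) (nat_lit 8328410165) (nat_lit 304) (nat_lit 516099564) (nat_lit 380) (nat_lit 8808203670) (nat_lit 62) (nat_lit 5) (nat_lit 66) (nat_lit 5) (nat_lit 67) (nat_lit 5) (nat_lit 330) (nat_lit 277) (nat_lit 173)) (XT.lf (nat_lit 0) (nat_lit 11691162148) (nat_lit 380) (nat_lit 1764523470) (nat_lit 76) (nat_lit 4555693975)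 (nat_lit 62) (nat_lit 5) (nat_lit 67) (nat_lit 5) (nat_lit 63) (nat_lit 5) (nat_lit 331) (nat_lit 277) (nat_lit 172)))) (XT.nd (nat_lit 78) (nat_lit 380) (nat_lit 0) (XT.lf (nat_lit 0) (nat_lit 6117624181) (nat_lit 228) (nat_lit 8555958515) (nat_lit 304) (nat_lit 3705732536) (nat_lit 59) (nat_lit 5) (nat_lit 62) (nat_lit 5) (nat_lit 63) (nat_lit 5) (nat_lit 332) (nat_lit 277) (nat_lit 171)) (XT.nd (nat_lit 78) (nat_lit 380) (nat_lit 0) (XT.lf (nat_lit 0) (nat_lit 14253898032) (nat_lit 228) (nat_lit 3496065042) (nat_lit 304) (nat_lit 1008211170) (nat_lit 59) (nat_lit 5) (nat_lit 62) (nat_lit 5) (nat_lit 63) (nat_lit 5) (nat_lit 333) (nat_lit 277) (nat_lit 170)) (XT.lf (nat_lit 0) (nat_lit 1773377150) (nat_lit 380) (nat_lit 15644961912) (nat_lit 76) (nat_lit 1728437691) (nat_lit 54) (nat_lit 5) (nat_lit 59) (nat_lit 5) (nat_lit 55) (nat_lit 5) (nat_lit 334) (nat_lit 277) (nat_lit 169))))))) (XT.nd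 (nat_lit 936) (nat_lit 988) (nat_lit 0) (XT.nd (nat_lit 468) (nat_lit 532) (nat_lit 0) (XT.nd (nat_lit 234) (nat_lit 228) (nat_lit 0) (XT.nd (nat_lit 78) (nat_lit 228) (nat_lit 0) (XT.lf (nat_lit 0) (nat_lit 4685766119) (nat_lit 380) (nat_lit 7768723393) (nat_lit 76) (nat_lit 7090238076) (nat_lit 54) (nat_lit 5) (nat_lit 59) (nat_lit 5) (nat_lit 55) (nat_lit 5) (nat_lit 335) (nat_lit 277) (nat_lit 168)) (XT.nd (nat_lit 78) (nat_lit 0) (nat_lit 0) (XT.lf (nat_lit 0) (nat_lit 332399935) (nat_lit 228) (nat_lit 7343766557) (nat_lit 304) (nat_lit 12278748959) (nat_lit 51) (nat_lit 5) (nat_lit 54) (nat_lit 5) (nat_lit 55) (nat_lit 5) (nat_lit 336) (nat_lit 277) (nat_lit 167)) (XT.lf (nat_lit 0) (nat_lit 8818094890) (nat_lit 228) (nat_lit 2004272790) (nat_lit 304) (nat_lit 9553075790) (nat_lit 51) (nat_lit 5) (nat_lit 54) (nat_lit 5) (nat_lit 55) (nat_lit 5) (nat_lit 337) (nat_lit 277) (nat_lit 166))))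 (XT.nd (nat_lit 78) (nat_lit 228) (nat_lit 0) (XT.lf (nat_lit 0) (nat_lit 14084504853) (nat_lit 304) (nat_lit 3301350704) (nat_lit 76) (nat_lit 3422101955) (nat_lit 51) (nat_lit 5) (nat_lit 55) (nat_lit 5) (nat_lit 52) (nat_lit 5) (nat_lit 338) (nat_lit 277) (nat_lit 165)) (XT.nd (nat_lit 78) (nat_lit 0) (nat_lit 0) (XT.lf (nat_lit 0) (nat_lit 5268272107) (nat_lit 228) (nat_lit 12235021116) (nat_lit 304) (nat_lit 3748406337) (nat_lit 48) (nat_lit 5) (nat_lit 51) (nat_lit 5) (nat_lit 52) (nat_lit 5) (nat_lit 339) (nat_lit 277) (nat_lit 164)) (XT.lf (nat_lit 0) (nat_lit 14145811178) (nat_lit 228) (nat_lit 6900650984) (nat_lit 304) (nat_lit 661652923) (nat_lit 48) (nat_lit 5) (nat_lit 51) (nat_lit 5) (nat_lit 52) (nat_lit 5) (nat_lit 340) (nat_lit 277) (nat_lit 163))))) (XT.nd (nat_lit 234) (nat_lit 228) (nat_lit 0) (XT.nd (nat_lit 78) (nat_lit 0) (nat_lit 0) (XT.lf (nat_lit 0) (nat_lit 1091963671)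 (nat_lit 228) (nat_lit 1375796171) (nat_lit 304) (nat_lit 19709776418) (nat_lit 44) (nat_lit 5) (nat_lit 47) (nat_lit 5) (nat_lit 48) (nat_lit 5) (nat_lit 341) (nat_lit 277) (nat_lit 162)) (XT.nd (nat_lit 78) (nat_lit 0) (nat_lit 0) (XT.lf (nat_lit 0) (nat_lit 5785163638) (nat_lit 304) (nat_lit 12563384756) (nat_lit 76) (nat_lit 4309087319) (nat_lit 44) (nat_lit 5) (nat_lit 48) (nat_lit 5) (nat_lit 45) (nat_lit 5) (nat_lit 342) (nat_lit 277) (nat_lit 161)) (XT.lf (nat_lit 0) (nat_lit 9204847359) (nat_lit 304) (nat_lit 3815396792) (nat_lit 76) (nat_lit 10131825235) (nat_lit 44) (nat_lit 5) (nat_lit 48) (nat_lit 5) (nat_lit 45) (nat_lit 5) (nat_lit 343) (nat_lit 277) (nat_lit 160)))) (XT.nd (nat_lit 78) (nat_lit 0) (nat_lit 0) (XT.lf (nat_lit 0) (nat_lit 5282337603) (nat_lit 228) (nat_lit 7485013544) (nat_lit 304) (nat_lit 10892791601) (nat_lit 41) (nat_lit 5) (nat_lit 44) (nat_lit 5) (nat_lit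 45) (nat_lit 5) (nat_lit 344) (nat_lit 277) (nat_lit 159)) (XT.nd (nat_lit 78) (nat_lit 0) (nat_lit 0) (XT.lf (nat_lit 0) (nat_lit 14715599898) (nat_lit 228) (nat_lit 1749267768) (nat_lit 304) (nat_lit 7717759682) (nat_lit 41) (nat_lit 5) (nat_lit 44) (nat_lit 5) (nat_lit 45) (nat_lit 5) (nat_lit 345) (nat_lit 277) (nat_lit 158)) (XT.lf (nat_lit 0) (nat_lit 20303147670) (nat_lit 304) (nat_lit 344328797) (nat_lit 76) (nat_lit 4072427668) (nat_lit 41) (nat_lit 5) (nat_lit 45) (nat_lit 5) (nat_lit 42) (nat_lit 5) (nat_lit 346) (nat_lit 277) (nat_lit 157)))))) (XT.nd (nat_lit 468) (nat_lit 380) (nat_lit 0) (XT.nd (nat_lit 234) (nat_lit 152) (nat_lit 0) (XT.nd (nat_lit 78) (nat_lit 304) (nat_lit 0) (XT.lf (nat_lit 0) (nat_lit 9199263615) (nat_lit 152) (nat_lit 15153219585) (nat_lit 228) (nat_lit 917951223) (nat_lit 39) (nat_lit 5) (nat_lit 41) (nat_lit 5) (nat_lit 42) (nat_lit 5) (nat_lit 347) (nat_lit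 277) (nat_lit 156)) (XT.nd (nat_lit 78) (nat_lit 228) (nat_lit 0) (XT.lf (nat_lit 0) (nat_lit 2627114597) (nat_lit 228) (nat_lit 6842044737) (nat_lit 76) (nat_lit 16367747262) (nat_lit 38) (nat_lit 5) (nat_lit 41) (nat_lit 5) (nat_lit 39) (nat_lit 5) (nat_lit 348) (nat_lit 277) (nat_lit 155)) (XT.lf (nat_lit 0) (nat_lit 2692812497) (nat_lit 228) (nat_lit 3583635467) (nat_lit 304) (nat_lit 20143172706) (nat_lit 35) (nat_lit 5) (nat_lit 38) (nat_lit 5) (nat_lit 39) (nat_lit 5) (nat_lit 349) (nat_lit 277) (nat_lit 154)))) (XT.nd (nat_lit 78) (nat_lit 152) (nat_lit 0) (XT.lf (nat_lit 0) (nat_lit 10119431077) (nat_lit 304) (nat_lit 14402982252) (nat_lit 76) (nat_lit 2494888773) (nat_lit 35) (nat_lit 5) (nat_lit 39) (nat_lit 5) (nat_lit 36) (nat_lit 5) (nat_lit 350) (nat_lit 277) (nat_lit 153)) (XT.nd (nat_lit 78) (nat_lit 152) (nat_lit 0) (XT.lf (nat_lit 0) (nat_lit 14104029902) (nat_lit 304) (nat_lit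 4849195899) (nat_lit 76) (nat_lit 8678909098) (nat_lit 35) (nat_lit 5) (nat_lit 39) (nat_lit 5) (nat_lit 36) (nat_lit 5) (nat_lit 351) (nat_lit 277) (nat_lit 152)) (XT.lf (nat_lit 0) (nat_lit 5076405912) (nat_lit 152) (nat_lit 13171669637) (nat_lit 228) (nat_lit 10016150261) (nat_lit 33) (nat_lit 5) (nat_lit 35) (nat_lit 5) (nat_lit 36) (nat_lit 5) (nat_lit 352) (nat_lit 277) (nat_lit 151))))) (XT.nd (nat_lit 234) (nat_lit 152) (nat_lit 0) (XT.nd (nat_lit 78) (nat_lit 228) (nat_lit 0) (XT.lf (nat_lit 0) (nat_lit 15385458301) (nat_lit 152) (nat_lit 7171189971) (nat_lit 228) (nat_lit 6357435098) (nat_lit 33) (nat_lit 5) (nat_lit 35) (nat_lit 5) (nat_lit 36) (nat_lit 5) (nat_lit 353) (nat_lit 277) (nat_lit 150)) (XT.nd (nat_lit 78) (nat_lit 228) (nat_lit 0) (XT.lf (nat_lit 0) (nat_lit 25990460668) (nat_lit 152) (nat_lit 995511037) (nat_lit 228) (nat_lit 2597729943) (nat_lit 33) (nat_lit 5) (nat_lit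 35) (nat_lit 5) (nat_lit 36) (nat_lit 5) (nat_lit 354) (nat_lit 277) (nat_lit 149)) (XT.lf (nat_lit 0) (nat_lit 1358686210) (nat_lit 228) (nat_lit 23577158477) (nat_lit 76) (nat_lit 5333941556) (nat_lit 30) (nat_lit 5) (nat_lit 33) (nat_lit 5) (nat_lit 31) (nat_lit 5) (nat_lit 355) (nat_lit 277) (nat_lit 148)))) (XT.nd (nat_lit 78) (nat_lit 152) (nat_lit 0) (XT.lf (nat_lit 0) (nat_lit 5419806501) (nat_lit 228) (nat_lit 13663760975) (nat_lit 76) (nat_lit 11890976561) (nat_lit 30) (nat_lit 5) (nat_lit 33) (nat_lit 5) (nat_lit 31) (nat_lit 5) (nat_lit 356) (nat_lit 277) (nat_lit 147)) (XT.nd (nat_lit 78) (nat_lit 152) (nat_lit 0) (XT.lf (nat_lit 0) (nat_lit 9594724443) (nat_lit 228) (nat_lit 3465768089) (nat_lit 76) (nat_lit 18640201817) (nat_lit 30) (nat_lit 5) (nat_lit 33) (nat_lit 5) (nat_lit 31) (nat_lit 5) (nat_lit 357) (nat_lit 277) (nat_lit 146)) (XT.lf (nat_lit 0) (nat_lit 7165556872) (nat_lit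 152) (nat_lit 6790410867) (nat_lit 228) (nat_lit 18490837550) (nat_lit 28) (nat_lit 5) (nat_lit 30) (nat_lit 5) (nat_lit 31) (nat_lit 5) (nat_lit 358) (nat_lit 277) (nat_lit 145))))))))
noncomputable def xc158 : XT := (XT.nd (nat_lit 1794) (nat_lit 304) (nat_lit 0) (XT.nd (nat_lit 858) (nat_lit 380) (nat_lit 0) (XT.nd (nat_lit 390) (nat_lit 304) (nat_lit 0) (XT.nd (nat_lit 156) (nat_lit 228) (nat_lit 0) (XT.nd (nat_lit 78) (nat_lit 0) (nat_lit 0) (XT.lf (nat_lit 0) (nat_lit 18174554793) (nat_lit 152) (nat_lit 300797996) (nat_lit 228) (nat_lit 14739135840) (nat_lit 28) (nat_lit 5) (nat_lit 30) (nat_lit 5) (nat_lit 31) (nat_lit 5) (nat_lit 359) (nat_lit 277) (nat_lit 144)) (XT.lf (nat_lit 0) (nat_lit 23184169487) (nat_lit 228) (nat_lit 4564883934) (nat_lit 76) (nat_lit 6254541514) (nat_lit 28) (nat_lit 5) (nat_lit 31) (nat_lit 5) (nat_lit 29) (nat_lit 5) (nat_lit 360) (nat_lit 277) (nat_lit 143)))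 (XT.nd (nat_lit 78) (nat_lit 76) (nat_lit 0) (XT.lf (nat_lit 0) (nat_lit 6333235169) (nat_lit 152) (nat_lit 21757579399) (nat_lit 228) (nat_lit 6723870680) (nat_lit 26) (nat_lit 5) (nat_lit 28) (nat_lit 5) (nat_lit 29) (nat_lit 5) (nat_lit 361) (nat_lit 277) (nat_lit 142)) (XT.nd (nat_lit 78) (nat_lit 76) (nat_lit 0) (XT.lf (nat_lit 0) (nat_lit 17640200735) (nat_lit 152) (nat_lit 15543361617) (nat_lit 228) (nat_lit 2465386328) (nat_lit 26) (nat_lit 5) (nat_lit 28) (nat_lit 5) (nat_lit 29) (nat_lit 5) (nat_lit 362) (nat_lit 277) (nat_lit 141)) (XT.lf (nat_lit 0) (nat_lit 1876309987) (nat_lit 228) (nat_lit 7251809513) (nat_lit 76) (nat_lit 27379785456) (nat_lit 25) (nat_lit 5) (nat_lit 28) (nat_lit 5) (nat_lit 26) (nat_lit 5) (nat_lit 363) (nat_lit 277) (nat_lit 140))))) (XT.nd (nat_lit 234) (nat_lit 152) (nat_lit 0) (XT.nd (nat_lit 78) (nat_lit 0) (nat_lit 0) (XT.lf (nat_lit 0) (nat_lit 3867755164)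 (nat_lit 152) (nat_lit 2461275245) (nat_lit 228) (nat_lit 31061964339) (nat_lit 23) (nat_lit 5) (nat_lit 25) (nat_lit 5) (nat_lit 26) (nat_lit 5) (nat_lit 364) (nat_lit 277) (nat_lit 139)) (XT.nd (nat_lit 78) (nat_lit 0) (nat_lit 0) (XT.lf (nat_lit 0) (nat_lit 11024833870) (nat_lit 228) (nat_lit 22883097801) (nat_lit 76) (nat_lit 4389367194) (nat_lit 23) (nat_lit 5) (nat_lit 26) (nat_lit 5) (nat_lit 24) (nat_lit 5) (nat_lit 365) (nat_lit 277) (nat_lit 138)) (XT.lf (nat_lit 0) (nat_lit 15879276857) (nat_lit 228) (nat_lit 11958999554) (nat_lit 76) (nat_lit 11391989208) (nat_lit 23) (nat_lit 5) (nat_lit 26) (nat_lit 5) (nat_lit 24) (nat_lit 5) (nat_lit 366) (nat_lit 277) (nat_lit 137)))) (XT.nd (nat_lit 78) (nat_lit 152) (nat_lit 0) (XT.lf (nat_lit 0) (nat_lit 20872941836) (nat_lit 228) (nat_lit 717740231) (nat_lit 76) (nat_lit 18600737939) (nat_lit 23) (nat_lit 5) (nat_lit 26) (nat_lit 5) (nat_lit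 24) (nat_lit 5) (nat_lit 367) (nat_lit 277) (nat_lit 136)) (XT.nd (nat_lit 78) (nat_lit 0) (nat_lit 0) (XT.lf (nat_lit 0) (nat_lit 11066448904) (nat_lit 152) (nat_lit 15050120773) (nat_lit 228) (nat_lit 15061840866) (nat_lit 21) (nat_lit 5) (nat_lit 23) (nat_lit 5) (nat_lit 24) (nat_lit 5) (nat_lit 368) (nat_lit 277) (nat_lit 135)) (XT.lf (nat_lit 0) (nat_lit 23208722972) (nat_lit 152) (nat_lit 8309890283) (nat_lit 228) (nat_lit 10676370262) (nat_lit 21) (nat_lit 5) (nat_lit 23) (nat_lit 5) (nat_lit 24) (nat_lit 5) (nat_lit 369) (nat_lit 277) (nat_lit 134)))))) (XT.nd (nat_lit 468) (nat_lit 76) (nat_lit 0) (XT.nd (nat_lit 234) (nat_lit 152) (nat_lit 0) (XT.nd (nat_lit 78) (nat_lit 152) (nat_lit 0) (XT.lf (nat_lit 0) (nat_lit 35705407289) (nat_lit 152) (nat_lit 1371348844) (nat_lit 228) (nat_lit 6165482164) (nat_lit 21) (nat_lit 5) (nat_lit 23) (nat_lit 5) (nat_lit 24) (nat_lit 5) (nat_lit 370)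 (nat_lit 277) (nat_lit 133)) (XT.nd (nat_lit 78) (nat_lit 76) (nat_lit 0) (XT.lf (nat_lit 0) (nat_lit 4274257663) (nat_lit 76) (nat_lit 38618163882) (nat_lit 152) (nat_lit 1425771414) (nat_lit 20) (nat_lit 5) (nat_lit 21) (nat_lit 5) (nat_lit 22) (nat_lit 4) (nat_lit 371) (nat_lit 277) (nat_lit 132)) (XT.lf (nat_lit 0) (nat_lit 3473317813) (nat_lit 152) (nat_lit 28887259482) (nat_lit 76) (nat_lit 13062318701) (nat_lit 19) (nat_lit 5) (nat_lit 21) (nat_lit 5) (nat_lit 20) (nat_lit 5) (nat_lit 372) (nat_lit 277) (nat_lit 131)))) (XT.nd (nat_lit 78) (nat_lit 152) (nat_lit 0) (XT.lf (nat_lit 0) (nat_lit 8485082591) (nat_lit 152) (nat_lit 17419455657) (nat_lit 76) (nat_lit 20655952709) (nat_lit 19) (nat_lit 5) (nat_lit 21) (nat_lit 5) (nat_lit 20) (nat_lit 5) (nat_lit 373) (nat_lit 277) (nat_lit 130)) (XT.nd (nat_lit 78) (nat_lit 152) (nat_lit 0) (XT.lf (nat_lit 0) (nat_lit 13641724066) (nat_lit 152)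 (nat_lit 5616798025) (nat_lit 76) (nat_lit 28473860928) (nat_lit 19) (nat_lit 5) (nat_lit 21) (nat_lit 5) (nat_lit 20) (nat_lit 5) (nat_lit 374) (nat_lit 277) (nat_lit 129)) (XT.lf (nat_lit 0) (nat_lit 6661006649) (nat_lit 152) (nat_lit 12350771063) (nat_lit 228) (nat_lit 29925897563) (nat_lit 17) (nat_lit 5) (nat_lit 19) (nat_lit 5) (nat_lit 20) (nat_lit 5) (nat_lit 375) (nat_lit 277) (nat_lit 128))))) (XT.nd (nat_lit 234) (nat_lit 76) (nat_lit 0) (XT.nd (nat_lit 78) (nat_lit 0) (nat_lit 0) (XT.lf (nat_lit 0) (nat_lit 19413458778) (nat_lit 152) (nat_lit 5180946113) (nat_lit 228) (nat_lit 25583181930) (nat_lit 17) (nat_lit 5) (nat_lit 19) (nat_lit 5) (nat_lit 20) (nat_lit 5) (nat_lit 376) (nat_lit 277) (nat_lit 127)) (XT.nd (nat_lit 78) (nat_lit 0) (nat_lit 0) (XT.lf (nat_lit 0) (nat_lit 30360569522) (nat_lit 228) (nat_lit 18936089628) (nat_lit 76) (nat_lit 2157559347) (nat_lit 17) (nat_lit 5)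 (nat_lit 20) (nat_lit 5) (nat_lit 18) (nat_lit 4) (nat_lit 377) (nat_lit 277) (nat_lit 126)) (XT.lf (nat_lit 0) (nat_lit 36346037621) (nat_lit 228) (nat_lit 6812945823) (nat_lit 76) (nat_lit 9608780536) (nat_lit 17) (nat_lit 5) (nat_lit 20) (nat_lit 5) (nat_lit 18) (nat_lit 4) (nat_lit 378) (nat_lit 277) (nat_lit 125)))) (XT.nd (nat_lit 78) (nat_lit 0) (nat_lit 0) (XT.lf (nat_lit 0) (nat_lit 5778457348) (nat_lit 76) (nat_lit 36783325504) (nat_lit 152) (nat_lit 11557415866) (nat_lit 16) (nat_lit 5) (nat_lit 17) (nat_lit 5) (nat_lit 18) (nat_lit 4) (nat_lit 379) (nat_lit 277) (nat_lit 124)) (XT.nd (nat_lit 78) (nat_lit 0) (nat_lit 0) (XT.lf (nat_lit 0) (nat_lit 18879148192) (nat_lit 76) (nat_lit 30148879443) (nat_lit 152) (nat_lit 6481232206) (nat_lit 16) (nat_lit 5) (nat_lit 17) (nat_lit 5) (nat_lit 18) (nat_lit 4) (nat_lit 380) (nat_lit 277) (nat_lit 123)) (XT.lf (nat_lit 0) (nat_lit 32364982932)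 (nat_lit 76) (nat_lit 23318645567) (nat_lit 152) (nat_lit 1257537272) (nat_lit 16) (nat_lit 5) (nat_lit 17) (nat_lit 5) (nat_lit 18) (nat_lit 4) (nat_lit 381) (nat_lit 277) (nat_lit 122))))))) (XT.nd (nat_lit 32526) (nat_lit 0) (nat_lit 13452) (XT.nd (nat_lit 468) (nat_lit 76) (nat_lit 0) (XT.nd (nat_lit 234) (nat_lit 0) (nat_lit 0) (XT.nd (nat_lit 78) (nat_lit 152) (nat_lit 0) (XT.lf (nat_lit 0) (nat_lit 4037871762) (nat_lit 152) (nat_lit 12208009361) (nat_lit 76) (nat_lit 42169098956) (nat_lit 15) (nat_lit 5) (nat_lit 17) (nat_lit 5) (nat_lit 16) (nat_lit 5) (nat_lit 382) (nat_lit 277) (nat_lit 121)) (XT.nd (nat_lit 78) (nat_lit 0) (nat_lit 0) (XT.lf (nat_lit 0) (nat_lit 521417003) (nat_lit 152) (nat_lit 8946050628) (nat_lit 228) (nat_lit 50465153362) (nat_lit 13) (nat_lit 5) (nat_lit 15) (nat_lit 5) (nat_lit 16) (nat_lit 5) (nat_lit 383) (nat_lit 277) (nat_lit 120)) (XT.lf (nat_lit 0) (nat_lit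 13875535895) (nat_lit 152) (nat_lit 1303337051) (nat_lit 228) (nat_lit 46313354126) (nat_lit 13) (nat_lit 5) (nat_lit 15) (nat_lit 5) (nat_lit 16) (nat_lit 5) (nat_lit 384) (nat_lit 277) (nat_lit 119)))) (XT.nd (nat_lit 78) (nat_lit 0) (nat_lit 0) (XT.lf (nat_lit 0) (nat_lit 21120505037) (nat_lit 228) (nat_lit 35538812184) (nat_lit 76) (nat_lit 6437541057) (nat_lit 13) (nat_lit 5) (nat_lit 16) (nat_lit 5) (nat_lit 14) (nat_lit 4) (nat_lit 385) (nat_lit 277) (nat_lit 118)) (XT.nd (nat_lit 78) (nat_lit 0) (nat_lit 0) (XT.lf (nat_lit 0) (nat_lit 27249157076) (nat_lit 228) (nat_lit 23118614977) (nat_lit 76) (nat_lit 14381596620) (nat_lit 13) (nat_lit 5) (nat_lit 16) (nat_lit 5) (nat_lit 14) (nat_lit 4) (nat_lit 386) (nat_lit 277) (nat_lit 117)) (XT.lf (nat_lit 0) (nat_lit 33557655721) (nat_lit 228) (nat_lit 10332718484) (nat_lit 76) (nat_lit 22561203843) (nat_lit 13) (nat_lit 5) (nat_lit 16) (nat_lit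 5) (nat_lit 14) (nat_lit 4) (nat_lit 387) (nat_lit 277) (nat_lit 116))))) (XT.nd (nat_lit 234) (nat_lit 0) (nat_lit 0) (XT.nd (nat_lit 78) (nat_lit 0) (nat_lit 0) (XT.lf (nat_lit 0) (nat_lit 2886372969) (nat_lit 76) (nat_lit 37192885867) (nat_lit 152) (nat_lit 28124882571) (nat_lit 12) (nat_lit 5) (nat_lit 13) (nat_lit 5) (nat_lit 14) (nat_lit 4) (nat_lit 388) (nat_lit 277) (nat_lit 115)) (XT.nd (nat_lit 78) (nat_lit 0) (nat_lit 0) (XT.lf (nat_lit 0) (nat_lit 16707208039) (nat_lit 76) (nat_lit 30189795784) (nat_lit 152) (nat_lit 23109266125) (nat_lit 12) (nat_lit 5) (nat_lit 13) (nat_lit 5) (nat_lit 14) (nat_lit 4) (nat_lit 389) (nat_lit 277) (nat_lit 114)) (XT.lf (nat_lit 0) (nat_lit 30936221825) (nat_lit 76) (nat_lit 22979324948) (nat_lit 152) (nat_lit 17947030607) (nat_lit 12) (nat_lit 5) (nat_lit 13) (nat_lit 5) (nat_lit 14) (nat_lit 4) (nat_lit 390) (nat_lit 277) (nat_lit 113)))) (XT.nd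 (nat_lit 78) (nat_lit 0) (nat_lit 0) (XT.lf (nat_lit 0) (nat_lit 45585847446) (nat_lit 76) (nat_lit 15555172947) (nat_lit 152) (nat_lit 12633665328) (nat_lit 12) (nat_lit 5) (nat_lit 13) (nat_lit 5) (nat_lit 14) (nat_lit 4) (nat_lit 391) (nat_lit 277) (nat_lit 112)) (XT.nd (nat_lit 78) (nat_lit 0) (nat_lit 0) (XT.lf (nat_lit 0) (nat_lit 60668885544) (nat_lit 76) (nat_lit 7910852658) (nat_lit 152) (nat_lit 7164527541) (nat_lit 12) (nat_lit 5) (nat_lit 13) (nat_lit 5) (nat_lit 14) (nat_lit 4) (nat_lit 392) (nat_lit 277) (nat_lit 111)) (XT.lf (nat_lit 0) (nat_lit 76198515475) (nat_lit 76) (nat_lit 39684579) (nat_lit 152) (nat_lit 1534838387) (nat_lit 12) (nat_lit 5) (nat_lit 13) (nat_lit 5) (nat_lit 14) (nat_lit 4) (nat_lit 393) (nat_lit 277) (nat_lit 110)))))) (XT.nd (nat_lit 468) (nat_lit 836) (nat_lit 0) (XT.nd (nat_lit 234) (nat_lit 0) (nat_lit 0) (XT.nd (nat_lit 78) (nat_lit 0) (nat_lit 0)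 (XT.lf (nat_lit 0) (nat_lit 293111218) (nat_lit 0) (nat_lit 293111218) (nat_lit 836) (nat_lit 3346601110) (nat_lit 200) (nat_lit 5) (nat_lit 200) (nat_lit 3) (nat_lit 211) (nat_lit 3) (nat_lit 278) (nat_lit 278) (nat_lit 224)) (XT.nd (nat_lit 78) (nat_lit 0) (nat_lit 0) (XT.lf (nat_lit 0) (nat_lit 2365707920) (nat_lit 836) (nat_lit 3906527450) (nat_lit 912) (nat_lit 1673206727) (nat_lit 200) (nat_lit 5) (nat_lit 211) (nat_lit 3) (nat_lit 212) (nat_lit 5) (nat_lit 279) (nat_lit 278) (nat_lit 223)) (XT.lf (nat_lit 0) (nat_lit 3555547333) (nat_lit 836) (nat_lit 462557773) (nat_lit 912) (nat_lit 4010816427) (nat_lit 200) (nat_lit 5) (nat_lit 211) (nat_lit 3) (nat_lit 212) (nat_lit 5) (nat_lit 280) (nat_lit 278) (nat_lit 222)))) (XT.nd (nat_lit 78) (nat_lit 0) (nat_lit 76) (XT.lf (nat_lit 76) (nat_lit 3122051262) (nat_lit 0) (nat_lit 1645327454) (nat_lit 912) (nat_lit 3348048349) (nat_lit 201) (nat_lit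 5) (nat_lit 200) (nat_lit 5) (nat_lit 212) (nat_lit 5) (nat_lit 281) (nat_lit 278) (nat_lit 221)) (XT.nd (nat_lit 78) (nat_lit 0) (nat_lit 0) (XT.lf (nat_lit 0) (nat_lit 5985478941) (nat_lit 836) (nat_lit 1413373933) (nat_lit 912) (nat_lit 806684869) (nat_lit 201) (nat_lit 5) (nat_lit 212) (nat_lit 5) (nat_lit 213) (nat_lit 5) (nat_lit 282) (nat_lit 278) (nat_lit 220)) (XT.lf (nat_lit 76) (nat_lit 2277971929) (nat_lit 0) (nat_lit 4959094934) (nat_lit 912) (nat_lit 1061480805) (nat_lit 202) (nat_lit 5) (nat_lit 201) (nat_lit 5) (nat_lit 213) (nat_lit 5) (nat_lit 283) (nat_lit 278) (nat_lit 219))))) (XT.nd (nat_lit 234) (nat_lit 0) (nat_lit 76) (XT.nd (nat_lit 78) (nat_lit 0) (nat_lit 76) (XT.lf (nat_lit 0) (nat_lit 102925004) (nat_lit 912) (nat_lit 2311186949) (nat_lit 988) (nat_lit 5981086894) (nat_lit 189) (nat_lit 5) (nat_lit 201) (nat_lit 5) (nat_lit 202) (nat_lit 5) (nat_lit 284) (nat_lit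 278) (nat_lit 218)) (XT.nd (nat_lit 78) (nat_lit 0) (nat_lit 0) (XT.lf (nat_lit 0) (nat_lit 1258191838) (nat_lit 912) (nat_lit 6993509831) (nat_lit 988) (nat_lit 243510114) (nat_lit 190) (nat_lit 5) (nat_lit 202) (nat_lit 5) (nat_lit 203) (nat_lit 5) (nat_lit 285) (nat_lit 278) (nat_lit 217)) (XT.lf (nat_lit 0) (nat_lit 2457070104) (nat_lit 912) (nat_lit 3170625146) (nat_lit 988) (nat_lit 2970353895) (nat_lit 190) (nat_lit 5) (nat_lit 202) (nat_lit 5) (nat_lit 203) (nat_lit 5) (nat_lit 286) (nat_lit 278) (nat_lit 216)))) (XT.nd (nat_lit 78) (nat_lit 0) (nat_lit 0) (XT.lf (nat_lit 76) (nat_lit 757136453) (nat_lit 0) (nat_lit 2904660011) (nat_lit 988) (nat_lit 5043168654) (nat_lit 191) (nat_lit 5) (nat_lit 190) (nat_lit 5) (nat_lit 203) (nat_lit 5) (nat_lit 287) (nat_lit 278) (nat_lit 215)) (XT.nd (nat_lit 78) (nat_lit 0) (nat_lit 76) (XT.lf (nat_lit 76) (nat_lit 4843382544) (nat_lit 0) (nat_lit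 54758069) (nat_lit 988) (nat_lit 3917171000) (nat_lit 191) (nat_lit 5) (nat_lit 190) (nat_lit 5) (nat_lit 203) (nat_lit 5) (nat_lit 288) (nat_lit 278) (nat_lit 214)) (XT.lf (nat_lit 76) (nat_lit 72066336) (nat_lit 0) (nat_lit 6092529022) (nat_lit 988) (nat_lit 2764667316) (nat_lit 192) (nat_lit 5) (nat_lit 191) (nat_lit 5) (nat_lit 204) (nat_lit 5) (nat_lit 289) (nat_lit 278) (nat_lit 213))))))))
noncomputable def xc159 : XT := (XT.nd (nat_lit 1794) (nat_lit 4028) (nat_lit 0) (XT.nd (nat_lit 858) (nat_lit 2584) (nat_lit 0) (XT.nd (nat_lit 390) (nat_lit 2888) (nat_lit 0) (XT.nd (nat_lit 156) (nat_lit 912) (nat_lit 0) (XT.nd (nat_lit 78) (nat_lit 0) (nat_lit 0) (XT.lf (nat_lit 76) (nat_lit 4293596430) (nat_lit 0) (nat_lit 3181522909) (nat_lit 988) (nat_lit 1571412970) (nat_lit 192) (nat_lit 5) (nat_lit 191) (nat_lit 5) (nat_lit 204) (nat_lit 5) (nat_lit 290) (nat_lit 278) (nat_lit 212)) (XT.lf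 (nat_lit 76) (nat_lit 8617837592) (nat_lit 0) (nat_lit 173558394) (nat_lit 988) (nat_lit 377010853) (nat_lit 192) (nat_lit 5) (nat_lit 191) (nat_lit 5) (nat_lit 204) (nat_lit 5) (nat_lit 291) (nat_lit 278) (nat_lit 211))) (XT.nd (nat_lit 78) (nat_lit 0) (nat_lit 0) (XT.lf (nat_lit 0) (nat_lit 868957126) (nat_lit 988) (nat_lit 5502055734) (nat_lit 1064) (nat_lit 2921782520) (nat_lit 179) (nat_lit 5) (nat_lit 192) (nat_lit 5) (nat_lit 193) (nat_lit 5) (nat_lit 292) (nat_lit 278) (nat_lit 210)) (XT.nd (nat_lit 78) (nat_lit 0) (nat_lit 0) (XT.lf (nat_lit 0) (nat_lit 2119889953) (nat_lit 988) (nat_lit 1177538114) (nat_lit 1064) (nat_lit 6124193758) (nat_lit 179) (nat_lit 5) (nat_lit 192) (nat_lit 5) (nat_lit 193) (nat_lit 5) (nat_lit 293) (nat_lit 278) (nat_lit 209)) (XT.lf (nat_lit 76) (nat_lit 3317314748) (nat_lit 0) (nat_lit 91691295) (nat_lit 1064) (nat_lit 6145358363) (nat_lit 180) (nat_lit 5)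 (nat_lit 179) (nat_lit 5) (nat_lit 193) (nat_lit 5) (nat_lit 294) (nat_lit 278) (nat_lit 208))))) (XT.nd (nat_lit 234) (nat_lit 1976) (nat_lit 0) (XT.nd (nat_lit 78) (nat_lit 988) (nat_lit 0) (XT.lf (nat_lit 0) (nat_lit 4749173941) (nat_lit 988) (nat_lit 1775503221) (nat_lit 76) (nat_lit 3166109688) (nat_lit 180) (nat_lit 5) (nat_lit 193) (nat_lit 5) (nat_lit 181) (nat_lit 5) (nat_lit 295) (nat_lit 278) (nat_lit 207)) (XT.nd (nat_lit 78) (nat_lit 0) (nat_lit 0) (XT.lf (nat_lit 0) (nat_lit 2850383659) (nat_lit 988) (nat_lit 3277869895) (nat_lit 1064) (nat_lit 3703154137) (nat_lit 167) (nat_lit 5) (nat_lit 180) (nat_lit 5) (nat_lit 181) (nat_lit 5) (nat_lit 296) (nat_lit 278) (nat_lit 206)) (XT.lf (nat_lit 0) (nat_lit 7538528674) (nat_lit 1064) (nat_lit 2350045209) (nat_lit 76) (nat_lit 88043557) (nat_lit 167) (nat_lit 5) (nat_lit 181) (nat_lit 5) (nat_lit 168) (nat_lit 5) (nat_lit 297) (nat_lit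 278) (nat_lit 205)))) (XT.nd (nat_lit 78) (nat_lit 912) (nat_lit 0) (XT.lf (nat_lit 0) (nat_lit 2410203768) (nat_lit 1064) (nat_lit 6608451939) (nat_lit 1140) (nat_lit 1106764549) (nat_lit 153) (nat_lit 5) (nat_lit 167) (nat_lit 5) (nat_lit 168) (nat_lit 5) (nat_lit 298) (nat_lit 278) (nat_lit 204)) (XT.nd (nat_lit 78) (nat_lit 836) (nat_lit 0) (XT.lf (nat_lit 0) (nat_lit 255479904) (nat_lit 1140) (nat_lit 2943931290) (nat_lit 76) (nat_lit 7079374893) (nat_lit 152) (nat_lit 5) (nat_lit 167) (nat_lit 5) (nat_lit 153) (nat_lit 5) (nat_lit 299) (nat_lit 278) (nat_lit 203)) (XT.lf (nat_lit 0) (nat_lit 1631634657) (nat_lit 912) (nat_lit 8465885658) (nat_lit 76) (nat_lit 339102933) (nat_lit 141) (nat_lit 5) (nat_lit 153) (nat_lit 5) (nat_lit 142) (nat_lit 5) (nat_lit 300) (nat_lit 278) (nat_lit 202)))))) (XT.nd (nat_lit 468) (nat_lit 1064) (nat_lit 0) (XT.nd (nat_lit 234) (nat_lit 988) (nat_lit 0)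 (XT.nd (nat_lit 78) (nat_lit 532) (nat_lit 0) (XT.lf (nat_lit 0) (nat_lit 3084346309) (nat_lit 912) (nat_lit 3561618911) (nat_lit 76) (nat_lit 3952228185) (nat_lit 141) (nat_lit 5) (nat_lit 153) (nat_lit 5) (nat_lit 142) (nat_lit 5) (nat_lit 301) (nat_lit 278) (nat_lit 201)) (XT.nd (nat_lit 78) (nat_lit 0) (nat_lit 0) (XT.lf (nat_lit 0) (nat_lit 1495128071) (nat_lit 532) (nat_lit 3074225702) (nat_lit 608) (nat_lit 6195649876) (nat_lit 134) (nat_lit 5) (nat_lit 141) (nat_lit 5) (nat_lit 142) (nat_lit 5) (nat_lit 302) (nat_lit 278) (nat_lit 200)) (XT.lf (nat_lit 0) (nat_lit 6115923147) (nat_lit 608) (nat_lit 4189731954) (nat_lit 76) (nat_lit 630705580) (nat_lit 134) (nat_lit 5) (nat_lit 142) (nat_lit 5) (nat_lit 135) (nat_lit 5) (nat_lit 303) (nat_lit 278) (nat_lit 199)))) (XT.nd (nat_lit 78) (nat_lit 456) (nat_lit 0) (XT.lf (nat_lit 0) (nat_lit 1008354376) (nat_lit 532) (nat_lit 6716275544) (nat_lit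 608) (nat_lit 3387807589) (nat_lit 127) (nat_lit 5) (nat_lit 134) (nat_lit 5) (nat_lit 135) (nat_lit 5) (nat_lit 304) (nat_lit 278) (nat_lit 198)) (XT.nd (nat_lit 78) (nat_lit 456) (nat_lit 0) (XT.lf (nat_lit 0) (nat_lit 6424800700) (nat_lit 532) (nat_lit 2975199607) (nat_lit 608) (nat_lit 1893294061) (nat_lit 127) (nat_lit 5) (nat_lit 134) (nat_lit 5) (nat_lit 135) (nat_lit 5) (nat_lit 305) (nat_lit 278) (nat_lit 197)) (XT.lf (nat_lit 0) (nat_lit 501984922) (nat_lit 456) (nat_lit 10613707886) (nat_lit 532) (nat_lit 364230642) (nat_lit 121) (nat_lit 5) (nat_lit 127) (nat_lit 5) (nat_lit 128) (nat_lit 5) (nat_lit 306) (nat_lit 278) (nat_lit 196))))) (XT.nd (nat_lit 234) (nat_lit 456) (nat_lit 0) (XT.nd (nat_lit 78) (nat_lit 532) (nat_lit 0) (XT.lf (nat_lit 0) (nat_lit 1243161165) (nat_lit 532) (nat_lit 5602687799) (nat_lit 76) (nat_lit 4824316422) (nat_lit 120) (nat_lit 5) (nat_lit 127) (nat_lit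 5) (nat_lit 121) (nat_lit 5) (nat_lit 307) (nat_lit 278) (nat_lit 195)) (XT.nd (nat_lit 78) (nat_lit 532) (nat_lit 0) (XT.lf (nat_lit 0) (nat_lit 2869099955) (nat_lit 532) (nat_lit 92898673) (nat_lit 76) (nat_lit 8904722635) (nat_lit 120) (nat_lit 5) (nat_lit 127) (nat_lit 5) (nat_lit 121) (nat_lit 5) (nat_lit 308) (nat_lit 278) (nat_lit 194)) (XT.lf (nat_lit 0) (nat_lit 4587135215) (nat_lit 608) (nat_lit 6408352408) (nat_lit 76) (nat_lit 1072429601) (nat_lit 113) (nat_lit 5) (nat_lit 121) (nat_lit 5) (nat_lit 114) (nat_lit 5) (nat_lit 309) (nat_lit 278) (nat_lit 193)))) (XT.nd (nat_lit 78) (nat_lit 456) (nat_lit 0) (XT.lf (nat_lit 0) (nat_lit 6365692173) (nat_lit 608) (nat_lit 740841329) (nat_lit 76) (nat_lit 5168387846) (nat_lit 113) (nat_lit 5) (nat_lit 121) (nat_lit 5) (nat_lit 114) (nat_lit 5) (nat_lit 310) (nat_lit 278) (nat_lit 192)) (XT.nd (nat_lit 78) (nat_lit 0) (nat_lit 0) (XT.lf (nat_lit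 0) (nat_lit 5175462784) (nat_lit 456) (nat_lit 3051219508) (nat_lit 532) (nat_lit 4260621504) (nat_lit 107) (nat_lit 5) (nat_lit 113) (nat_lit 5) (nat_lit 114) (nat_lit 5) (nat_lit 311) (nat_lit 278) (nat_lit 191)) (XT.lf (nat_lit 0) (nat_lit 10141579429) (nat_lit 532) (nat_lit 1454923803) (nat_lit 76) (nat_lit 1109651476) (nat_lit 107) (nat_lit 5) (nat_lit 114) (nat_lit 5) (nat_lit 108) (nat_lit 5) (nat_lit 312) (nat_lit 278) (nat_lit 190))))))) (XT.nd (nat_lit 936) (nat_lit 1596) (nat_lit 0) (XT.nd (nat_lit 468) (nat_lit 1140) (nat_lit 0) (XT.nd (nat_lit 234) (nat_lit 380) (nat_lit 0) (XT.nd (nat_lit 78) (nat_lit 456) (nat_lit 0) (XT.lf (nat_lit 0) (nat_lit 4615579192) (nat_lit 456) (nat_lit 7553214156) (nat_lit 532) (nat_lit 761169871) (nat_lit 101) (nat_lit 5) (nat_lit 107) (nat_lit 5) (nat_lit 108) (nat_lit 5) (nat_lit 313) (nat_lit 278) (nat_lit 189)) (XT.nd (nat_lit 78) (nat_lit 380) (nat_lit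 0) (XT.lf (nat_lit 0) (nat_lit 1070210521) (nat_lit 532) (nat_lit 2294895787) (nat_lit 76) (nat_lit 9795241504) (nat_lit 100) (nat_lit 5) (nat_lit 107) (nat_lit 5) (nat_lit 101) (nat_lit 5) (nat_lit 314) (nat_lit 278) (nat_lit 188)) (XT.lf (nat_lit 0) (nat_lit 2969778935) (nat_lit 456) (nat_lit 9453187397) (nat_lit 76) (nat_lit 973630087) (nat_lit 95) (nat_lit 5) (nat_lit 101) (nat_lit 5) (nat_lit 96) (nat_lit 5) (nat_lit 315) (nat_lit 278) (nat_lit 187)))) (XT.nd (nat_lit 78) (nat_lit 380) (nat_lit 0) (XT.lf (nat_lit 0) (nat_lit 4964377324) (nat_lit 456) (nat_lit 3278777011) (nat_lit 76) (nat_lit 5395670772) (nat_lit 95) (nat_lit 5) (nat_lit 101) (nat_lit 5) (nat_lit 96) (nat_lit 5) (nat_lit 316) (nat_lit 278) (nat_lit 186)) (XT.nd (nat_lit 78) (nat_lit 0) (nat_lit 0) (XT.lf (nat_lit 0) (nat_lit 3120497141) (nat_lit 380) (nat_lit 3910178327) (nat_lit 456) (nat_lit 6857322257) (nat_lit 90) (nat_lit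 5) (nat_lit 95) (nat_lit 5) (nat_lit 96) (nat_lit 5) (nat_lit 317) (nat_lit 278) (nat_lit 185)) (XT.lf (nat_lit 0) (nat_lit 9179873629) (nat_lit 456) (nat_lit 4391919838) (nat_lit 76) (nat_lit 572256686) (nat_lit 90) (nat_lit 5) (nat_lit 96) (nat_lit 5) (nat_lit 91) (nat_lit 5) (nat_lit 318) (nat_lit 278) (nat_lit 184))))) (XT.nd (nat_lit 234) (nat_lit 304) (nat_lit 0) (XT.nd (nat_lit 78) (nat_lit 456) (nat_lit 0) (XT.lf (nat_lit 0) (nat_lit 2157352889) (nat_lit 380) (nat_lit 9278327191) (nat_lit 456) (nat_lit 2970871136) (nat_lit 85) (nat_lit 5) (nat_lit 90) (nat_lit 5) (nat_lit 91) (nat_lit 5) (nat_lit 319) (nat_lit 278) (nat_lit 183)) (XT.nd (nat_lit 78) (nat_lit 456) (nat_lit 0) (XT.lf (nat_lit 0) (nat_lit 8972380797) (nat_lit 380) (nat_lit 4814114601) (nat_lit 456) (nat_lit 889642003) (nat_lit 85) (nat_lit 5) (nat_lit 90) (nat_lit 5) (nat_lit 91) (nat_lit 5) (nat_lit 320) (nat_lit 278) (nat_lit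 182)) (XT.lf (nat_lit 0) (nat_lit 1025495442) (nat_lit 380) (nat_lit 197203962) (nat_lit 456) (nat_lit 13730984156) (nat_lit 79) (nat_lit 5) (nat_lit 84) (nat_lit 5) (nat_lit 85) (nat_lit 5) (nat_lit 321) (nat_lit 278) (nat_lit 181)))) (XT.nd (nat_lit 78) (nat_lit 304) (nat_lit 0) (XT.lf (nat_lit 0) (nat_lit 3466055889) (nat_lit 456) (nat_lit 7238267995) (nat_lit 76) (nat_lit 4532429769) (nat_lit 79) (nat_lit 5) (nat_lit 85) (nat_lit 5) (nat_lit 80) (nat_lit 5) (nat_lit 322) (nat_lit 278) (nat_lit 180)) (XT.nd (nat_lit 78) (nat_lit 304) (nat_lit 0) (XT.lf (nat_lit 0) (nat_lit 5762687325) (nat_lit 456) (nat_lit 369788530) (nat_lit 76) (nat_lit 9396287536) (nat_lit 79) (nat_lit 5) (nat_lit 85) (nat_lit 5) (nat_lit 80) (nat_lit 5) (nat_lit 323) (nat_lit 278) (nat_lit 179)) (XT.lf (nat_lit 0) (nat_lit 6818195048) (nat_lit 304) (nat_lit 1360050444) (nat_lit 380) (nat_lit 7649813085) (nat_lit 75) (nat_lit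 5) (nat_lit 79) (nat_lit 5) (nat_lit 80) (nat_lit 5) (nat_lit 324) (nat_lit 278) (nat_lit 178)))))) (XT.nd (nat_lit 468) (nat_lit 608) (nat_lit 0) (XT.nd (nat_lit 234) (nat_lit 684) (nat_lit 0) (XT.nd (nat_lit 78) (nat_lit 304) (nat_lit 0) (XT.lf (nat_lit 0) (nat_lit 10688932064) (nat_lit 380) (nat_lit 1960885597) (nat_lit 76) (nat_lit 3485860340) (nat_lit 75) (nat_lit 5) (nat_lit 80) (nat_lit 5) (nat_lit 76) (nat_lit 5) (nat_lit 325) (nat_lit 278) (nat_lit 177)) (XT.nd (nat_lit 78) (nat_lit 0) (nat_lit 0) (XT.lf (nat_lit 0) (nat_lit 5371645722) (nat_lit 304) (nat_lit 7953552620) (nat_lit 380) (nat_lit 3125844391) (nat_lit 71) (nat_lit 5) (nat_lit 75) (nat_lit 5) (nat_lit 76) (nat_lit 5) (nat_lit 326) (nat_lit 278) (nat_lit 176)) (XT.lf (nat_lit 0) (nat_lit 12945267878) (nat_lit 304) (nat_lit 3100492425) (nat_lit 380) (nat_lit 729975657) (nat_lit 71) (nat_lit 5) (nat_lit 75) (nat_lit 5) (nat_lit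 76) (nat_lit 5) (nat_lit 327) (nat_lit 278) (nat_lit 175)))) (XT.nd (nat_lit 78) (nat_lit 304) (nat_lit 0) (XT.lf (nat_lit 0) (nat_lit 1743543550) (nat_lit 380) (nat_lit 13455734294) (nat_lit 76) (nat_lit 1909222887) (nat_lit 66) (nat_lit 5) (nat_lit 71) (nat_lit 5) (nat_lit 67) (nat_lit 5) (nat_lit 328) (nat_lit 278) (nat_lit 174)) (XT.nd (nat_lit 78) (nat_lit 304) (nat_lit 0) (XT.lf (nat_lit 0) (nat_lit 4332220770) (nat_lit 380) (nat_lit 6068426943) (nat_lit 76) (nat_lit 7048736948) (nat_lit 66) (nat_lit 5) (nat_lit 71) (nat_lit 5) (nat_lit 67) (nat_lit 5) (nat_lit 329) (nat_lit 278) (nat_lit 173)) (XT.lf (nat_lit 0) (nat_lit 1552296011) (nat_lit 304) (nat_lit 5447458758) (nat_lit 380) (nat_lit 10800725577) (nat_lit 62) (nat_lit 5) (nat_lit 66) (nat_lit 5) (nat_lit 67) (nat_lit 5) (nat_lit 330) (nat_lit 278) (nat_lit 172))))) (XT.nd (nat_lit 234) (nat_lit 380) (nat_lit 0) (XT.nd (nat_lit 78)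 (nat_lit 228) (nat_lit 0) (XT.lf (nat_lit 0) (nat_lit 9507724272) (nat_lit 304) (nat_lit 287368297) (nat_lit 380) (nat_lit 8365603516) (nat_lit 62) (nat_lit 5) (nat_lit 66) (nat_lit 5) (nat_lit 67) (nat_lit 5) (nat_lit 331) (nat_lit 278) (nat_lit 171)) (XT.nd (nat_lit 78) (nat_lit 228) (nat_lit 0) (XT.lf (nat_lit 0) (nat_lit 12709465057) (nat_lit 380) (nat_lit 896378610) (nat_lit 76) (nat_lit 4924839312) (nat_lit 62) (nat_lit 5) (nat_lit 67) (nat_lit 5) (nat_lit 63) (nat_lit 5) (nat_lit 332) (nat_lit 278) (nat_lit 170)) (XT.lf (nat_lit 0) (nat_lit 7213203269) (nat_lit 228) (nat_lit 8557478409) (nat_lit 304) (nat_lit 3139324752) (nat_lit 59) (nat_lit 5) (nat_lit 62) (nat_lit 5) (nat_lit 63) (nat_lit 5) (nat_lit 333) (nat_lit 278) (nat_lit 169)))) (XT.nd (nat_lit 78) (nat_lit 380) (nat_lit 0) (XT.lf (nat_lit 0) (nat_lit 15567000762) (nat_lit 228) (nat_lit 3353219943) (nat_lit 304) (nat_lit 380613077)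 (nat_lit 59) (nat_lit 5) (nat_lit 62) (nat_lit 5) (nat_lit 63) (nat_lit 5) (nat_lit 334) (nat_lit 278) (nat_lit 168)) (XT.nd (nat_lit 78) (nat_lit 0) (nat_lit 0) (XT.lf (nat_lit 0) (nat_lit 2463816205) (nat_lit 380) (nat_lit 15206394895) (nat_lit 76) (nat_lit 2030953599) (nat_lit 54) (nat_lit 5) (nat_lit 59) (nat_lit 5) (nat_lit 55) (nat_lit 5) (nat_lit 335) (nat_lit 278) (nat_lit 167)) (XT.lf (nat_lit 0) (nat_lit 5445016519) (nat_lit 380) (nat_lit 7120313372) (nat_lit 76) (nat_lit 7546307138) (nat_lit 54) (nat_lit 5) (nat_lit 59) (nat_lit 5) (nat_lit 55) (nat_lit 5) (nat_lit 336) (nat_lit 278) (nat_lit 166))))))))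
noncomputable def xc160 : XT := (XT.nd (nat_lit 1794) (nat_lit 912) (nat_lit 0) (XT.nd (nat_lit 858) (nat_lit 836) (nat_lit 0) (XT.nd (nat_lit 390) (nat_lit 684) (nat_lit 0) (XT.nd (nat_lit 156) (nat_lit 228) (nat_lit 0) (XT.nd (nat_lit 78) (nat_lit 0) (nat_lit 0) (XT.lf (nat_lit 0) (nat_lit 1215201776) (nat_lit 228) (nat_lit 7300297572) (nat_lit 304) (nat_lit 12018945467) (nat_lit 51) (nat_lit 5) (nat_lit 54) (nat_lit 5) (nat_lit 55) (nat_lit 5) (nat_lit 337) (nat_lit 278) (nat_lit 165)) (XT.lf (nat_lit 0) (nat_lit 9930045352) (nat_lit 228) (nat_lit 1808301961) (nat_lit 304) (nat_lit 9229798199) (nat_lit 51) (nat_lit 5) (nat_lit 54) (nat_lit 5) (nat_lit 55) (nat_lit 5) (nat_lit 338) (nat_lit 278) (nat_lit 164))) (XT.nd (nat_lit 78) (nat_lit 228) (nat_lit 0) (XT.lf (nat_lit 0) (nat_lit 15083516099) (nat_lit 304) (nat_lit 2562034821) (nat_lit 76) (nat_lit 3768552973) (nat_lit 51) (nat_lit 5) (nat_lit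 55) (nat_lit 5) (nat_lit 52) (nat_lit 5) (nat_lit 339) (nat_lit 278) (nat_lit 163)) (XT.nd (nat_lit 78) (nat_lit 0) (nat_lit 0) (XT.lf (nat_lit 0) (nat_lit 6256457494) (nat_lit 228) (nat_lit 12339599847) (nat_lit 304) (nat_lit 3275388429) (nat_lit 48) (nat_lit 5) (nat_lit 51) (nat_lit 5) (nat_lit 52) (nat_lit 5) (nat_lit 340) (nat_lit 278) (nat_lit 162)) (XT.lf (nat_lit 0) (nat_lit 15376143982) (nat_lit 228) (nat_lit 6852843424) (nat_lit 304) (nat_lit 113084940) (nat_lit 48) (nat_lit 5) (nat_lit 51) (nat_lit 5) (nat_lit 52) (nat_lit 5) (nat_lit 341) (nat_lit 278) (nat_lit 161))))) (XT.nd (nat_lit 234) (nat_lit 380) (nat_lit 0) (XT.nd (nat_lit 78) (nat_lit 0) (nat_lit 0) (XT.lf (nat_lit 0) (nat_lit 1934485807) (nat_lit 228) (nat_lit 1156183680) (nat_lit 304) (nat_lit 19735017488) (nat_lit 44) (nat_lit 5) (nat_lit 47) (nat_lit 5) (nat_lit 48) (nat_lit 5) (nat_lit 342) (nat_lit 278) (nat_lit 160))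 (XT.nd (nat_lit 78) (nat_lit 0) (nat_lit 0) (XT.lf (nat_lit 0) (nat_lit 6494043448) (nat_lit 304) (nat_lit 12139868047) (nat_lit 76) (nat_lit 4686705127) (nat_lit 44) (nat_lit 5) (nat_lit 48) (nat_lit 5) (nat_lit 45) (nat_lit 5) (nat_lit 343) (nat_lit 278) (nat_lit 159)) (XT.lf (nat_lit 0) (nat_lit 10000725694) (nat_lit 304) (nat_lit 3152753597) (nat_lit 76) (nat_lit 10676891825) (nat_lit 44) (nat_lit 5) (nat_lit 48) (nat_lit 5) (nat_lit 45) (nat_lit 5) (nat_lit 344) (nat_lit 278) (nat_lit 158)))) (XT.nd (nat_lit 78) (nat_lit 152) (nat_lit 0) (XT.lf (nat_lit 0) (nat_lit 6210294152) (nat_lit 228) (nat_lit 7452069365) (nat_lit 304) (nat_lit 10691574860) (nat_lit 41) (nat_lit 5) (nat_lit 44) (nat_lit 5) (nat_lit 45) (nat_lit 5) (nat_lit 345) (nat_lit 278) (nat_lit 157)) (XT.nd (nat_lit 78) (nat_lit 152) (nat_lit 0) (XT.lf (nat_lit 0) (nat_lit 15904142091) (nat_lit 228) (nat_lit 1551751059) (nat_lit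 304) (nat_lit 7436670639) (nat_lit 41) (nat_lit 5) (nat_lit 44) (nat_lit 5) (nat_lit 45) (nat_lit 5) (nat_lit 346) (nat_lit 278) (nat_lit 156)) (XT.lf (nat_lit 0) (nat_lit 391043336) (nat_lit 152) (nat_lit 21009892231) (nat_lit 228) (nat_lit 4045293240) (nat_lit 39) (nat_lit 5) (nat_lit 41) (nat_lit 5) (nat_lit 42) (nat_lit 5) (nat_lit 347) (nat_lit 278) (nat_lit 155)))))) (XT.nd (nat_lit 468) (nat_lit 380) (nat_lit 0) (XT.nd (nat_lit 234) (nat_lit 152) (nat_lit 0) (XT.nd (nat_lit 78) (nat_lit 304) (nat_lit 0) (XT.lf (nat_lit 0) (nat_lit 10206076864) (nat_lit 152) (nat_lit 15354816281) (nat_lit 228) (nat_lit 452725414) (nat_lit 39) (nat_lit 5) (nat_lit 41) (nat_lit 5) (nat_lit 42) (nat_lit 5) (nat_lit 348) (nat_lit 278) (nat_lit 154)) (XT.nd (nat_lit 78) (nat_lit 228) (nat_lit 0) (XT.lf (nat_lit 0) (nat_lit 3175004480) (nat_lit 228) (nat_lit 6327861919) (nat_lit 76) (nat_lit 17094515356) (nat_lit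 38) (nat_lit 5) (nat_lit 41) (nat_lit 5) (nat_lit 39) (nat_lit 5) (nat_lit 349) (nat_lit 278) (nat_lit 153)) (XT.lf (nat_lit 0) (nat_lit 3485987657) (nat_lit 228) (nat_lit 3441015706) (nat_lit 304) (nat_lit 20270794627) (nat_lit 35) (nat_lit 5) (nat_lit 38) (nat_lit 5) (nat_lit 39) (nat_lit 5) (nat_lit 350) (nat_lit 278) (nat_lit 152)))) (XT.nd (nat_lit 78) (nat_lit 152) (nat_lit 0) (XT.lf (nat_lit 0) (nat_lit 10874146390) (nat_lit 304) (nat_lit 14131772988) (nat_lit 76) (nat_lit 2807840204) (nat_lit 35) (nat_lit 5) (nat_lit 39) (nat_lit 5) (nat_lit 36) (nat_lit 5) (nat_lit 351) (nat_lit 278) (nat_lit 151)) (XT.nd (nat_lit 78) (nat_lit 152) (nat_lit 0) (XT.lf (nat_lit 0) (nat_lit 14965143401) (nat_lit 304) (nat_lit 4311857473) (nat_lit 76) (nat_lit 9170446048) (nat_lit 35) (nat_lit 5) (nat_lit 39) (nat_lit 5) (nat_lit 36) (nat_lit 5) (nat_lit 352) (nat_lit 278) (nat_lit 150)) (XT.lf (nat_lit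 0) (nat_lit 5904818135) (nat_lit 152) (nat_lit 13322434497) (nat_lit 228) (nat_lit 9871450583) (nat_lit 33) (nat_lit 5) (nat_lit 35) (nat_lit 5) (nat_lit 36) (nat_lit 5) (nat_lit 353) (nat_lit 278) (nat_lit 149))))) (XT.nd (nat_lit 234) (nat_lit 152) (nat_lit 0) (XT.nd (nat_lit 78) (nat_lit 228) (nat_lit 0) (XT.lf (nat_lit 0) (nat_lit 16503449278) (nat_lit 152) (nat_lit 7149058457) (nat_lit 228) (nat_lit 6115940494) (nat_lit 33) (nat_lit 5) (nat_lit 35) (nat_lit 5) (nat_lit 36) (nat_lit 5) (nat_lit 354) (nat_lit 278) (nat_lit 148)) (XT.nd (nat_lit 78) (nat_lit 228) (nat_lit 0) (XT.lf (nat_lit 0) (nat_lit 27407482477) (nat_lit 152) (nat_lit 795019851) (nat_lit 228) (nat_lit 2256033049) (nat_lit 33) (nat_lit 5) (nat_lit 35) (nat_lit 5) (nat_lit 36) (nat_lit 5) (nat_lit 355) (nat_lit 278) (nat_lit 147)) (XT.lf (nat_lit 0) (nat_lit 1807301310) (nat_lit 228) (nat_lit 23634493973) (nat_lit 76) (nat_lit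 5723407045) (nat_lit 30) (nat_lit 5) (nat_lit 33) (nat_lit 5) (nat_lit 31) (nat_lit 5) (nat_lit 356) (nat_lit 278) (nat_lit 146)))) (XT.nd (nat_lit 78) (nat_lit 152) (nat_lit 0) (XT.lf (nat_lit 0) (nat_lit 5978375952) (nat_lit 228) (nat_lit 13442625981) (nat_lit 76) (nat_lit 12470470170) (nat_lit 30) (nat_lit 5) (nat_lit 33) (nat_lit 5) (nat_lit 31) (nat_lit 5) (nat_lit 357) (nat_lit 278) (nat_lit 145)) (XT.nd (nat_lit 78) (nat_lit 152) (nat_lit 0) (XT.lf (nat_lit 0) (nat_lit 10267008173) (nat_lit 228) (nat_lit 2957073342) (nat_lit 76) (nat_lit 19415683903) (nat_lit 30) (nat_lit 5) (nat_lit 33) (nat_lit 5) (nat_lit 31) (nat_lit 5) (nat_lit 358) (nat_lit 278) (nat_lit 144)) (XT.lf (nat_lit 0) (nat_lit 7987184821) (nat_lit 152) (nat_lit 6766538206) (nat_lit 228) (nat_lit 18654709762) (nat_lit 28) (nat_lit 5) (nat_lit 30) (nat_lit 5) (nat_lit 31) (nat_lit 5) (nat_lit 359) (nat_lit 278) (nat_lit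 143))))))) (XT.nd (nat_lit 858) (nat_lit 380) (nat_lit 0) (XT.nd (nat_lit 390) (nat_lit 304) (nat_lit 0) (XT.nd (nat_lit 156) (nat_lit 228) (nat_lit 0) (XT.nd (nat_lit 78) (nat_lit 0) (nat_lit 0) (XT.lf (nat_lit 0) (nat_lit 19308782935) (nat_lit 152) (nat_lit 88865637) (nat_lit 228) (nat_lit 14801841066) (nat_lit 28) (nat_lit 5) (nat_lit 30) (nat_lit 5) (nat_lit 31) (nat_lit 5) (nat_lit 360) (nat_lit 278) (nat_lit 142)) (XT.lf (nat_lit 0) (nat_lit 24239072403) (nat_lit 228) (nat_lit 4120955520) (nat_lit 76) (nat_lit 6652512366) (nat_lit 28) (nat_lit 5) (nat_lit 31) (nat_lit 5) (nat_lit 29) (nat_lit 5) (nat_lit 361) (nat_lit 278) (nat_lit 141))) (XT.nd (nat_lit 78) (nat_lit 76) (nat_lit 0) (XT.lf (nat_lit 0) (nat_lit 7098412304) (nat_lit 152) (nat_lit 22189566200) (nat_lit 228) (nat_lit 6560144060) (nat_lit 26) (nat_lit 5) (nat_lit 28) (nat_lit 5) (nat_lit 29) (nat_lit 5) (nat_lit 362) (nat_lit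 278) (nat_lit 140)) (XT.nd (nat_lit 78) (nat_lit 76) (nat_lit 0) (XT.lf (nat_lit 0) (nat_lit 18727834019) (nat_lit 152) (nat_lit 15795351221) (nat_lit 228) (nat_lit 2184549141) (nat_lit 26) (nat_lit 5) (nat_lit 28) (nat_lit 5) (nat_lit 29) (nat_lit 5) (nat_lit 363) (nat_lit 278) (nat_lit 139)) (XT.lf (nat_lit 0) (nat_lit 2270342370) (nat_lit 228) (nat_lit 6920141004) (nat_lit 76) (nat_lit 28402187784) (nat_lit 25) (nat_lit 5) (nat_lit 28) (nat_lit 5) (nat_lit 26) (nat_lit 5) (nat_lit 364) (nat_lit 278) (nat_lit 138))))) (XT.nd (nat_lit 234) (nat_lit 152) (nat_lit 0) (XT.nd (nat_lit 78) (nat_lit 0) (nat_lit 0) (XT.lf (nat_lit 0) (nat_lit 4527626077) (nat_lit 152) (nat_lit 2324408856) (nat_lit 228) (nat_lit 31650366859) (nat_lit 23) (nat_lit 5) (nat_lit 25) (nat_lit 5) (nat_lit 26) (nat_lit 5) (nat_lit 365) (nat_lit 278) (nat_lit 137)) (XT.nd (nat_lit 78) (nat_lit 0) (nat_lit 0) (XT.lf (nat_lit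 0) (nat_lit 11680976006) (nat_lit 228) (nat_lit 23033536721) (nat_lit 76) (nat_lit 4721623976) (nat_lit 23) (nat_lit 5) (nat_lit 26) (nat_lit 5) (nat_lit 24) (nat_lit 5) (nat_lit 366) (nat_lit 278) (nat_lit 136)) (XT.lf (nat_lit 0) (nat_lit 16671574697) (nat_lit 228) (nat_lit 11797328750) (nat_lit 76) (nat_lit 11928482638) (nat_lit 23) (nat_lit 5) (nat_lit 26) (nat_lit 5) (nat_lit 24) (nat_lit 5) (nat_lit 367) (nat_lit 278) (nat_lit 135)))) (XT.nd (nat_lit 78) (nat_lit 152) (nat_lit 0) (XT.lf (nat_lit 0) (nat_lit 21805848085) (nat_lit 228) (nat_lit 233990117) (nat_lit 76) (nat_lit 19347821974) (nat_lit 23) (nat_lit 5) (nat_lit 26) (nat_lit 5) (nat_lit 24) (nat_lit 5) (nat_lit 368) (nat_lit 278) (nat_lit 134)) (XT.nd (nat_lit 78) (nat_lit 0) (nat_lit 0) (XT.lf (nat_lit 0) (nat_lit 11898770943) (nat_lit 152) (nat_lit 15303889749) (nat_lit 228) (nat_lit 15201732223) (nat_lit 21) (nat_lit 5) (nat_lit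 23) (nat_lit 5) (nat_lit 24) (nat_lit 5) (nat_lit 369) (nat_lit 278) (nat_lit 133)) (XT.lf (nat_lit 0) (nat_lit 24390740557) (nat_lit 152) (nat_lit 8367211605) (nat_lit 228) (nat_lit 10693783827) (nat_lit 21) (nat_lit 5) (nat_lit 23) (nat_lit 5) (nat_lit 24) (nat_lit 5) (nat_lit 370) (nat_lit 278) (nat_lit 132)))))) (XT.nd (nat_lit 468) (nat_lit 76) (nat_lit 0) (XT.nd (nat_lit 234) (nat_lit 152) (nat_lit 0) (XT.nd (nat_lit 78) (nat_lit 152) (nat_lit 0) (XT.lf (nat_lit 0) (nat_lit 37248177173) (nat_lit 152) (nat_lit 1226105439) (nat_lit 228) (nat_lit 6056390762) (nat_lit 21) (nat_lit 5) (nat_lit 23) (nat_lit 5) (nat_lit 24) (nat_lit 5) (nat_lit 371) (nat_lit 278) (nat_lit 131)) (XT.nd (nat_lit 78) (nat_lit 76) (nat_lit 0) (XT.lf (nat_lit 0) (nat_lit 4876440866) (nat_lit 76) (nat_lit 39585965035) (nat_lit 152) (nat_lit 1176569160) (nat_lit 20) (nat_lit 5) (nat_lit 21) (nat_lit 5) (nat_lit 22) (nat_lit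 4) (nat_lit 372) (nat_lit 278) (nat_lit 130)) (XT.lf (nat_lit 0) (nat_lit 3855457061) (nat_lit 152) (nat_lit 29287942786) (nat_lit 76) (nat_lit 13633592846) (nat_lit 19) (nat_lit 5) (nat_lit 21) (nat_lit 5) (nat_lit 20) (nat_lit 5) (nat_lit 373) (nat_lit 278) (nat_lit 129)))) (XT.nd (nat_lit 78) (nat_lit 152) (nat_lit 0) (XT.lf (nat_lit 0) (nat_lit 9009479451) (nat_lit 152) (nat_lit 17489675754) (nat_lit 76) (nat_lit 21449810498) (nat_lit 19) (nat_lit 5) (nat_lit 21) (nat_lit 5) (nat_lit 20) (nat_lit 5) (nat_lit 374) (nat_lit 278) (nat_lit 128)) (XT.nd (nat_lit 78) (nat_lit 152) (nat_lit 0) (XT.lf (nat_lit 0) (nat_lit 14312960625) (nat_lit 152) (nat_lit 5346114030) (nat_lit 76) (nat_lit 29497182783) (nat_lit 19) (nat_lit 5) (nat_lit 21) (nat_lit 5) (nat_lit 20) (nat_lit 5) (nat_lit 375) (nat_lit 278) (nat_lit 127)) (XT.lf (nat_lit 0) (nat_lit 7295719019) (nat_lit 152) (nat_lit 12544946588) (nat_lit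 228) (nat_lit 30557153281) (nat_lit 17) (nat_lit 5) (nat_lit 19) (nat_lit 5) (nat_lit 20) (nat_lit 5) (nat_lit 376) (nat_lit 278) (nat_lit 126))))) (XT.nd (nat_lit 234) (nat_lit 76) (nat_lit 0) (XT.nd (nat_lit 78) (nat_lit 0) (nat_lit 0) (XT.lf (nat_lit 0) (nat_lit 20418078242) (nat_lit 152) (nat_lit 5165163227) (nat_lit 228) (nat_lit 26091918933) (nat_lit 17) (nat_lit 5) (nat_lit 19) (nat_lit 5) (nat_lit 20) (nat_lit 5) (nat_lit 377) (nat_lit 278) (nat_lit 125)) (XT.nd (nat_lit 78) (nat_lit 0) (nat_lit 0) (XT.lf (nat_lit 0) (nat_lit 31516678083) (nat_lit 228) (nat_lit 19088323835) (nat_lit 76) (nat_lit 2385267021) (nat_lit 17) (nat_lit 5) (nat_lit 20) (nat_lit 5) (nat_lit 18) (nat_lit 4) (nat_lit 378) (nat_lit 278) (nat_lit 124)) (XT.lf (nat_lit 0) (nat_lit 37674565813) (nat_lit 228) (nat_lit 6613597808) (nat_lit 76) (nat_lit 10055277829) (nat_lit 17) (nat_lit 5) (nat_lit 20) (nat_lit 5) (nat_lit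 18) (nat_lit 4) (nat_lit 379) (nat_lit 278) (nat_lit 123)))) (XT.nd (nat_lit 78) (nat_lit 0) (nat_lit 0) (XT.lf (nat_lit 0) (nat_lit 6351589259) (nat_lit 76) (nat_lit 37722100732) (nat_lit 152) (nat_lit 11661828188) (nat_lit 16) (nat_lit 5) (nat_lit 17) (nat_lit 5) (nat_lit 18) (nat_lit 4) (nat_lit 380) (nat_lit 278) (nat_lit 122)) (XT.nd (nat_lit 78) (nat_lit 0) (nat_lit 0) (XT.lf (nat_lit 0) (nat_lit 19833656803) (nat_lit 76) (nat_lit 30893419091) (nat_lit 152) (nat_lit 6440416595) (nat_lit 16) (nat_lit 5) (nat_lit 17) (nat_lit 5) (nat_lit 18) (nat_lit 4) (nat_lit 381) (nat_lit 278) (nat_lit 121)) (XT.lf (nat_lit 0) (nat_lit 33712761706) (nat_lit 76) (nat_lit 23862936259) (nat_lit 152) (nat_lit 1066862830) (nat_lit 16) (nat_lit 5) (nat_lit 17) (nat_lit 5) (nat_lit 18) (nat_lit 4) (nat_lit 382) (nat_lit 278) (nat_lit 120))))))))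
noncomputable def xc161 : XT := (XT.nd (nat_lit 33462) (nat_lit 0) (nat_lit 6688) (XT.nd (nat_lit 32526) (nat_lit 0) (nat_lit 13452) (XT.nd (nat_lit 390) (nat_lit 76) (nat_lit 0) (XT.nd (nat_lit 156) (nat_lit 0) (nat_lit 0) (XT.nd (nat_lit 78) (nat_lit 152) (nat_lit 0) (XT.lf (nat_lit 0) (nat_lit 4376428927) (nat_lit 152) (nat_lit 12203886818) (nat_lit 76) (nat_lit 43580409063) (nat_lit 15) (nat_lit 5) (nat_lit 17) (nat_lit 5) (nat_lit 16) (nat_lit 5) (nat_lit 383) (nat_lit 278) (nat_lit 119)) (XT.lf (nat_lit 0) (nat_lit 903791330) (nat_lit 152) (nat_lit 9062313942) (nat_lit 228) (nat_lit 51757879201) (nat_lit 13) (nat_lit 5) (nat_lit 15) (nat_lit 5) (nat_lit 16) (nat_lit 5) (nat_lit 384) (nat_lit 278) (nat_lit 118))) (XT.nd (nat_lit 78) (nat_lit 0) (nat_lit 0) (XT.lf (nat_lit 0) (nat_lit 14647852279) (nat_lit 152) (nat_lit 1194749586) (nat_lit 228) (nat_lit 47487969544) (nat_lit 13) (nat_lit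 5) (nat_lit 15) (nat_lit 5) (nat_lit 16) (nat_lit 5) (nat_lit 385) (nat_lit 278) (nat_lit 117)) (XT.nd (nat_lit 78) (nat_lit 0) (nat_lit 0) (XT.lf (nat_lit 0) (nat_lit 21957792415) (nat_lit 228) (nat_lit 36254439541) (nat_lit 76) (nat_lit 6771255309) (nat_lit 13) (nat_lit 5) (nat_lit 16) (nat_lit 5) (nat_lit 14) (nat_lit 4) (nat_lit 386) (nat_lit 278) (nat_lit 116)) (XT.lf (nat_lit 0) (nat_lit 28264371814) (nat_lit 228) (nat_lit 23471846233) (nat_lit 76) (nat_lit 14949537741) (nat_lit 13) (nat_lit 5) (nat_lit 16) (nat_lit 5) (nat_lit 14) (nat_lit 4) (nat_lit 387) (nat_lit 278) (nat_lit 115))))) (XT.nd (nat_lit 234) (nat_lit 0) (nat_lit 0) (XT.nd (nat_lit 78) (nat_lit 76) (nat_lit 0) (XT.lf (nat_lit 0) (nat_lit 34756366000) (nat_lit 228) (nat_lit 10312285288) (nat_lit 76) (nat_lit 23370557651) (nat_lit 13) (nat_lit 5) (nat_lit 16) (nat_lit 5) (nat_lit 14) (nat_lit 4) (nat_lit 388) (nat_lit 278)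 (nat_lit 114)) (XT.nd (nat_lit 78) (nat_lit 0) (nat_lit 0) (XT.lf (nat_lit 0) (nat_lit 3300139549) (nat_lit 76) (nat_lit 38171031003) (nat_lit 152) (nat_lit 28773256622) (nat_lit 12) (nat_lit 5) (nat_lit 13) (nat_lit 5) (nat_lit 14) (nat_lit 4) (nat_lit 389) (nat_lit 278) (nat_lit 113)) (XT.lf (nat_lit 0) (nat_lit 17526070291) (nat_lit 76) (nat_lit 30961857191) (nat_lit 152) (nat_lit 23612862141) (nat_lit 12) (nat_lit 5) (nat_lit 13) (nat_lit 5) (nat_lit 14) (nat_lit 4) (nat_lit 390) (nat_lit 278) (nat_lit 112)))) (XT.nd (nat_lit 78) (nat_lit 0) (nat_lit 0) (XT.lf (nat_lit 0) (nat_lit 32172702665) (nat_lit 76) (nat_lit 23538964438) (nat_lit 152) (nat_lit 18301284276) (nat_lit 12) (nat_lit 5) (nat_lit 13) (nat_lit 5) (nat_lit 14) (nat_lit 4) (nat_lit 391) (nat_lit 278) (nat_lit 111)) (XT.nd (nat_lit 78) (nat_lit 0) (nat_lit 0) (XT.lf (nat_lit 0) (nat_lit 47252834699) (nat_lit 76) (nat_lit 15895866719)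 (nat_lit 152) (nat_lit 12833881842) (nat_lit 12) (nat_lit 5) (nat_lit 13) (nat_lit 5) (nat_lit 14) (nat_lit 4) (nat_lit 392) (nat_lit 278) (nat_lit 110)) (XT.lf (nat_lit 0) (nat_lit 62779643207) (nat_lit 76) (nat_lit 8025885601) (nat_lit 152) (nat_lit 7205877497) (nat_lit 12) (nat_lit 5) (nat_lit 13) (nat_lit 5) (nat_lit 14) (nat_lit 4) (nat_lit 393) (nat_lit 278) (nat_lit 109)))))) (XT.nd (nat_lit 468) (nat_lit 0) (nat_lit 0) (XT.nd (nat_lit 234) (nat_lit 836) (nat_lit 0) (XT.nd (nat_lit 78) (nat_lit 0) (nat_lit 0) (XT.lf (nat_lit 0) (nat_lit 875968930) (nat_lit 0) (nat_lit 875968930) (nat_lit 836) (nat_lit 2261535182) (nat_lit 200) (nat_lit 5) (nat_lit 200) (nat_lit 3) (nat_lit 211) (nat_lit 3) (nat_lit 279) (nat_lit 279) (nat_lit 222)) (XT.nd (nat_lit 78) (nat_lit 0) (nat_lit 0) (XT.lf (nat_lit 0) (nat_lit 4655340307) (nat_lit 836) (nat_lit 2825824547) (nat_lit 912) (nat_lit 630466402) (nat_lit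 200) (nat_lit 5) (nat_lit 211) (nat_lit 3) (nat_lit 212) (nat_lit 5) (nat_lit 280) (nat_lit 279) (nat_lit 221)) (XT.lf (nat_lit 76) (nat_lit 700238134) (nat_lit 0) (nat_lit 5122746686) (nat_lit 912) (nat_lit 2376530478) (nat_lit 201) (nat_lit 5) (nat_lit 200) (nat_lit 5) (nat_lit 212) (nat_lit 5) (nat_lit 281) (nat_lit 279) (nat_lit 220)))) (XT.nd (nat_lit 78) (nat_lit 836) (nat_lit 0) (XT.lf (nat_lit 76) (nat_lit 4367319229) (nat_lit 0) (nat_lit 2645451717) (nat_lit 912) (nat_lit 1277755817) (nat_lit 201) (nat_lit 5) (nat_lit 200) (nat_lit 5) (nat_lit 212) (nat_lit 5) (nat_lit 282) (nat_lit 279) (nat_lit 219)) (XT.nd (nat_lit 78) (nat_lit 836) (nat_lit 0) (XT.lf (nat_lit 76) (nat_lit 8122383533) (nat_lit 0) (nat_lit 75650606) (nat_lit 912) (nat_lit 187542159) (nat_lit 201) (nat_lit 5) (nat_lit 200) (nat_lit 5) (nat_lit 212) (nat_lit 5) (nat_lit 283) (nat_lit 279) (nat_lit 218)) (XT.lf (nat_lit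 0) (nat_lit 936978021) (nat_lit 912) (nat_lit 4964247497) (nat_lit 988) (nat_lit 2581481896) (nat_lit 189) (nat_lit 5) (nat_lit 201) (nat_lit 5) (nat_lit 202) (nat_lit 5) (nat_lit 284) (nat_lit 279) (nat_lit 217))))) (XT.nd (nat_lit 234) (nat_lit 0) (nat_lit 76) (XT.nd (nat_lit 78) (nat_lit 0) (nat_lit 0) (XT.lf (nat_lit 0) (nat_lit 2056467644) (nat_lit 912) (nat_lit 1189808185) (nat_lit 988) (nat_lit 5337563473) (nat_lit 189) (nat_lit 5) (nat_lit 201) (nat_lit 5) (nat_lit 202) (nat_lit 5) (nat_lit 285) (nat_lit 279) (nat_lit 216)) (XT.nd (nat_lit 78) (nat_lit 0) (nat_lit 76) (XT.lf (nat_lit 76) (nat_lit 2728326457) (nat_lit 0) (nat_lit 470131346) (nat_lit 988) (nat_lit 5489969811) (nat_lit 190) (nat_lit 5) (nat_lit 189) (nat_lit 5) (nat_lit 202) (nat_lit 5) (nat_lit 286) (nat_lit 279) (nat_lit 215)) (XT.lf (nat_lit 0) (nat_lit 4373501645) (nat_lit 912) (nat_lit 2054352484) (nat_lit 988) (nat_lit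 2368422950) (nat_lit 190) (nat_lit 5) (nat_lit 202) (nat_lit 5) (nat_lit 203) (nat_lit 5) (nat_lit 287) (nat_lit 279) (nat_lit 214)))) (XT.nd (nat_lit 78) (nat_lit 0) (nat_lit 0) (XT.lf (nat_lit 76) (nat_lit 1979365576) (nat_lit 0) (nat_lit 3592863252) (nat_lit 988) (nat_lit 3335565019) (nat_lit 191) (nat_lit 5) (nat_lit 190) (nat_lit 5) (nat_lit 203) (nat_lit 5) (nat_lit 288) (nat_lit 279) (nat_lit 213)) (XT.nd (nat_lit 78) (nat_lit 0) (nat_lit 76) (XT.lf (nat_lit 76) (nat_lit 6153261718) (nat_lit 0) (nat_lit 639957550) (nat_lit 988) (nat_lit 2229930116) (nat_lit 191) (nat_lit 5) (nat_lit 190) (nat_lit 5) (nat_lit 203) (nat_lit 5) (nat_lit 289) (nat_lit 279) (nat_lit 212)) (XT.lf (nat_lit 76) (nat_lit 1289009569) (nat_lit 0) (nat_lit 6763972649) (nat_lit 988) (nat_lit 1088998998) (nat_lit 192) (nat_lit 5) (nat_lit 191) (nat_lit 5) (nat_lit 204) (nat_lit 5) (nat_lit 290) (nat_lit 279) (nat_lit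 211))))))) (XT.nd (nat_lit 936) (nat_lit 3116) (nat_lit 0) (XT.nd (nat_lit 468) (nat_lit 2812) (nat_lit 0) (XT.nd (nat_lit 234) (nat_lit 0) (nat_lit 76) (XT.nd (nat_lit 78) (nat_lit 0) (nat_lit 0) (XT.lf (nat_lit 0) (nat_lit 87097955) (nat_lit 988) (nat_lit 3663425838) (nat_lit 1064) (nat_lit 5513826113) (nat_lit 178) (nat_lit 5) (nat_lit 191) (nat_lit 5) (nat_lit 192) (nat_lit 5) (nat_lit 291) (nat_lit 279) (nat_lit 210)) (XT.nd (nat_lit 78) (nat_lit 0) (nat_lit 76) (XT.lf (nat_lit 76) (nat_lit 630047331) (nat_lit 0) (nat_lit 620575600) (nat_lit 1064) (nat_lit 8140295405) (nat_lit 179) (nat_lit 5) (nat_lit 178) (nat_lit 5) (nat_lit 192) (nat_lit 5) (nat_lit 292) (nat_lit 279) (nat_lit 209)) (XT.lf (nat_lit 0) (nat_lit 2480204801) (nat_lit 988) (nat_lit 4442276232) (nat_lit 1064) (nat_lit 2597939253) (nat_lit 179) (nat_lit 5) (nat_lit 192) (nat_lit 5) (nat_lit 193) (nat_lit 5) (nat_lit 293) (nat_lit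 279) (nat_lit 208)))) (XT.nd (nat_lit 78) (nat_lit 0) (nat_lit 0) (XT.lf (nat_lit 0) (nat_lit 3722495352) (nat_lit 988) (nat_lit 23698069) (nat_lit 1064) (nat_lit 5908408171) (nat_lit 179) (nat_lit 5) (nat_lit 192) (nat_lit 5) (nat_lit 193) (nat_lit 5) (nat_lit 294) (nat_lit 279) (nat_lit 207)) (XT.nd (nat_lit 78) (nat_lit 0) (nat_lit 76) (XT.lf (nat_lit 76) (nat_lit 4594341888) (nat_lit 0) (nat_lit 422436466) (nat_lit 1064) (nat_lit 4775655196) (nat_lit 180) (nat_lit 5) (nat_lit 179) (nat_lit 5) (nat_lit 193) (nat_lit 5) (nat_lit 295) (nat_lit 279) (nat_lit 206)) (XT.lf (nat_lit 0) (nat_lit 6350240659) (nat_lit 988) (nat_lit 635348541) (nat_lit 76) (nat_lit 2948865717) (nat_lit 180) (nat_lit 5) (nat_lit 193) (nat_lit 5) (nat_lit 181) (nat_lit 5) (nat_lit 296) (nat_lit 279) (nat_lit 205))))) (XT.nd (nat_lit 234) (nat_lit 836) (nat_lit 0) (XT.nd (nat_lit 78) (nat_lit 1140) (nat_lit 0) (XT.lf (nat_lit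 0) (nat_lit 4117614751) (nat_lit 988) (nat_lit 3621954074) (nat_lit 1064) (nat_lit 2340755327) (nat_lit 167) (nat_lit 5) (nat_lit 180) (nat_lit 5) (nat_lit 181) (nat_lit 5) (nat_lit 297) (nat_lit 279) (nat_lit 204)) (XT.nd (nat_lit 78) (nat_lit 1140) (nat_lit 0) (XT.lf (nat_lit 0) (nat_lit 9003585703) (nat_lit 988) (nat_lit 146100699) (nat_lit 1064) (nat_lit 1081571020) (nat_lit 167) (nat_lit 5) (nat_lit 180) (nat_lit 5) (nat_lit 181) (nat_lit 5) (nat_lit 298) (nat_lit 279) (nat_lit 203)) (XT.lf (nat_lit 0) (nat_lit 253315073) (nat_lit 1140) (nat_lit 6722927900) (nat_lit 76) (nat_lit 3409207457) (nat_lit 152) (nat_lit 5) (nat_lit 167) (nat_lit 5) (nat_lit 153) (nat_lit 5) (nat_lit 299) (nat_lit 279) (nat_lit 202)))) (XT.nd (nat_lit 78) (nat_lit 836) (nat_lit 0) (XT.lf (nat_lit 0) (nat_lit 1594248853) (nat_lit 1140) (nat_lit 1854786104) (nat_lit 76) (nat_lit 7095336872) (nat_lit 152) (nat_lit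 5) (nat_lit 167) (nat_lit 5) (nat_lit 153) (nat_lit 5) (nat_lit 300) (nat_lit 279) (nat_lit 201)) (XT.nd (nat_lit 78) (nat_lit 0) (nat_lit 0) (XT.lf (nat_lit 0) (nat_lit 2982802829) (nat_lit 912) (nat_lit 7510751836) (nat_lit 76) (nat_lit 214338858) (nat_lit 141) (nat_lit 5) (nat_lit 153) (nat_lit 5) (nat_lit 142) (nat_lit 5) (nat_lit 301) (nat_lit 279) (nat_lit 200)) (XT.lf (nat_lit 0) (nat_lit 4441167118) (nat_lit 912) (nat_lit 2494573893) (nat_lit 76) (nat_lit 3939788076) (nat_lit 141) (nat_lit 5) (nat_lit 153) (nat_lit 5) (nat_lit 142) (nat_lit 5) (nat_lit 302) (nat_lit 279) (nat_lit 199)))))) (XT.nd (nat_lit 468) (nat_lit 1520) (nat_lit 0) (XT.nd (nat_lit 234) (nat_lit 532) (nat_lit 0) (XT.nd (nat_lit 78) (nat_lit 532) (nat_lit 0) (XT.lf (nat_lit 0) (nat_lit 2702366738) (nat_lit 532) (nat_lit 3242707630) (nat_lit 608) (nat_lit 5103116884) (nat_lit 134) (nat_lit 5) (nat_lit 141) (nat_lit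 5) (nat_lit 142) (nat_lit 5) (nat_lit 303) (nat_lit 279) (nat_lit 198)) (XT.nd (nat_lit 78) (nat_lit 532) (nat_lit 0) (XT.lf (nat_lit 0) (nat_lit 7501252269) (nat_lit 608) (nat_lit 3147578920) (nat_lit 76) (nat_lit 577037287) (nat_lit 134) (nat_lit 5) (nat_lit 142) (nat_lit 5) (nat_lit 135) (nat_lit 5) (nat_lit 304) (nat_lit 279) (nat_lit 197)) (XT.lf (nat_lit 0) (nat_lit 2195000539) (nat_lit 532) (nat_lit 6939330305) (nat_lit 608) (nat_lit 2273687062) (nat_lit 127) (nat_lit 5) (nat_lit 134) (nat_lit 5) (nat_lit 135) (nat_lit 5) (nat_lit 305) (nat_lit 279) (nat_lit 196)))) (XT.nd (nat_lit 78) (nat_lit 532) (nat_lit 0) (XT.lf (nat_lit 0) (nat_lit 7740258830) (nat_lit 532) (nat_lit 3085393940) (nat_lit 608) (nat_lit 769748460) (nat_lit 127) (nat_lit 5) (nat_lit 134) (nat_lit 5) (nat_lit 135) (nat_lit 5) (nat_lit 306) (nat_lit 279) (nat_lit 195)) (XT.nd (nat_lit 78) (nat_lit 0) (nat_lit 0) (XT.lf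 (nat_lit 0) (nat_lit 766716169) (nat_lit 532) (nat_lit 10130606324) (nat_lit 76) (nat_lit 890824621) (nat_lit 120) (nat_lit 5) (nat_lit 127) (nat_lit 5) (nat_lit 121) (nat_lit 5) (nat_lit 307) (nat_lit 279) (nat_lit 194)) (XT.lf (nat_lit 0) (nat_lit 2381963821) (nat_lit 532) (nat_lit 4631871232) (nat_lit 76) (nat_lit 4971209831) (nat_lit 120) (nat_lit 5) (nat_lit 127) (nat_lit 5) (nat_lit 121) (nat_lit 5) (nat_lit 308) (nat_lit 279) (nat_lit 193))))) (XT.nd (nat_lit 234) (nat_lit 532) (nat_lit 0) (XT.nd (nat_lit 78) (nat_lit 456) (nat_lit 0) (XT.lf (nat_lit 0) (nat_lit 1030141576) (nat_lit 532) (nat_lit 3004358797) (nat_lit 608) (nat_lit 8153725978) (nat_lit 113) (nat_lit 5) (nat_lit 120) (nat_lit 5) (nat_lit 121) (nat_lit 5) (nat_lit 309) (nat_lit 279) (nat_lit 192)) (XT.nd (nat_lit 78) (nat_lit 456) (nat_lit 0) (XT.lf (nat_lit 0) (nat_lit 5773993724) (nat_lit 608) (nat_lit 5472641852) (nat_lit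 76) (nat_lit 1149786755) (nat_lit 113) (nat_lit 5) (nat_lit 121) (nat_lit 5) (nat_lit 114) (nat_lit 5) (nat_lit 310) (nat_lit 279) (nat_lit 191)) (XT.lf (nat_lit 0) (nat_lit 338649594) (nat_lit 456) (nat_lit 7239952586) (nat_lit 532) (nat_lit 5031913413) (nat_lit 107) (nat_lit 5) (nat_lit 113) (nat_lit 5) (nat_lit 114) (nat_lit 5) (nat_lit 311) (nat_lit 279) (nat_lit 190)))) (XT.nd (nat_lit 78) (nat_lit 532) (nat_lit 0) (XT.lf (nat_lit 0) (nat_lit 6415098207) (nat_lit 456) (nat_lit 3057821726) (nat_lit 532) (nat_lit 3357082757) (nat_lit 107) (nat_lit 5) (nat_lit 113) (nat_lit 5) (nat_lit 114) (nat_lit 5) (nat_lit 312) (nat_lit 279) (nat_lit 189)) (XT.nd (nat_lit 78) (nat_lit 532) (nat_lit 0) (XT.lf (nat_lit 0) (nat_lit 11416946824) (nat_lit 532) (nat_lit 415585771) (nat_lit 76) (nat_lit 1223792469) (nat_lit 107) (nat_lit 5) (nat_lit 114) (nat_lit 5) (nat_lit 108) (nat_lit 5) (nat_lit 313) (nat_lit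 279) (nat_lit 188)) (XT.lf (nat_lit 0) (nat_lit 195664355) (nat_lit 532) (nat_lit 7462945383) (nat_lit 76) (nat_lit 5628774625) (nat_lit 100) (nat_lit 5) (nat_lit 107) (nat_lit 5) (nat_lit 101) (nat_lit 5) (nat_lit 314) (nat_lit 279) (nat_lit 187))))))))
noncomputable def xc162 : XT := (XT.nd (nat_lit 1794) (nat_lit 1976) (nat_lit 0) (XT.nd (nat_lit 858) (nat_lit 1596) (nat_lit 0) (XT.nd (nat_lit 390) (nat_lit 1140) (nat_lit 0) (XT.nd (nat_lit 156) (nat_lit 380) (nat_lit 0) (XT.nd (nat_lit 78) (nat_lit 380) (nat_lit 0) (XT.lf (nat_lit 0) (nat_lit 2038598936) (nat_lit 532) (nat_lit 1302253505) (nat_lit 76) (nat_lit 10184496249) (nat_lit 100) (nat_lit 5) (nat_lit 107) (nat_lit 5) (nat_lit 101) (nat_lit 5) (nat_lit 315) (nat_lit 279) (nat_lit 186)) (XT.lf (nat_lit 0) (nat_lit 3979256244) (nat_lit 456) (nat_lit 8657724742) (nat_lit 76) (nat_lit 1132230843) (nat_lit 95) (nat_lit 5) (nat_lit 101) (nat_lit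 5) (nat_lit 96) (nat_lit 5) (nat_lit 316) (nat_lit 279) (nat_lit 185))) (XT.nd (nat_lit 78) (nat_lit 380) (nat_lit 0) (XT.lf (nat_lit 0) (nat_lit 6006885286) (nat_lit 456) (nat_lit 2329510926) (nat_lit 76) (nat_lit 5683164054) (nat_lit 95) (nat_lit 5) (nat_lit 101) (nat_lit 5) (nat_lit 96) (nat_lit 5) (nat_lit 317) (nat_lit 279) (nat_lit 184)) (XT.nd (nat_lit 78) (nat_lit 0) (nat_lit 0) (XT.lf (nat_lit 0) (nat_lit 4251470574) (nat_lit 380) (nat_lit 3867647021) (nat_lit 456) (nat_lit 6157619362) (nat_lit 90) (nat_lit 5) (nat_lit 95) (nat_lit 5) (nat_lit 96) (nat_lit 5) (nat_lit 318) (nat_lit 279) (nat_lit 183)) (XT.lf (nat_lit 0) (nat_lit 10308724508) (nat_lit 456) (nat_lit 3490936879) (nat_lit 76) (nat_lit 741577462) (nat_lit 90) (nat_lit 5) (nat_lit 96) (nat_lit 5) (nat_lit 91) (nat_lit 5) (nat_lit 319) (nat_lit 279) (nat_lit 182))))) (XT.nd (nat_lit 234) (nat_lit 304) (nat_lit 0) (XT.nd (nat_lit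 78) (nat_lit 456) (nat_lit 0) (XT.lf (nat_lit 0) (nat_lit 3244689123) (nat_lit 380) (nat_lit 9372488135) (nat_lit 456) (nat_lit 2194933062) (nat_lit 85) (nat_lit 5) (nat_lit 90) (nat_lit 5) (nat_lit 91) (nat_lit 5) (nat_lit 320) (nat_lit 279) (nat_lit 181)) (XT.nd (nat_lit 78) (nat_lit 456) (nat_lit 0) (XT.lf (nat_lit 0) (nat_lit 10234382946) (nat_lit 380) (nat_lit 4779713891) (nat_lit 456) (nat_lit 76463100) (nat_lit 85) (nat_lit 5) (nat_lit 90) (nat_lit 5) (nat_lit 91) (nat_lit 5) (nat_lit 321) (nat_lit 279) (nat_lit 180)) (XT.lf (nat_lit 0) (nat_lit 2056971260) (nat_lit 380) (nat_lit 11523048) (nat_lit 456) (nat_lit 13308167695) (nat_lit 79) (nat_lit 5) (nat_lit 84) (nat_lit 5) (nat_lit 85) (nat_lit 5) (nat_lit 322) (nat_lit 279) (nat_lit 179)))) (XT.nd (nat_lit 78) (nat_lit 304) (nat_lit 0) (XT.lf (nat_lit 0) (nat_lit 4357373168) (nat_lit 456) (nat_lit 6460754607) (nat_lit 76) (nat_lit 4850789346)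 (nat_lit 79) (nat_lit 5) (nat_lit 85) (nat_lit 5) (nat_lit 80) (nat_lit 5) (nat_lit 323) (nat_lit 279) (nat_lit 178)) (XT.nd (nat_lit 78) (nat_lit 0) (nat_lit 0) (XT.lf (nat_lit 0) (nat_lit 596447356) (nat_lit 304) (nat_lit 6109257501) (nat_lit 380) (nat_lit 9264536673) (nat_lit 75) (nat_lit 5) (nat_lit 79) (nat_lit 5) (nat_lit 80) (nat_lit 5) (nat_lit 324) (nat_lit 279) (nat_lit 177)) (XT.lf (nat_lit 0) (nat_lit 7978964050) (nat_lit 304) (nat_lit 1195959925) (nat_lit 380) (nat_lit 7104193071) (nat_lit 75) (nat_lit 5) (nat_lit 79) (nat_lit 5) (nat_lit 80) (nat_lit 5) (nat_lit 325) (nat_lit 279) (nat_lit 176)))))) (XT.nd (nat_lit 468) (nat_lit 608) (nat_lit 0) (XT.nd (nat_lit 234) (nat_lit 684) (nat_lit 0) (XT.nd (nat_lit 78) (nat_lit 304) (nat_lit 0) (XT.lf (nat_lit 0) (nat_lit 11740959896) (nat_lit 380) (nat_lit 1070161785) (nat_lit 76) (nat_lit 3785478724) (nat_lit 75) (nat_lit 5) (nat_lit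 80) (nat_lit 5) (nat_lit 76) (nat_lit 5) (nat_lit 326) (nat_lit 279) (nat_lit 175)) (XT.nd (nat_lit 78) (nat_lit 0) (nat_lit 0) (XT.lf (nat_lit 0) (nat_lit 6473036156) (nat_lit 304) (nat_lit 7971014435) (nat_lit 380) (nat_lit 2477778555) (nat_lit 71) (nat_lit 5) (nat_lit 75) (nat_lit 5) (nat_lit 76) (nat_lit 5) (nat_lit 327) (nat_lit 279) (nat_lit 174)) (XT.lf (nat_lit 0) (nat_lit 14246481314) (nat_lit 304) (nat_lit 2978803544) (nat_lit 380) (nat_lit 31640783) (nat_lit 71) (nat_lit 5) (nat_lit 75) (nat_lit 5) (nat_lit 76) (nat_lit 5) (nat_lit 328) (nat_lit 279) (nat_lit 173)))) (XT.nd (nat_lit 78) (nat_lit 304) (nat_lit 0) (XT.lf (nat_lit 0) (nat_lit 2492452240) (nat_lit 380) (nat_lit 12920741929) (nat_lit 76) (nat_lit 2186590985) (nat_lit 66) (nat_lit 5) (nat_lit 71) (nat_lit 5) (nat_lit 67) (nat_lit 5) (nat_lit 329) (nat_lit 279) (nat_lit 172)) (XT.nd (nat_lit 78) (nat_lit 304) (nat_lit 0)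 (XT.lf (nat_lit 0) (nat_lit 5138500386) (nat_lit 380) (nat_lit 5339155097) (nat_lit 76) (nat_lit 7473880038) (nat_lit 66) (nat_lit 5) (nat_lit 71) (nat_lit 5) (nat_lit 67) (nat_lit 5) (nat_lit 330) (nat_lit 279) (nat_lit 171)) (XT.lf (nat_lit 0) (nat_lit 2501254990) (nat_lit 304) (nat_lit 5373781304) (nat_lit 380) (nat_lit 10438488835) (nat_lit 62) (nat_lit 5) (nat_lit 66) (nat_lit 5) (nat_lit 67) (nat_lit 5) (nat_lit 331) (nat_lit 279) (nat_lit 170))))) (XT.nd (nat_lit 234) (nat_lit 380) (nat_lit 0) (XT.nd (nat_lit 78) (nat_lit 228) (nat_lit 0) (XT.lf (nat_lit 0) (nat_lit 10669062892) (nat_lit 304) (nat_lit 65793990) (nat_lit 380) (nat_lit 7950301224) (nat_lit 62) (nat_lit 5) (nat_lit 66) (nat_lit 5) (nat_lit 67) (nat_lit 5) (nat_lit 332) (nat_lit 279) (nat_lit 169)) (XT.nd (nat_lit 78) (nat_lit 228) (nat_lit 0) (XT.lf (nat_lit 0) (nat_lit 13719995916) (nat_lit 380) (nat_lit 55063197) (nat_lit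 76) (nat_lit 5291714021) (nat_lit 62) (nat_lit 5) (nat_lit 67) (nat_lit 5) (nat_lit 63) (nat_lit 5) (nat_lit 333) (nat_lit 279) (nat_lit 168)) (XT.lf (nat_lit 0) (nat_lit 8289294307) (nat_lit 228) (nat_lit 8573691062) (nat_lit 304) (nat_lit 2594820583) (nat_lit 59) (nat_lit 5) (nat_lit 62) (nat_lit 5) (nat_lit 63) (nat_lit 5) (nat_lit 334) (nat_lit 279) (nat_lit 167)))) (XT.nd (nat_lit 78) (nat_lit 304) (nat_lit 0) (XT.lf (nat_lit 0) (nat_lit 223599920) (nat_lit 304) (nat_lit 2994452196) (nat_lit 76) (nat_lit 16642808226) (nat_lit 58) (nat_lit 5) (nat_lit 62) (nat_lit 5) (nat_lit 59) (nat_lit 5) (nat_lit 335) (nat_lit 279) (nat_lit 166)) (XT.nd (nat_lit 78) (nat_lit 0) (nat_lit 0) (XT.lf (nat_lit 0) (nat_lit 3138388377) (nat_lit 380) (nat_lit 14806788952) (nat_lit 76) (nat_lit 2328155916) (nat_lit 54) (nat_lit 5) (nat_lit 59) (nat_lit 5) (nat_lit 55) (nat_lit 5) (nat_lit 336) (nat_lit 279) (nat_lit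 165)) (XT.lf (nat_lit 0) (nat_lit 6191529818) (nat_lit 380) (nat_lit 6503051133) (nat_lit 76) (nat_lit 8002088302) (nat_lit 54) (nat_lit 5) (nat_lit 59) (nat_lit 5) (nat_lit 55) (nat_lit 5) (nat_lit 337) (nat_lit 279) (nat_lit 164))))))) (XT.nd (nat_lit 858) (nat_lit 836) (nat_lit 0) (XT.nd (nat_lit 390) (nat_lit 608) (nat_lit 0) (XT.nd (nat_lit 156) (nat_lit 304) (nat_lit 0) (XT.nd (nat_lit 78) (nat_lit 0) (nat_lit 0) (XT.lf (nat_lit 0) (nat_lit 2074383669) (nat_lit 228) (nat_lit 7270666682) (nat_lit 304) (nat_lit 11787407167) (nat_lit 51) (nat_lit 5) (nat_lit 54) (nat_lit 5) (nat_lit 55) (nat_lit 5) (nat_lit 338) (nat_lit 279) (nat_lit 163)) (XT.lf (nat_lit 0) (nat_lit 11026709664) (nat_lit 228) (nat_lit 1621153139) (nat_lit 304) (nat_lit 8931831306) (nat_lit 51) (nat_lit 5) (nat_lit 54) (nat_lit 5) (nat_lit 55) (nat_lit 5) (nat_lit 339) (nat_lit 279) (nat_lit 162))) (XT.nd (nat_lit 78) (nat_lit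 304) (nat_lit 0) (XT.lf (nat_lit 0) (nat_lit 16079405596) (nat_lit 304) (nat_lit 1848664549) (nat_lit 76) (nat_lit 4111403095) (nat_lit 51) (nat_lit 5) (nat_lit 55) (nat_lit 5) (nat_lit 52) (nat_lit 5) (nat_lit 340) (nat_lit 279) (nat_lit 161)) (XT.nd (nat_lit 78) (nat_lit 76) (nat_lit 0) (XT.lf (nat_lit 0) (nat_lit 7226635170) (nat_lit 228) (nat_lit 12462382900) (nat_lit 304) (nat_lit 2821788363) (nat_lit 48) (nat_lit 5) (nat_lit 51) (nat_lit 5) (nat_lit 52) (nat_lit 5) (nat_lit 341) (nat_lit 279) (nat_lit 160)) (XT.lf (nat_lit 0) (nat_lit 411128328) (nat_lit 304) (nat_lit 6402949836) (nat_lit 76) (nat_lit 16181841539) (nat_lit 47) (nat_lit 5) (nat_lit 51) (nat_lit 5) (nat_lit 48) (nat_lit 5) (nat_lit 342) (nat_lit 279) (nat_lit 159))))) (XT.nd (nat_lit 234) (nat_lit 380) (nat_lit 0) (XT.nd (nat_lit 78) (nat_lit 0) (nat_lit 0) (XT.lf (nat_lit 0) (nat_lit 2755799885) (nat_lit 228) (nat_lit 944958759)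 (nat_lit 304) (nat_lit 19793509504) (nat_lit 44) (nat_lit 5) (nat_lit 47) (nat_lit 5) (nat_lit 48) (nat_lit 5) (nat_lit 343) (nat_lit 279) (nat_lit 158)) (XT.nd (nat_lit 78) (nat_lit 0) (nat_lit 0) (XT.lf (nat_lit 0) (nat_lit 7193459814) (nat_lit 304) (nat_lit 11749593119) (nat_lit 76) (nat_lit 5061395439) (nat_lit 44) (nat_lit 5) (nat_lit 48) (nat_lit 5) (nat_lit 45) (nat_lit 5) (nat_lit 344) (nat_lit 279) (nat_lit 157)) (XT.lf (nat_lit 0) (nat_lit 10790645583) (nat_lit 304) (nat_lit 2514840118) (nat_lit 76) (nat_lit 11224469608) (nat_lit 44) (nat_lit 5) (nat_lit 48) (nat_lit 5) (nat_lit 45) (nat_lit 5) (nat_lit 345) (nat_lit 279) (nat_lit 156)))) (XT.nd (nat_lit 78) (nat_lit 152) (nat_lit 0) (XT.lf (nat_lit 0) (nat_lit 7121917729) (nat_lit 228) (nat_lit 7432918104) (nat_lit 304) (nat_lit 10514631005) (nat_lit 41) (nat_lit 5) (nat_lit 44) (nat_lit 5) (nat_lit 45) (nat_lit 5) (nat_lit 346) (nat_lit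 279) (nat_lit 155)) (XT.nd (nat_lit 78) (nat_lit 152) (nat_lit 0) (XT.lf (nat_lit 0) (nat_lit 17085455434) (nat_lit 228) (nat_lit 1362659569) (nat_lit 304) (nat_lit 7176575515) (nat_lit 41) (nat_lit 5) (nat_lit 44) (nat_lit 5) (nat_lit 45) (nat_lit 5) (nat_lit 347) (nat_lit 279) (nat_lit 154)) (XT.lf (nat_lit 0) (nat_lit 1112323510) (nat_lit 152) (nat_lit 21394558036) (nat_lit 228) (nat_lit 3688240051) (nat_lit 39) (nat_lit 5) (nat_lit 41) (nat_lit 5) (nat_lit 42) (nat_lit 5) (nat_lit 348) (nat_lit 279) (nat_lit 153)))))) (XT.nd (nat_lit 468) (nat_lit 380) (nat_lit 0) (XT.nd (nat_lit 234) (nat_lit 152) (nat_lit 0) (XT.nd (nat_lit 78) (nat_lit 304) (nat_lit 0) (XT.lf (nat_lit 0) (nat_lit 11201141572) (nat_lit 152) (nat_lit 15576984108) (nat_lit 228) (nat_lit 1829520) (nat_lit 39) (nat_lit 5) (nat_lit 41) (nat_lit 5) (nat_lit 42) (nat_lit 5) (nat_lit 349) (nat_lit 279) (nat_lit 152)) (XT.nd (nat_lit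 78) (nat_lit 228) (nat_lit 0) (XT.lf (nat_lit 0) (nat_lit 3712404153) (nat_lit 228) (nat_lit 5839552655) (nat_lit 76) (nat_lit 17829554301) (nat_lit 38) (nat_lit 5) (nat_lit 41) (nat_lit 5) (nat_lit 39) (nat_lit 5) (nat_lit 350) (nat_lit 279) (nat_lit 151)) (XT.lf (nat_lit 0) (nat_lit 4262063927) (nat_lit 228) (nat_lit 3308475770) (nat_lit 304) (nat_lit 20429608200) (nat_lit 35) (nat_lit 5) (nat_lit 38) (nat_lit 5) (nat_lit 39) (nat_lit 5) (nat_lit 351) (nat_lit 279) (nat_lit 150)))) (XT.nd (nat_lit 78) (nat_lit 152) (nat_lit 0) (XT.lf (nat_lit 0) (nat_lit 11625606318) (nat_lit 304) (nat_lit 13892799669) (nat_lit 76) (nat_lit 3116511990) (nat_lit 35) (nat_lit 5) (nat_lit 39) (nat_lit 5) (nat_lit 36) (nat_lit 5) (nat_lit 352) (nat_lit 279) (nat_lit 149)) (XT.nd (nat_lit 78) (nat_lit 152) (nat_lit 0) (XT.lf (nat_lit 0) (nat_lit 15826947739) (nat_lit 304) (nat_lit 3797595229) (nat_lit 76) (nat_lit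 9663459022) (nat_lit 35) (nat_lit 5) (nat_lit 39) (nat_lit 5) (nat_lit 36) (nat_lit 5) (nat_lit 353) (nat_lit 279) (nat_lit 148)) (XT.lf (nat_lit 0) (nat_lit 6719270668) (nat_lit 152) (nat_lit 13491751014) (nat_lit 228) (nat_lit 9747965308) (nat_lit 33) (nat_lit 5) (nat_lit 35) (nat_lit 5) (nat_lit 36) (nat_lit 5) (nat_lit 354) (nat_lit 279) (nat_lit 147))))) (XT.nd (nat_lit 234) (nat_lit 152) (nat_lit 0) (XT.nd (nat_lit 78) (nat_lit 228) (nat_lit 0) (XT.lf (nat_lit 0) (nat_lit 17617298377) (nat_lit 152) (nat_lit 7139883107) (nat_lit 228) (nat_lit 5892012115) (nat_lit 33) (nat_lit 5) (nat_lit 35) (nat_lit 5) (nat_lit 36) (nat_lit 5) (nat_lit 355) (nat_lit 279) (nat_lit 146)) (XT.nd (nat_lit 78) (nat_lit 228) (nat_lit 0) (XT.lf (nat_lit 0) (nat_lit 28830430854) (nat_lit 152) (nat_lit 601737335) (nat_lit 228) (nat_lit 1928173657) (nat_lit 33) (nat_lit 5) (nat_lit 35) (nat_lit 5) (nat_lit 36) (nat_lit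 5) (nat_lit 356) (nat_lit 279) (nat_lit 145)) (XT.lf (nat_lit 0) (nat_lit 2245962346) (nat_lit 228) (nat_lit 23730861002) (nat_lit 76) (nat_lit 6111385288) (nat_lit 30) (nat_lit 5) (nat_lit 33) (nat_lit 5) (nat_lit 31) (nat_lit 5) (nat_lit 357) (nat_lit 279) (nat_lit 144)))) (XT.nd (nat_lit 78) (nat_lit 152) (nat_lit 0) (XT.lf (nat_lit 0) (nat_lit 6530971887) (nat_lit 228) (nat_lit 13251081663) (nat_lit 76) (nat_lit 13054561005) (nat_lit 30) (nat_lit 5) (nat_lit 33) (nat_lit 5) (nat_lit 31) (nat_lit 5) (nat_lit 358) (nat_lit 279) (nat_lit 143)) (XT.nd (nat_lit 78) (nat_lit 152) (nat_lit 0) (XT.lf (nat_lit 0) (nat_lit 10937391871) (nat_lit 228) (nat_lit 2468287390) (nat_lit 76) (nat_lit 20202015323) (nat_lit 30) (nat_lit 5) (nat_lit 33) (nat_lit 5) (nat_lit 31) (nat_lit 5) (nat_lit 359) (nat_lit 279) (nat_lit 142)) (XT.lf (nat_lit 0) (nat_lit 8798636772) (nat_lit 152) (nat_lit 6755013674) (nat_lit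 228) (nat_lit 18845934696) (nat_lit 28) (nat_lit 5) (nat_lit 30) (nat_lit 5) (nat_lit 31) (nat_lit 5) (nat_lit 360) (nat_lit 279) (nat_lit 141))))))))
noncomputable def xc163 : XT := (XT.nd (nat_lit 1794) (nat_lit 304) (nat_lit 0) (XT.nd (nat_lit 858) (nat_lit 380) (nat_lit 0) (XT.nd (nat_lit 390) (nat_lit 304) (nat_lit 0) (XT.nd (nat_lit 156) (nat_lit 228) (nat_lit 0) (XT.nd (nat_lit 78) (nat_lit 0) (nat_lit 0) (XT.lf (nat_lit 0) (nat_lit 20327608689) (nat_lit 228) (nat_lit 14772591802) (nat_lit 76) (nat_lit 114462860) (nat_lit 28) (nat_lit 5) (nat_lit 31) (nat_lit 5) (nat_lit 29) (nat_lit 5) (nat_lit 361) (nat_lit 279) (nat_lit 140)) (XT.lf (nat_lit 0) (nat_lit 25304992649) (nat_lit 228) (nat_lit 3697053850) (nat_lit 76) (nat_lit 7050348277) (nat_lit 28) (nat_lit 5) (nat_lit 31) (nat_lit 5) (nat_lit 29) (nat_lit 5) (nat_lit 362) (nat_lit 279) (nat_lit 139))) (XT.nd (nat_lit 78) (nat_lit 76)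 (nat_lit 0) (XT.lf (nat_lit 0) (nat_lit 7853527063) (nat_lit 152) (nat_lit 22647184017) (nat_lit 228) (nat_lit 6412483549) (nat_lit 26) (nat_lit 5) (nat_lit 28) (nat_lit 5) (nat_lit 29) (nat_lit 5) (nat_lit 363) (nat_lit 279) (nat_lit 138)) (XT.nd (nat_lit 78) (nat_lit 76) (nat_lit 0) (XT.lf (nat_lit 0) (nat_lit 19816040292) (nat_lit 152) (nat_lit 16067202856) (nat_lit 228) (nat_lit 1915653739) (nat_lit 26) (nat_lit 5) (nat_lit 28) (nat_lit 5) (nat_lit 29) (nat_lit 5) (nat_lit 364) (nat_lit 279) (nat_lit 137)) (XT.lf (nat_lit 0) (nat_lit 2656807889) (nat_lit 228) (nat_lit 6610050074) (nat_lit 76) (nat_lit 29443723457) (nat_lit 25) (nat_lit 5) (nat_lit 28) (nat_lit 5) (nat_lit 26) (nat_lit 5) (nat_lit 365) (nat_lit 279) (nat_lit 136))))) (XT.nd (nat_lit 234) (nat_lit 152) (nat_lit 0) (XT.nd (nat_lit 78) (nat_lit 0) (nat_lit 0) (XT.lf (nat_lit 0) (nat_lit 5176074576) (nat_lit 152) (nat_lit 2195531785)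 (nat_lit 228) (nat_lit 32276137256) (nat_lit 23) (nat_lit 5) (nat_lit 25) (nat_lit 5) (nat_lit 26) (nat_lit 5) (nat_lit 366) (nat_lit 279) (nat_lit 135)) (XT.nd (nat_lit 78) (nat_lit 0) (nat_lit 0) (XT.lf (nat_lit 0) (nat_lit 12338123280) (nat_lit 228) (nat_lit 23219260502) (nat_lit 76) (nat_lit 5052334592) (nat_lit 23) (nat_lit 5) (nat_lit 26) (nat_lit 5) (nat_lit 24) (nat_lit 5) (nat_lit 367) (nat_lit 279) (nat_lit 134)) (XT.lf (nat_lit 0) (nat_lit 17469506399) (nat_lit 228) (nat_lit 11660683252) (nat_lit 76) (nat_lit 12469892357) (nat_lit 23) (nat_lit 5) (nat_lit 26) (nat_lit 5) (nat_lit 24) (nat_lit 5) (nat_lit 368) (nat_lit 279) (nat_lit 133)))) (XT.nd (nat_lit 78) (nat_lit 0) (nat_lit 0) (XT.lf (nat_lit 0) (nat_lit 239949506) (nat_lit 152) (nat_lit 22511491689) (nat_lit 228) (nat_lit 19868822638) (nat_lit 21) (nat_lit 5) (nat_lit 23) (nat_lit 5) (nat_lit 24) (nat_lit 5) (nat_lit 369) (nat_lit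 279) (nat_lit 132)) (XT.nd (nat_lit 78) (nat_lit 0) (nat_lit 0) (XT.lf (nat_lit 0) (nat_lit 12727341738) (nat_lit 152) (nat_lit 15576622571) (nat_lit 228) (nat_lit 15363728323) (nat_lit 21) (nat_lit 5) (nat_lit 23) (nat_lit 5) (nat_lit 24) (nat_lit 5) (nat_lit 370) (nat_lit 279) (nat_lit 131)) (XT.lf (nat_lit 0) (nat_lit 25580334294) (nat_lit 152) (nat_lit 8437272740) (nat_lit 228) (nat_lit 10729106209) (nat_lit 21) (nat_lit 5) (nat_lit 23) (nat_lit 5) (nat_lit 24) (nat_lit 5) (nat_lit 371) (nat_lit 279) (nat_lit 130)))))) (XT.nd (nat_lit 468) (nat_lit 76) (nat_lit 0) (XT.nd (nat_lit 234) (nat_lit 152) (nat_lit 0) (XT.nd (nat_lit 78) (nat_lit 152) (nat_lit 0) (XT.lf (nat_lit 0) (nat_lit 38810157945) (nat_lit 152) (nat_lit 1087203929) (nat_lit 228) (nat_lit 5960906628) (nat_lit 21) (nat_lit 5) (nat_lit 23) (nat_lit 5) (nat_lit 24) (nat_lit 5) (nat_lit 372) (nat_lit 279) (nat_lit 129)) (XT.nd (nat_lit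 78) (nat_lit 76) (nat_lit 0) (XT.lf (nat_lit 0) (nat_lit 5469482582) (nat_lit 76) (nat_lit 40593749694) (nat_lit 152) (nat_lit 936651420) (nat_lit 20) (nat_lit 5) (nat_lit 21) (nat_lit 5) (nat_lit 22) (nat_lit 4) (nat_lit 373) (nat_lit 279) (nat_lit 128)) (XT.lf (nat_lit 0) (nat_lit 4233105610) (nat_lit 152) (nat_lit 29727393135) (nat_lit 76) (nat_lit 14211706659) (nat_lit 19) (nat_lit 5) (nat_lit 21) (nat_lit 5) (nat_lit 20) (nat_lit 5) (nat_lit 374) (nat_lit 279) (nat_lit 127)))) (XT.nd (nat_lit 78) (nat_lit 152) (nat_lit 0) (XT.lf (nat_lit 0) (nat_lit 9534118045) (nat_lit 152) (nat_lit 17587969973) (nat_lit 76) (nat_lit 22257485422) (nat_lit 19) (nat_lit 5) (nat_lit 21) (nat_lit 5) (nat_lit 20) (nat_lit 5) (nat_lit 375) (nat_lit 279) (nat_lit 126)) (XT.nd (nat_lit 78) (nat_lit 152) (nat_lit 0) (XT.lf (nat_lit 0) (nat_lit 14989295280) (nat_lit 152) (nat_lit 5092520700) (nat_lit 76) (nat_lit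 30541496916) (nat_lit 19) (nat_lit 5) (nat_lit 21) (nat_lit 5) (nat_lit 20) (nat_lit 5) (nat_lit 376) (nat_lit 279) (nat_lit 125)) (XT.lf (nat_lit 0) (nat_lit 7924508745) (nat_lit 152) (nat_lit 12755070453) (nat_lit 228) (nat_lit 31222646078) (nat_lit 17) (nat_lit 5) (nat_lit 19) (nat_lit 5) (nat_lit 20) (nat_lit 5) (nat_lit 377) (nat_lit 279) (nat_lit 124))))) (XT.nd (nat_lit 234) (nat_lit 76) (nat_lit 0) (XT.nd (nat_lit 78) (nat_lit 0) (nat_lit 0) (XT.lf (nat_lit 0) (nat_lit 21428599381) (nat_lit 152) (nat_lit 5158735083) (nat_lit 228) (nat_lit 26630771839) (nat_lit 17) (nat_lit 5) (nat_lit 19) (nat_lit 5) (nat_lit 20) (nat_lit 5) (nat_lit 378) (nat_lit 279) (nat_lit 123)) (XT.nd (nat_lit 78) (nat_lit 0) (nat_lit 0) (XT.lf (nat_lit 0) (nat_lit 32693389166) (nat_lit 228) (nat_lit 19268996473) (nat_lit 76) (nat_lit 2610450155) (nat_lit 17) (nat_lit 5) (nat_lit 20) (nat_lit 5) (nat_lit 18) (nat_lit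 4) (nat_lit 379) (nat_lit 279) (nat_lit 122)) (XT.lf (nat_lit 0) (nat_lit 39029279234) (nat_lit 228) (nat_lit 6431445473) (nat_lit 76) (nat_lit 10506086769) (nat_lit 17) (nat_lit 5) (nat_lit 20) (nat_lit 5) (nat_lit 18) (nat_lit 4) (nat_lit 380) (nat_lit 279) (nat_lit 121)))) (XT.nd (nat_lit 78) (nat_lit 0) (nat_lit 0) (XT.lf (nat_lit 0) (nat_lit 6918966223) (nat_lit 76) (nat_lit 38698495079) (nat_lit 152) (nat_lit 11783282473) (nat_lit 16) (nat_lit 5) (nat_lit 17) (nat_lit 5) (nat_lit 18) (nat_lit 4) (nat_lit 381) (nat_lit 279) (nat_lit 120)) (XT.nd (nat_lit 78) (nat_lit 0) (nat_lit 0) (XT.lf (nat_lit 0) (nat_lit 20794520183) (nat_lit 76) (nat_lit 31669475378) (nat_lit 152) (nat_lit 6411880976) (nat_lit 16) (nat_lit 5) (nat_lit 17) (nat_lit 5) (nat_lit 18) (nat_lit 4) (nat_lit 382) (nat_lit 279) (nat_lit 119)) (XT.lf (nat_lit 0) (nat_lit 35079342301) (nat_lit 76) (nat_lit 24432468729) (nat_lit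 152) (nat_lit 883579281) (nat_lit 16) (nat_lit 5) (nat_lit 17) (nat_lit 5) (nat_lit 18) (nat_lit 4) (nat_lit 383) (nat_lit 279) (nat_lit 118))))))) (XT.nd (nat_lit 32682) (nat_lit 0) (nat_lit 12616) (XT.nd (nat_lit 468) (nat_lit 76) (nat_lit 0) (XT.nd (nat_lit 234) (nat_lit 0) (nat_lit 0) (XT.nd (nat_lit 78) (nat_lit 152) (nat_lit 0) (XT.lf (nat_lit 0) (nat_lit 4712661952) (nat_lit 152) (nat_lit 12220900940) (nat_lit 76) (nat_lit 45025663863) (nat_lit 15) (nat_lit 5) (nat_lit 17) (nat_lit 5) (nat_lit 16) (nat_lit 5) (nat_lit 384) (nat_lit 279) (nat_lit 117)) (XT.nd (nat_lit 78) (nat_lit 0) (nat_lit 0) (XT.lf (nat_lit 0) (nat_lit 1276584979) (nat_lit 152) (nat_lit 9190797364) (nat_lit 228) (nat_lit 53102086251) (nat_lit 13) (nat_lit 5) (nat_lit 15) (nat_lit 5) (nat_lit 16) (nat_lit 5) (nat_lit 385) (nat_lit 279) (nat_lit 116)) (XT.lf (nat_lit 0) (nat_lit 15422899410) (nat_lit 152) (nat_lit 1091382368)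 (nat_lit 228) (nat_lit 48710152975) (nat_lit 13) (nat_lit 5) (nat_lit 15) (nat_lit 5) (nat_lit 16) (nat_lit 5) (nat_lit 386) (nat_lit 279) (nat_lit 115)))) (XT.nd (nat_lit 78) (nat_lit 0) (nat_lit 0) (XT.lf (nat_lit 0) (nat_lit 22808506795) (nat_lit 228) (nat_lit 37011657977) (nat_lit 76) (nat_lit 7106910660) (nat_lit 13) (nat_lit 5) (nat_lit 16) (nat_lit 5) (nat_lit 14) (nat_lit 4) (nat_lit 387) (nat_lit 279) (nat_lit 114)) (XT.nd (nat_lit 78) (nat_lit 0) (nat_lit 0) (XT.lf (nat_lit 0) (nat_lit 29298691907) (nat_lit 228) (nat_lit 23855210600) (nat_lit 76) (nat_lit 15526681827) (nat_lit 13) (nat_lit 5) (nat_lit 16) (nat_lit 5) (nat_lit 14) (nat_lit 4) (nat_lit 388) (nat_lit 279) (nat_lit 113)) (XT.lf (nat_lit 0) (nat_lit 35980017116) (nat_lit 228) (nat_lit 10310206255) (nat_lit 76) (nat_lit 24196585015) (nat_lit 13) (nat_lit 5) (nat_lit 16) (nat_lit 5) (nat_lit 14) (nat_lit 4) (nat_lit 389) (nat_lit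 279) (nat_lit 112))))) (XT.nd (nat_lit 234) (nat_lit 0) (nat_lit 0) (XT.nd (nat_lit 78) (nat_lit 0) (nat_lit 0) (XT.lf (nat_lit 0) (nat_lit 3707537919) (nat_lit 76) (nat_lit 39186421674) (nat_lit 152) (nat_lit 29452297070) (nat_lit 12) (nat_lit 5) (nat_lit 13) (nat_lit 5) (nat_lit 14) (nat_lit 4) (nat_lit 390) (nat_lit 279) (nat_lit 111)) (XT.nd (nat_lit 78) (nat_lit 0) (nat_lit 0) (XT.lf (nat_lit 0) (nat_lit 18351264229) (nat_lit 76) (nat_lit 31764751491) (nat_lit 152) (nat_lit 24142454558) (nat_lit 12) (nat_lit 5) (nat_lit 13) (nat_lit 5) (nat_lit 14) (nat_lit 4) (nat_lit 391) (nat_lit 279) (nat_lit 110)) (XT.lf (nat_lit 0) (nat_lit 33428574841) (nat_lit 76) (nat_lit 24122840733) (nat_lit 152) (nat_lit 18676736933) (nat_lit 12) (nat_lit 5) (nat_lit 13) (nat_lit 5) (nat_lit 14) (nat_lit 4) (nat_lit 392) (nat_lit 279) (nat_lit 109)))) (XT.nd (nat_lit 31824) (nat_lit 0) (nat_lit 14288) (XT.lf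 (nat_lit 0) (nat_lit 48952644105) (nat_lit 76) (nat_lit 16254012005) (nat_lit 152) (nat_lit 13050368326) (nat_lit 12) (nat_lit 5) (nat_lit 13) (nat_lit 5) (nat_lit 14) (nat_lit 4) (nat_lit 393) (nat_lit 279) (nat_lit 108)) (XT.nd (nat_lit 78) (nat_lit 0) (nat_lit 0) (XT.lf (nat_lit 0) (nat_lit 1443358729) (nat_lit 0) (nat_lit 1443358729) (nat_lit 836) (nat_lit 1211967757) (nat_lit 200) (nat_lit 5) (nat_lit 200) (nat_lit 3) (nat_lit 211) (nat_lit 3) (nat_lit 280) (nat_lit 280) (nat_lit 220)) (XT.lf (nat_lit 0) (nat_lit 6501638829) (nat_lit 0) (nat_lit 388396112) (nat_lit 836) (nat_lit 1396802232) (nat_lit 200) (nat_lit 5) (nat_lit 200) (nat_lit 3) (nat_lit 211) (nat_lit 3) (nat_lit 281) (nat_lit 280) (nat_lit 219)))))) (XT.nd (nat_lit 468) (nat_lit 760) (nat_lit 0) (XT.nd (nat_lit 234) (nat_lit 0) (nat_lit 76) (XT.nd (nat_lit 78) (nat_lit 912) (nat_lit 0) (XT.lf (nat_lit 76) (nat_lit 1839309773)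 (nat_lit 0) (nat_lit 6199501358) (nat_lit 912) (nat_lit 340317671) (nat_lit 201) (nat_lit 5) (nat_lit 200) (nat_lit 5) (nat_lit 212) (nat_lit 5) (nat_lit 282) (nat_lit 280) (nat_lit 218)) (XT.nd (nat_lit 78) (nat_lit 0) (nat_lit 0) (XT.lf (nat_lit 0) (nat_lit 715790839) (nat_lit 912) (nat_lit 2897983017) (nat_lit 988) (nat_lit 4860819392) (nat_lit 188) (nat_lit 5) (nat_lit 200) (nat_lit 5) (nat_lit 201) (nat_lit 5) (nat_lit 283) (nat_lit 280) (nat_lit 217)) (XT.lf (nat_lit 76) (nat_lit 844598686) (nat_lit 0) (nat_lit 921885862) (nat_lit 988) (nat_lit 6807336375) (nat_lit 189) (nat_lit 5) (nat_lit 188) (nat_lit 5) (nat_lit 201) (nat_lit 5) (nat_lit 284) (nat_lit 280) (nat_lit 216)))) (XT.nd (nat_lit 78) (nat_lit 0) (nat_lit 0) (XT.lf (nat_lit 0) (nat_lit 2858732886) (nat_lit 912) (nat_lit 3957141551) (nat_lit 988) (nat_lit 1859939918) (nat_lit 189) (nat_lit 5) (nat_lit 201) (nat_lit 5) (nat_lit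 202) (nat_lit 5) (nat_lit 285) (nat_lit 280) (nat_lit 215)) (XT.nd (nat_lit 78) (nat_lit 0) (nat_lit 0) (XT.lf (nat_lit 0) (nat_lit 3956652475) (nat_lit 912) (nat_lit 103139934) (nat_lit 988) (nat_lit 4721975392) (nat_lit 189) (nat_lit 5) (nat_lit 201) (nat_lit 5) (nat_lit 202) (nat_lit 5) (nat_lit 286) (nat_lit 280) (nat_lit 214)) (XT.lf (nat_lit 76) (nat_lit 3921535193) (nat_lit 0) (nat_lit 1168501931) (nat_lit 988) (nat_lit 3800871680) (nat_lit 190) (nat_lit 5) (nat_lit 189) (nat_lit 5) (nat_lit 202) (nat_lit 5) (nat_lit 287) (nat_lit 280) (nat_lit 213))))) (XT.nd (nat_lit 234) (nat_lit 912) (nat_lit 0) (XT.nd (nat_lit 78) (nat_lit 0) (nat_lit 0) (XT.lf (nat_lit 0) (nat_lit 6241646498) (nat_lit 912) (nat_lit 974130466) (nat_lit 988) (nat_lit 1788102689) (nat_lit 190) (nat_lit 5) (nat_lit 202) (nat_lit 5) (nat_lit 203) (nat_lit 5) (nat_lit 288) (nat_lit 280) (nat_lit 212)) (XT.nd (nat_lit 78)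 (nat_lit 0) (nat_lit 0) (XT.lf (nat_lit 76) (nat_lit 3169404503) (nat_lit 0) (nat_lit 4267209090) (nat_lit 988) (nat_lit 1683441664) (nat_lit 191) (nat_lit 5) (nat_lit 190) (nat_lit 5) (nat_lit 203) (nat_lit 5) (nat_lit 289) (nat_lit 280) (nat_lit 211)) (XT.lf (nat_lit 76) (nat_lit 7435585744) (nat_lit 0) (nat_lit 1209214471) (nat_lit 988) (nat_lit 595672384) (nat_lit 191) (nat_lit 5) (nat_lit 190) (nat_lit 5) (nat_lit 203) (nat_lit 5) (nat_lit 290) (nat_lit 280) (nat_lit 210)))) (XT.nd (nat_lit 78) (nat_lit 0) (nat_lit 0) (XT.lf (nat_lit 0) (nat_lit 525528998) (nat_lit 988) (nat_lit 6896672245) (nat_lit 1064) (nat_lit 1941891875) (nat_lit 178) (nat_lit 5) (nat_lit 191) (nat_lit 5) (nat_lit 192) (nat_lit 5) (nat_lit 291) (nat_lit 280) (nat_lit 209)) (XT.nd (nat_lit 78) (nat_lit 0) (nat_lit 0) (XT.lf (nat_lit 0) (nat_lit 1667681928) (nat_lit 988) (nat_lit 2626623387) (nat_lit 1064) (nat_lit 5197032371)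 (nat_lit 178) (nat_lit 5) (nat_lit 191) (nat_lit 5) (nat_lit 192) (nat_lit 5) (nat_lit 292) (nat_lit 280) (nat_lit 208)) (XT.lf (nat_lit 76) (nat_lit 1784411769) (nat_lit 0) (nat_lit 1046655328) (nat_lit 1064) (nat_lit 6791792397) (nat_lit 179) (nat_lit 5) (nat_lit 178) (nat_lit 5) (nat_lit 192) (nat_lit 5) (nat_lit 293) (nat_lit 280) (nat_lit 207))))))))
noncomputable def xc164 : XT := (XT.nd (nat_lit 1794) (nat_lit 3724) (nat_lit 0) (XT.nd (nat_lit 858) (nat_lit 2584) (nat_lit 0) (XT.nd (nat_lit 390) (nat_lit 2508) (nat_lit 0) (XT.nd (nat_lit 156) (nat_lit 912) (nat_lit 0) (XT.nd (nat_lit 78) (nat_lit 0) (nat_lit 0) (XT.lf (nat_lit 0) (nat_lit 4048794149) (nat_lit 988) (nat_lit 3421014239) (nat_lit 1064) (nat_lit 2288002285) (nat_lit 179) (nat_lit 5) (nat_lit 192) (nat_lit 5) (nat_lit 193) (nat_lit 5) (nat_lit 294) (nat_lit 280) (nat_lit 206)) (XT.lf (nat_lit 76) (nat_lit 1118316557) (nat_lit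 0) (nat_lit 4177266903) (nat_lit 1064) (nat_lit 4601515990) (nat_lit 180) (nat_lit 5) (nat_lit 179) (nat_lit 5) (nat_lit 193) (nat_lit 5) (nat_lit 295) (nat_lit 280) (nat_lit 205))) (XT.nd (nat_lit 78) (nat_lit 912) (nat_lit 0) (XT.lf (nat_lit 76) (nat_lit 5842086082) (nat_lit 0) (nat_lit 744275769) (nat_lit 1064) (nat_lit 3454070560) (nat_lit 180) (nat_lit 5) (nat_lit 179) (nat_lit 5) (nat_lit 193) (nat_lit 5) (nat_lit 296) (nat_lit 280) (nat_lit 204)) (XT.nd (nat_lit 78) (nat_lit 0) (nat_lit 0) (XT.lf (nat_lit 0) (nat_lit 479867544) (nat_lit 988) (nat_lit 7440355496) (nat_lit 1064) (nat_lit 2267772785) (nat_lit 167) (nat_lit 5) (nat_lit 180) (nat_lit 5) (nat_lit 181) (nat_lit 5) (nat_lit 297) (nat_lit 280) (nat_lit 203)) (XT.lf (nat_lit 0) (nat_lit 5355027237) (nat_lit 988) (nat_lit 3962253833) (nat_lit 1064) (nat_lit 1022069104) (nat_lit 167) (nat_lit 5) (nat_lit 180) (nat_lit 5) (nat_lit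 181) (nat_lit 5) (nat_lit 298) (nat_lit 280) (nat_lit 202))))) (XT.nd (nat_lit 234) (nat_lit 1368) (nat_lit 0) (XT.nd (nat_lit 78) (nat_lit 1064) (nat_lit 0) (XT.lf (nat_lit 0) (nat_lit 229862363) (nat_lit 1064) (nat_lit 143194505) (nat_lit 76) (nat_lit 10122950571) (nat_lit 166) (nat_lit 5) (nat_lit 180) (nat_lit 5) (nat_lit 167) (nat_lit 5) (nat_lit 299) (nat_lit 280) (nat_lit 201)) (XT.nd (nat_lit 78) (nat_lit 0) (nat_lit 0) (XT.lf (nat_lit 0) (nat_lit 1553249041) (nat_lit 1140) (nat_lit 5781447654) (nat_lit 76) (nat_lit 3320785363) (nat_lit 152) (nat_lit 5) (nat_lit 167) (nat_lit 5) (nat_lit 153) (nat_lit 5) (nat_lit 300) (nat_lit 280) (nat_lit 200)) (XT.lf (nat_lit 0) (nat_lit 2896770024) (nat_lit 1140) (nat_lit 800557762) (nat_lit 76) (nat_lit 7123052981) (nat_lit 152) (nat_lit 5) (nat_lit 167) (nat_lit 5) (nat_lit 153) (nat_lit 5) (nat_lit 301) (nat_lit 280) (nat_lit 199)))) (XT.nd (nat_lit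 78) (nat_lit 532) (nat_lit 0) (XT.lf (nat_lit 0) (nat_lit 4299753342) (nat_lit 912) (nat_lit 6596371881) (nat_lit 76) (nat_lit 93577806) (nat_lit 141) (nat_lit 5) (nat_lit 153) (nat_lit 5) (nat_lit 142) (nat_lit 5) (nat_lit 302) (nat_lit 280) (nat_lit 198)) (XT.nd (nat_lit 78) (nat_lit 532) (nat_lit 0) (XT.lf (nat_lit 0) (nat_lit 5766117110) (nat_lit 912) (nat_lit 1462903819) (nat_lit 76) (nat_lit 3934495099) (nat_lit 141) (nat_lit 5) (nat_lit 153) (nat_lit 5) (nat_lit 142) (nat_lit 5) (nat_lit 303) (nat_lit 280) (nat_lit 197)) (XT.lf (nat_lit 0) (nat_lit 3879096920) (nat_lit 532) (nat_lit 3411866658) (nat_lit 608) (nat_lit 4051193435) (nat_lit 134) (nat_lit 5) (nat_lit 141) (nat_lit 5) (nat_lit 142) (nat_lit 5) (nat_lit 304) (nat_lit 280) (nat_lit 196)))))) (XT.nd (nat_lit 468) (nat_lit 988) (nat_lit 0) (XT.nd (nat_lit 234) (nat_lit 988) (nat_lit 0) (XT.nd (nat_lit 78) (nat_lit 608) (nat_lit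 0) (XT.lf (nat_lit 0) (nat_lit 8859150076) (nat_lit 608) (nat_lit 2141200375) (nat_lit 76) (nat_lit 525925878) (nat_lit 134) (nat_lit 5) (nat_lit 142) (nat_lit 5) (nat_lit 135) (nat_lit 5) (nat_lit 305) (nat_lit 280) (nat_lit 195)) (XT.nd (nat_lit 78) (nat_lit 76) (nat_lit 0) (XT.lf (nat_lit 0) (nat_lit 3350864253) (nat_lit 532) (nat_lit 7167838705) (nat_lit 608) (nat_lit 1195932215) (nat_lit 127) (nat_lit 5) (nat_lit 134) (nat_lit 5) (nat_lit 135) (nat_lit 5) (nat_lit 306) (nat_lit 280) (nat_lit 194)) (XT.lf (nat_lit 0) (nat_lit 313507495) (nat_lit 608) (nat_lit 2881018850) (nat_lit 76) (nat_lit 8714059014) (nat_lit 126) (nat_lit 5) (nat_lit 134) (nat_lit 5) (nat_lit 127) (nat_lit 5) (nat_lit 307) (nat_lit 280) (nat_lit 193)))) (XT.nd (nat_lit 78) (nat_lit 532) (nat_lit 0) (XT.lf (nat_lit 0) (nat_lit 1859142723) (nat_lit 532) (nat_lit 9328799076) (nat_lit 76) (nat_lit 919650249) (nat_lit 120)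 (nat_lit 5) (nat_lit 127) (nat_lit 5) (nat_lit 121) (nat_lit 5) (nat_lit 308) (nat_lit 280) (nat_lit 192)) (XT.nd (nat_lit 78) (nat_lit 532) (nat_lit 0) (XT.lf (nat_lit 0) (nat_lit 3491699502) (nat_lit 532) (nat_lit 3697307527) (nat_lit 76) (nat_lit 5122385824) (nat_lit 120) (nat_lit 5) (nat_lit 127) (nat_lit 5) (nat_lit 121) (nat_lit 5) (nat_lit 309) (nat_lit 280) (nat_lit 191)) (XT.lf (nat_lit 0) (nat_lit 2124040961) (nat_lit 532) (nat_lit 3049748277) (nat_lit 608) (nat_lit 7347541069) (nat_lit 113) (nat_lit 5) (nat_lit 120) (nat_lit 5) (nat_lit 121) (nat_lit 5) (nat_lit 310) (nat_lit 280) (nat_lit 190))))) (XT.nd (nat_lit 234) (nat_lit 532) (nat_lit 0) (XT.nd (nat_lit 78) (nat_lit 456) (nat_lit 0) (XT.lf (nat_lit 0) (nat_lit 6936227065) (nat_lit 608) (nat_lit 4573609563) (nat_lit 76) (nat_lit 1226870862) (nat_lit 113) (nat_lit 5) (nat_lit 121) (nat_lit 5) (nat_lit 114) (nat_lit 5) (nat_lit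 311) (nat_lit 280) (nat_lit 189)) (XT.nd (nat_lit 78) (nat_lit 0) (nat_lit 0) (XT.lf (nat_lit 0) (nat_lit 1401596985) (nat_lit 456) (nat_lit 7374690612) (nat_lit 532) (nat_lit 4181552959) (nat_lit 107) (nat_lit 5) (nat_lit 113) (nat_lit 5) (nat_lit 114) (nat_lit 5) (nat_lit 312) (nat_lit 280) (nat_lit 188)) (XT.lf (nat_lit 0) (nat_lit 7629675330) (nat_lit 456) (nat_lit 3069497590) (nat_lit 532) (nat_lit 2485641980) (nat_lit 107) (nat_lit 5) (nat_lit 113) (nat_lit 5) (nat_lit 114) (nat_lit 5) (nat_lit 313) (nat_lit 280) (nat_lit 187)))) (XT.nd (nat_lit 78) (nat_lit 76) (nat_lit 0) (XT.lf (nat_lit 0) (nat_lit 604561766) (nat_lit 456) (nat_lit 12076078631) (nat_lit 532) (nat_lit 737966138) (nat_lit 101) (nat_lit 5) (nat_lit 107) (nat_lit 5) (nat_lit 108) (nat_lit 5) (nat_lit 314) (nat_lit 280) (nat_lit 186)) (XT.nd (nat_lit 78) (nat_lit 0) (nat_lit 0) (XT.lf (nat_lit 0) (nat_lit 1110546032) (nat_lit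 532) (nat_lit 6656261749) (nat_lit 76) (nat_lit 5890256796) (nat_lit 100) (nat_lit 5) (nat_lit 107) (nat_lit 5) (nat_lit 101) (nat_lit 5) (nat_lit 315) (nat_lit 280) (nat_lit 185)) (XT.lf (nat_lit 0) (nat_lit 2982292581) (nat_lit 532) (nat_lit 340765775) (nat_lit 76) (nat_lit 10579952430) (nat_lit 100) (nat_lit 5) (nat_lit 107) (nat_lit 5) (nat_lit 101) (nat_lit 5) (nat_lit 316) (nat_lit 280) (nat_lit 184))))))) (XT.nd (nat_lit 858) (nat_lit 1824) (nat_lit 0) (XT.nd (nat_lit 390) (nat_lit 760) (nat_lit 0) (XT.nd (nat_lit 156) (nat_lit 760) (nat_lit 0) (XT.nd (nat_lit 78) (nat_lit 0) (nat_lit 0) (XT.lf (nat_lit 0) (nat_lit 4966184070) (nat_lit 456) (nat_lit 7900340567) (nat_lit 76) (nat_lit 1288161999) (nat_lit 95) (nat_lit 5) (nat_lit 101) (nat_lit 5) (nat_lit 96) (nat_lit 5) (nat_lit 317) (nat_lit 280) (nat_lit 183)) (XT.lf (nat_lit 0) (nat_lit 7029373532) (nat_lit 456) (nat_lit 1411905072)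 (nat_lit 76) (nat_lit 5972070851) (nat_lit 95) (nat_lit 5) (nat_lit 101) (nat_lit 5) (nat_lit 96) (nat_lit 5) (nat_lit 318) (nat_lit 280) (nat_lit 182))) (XT.nd (nat_lit 78) (nat_lit 380) (nat_lit 0) (XT.lf (nat_lit 0) (nat_lit 5356824587) (nat_lit 380) (nat_lit 3833015054) (nat_lit 456) (nat_lit 5488900339) (nat_lit 90) (nat_lit 5) (nat_lit 95) (nat_lit 5) (nat_lit 96) (nat_lit 5) (nat_lit 319) (nat_lit 280) (nat_lit 181)) (XT.nd (nat_lit 78) (nat_lit 380) (nat_lit 0) (XT.lf (nat_lit 0) (nat_lit 11422449124) (nat_lit 456) (nat_lit 2622207964) (nat_lit 76) (nat_lit 907243651) (nat_lit 90) (nat_lit 5) (nat_lit 96) (nat_lit 5) (nat_lit 91) (nat_lit 5) (nat_lit 320) (nat_lit 280) (nat_lit 180)) (XT.lf (nat_lit 0) (nat_lit 4305943122) (nat_lit 380) (nat_lit 9480047102) (nat_lit 456) (nat_lit 1445375071) (nat_lit 85) (nat_lit 5) (nat_lit 90) (nat_lit 5) (nat_lit 91) (nat_lit 5) (nat_lit 321) (nat_lit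 280) (nat_lit 179))))) (XT.nd (nat_lit 234) (nat_lit 304) (nat_lit 0) (XT.nd (nat_lit 78) (nat_lit 380) (nat_lit 0) (XT.lf (nat_lit 0) (nat_lit 698988067) (nat_lit 456) (nat_lit 4048499921) (nat_lit 76) (nat_lit 10771206138) (nat_lit 84) (nat_lit 5) (nat_lit 90) (nat_lit 5) (nat_lit 85) (nat_lit 5) (nat_lit 322) (nat_lit 280) (nat_lit 178)) (XT.nd (nat_lit 78) (nat_lit 0) (nat_lit 0) (XT.lf (nat_lit 0) (nat_lit 2894838544) (nat_lit 456) (nat_lit 12753476668) (nat_lit 76) (nat_lit 165437313) (nat_lit 79) (nat_lit 5) (nat_lit 85) (nat_lit 5) (nat_lit 80) (nat_lit 5) (nat_lit 323) (nat_lit 280) (nat_lit 177)) (XT.lf (nat_lit 0) (nat_lit 5230233680) (nat_lit 456) (nat_lit 5717013451) (nat_lit 76) (nat_lit 5168229969) (nat_lit 79) (nat_lit 5) (nat_lit 85) (nat_lit 5) (nat_lit 80) (nat_lit 5) (nat_lit 324) (nat_lit 280) (nat_lit 176)))) (XT.nd (nat_lit 78) (nat_lit 0) (nat_lit 0) (XT.lf (nat_lit 0)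 (nat_lit 1542712768) (nat_lit 304) (nat_lit 6093610923) (nat_lit 380) (nat_lit 8789934515) (nat_lit 75) (nat_lit 5) (nat_lit 79) (nat_lit 5) (nat_lit 80) (nat_lit 5) (nat_lit 325) (nat_lit 280) (nat_lit 175)) (XT.nd (nat_lit 78) (nat_lit 0) (nat_lit 0) (XT.lf (nat_lit 0) (nat_lit 9119665003) (nat_lit 304) (nat_lit 1038708331) (nat_lit 380) (nat_lit 6586699195) (nat_lit 75) (nat_lit 5) (nat_lit 79) (nat_lit 5) (nat_lit 80) (nat_lit 5) (nat_lit 326) (nat_lit 280) (nat_lit 174)) (XT.lf (nat_lit 0) (nat_lit 12782565515) (nat_lit 380) (nat_lit 207224335) (nat_lit 76) (nat_lit 4082889417) (nat_lit 75) (nat_lit 5) (nat_lit 80) (nat_lit 5) (nat_lit 76) (nat_lit 5) (nat_lit 327) (nat_lit 280) (nat_lit 173)))))) (XT.nd (nat_lit 468) (nat_lit 836) (nat_lit 0) (XT.nd (nat_lit 234) (nat_lit 304) (nat_lit 0) (XT.nd (nat_lit 78) (nat_lit 380) (nat_lit 0) (XT.lf (nat_lit 0) (nat_lit 7553494620) (nat_lit 304)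 (nat_lit 8001694718) (nat_lit 380) (nat_lit 1852855461) (nat_lit 71) (nat_lit 5) (nat_lit 75) (nat_lit 5) (nat_lit 76) (nat_lit 5) (nat_lit 328) (nat_lit 280) (nat_lit 172)) (XT.nd (nat_lit 78) (nat_lit 304) (nat_lit 0) (XT.lf (nat_lit 0) (nat_lit 633688114) (nat_lit 380) (nat_lit 2225701742) (nat_lit 76) (nat_lit 14894242398) (nat_lit 70) (nat_lit 5) (nat_lit 75) (nat_lit 5) (nat_lit 71) (nat_lit 5) (nat_lit 329) (nat_lit 280) (nat_lit 171)) (XT.lf (nat_lit 0) (nat_lit 3223840363) (nat_lit 380) (nat_lit 12423582969) (nat_lit 76) (nat_lit 2459645978) (nat_lit 66) (nat_lit 5) (nat_lit 71) (nat_lit 5) (nat_lit 67) (nat_lit 5) (nat_lit 330) (nat_lit 280) (nat_lit 170)))) (XT.nd (nat_lit 78) (nat_lit 304) (nat_lit 0) (XT.lf (nat_lit 0) (nat_lit 5930145258) (nat_lit 380) (nat_lit 4640318859) (nat_lit 76) (nat_lit 7899511259) (nat_lit 66) (nat_lit 5) (nat_lit 71) (nat_lit 5) (nat_lit 67) (nat_lit 5)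 (nat_lit 331) (nat_lit 280) (nat_lit 169)) (XT.nd (nat_lit 78) (nat_lit 0) (nat_lit 0) (XT.lf (nat_lit 0) (nat_lit 3426881855) (nat_lit 304) (nat_lit 5311504106) (nat_lit 380) (nat_lit 10104779037) (nat_lit 62) (nat_lit 5) (nat_lit 66) (nat_lit 5) (nat_lit 67) (nat_lit 5) (nat_lit 332) (nat_lit 280) (nat_lit 168)) (XT.lf (nat_lit 0) (nat_lit 11667170491) (nat_lit 380) (nat_lit 7413007450) (nat_lit 76) (nat_lit 146301699) (nat_lit 62) (nat_lit 5) (nat_lit 67) (nat_lit 5) (nat_lit 63) (nat_lit 5) (nat_lit 333) (nat_lit 280) (nat_lit 167))))) (XT.nd (nat_lit 234) (nat_lit 532) (nat_lit 0) (XT.nd (nat_lit 78) (nat_lit 76) (nat_lit 0) (XT.lf (nat_lit 0) (nat_lit 776811447) (nat_lit 228) (nat_lit 13955377094) (nat_lit 304) (nat_lit 4887671780) (nat_lit 59) (nat_lit 5) (nat_lit 62) (nat_lit 5) (nat_lit 63) (nat_lit 5) (nat_lit 334) (nat_lit 280) (nat_lit 166)) (XT.nd (nat_lit 78) (nat_lit 76) (nat_lit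 0) (XT.lf (nat_lit 0) (nat_lit 9348318071) (nat_lit 228) (nat_lit 8604196450) (nat_lit 304) (nat_lit 2070644359) (nat_lit 59) (nat_lit 5) (nat_lit 62) (nat_lit 5) (nat_lit 63) (nat_lit 5) (nat_lit 335) (nat_lit 280) (nat_lit 165)) (XT.lf (nat_lit 0) (nat_lit 803388739) (nat_lit 304) (nat_lit 2285315672) (nat_lit 76) (nat_lit 17349967313) (nat_lit 58) (nat_lit 5) (nat_lit 62) (nat_lit 5) (nat_lit 59) (nat_lit 5) (nat_lit 336) (nat_lit 280) (nat_lit 164)))) (XT.nd (nat_lit 78) (nat_lit 228) (nat_lit 0) (XT.lf (nat_lit 0) (nat_lit 3798717507) (nat_lit 380) (nat_lit 14444321125) (nat_lit 76) (nat_lit 2620711224) (nat_lit 54) (nat_lit 5) (nat_lit 59) (nat_lit 5) (nat_lit 55) (nat_lit 5) (nat_lit 337) (nat_lit 280) (nat_lit 163)) (XT.nd (nat_lit 78) (nat_lit 228) (nat_lit 0) (XT.lf (nat_lit 0) (nat_lit 6926962584) (nat_lit 380) (nat_lit 5914966458) (nat_lit 76) (nat_lit 8458374864) (nat_lit 54) (nat_lit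 5) (nat_lit 59) (nat_lit 5) (nat_lit 55) (nat_lit 5) (nat_lit 338) (nat_lit 280) (nat_lit 162)) (XT.lf (nat_lit 0) (nat_lit 2912113190) (nat_lit 228) (nat_lit 7254419807) (nat_lit 304) (nat_lit 11582912062) (nat_lit 51) (nat_lit 5) (nat_lit 54) (nat_lit 5) (nat_lit 55) (nat_lit 5) (nat_lit 339) (nat_lit 280) (nat_lit 161))))))))
noncomputable def xc165 : XT := (XT.nd (nat_lit 1794) (nat_lit 1140) (nat_lit 0) (XT.nd (nat_lit 858) (nat_lit 760) (nat_lit 0) (XT.nd (nat_lit 390) (nat_lit 456) (nat_lit 0) (XT.nd (nat_lit 156) (nat_lit 532) (nat_lit 0) (XT.nd (nat_lit 78) (nat_lit 0) (nat_lit 0) (XT.lf (nat_lit 0) (nat_lit 12110421644) (nat_lit 228) (nat_lit 1442247078) (nat_lit 304) (nat_lit 8657924769) (nat_lit 51) (nat_lit 5) (nat_lit 54) (nat_lit 5) (nat_lit 55) (nat_lit 5) (nat_lit 340) (nat_lit 280) (nat_lit 160)) (XT.lf (nat_lit 0) (nat_lit 17073979312) (nat_lit 304) (nat_lit 1159255679) (nat_lit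 76) (nat_lit 4451347632) (nat_lit 51) (nat_lit 5) (nat_lit 55) (nat_lit 5) (nat_lit 52) (nat_lit 5) (nat_lit 341) (nat_lit 280) (nat_lit 159))) (XT.nd (nat_lit 78) (nat_lit 304) (nat_lit 0) (XT.lf (nat_lit 0) (nat_lit 8181000396) (nat_lit 228) (nat_lit 12603051502) (nat_lit 304) (nat_lit 2386259414) (nat_lit 48) (nat_lit 5) (nat_lit 51) (nat_lit 5) (nat_lit 52) (nat_lit 5) (nat_lit 342) (nat_lit 280) (nat_lit 158)) (XT.nd (nat_lit 78) (nat_lit 228) (nat_lit 0) (XT.lf (nat_lit 0) (nat_lit 918638841) (nat_lit 304) (nat_lit 5868450785) (nat_lit 76) (nat_lit 16883203471) (nat_lit 47) (nat_lit 5) (nat_lit 51) (nat_lit 5) (nat_lit 48) (nat_lit 5) (nat_lit 343) (nat_lit 280) (nat_lit 157)) (XT.lf (nat_lit 0) (nat_lit 3557938019) (nat_lit 228) (nat_lit 741513355) (nat_lit 304) (nat_lit 19884384722) (nat_lit 44) (nat_lit 5) (nat_lit 47) (nat_lit 5) (nat_lit 48) (nat_lit 5) (nat_lit 344) (nat_lit 280)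 (nat_lit 156))))) (XT.nd (nat_lit 234) (nat_lit 228) (nat_lit 0) (XT.nd (nat_lit 78) (nat_lit 228) (nat_lit 0) (XT.lf (nat_lit 0) (nat_lit 7884892849) (nat_lit 304) (nat_lit 11390919664) (nat_lit 76) (nat_lit 5433888786) (nat_lit 44) (nat_lit 5) (nat_lit 48) (nat_lit 5) (nat_lit 45) (nat_lit 5) (nat_lit 345) (nat_lit 280) (nat_lit 155)) (XT.nd (nat_lit 78) (nat_lit 228) (nat_lit 0) (XT.lf (nat_lit 0) (nat_lit 11576140913) (nat_lit 304) (nat_lit 1899837507) (nat_lit 76) (nat_lit 11775428437) (nat_lit 44) (nat_lit 5) (nat_lit 48) (nat_lit 5) (nat_lit 45) (nat_lit 5) (nat_lit 346) (nat_lit 280) (nat_lit 154)) (XT.lf (nat_lit 0) (nat_lit 8019253980) (nat_lit 228) (nat_lit 7427125043) (nat_lit 304) (nat_lit 10360948340) (nat_lit 41) (nat_lit 5) (nat_lit 44) (nat_lit 5) (nat_lit 45) (nat_lit 5) (nat_lit 347) (nat_lit 280) (nat_lit 153)))) (XT.nd (nat_lit 78) (nat_lit 228) (nat_lit 0) (XT.lf (nat_lit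 0) (nat_lit 18261784843) (nat_lit 228) (nat_lit 1181422265) (nat_lit 304) (nat_lit 6936414921) (nat_lit 41) (nat_lit 5) (nat_lit 44) (nat_lit 5) (nat_lit 45) (nat_lit 5) (nat_lit 348) (nat_lit 280) (nat_lit 152)) (XT.nd (nat_lit 78) (nat_lit 76) (nat_lit 0) (XT.lf (nat_lit 0) (nat_lit 1814511081) (nat_lit 152) (nat_lit 21804864037) (nat_lit 228) (nat_lit 3347938072) (nat_lit 39) (nat_lit 5) (nat_lit 41) (nat_lit 5) (nat_lit 42) (nat_lit 5) (nat_lit 349) (nat_lit 280) (nat_lit 151)) (XT.lf (nat_lit 0) (nat_lit 427423761) (nat_lit 228) (nat_lit 15387766601) (nat_lit 76) (nat_lit 11754773649) (nat_lit 38) (nat_lit 5) (nat_lit 41) (nat_lit 5) (nat_lit 39) (nat_lit 5) (nat_lit 350) (nat_lit 280) (nat_lit 150)))))) (XT.nd (nat_lit 468) (nat_lit 380) (nat_lit 0) (XT.nd (nat_lit 234) (nat_lit 152) (nat_lit 0) (XT.nd (nat_lit 78) (nat_lit 228) (nat_lit 0) (XT.lf (nat_lit 0) (nat_lit 4240544624) (nat_lit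 228) (nat_lit 5375522418) (nat_lit 76) (nat_lit 18573889025) (nat_lit 38) (nat_lit 5) (nat_lit 41) (nat_lit 5) (nat_lit 39) (nat_lit 5) (nat_lit 351) (nat_lit 280) (nat_lit 149)) (XT.nd (nat_lit 78) (nat_lit 0) (nat_lit 0) (XT.lf (nat_lit 0) (nat_lit 5022875831) (nat_lit 228) (nat_lit 3185493822) (nat_lit 304) (nat_lit 20618978428) (nat_lit 35) (nat_lit 5) (nat_lit 38) (nat_lit 5) (nat_lit 39) (nat_lit 5) (nat_lit 352) (nat_lit 280) (nat_lit 148)) (XT.lf (nat_lit 0) (nat_lit 12375199784) (nat_lit 304) (nat_lit 13684711845) (nat_lit 76) (nat_lit 3421560352) (nat_lit 35) (nat_lit 5) (nat_lit 39) (nat_lit 5) (nat_lit 36) (nat_lit 5) (nat_lit 353) (nat_lit 280) (nat_lit 147)))) (XT.nd (nat_lit 78) (nat_lit 152) (nat_lit 0) (XT.lf (nat_lit 0) (nat_lit 16690906925) (nat_lit 304) (nat_lit 3304851421) (nat_lit 76) (nat_lit 10158754057) (nat_lit 35) (nat_lit 5) (nat_lit 39) (nat_lit 5) (nat_lit 36) (nat_lit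 5) (nat_lit 354) (nat_lit 280) (nat_lit 146)) (XT.nd (nat_lit 78) (nat_lit 0) (nat_lit 0) (XT.lf (nat_lit 0) (nat_lit 7521572691) (nat_lit 152) (nat_lit 13679370433) (nat_lit 228) (nat_lit 9644863884) (nat_lit 33) (nat_lit 5) (nat_lit 35) (nat_lit 5) (nat_lit 36) (nat_lit 5) (nat_lit 355) (nat_lit 280) (nat_lit 145)) (XT.lf (nat_lit 0) (nat_lit 18729044418) (nat_lit 152) (nat_lit 7143270754) (nat_lit 228) (nat_lit 5684752689) (nat_lit 33) (nat_lit 5) (nat_lit 35) (nat_lit 5) (nat_lit 36) (nat_lit 5) (nat_lit 356) (nat_lit 280) (nat_lit 144))))) (XT.nd (nat_lit 234) (nat_lit 152) (nat_lit 0) (XT.nd (nat_lit 78) (nat_lit 228) (nat_lit 0) (XT.lf (nat_lit 0) (nat_lit 30261583673) (nat_lit 152) (nat_lit 415120673) (nat_lit 228) (nat_lit 1613184120) (nat_lit 33) (nat_lit 5) (nat_lit 35) (nat_lit 5) (nat_lit 36) (nat_lit 5) (nat_lit 357) (nat_lit 280) (nat_lit 143)) (XT.nd (nat_lit 78) (nat_lit 0) (nat_lit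 0) (XT.lf (nat_lit 0) (nat_lit 2675714669) (nat_lit 228) (nat_lit 23865288680) (nat_lit 76) (nat_lit 6498587749) (nat_lit 30) (nat_lit 5) (nat_lit 33) (nat_lit 5) (nat_lit 31) (nat_lit 5) (nat_lit 358) (nat_lit 280) (nat_lit 142)) (XT.lf (nat_lit 0) (nat_lit 7078719930) (nat_lit 228) (nat_lit 13087936295) (nat_lit 76) (nat_lit 13644121041) (nat_lit 30) (nat_lit 5) (nat_lit 33) (nat_lit 5) (nat_lit 31) (nat_lit 5) (nat_lit 359) (nat_lit 280) (nat_lit 141)))) (XT.nd (nat_lit 78) (nat_lit 152) (nat_lit 0) (XT.lf (nat_lit 0) (nat_lit 11607085361) (nat_lit 228) (nat_lit 1997988615) (nat_lit 76) (nat_lit 21000234235) (nat_lit 30) (nat_lit 5) (nat_lit 33) (nat_lit 5) (nat_lit 31) (nat_lit 5) (nat_lit 360) (nat_lit 280) (nat_lit 140)) (XT.nd (nat_lit 78) (nat_lit 0) (nat_lit 0) (XT.lf (nat_lit 0) (nat_lit 9601606532) (nat_lit 152) (nat_lit 6755457770) (nat_lit 228) (nat_lit 19064044985) (nat_lit 28)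 (nat_lit 5) (nat_lit 30) (nat_lit 5) (nat_lit 31) (nat_lit 5) (nat_lit 361) (nat_lit 280) (nat_lit 139)) (XT.lf (nat_lit 0) (nat_lit 21266318575) (nat_lit 228) (nat_lit 14684186707) (nat_lit 76) (nat_lit 310382707) (nat_lit 28) (nat_lit 5) (nat_lit 31) (nat_lit 5) (nat_lit 29) (nat_lit 5) (nat_lit 362) (nat_lit 280) (nat_lit 138))))))) (XT.nd (nat_lit 936) (nat_lit 532) (nat_lit 0) (XT.nd (nat_lit 468) (nat_lit 228) (nat_lit 0) (XT.nd (nat_lit 234) (nat_lit 228) (nat_lit 0) (XT.nd (nat_lit 78) (nat_lit 152) (nat_lit 0) (XT.lf (nat_lit 0) (nat_lit 26383444978) (nat_lit 228) (nat_lit 3291865612) (nat_lit 76) (nat_lit 7448738300) (nat_lit 28) (nat_lit 5) (nat_lit 31) (nat_lit 5) (nat_lit 29) (nat_lit 5) (nat_lit 363) (nat_lit 280) (nat_lit 137)) (XT.nd (nat_lit 78) (nat_lit 0) (nat_lit 0) (XT.lf (nat_lit 0) (nat_lit 8600172927) (nat_lit 152) (nat_lit 23130474390) (nat_lit 228) (nat_lit 6280166913)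 (nat_lit 26) (nat_lit 5) (nat_lit 28) (nat_lit 5) (nat_lit 29) (nat_lit 5) (nat_lit 364) (nat_lit 280) (nat_lit 136)) (XT.lf (nat_lit 0) (nat_lit 20906676891) (nat_lit 152) (nat_lit 16358806178) (nat_lit 228) (nat_lit 1657889232) (nat_lit 26) (nat_lit 5) (nat_lit 28) (nat_lit 5) (nat_lit 29) (nat_lit 5) (nat_lit 365) (nat_lit 280) (nat_lit 135)))) (XT.nd (nat_lit 78) (nat_lit 152) (nat_lit 0) (XT.lf (nat_lit 0) (nat_lit 3036592481) (nat_lit 228) (nat_lit 6320374237) (nat_lit 76) (nat_lit 30505628844) (nat_lit 25) (nat_lit 5) (nat_lit 28) (nat_lit 5) (nat_lit 26) (nat_lit 5) (nat_lit 366) (nat_lit 280) (nat_lit 134)) (XT.nd (nat_lit 78) (nat_lit 0) (nat_lit 0) (XT.lf (nat_lit 0) (nat_lit 5814550061) (nat_lit 152) (nat_lit 2074189390) (nat_lit 228) (nat_lit 32939264801) (nat_lit 23) (nat_lit 5) (nat_lit 25) (nat_lit 5) (nat_lit 26) (nat_lit 5) (nat_lit 367) (nat_lit 280) (nat_lit 133)) (XT.lf (nat_lit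 0) (nat_lit 12997378106) (nat_lit 228) (nat_lit 23439561268) (nat_lit 76) (nat_lit 5382113600) (nat_lit 23) (nat_lit 5) (nat_lit 26) (nat_lit 5) (nat_lit 24) (nat_lit 5) (nat_lit 368) (nat_lit 280) (nat_lit 132))))) (XT.nd (nat_lit 234) (nat_lit 76) (nat_lit 0) (XT.nd (nat_lit 78) (nat_lit 152) (nat_lit 0) (XT.lf (nat_lit 0) (nat_lit 18274282005) (nat_lit 228) (nat_lit 11548098848) (nat_lit 76) (nat_lit 13017007545) (nat_lit 23) (nat_lit 5) (nat_lit 26) (nat_lit 5) (nat_lit 24) (nat_lit 5) (nat_lit 369) (nat_lit 280) (nat_lit 131)) (XT.nd (nat_lit 78) (nat_lit 0) (nat_lit 0) (XT.lf (nat_lit 0) (nat_lit 705019512) (nat_lit 152) (nat_lit 23005881226) (nat_lit 228) (nat_lit 20179396185) (nat_lit 21) (nat_lit 5) (nat_lit 23) (nat_lit 5) (nat_lit 24) (nat_lit 5) (nat_lit 370) (nat_lit 280) (nat_lit 130)) (XT.lf (nat_lit 0) (nat_lit 13553697446) (nat_lit 152) (nat_lit 15868236575) (nat_lit 228) (nat_lit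 15547464315) (nat_lit 21) (nat_lit 5) (nat_lit 23) (nat_lit 5) (nat_lit 24) (nat_lit 5) (nat_lit 371) (nat_lit 280) (nat_lit 129)))) (XT.nd (nat_lit 78) (nat_lit 76) (nat_lit 0) (XT.lf (nat_lit 0) (nat_lit 26779332145) (nat_lit 152) (nat_lit 8519823278) (nat_lit 228) (nat_lit 10781876621) (nat_lit 21) (nat_lit 5) (nat_lit 23) (nat_lit 5) (nat_lit 24) (nat_lit 5) (nat_lit 372) (nat_lit 280) (nat_lit 128)) (XT.nd (nat_lit 78) (nat_lit 76) (nat_lit 0) (XT.lf (nat_lit 0) (nat_lit 40393479986) (nat_lit 152) (nat_lit 954220392) (nat_lit 228) (nat_lit 5878468997) (nat_lit 21) (nat_lit 5) (nat_lit 23) (nat_lit 5) (nat_lit 24) (nat_lit 5) (nat_lit 373) (nat_lit 280) (nat_lit 127)) (XT.lf (nat_lit 0) (nat_lit 6054670358) (nat_lit 76) (nat_lit 41642088821) (nat_lit 152) (nat_lit 705334604) (nat_lit 20) (nat_lit 5) (nat_lit 21) (nat_lit 5) (nat_lit 22) (nat_lit 4) (nat_lit 374) (nat_lit 280) (nat_lit 126))))))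 (XT.nd (nat_lit 468) (nat_lit 304) (nat_lit 0) (XT.nd (nat_lit 234) (nat_lit 152) (nat_lit 0) (XT.nd (nat_lit 78) (nat_lit 0) (nat_lit 0) (XT.lf (nat_lit 0) (nat_lit 4607044615) (nat_lit 152) (nat_lit 30205238177) (nat_lit 76) (nat_lit 14797456508) (nat_lit 19) (nat_lit 5) (nat_lit 21) (nat_lit 5) (nat_lit 20) (nat_lit 5) (nat_lit 375) (nat_lit 280) (nat_lit 125)) (XT.nd (nat_lit 78) (nat_lit 0) (nat_lit 0) (XT.lf (nat_lit 0) (nat_lit 10059894825) (nat_lit 152) (nat_lit 17713689896) (nat_lit 76) (nat_lit 23079965955) (nat_lit 19) (nat_lit 5) (nat_lit 21) (nat_lit 5) (nat_lit 20) (nat_lit 5) (nat_lit 376) (nat_lit 280) (nat_lit 124)) (XT.lf (nat_lit 0) (nat_lit 15671744273) (nat_lit 152) (nat_lit 4855083529) (nat_lit 76) (nat_lit 31607990338) (nat_lit 19) (nat_lit 5) (nat_lit 21) (nat_lit 5) (nat_lit 20) (nat_lit 5) (nat_lit 377) (nat_lit 280) (nat_lit 123)))) (XT.nd (nat_lit 78) (nat_lit 0) (nat_lit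 0) (XT.lf (nat_lit 0) (nat_lit 8548631184) (nat_lit 152) (nat_lit 12981040003) (nat_lit 228) (nat_lit 31922524819) (nat_lit 17) (nat_lit 5) (nat_lit 19) (nat_lit 5) (nat_lit 20) (nat_lit 5) (nat_lit 378) (nat_lit 280) (nat_lit 122)) (XT.nd (nat_lit 78) (nat_lit 0) (nat_lit 0) (XT.lf (nat_lit 0) (nat_lit 22446590543) (nat_lit 152) (nat_lit 5161378141) (nat_lit 228) (nat_lit 27199791459) (nat_lit 17) (nat_lit 5) (nat_lit 19) (nat_lit 5) (nat_lit 20) (nat_lit 5) (nat_lit 379) (nat_lit 280) (nat_lit 121)) (XT.lf (nat_lit 0) (nat_lit 33892129139) (nat_lit 228) (nat_lit 19477590377) (nat_lit 76) (nat_lit 2833570072) (nat_lit 17) (nat_lit 5) (nat_lit 20) (nat_lit 5) (nat_lit 18) (nat_lit 4) (nat_lit 380) (nat_lit 280) (nat_lit 120))))) (XT.nd (nat_lit 234) (nat_lit 228) (nat_lit 0) (XT.nd (nat_lit 78) (nat_lit 76) (nat_lit 0) (XT.lf (nat_lit 0) (nat_lit 40411748192) (nat_lit 228) (nat_lit 6265674283)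 (nat_lit 76) (nat_lit 10961858122) (nat_lit 17) (nat_lit 5) (nat_lit 20) (nat_lit 5) (nat_lit 18) (nat_lit 4) (nat_lit 381) (nat_lit 280) (nat_lit 119)) (XT.nd (nat_lit 78) (nat_lit 0) (nat_lit 0) (XT.lf (nat_lit 0) (nat_lit 7481732954) (nat_lit 76) (nat_lit 39713094314) (nat_lit 152) (nat_lit 11921491514) (nat_lit 16) (nat_lit 5) (nat_lit 17) (nat_lit 5) (nat_lit 18) (nat_lit 4) (nat_lit 382) (nat_lit 280) (nat_lit 118)) (XT.lf (nat_lit 0) (nat_lit 21763207968) (nat_lit 76) (nat_lit 32477466806) (nat_lit 152) (nat_lit 6395218537) (nat_lit 16) (nat_lit 5) (nat_lit 17) (nat_lit 5) (nat_lit 18) (nat_lit 4) (nat_lit 383) (nat_lit 280) (nat_lit 117)))) (XT.nd (nat_lit 78) (nat_lit 228) (nat_lit 0) (XT.lf (nat_lit 0) (nat_lit 36466530511) (nat_lit 76) (nat_lit 25027488585) (nat_lit 152) (nat_lit 707155720) (nat_lit 16) (nat_lit 5) (nat_lit 17) (nat_lit 5) (nat_lit 18) (nat_lit 4) (nat_lit 384) (nat_lit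 280) (nat_lit 116)) (XT.nd (nat_lit 78) (nat_lit 152) (nat_lit 0) (XT.lf (nat_lit 0) (nat_lit 5047217564) (nat_lit 152) (nat_lit 12258465395) (nat_lit 76) (nat_lit 46506363583) (nat_lit 15) (nat_lit 5) (nat_lit 17) (nat_lit 5) (nat_lit 16) (nat_lit 5) (nat_lit 385) (nat_lit 280) (nat_lit 115)) (XT.lf (nat_lit 0) (nat_lit 1640718997) (nat_lit 152) (nat_lit 9331366230) (nat_lit 228) (nat_lit 54498589949) (nat_lit 13) (nat_lit 5) (nat_lit 15) (nat_lit 5) (nat_lit 16) (nat_lit 5) (nat_lit 386) (nat_lit 280) (nat_lit 114))))))))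
noncomputable def xc166 : XT := (XT.nd (nat_lit 33696) (nat_lit 0) (nat_lit 5928) (XT.nd (nat_lit 32760) (nat_lit 0) (nat_lit 12540) (XT.nd (nat_lit 390) (nat_lit 0) (nat_lit 0) (XT.nd (nat_lit 156) (nat_lit 76) (nat_lit 0) (XT.nd (nat_lit 78) (nat_lit 0) (nat_lit 0) (XT.lf (nat_lit 0) (nat_lit 16201932479) (nat_lit 152) (nat_lit 992905339) (nat_lit 228) (nat_lit 49980623691) (nat_lit 13) (nat_lit 5) (nat_lit 15) (nat_lit 5) (nat_lit 16) (nat_lit 5) (nat_lit 387) (nat_lit 280) (nat_lit 113)) (XT.lf (nat_lit 0) (nat_lit 23673722134) (nat_lit 228) (nat_lit 37810560124) (nat_lit 76) (nat_lit 7445028615) (nat_lit 13) (nat_lit 5) (nat_lit 16) (nat_lit 5) (nat_lit 14) (nat_lit 4) (nat_lit 388) (nat_lit 280) (nat_lit 112))) (XT.nd (nat_lit 78) (nat_lit 76) (nat_lit 0) (XT.lf (nat_lit 0) (nat_lit 30353342117) (nat_lit 228) (nat_lit 24268490615) (nat_lit 76) (nat_lit 16113754743) (nat_lit 13) (nat_lit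 5) (nat_lit 16) (nat_lit 5) (nat_lit 14) (nat_lit 4) (nat_lit 389) (nat_lit 280) (nat_lit 111)) (XT.nd (nat_lit 78) (nat_lit 76) (nat_lit 0) (XT.lf (nat_lit 0) (nat_lit 37229989913) (nat_lit 228) (nat_lit 10325943216) (nat_lit 76) (nat_lit 25040222819) (nat_lit 13) (nat_lit 5) (nat_lit 16) (nat_lit 5) (nat_lit 14) (nat_lit 4) (nat_lit 390) (nat_lit 280) (nat_lit 110)) (XT.lf (nat_lit 0) (nat_lit 4109455154) (nat_lit 76) (nat_lit 40239721687) (nat_lit 152) (nat_lit 30162280112) (nat_lit 12) (nat_lit 5) (nat_lit 13) (nat_lit 5) (nat_lit 14) (nat_lit 4) (nat_lit 391) (nat_lit 280) (nat_lit 109))))) (XT.nd (nat_lit 32136) (nat_lit 0) (nat_lit 13376) (XT.nd (nat_lit 31980) (nat_lit 0) (nat_lit 13300) (XT.lf (nat_lit 0) (nat_lit 19184026521) (nat_lit 76) (nat_lit 32598963319) (nat_lit 152) (nat_lit 24698198224) (nat_lit 12) (nat_lit 5) (nat_lit 13) (nat_lit 5) (nat_lit 14) (nat_lit 4) (nat_lit 392)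 (nat_lit 280) (nat_lit 108)) (XT.nd (nat_lit 78) (nat_lit 988) (nat_lit 0) (XT.lf (nat_lit 0) (nat_lit 1996708253) (nat_lit 0) (nat_lit 1996708253) (nat_lit 836) (nat_lit 195057414) (nat_lit 200) (nat_lit 5) (nat_lit 200) (nat_lit 3) (nat_lit 211) (nat_lit 3) (nat_lit 281) (nat_lit 281) (nat_lit 218)) (XT.lf (nat_lit 0) (nat_lit 594642404) (nat_lit 988) (nat_lit 789786813) (nat_lit 988) (nat_lit 7086426812) (nat_lit 187) (nat_lit 3) (nat_lit 200) (nat_lit 3) (nat_lit 200) (nat_lit 5) (nat_lit 282) (nat_lit 281) (nat_lit 217)))) (XT.nd (nat_lit 78) (nat_lit 0) (nat_lit 0) (XT.lf (nat_lit 0) (nat_lit 1604077608) (nat_lit 912) (nat_lit 5635294899) (nat_lit 988) (nat_lit 1328096438) (nat_lit 188) (nat_lit 5) (nat_lit 200) (nat_lit 5) (nat_lit 201) (nat_lit 5) (nat_lit 283) (nat_lit 281) (nat_lit 216)) (XT.nd (nat_lit 78) (nat_lit 0) (nat_lit 0) (XT.lf (nat_lit 0) (nat_lit 2628298313) (nat_lit 912)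 (nat_lit 1919534915) (nat_lit 988) (nat_lit 4119701888) (nat_lit 188) (nat_lit 5) (nat_lit 200) (nat_lit 5) (nat_lit 201) (nat_lit 5) (nat_lit 284) (nat_lit 281) (nat_lit 215)) (XT.lf (nat_lit 76) (nat_lit 1924879262) (nat_lit 0) (nat_lit 1740695672) (nat_lit 988) (nat_lit 5105645784) (nat_lit 189) (nat_lit 5) (nat_lit 188) (nat_lit 5) (nat_lit 201) (nat_lit 5) (nat_lit 285) (nat_lit 281) (nat_lit 214)))))) (XT.nd (nat_lit 468) (nat_lit 0) (nat_lit 76) (XT.nd (nat_lit 234) (nat_lit 912) (nat_lit 0) (XT.nd (nat_lit 78) (nat_lit 0) (nat_lit 0) (XT.lf (nat_lit 0) (nat_lit 4729437398) (nat_lit 912) (nat_lit 2986183471) (nat_lit 988) (nat_lit 1162616771) (nat_lit 189) (nat_lit 5) (nat_lit 201) (nat_lit 5) (nat_lit 202) (nat_lit 5) (nat_lit 286) (nat_lit 281) (nat_lit 213)) (XT.nd (nat_lit 78) (nat_lit 0) (nat_lit 0) (XT.lf (nat_lit 76) (nat_lit 970640864) (nat_lit 0) (nat_lit 4846995487) (nat_lit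 988) (nat_lit 3171138411) (nat_lit 190) (nat_lit 5) (nat_lit 189) (nat_lit 5) (nat_lit 202) (nat_lit 5) (nat_lit 287) (nat_lit 281) (nat_lit 212)) (XT.lf (nat_lit 76) (nat_lit 5086743642) (nat_lit 0) (nat_lit 1848543929) (nat_lit 988) (nat_lit 2167516149) (nat_lit 190) (nat_lit 5) (nat_lit 189) (nat_lit 5) (nat_lit 202) (nat_lit 5) (nat_lit 288) (nat_lit 281) (nat_lit 211)))) (XT.nd (nat_lit 78) (nat_lit 988) (nat_lit 0) (XT.lf (nat_lit 76) (nat_lit 74403073) (nat_lit 0) (nat_lit 7992440380) (nat_lit 988) (nat_lit 1154076427) (nat_lit 191) (nat_lit 5) (nat_lit 190) (nat_lit 5) (nat_lit 203) (nat_lit 5) (nat_lit 289) (nat_lit 281) (nat_lit 210)) (XT.nd (nat_lit 78) (nat_lit 988) (nat_lit 0) (XT.lf (nat_lit 76) (nat_lit 4330240205) (nat_lit 0) (nat_lit 4929262445) (nat_lit 988) (nat_lit 82337501) (nat_lit 191) (nat_lit 5) (nat_lit 190) (nat_lit 5) (nat_lit 203) (nat_lit 5) (nat_lit 290) (nat_lit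 281) (nat_lit 209)) (XT.lf (nat_lit 0) (nat_lit 970642106) (nat_lit 988) (nat_lit 783529820) (nat_lit 1064) (nat_lit 7712921829) (nat_lit 177) (nat_lit 5) (nat_lit 190) (nat_lit 5) (nat_lit 191) (nat_lit 5) (nat_lit 291) (nat_lit 281) (nat_lit 208))))) (XT.nd (nat_lit 234) (nat_lit 0) (nat_lit 76) (XT.nd (nat_lit 78) (nat_lit 0) (nat_lit 0) (XT.lf (nat_lit 0) (nat_lit 2073305582) (nat_lit 988) (nat_lit 5990266368) (nat_lit 1064) (nat_lit 1531985014) (nat_lit 178) (nat_lit 5) (nat_lit 191) (nat_lit 5) (nat_lit 192) (nat_lit 5) (nat_lit 292) (nat_lit 281) (nat_lit 207)) (XT.nd (nat_lit 78) (nat_lit 0) (nat_lit 0) (XT.lf (nat_lit 0) (nat_lit 3205101428) (nat_lit 988) (nat_lit 1624542433) (nat_lit 1064) (nat_lit 4898415559) (nat_lit 178) (nat_lit 5) (nat_lit 191) (nat_lit 5) (nat_lit 192) (nat_lit 5) (nat_lit 293) (nat_lit 281) (nat_lit 206)) (XT.lf (nat_lit 76) (nat_lit 2908226919) (nat_lit 0) (nat_lit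 1462127436) (nat_lit 1064) (nat_lit 5494262476) (nat_lit 179) (nat_lit 5) (nat_lit 178) (nat_lit 5) (nat_lit 192) (nat_lit 5) (nat_lit 294) (nat_lit 281) (nat_lit 205)))) (XT.nd (nat_lit 78) (nat_lit 0) (nat_lit 0) (XT.lf (nat_lit 0) (nat_lit 5578668949) (nat_lit 988) (nat_lit 2435389147) (nat_lit 1064) (nat_lit 1991032828) (nat_lit 179) (nat_lit 5) (nat_lit 192) (nat_lit 5) (nat_lit 193) (nat_lit 5) (nat_lit 295) (nat_lit 281) (nat_lit 204)) (XT.nd (nat_lit 78) (nat_lit 0) (nat_lit 0) (XT.lf (nat_lit 76) (nat_lit 2229452401) (nat_lit 0) (nat_lit 4602746278) (nat_lit 1064) (nat_lit 3317372837) (nat_lit 180) (nat_lit 5) (nat_lit 179) (nat_lit 5) (nat_lit 193) (nat_lit 5) (nat_lit 296) (nat_lit 281) (nat_lit 203)) (XT.lf (nat_lit 76) (nat_lit 7063549002) (nat_lit 0) (nat_lit 1058022847) (nat_lit 1064) (nat_lit 2176927015) (nat_lit 180) (nat_lit 5) (nat_lit 179) (nat_lit 5) (nat_lit 193) (nat_lit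 5) (nat_lit 297) (nat_lit 281) (nat_lit 202))))))) (XT.nd (nat_lit 858) (nat_lit 2736) (nat_lit 0) (XT.nd (nat_lit 390) (nat_lit 1140) (nat_lit 0) (XT.nd (nat_lit 156) (nat_lit 1900) (nat_lit 0) (XT.nd (nat_lit 78) (nat_lit 76) (nat_lit 0) (XT.lf (nat_lit 0) (nat_lit 1575704390) (nat_lit 988) (nat_lit 7888460468) (nat_lit 1064) (nat_lit 987350743) (nat_lit 167) (nat_lit 5) (nat_lit 180) (nat_lit 5) (nat_lit 181) (nat_lit 5) (nat_lit 298) (nat_lit 281) (nat_lit 201)) (XT.lf (nat_lit 0) (nat_lit 251444416) (nat_lit 1064) (nat_lit 4045481923) (nat_lit 76) (nat_lit 6311637085) (nat_lit 166) (nat_lit 5) (nat_lit 180) (nat_lit 5) (nat_lit 167) (nat_lit 5) (nat_lit 299) (nat_lit 281) (nat_lit 200))) (XT.nd (nat_lit 78) (nat_lit 836) (nat_lit 0) (XT.lf (nat_lit 0) (nat_lit 917254428) (nat_lit 1064) (nat_lit 574566664) (nat_lit 1140) (nat_lit 9278733278) (nat_lit 152) (nat_lit 5) (nat_lit 166) (nat_lit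 5) (nat_lit 167) (nat_lit 5) (nat_lit 300) (nat_lit 281) (nat_lit 199)) (XT.nd (nat_lit 78) (nat_lit 836) (nat_lit 0) (XT.lf (nat_lit 0) (nat_lit 2817995741) (nat_lit 1140) (nat_lit 4877345525) (nat_lit 76) (nat_lit 3240657469) (nat_lit 152) (nat_lit 5) (nat_lit 167) (nat_lit 5) (nat_lit 153) (nat_lit 5) (nat_lit 301) (nat_lit 281) (nat_lit 198)) (XT.lf (nat_lit 0) (nat_lit 225996241) (nat_lit 836) (nat_lit 3942518451) (nat_lit 912) (nat_lit 6938404768) (nat_lit 141) (nat_lit 5) (nat_lit 152) (nat_lit 5) (nat_lit 153) (nat_lit 5) (nat_lit 302) (nat_lit 281) (nat_lit 197))))) (XT.nd (nat_lit 234) (nat_lit 608) (nat_lit 0) (XT.nd (nat_lit 78) (nat_lit 532) (nat_lit 0) (XT.lf (nat_lit 0) (nat_lit 5562008641) (nat_lit 836) (nat_lit 23972572) (nat_lit 912) (nat_lit 5696241980) (nat_lit 141) (nat_lit 5) (nat_lit 152) (nat_lit 5) (nat_lit 153) (nat_lit 5) (nat_lit 303) (nat_lit 281) (nat_lit 196)) (XT.nd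 (nat_lit 78) (nat_lit 532) (nat_lit 0) (XT.lf (nat_lit 0) (nat_lit 7062406286) (nat_lit 912) (nat_lit 463801687) (nat_lit 76) (nat_lit 3936131970) (nat_lit 141) (nat_lit 5) (nat_lit 153) (nat_lit 5) (nat_lit 142) (nat_lit 5) (nat_lit 304) (nat_lit 281) (nat_lit 195)) (XT.lf (nat_lit 0) (nat_lit 5028233689) (nat_lit 532) (nat_lit 3581974377) (nat_lit 608) (nat_lit 3036885185) (nat_lit 134) (nat_lit 5) (nat_lit 141) (nat_lit 5) (nat_lit 142) (nat_lit 5) (nat_lit 305) (nat_lit 281) (nat_lit 194)))) (XT.nd (nat_lit 78) (nat_lit 608) (nat_lit 0) (XT.lf (nat_lit 0) (nat_lit 10192754005) (nat_lit 608) (nat_lit 1167821236) (nat_lit 76) (nat_lit 477208859) (nat_lit 134) (nat_lit 5) (nat_lit 142) (nat_lit 5) (nat_lit 135) (nat_lit 5) (nat_lit 306) (nat_lit 281) (nat_lit 193)) (XT.nd (nat_lit 78) (nat_lit 76) (nat_lit 0) (XT.lf (nat_lit 0) (nat_lit 4478832633) (nat_lit 532) (nat_lit 7402035418) (nat_lit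 608) (nat_lit 151627828) (nat_lit 127) (nat_lit 5) (nat_lit 134) (nat_lit 5) (nat_lit 135) (nat_lit 5) (nat_lit 307) (nat_lit 281) (nat_lit 192)) (XT.lf (nat_lit 0) (nat_lit 1351169133) (nat_lit 608) (nat_lit 1947413077) (nat_lit 76) (nat_lit 8934357943) (nat_lit 126) (nat_lit 5) (nat_lit 134) (nat_lit 5) (nat_lit 127) (nat_lit 5) (nat_lit 308) (nat_lit 281) (nat_lit 191)))))) (XT.nd (nat_lit 468) (nat_lit 1292) (nat_lit 0) (XT.nd (nat_lit 234) (nat_lit 456) (nat_lit 0) (XT.nd (nat_lit 78) (nat_lit 532) (nat_lit 0) (XT.lf (nat_lit 0) (nat_lit 2922952699) (nat_lit 532) (nat_lit 8566410775) (nat_lit 76) (nat_lit 949220046) (nat_lit 120) (nat_lit 5) (nat_lit 127) (nat_lit 5) (nat_lit 121) (nat_lit 5) (nat_lit 309) (nat_lit 281) (nat_lit 190)) (XT.nd (nat_lit 78) (nat_lit 532) (nat_lit 0) (XT.lf (nat_lit 0) (nat_lit 4575125919) (nat_lit 532) (nat_lit 2796331341) (nat_lit 76) (nat_lit 5277980010)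 (nat_lit 120) (nat_lit 5) (nat_lit 127) (nat_lit 5) (nat_lit 121) (nat_lit 5) (nat_lit 310) (nat_lit 281) (nat_lit 189)) (XT.lf (nat_lit 0) (nat_lit 3189737059) (nat_lit 532) (nat_lit 3099067775) (nat_lit 608) (nat_lit 6577490641) (nat_lit 113) (nat_lit 5) (nat_lit 120) (nat_lit 5) (nat_lit 121) (nat_lit 5) (nat_lit 311) (nat_lit 281) (nat_lit 188)))) (XT.nd (nat_lit 78) (nat_lit 456) (nat_lit 0) (XT.lf (nat_lit 0) (nat_lit 8076553984) (nat_lit 608) (nat_lit 3708638997) (nat_lit 76) (nat_lit 1303822623) (nat_lit 113) (nat_lit 5) (nat_lit 121) (nat_lit 5) (nat_lit 114) (nat_lit 5) (nat_lit 312) (nat_lit 281) (nat_lit 187)) (XT.nd (nat_lit 78) (nat_lit 0) (nat_lit 0) (XT.lf (nat_lit 0) (nat_lit 2435998464) (nat_lit 456) (nat_lit 7518204353) (nat_lit 532) (nat_lit 3363161432) (nat_lit 107) (nat_lit 5) (nat_lit 113) (nat_lit 5) (nat_lit 114) (nat_lit 5) (nat_lit 313) (nat_lit 281) (nat_lit 186))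 (XT.lf (nat_lit 0) (nat_lit 8822015658) (nat_lit 456) (nat_lit 3086119432) (nat_lit 532) (nat_lit 1643863555) (nat_lit 107) (nat_lit 5) (nat_lit 113) (nat_lit 5) (nat_lit 114) (nat_lit 5) (nat_lit 314) (nat_lit 281) (nat_lit 185))))) (XT.nd (nat_lit 234) (nat_lit 380) (nat_lit 0) (XT.nd (nat_lit 78) (nat_lit 380) (nat_lit 0) (XT.lf (nat_lit 0) (nat_lit 137262942) (nat_lit 532) (nat_lit 12190604182) (nat_lit 76) (nat_lit 1465418440) (nat_lit 100) (nat_lit 5) (nat_lit 107) (nat_lit 5) (nat_lit 101) (nat_lit 5) (nat_lit 315) (nat_lit 281) (nat_lit 184)) (XT.nd (nat_lit 78) (nat_lit 380) (nat_lit 0) (XT.lf (nat_lit 0) (nat_lit 2000693167) (nat_lit 532) (nat_lit 5884536655) (nat_lit 76) (nat_lit 6154266726) (nat_lit 100) (nat_lit 5) (nat_lit 107) (nat_lit 5) (nat_lit 101) (nat_lit 5) (nat_lit 316) (nat_lit 281) (nat_lit 183)) (XT.lf (nat_lit 0) (nat_lit 603915177) (nat_lit 380) (nat_lit 3305525901)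 (nat_lit 456) (nat_lit 10384000470) (nat_lit 95) (nat_lit 5) (nat_lit 100) (nat_lit 5) (nat_lit 101) (nat_lit 5) (nat_lit 317) (nat_lit 281) (nat_lit 182)))) (XT.nd (nat_lit 78) (nat_lit 380) (nat_lit 0) (XT.lf (nat_lit 0) (nat_lit 5932918803) (nat_lit 456) (nat_lit 7178621481) (nat_lit 76) (nat_lit 1441769845) (nat_lit 95) (nat_lit 5) (nat_lit 101) (nat_lit 5) (nat_lit 96) (nat_lit 5) (nat_lit 318) (nat_lit 281) (nat_lit 181)) (XT.nd (nat_lit 78) (nat_lit 380) (nat_lit 0) (XT.lf (nat_lit 0) (nat_lit 8034186011) (nat_lit 456) (nat_lit 523457075) (nat_lit 76) (nat_lit 6262847526) (nat_lit 95) (nat_lit 5) (nat_lit 101) (nat_lit 5) (nat_lit 96) (nat_lit 5) (nat_lit 319) (nat_lit 281) (nat_lit 180)) (XT.lf (nat_lit 0) (nat_lit 6439208933) (nat_lit 380) (nat_lit 3805992707) (nat_lit 456) (nat_lit 4849111130) (nat_lit 90) (nat_lit 5) (nat_lit 95) (nat_lit 5) (nat_lit 96) (nat_lit 5) (nat_lit 320) (nat_lit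 281) (nat_lit 179))))))))
noncomputable def xc167 : XT := (XT.nd (nat_lit 1794) (nat_lit 1748) (nat_lit 0) (XT.nd (nat_lit 858) (nat_lit 1368) (nat_lit 0) (XT.nd (nat_lit 390) (nat_lit 988) (nat_lit 0) (XT.nd (nat_lit 156) (nat_lit 456) (nat_lit 0) (XT.nd (nat_lit 78) (nat_lit 380) (nat_lit 0) (XT.lf (nat_lit 0) (nat_lit 12523406018) (nat_lit 456) (nat_lit 1783297596) (nat_lit 76) (nat_lit 1069646997) (nat_lit 90) (nat_lit 5) (nat_lit 96) (nat_lit 5) (nat_lit 91) (nat_lit 5) (nat_lit 321) (nat_lit 281) (nat_lit 178)) (XT.lf (nat_lit 0) (nat_lit 5343702173) (nat_lit 380) (nat_lit 9600799087) (nat_lit 456) (nat_lit 720137979) (nat_lit 85) (nat_lit 5) (nat_lit 90) (nat_lit 5) (nat_lit 91) (nat_lit 5) (nat_lit 322) (nat_lit 281) (nat_lit 177))) (XT.nd (nat_lit 78) (nat_lit 380) (nat_lit 0) (XT.lf (nat_lit 0) (nat_lit 1451608410) (nat_lit 456) (nat_lit 3272033041) (nat_lit 76) (nat_lit 11237420624)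 (nat_lit 84) (nat_lit 5) (nat_lit 90) (nat_lit 5) (nat_lit 85) (nat_lit 5) (nat_lit 323) (nat_lit 281) (nat_lit 176)) (XT.nd (nat_lit 78) (nat_lit 0) (nat_lit 0) (XT.lf (nat_lit 0) (nat_lit 3702207309) (nat_lit 456) (nat_lit 12225824859) (nat_lit 76) (nat_lit 337310085) (nat_lit 79) (nat_lit 5) (nat_lit 85) (nat_lit 5) (nat_lit 80) (nat_lit 5) (nat_lit 324) (nat_lit 281) (nat_lit 175)) (XT.lf (nat_lit 0) (nat_lit 6086678174) (nat_lit 456) (nat_lit 5004780059) (nat_lit 76) (nat_lit 5485325075) (nat_lit 79) (nat_lit 5) (nat_lit 85) (nat_lit 5) (nat_lit 80) (nat_lit 5) (nat_lit 325) (nat_lit 281) (nat_lit 174))))) (XT.nd (nat_lit 234) (nat_lit 380) (nat_lit 0) (XT.nd (nat_lit 78) (nat_lit 304) (nat_lit 0) (XT.lf (nat_lit 0) (nat_lit 2464073793) (nat_lit 304) (nat_lit 6088914016) (nat_lit 380) (nat_lit 8344293066) (nat_lit 75) (nat_lit 5) (nat_lit 79) (nat_lit 5) (nat_lit 80) (nat_lit 5) (nat_lit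 326) (nat_lit 281) (nat_lit 173)) (XT.nd (nat_lit 78) (nat_lit 304) (nat_lit 0) (XT.lf (nat_lit 0) (nat_lit 10242846837) (nat_lit 304) (nat_lit 887825664) (nat_lit 380) (nat_lit 6095621060) (nat_lit 75) (nat_lit 5) (nat_lit 79) (nat_lit 5) (nat_lit 80) (nat_lit 5) (nat_lit 327) (nat_lit 281) (nat_lit 172)) (XT.lf (nat_lit 0) (nat_lit 642764804) (nat_lit 304) (nat_lit 13179260097) (nat_lit 380) (nat_lit 3742082744) (nat_lit 71) (nat_lit 5) (nat_lit 75) (nat_lit 5) (nat_lit 76) (nat_lit 5) (nat_lit 328) (nat_lit 281) (nat_lit 171)))) (XT.nd (nat_lit 78) (nat_lit 380) (nat_lit 0) (XT.lf (nat_lit 0) (nat_lit 8615491464) (nat_lit 304) (nat_lit 8045261301) (nat_lit 380) (nat_lit 1249324855) (nat_lit 71) (nat_lit 5) (nat_lit 75) (nat_lit 5) (nat_lit 76) (nat_lit 5) (nat_lit 329) (nat_lit 281) (nat_lit 170)) (XT.nd (nat_lit 78) (nat_lit 304) (nat_lit 0) (XT.lf (nat_lit 0) (nat_lit 1280130347) (nat_lit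 380) (nat_lit 1467943960) (nat_lit 76) (nat_lit 15518362451) (nat_lit 70) (nat_lit 5) (nat_lit 75) (nat_lit 5) (nat_lit 71) (nat_lit 5) (nat_lit 330) (nat_lit 281) (nat_lit 169)) (XT.lf (nat_lit 0) (nat_lit 3939477769) (nat_lit 380) (nat_lit 11962299302) (nat_lit 76) (nat_lit 2728983726) (nat_lit 66) (nat_lit 5) (nat_lit 71) (nat_lit 5) (nat_lit 67) (nat_lit 5) (nat_lit 331) (nat_lit 281) (nat_lit 168)))))) (XT.nd (nat_lit 468) (nat_lit 760) (nat_lit 0) (XT.nd (nat_lit 234) (nat_lit 304) (nat_lit 0) (XT.nd (nat_lit 78) (nat_lit 304) (nat_lit 0) (XT.lf (nat_lit 0) (nat_lit 6708944951) (nat_lit 380) (nat_lit 3969828273) (nat_lit 76) (nat_lit 8326349381) (nat_lit 66) (nat_lit 5) (nat_lit 71) (nat_lit 5) (nat_lit 67) (nat_lit 5) (nat_lit 332) (nat_lit 281) (nat_lit 167)) (XT.nd (nat_lit 78) (nat_lit 0) (nat_lit 0) (XT.lf (nat_lit 0) (nat_lit 4331450226) (nat_lit 304) (nat_lit 5260187869) (nat_lit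 380) (nat_lit 9798190611) (nat_lit 62) (nat_lit 5) (nat_lit 66) (nat_lit 5) (nat_lit 67) (nat_lit 5) (nat_lit 333) (nat_lit 281) (nat_lit 166)) (XT.lf (nat_lit 0) (nat_lit 12593035665) (nat_lit 380) (nat_lit 6840865488) (nat_lit 76) (nat_lit 351225311) (nat_lit 62) (nat_lit 5) (nat_lit 67) (nat_lit 5) (nat_lit 63) (nat_lit 5) (nat_lit 334) (nat_lit 281) (nat_lit 165)))) (XT.nd (nat_lit 78) (nat_lit 76) (nat_lit 0) (XT.lf (nat_lit 0) (nat_lit 1586858444) (nat_lit 228) (nat_lit 14153936131) (nat_lit 304) (nat_lit 4449815679) (nat_lit 59) (nat_lit 5) (nat_lit 62) (nat_lit 5) (nat_lit 63) (nat_lit 5) (nat_lit 335) (nat_lit 281) (nat_lit 164)) (XT.nd (nat_lit 78) (nat_lit 76) (nat_lit 0) (XT.lf (nat_lit 0) (nat_lit 10392595432) (nat_lit 228) (nat_lit 8648630814) (nat_lit 304) (nat_lit 1565301308) (nat_lit 59) (nat_lit 5) (nat_lit 62) (nat_lit 5) (nat_lit 63) (nat_lit 5) (nat_lit 336) (nat_lit 281)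 (nat_lit 163)) (XT.lf (nat_lit 0) (nat_lit 1367674039) (nat_lit 304) (nat_lit 1600769204) (nat_lit 76) (nat_lit 18066408306) (nat_lit 58) (nat_lit 5) (nat_lit 62) (nat_lit 5) (nat_lit 59) (nat_lit 5) (nat_lit 337) (nat_lit 281) (nat_lit 162))))) (XT.nd (nat_lit 234) (nat_lit 228) (nat_lit 0) (XT.nd (nat_lit 78) (nat_lit 228) (nat_lit 0) (XT.lf (nat_lit 0) (nat_lit 4446355607) (nat_lit 380) (nat_lit 14117285508) (nat_lit 76) (nat_lit 2909258691) (nat_lit 54) (nat_lit 5) (nat_lit 59) (nat_lit 5) (nat_lit 55) (nat_lit 5) (nat_lit 338) (nat_lit 281) (nat_lit 161)) (XT.nd (nat_lit 78) (nat_lit 228) (nat_lit 0) (XT.lf (nat_lit 0) (nat_lit 7652904059) (nat_lit 380) (nat_lit 5354196761) (nat_lit 76) (nat_lit 8915937887) (nat_lit 54) (nat_lit 5) (nat_lit 59) (nat_lit 5) (nat_lit 55) (nat_lit 5) (nat_lit 339) (nat_lit 281) (nat_lit 160)) (XT.lf (nat_lit 0) (nat_lit 3730457839) (nat_lit 228) (nat_lit 7251139144)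 (nat_lit 304) (nat_lit 11404320321) (nat_lit 51) (nat_lit 5) (nat_lit 54) (nat_lit 5) (nat_lit 55) (nat_lit 5) (nat_lit 340) (nat_lit 281) (nat_lit 159)))) (XT.nd (nat_lit 78) (nat_lit 228) (nat_lit 0) (XT.lf (nat_lit 0) (nat_lit 13183424830) (nat_lit 228) (nat_lit 1271035600) (nat_lit 304) (nat_lit 8406906102) (nat_lit 51) (nat_lit 5) (nat_lit 54) (nat_lit 5) (nat_lit 55) (nat_lit 5) (nat_lit 341) (nat_lit 281) (nat_lit 158)) (XT.nd (nat_lit 78) (nat_lit 228) (nat_lit 0) (XT.lf (nat_lit 0) (nat_lit 18068988350) (nat_lit 304) (nat_lit 491923059) (nat_lit 76) (nat_lit 4789056638) (nat_lit 51) (nat_lit 5) (nat_lit 55) (nat_lit 5) (nat_lit 52) (nat_lit 5) (nat_lit 342) (nat_lit 281) (nat_lit 157)) (XT.lf (nat_lit 0) (nat_lit 9121657264) (nat_lit 228) (nat_lit 12761326960) (nat_lit 304) (nat_lit 1967525207) (nat_lit 48) (nat_lit 5) (nat_lit 51) (nat_lit 5) (nat_lit 52) (nat_lit 5) (nat_lit 343) (nat_lit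 281) (nat_lit 156))))))) (XT.nd (nat_lit 936) (nat_lit 760) (nat_lit 0) (XT.nd (nat_lit 468) (nat_lit 456) (nat_lit 0) (XT.nd (nat_lit 234) (nat_lit 228) (nat_lit 0) (XT.nd (nat_lit 78) (nat_lit 228) (nat_lit 0) (XT.lf (nat_lit 0) (nat_lit 1412949503) (nat_lit 304) (nat_lit 5359625861) (nat_lit 76) (nat_lit 17593212333) (nat_lit 47) (nat_lit 5) (nat_lit 51) (nat_lit 5) (nat_lit 48) (nat_lit 5) (nat_lit 344) (nat_lit 281) (nat_lit 155)) (XT.nd (nat_lit 78) (nat_lit 0) (nat_lit 0) (XT.lf (nat_lit 0) (nat_lit 4342840113) (nat_lit 228) (nat_lit 545270522) (nat_lit 304) (nat_lit 20006856439) (nat_lit 44) (nat_lit 5) (nat_lit 47) (nat_lit 5) (nat_lit 48) (nat_lit 5) (nat_lit 345) (nat_lit 281) (nat_lit 154)) (XT.lf (nat_lit 0) (nat_lit 8569765812) (nat_lit 304) (nat_lit 11062309569) (nat_lit 76) (nat_lit 5804890634) (nat_lit 44) (nat_lit 5) (nat_lit 48) (nat_lit 5) (nat_lit 45) (nat_lit 5) (nat_lit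 346) (nat_lit 281) (nat_lit 153)))) (XT.nd (nat_lit 78) (nat_lit 228) (nat_lit 0) (XT.lf (nat_lit 0) (nat_lit 12358693274) (nat_lit 304) (nat_lit 1306019346) (nat_lit 76) (nat_lit 12330618654) (nat_lit 44) (nat_lit 5) (nat_lit 48) (nat_lit 5) (nat_lit 45) (nat_lit 5) (nat_lit 347) (nat_lit 281) (nat_lit 152)) (XT.nd (nat_lit 78) (nat_lit 0) (nat_lit 0) (XT.lf (nat_lit 0) (nat_lit 8904264363) (nat_lit 228) (nat_lit 7434291134) (nat_lit 304) (nat_lit 10229584694) (nat_lit 41) (nat_lit 5) (nat_lit 44) (nat_lit 5) (nat_lit 45) (nat_lit 5) (nat_lit 348) (nat_lit 281) (nat_lit 151)) (XT.lf (nat_lit 0) (nat_lit 19435301266) (nat_lit 228) (nat_lit 1007498272) (nat_lit 304) (nat_lit 6715194654) (nat_lit 41) (nat_lit 5) (nat_lit 44) (nat_lit 5) (nat_lit 45) (nat_lit 5) (nat_lit 349) (nat_lit 281) (nat_lit 150))))) (XT.nd (nat_lit 234) (nat_lit 228) (nat_lit 0) (XT.nd (nat_lit 78) (nat_lit 76) (nat_lit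 0) (XT.lf (nat_lit 0) (nat_lit 2499371398) (nat_lit 152) (nat_lit 22240770030) (nat_lit 228) (nat_lit 3023313361) (nat_lit 39) (nat_lit 5) (nat_lit 41) (nat_lit 5) (nat_lit 42) (nat_lit 5) (nat_lit 350) (nat_lit 281) (nat_lit 149)) (XT.nd (nat_lit 78) (nat_lit 0) (nat_lit 0) (XT.lf (nat_lit 0) (nat_lit 844875936) (nat_lit 228) (nat_lit 15228800747) (nat_lit 76) (nat_lit 12310764524) (nat_lit 38) (nat_lit 5) (nat_lit 41) (nat_lit 5) (nat_lit 39) (nat_lit 5) (nat_lit 351) (nat_lit 281) (nat_lit 148)) (XT.lf (nat_lit 0) (nat_lit 4760605101) (nat_lit 228) (nat_lit 4934264933) (nat_lit 76) (nat_lit 19328530614) (nat_lit 38) (nat_lit 5) (nat_lit 41) (nat_lit 5) (nat_lit 39) (nat_lit 5) (nat_lit 352) (nat_lit 281) (nat_lit 147)))) (XT.nd (nat_lit 78) (nat_lit 0) (nat_lit 0) (XT.lf (nat_lit 0) (nat_lit 5770178173) (nat_lit 228) (nat_lit 3071579684) (nat_lit 304) (nat_lit 20838341430) (nat_lit 35) (nat_lit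 5) (nat_lit 38) (nat_lit 5) (nat_lit 39) (nat_lit 5) (nat_lit 353) (nat_lit 281) (nat_lit 146)) (XT.nd (nat_lit 78) (nat_lit 0) (nat_lit 0) (XT.lf (nat_lit 0) (nat_lit 13124272044) (nat_lit 304) (nat_lit 13506251584) (nat_lit 76) (nat_lit 3723616157) (nat_lit 35) (nat_lit 5) (nat_lit 39) (nat_lit 5) (nat_lit 36) (nat_lit 5) (nat_lit 354) (nat_lit 281) (nat_lit 145)) (XT.lf (nat_lit 0) (nat_lit 17558446042) (nat_lit 304) (nat_lit 2832150735) (nat_lit 76) (nat_lit 10657117644) (nat_lit 35) (nat_lit 5) (nat_lit 39) (nat_lit 5) (nat_lit 36) (nat_lit 5) (nat_lit 355) (nat_lit 281) (nat_lit 144)))))) (XT.nd (nat_lit 468) (nat_lit 380) (nat_lit 0) (XT.nd (nat_lit 234) (nat_lit 228) (nat_lit 0) (XT.nd (nat_lit 78) (nat_lit 0) (nat_lit 0) (XT.lf (nat_lit 0) (nat_lit 8313459765) (nat_lit 152) (nat_lit 13885082764) (nat_lit 228) (nat_lit 9561375054) (nat_lit 33) (nat_lit 5) (nat_lit 35) (nat_lit 5) (nat_lit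 36) (nat_lit 5) (nat_lit 356) (nat_lit 281) (nat_lit 143)) (XT.nd (nat_lit 78) (nat_lit 0) (nat_lit 0) (XT.lf (nat_lit 0) (nat_lit 19840663220) (nat_lit 152) (nat_lit 7158861321) (nat_lit 228) (nat_lit 5493319787) (nat_lit 33) (nat_lit 5) (nat_lit 35) (nat_lit 5) (nat_lit 36) (nat_lit 5) (nat_lit 357) (nat_lit 281) (nat_lit 142)) (XT.lf (nat_lit 0) (nat_lit 31703166591) (nat_lit 152) (nat_lit 234654337) (nat_lit 228) (nat_lit 1310147136) (nat_lit 33) (nat_lit 5) (nat_lit 35) (nat_lit 5) (nat_lit 36) (nat_lit 5) (nat_lit 358) (nat_lit 281) (nat_lit 141)))) (XT.nd (nat_lit 78) (nat_lit 0) (nat_lit 0) (XT.lf (nat_lit 0) (nat_lit 3097557843) (nat_lit 228) (nat_lit 24036899945) (nat_lit 76) (nat_lit 6885703834) (nat_lit 30) (nat_lit 5) (nat_lit 33) (nat_lit 5) (nat_lit 31) (nat_lit 5) (nat_lit 359) (nat_lit 281) (nat_lit 140)) (XT.nd (nat_lit 78) (nat_lit 0) (nat_lit 0) (XT.lf (nat_lit 0) (nat_lit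 7622704571) (nat_lit 228) (nat_lit 12952081767) (nat_lit 76) (nat_lit 14240006277) (nat_lit 30) (nat_lit 5) (nat_lit 33) (nat_lit 5) (nat_lit 31) (nat_lit 5) (nat_lit 360) (nat_lit 281) (nat_lit 139)) (XT.lf (nat_lit 0) (nat_lit 12277262041) (nat_lit 228) (nat_lit 1544828645) (nat_lit 76) (nat_lit 21811369034) (nat_lit 30) (nat_lit 5) (nat_lit 33) (nat_lit 5) (nat_lit 31) (nat_lit 5) (nat_lit 361) (nat_lit 281) (nat_lit 138))))) (XT.nd (nat_lit 234) (nat_lit 228) (nat_lit 0) (XT.nd (nat_lit 78) (nat_lit 0) (nat_lit 0) (XT.lf (nat_lit 0) (nat_lit 10397723968) (nat_lit 152) (nat_lit 6767522659) (nat_lit 228) (nat_lit 19308633172) (nat_lit 28) (nat_lit 5) (nat_lit 30) (nat_lit 5) (nat_lit 31) (nat_lit 5) (nat_lit 362) (nat_lit 281) (nat_lit 137)) (XT.nd (nat_lit 78) (nat_lit 0) (nat_lit 0) (XT.lf (nat_lit 0) (nat_lit 22214310606) (nat_lit 228) (nat_lit 14623644489) (nat_lit 76) (nat_lit 501130668)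 (nat_lit 28) (nat_lit 5) (nat_lit 31) (nat_lit 5) (nat_lit 29) (nat_lit 5) (nat_lit 363) (nat_lit 281) (nat_lit 136)) (XT.lf (nat_lit 0) (nat_lit 27475921603) (nat_lit 228) (nat_lit 2904147969) (nat_lit 76) (nat_lit 7848352371) (nat_lit 28) (nat_lit 5) (nat_lit 31) (nat_lit 5) (nat_lit 29) (nat_lit 5) (nat_lit 364) (nat_lit 281) (nat_lit 135)))) (XT.nd (nat_lit 78) (nat_lit 76) (nat_lit 0) (XT.lf (nat_lit 0) (nat_lit 9339882376) (nat_lit 152) (nat_lit 23639521860) (nat_lit 228) (nat_lit 6162519378) (nat_lit 26) (nat_lit 5) (nat_lit 28) (nat_lit 5) (nat_lit 29) (nat_lit 5) (nat_lit 365) (nat_lit 281) (nat_lit 134)) (XT.nd (nat_lit 78) (nat_lit 76) (nat_lit 0) (XT.lf (nat_lit 0) (nat_lit 22001551238) (nat_lit 152) (nat_lit 16670088070) (nat_lit 228) (nat_lit 1410487519) (nat_lit 26) (nat_lit 5) (nat_lit 28) (nat_lit 5) (nat_lit 29) (nat_lit 5) (nat_lit 366) (nat_lit 281) (nat_lit 133)) (XT.lf (nat_lit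 0) (nat_lit 3410544770) (nat_lit 228) (nat_lit 6050020020) (nat_lit 76) (nat_lit 31589139385) (nat_lit 25) (nat_lit 5) (nat_lit 28) (nat_lit 5) (nat_lit 26) (nat_lit 5) (nat_lit 367) (nat_lit 281) (nat_lit 132))))))))
noncomputable def xc168 : XT := (XT.nd (nat_lit 1794) (nat_lit 76) (nat_lit 0) (XT.nd (nat_lit 858) (nat_lit 456) (nat_lit 0) (XT.nd (nat_lit 390) (nat_lit 152) (nat_lit 0) (XT.nd (nat_lit 156) (nat_lit 152) (nat_lit 0) (XT.nd (nat_lit 78) (nat_lit 0) (nat_lit 0) (XT.lf (nat_lit 0) (nat_lit 6444442542) (nat_lit 152) (nat_lit 1959953248) (nat_lit 228) (nat_lit 33639803408) (nat_lit 23) (nat_lit 5) (nat_lit 25) (nat_lit 5) (nat_lit 26) (nat_lit 5) (nat_lit 368) (nat_lit 281) (nat_lit 131)) (XT.lf (nat_lit 0) (nat_lit 13659814414) (nat_lit 228) (nat_lit 23693811308) (nat_lit 76) (nat_lit 5711556054) (nat_lit 23) (nat_lit 5) (nat_lit 26) (nat_lit 5) (nat_lit 24) (nat_lit 5) (nat_lit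 369) (nat_lit 281) (nat_lit 130))) (XT.nd (nat_lit 78) (nat_lit 152) (nat_lit 0) (XT.lf (nat_lit 0) (nat_lit 19087088101) (nat_lit 228) (nat_lit 11458680845) (nat_lit 76) (nat_lit 13570604224) (nat_lit 23) (nat_lit 5) (nat_lit 26) (nat_lit 5) (nat_lit 24) (nat_lit 5) (nat_lit 370) (nat_lit 281) (nat_lit 129)) (XT.nd (nat_lit 78) (nat_lit 0) (nat_lit 0) (XT.lf (nat_lit 0) (nat_lit 1157757919) (nat_lit 152) (nat_lit 23525490019) (nat_lit 228) (nat_lit 20515675296) (nat_lit 21) (nat_lit 5) (nat_lit 23) (nat_lit 5) (nat_lit 24) (nat_lit 5) (nat_lit 371) (nat_lit 281) (nat_lit 128)) (XT.lf (nat_lit 0) (nat_lit 14379325673) (nat_lit 152) (nat_lit 16178684017) (nat_lit 228) (nat_lit 15752623416) (nat_lit 21) (nat_lit 5) (nat_lit 23) (nat_lit 5) (nat_lit 24) (nat_lit 5) (nat_lit 372) (nat_lit 281) (nat_lit 127))))) (XT.nd (nat_lit 234) (nat_lit 76) (nat_lit 0) (XT.nd (nat_lit 78) (nat_lit 76) (nat_lit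 0) (XT.lf (nat_lit 0) (nat_lit 27989525024) (nat_lit 152) (nat_lit 8614641613) (nat_lit 228) (nat_lit 10851677746) (nat_lit 21) (nat_lit 5) (nat_lit 23) (nat_lit 5) (nat_lit 24) (nat_lit 5) (nat_lit 373) (nat_lit 281) (nat_lit 126)) (XT.nd (nat_lit 78) (nat_lit 76) (nat_lit 0) (XT.lf (nat_lit 0) (nat_lit 42000248381) (nat_lit 152) (nat_lit 826753447) (nat_lit 228) (nat_lit 5808555908) (nat_lit 21) (nat_lit 5) (nat_lit 23) (nat_lit 5) (nat_lit 24) (nat_lit 5) (nat_lit 374) (nat_lit 281) (nat_lit 125)) (XT.lf (nat_lit 0) (nat_lit 6633240716) (nat_lit 76) (nat_lit 42731606586) (nat_lit 152) (nat_lit 481969844) (nat_lit 20) (nat_lit 5) (nat_lit 21) (nat_lit 5) (nat_lit 22) (nat_lit 4) (nat_lit 375) (nat_lit 281) (nat_lit 124)))) (XT.nd (nat_lit 78) (nat_lit 0) (nat_lit 0) (XT.lf (nat_lit 0) (nat_lit 4978026088) (nat_lit 152) (nat_lit 30721182531) (nat_lit 76) (nat_lit 15391628719) (nat_lit 19) (nat_lit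 5) (nat_lit 21) (nat_lit 5) (nat_lit 20) (nat_lit 5) (nat_lit 376) (nat_lit 281) (nat_lit 123)) (XT.nd (nat_lit 78) (nat_lit 0) (nat_lit 0) (XT.lf (nat_lit 0) (nat_lit 10587682092) (nat_lit 152) (nat_lit 17866253222) (nat_lit 76) (nat_lit 23918237278) (nat_lit 19) (nat_lit 5) (nat_lit 21) (nat_lit 5) (nat_lit 20) (nat_lit 5) (nat_lit 377) (nat_lit 281) (nat_lit 122)) (XT.lf (nat_lit 0) (nat_lit 16361304778) (nat_lit 152) (nat_lit 4632923053) (nat_lit 76) (nat_lit 32697853684) (nat_lit 19) (nat_lit 5) (nat_lit 21) (nat_lit 5) (nat_lit 20) (nat_lit 5) (nat_lit 378) (nat_lit 281) (nat_lit 121)))))) (XT.nd (nat_lit 468) (nat_lit 228) (nat_lit 0) (XT.nd (nat_lit 234) (nat_lit 76) (nat_lit 0) (XT.nd (nat_lit 78) (nat_lit 0) (nat_lit 0) (XT.lf (nat_lit 0) (nat_lit 9169297091) (nat_lit 152) (nat_lit 13222782858) (nat_lit 228) (nat_lit 32656993247) (nat_lit 17) (nat_lit 5) (nat_lit 19) (nat_lit 5) (nat_lit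 20) (nat_lit 5) (nat_lit 379) (nat_lit 281) (nat_lit 120)) (XT.nd (nat_lit 78) (nat_lit 0) (nat_lit 0) (XT.lf (nat_lit 0) (nat_lit 23473587261) (nat_lit 152) (nat_lit 5172832743) (nat_lit 228) (nat_lit 27799079070) (nat_lit 17) (nat_lit 5) (nat_lit 19) (nat_lit 5) (nat_lit 20) (nat_lit 5) (nat_lit 380) (nat_lit 281) (nat_lit 119)) (XT.lf (nat_lit 0) (nat_lit 35114320762) (nat_lit 228) (nat_lit 19713651532) (nat_lit 76) (nat_lit 3055071107) (nat_lit 17) (nat_lit 5) (nat_lit 20) (nat_lit 5) (nat_lit 18) (nat_lit 4) (nat_lit 381) (nat_lit 281) (nat_lit 118)))) (XT.nd (nat_lit 78) (nat_lit 76) (nat_lit 0) (XT.lf (nat_lit 0) (nat_lit 41823545054) (nat_lit 228) (nat_lit 6115521641) (nat_lit 76) (nat_lit 11423232247) (nat_lit 17) (nat_lit 5) (nat_lit 20) (nat_lit 5) (nat_lit 18) (nat_lit 4) (nat_lit 382) (nat_lit 281) (nat_lit 117)) (XT.nd (nat_lit 78) (nat_lit 0) (nat_lit 0) (XT.lf (nat_lit 0) (nat_lit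 8040992883) (nat_lit 76) (nat_lit 40766532937) (nat_lit 152) (nat_lit 12076205320) (nat_lit 16) (nat_lit 5) (nat_lit 17) (nat_lit 5) (nat_lit 18) (nat_lit 4) (nat_lit 383) (nat_lit 281) (nat_lit 116)) (XT.lf (nat_lit 0) (nat_lit 22741160459) (nat_lit 76) (nat_lit 33317854688) (nat_lit 152) (nat_lit 6390054764) (nat_lit 16) (nat_lit 5) (nat_lit 17) (nat_lit 5) (nat_lit 18) (nat_lit 4) (nat_lit 384) (nat_lit 281) (nat_lit 115))))) (XT.nd (nat_lit 234) (nat_lit 0) (nat_lit 0) (XT.nd (nat_lit 78) (nat_lit 228) (nat_lit 0) (XT.lf (nat_lit 0) (nat_lit 37876115021) (nat_lit 76) (nat_lit 25648278172) (nat_lit 152) (nat_lit 537088518) (nat_lit 16) (nat_lit 5) (nat_lit 17) (nat_lit 5) (nat_lit 18) (nat_lit 4) (nat_lit 385) (nat_lit 281) (nat_lit 114)) (XT.nd (nat_lit 78) (nat_lit 152) (nat_lit 0) (XT.lf (nat_lit 0) (nat_lit 5380720765) (nat_lit 152) (nat_lit 12316046323) (nat_lit 76) (nat_lit 48024025791)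 (nat_lit 15) (nat_lit 5) (nat_lit 17) (nat_lit 5) (nat_lit 16) (nat_lit 5) (nat_lit 386) (nat_lit 281) (nat_lit 113)) (XT.lf (nat_lit 0) (nat_lit 1997072690) (nat_lit 152) (nat_lit 9483910616) (nat_lit 228) (nat_lit 55948272043) (nat_lit 13) (nat_lit 5) (nat_lit 15) (nat_lit 5) (nat_lit 16) (nat_lit 5) (nat_lit 387) (nat_lit 281) (nat_lit 112)))) (XT.nd (nat_lit 78) (nat_lit 0) (nat_lit 0) (XT.lf (nat_lit 0) (nat_lit 16986176980) (nat_lit 152) (nat_lit 899006479) (nat_lit 228) (nat_lit 51300163173) (nat_lit 13) (nat_lit 5) (nat_lit 15) (nat_lit 5) (nat_lit 16) (nat_lit 5) (nat_lit 388) (nat_lit 281) (nat_lit 111)) (XT.nd (nat_lit 78) (nat_lit 0) (nat_lit 0) (XT.lf (nat_lit 0) (nat_lit 24554506082) (nat_lit 228) (nat_lit 38651307701) (nat_lit 76) (nat_lit 7786119726) (nat_lit 13) (nat_lit 5) (nat_lit 16) (nat_lit 5) (nat_lit 14) (nat_lit 4) (nat_lit 389) (nat_lit 281) (nat_lit 110)) (XT.lf (nat_lit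 0) (nat_lit 31429546539) (nat_lit 228) (nat_lit 24711526668) (nat_lit 76) (nat_lit 16711478311) (nat_lit 13) (nat_lit 5) (nat_lit 16) (nat_lit 5) (nat_lit 14) (nat_lit 4) (nat_lit 390) (nat_lit 281) (nat_lit 109))))))) (XT.nd (nat_lit 32838) (nat_lit 0) (nat_lit 10640) (XT.nd (nat_lit 32370) (nat_lit 0) (nat_lit 12540) (XT.nd (nat_lit 32136) (nat_lit 0) (nat_lit 13300) (XT.nd (nat_lit 78) (nat_lit 76) (nat_lit 0) (XT.lf (nat_lit 0) (nat_lit 38507670346) (nat_lit 228) (nat_lit 10359004361) (nat_lit 76) (nat_lit 25902410985) (nat_lit 13) (nat_lit 5) (nat_lit 16) (nat_lit 5) (nat_lit 14) (nat_lit 4) (nat_lit 391) (nat_lit 281) (nat_lit 108)) (XT.lf (nat_lit 0) (nat_lit 4506743047) (nat_lit 76) (nat_lit 41331640798) (nat_lit 152) (nat_lit 30903527184) (nat_lit 12) (nat_lit 5) (nat_lit 13) (nat_lit 5) (nat_lit 14) (nat_lit 4) (nat_lit 392) (nat_lit 281) (nat_lit 107))) (XT.nd (nat_lit 78) (nat_lit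 0) (nat_lit 0) (XT.lf (nat_lit 0) (nat_lit 776445480) (nat_lit 988) (nat_lit 1753093319) (nat_lit 988) (nat_lit 1753093319) (nat_lit 187) (nat_lit 3) (nat_lit 200) (nat_lit 3) (nat_lit 200) (nat_lit 5) (nat_lit 282) (nat_lit 282) (nat_lit 216)) (XT.nd (nat_lit 78) (nat_lit 0) (nat_lit 76) (XT.lf (nat_lit 76) (nat_lit 165465014) (nat_lit 0) (nat_lit 2338770624) (nat_lit 988) (nat_lit 6159428539) (nat_lit 188) (nat_lit 5) (nat_lit 187) (nat_lit 3) (nat_lit 200) (nat_lit 5) (nat_lit 283) (nat_lit 282) (nat_lit 215)) (XT.lf (nat_lit 0) (nat_lit 3488155032) (nat_lit 912) (nat_lit 4769996861) (nat_lit 988) (nat_lit 506830510) (nat_lit 188) (nat_lit 5) (nat_lit 200) (nat_lit 5) (nat_lit 201) (nat_lit 5) (nat_lit 284) (nat_lit 282) (nat_lit 214))))) (XT.nd (nat_lit 234) (nat_lit 836) (nat_lit 0) (XT.nd (nat_lit 78) (nat_lit 0) (nat_lit 0) (XT.lf (nat_lit 0) (nat_lit 4489627938) (nat_lit 912) (nat_lit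 972890977) (nat_lit 988) (nat_lit 3407264964) (nat_lit 188) (nat_lit 5) (nat_lit 200) (nat_lit 5) (nat_lit 201) (nat_lit 5) (nat_lit 285) (nat_lit 282) (nat_lit 213)) (XT.nd (nat_lit 78) (nat_lit 0) (nat_lit 76) (XT.lf (nat_lit 76) (nat_lit 2977010233) (nat_lit 0) (nat_lit 2538654345) (nat_lit 988) (nat_lit 3462311545) (nat_lit 189) (nat_lit 5) (nat_lit 188) (nat_lit 5) (nat_lit 201) (nat_lit 5) (nat_lit 286) (nat_lit 282) (nat_lit 212)) (XT.lf (nat_lit 0) (nat_lit 6553800042) (nat_lit 912) (nat_lit 2048648298) (nat_lit 988) (nat_lit 487606175) (nat_lit 189) (nat_lit 5) (nat_lit 201) (nat_lit 5) (nat_lit 202) (nat_lit 5) (nat_lit 287) (nat_lit 282) (nat_lit 211)))) (XT.nd (nat_lit 78) (nat_lit 912) (nat_lit 0) (XT.lf (nat_lit 76) (nat_lit 2016810956) (nat_lit 0) (nat_lit 5618606264) (nat_lit 988) (nat_lit 1569785495) (nat_lit 190) (nat_lit 5) (nat_lit 189) (nat_lit 5) (nat_lit 202) (nat_lit 5)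 (nat_lit 288) (nat_lit 282) (nat_lit 210)) (XT.nd (nat_lit 78) (nat_lit 912) (nat_lit 0) (XT.lf (nat_lit 76) (nat_lit 6226773977) (nat_lit 0) (nat_lit 2511962298) (nat_lit 988) (nat_lit 585466810) (nat_lit 190) (nat_lit 5) (nat_lit 189) (nat_lit 5) (nat_lit 202) (nat_lit 5) (nat_lit 289) (nat_lit 282) (nat_lit 209)) (XT.lf (nat_lit 0) (nat_lit 406709310) (nat_lit 988) (nat_lit 8339879918) (nat_lit 1064) (nat_lit 700531090) (nat_lit 177) (nat_lit 5) (nat_lit 190) (nat_lit 5) (nat_lit 191) (nat_lit 5) (nat_lit 290) (nat_lit 282) (nat_lit 208)))))) (XT.nd (nat_lit 468) (nat_lit 1900) (nat_lit 0) (XT.nd (nat_lit 234) (nat_lit 0) (nat_lit 76) (XT.nd (nat_lit 78) (nat_lit 0) (nat_lit 0) (XT.lf (nat_lit 0) (nat_lit 1443266923) (nat_lit 988) (nat_lit 4122680397) (nat_lit 1064) (nat_lit 4006881274) (nat_lit 177) (nat_lit 5) (nat_lit 190) (nat_lit 5) (nat_lit 191) (nat_lit 5) (nat_lit 291) (nat_lit 282)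 (nat_lit 207)) (XT.nd (nat_lit 78) (nat_lit 0) (nat_lit 76) (XT.lf (nat_lit 76) (nat_lit 205174110) (nat_lit 0) (nat_lit 2278520341) (nat_lit 1064) (nat_lit 7219497399) (nat_lit 178) (nat_lit 5) (nat_lit 177) (nat_lit 5) (nat_lit 191) (nat_lit 5) (nat_lit 292) (nat_lit 282) (nat_lit 206)) (XT.lf (nat_lit 0) (nat_lit 3579571780) (nat_lit 988) (nat_lit 5120576635) (nat_lit 1064) (nat_lit 1136655454) (nat_lit 178) (nat_lit 5) (nat_lit 191) (nat_lit 5) (nat_lit 192) (nat_lit 5) (nat_lit 293) (nat_lit 282) (nat_lit 205)))) (XT.nd (nat_lit 78) (nat_lit 0) (nat_lit 0) (XT.lf (nat_lit 0) (nat_lit 4703261297) (nat_lit 988) (nat_lit 654445965) (nat_lit 1064) (nat_lit 4616931996) (nat_lit 178) (nat_lit 5) (nat_lit 191) (nat_lit 5) (nat_lit 192) (nat_lit 5) (nat_lit 294) (nat_lit 282) (nat_lit 204)) (XT.nd (nat_lit 78) (nat_lit 0) (nat_lit 76) (XT.lf (nat_lit 76) (nat_lit 4004317911) (nat_lit 0) (nat_lit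 1868016377) (nat_lit 1064) (nat_lit 4243986482) (nat_lit 179) (nat_lit 5) (nat_lit 178) (nat_lit 5) (nat_lit 192) (nat_lit 5) (nat_lit 295) (nat_lit 282) (nat_lit 203)) (XT.lf (nat_lit 0) (nat_lit 7073591441) (nat_lit 988) (nat_lit 1482665621) (nat_lit 1064) (nat_lit 1706141770) (nat_lit 179) (nat_lit 5) (nat_lit 192) (nat_lit 5) (nat_lit 193) (nat_lit 5) (nat_lit 296) (nat_lit 282) (nat_lit 202))))) (XT.nd (nat_lit 234) (nat_lit 1064) (nat_lit 0) (XT.nd (nat_lit 78) (nat_lit 988) (nat_lit 0) (XT.lf (nat_lit 76) (nat_lit 3312064456) (nat_lit 0) (nat_lit 5023759544) (nat_lit 1064) (nat_lit 2076344835) (nat_lit 180) (nat_lit 5) (nat_lit 179) (nat_lit 5) (nat_lit 193) (nat_lit 5) (nat_lit 297) (nat_lit 282) (nat_lit 201)) (XT.nd (nat_lit 78) (nat_lit 988) (nat_lit 0) (XT.lf (nat_lit 76) (nat_lit 8261599630) (nat_lit 0) (nat_lit 1364453705) (nat_lit 1064) (nat_lit 940730760) (nat_lit 180) (nat_lit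 5) (nat_lit 179) (nat_lit 5) (nat_lit 193) (nat_lit 5) (nat_lit 298) (nat_lit 282) (nat_lit 200)) (XT.lf (nat_lit 0) (nat_lit 249119154) (nat_lit 1064) (nat_lit 8085463967) (nat_lit 76) (nat_lit 2390702445) (nat_lit 166) (nat_lit 5) (nat_lit 180) (nat_lit 5) (nat_lit 167) (nat_lit 5) (nat_lit 299) (nat_lit 282) (nat_lit 199)))) (XT.nd (nat_lit 78) (nat_lit 1064) (nat_lit 0) (XT.lf (nat_lit 0) (nat_lit 1468934979) (nat_lit 1064) (nat_lit 3150491205) (nat_lit 76) (nat_lit 6268492418) (nat_lit 166) (nat_lit 5) (nat_lit 180) (nat_lit 5) (nat_lit 167) (nat_lit 5) (nat_lit 300) (nat_lit 282) (nat_lit 198)) (XT.nd (nat_lit 78) (nat_lit 0) (nat_lit 0) (XT.lf (nat_lit 0) (nat_lit 1951162970) (nat_lit 1064) (nat_lit 769792849) (nat_lit 1140) (nat_lit 8334656296) (nat_lit 152) (nat_lit 5) (nat_lit 166) (nat_lit 5) (nat_lit 167) (nat_lit 5) (nat_lit 301) (nat_lit 282) (nat_lit 197)) (XT.lf (nat_lit 0) (nat_lit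 4050758092) (nat_lit 1140) (nat_lit 4007975856) (nat_lit 76) (nat_lit 3168444208) (nat_lit 152) (nat_lit 5) (nat_lit 167) (nat_lit 5) (nat_lit 153) (nat_lit 5) (nat_lit 302) (nat_lit 282) (nat_lit 196))))))))
noncomputable def xc169 : XT := (XT.nd (nat_lit 1794) (nat_lit 2888) (nat_lit 0) (XT.nd (nat_lit 858) (nat_lit 2584) (nat_lit 0) (XT.nd (nat_lit 390) (nat_lit 1596) (nat_lit 0) (XT.nd (nat_lit 156) (nat_lit 532) (nat_lit 0) (XT.nd (nat_lit 78) (nat_lit 0) (nat_lit 0) (XT.lf (nat_lit 0) (nat_lit 1238508417) (nat_lit 836) (nat_lit 4179508535) (nat_lit 912) (nat_lit 5985994292) (nat_lit 141) (nat_lit 5) (nat_lit 152) (nat_lit 5) (nat_lit 153) (nat_lit 5) (nat_lit 303) (nat_lit 282) (nat_lit 195)) (XT.lf (nat_lit 0) (nat_lit 6705308017) (nat_lit 836) (nat_lit 139948575) (nat_lit 912) (nat_lit 4740369415) (nat_lit 141) (nat_lit 5) (nat_lit 152) (nat_lit 5) (nat_lit 153) (nat_lit 5) (nat_lit 304)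 (nat_lit 282) (nat_lit 194))) (XT.nd (nat_lit 78) (nat_lit 0) (nat_lit 0) (XT.lf (nat_lit 0) (nat_lit 515460141) (nat_lit 532) (nat_lit 7822596574) (nat_lit 608) (nat_lit 3433994443) (nat_lit 134) (nat_lit 5) (nat_lit 141) (nat_lit 5) (nat_lit 142) (nat_lit 5) (nat_lit 305) (nat_lit 282) (nat_lit 193)) (XT.nd (nat_lit 78) (nat_lit 0) (nat_lit 0) (XT.lf (nat_lit 0) (nat_lit 6152559690) (nat_lit 532) (nat_lit 3753296102) (nat_lit 608) (nat_lit 2057349783) (nat_lit 134) (nat_lit 5) (nat_lit 141) (nat_lit 5) (nat_lit 142) (nat_lit 5) (nat_lit 306) (nat_lit 282) (nat_lit 192)) (XT.lf (nat_lit 0) (nat_lit 11505068275) (nat_lit 608) (nat_lit 224804077) (nat_lit 76) (nat_lit 430732594) (nat_lit 134) (nat_lit 5) (nat_lit 142) (nat_lit 5) (nat_lit 135) (nat_lit 5) (nat_lit 307) (nat_lit 282) (nat_lit 191))))) (XT.nd (nat_lit 234) (nat_lit 532) (nat_lit 0) (XT.nd (nat_lit 78) (nat_lit 456) (nat_lit 0) (XT.lf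 (nat_lit 0) (nat_lit 845178102) (nat_lit 608) (nat_lit 6788445336) (nat_lit 76) (nat_lit 4727947921) (nat_lit 126) (nat_lit 5) (nat_lit 134) (nat_lit 5) (nat_lit 127) (nat_lit 5) (nat_lit 308) (nat_lit 282) (nat_lit 190)) (XT.nd (nat_lit 78) (nat_lit 456) (nat_lit 0) (XT.lf (nat_lit 0) (nat_lit 2360934495) (nat_lit 608) (nat_lit 1044353390) (nat_lit 76) (nat_lit 9163626458) (nat_lit 126) (nat_lit 5) (nat_lit 134) (nat_lit 5) (nat_lit 127) (nat_lit 5) (nat_lit 309) (nat_lit 282) (nat_lit 189)) (XT.lf (nat_lit 0) (nat_lit 3960811603) (nat_lit 532) (nat_lit 7840980368) (nat_lit 76) (nat_lit 979563260) (nat_lit 120) (nat_lit 5) (nat_lit 127) (nat_lit 5) (nat_lit 121) (nat_lit 5) (nat_lit 310) (nat_lit 282) (nat_lit 188)))) (XT.nd (nat_lit 78) (nat_lit 532) (nat_lit 0) (XT.lf (nat_lit 0) (nat_lit 5634875156) (nat_lit 532) (nat_lit 1926412806) (nat_lit 76) (nat_lit 5438131656) (nat_lit 120) (nat_lit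 5) (nat_lit 127) (nat_lit 5) (nat_lit 121) (nat_lit 5) (nat_lit 311) (nat_lit 282) (nat_lit 187)) (XT.nd (nat_lit 78) (nat_lit 0) (nat_lit 0) (XT.lf (nat_lit 0) (nat_lit 4229886582) (nat_lit 532) (nat_lit 3152287758) (nat_lit 608) (nat_lit 5841196112) (nat_lit 113) (nat_lit 5) (nat_lit 120) (nat_lit 5) (nat_lit 121) (nat_lit 5) (nat_lit 312) (nat_lit 282) (nat_lit 186)) (XT.lf (nat_lit 0) (nat_lit 9197576315) (nat_lit 608) (nat_lit 2875248480) (nat_lit 76) (nat_lit 1380778413) (nat_lit 113) (nat_lit 5) (nat_lit 121) (nat_lit 5) (nat_lit 114) (nat_lit 5) (nat_lit 313) (nat_lit 282) (nat_lit 185)))))) (XT.nd (nat_lit 468) (nat_lit 1216) (nat_lit 0) (XT.nd (nat_lit 234) (nat_lit 380) (nat_lit 0) (XT.nd (nat_lit 78) (nat_lit 532) (nat_lit 0) (XT.lf (nat_lit 0) (nat_lit 3444466834) (nat_lit 456) (nat_lit 7670485352) (nat_lit 532) (nat_lit 2574398329) (nat_lit 107) (nat_lit 5) (nat_lit 113) (nat_lit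 5) (nat_lit 114) (nat_lit 5) (nat_lit 314) (nat_lit 282) (nat_lit 184)) (XT.nd (nat_lit 78) (nat_lit 532) (nat_lit 0) (XT.lf (nat_lit 0) (nat_lit 9994820220) (nat_lit 456) (nat_lit 3107571820) (nat_lit 532) (nat_lit 829433882) (nat_lit 107) (nat_lit 5) (nat_lit 113) (nat_lit 5) (nat_lit 114) (nat_lit 5) (nat_lit 315) (nat_lit 282) (nat_lit 183)) (XT.lf (nat_lit 0) (nat_lit 973255349) (nat_lit 532) (nat_lit 11613202942) (nat_lit 76) (nat_lit 1594140437) (nat_lit 100) (nat_lit 5) (nat_lit 107) (nat_lit 5) (nat_lit 101) (nat_lit 5) (nat_lit 316) (nat_lit 282) (nat_lit 182)))) (XT.nd (nat_lit 78) (nat_lit 380) (nat_lit 0) (XT.lf (nat_lit 0) (nat_lit 2868359126) (nat_lit 532) (nat_lit 5145422885) (nat_lit 76) (nat_lit 6421185450) (nat_lit 100) (nat_lit 5) (nat_lit 107) (nat_lit 5) (nat_lit 101) (nat_lit 5) (nat_lit 317) (nat_lit 282) (nat_lit 181)) (XT.nd (nat_lit 78) (nat_lit 0) (nat_lit 0) (XT.lf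 (nat_lit 0) (nat_lit 1528705543) (nat_lit 380) (nat_lit 3290855780) (nat_lit 456) (nat_lit 9877456973) (nat_lit 95) (nat_lit 5) (nat_lit 100) (nat_lit 5) (nat_lit 101) (nat_lit 5) (nat_lit 318) (nat_lit 282) (nat_lit 180)) (XT.lf (nat_lit 0) (nat_lit 6881713428) (nat_lit 456) (nat_lit 6490285806) (nat_lit 76) (nat_lit 1593386581) (nat_lit 95) (nat_lit 5) (nat_lit 101) (nat_lit 5) (nat_lit 96) (nat_lit 5) (nat_lit 319) (nat_lit 282) (nat_lit 179))))) (XT.nd (nat_lit 234) (nat_lit 836) (nat_lit 0) (XT.nd (nat_lit 78) (nat_lit 0) (nat_lit 0) (XT.lf (nat_lit 0) (nat_lit 344943426) (nat_lit 380) (nat_lit 8681940342) (nat_lit 456) (nat_lit 6214312750) (nat_lit 90) (nat_lit 5) (nat_lit 95) (nat_lit 5) (nat_lit 96) (nat_lit 5) (nat_lit 320) (nat_lit 282) (nat_lit 178)) (XT.nd (nat_lit 78) (nat_lit 0) (nat_lit 0) (XT.lf (nat_lit 0) (nat_lit 7501156629) (nat_lit 380) (nat_lit 3786311805) (nat_lit 456)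 (nat_lit 4236307322) (nat_lit 90) (nat_lit 5) (nat_lit 95) (nat_lit 5) (nat_lit 96) (nat_lit 5) (nat_lit 321) (nat_lit 282) (nat_lit 177)) (XT.lf (nat_lit 0) (nat_lit 13613863049) (nat_lit 456) (nat_lit 971892569) (nat_lit 76) (nat_lit 1229162212) (nat_lit 90) (nat_lit 5) (nat_lit 96) (nat_lit 5) (nat_lit 91) (nat_lit 5) (nat_lit 322) (nat_lit 282) (nat_lit 176)))) (XT.nd (nat_lit 78) (nat_lit 456) (nat_lit 0) (XT.lf (nat_lit 0) (nat_lit 6360437743) (nat_lit 380) (nat_lit 9734567779) (nat_lit 456) (nat_lit 17264463) (nat_lit 85) (nat_lit 5) (nat_lit 90) (nat_lit 5) (nat_lit 91) (nat_lit 5) (nat_lit 323) (nat_lit 282) (nat_lit 175)) (XT.nd (nat_lit 78) (nat_lit 380) (nat_lit 0) (XT.lf (nat_lit 0) (nat_lit 2184807620) (nat_lit 456) (nat_lit 2523816544) (nat_lit 76) (nat_lit 11709408264) (nat_lit 84) (nat_lit 5) (nat_lit 90) (nat_lit 5) (nat_lit 85) (nat_lit 5) (nat_lit 324) (nat_lit 282) (nat_lit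 174)) (XT.lf (nat_lit 0) (nat_lit 4492436135) (nat_lit 456) (nat_lit 11734595919) (nat_lit 76) (nat_lit 504757744) (nat_lit 79) (nat_lit 5) (nat_lit 85) (nat_lit 5) (nat_lit 80) (nat_lit 5) (nat_lit 325) (nat_lit 282) (nat_lit 173))))))) (XT.nd (nat_lit 936) (nat_lit 1368) (nat_lit 0) (XT.nd (nat_lit 468) (nat_lit 836) (nat_lit 0) (XT.nd (nat_lit 234) (nat_lit 380) (nat_lit 0) (XT.nd (nat_lit 78) (nat_lit 304) (nat_lit 0) (XT.lf (nat_lit 0) (nat_lit 6928659690) (nat_lit 456) (nat_lit 4321910174) (nat_lit 76) (nat_lit 5802630804) (nat_lit 79) (nat_lit 5) (nat_lit 85) (nat_lit 5) (nat_lit 80) (nat_lit 5) (nat_lit 326) (nat_lit 282) (nat_lit 172)) (XT.nd (nat_lit 78) (nat_lit 0) (nat_lit 0) (XT.lf (nat_lit 0) (nat_lit 3362842497) (nat_lit 304) (nat_lit 6094839770) (nat_lit 380) (nat_lit 7926001362) (nat_lit 75) (nat_lit 5) (nat_lit 79) (nat_lit 5) (nat_lit 80) (nat_lit 5) (nat_lit 327) (nat_lit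 282) (nat_lit 171)) (XT.lf (nat_lit 0) (nat_lit 11350954077) (nat_lit 304) (nat_lit 742866582) (nat_lit 380) (nat_lit 5629343579) (nat_lit 75) (nat_lit 5) (nat_lit 79) (nat_lit 5) (nat_lit 80) (nat_lit 5) (nat_lit 328) (nat_lit 282) (nat_lit 170)))) (XT.nd (nat_lit 78) (nat_lit 76) (nat_lit 0) (XT.lf (nat_lit 0) (nat_lit 1473107948) (nat_lit 304) (nat_lit 13383876484) (nat_lit 380) (nat_lit 3214426518) (nat_lit 71) (nat_lit 5) (nat_lit 75) (nat_lit 5) (nat_lit 76) (nat_lit 5) (nat_lit 329) (nat_lit 282) (nat_lit 169)) (XT.nd (nat_lit 78) (nat_lit 76) (nat_lit 0) (XT.lf (nat_lit 0) (nat_lit 9661393295) (nat_lit 304) (nat_lit 8101413882) (nat_lit 380) (nat_lit 665524302) (nat_lit 71) (nat_lit 5) (nat_lit 75) (nat_lit 5) (nat_lit 76) (nat_lit 5) (nat_lit 330) (nat_lit 282) (nat_lit 168)) (XT.lf (nat_lit 0) (nat_lit 1909948707) (nat_lit 380) (nat_lit 734784773) (nat_lit 76) (nat_lit 16151028776)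 (nat_lit 70) (nat_lit 5) (nat_lit 75) (nat_lit 5) (nat_lit 71) (nat_lit 5) (nat_lit 331) (nat_lit 282) (nat_lit 167))))) (XT.nd (nat_lit 234) (nat_lit 228) (nat_lit 0) (XT.nd (nat_lit 78) (nat_lit 304) (nat_lit 0) (XT.lf (nat_lit 0) (nat_lit 4641055631) (nat_lit 380) (nat_lit 11535051629) (nat_lit 76) (nat_lit 2995176330) (nat_lit 66) (nat_lit 5) (nat_lit 71) (nat_lit 5) (nat_lit 67) (nat_lit 5) (nat_lit 332) (nat_lit 282) (nat_lit 166)) (XT.nd (nat_lit 78) (nat_lit 304) (nat_lit 0) (XT.lf (nat_lit 0) (nat_lit 7476614784) (nat_lit 380) (nat_lit 3325703070) (nat_lit 76) (nat_lit 8755094321) (nat_lit 66) (nat_lit 5) (nat_lit 71) (nat_lit 5) (nat_lit 67) (nat_lit 5) (nat_lit 333) (nat_lit 282) (nat_lit 165)) (XT.lf (nat_lit 0) (nat_lit 5217131234) (nat_lit 304) (nat_lit 5219424969) (nat_lit 380) (nat_lit 9517405632) (nat_lit 62) (nat_lit 5) (nat_lit 66) (nat_lit 5) (nat_lit 67) (nat_lit 5) (nat_lit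 334) (nat_lit 282) (nat_lit 164)))) (XT.nd (nat_lit 78) (nat_lit 228) (nat_lit 0) (XT.lf (nat_lit 0) (nat_lit 13513620645) (nat_lit 380) (nat_lit 6297168665) (nat_lit 76) (nat_lit 550785128) (nat_lit 62) (nat_lit 5) (nat_lit 67) (nat_lit 5) (nat_lit 63) (nat_lit 5) (nat_lit 335) (nat_lit 282) (nat_lit 163)) (XT.nd (nat_lit 78) (nat_lit 0) (nat_lit 0) (XT.lf (nat_lit 0) (nat_lit 2376044605) (nat_lit 228) (nat_lit 14371086710) (nat_lit 304) (nat_lit 4032375798) (nat_lit 59) (nat_lit 5) (nat_lit 62) (nat_lit 5) (nat_lit 63) (nat_lit 5) (nat_lit 336) (nat_lit 282) (nat_lit 162)) (XT.lf (nat_lit 0) (nat_lit 11424354274) (nat_lit 228) (nat_lit 8706664977) (nat_lit 304) (nat_lit 1077372627) (nat_lit 59) (nat_lit 5) (nat_lit 62) (nat_lit 5) (nat_lit 63) (nat_lit 5) (nat_lit 337) (nat_lit 282) (nat_lit 161)))))) (XT.nd (nat_lit 468) (nat_lit 532) (nat_lit 0) (XT.nd (nat_lit 234) (nat_lit 456) (nat_lit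 0) (XT.nd (nat_lit 78) (nat_lit 304) (nat_lit 0) (XT.lf (nat_lit 0) (nat_lit 1917879148) (nat_lit 304) (nat_lit 938917703) (nat_lit 76) (nat_lit 18793094658) (nat_lit 58) (nat_lit 5) (nat_lit 62) (nat_lit 5) (nat_lit 59) (nat_lit 5) (nat_lit 338) (nat_lit 282) (nat_lit 160)) (XT.nd (nat_lit 78) (nat_lit 0) (nat_lit 0) (XT.lf (nat_lit 0) (nat_lit 5082787632) (nat_lit 380) (nat_lit 13824086897) (nat_lit 76) (nat_lit 3194411962) (nat_lit 54) (nat_lit 5) (nat_lit 59) (nat_lit 5) (nat_lit 55) (nat_lit 5) (nat_lit 339) (nat_lit 282) (nat_lit 159)) (XT.lf (nat_lit 0) (nat_lit 8370880847) (nat_lit 380) (nat_lit 4818980746) (nat_lit 76) (nat_lit 9375528170) (nat_lit 54) (nat_lit 5) (nat_lit 59) (nat_lit 5) (nat_lit 55) (nat_lit 5) (nat_lit 340) (nat_lit 282) (nat_lit 158)))) (XT.nd (nat_lit 78) (nat_lit 228) (nat_lit 0) (XT.lf (nat_lit 0) (nat_lit 4531391512) (nat_lit 228) (nat_lit 7260441386) (nat_lit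 304) (nat_lit 11250569921) (nat_lit 51) (nat_lit 5) (nat_lit 54) (nat_lit 5) (nat_lit 55) (nat_lit 5) (nat_lit 341) (nat_lit 282) (nat_lit 157)) (XT.nd (nat_lit 78) (nat_lit 228) (nat_lit 0) (XT.lf (nat_lit 0) (nat_lit 14247878971) (nat_lit 228) (nat_lit 1106999743) (nat_lit 304) (nat_lit 8177676382) (nat_lit 51) (nat_lit 5) (nat_lit 54) (nat_lit 5) (nat_lit 55) (nat_lit 5) (nat_lit 342) (nat_lit 282) (nat_lit 156)) (XT.lf (nat_lit 0) (nat_lit 158212837) (nat_lit 228) (nat_lit 18909441559) (nat_lit 304) (nat_lit 4968484804) (nat_lit 48) (nat_lit 5) (nat_lit 51) (nat_lit 5) (nat_lit 52) (nat_lit 5) (nat_lit 343) (nat_lit 282) (nat_lit 155))))) (XT.nd (nat_lit 234) (nat_lit 228) (nat_lit 0) (XT.nd (nat_lit 78) (nat_lit 304) (nat_lit 0) (XT.lf (nat_lit 0) (nat_lit 10050624972) (nat_lit 228) (nat_lit 12936969026) (nat_lit 304) (nat_lit 1564375462) (nat_lit 48) (nat_lit 5) (nat_lit 51) (nat_lit 5)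 (nat_lit 52) (nat_lit 5) (nat_lit 344) (nat_lit 282) (nat_lit 154)) (XT.nd (nat_lit 78) (nat_lit 228) (nat_lit 0) (XT.lf (nat_lit 0) (nat_lit 1895296040) (nat_lit 304) (nat_lit 4874851014) (nat_lit 76) (nat_lit 18312838996) (nat_lit 47) (nat_lit 5) (nat_lit 51) (nat_lit 5) (nat_lit 48) (nat_lit 5) (nat_lit 345) (nat_lit 282) (nat_lit 153)) (XT.lf (nat_lit 0) (nat_lit 5112359884) (nat_lit 228) (nat_lit 355682523) (nat_lit 304) (nat_lit 20160215281) (nat_lit 44) (nat_lit 5) (nat_lit 47) (nat_lit 5) (nat_lit 48) (nat_lit 5) (nat_lit 346) (nat_lit 282) (nat_lit 152)))) (XT.nd (nat_lit 78) (nat_lit 228) (nat_lit 0) (XT.lf (nat_lit 0) (nat_lit 9249449207) (nat_lit 304) (nat_lit 10762321297) (nat_lit 76) (nat_lit 6175083338) (nat_lit 44) (nat_lit 5) (nat_lit 48) (nat_lit 5) (nat_lit 45) (nat_lit 5) (nat_lit 347) (nat_lit 282) (nat_lit 151)) (XT.nd (nat_lit 78) (nat_lit 228) (nat_lit 0) (XT.lf (nat_lit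 0) (nat_lit 13139736034) (nat_lit 304) (nat_lit 731745986) (nat_lit 76) (nat_lit 12890873122) (nat_lit 44) (nat_lit 5) (nat_lit 48) (nat_lit 5) (nat_lit 45) (nat_lit 5) (nat_lit 348) (nat_lit 282) (nat_lit 150)) (XT.lf (nat_lit 0) (nat_lit 9778831980) (nat_lit 228) (nat_lit 7454051265) (nat_lit 304) (nat_lit 10119663773) (nat_lit 41) (nat_lit 5) (nat_lit 44) (nat_lit 5) (nat_lit 45) (nat_lit 5) (nat_lit 349) (nat_lit 282) (nat_lit 149))))))))
noncomputable def xc170 : XT := (XT.nd (nat_lit 1794) (nat_lit 608) (nat_lit 0) (XT.nd (nat_lit 858) (nat_lit 684) (nat_lit 0) (XT.nd (nat_lit 390) (nat_lit 380) (nat_lit 0) (XT.nd (nat_lit 156) (nat_lit 304) (nat_lit 0) (XT.nd (nat_lit 78) (nat_lit 152) (nat_lit 0) (XT.lf (nat_lit 0) (nat_lit 20608107572) (nat_lit 228) (nat_lit 840375062) (nat_lit 304) (nat_lit 6511982084) (nat_lit 41) (nat_lit 5) (nat_lit 44) (nat_lit 5) (nat_lit 45) (nat_lit 5) (nat_lit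 350) (nat_lit 282) (nat_lit 148)) (XT.lf (nat_lit 0) (nat_lit 3168588551) (nat_lit 152) (nat_lit 22702281067) (nat_lit 228) (nat_lit 2713350255) (nat_lit 39) (nat_lit 5) (nat_lit 41) (nat_lit 5) (nat_lit 42) (nat_lit 5) (nat_lit 351) (nat_lit 282) (nat_lit 147))) (XT.nd (nat_lit 78) (nat_lit 228) (nat_lit 0) (XT.lf (nat_lit 0) (nat_lit 1251624290) (nat_lit 228) (nat_lit 15100690831) (nat_lit 76) (nat_lit 12871762137) (nat_lit 38) (nat_lit 5) (nat_lit 41) (nat_lit 5) (nat_lit 39) (nat_lit 5) (nat_lit 352) (nat_lit 282) (nat_lit 146)) (XT.nd (nat_lit 78) (nat_lit 228) (nat_lit 0) (XT.lf (nat_lit 0) (nat_lit 5273716531) (nat_lit 228) (nat_lit 4514357018) (nat_lit 76) (nat_lit 20094478452) (nat_lit 38) (nat_lit 5) (nat_lit 41) (nat_lit 5) (nat_lit 39) (nat_lit 5) (nat_lit 353) (nat_lit 282) (nat_lit 145)) (XT.lf (nat_lit 0) (nat_lit 6505651383) (nat_lit 228) (nat_lit 2966273070) (nat_lit 304) (nat_lit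 21087201399) (nat_lit 35) (nat_lit 5) (nat_lit 38) (nat_lit 5) (nat_lit 39) (nat_lit 5) (nat_lit 354) (nat_lit 282) (nat_lit 144))))) (XT.nd (nat_lit 234) (nat_lit 228) (nat_lit 0) (XT.nd (nat_lit 78) (nat_lit 152) (nat_lit 0) (XT.lf (nat_lit 0) (nat_lit 13874128273) (nat_lit 304) (nat_lit 13356248618) (nat_lit 76) (nat_lit 4023286744) (nat_lit 35) (nat_lit 5) (nat_lit 39) (nat_lit 5) (nat_lit 36) (nat_lit 5) (nat_lit 355) (nat_lit 282) (nat_lit 143)) (XT.nd (nat_lit 78) (nat_lit 152) (nat_lit 0) (XT.lf (nat_lit 0) (nat_lit 18430954828) (nat_lit 304) (nat_lit 2378095341) (nat_lit 76) (nat_lit 11159318651) (nat_lit 35) (nat_lit 5) (nat_lit 39) (nat_lit 5) (nat_lit 36) (nat_lit 5) (nat_lit 356) (nat_lit 282) (nat_lit 142)) (XT.lf (nat_lit 0) (nat_lit 9096598965) (nat_lit 152) (nat_lit 14108715290) (nat_lit 228) (nat_lit 9496783798) (nat_lit 33) (nat_lit 5) (nat_lit 35) (nat_lit 5) (nat_lit 36)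 (nat_lit 5) (nat_lit 357) (nat_lit 282) (nat_lit 141)))) (XT.nd (nat_lit 78) (nat_lit 228) (nat_lit 0) (XT.lf (nat_lit 0) (nat_lit 20954072833) (nat_lit 152) (nat_lit 7186326232) (nat_lit 228) (nat_lit 5316922771) (nat_lit 33) (nat_lit 5) (nat_lit 35) (nat_lit 5) (nat_lit 36) (nat_lit 5) (nat_lit 358) (nat_lit 282) (nat_lit 140)) (XT.nd (nat_lit 78) (nat_lit 228) (nat_lit 0) (XT.lf (nat_lit 0) (nat_lit 33157358400) (nat_lit 152) (nat_lit 59848405) (nat_lit 228) (nat_lit 1018192707) (nat_lit 33) (nat_lit 5) (nat_lit 35) (nat_lit 5) (nat_lit 36) (nat_lit 5) (nat_lit 359) (nat_lit 282) (nat_lit 139)) (XT.lf (nat_lit 0) (nat_lit 3512448698) (nat_lit 228) (nat_lit 24244907314) (nat_lit 76) (nat_lit 7273402720) (nat_lit 30) (nat_lit 5) (nat_lit 33) (nat_lit 5) (nat_lit 31) (nat_lit 5) (nat_lit 360) (nat_lit 282) (nat_lit 138)))))) (XT.nd (nat_lit 468) (nat_lit 380) (nat_lit 0) (XT.nd (nat_lit 234)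 (nat_lit 152) (nat_lit 0) (XT.nd (nat_lit 78) (nat_lit 152) (nat_lit 0) (XT.lf (nat_lit 0) (nat_lit 8163972232) (nat_lit 228) (nat_lit 12842489241) (nat_lit 76) (nat_lit 14843058671) (nat_lit 30) (nat_lit 5) (nat_lit 33) (nat_lit 5) (nat_lit 31) (nat_lit 5) (nat_lit 361) (nat_lit 282) (nat_lit 137)) (XT.nd (nat_lit 78) (nat_lit 152) (nat_lit 0) (XT.lf (nat_lit 0) (nat_lit 12949061964) (nat_lit 228) (nat_lit 1107527894) (nat_lit 76) (nat_lit 22636440401) (nat_lit 30) (nat_lit 5) (nat_lit 33) (nat_lit 5) (nat_lit 31) (nat_lit 5) (nat_lit 362) (nat_lit 282) (nat_lit 136)) (XT.lf (nat_lit 0) (nat_lit 11188559674) (nat_lit 152) (nat_lit 6790890648) (nat_lit 228) (nat_lit 19579349268) (nat_lit 28) (nat_lit 5) (nat_lit 30) (nat_lit 5) (nat_lit 31) (nat_lit 5) (nat_lit 363) (nat_lit 282) (nat_lit 135)))) (XT.nd (nat_lit 78) (nat_lit 152) (nat_lit 0) (XT.lf (nat_lit 0) (nat_lit 23172946989) (nat_lit 228)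 (nat_lit 14590049347) (nat_lit 76) (nat_lit 687185872) (nat_lit 28) (nat_lit 5) (nat_lit 31) (nat_lit 5) (nat_lit 29) (nat_lit 5) (nat_lit 364) (nat_lit 282) (nat_lit 134)) (XT.nd (nat_lit 78) (nat_lit 152) (nat_lit 0) (XT.lf (nat_lit 0) (nat_lit 28583895430) (nat_lit 228) (nat_lit 2532724373) (nat_lit 76) (nat_lit 8249843023) (nat_lit 28) (nat_lit 5) (nat_lit 31) (nat_lit 5) (nat_lit 29) (nat_lit 5) (nat_lit 365) (nat_lit 282) (nat_lit 133)) (XT.lf (nat_lit 0) (nat_lit 10074131314) (nat_lit 152) (nat_lit 24174452863) (nat_lit 228) (nat_lit 6058911085) (nat_lit 26) (nat_lit 5) (nat_lit 28) (nat_lit 5) (nat_lit 29) (nat_lit 5) (nat_lit 366) (nat_lit 282) (nat_lit 132))))) (XT.nd (nat_lit 234) (nat_lit 152) (nat_lit 0) (XT.nd (nat_lit 78) (nat_lit 228) (nat_lit 0) (XT.lf (nat_lit 0) (nat_lit 23102425413) (nat_lit 152) (nat_lit 17001011437) (nat_lit 228) (nat_lit 1172720713) (nat_lit 26) (nat_lit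 5) (nat_lit 28) (nat_lit 5) (nat_lit 29) (nat_lit 5) (nat_lit 367) (nat_lit 282) (nat_lit 131)) (XT.nd (nat_lit 78) (nat_lit 152) (nat_lit 0) (XT.lf (nat_lit 0) (nat_lit 3779478622) (nat_lit 228) (nat_lit 5797959075) (nat_lit 76) (nat_lit 32695491742) (nat_lit 25) (nat_lit 5) (nat_lit 28) (nat_lit 5) (nat_lit 26) (nat_lit 5) (nat_lit 368) (nat_lit 282) (nat_lit 130)) (XT.lf (nat_lit 0) (nat_lit 7067086760) (nat_lit 152) (nat_lit 1852419653) (nat_lit 228) (nat_lit 34377869848) (nat_lit 23) (nat_lit 5) (nat_lit 25) (nat_lit 5) (nat_lit 26) (nat_lit 5) (nat_lit 369) (nat_lit 282) (nat_lit 129)))) (XT.nd (nat_lit 78) (nat_lit 152) (nat_lit 0) (XT.lf (nat_lit 0) (nat_lit 14326480338) (nat_lit 228) (nat_lit 23981459658) (nat_lit 76) (nat_lit 6041239098) (nat_lit 23) (nat_lit 5) (nat_lit 26) (nat_lit 5) (nat_lit 24) (nat_lit 5) (nat_lit 370) (nat_lit 282) (nat_lit 128)) (XT.nd (nat_lit 78) (nat_lit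 152) (nat_lit 0) (XT.lf (nat_lit 0) (nat_lit 19909090542) (nat_lit 228) (nat_lit 11391600504) (nat_lit 76) (nat_lit 14131446974) (nat_lit 23) (nat_lit 5) (nat_lit 26) (nat_lit 5) (nat_lit 24) (nat_lit 5) (nat_lit 371) (nat_lit 282) (nat_lit 127)) (XT.lf (nat_lit 0) (nat_lit 1599303572) (nat_lit 152) (nat_lit 24070478355) (nat_lit 228) (nat_lit 20877490382) (nat_lit 21) (nat_lit 5) (nat_lit 23) (nat_lit 5) (nat_lit 24) (nat_lit 5) (nat_lit 372) (nat_lit 282) (nat_lit 126))))))) (XT.nd (nat_lit 858) (nat_lit 304) (nat_lit 0) (XT.nd (nat_lit 390) (nat_lit 152) (nat_lit 0) (XT.nd (nat_lit 156) (nat_lit 152) (nat_lit 0) (XT.nd (nat_lit 78) (nat_lit 0) (nat_lit 0) (XT.lf (nat_lit 0) (nat_lit 15205669438) (nat_lit 152) (nat_lit 16507950981) (nat_lit 228) (nat_lit 15978934959) (nat_lit 21) (nat_lit 5) (nat_lit 23) (nat_lit 5) (nat_lit 24) (nat_lit 5) (nat_lit 373) (nat_lit 282) (nat_lit 125)) (XT.lf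 (nat_lit 0) (nat_lit 29212670965) (nat_lit 152) (nat_lit 8721533718) (nat_lit 228) (nat_lit 10938133750) (nat_lit 21) (nat_lit 5) (nat_lit 23) (nat_lit 5) (nat_lit 24) (nat_lit 5) (nat_lit 374) (nat_lit 282) (nat_lit 124))) (XT.nd (nat_lit 78) (nat_lit 152) (nat_lit 0) (XT.lf (nat_lit 0) (nat_lit 43632547279) (nat_lit 152) (nat_lit 704422902) (nat_lit 228) (nat_lit 5750682169) (nat_lit 21) (nat_lit 5) (nat_lit 23) (nat_lit 5) (nat_lit 24) (nat_lit 5) (nat_lit 375) (nat_lit 282) (nat_lit 123)) (XT.nd (nat_lit 78) (nat_lit 76) (nat_lit 0) (XT.lf (nat_lit 0) (nat_lit 7206382764) (nat_lit 76) (nat_lit 43862979895) (nat_lit 152) (nat_lit 265940864) (nat_lit 20) (nat_lit 5) (nat_lit 21) (nat_lit 5) (nat_lit 22) (nat_lit 4) (nat_lit 376) (nat_lit 282) (nat_lit 122)) (XT.lf (nat_lit 0) (nat_lit 5346775047) (nat_lit 152) (nat_lit 31275005025) (nat_lit 76) (nat_lit 15995001216) (nat_lit 19) (nat_lit 5)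 (nat_lit 21) (nat_lit 5) (nat_lit 20) (nat_lit 5) (nat_lit 377) (nat_lit 282) (nat_lit 121))))) (XT.nd (nat_lit 234) (nat_lit 0) (nat_lit 0) (XT.nd (nat_lit 78) (nat_lit 152) (nat_lit 0) (XT.lf (nat_lit 0) (nat_lit 11118330202) (nat_lit 152) (nat_lit 18045140837) (nat_lit 76) (nat_lit 24773283072) (nat_lit 19) (nat_lit 5) (nat_lit 21) (nat_lit 5) (nat_lit 20) (nat_lit 5) (nat_lit 378) (nat_lit 282) (nat_lit 120)) (XT.nd (nat_lit 78) (nat_lit 152) (nat_lit 0) (XT.lf (nat_lit 0) (nat_lit 17058957171) (nat_lit 152) (nat_lit 4425211733) (nat_lit 76) (nat_lit 33812283154) (nat_lit 19) (nat_lit 5) (nat_lit 21) (nat_lit 5) (nat_lit 20) (nat_lit 5) (nat_lit 379) (nat_lit 282) (nat_lit 119)) (XT.lf (nat_lit 0) (nat_lit 9787676006) (nat_lit 152) (nat_lit 13480255915) (nat_lit 228) (nat_lit 33426308741) (nat_lit 17) (nat_lit 5) (nat_lit 19) (nat_lit 5) (nat_lit 20) (nat_lit 5) (nat_lit 380) (nat_lit 282)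 (nat_lit 118)))) (XT.nd (nat_lit 78) (nat_lit 0) (nat_lit 0) (XT.lf (nat_lit 0) (nat_lit 24511095852) (nat_lit 152) (nat_lit 5192861969) (nat_lit 228) (nat_lit 28428785128) (nat_lit 17) (nat_lit 5) (nat_lit 19) (nat_lit 5) (nat_lit 20) (nat_lit 5) (nat_lit 381) (nat_lit 282) (nat_lit 117)) (XT.nd (nat_lit 78) (nat_lit 0) (nat_lit 0) (XT.lf (nat_lit 0) (nat_lit 36361385740) (nat_lit 228) (nat_lit 19976786446) (nat_lit 76) (nat_lit 3275381862) (nat_lit 17) (nat_lit 5) (nat_lit 20) (nat_lit 5) (nat_lit 18) (nat_lit 4) (nat_lit 382) (nat_lit 282) (nat_lit 116)) (XT.lf (nat_lit 0) (nat_lit 43266246896) (nat_lit 228) (nat_lit 5980274056) (nat_lit 76) (nat_lit 11890840498) (nat_lit 17) (nat_lit 5) (nat_lit 20) (nat_lit 5) (nat_lit 18) (nat_lit 4) (nat_lit 383) (nat_lit 282) (nat_lit 115)))))) (XT.nd (nat_lit 468) (nat_lit 0) (nat_lit 0) (XT.nd (nat_lit 234) (nat_lit 228) (nat_lit 0) (XT.nd (nat_lit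 78) (nat_lit 0) (nat_lit 0) (XT.lf (nat_lit 0) (nat_lit 8597811265) (nat_lit 76) (nat_lit 41859493854) (nat_lit 152) (nat_lit 12247209606) (nat_lit 16) (nat_lit 5) (nat_lit 17) (nat_lit 5) (nat_lit 18) (nat_lit 4) (nat_lit 384) (nat_lit 282) (nat_lit 114)) (XT.nd (nat_lit 78) (nat_lit 0) (nat_lit 0) (XT.lf (nat_lit 0) (nat_lit 23729791967) (nat_lit 76) (nat_lit 34191142687) (nat_lit 152) (nat_lit 6396045850) (nat_lit 16) (nat_lit 5) (nat_lit 17) (nat_lit 5) (nat_lit 18) (nat_lit 4) (nat_lit 385) (nat_lit 282) (nat_lit 113)) (XT.lf (nat_lit 0) (nat_lit 39309870990) (nat_lit 76) (nat_lit 26295155991) (nat_lit 152) (nat_lit 372899662) (nat_lit 16) (nat_lit 5) (nat_lit 17) (nat_lit 5) (nat_lit 18) (nat_lit 4) (nat_lit 386) (nat_lit 282) (nat_lit 112)))) (XT.nd (nat_lit 78) (nat_lit 152) (nat_lit 0) (XT.lf (nat_lit 0) (nat_lit 5713776543) (nat_lit 152) (nat_lit 12393159879) (nat_lit 76) (nat_lit 49580187512)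 (nat_lit 15) (nat_lit 5) (nat_lit 17) (nat_lit 5) (nat_lit 16) (nat_lit 5) (nat_lit 387) (nat_lit 282) (nat_lit 111)) (XT.nd (nat_lit 78) (nat_lit 0) (nat_lit 0) (XT.lf (nat_lit 0) (nat_lit 2346486353) (nat_lit 152) (nat_lit 9648344420) (nat_lit 228) (nat_lit 57452080177) (nat_lit 13) (nat_lit 5) (nat_lit 15) (nat_lit 5) (nat_lit 16) (nat_lit 5) (nat_lit 388) (nat_lit 282) (nat_lit 110)) (XT.lf (nat_lit 0) (nat_lit 17776831689) (nat_lit 152) (nat_lit 809390736) (nat_lit 228) (nat_lit 52669614644) (nat_lit 13) (nat_lit 5) (nat_lit 15) (nat_lit 5) (nat_lit 16) (nat_lit 5) (nat_lit 389) (nat_lit 282) (nat_lit 109))))) (XT.nd (nat_lit 32292) (nat_lit 0) (nat_lit 13224) (XT.nd (nat_lit 78) (nat_lit 0) (nat_lit 0) (XT.lf (nat_lit 0) (nat_lit 25451922001) (nat_lit 228) (nat_lit 39534129780) (nat_lit 76) (nat_lit 8130684799) (nat_lit 13) (nat_lit 5) (nat_lit 16) (nat_lit 5) (nat_lit 14) (nat_lit 4) (nat_lit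 390) (nat_lit 282) (nat_lit 108)) (XT.nd (nat_lit 78) (nat_lit 0) (nat_lit 0) (XT.lf (nat_lit 0) (nat_lit 32528530737) (nat_lit 228) (nat_lit 25184215039) (nat_lit 76) (nat_lit 17320571671) (nat_lit 13) (nat_lit 5) (nat_lit 16) (nat_lit 5) (nat_lit 14) (nat_lit 4) (nat_lit 391) (nat_lit 282) (nat_lit 107)) (XT.lf (nat_lit 0) (nat_lit 39814451721) (nat_lit 228) (nat_lit 10408942036) (nat_lit 76) (nat_lit 26784094004) (nat_lit 13) (nat_lit 5) (nat_lit 16) (nat_lit 5) (nat_lit 14) (nat_lit 4) (nat_lit 392) (nat_lit 282) (nat_lit 106)))) (XT.nd (nat_lit 78) (nat_lit 0) (nat_lit 0) (XT.lf (nat_lit 0) (nat_lit 1717293898) (nat_lit 988) (nat_lit 1332037277) (nat_lit 988) (nat_lit 1332037277) (nat_lit 187) (nat_lit 3) (nat_lit 200) (nat_lit 3) (nat_lit 200) (nat_lit 5) (nat_lit 283) (nat_lit 283) (nat_lit 214)) (XT.nd (nat_lit 78) (nat_lit 0) (nat_lit 0) (XT.lf (nat_lit 76) (nat_lit 1108439415) (nat_lit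 0) (nat_lit 3261600319) (nat_lit 988) (nat_lit 4495511185) (nat_lit 188) (nat_lit 5) (nat_lit 187) (nat_lit 3) (nat_lit 200) (nat_lit 5) (nat_lit 284) (nat_lit 283) (nat_lit 213)) (XT.lf (nat_lit 76) (nat_lit 5030796402) (nat_lit 0) (nat_lit 295406673) (nat_lit 988) (nat_lit 3645549154) (nat_lit 188) (nat_lit 5) (nat_lit 187) (nat_lit 3) (nat_lit 200) (nat_lit 5) (nat_lit 285) (nat_lit 283) (nat_lit 212))))))))
noncomputable def xc171 : XT := (XT.nd (nat_lit 1794) (nat_lit 4256) (nat_lit 0) (XT.nd (nat_lit 858) (nat_lit 3800) (nat_lit 0) (XT.nd (nat_lit 390) (nat_lit 0) (nat_lit 76) (XT.nd (nat_lit 156) (nat_lit 912) (nat_lit 0) (XT.nd (nat_lit 78) (nat_lit 0) (nat_lit 0) (XT.lf (nat_lit 0) (nat_lit 6304475769) (nat_lit 912) (nat_lit 55494630) (nat_lit 988) (nat_lit 2721446358) (nat_lit 188) (nat_lit 5) (nat_lit 200) (nat_lit 5) (nat_lit 201) (nat_lit 5) (nat_lit 286) (nat_lit 283) (nat_lit 211))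 (XT.lf (nat_lit 76) (nat_lit 4003623390) (nat_lit 0) (nat_lit 3317743377) (nat_lit 988) (nat_lit 1872803936) (nat_lit 189) (nat_lit 5) (nat_lit 188) (nat_lit 5) (nat_lit 201) (nat_lit 5) (nat_lit 287) (nat_lit 283) (nat_lit 210))) (XT.nd (nat_lit 78) (nat_lit 912) (nat_lit 0) (XT.lf (nat_lit 76) (nat_lit 8167722754) (nat_lit 0) (nat_lit 170225920) (nat_lit 988) (nat_lit 973358393) (nat_lit 189) (nat_lit 5) (nat_lit 188) (nat_lit 5) (nat_lit 201) (nat_lit 5) (nat_lit 288) (nat_lit 283) (nat_lit 209)) (XT.nd (nat_lit 78) (nat_lit 988) (nat_lit 0) (XT.lf (nat_lit 76) (nat_lit 3035983271) (nat_lit 0) (nat_lit 6377418870) (nat_lit 988) (nat_lit 17777288) (nat_lit 190) (nat_lit 5) (nat_lit 189) (nat_lit 5) (nat_lit 202) (nat_lit 5) (nat_lit 289) (nat_lit 283) (nat_lit 208)) (XT.lf (nat_lit 0) (nat_lit 930967106) (nat_lit 988) (nat_lit 2220015661) (nat_lit 1064) (nat_lit 6403954766) (nat_lit 176) (nat_lit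 5) (nat_lit 189) (nat_lit 5) (nat_lit 190) (nat_lit 5) (nat_lit 290) (nat_lit 283) (nat_lit 207))))) (XT.nd (nat_lit 234) (nat_lit 0) (nat_lit 76) (XT.nd (nat_lit 78) (nat_lit 0) (nat_lit 0) (XT.lf (nat_lit 0) (nat_lit 1900871412) (nat_lit 988) (nat_lit 7581870176) (nat_lit 1064) (nat_lit 199936789) (nat_lit 177) (nat_lit 5) (nat_lit 190) (nat_lit 5) (nat_lit 191) (nat_lit 5) (nat_lit 291) (nat_lit 283) (nat_lit 206)) (XT.nd (nat_lit 78) (nat_lit 0) (nat_lit 0) (XT.lf (nat_lit 0) (nat_lit 2925361846) (nat_lit 988) (nat_lit 3267519897) (nat_lit 1064) (nat_lit 3620670010) (nat_lit 177) (nat_lit 5) (nat_lit 190) (nat_lit 5) (nat_lit 191) (nat_lit 5) (nat_lit 292) (nat_lit 283) (nat_lit 205)) (XT.lf (nat_lit 76) (nat_lit 1180573766) (nat_lit 0) (nat_lit 2783838698) (nat_lit 1064) (nat_lit 5984487186) (nat_lit 178) (nat_lit 5) (nat_lit 177) (nat_lit 5) (nat_lit 191) (nat_lit 5) (nat_lit 293) (nat_lit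 283) (nat_lit 204)))) (XT.nd (nat_lit 78) (nat_lit 0) (nat_lit 0) (XT.lf (nat_lit 0) (nat_lit 5048130610) (nat_lit 988) (nat_lit 4285035933) (nat_lit 1064) (nat_lit 754797808) (nat_lit 178) (nat_lit 5) (nat_lit 191) (nat_lit 5) (nat_lit 192) (nat_lit 5) (nat_lit 294) (nat_lit 283) (nat_lit 203)) (XT.nd (nat_lit 78) (nat_lit 0) (nat_lit 0) (XT.lf (nat_lit 76) (nat_lit 291965529) (nat_lit 0) (nat_lit 5876726057) (nat_lit 1064) (nat_lit 4062438929) (nat_lit 179) (nat_lit 5) (nat_lit 178) (nat_lit 5) (nat_lit 192) (nat_lit 5) (nat_lit 295) (nat_lit 283) (nat_lit 202)) (XT.lf (nat_lit 76) (nat_lit 5075379850) (nat_lit 0) (nat_lit 2265300264) (nat_lit 1064) (nat_lit 3037434960) (nat_lit 179) (nat_lit 5) (nat_lit 178) (nat_lit 5) (nat_lit 192) (nat_lit 5) (nat_lit 296) (nat_lit 283) (nat_lit 201)))))) (XT.nd (nat_lit 468) (nat_lit 1976) (nat_lit 0) (XT.nd (nat_lit 234) (nat_lit 988) (nat_lit 0) (XT.nd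 (nat_lit 78) (nat_lit 1064) (nat_lit 0) (XT.lf (nat_lit 0) (nat_lit 8537154094) (nat_lit 988) (nat_lit 560244656) (nat_lit 1064) (nat_lit 1432486695) (nat_lit 179) (nat_lit 5) (nat_lit 192) (nat_lit 5) (nat_lit 193) (nat_lit 5) (nat_lit 297) (nat_lit 283) (nat_lit 200)) (XT.nd (nat_lit 78) (nat_lit 1064) (nat_lit 0) (XT.lf (nat_lit 76) (nat_lit 4368847902) (nat_lit 0) (nat_lit 5441161819) (nat_lit 1064) (nat_lit 875039001) (nat_lit 180) (nat_lit 5) (nat_lit 179) (nat_lit 5) (nat_lit 193) (nat_lit 5) (nat_lit 298) (nat_lit 283) (nat_lit 199)) (XT.lf (nat_lit 0) (nat_lit 252808342) (nat_lit 1064) (nat_lit 1408947938) (nat_lit 1140) (nat_lit 9183621857) (nat_lit 165) (nat_lit 5) (nat_lit 179) (nat_lit 5) (nat_lit 180) (nat_lit 5) (nat_lit 299) (nat_lit 283) (nat_lit 198)))) (XT.nd (nat_lit 78) (nat_lit 1064) (nat_lit 0) (XT.lf (nat_lit 0) (nat_lit 1431298778) (nat_lit 1064) (nat_lit 7341275288)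 (nat_lit 76) (nat_lit 2236701402) (nat_lit 166) (nat_lit 5) (nat_lit 180) (nat_lit 5) (nat_lit 167) (nat_lit 5) (nat_lit 300) (nat_lit 283) (nat_lit 197)) (XT.nd (nat_lit 78) (nat_lit 1064) (nat_lit 0) (XT.lf (nat_lit 0) (nat_lit 2653494339) (nat_lit 1064) (nat_lit 2286993711) (nat_lit 76) (nat_lit 6237399506) (nat_lit 166) (nat_lit 5) (nat_lit 180) (nat_lit 5) (nat_lit 167) (nat_lit 5) (nat_lit 301) (nat_lit 283) (nat_lit 196)) (XT.lf (nat_lit 0) (nat_lit 2958317813) (nat_lit 1064) (nat_lit 960658512) (nat_lit 1140) (nat_lit 7432430003) (nat_lit 152) (nat_lit 5) (nat_lit 166) (nat_lit 5) (nat_lit 167) (nat_lit 5) (nat_lit 302) (nat_lit 283) (nat_lit 195))))) (XT.nd (nat_lit 234) (nat_lit 1140) (nat_lit 0) (XT.nd (nat_lit 78) (nat_lit 836) (nat_lit 0) (XT.lf (nat_lit 0) (nat_lit 5254590646) (nat_lit 1140) (nat_lit 3170829860) (nat_lit 76) (nat_lit 3103790695) (nat_lit 152) (nat_lit 5) (nat_lit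 167) (nat_lit 5) (nat_lit 153) (nat_lit 5) (nat_lit 303) (nat_lit 283) (nat_lit 194)) (XT.nd (nat_lit 78) (nat_lit 0) (nat_lit 0) (XT.lf (nat_lit 0) (nat_lit 2223662812) (nat_lit 836) (nat_lit 4416793621) (nat_lit 912) (nat_lit 5071632543) (nat_lit 141) (nat_lit 5) (nat_lit 152) (nat_lit 5) (nat_lit 153) (nat_lit 5) (nat_lit 304) (nat_lit 283) (nat_lit 193)) (XT.lf (nat_lit 0) (nat_lit 7826854774) (nat_lit 836) (nat_lit 252787644) (nat_lit 912) (nat_lit 3820501296) (nat_lit 141) (nat_lit 5) (nat_lit 152) (nat_lit 5) (nat_lit 153) (nat_lit 5) (nat_lit 305) (nat_lit 283) (nat_lit 192)))) (XT.nd (nat_lit 78) (nat_lit 608) (nat_lit 0) (XT.lf (nat_lit 0) (nat_lit 1476049179) (nat_lit 532) (nat_lit 8119276892) (nat_lit 608) (nat_lit 2497556065) (nat_lit 134) (nat_lit 5) (nat_lit 141) (nat_lit 5) (nat_lit 142) (nat_lit 5) (nat_lit 306) (nat_lit 283) (nat_lit 191)) (XT.nd (nat_lit 78) (nat_lit 608) (nat_lit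 0) (XT.lf (nat_lit 0) (nat_lit 7254733795) (nat_lit 532) (nat_lit 3926091510) (nat_lit 608) (nat_lit 1109887547) (nat_lit 134) (nat_lit 5) (nat_lit 141) (nat_lit 5) (nat_lit 142) (nat_lit 5) (nat_lit 307) (nat_lit 283) (nat_lit 190)) (XT.lf (nat_lit 0) (nat_lit 304910597) (nat_lit 608) (nat_lit 11793652643) (nat_lit 76) (nat_lit 396109331) (nat_lit 126) (nat_lit 5) (nat_lit 134) (nat_lit 5) (nat_lit 127) (nat_lit 5) (nat_lit 308) (nat_lit 283) (nat_lit 189))))))) (XT.nd (nat_lit 936) (nat_lit 1900) (nat_lit 0) (XT.nd (nat_lit 468) (nat_lit 1368) (nat_lit 0) (XT.nd (nat_lit 234) (nat_lit 532) (nat_lit 0) (XT.nd (nat_lit 78) (nat_lit 456) (nat_lit 0) (XT.lf (nat_lit 0) (nat_lit 1811533725) (nat_lit 608) (nat_lit 6058620949) (nat_lit 76) (nat_lit 4832153133) (nat_lit 126) (nat_lit 5) (nat_lit 134) (nat_lit 5) (nat_lit 127) (nat_lit 5) (nat_lit 309) (nat_lit 283) (nat_lit 188)) (XT.nd (nat_lit 78)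 (nat_lit 456) (nat_lit 0) (XT.lf (nat_lit 0) (nat_lit 3345355034) (nat_lit 608) (nat_lit 169394917) (nat_lit 76) (nat_lit 9401998140) (nat_lit 126) (nat_lit 5) (nat_lit 134) (nat_lit 5) (nat_lit 127) (nat_lit 5) (nat_lit 310) (nat_lit 283) (nat_lit 187)) (XT.lf (nat_lit 0) (nat_lit 4975262610) (nat_lit 532) (nat_lit 7150182133) (nat_lit 76) (nat_lit 1010709620) (nat_lit 120) (nat_lit 5) (nat_lit 127) (nat_lit 5) (nat_lit 121) (nat_lit 5) (nat_lit 311) (nat_lit 283) (nat_lit 186)))) (XT.nd (nat_lit 78) (nat_lit 532) (nat_lit 0) (XT.lf (nat_lit 0) (nat_lit 6673461856) (nat_lit 532) (nat_lit 1085149223) (nat_lit 76) (nat_lit 5602983821) (nat_lit 120) (nat_lit 5) (nat_lit 127) (nat_lit 5) (nat_lit 121) (nat_lit 5) (nat_lit 312) (nat_lit 283) (nat_lit 185)) (XT.nd (nat_lit 78) (nat_lit 0) (nat_lit 0) (XT.lf (nat_lit 0) (nat_lit 5247024873) (nat_lit 532) (nat_lit 3209386270) (nat_lit 608) (nat_lit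 5136406312) (nat_lit 113) (nat_lit 5) (nat_lit 120) (nat_lit 5) (nat_lit 121) (nat_lit 5) (nat_lit 313) (nat_lit 283) (nat_lit 184)) (XT.lf (nat_lit 0) (nat_lit 10301786865) (nat_lit 608) (nat_lit 2071083004) (nat_lit 76) (nat_lit 1457870643) (nat_lit 113) (nat_lit 5) (nat_lit 121) (nat_lit 5) (nat_lit 114) (nat_lit 5) (nat_lit 314) (nat_lit 283) (nat_lit 183))))) (XT.nd (nat_lit 234) (nat_lit 380) (nat_lit 0) (XT.nd (nat_lit 78) (nat_lit 532) (nat_lit 0) (XT.lf (nat_lit 0) (nat_lit 4429494133) (nat_lit 456) (nat_lit 7831540499) (nat_lit 532) (nat_lit 1813042338) (nat_lit 107) (nat_lit 5) (nat_lit 113) (nat_lit 5) (nat_lit 114) (nat_lit 5) (nat_lit 315) (nat_lit 283) (nat_lit 182)) (XT.nd (nat_lit 78) (nat_lit 532) (nat_lit 0) (XT.lf (nat_lit 0) (nat_lit 11150677734) (nat_lit 456) (nat_lit 3133751000) (nat_lit 532) (nat_lit 40153850) (nat_lit 107) (nat_lit 5) (nat_lit 113) (nat_lit 5) (nat_lit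 114) (nat_lit 5) (nat_lit 316) (nat_lit 283) (nat_lit 181)) (XT.lf (nat_lit 0) (nat_lit 1786574527) (nat_lit 532) (nat_lit 11072618574) (nat_lit 76) (nat_lit 1721858554) (nat_lit 100) (nat_lit 5) (nat_lit 107) (nat_lit 5) (nat_lit 101) (nat_lit 5) (nat_lit 317) (nat_lit 283) (nat_lit 180)))) (XT.nd (nat_lit 78) (nat_lit 380) (nat_lit 0) (XT.lf (nat_lit 0) (nat_lit 3715692927) (nat_lit 532) (nat_lit 4436697750) (nat_lit 76) (nat_lit 6691387911) (nat_lit 100) (nat_lit 5) (nat_lit 107) (nat_lit 5) (nat_lit 101) (nat_lit 5) (nat_lit 318) (nat_lit 283) (nat_lit 179)) (XT.nd (nat_lit 78) (nat_lit 0) (nat_lit 0) (XT.lf (nat_lit 0) (nat_lit 2429192886) (nat_lit 380) (nat_lit 3282280202) (nat_lit 456) (nat_lit 9402677363) (nat_lit 95) (nat_lit 5) (nat_lit 100) (nat_lit 5) (nat_lit 101) (nat_lit 5) (nat_lit 319) (nat_lit 283) (nat_lit 178)) (XT.lf (nat_lit 0) (nat_lit 7814724414) (nat_lit 456) (nat_lit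 5833175812) (nat_lit 76) (nat_lit 1743331302) (nat_lit 95) (nat_lit 5) (nat_lit 101) (nat_lit 5) (nat_lit 96) (nat_lit 5) (nat_lit 320) (nat_lit 283) (nat_lit 177)))))) (XT.nd (nat_lit 468) (nat_lit 684) (nat_lit 0) (XT.nd (nat_lit 234) (nat_lit 836) (nat_lit 0) (XT.nd (nat_lit 78) (nat_lit 0) (nat_lit 0) (XT.lf (nat_lit 0) (nat_lit 1198759134) (nat_lit 380) (nat_lit 8812436724) (nat_lit 456) (nat_lit 5664550733) (nat_lit 90) (nat_lit 5) (nat_lit 95) (nat_lit 5) (nat_lit 96) (nat_lit 5) (nat_lit 321) (nat_lit 283) (nat_lit 176)) (XT.nd (nat_lit 78) (nat_lit 0) (nat_lit 0) (XT.lf (nat_lit 0) (nat_lit 8545091722) (nat_lit 380) (nat_lit 3773724627) (nat_lit 456) (nat_lit 3648647610) (nat_lit 90) (nat_lit 5) (nat_lit 95) (nat_lit 5) (nat_lit 96) (nat_lit 5) (nat_lit 322) (nat_lit 283) (nat_lit 175)) (XT.lf (nat_lit 0) (nat_lit 14696003939) (nat_lit 456) (nat_lit 185794416) (nat_lit 76) (nat_lit 1386148121)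 (nat_lit 90) (nat_lit 5) (nat_lit 96) (nat_lit 5) (nat_lit 91) (nat_lit 5) (nat_lit 323) (nat_lit 283) (nat_lit 174)))) (XT.nd (nat_lit 78) (nat_lit 380) (nat_lit 0) (XT.lf (nat_lit 0) (nat_lit 652128637) (nat_lit 456) (nat_lit 9222490558) (nat_lit 76) (nat_lit 6699799251) (nat_lit 84) (nat_lit 5) (nat_lit 90) (nat_lit 5) (nat_lit 85) (nat_lit 5) (nat_lit 324) (nat_lit 283) (nat_lit 173)) (XT.nd (nat_lit 78) (nat_lit 380) (nat_lit 0) (XT.lf (nat_lit 0) (nat_lit 2900414020) (nat_lit 456) (nat_lit 1801739082) (nat_lit 76) (nat_lit 12187813730) (nat_lit 84) (nat_lit 5) (nat_lit 90) (nat_lit 5) (nat_lit 85) (nat_lit 5) (nat_lit 325) (nat_lit 283) (nat_lit 172)) (XT.lf (nat_lit 0) (nat_lit 5267385113) (nat_lit 456) (nat_lit 11277883032) (nat_lit 76) (nat_lit 668197541) (nat_lit 79) (nat_lit 5) (nat_lit 85) (nat_lit 5) (nat_lit 80) (nat_lit 5) (nat_lit 326) (nat_lit 283) (nat_lit 171))))) (XT.nd (nat_lit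 234) (nat_lit 380) (nat_lit 0) (XT.nd (nat_lit 78) (nat_lit 304) (nat_lit 0) (XT.lf (nat_lit 0) (nat_lit 7758049475) (nat_lit 456) (nat_lit 3666372562) (nat_lit 76) (nat_lit 6120687462) (nat_lit 79) (nat_lit 5) (nat_lit 85) (nat_lit 5) (nat_lit 80) (nat_lit 5) (nat_lit 327) (nat_lit 283) (nat_lit 170)) (XT.nd (nat_lit 78) (nat_lit 0) (nat_lit 0) (XT.lf (nat_lit 0) (nat_lit 4241224699) (nat_lit 304) (nat_lit 6111088990) (nat_lit 380) (nat_lit 7533542458) (nat_lit 75) (nat_lit 5) (nat_lit 79) (nat_lit 5) (nat_lit 80) (nat_lit 5) (nat_lit 328) (nat_lit 283) (nat_lit 169)) (XT.lf (nat_lit 0) (nat_lit 12446334085) (nat_lit 304) (nat_lit 603408918) (nat_lit 380) (nat_lit 5186341416) (nat_lit 75) (nat_lit 5) (nat_lit 79) (nat_lit 5) (nat_lit 80) (nat_lit 5) (nat_lit 329) (nat_lit 283) (nat_lit 168)))) (XT.nd (nat_lit 78) (nat_lit 76) (nat_lit 0) (XT.lf (nat_lit 0) (nat_lit 2281803213) (nat_lit 304)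 (nat_lit 13605581848) (nat_lit 380) (nat_lit 2707674557) (nat_lit 71) (nat_lit 5) (nat_lit 75) (nat_lit 5) (nat_lit 76) (nat_lit 5) (nat_lit 330) (nat_lit 283) (nat_lit 167)) (XT.nd (nat_lit 78) (nat_lit 76) (nat_lit 0) (XT.lf (nat_lit 0) (nat_lit 10693470072) (nat_lit 304) (nat_lit 8169882580) (nat_lit 380) (nat_lit 99873762) (nat_lit 71) (nat_lit 5) (nat_lit 75) (nat_lit 5) (nat_lit 76) (nat_lit 5) (nat_lit 331) (nat_lit 283) (nat_lit 166)) (XT.lf (nat_lit 0) (nat_lit 2524712009) (nat_lit 380) (nat_lit 24245126) (nat_lit 76) (nat_lit 16793081979) (nat_lit 70) (nat_lit 5) (nat_lit 75) (nat_lit 5) (nat_lit 71) (nat_lit 5) (nat_lit 332) (nat_lit 283) (nat_lit 165))))))))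
noncomputable def xc172 : XT := (XT.nd (nat_lit 1794) (nat_lit 1216) (nat_lit 0) (XT.nd (nat_lit 858) (nat_lit 1216) (nat_lit 0) (XT.nd (nat_lit 390) (nat_lit 608) (nat_lit 0) (XT.nd (nat_lit 156) (nat_lit 532) (nat_lit 0) (XT.nd (nat_lit 78) (nat_lit 0) (nat_lit 0) (XT.lf (nat_lit 0) (nat_lit 5330191653) (nat_lit 380) (nat_lit 11140112838) (nat_lit 76) (nat_lit 3258773812) (nat_lit 66) (nat_lit 5) (nat_lit 71) (nat_lit 5) (nat_lit 67) (nat_lit 5) (nat_lit 333) (nat_lit 283) (nat_lit 164)) (XT.lf (nat_lit 0) (nat_lit 8234800949) (nat_lit 380) (nat_lit 2706066065) (nat_lit 76) (nat_lit 9186428891) (nat_lit 66) (nat_lit 5) (nat_lit 71) (nat_lit 5) (nat_lit 67) (nat_lit 5) (nat_lit 334) (nat_lit 283) (nat_lit 163))) (XT.nd (nat_lit 78) (nat_lit 228) (nat_lit 0) (XT.lf (nat_lit 0) (nat_lit 6086000248) (nat_lit 304) (nat_lit 5188837828) (nat_lit 380) (nat_lit 9261188997) (nat_lit 62) (nat_lit 5) (nat_lit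 66) (nat_lit 5) (nat_lit 67) (nat_lit 5) (nat_lit 335) (nat_lit 283) (nat_lit 162)) (XT.nd (nat_lit 78) (nat_lit 228) (nat_lit 0) (XT.lf (nat_lit 0) (nat_lit 14430664583) (nat_lit 380) (nat_lit 5780152168) (nat_lit 76) (nat_lit 745481042) (nat_lit 62) (nat_lit 5) (nat_lit 67) (nat_lit 5) (nat_lit 63) (nat_lit 5) (nat_lit 336) (nat_lit 283) (nat_lit 161)) (XT.lf (nat_lit 0) (nat_lit 3146336602) (nat_lit 228) (nat_lit 14606661291) (nat_lit 304) (nat_lit 3634038605) (nat_lit 59) (nat_lit 5) (nat_lit 62) (nat_lit 5) (nat_lit 63) (nat_lit 5) (nat_lit 337) (nat_lit 283) (nat_lit 160))))) (XT.nd (nat_lit 234) (nat_lit 228) (nat_lit 0) (XT.nd (nat_lit 78) (nat_lit 380) (nat_lit 0) (XT.lf (nat_lit 0) (nat_lit 12445736027) (nat_lit 228) (nat_lit 8778002770) (nat_lit 304) (nat_lit 605510829) (nat_lit 59) (nat_lit 5) (nat_lit 62) (nat_lit 5) (nat_lit 63) (nat_lit 5) (nat_lit 338) (nat_lit 283) (nat_lit 159))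 (XT.nd (nat_lit 78) (nat_lit 304) (nat_lit 0) (XT.lf (nat_lit 0) (nat_lit 2455361689) (nat_lit 304) (nat_lit 297960362) (nat_lit 76) (nat_lit 19530979404) (nat_lit 58) (nat_lit 5) (nat_lit 62) (nat_lit 5) (nat_lit 59) (nat_lit 5) (nat_lit 339) (nat_lit 283) (nat_lit 158)) (XT.lf (nat_lit 0) (nat_lit 5709435985) (nat_lit 380) (nat_lit 13563234827) (nat_lit 76) (nat_lit 3476760969) (nat_lit 54) (nat_lit 5) (nat_lit 59) (nat_lit 5) (nat_lit 55) (nat_lit 5) (nat_lit 340) (nat_lit 283) (nat_lit 157)))) (XT.nd (nat_lit 78) (nat_lit 228) (nat_lit 0) (XT.lf (nat_lit 0) (nat_lit 9082361374) (nat_lit 380) (nat_lit 4307652423) (nat_lit 76) (nat_lit 9837878139) (nat_lit 54) (nat_lit 5) (nat_lit 59) (nat_lit 5) (nat_lit 55) (nat_lit 5) (nat_lit 341) (nat_lit 283) (nat_lit 156)) (XT.nd (nat_lit 78) (nat_lit 0) (nat_lit 0) (XT.lf (nat_lit 0) (nat_lit 5316800633) (nat_lit 228) (nat_lit 7281976060) (nat_lit 304)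 (nat_lit 11120672550) (nat_lit 51) (nat_lit 5) (nat_lit 54) (nat_lit 5) (nat_lit 55) (nat_lit 5) (nat_lit 342) (nat_lit 283) (nat_lit 155)) (XT.lf (nat_lit 0) (nat_lit 15305866190) (nat_lit 228) (nat_lit 949648019) (nat_lit 304) (nat_lit 7969206219) (nat_lit 51) (nat_lit 5) (nat_lit 54) (nat_lit 5) (nat_lit 55) (nat_lit 5) (nat_lit 343) (nat_lit 283) (nat_lit 154)))))) (XT.nd (nat_lit 468) (nat_lit 684) (nat_lit 0) (XT.nd (nat_lit 234) (nat_lit 228) (nat_lit 0) (XT.nd (nat_lit 78) (nat_lit 76) (nat_lit 0) (XT.lf (nat_lit 0) (nat_lit 799190281) (nat_lit 228) (nat_lit 19275561947) (nat_lit 304) (nat_lit 4668825269) (nat_lit 48) (nat_lit 5) (nat_lit 51) (nat_lit 5) (nat_lit 52) (nat_lit 5) (nat_lit 344) (nat_lit 283) (nat_lit 153)) (XT.nd (nat_lit 78) (nat_lit 76) (nat_lit 0) (XT.lf (nat_lit 0) (nat_lit 10969843778) (nat_lit 228) (nat_lit 13129774351) (nat_lit 304) (nat_lit 1175661988) (nat_lit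 48) (nat_lit 5) (nat_lit 51) (nat_lit 5) (nat_lit 52) (nat_lit 5) (nat_lit 345) (nat_lit 283) (nat_lit 152)) (XT.lf (nat_lit 0) (nat_lit 2366857581) (nat_lit 304) (nat_lit 4412590915) (nat_lit 76) (nat_lit 19043042616) (nat_lit 47) (nat_lit 5) (nat_lit 51) (nat_lit 5) (nat_lit 48) (nat_lit 5) (nat_lit 346) (nat_lit 283) (nat_lit 151)))) (XT.nd (nat_lit 78) (nat_lit 0) (nat_lit 0) (XT.lf (nat_lit 0) (nat_lit 5868270570) (nat_lit 228) (nat_lit 172229033) (nat_lit 304) (nat_lit 20343825726) (nat_lit 44) (nat_lit 5) (nat_lit 47) (nat_lit 5) (nat_lit 48) (nat_lit 5) (nat_lit 347) (nat_lit 283) (nat_lit 150)) (XT.nd (nat_lit 78) (nat_lit 0) (nat_lit 0) (XT.lf (nat_lit 0) (nat_lit 9925264685) (nat_lit 304) (nat_lit 10489604586) (nat_lit 76) (nat_lit 6545127982) (nat_lit 44) (nat_lit 5) (nat_lit 48) (nat_lit 5) (nat_lit 45) (nat_lit 5) (nat_lit 348) (nat_lit 283) (nat_lit 149)) (XT.lf (nat_lit 0) (nat_lit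 13920658213) (nat_lit 304) (nat_lit 175459190) (nat_lit 76) (nat_lit 13457009163) (nat_lit 44) (nat_lit 5) (nat_lit 48) (nat_lit 5) (nat_lit 45) (nat_lit 5) (nat_lit 349) (nat_lit 283) (nat_lit 148))))) (XT.nd (nat_lit 234) (nat_lit 304) (nat_lit 0) (XT.nd (nat_lit 78) (nat_lit 152) (nat_lit 0) (XT.lf (nat_lit 0) (nat_lit 10644767103) (nat_lit 228) (nat_lit 7486072649) (nat_lit 304) (nat_lit 10030371736) (nat_lit 41) (nat_lit 5) (nat_lit 44) (nat_lit 5) (nat_lit 45) (nat_lit 5) (nat_lit 350) (nat_lit 283) (nat_lit 147)) (XT.nd (nat_lit 78) (nat_lit 152) (nat_lit 0) (XT.lf (nat_lit 0) (nat_lit 21782244162) (nat_lit 228) (nat_lit 679566747) (nat_lit 304) (nat_lit 6325902760) (nat_lit 41) (nat_lit 5) (nat_lit 44) (nat_lit 5) (nat_lit 45) (nat_lit 5) (nat_lit 351) (nat_lit 283) (nat_lit 146)) (XT.lf (nat_lit 0) (nat_lit 3823770641) (nat_lit 152) (nat_lit 23189446150) (nat_lit 228) (nat_lit 2417087923)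 (nat_lit 39) (nat_lit 5) (nat_lit 41) (nat_lit 5) (nat_lit 42) (nat_lit 5) (nat_lit 352) (nat_lit 283) (nat_lit 145)))) (XT.nd (nat_lit 78) (nat_lit 228) (nat_lit 0) (XT.lf (nat_lit 0) (nat_lit 1648681055) (nat_lit 228) (nat_lit 15002317514) (nat_lit 76) (nat_lit 13438586768) (nat_lit 38) (nat_lit 5) (nat_lit 41) (nat_lit 5) (nat_lit 39) (nat_lit 5) (nat_lit 353) (nat_lit 283) (nat_lit 144)) (XT.nd (nat_lit 78) (nat_lit 228) (nat_lit 0) (XT.lf (nat_lit 0) (nat_lit 5780964956) (nat_lit 228) (nat_lit 4114453707) (nat_lit 76) (nat_lit 20872722288) (nat_lit 38) (nat_lit 5) (nat_lit 41) (nat_lit 5) (nat_lit 39) (nat_lit 5) (nat_lit 354) (nat_lit 283) (nat_lit 143)) (XT.lf (nat_lit 0) (nat_lit 7230906573) (nat_lit 228) (nat_lit 2869141926) (nat_lit 304) (nat_lit 21365127768) (nat_lit 35) (nat_lit 5) (nat_lit 38) (nat_lit 5) (nat_lit 39) (nat_lit 5) (nat_lit 355) (nat_lit 283) (nat_lit 142))))))) (XT.nd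 (nat_lit 858) (nat_lit 684) (nat_lit 0) (XT.nd (nat_lit 390) (nat_lit 380) (nat_lit 0) (XT.nd (nat_lit 156) (nat_lit 152) (nat_lit 0) (XT.nd (nat_lit 78) (nat_lit 0) (nat_lit 0) (XT.lf (nat_lit 0) (nat_lit 14626036980) (nat_lit 304) (nat_lit 13233615770) (nat_lit 76) (nat_lit 4321157655) (nat_lit 35) (nat_lit 5) (nat_lit 39) (nat_lit 5) (nat_lit 36) (nat_lit 5) (nat_lit 356) (nat_lit 283) (nat_lit 141)) (XT.lf (nat_lit 0) (nat_lit 19309791103) (nat_lit 304) (nat_lit 1941360233) (nat_lit 76) (nat_lit 11666110161) (nat_lit 35) (nat_lit 5) (nat_lit 39) (nat_lit 5) (nat_lit 36) (nat_lit 5) (nat_lit 357) (nat_lit 283) (nat_lit 140))) (XT.nd (nat_lit 78) (nat_lit 0) (nat_lit 0) (XT.lf (nat_lit 0) (nat_lit 9872593745) (nat_lit 152) (nat_lit 14350131187) (nat_lit 228) (nat_lit 9450428468) (nat_lit 33) (nat_lit 5) (nat_lit 35) (nat_lit 5) (nat_lit 36) (nat_lit 5) (nat_lit 358) (nat_lit 283) (nat_lit 139))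 (XT.nd (nat_lit 78) (nat_lit 0) (nat_lit 0) (XT.lf (nat_lit 0) (nat_lit 22071138524) (nat_lit 152) (nat_lit 7225366929) (nat_lit 228) (nat_lit 5154819927) (nat_lit 33) (nat_lit 5) (nat_lit 35) (nat_lit 5) (nat_lit 36) (nat_lit 5) (nat_lit 359) (nat_lit 283) (nat_lit 138)) (XT.lf (nat_lit 0) (nat_lit 34517588232) (nat_lit 228) (nat_lit 627787341) (nat_lit 76) (nat_lit 107621153) (nat_lit 33) (nat_lit 5) (nat_lit 36) (nat_lit 5) (nat_lit 34) (nat_lit 5) (nat_lit 360) (nat_lit 283) (nat_lit 137))))) (XT.nd (nat_lit 234) (nat_lit 152) (nat_lit 0) (XT.nd (nat_lit 78) (nat_lit 0) (nat_lit 0) (XT.lf (nat_lit 0) (nat_lit 3921304221) (nat_lit 228) (nat_lit 24488608923) (nat_lit 76) (nat_lit 7662335098) (nat_lit 30) (nat_lit 5) (nat_lit 33) (nat_lit 5) (nat_lit 31) (nat_lit 5) (nat_lit 361) (nat_lit 283) (nat_lit 136)) (XT.nd (nat_lit 78) (nat_lit 0) (nat_lit 0) (XT.lf (nat_lit 0) (nat_lit 8703534177)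 (nat_lit 228) (nat_lit 12758205072) (nat_lit 76) (nat_lit 15454108000) (nat_lit 30) (nat_lit 5) (nat_lit 33) (nat_lit 5) (nat_lit 31) (nat_lit 5) (nat_lit 362) (nat_lit 283) (nat_lit 135)) (XT.lf (nat_lit 0) (nat_lit 13623594773) (nat_lit 228) (nat_lit 684871356) (nat_lit 76) (nat_lit 23476463292) (nat_lit 30) (nat_lit 5) (nat_lit 33) (nat_lit 5) (nat_lit 31) (nat_lit 5) (nat_lit 363) (nat_lit 283) (nat_lit 134)))) (XT.nd (nat_lit 78) (nat_lit 0) (nat_lit 0) (XT.lf (nat_lit 0) (nat_lit 11975629403) (nat_lit 152) (nat_lit 6825272764) (nat_lit 228) (nat_lit 19875898471) (nat_lit 28) (nat_lit 5) (nat_lit 30) (nat_lit 5) (nat_lit 31) (nat_lit 5) (nat_lit 364) (nat_lit 283) (nat_lit 133)) (XT.nd (nat_lit 78) (nat_lit 0) (nat_lit 0) (XT.lf (nat_lit 0) (nat_lit 24143568582) (nat_lit 228) (nat_lit 14582558560) (nat_lit 76) (nat_lit 869005410) (nat_lit 28) (nat_lit 5) (nat_lit 31) (nat_lit 5) (nat_lit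 29) (nat_lit 5) (nat_lit 365) (nat_lit 283) (nat_lit 132)) (XT.lf (nat_lit 0) (nat_lit 29708823151) (nat_lit 228) (nat_lit 2176480601) (nat_lit 76) (nat_lit 8653847015) (nat_lit 28) (nat_lit 5) (nat_lit 31) (nat_lit 5) (nat_lit 29) (nat_lit 5) (nat_lit 366) (nat_lit 283) (nat_lit 131)))))) (XT.nd (nat_lit 468) (nat_lit 304) (nat_lit 0) (XT.nd (nat_lit 234) (nat_lit 152) (nat_lit 0) (XT.nd (nat_lit 78) (nat_lit 76) (nat_lit 0) (XT.lf (nat_lit 0) (nat_lit 10804343251) (nat_lit 152) (nat_lit 24735434726) (nat_lit 228) (nat_lit 5968754698) (nat_lit 26) (nat_lit 5) (nat_lit 28) (nat_lit 5) (nat_lit 29) (nat_lit 5) (nat_lit 367) (nat_lit 283) (nat_lit 130)) (XT.nd (nat_lit 78) (nat_lit 76) (nat_lit 0) (XT.lf (nat_lit 0) (nat_lit 24211020503) (nat_lit 152) (nat_lit 17351574088) (nat_lit 228) (nat_lit 943898723) (nat_lit 26) (nat_lit 5) (nat_lit 28) (nat_lit 5) (nat_lit 29) (nat_lit 5) (nat_lit 368)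 (nat_lit 283) (nat_lit 129)) (XT.lf (nat_lit 0) (nat_lit 4144175553) (nat_lit 228) (nat_lit 5563224508) (nat_lit 76) (nat_lit 33825925893) (nat_lit 25) (nat_lit 5) (nat_lit 28) (nat_lit 5) (nat_lit 26) (nat_lit 5) (nat_lit 369) (nat_lit 283) (nat_lit 128)))) (XT.nd (nat_lit 78) (nat_lit 0) (nat_lit 0) (XT.lf (nat_lit 0) (nat_lit 7683766101) (nat_lit 152) (nat_lit 1751208198) (nat_lit 228) (nat_lit 35153642118) (nat_lit 23) (nat_lit 5) (nat_lit 25) (nat_lit 5) (nat_lit 26) (nat_lit 5) (nat_lit 370) (nat_lit 283) (nat_lit 127)) (XT.nd (nat_lit 78) (nat_lit 0) (nat_lit 0) (XT.lf (nat_lit 0) (nat_lit 14998400765) (nat_lit 228) (nat_lit 24302028918) (nat_lit 76) (nat_lit 6371723477) (nat_lit 23) (nat_lit 5) (nat_lit 26) (nat_lit 5) (nat_lit 24) (nat_lit 5) (nat_lit 371) (nat_lit 283) (nat_lit 126)) (XT.lf (nat_lit 0) (nat_lit 20741437061) (nat_lit 228) (nat_lit 11346091694) (nat_lit 76) (nat_lit 14700290584)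 (nat_lit 23) (nat_lit 5) (nat_lit 26) (nat_lit 5) (nat_lit 24) (nat_lit 5) (nat_lit 372) (nat_lit 283) (nat_lit 125))))) (XT.nd (nat_lit 234) (nat_lit 152) (nat_lit 0) (XT.nd (nat_lit 78) (nat_lit 0) (nat_lit 0) (XT.lf (nat_lit 0) (nat_lit 2030742869) (nat_lit 152) (nat_lit 24641045563) (nat_lit 228) (nat_lit 21264720764) (nat_lit 21) (nat_lit 5) (nat_lit 23) (nat_lit 5) (nat_lit 24) (nat_lit 5) (nat_lit 373) (nat_lit 283) (nat_lit 124)) (XT.nd (nat_lit 78) (nat_lit 0) (nat_lit 0) (XT.lf (nat_lit 0) (nat_lit 16034130968) (nat_lit 152) (nat_lit 16856056362) (nat_lit 228) (nat_lit 16226172591) (nat_lit 21) (nat_lit 5) (nat_lit 23) (nat_lit 5) (nat_lit 24) (nat_lit 5) (nat_lit 374) (nat_lit 283) (nat_lit 123)) (XT.lf (nat_lit 0) (nat_lit 30450499100) (nat_lit 152) (nat_lit 8840332013) (nat_lit 228) (nat_lit 11040908426) (nat_lit 21) (nat_lit 5) (nat_lit 23) (nat_lit 5) (nat_lit 24) (nat_lit 5) (nat_lit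 375) (nat_lit 283) (nat_lit 122)))) (XT.nd (nat_lit 78) (nat_lit 152) (nat_lit 0) (XT.lf (nat_lit 0) (nat_lit 45292444092) (nat_lit 152) (nat_lit 586868485) (nat_lit 228) (nat_lit 5704397453) (nat_lit 21) (nat_lit 5) (nat_lit 23) (nat_lit 5) (nat_lit 24) (nat_lit 5) (nat_lit 376) (nat_lit 283) (nat_lit 121)) (XT.nd (nat_lit 78) (nat_lit 76) (nat_lit 0) (XT.lf (nat_lit 0) (nat_lit 7775241630) (nat_lit 76) (nat_lit 45036938018) (nat_lit 152) (nat_lit 56661974) (nat_lit 20) (nat_lit 5) (nat_lit 21) (nat_lit 5) (nat_lit 22) (nat_lit 4) (nat_lit 377) (nat_lit 283) (nat_lit 120)) (XT.lf (nat_lit 0) (nat_lit 5713991548) (nat_lit 152) (nat_lit 31866556164) (nat_lit 76) (nat_lit 16608345112) (nat_lit 19) (nat_lit 5) (nat_lit 21) (nat_lit 5) (nat_lit 20) (nat_lit 5) (nat_lit 378) (nat_lit 283) (nat_lit 119))))))))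
noncomputable def xc173 : XT := (XT.nd (nat_lit 34008) (nat_lit 0) (nat_lit 7068) (XT.nd (nat_lit 858) (nat_lit 0) (nat_lit 0) (XT.nd (nat_lit 390) (nat_lit 304) (nat_lit 0) (XT.nd (nat_lit 156) (nat_lit 152) (nat_lit 0) (XT.nd (nat_lit 78) (nat_lit 0) (nat_lit 0) (XT.lf (nat_lit 0) (nat_lit 11652669671) (nat_lit 152) (nat_lit 18249894080) (nat_lit 76) (nat_lit 25646087253) (nat_lit 19) (nat_lit 5) (nat_lit 21) (nat_lit 5) (nat_lit 20) (nat_lit 5) (nat_lit 379) (nat_lit 283) (nat_lit 118)) (XT.lf (nat_lit 0) (nat_lit 17765667209) (nat_lit 152) (nat_lit 4231171015) (nat_lit 76) (nat_lit 34952482415) (nat_lit 19) (nat_lit 5) (nat_lit 21) (nat_lit 5) (nat_lit 20) (nat_lit 5) (nat_lit 380) (nat_lit 283) (nat_lit 117))) (XT.nd (nat_lit 78) (nat_lit 0) (nat_lit 0) (XT.lf (nat_lit 0) (nat_lit 10404899463) (nat_lit 152) (nat_lit 13753444411) (nat_lit 228) (nat_lit 34230781194) (nat_lit 17) (nat_lit 5)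 (nat_lit 19) (nat_lit 5) (nat_lit 20) (nat_lit 5) (nat_lit 381) (nat_lit 283) (nat_lit 116)) (XT.nd (nat_lit 78) (nat_lit 0) (nat_lit 0) (XT.lf (nat_lit 0) (nat_lit 25560596861) (nat_lit 152) (nat_lit 5221250565) (nat_lit 228) (nat_lit 29089108090) (nat_lit 17) (nat_lit 5) (nat_lit 19) (nat_lit 5) (nat_lit 20) (nat_lit 5) (nat_lit 382) (nat_lit 283) (nat_lit 115)) (XT.lf (nat_lit 0) (nat_lit 37634747206) (nat_lit 228) (nat_lit 20266659714) (nat_lit 76) (nat_lit 3494916409) (nat_lit 17) (nat_lit 5) (nat_lit 20) (nat_lit 5) (nat_lit 18) (nat_lit 4) (nat_lit 383) (nat_lit 283) (nat_lit 114))))) (XT.nd (nat_lit 234) (nat_lit 228) (nat_lit 0) (XT.nd (nat_lit 78) (nat_lit 76) (nat_lit 0) (XT.lf (nat_lit 0) (nat_lit 44741438083) (nat_lit 228) (nat_lit 5859264487) (nat_lit 76) (nat_lit 12365306578) (nat_lit 17) (nat_lit 5) (nat_lit 20) (nat_lit 5) (nat_lit 18) (nat_lit 4) (nat_lit 384) (nat_lit 283)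 (nat_lit 113)) (XT.nd (nat_lit 78) (nat_lit 0) (nat_lit 0) (XT.lf (nat_lit 0) (nat_lit 9153218121) (nat_lit 76) (nat_lit 42992708144) (nat_lit 152) (nat_lit 12434324383) (nat_lit 16) (nat_lit 5) (nat_lit 17) (nat_lit 5) (nat_lit 18) (nat_lit 4) (nat_lit 385) (nat_lit 283) (nat_lit 112)) (XT.lf (nat_lit 0) (nat_lit 24730493997) (nat_lit 76) (nat_lit 35097876457) (nat_lit 152) (nat_lit 6412877215) (nat_lit 16) (nat_lit 5) (nat_lit 17) (nat_lit 5) (nat_lit 18) (nat_lit 4) (nat_lit 386) (nat_lit 283) (nat_lit 111)))) (XT.nd (nat_lit 78) (nat_lit 228) (nat_lit 0) (XT.lf (nat_lit 0) (nat_lit 40769563499) (nat_lit 76) (nat_lit 26968476195) (nat_lit 152) (nat_lit 214135185) (nat_lit 16) (nat_lit 5) (nat_lit 17) (nat_lit 5) (nat_lit 18) (nat_lit 4) (nat_lit 387) (nat_lit 283) (nat_lit 110)) (XT.nd (nat_lit 78) (nat_lit 152) (nat_lit 0) (XT.lf (nat_lit 0) (nat_lit 6046971492) (nat_lit 152) (nat_lit 12489369951)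 (nat_lit 76) (nat_lit 51176407302) (nat_lit 15) (nat_lit 5) (nat_lit 17) (nat_lit 5) (nat_lit 16) (nat_lit 5) (nat_lit 388) (nat_lit 283) (nat_lit 109)) (XT.lf (nat_lit 0) (nat_lit 2689763856) (nat_lit 152) (nat_lit 9824604522) (nat_lit 228) (nat_lit 59011027607) (nat_lit 13) (nat_lit 5) (nat_lit 15) (nat_lit 5) (nat_lit 16) (nat_lit 5) (nat_lit 389) (nat_lit 283) (nat_lit 108)))))) (XT.nd (nat_lit 32682) (nat_lit 0) (nat_lit 12312) (XT.nd (nat_lit 32448) (nat_lit 0) (nat_lit 13224) (XT.nd (nat_lit 78) (nat_lit 0) (nat_lit 0) (XT.lf (nat_lit 0) (nat_lit 18575071507) (nat_lit 152) (nat_lit 723779031) (nat_lit 228) (nat_lit 54089882719) (nat_lit 13) (nat_lit 5) (nat_lit 15) (nat_lit 5) (nat_lit 16) (nat_lit 5) (nat_lit 390) (nat_lit 283) (nat_lit 107)) (XT.nd (nat_lit 32292) (nat_lit 0) (nat_lit 13224) (XT.lf (nat_lit 0) (nat_lit 26367030925) (nat_lit 228) (nat_lit 40459321219) (nat_lit 76) (nat_lit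 8479216033) (nat_lit 13) (nat_lit 5) (nat_lit 16) (nat_lit 5) (nat_lit 14) (nat_lit 4) (nat_lit 391) (nat_lit 283) (nat_lit 106)) (XT.lf (nat_lit 0) (nat_lit 2633696355) (nat_lit 988) (nat_lit 925538935) (nat_lit 988) (nat_lit 925538935) (nat_lit 187) (nat_lit 3) (nat_lit 200) (nat_lit 3) (nat_lit 200) (nat_lit 5) (nat_lit 284) (nat_lit 284) (nat_lit 212)))) (XT.nd (nat_lit 78) (nat_lit 0) (nat_lit 0) (XT.lf (nat_lit 76) (nat_lit 2025857412) (nat_lit 0) (nat_lit 4163168356) (nat_lit 988) (nat_lit 2887799265) (nat_lit 188) (nat_lit 5) (nat_lit 187) (nat_lit 3) (nat_lit 200) (nat_lit 5) (nat_lit 285) (nat_lit 284) (nat_lit 211)) (XT.nd (nat_lit 78) (nat_lit 0) (nat_lit 76) (XT.lf (nat_lit 76) (nat_lit 6040132735) (nat_lit 0) (nat_lit 1084579579) (nat_lit 988) (nat_lit 2063093051) (nat_lit 188) (nat_lit 5) (nat_lit 187) (nat_lit 3) (nat_lit 200) (nat_lit 5) (nat_lit 286) (nat_lit 284) (nat_lit 210))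 (XT.lf (nat_lit 76) (nat_lit 851705711) (nat_lit 0) (nat_lit 7233802440) (nat_lit 988) (nat_lit 1216771121) (nat_lit 189) (nat_lit 5) (nat_lit 188) (nat_lit 5) (nat_lit 201) (nat_lit 5) (nat_lit 287) (nat_lit 284) (nat_lit 209))))) (XT.nd (nat_lit 234) (nat_lit 0) (nat_lit 76) (XT.nd (nat_lit 78) (nat_lit 988) (nat_lit 0) (XT.lf (nat_lit 76) (nat_lit 5007229924) (nat_lit 0) (nat_lit 4079854057) (nat_lit 988) (nat_lit 332817863) (nat_lit 189) (nat_lit 5) (nat_lit 188) (nat_lit 5) (nat_lit 201) (nat_lit 5) (nat_lit 288) (nat_lit 284) (nat_lit 208)) (XT.nd (nat_lit 78) (nat_lit 0) (nat_lit 76) (XT.lf (nat_lit 0) (nat_lit 536444356) (nat_lit 988) (nat_lit 276751284) (nat_lit 1064) (nat_lit 8728657929) (nat_lit 175) (nat_lit 5) (nat_lit 188) (nat_lit 5) (nat_lit 189) (nat_lit 5) (nat_lit 289) (nat_lit 284) (nat_lit 207)) (XT.lf (nat_lit 0) (nat_lit 1459940501) (nat_lit 988) (nat_lit 5650429799) (nat_lit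 1064) (nat_lit 2556016254) (nat_lit 176) (nat_lit 5) (nat_lit 189) (nat_lit 5) (nat_lit 190) (nat_lit 5) (nat_lit 290) (nat_lit 284) (nat_lit 206)))) (XT.nd (nat_lit 78) (nat_lit 0) (nat_lit 0) (XT.lf (nat_lit 0) (nat_lit 2393744471) (nat_lit 988) (nat_lit 1377445031) (nat_lit 1064) (nat_lit 6024052913) (nat_lit 176) (nat_lit 5) (nat_lit 189) (nat_lit 5) (nat_lit 190) (nat_lit 5) (nat_lit 291) (nat_lit 284) (nat_lit 205)) (XT.nd (nat_lit 78) (nat_lit 0) (nat_lit 76) (XT.lf (nat_lit 76) (nat_lit 3066169643) (nat_lit 0) (nat_lit 291419421) (nat_lit 1064) (nat_lit 6570377178) (nat_lit 177) (nat_lit 5) (nat_lit 176) (nat_lit 5) (nat_lit 190) (nat_lit 5) (nat_lit 292) (nat_lit 284) (nat_lit 204)) (XT.lf (nat_lit 0) (nat_lit 4369326788) (nat_lit 988) (nat_lit 2442894054) (nat_lit 1064) (nat_lit 3251942856) (nat_lit 177) (nat_lit 5) (nat_lit 190) (nat_lit 5) (nat_lit 191) (nat_lit 5) (nat_lit 293) (nat_lit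 284) (nat_lit 203))))))) (XT.nd (nat_lit 936) (nat_lit 2660) (nat_lit 0) (XT.nd (nat_lit 468) (nat_lit 1824) (nat_lit 0) (XT.nd (nat_lit 234) (nat_lit 912) (nat_lit 0) (XT.nd (nat_lit 78) (nat_lit 0) (nat_lit 76) (XT.lf (nat_lit 76) (nat_lit 2129596816) (nat_lit 0) (nat_lit 3279233156) (nat_lit 1064) (nat_lit 4795754166) (nat_lit 178) (nat_lit 5) (nat_lit 177) (nat_lit 5) (nat_lit 191) (nat_lit 5) (nat_lit 294) (nat_lit 284) (nat_lit 202)) (XT.nd (nat_lit 78) (nat_lit 0) (nat_lit 0) (XT.lf (nat_lit 0) (nat_lit 6482609381) (nat_lit 988) (nat_lit 3481210725) (nat_lit 1064) (nat_lit 385362083) (nat_lit 178) (nat_lit 5) (nat_lit 191) (nat_lit 5) (nat_lit 192) (nat_lit 5) (nat_lit 295) (nat_lit 284) (nat_lit 201)) (XT.lf (nat_lit 76) (nat_lit 1223959836) (nat_lit 0) (nat_lit 6384332107) (nat_lit 1064) (nat_lit 2889291595) (nat_lit 179) (nat_lit 5) (nat_lit 178) (nat_lit 5) (nat_lit 192) (nat_lit 5)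 (nat_lit 296) (nat_lit 284) (nat_lit 200)))) (XT.nd (nat_lit 78) (nat_lit 988) (nat_lit 0) (XT.lf (nat_lit 76) (nat_lit 6123986238) (nat_lit 0) (nat_lit 2654913901) (nat_lit 1064) (nat_lit 1871256550) (nat_lit 179) (nat_lit 5) (nat_lit 178) (nat_lit 5) (nat_lit 192) (nat_lit 5) (nat_lit 297) (nat_lit 284) (nat_lit 199)) (XT.nd (nat_lit 78) (nat_lit 1064) (nat_lit 0) (XT.lf (nat_lit 76) (nat_lit 340998986) (nat_lit 0) (nat_lit 9635069640) (nat_lit 1064) (nat_lit 831547979) (nat_lit 180) (nat_lit 5) (nat_lit 179) (nat_lit 5) (nat_lit 193) (nat_lit 5) (nat_lit 298) (nat_lit 284) (nat_lit 198)) (XT.lf (nat_lit 0) (nat_lit 284115953) (nat_lit 1064) (nat_lit 5568792126) (nat_lit 1140) (nat_lit 5115389972) (nat_lit 165) (nat_lit 5) (nat_lit 179) (nat_lit 5) (nat_lit 180) (nat_lit 5) (nat_lit 299) (nat_lit 284) (nat_lit 197))))) (XT.nd (nat_lit 234) (nat_lit 1824) (nat_lit 0) (XT.nd (nat_lit 78) (nat_lit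 0) (nat_lit 76) (XT.lf (nat_lit 0) (nat_lit 1394197163) (nat_lit 1064) (nat_lit 550021263) (nat_lit 1140) (nat_lit 9190053051) (nat_lit 165) (nat_lit 5) (nat_lit 179) (nat_lit 5) (nat_lit 180) (nat_lit 5) (nat_lit 300) (nat_lit 284) (nat_lit 196)) (XT.nd (nat_lit 78) (nat_lit 0) (nat_lit 0) (XT.lf (nat_lit 0) (nat_lit 2581510858) (nat_lit 1064) (nat_lit 6631404585) (nat_lit 76) (nat_lit 2091037701) (nat_lit 166) (nat_lit 5) (nat_lit 180) (nat_lit 5) (nat_lit 167) (nat_lit 5) (nat_lit 301) (nat_lit 284) (nat_lit 195)) (XT.lf (nat_lit 0) (nat_lit 3808121612) (nat_lit 1064) (nat_lit 1452585112) (nat_lit 76) (nat_lit 6217953779) (nat_lit 166) (nat_lit 5) (nat_lit 180) (nat_lit 5) (nat_lit 167) (nat_lit 5) (nat_lit 302) (nat_lit 284) (nat_lit 194)))) (XT.nd (nat_lit 78) (nat_lit 836) (nat_lit 0) (XT.lf (nat_lit 0) (nat_lit 3941232636) (nat_lit 1064) (nat_lit 1147619353) (nat_lit 1140) (nat_lit 6569281702)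 (nat_lit 152) (nat_lit 5) (nat_lit 166) (nat_lit 5) (nat_lit 167) (nat_lit 5) (nat_lit 303) (nat_lit 284) (nat_lit 193)) (XT.nd (nat_lit 78) (nat_lit 836) (nat_lit 0) (XT.lf (nat_lit 0) (nat_lit 6432409166) (nat_lit 1140) (nat_lit 2363527315) (nat_lit 76) (nat_lit 3046365403) (nat_lit 152) (nat_lit 5) (nat_lit 167) (nat_lit 5) (nat_lit 153) (nat_lit 5) (nat_lit 304) (nat_lit 284) (nat_lit 192)) (XT.lf (nat_lit 0) (nat_lit 3183952809) (nat_lit 836) (nat_lit 4654773753) (nat_lit 912) (nat_lit 4192636663) (nat_lit 141) (nat_lit 5) (nat_lit 152) (nat_lit 5) (nat_lit 153) (nat_lit 5) (nat_lit 305) (nat_lit 284) (nat_lit 191)))))) (XT.nd (nat_lit 468) (nat_lit 1064) (nat_lit 0) (XT.nd (nat_lit 234) (nat_lit 1064) (nat_lit 0) (XT.nd (nat_lit 78) (nat_lit 532) (nat_lit 0) (XT.lf (nat_lit 0) (nat_lit 8929213925) (nat_lit 836) (nat_lit 362775471) (nat_lit 912) (nat_lit 2934004824) (nat_lit 141) (nat_lit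 5) (nat_lit 152) (nat_lit 5) (nat_lit 153) (nat_lit 5) (nat_lit 306) (nat_lit 284) (nat_lit 190)) (XT.nd (nat_lit 78) (nat_lit 0) (nat_lit 0) (XT.lf (nat_lit 0) (nat_lit 2411201834) (nat_lit 532) (nat_lit 8421298427) (nat_lit 608) (nat_lit 1592693690) (nat_lit 134) (nat_lit 5) (nat_lit 141) (nat_lit 5) (nat_lit 142) (nat_lit 5) (nat_lit 307) (nat_lit 284) (nat_lit 189)) (XT.lf (nat_lit 0) (nat_lit 8337299284) (nat_lit 532) (nat_lit 4100615254) (nat_lit 608) (nat_lit 191932661) (nat_lit 134) (nat_lit 5) (nat_lit 141) (nat_lit 5) (nat_lit 142) (nat_lit 5) (nat_lit 308) (nat_lit 284) (nat_lit 188)))) (XT.nd (nat_lit 78) (nat_lit 456) (nat_lit 0) (XT.lf (nat_lit 0) (nat_lit 1227650419) (nat_lit 608) (nat_lit 11241173148) (nat_lit 76) (nat_lit 371455498) (nat_lit 126) (nat_lit 5) (nat_lit 134) (nat_lit 5) (nat_lit 127) (nat_lit 5) (nat_lit 309) (nat_lit 284) (nat_lit 187)) (XT.nd (nat_lit 78) (nat_lit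 456) (nat_lit 0) (XT.lf (nat_lit 0) (nat_lit 2752862751) (nat_lit 608) (nat_lit 5360487272) (nat_lit 76) (nat_lit 4941644802) (nat_lit 126) (nat_lit 5) (nat_lit 134) (nat_lit 5) (nat_lit 127) (nat_lit 5) (nat_lit 310) (nat_lit 284) (nat_lit 186)) (XT.lf (nat_lit 0) (nat_lit 693316715) (nat_lit 456) (nat_lit 3620212112) (nat_lit 532) (nat_lit 8962966220) (nat_lit 120) (nat_lit 5) (nat_lit 126) (nat_lit 5) (nat_lit 127) (nat_lit 5) (nat_lit 311) (nat_lit 284) (nat_lit 185))))) (XT.nd (nat_lit 234) (nat_lit 532) (nat_lit 0) (XT.nd (nat_lit 78) (nat_lit 532) (nat_lit 0) (XT.lf (nat_lit 0) (nat_lit 5968734513) (nat_lit 532) (nat_lit 6491817726) (nat_lit 76) (nat_lit 1042689370) (nat_lit 120) (nat_lit 5) (nat_lit 127) (nat_lit 5) (nat_lit 121) (nat_lit 5) (nat_lit 312) (nat_lit 284) (nat_lit 184)) (XT.nd (nat_lit 78) (nat_lit 532) (nat_lit 0) (XT.lf (nat_lit 0) (nat_lit 7693290978) (nat_lit 532) (nat_lit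 270257223) (nat_lit 76) (nat_lit 5772683492) (nat_lit 120) (nat_lit 5) (nat_lit 127) (nat_lit 5) (nat_lit 121) (nat_lit 5) (nat_lit 313) (nat_lit 284) (nat_lit 183)) (XT.lf (nat_lit 0) (nat_lit 6243573797) (nat_lit 532) (nat_lit 3270348676) (nat_lit 608) (nat_lit 4460989891) (nat_lit 113) (nat_lit 5) (nat_lit 120) (nat_lit 5) (nat_lit 121) (nat_lit 5) (nat_lit 314) (nat_lit 284) (nat_lit 182)))) (XT.nd (nat_lit 78) (nat_lit 532) (nat_lit 0) (XT.lf (nat_lit 0) (nat_lit 11391576884) (nat_lit 608) (nat_lit 1293906482) (nat_lit 76) (nat_lit 1535228100) (nat_lit 113) (nat_lit 5) (nat_lit 121) (nat_lit 5) (nat_lit 114) (nat_lit 5) (nat_lit 315) (nat_lit 284) (nat_lit 181)) (XT.nd (nat_lit 78) (nat_lit 76) (nat_lit 0) (XT.lf (nat_lit 0) (nat_lit 5393459449) (nat_lit 456) (nat_lit 8001391594) (nat_lit 532) (nat_lit 1076984046) (nat_lit 107) (nat_lit 5) (nat_lit 113) (nat_lit 5) (nat_lit 114) (nat_lit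 5) (nat_lit 316) (nat_lit 284) (nat_lit 180)) (XT.lf (nat_lit 0) (nat_lit 711900086) (nat_lit 532) (nat_lit 2445475503) (nat_lit 76) (nat_lit 11572983448) (nat_lit 106) (nat_lit 5) (nat_lit 113) (nat_lit 5) (nat_lit 107) (nat_lit 5) (nat_lit 317) (nat_lit 284) (nat_lit 179))))))))
noncomputable def xc174 : XT := (XT.nd (nat_lit 1794) (nat_lit 1824) (nat_lit 0) (XT.nd (nat_lit 858) (nat_lit 1900) (nat_lit 0) (XT.nd (nat_lit 390) (nat_lit 836) (nat_lit 0) (XT.nd (nat_lit 156) (nat_lit 760) (nat_lit 0) (XT.nd (nat_lit 78) (nat_lit 0) (nat_lit 0) (XT.lf (nat_lit 0) (nat_lit 2579281498) (nat_lit 532) (nat_lit 10566847790) (nat_lit 76) (nat_lit 1848821978) (nat_lit 100) (nat_lit 5) (nat_lit 107) (nat_lit 5) (nat_lit 101) (nat_lit 5) (nat_lit 318) (nat_lit 284) (nat_lit 178)) (XT.lf (nat_lit 0) (nat_lit 4544745982) (nat_lit 532) (nat_lit 3756255632) (nat_lit 76) (nat_lit 6965243788) (nat_lit 100) (nat_lit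 5) (nat_lit 107) (nat_lit 5) (nat_lit 101) (nat_lit 5) (nat_lit 319) (nat_lit 284) (nat_lit 177))) (XT.nd (nat_lit 78) (nat_lit 380) (nat_lit 0) (XT.lf (nat_lit 0) (nat_lit 3307635810) (nat_lit 380) (nat_lit 3279606888) (nat_lit 456) (nat_lit 8957918850) (nat_lit 95) (nat_lit 5) (nat_lit 100) (nat_lit 5) (nat_lit 101) (nat_lit 5) (nat_lit 320) (nat_lit 284) (nat_lit 176)) (XT.nd (nat_lit 78) (nat_lit 380) (nat_lit 0) (XT.lf (nat_lit 0) (nat_lit 8734018236) (nat_lit 456) (nat_lit 5205250388) (nat_lit 76) (nat_lit 1891910932) (nat_lit 95) (nat_lit 5) (nat_lit 101) (nat_lit 5) (nat_lit 96) (nat_lit 5) (nat_lit 321) (nat_lit 284) (nat_lit 175)) (XT.lf (nat_lit 0) (nat_lit 2029770835) (nat_lit 380) (nat_lit 8954308339) (nat_lit 456) (nat_lit 5140556253) (nat_lit 90) (nat_lit 5) (nat_lit 95) (nat_lit 5) (nat_lit 96) (nat_lit 5) (nat_lit 322) (nat_lit 284) (nat_lit 174))))) (XT.nd (nat_lit 234) (nat_lit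 380) (nat_lit 0) (XT.nd (nat_lit 78) (nat_lit 456) (nat_lit 0) (XT.lf (nat_lit 0) (nat_lit 9573336635) (nat_lit 380) (nat_lit 3768002882) (nat_lit 456) (nat_lit 3084387619) (nat_lit 90) (nat_lit 5) (nat_lit 95) (nat_lit 5) (nat_lit 96) (nat_lit 5) (nat_lit 323) (nat_lit 284) (nat_lit 173)) (XT.nd (nat_lit 78) (nat_lit 76) (nat_lit 0) (XT.lf (nat_lit 0) (nat_lit 588572890) (nat_lit 380) (nat_lit 15189019316) (nat_lit 456) (nat_lit 958033574) (nat_lit 85) (nat_lit 5) (nat_lit 90) (nat_lit 5) (nat_lit 91) (nat_lit 5) (nat_lit 324) (nat_lit 284) (nat_lit 172)) (XT.lf (nat_lit 0) (nat_lit 1302820818) (nat_lit 456) (nat_lit 8724609975) (nat_lit 76) (nat_lit 7024213829) (nat_lit 84) (nat_lit 5) (nat_lit 90) (nat_lit 5) (nat_lit 85) (nat_lit 5) (nat_lit 325) (nat_lit 284) (nat_lit 171)))) (XT.nd (nat_lit 78) (nat_lit 380) (nat_lit 0) (XT.lf (nat_lit 0) (nat_lit 3600172384) (nat_lit 456) (nat_lit 1103795818)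 (nat_lit 76) (nat_lit 12673273967) (nat_lit 84) (nat_lit 5) (nat_lit 90) (nat_lit 5) (nat_lit 85) (nat_lit 5) (nat_lit 326) (nat_lit 284) (nat_lit 170)) (XT.nd (nat_lit 78) (nat_lit 0) (nat_lit 0) (XT.lf (nat_lit 0) (nat_lit 6028833845) (nat_lit 456) (nat_lit 10853894362) (nat_lit 76) (nat_lit 828027674) (nat_lit 79) (nat_lit 5) (nat_lit 85) (nat_lit 5) (nat_lit 80) (nat_lit 5) (nat_lit 327) (nat_lit 284) (nat_lit 169)) (XT.lf (nat_lit 0) (nat_lit 8576642589) (nat_lit 456) (nat_lit 3036242223) (nat_lit 76) (nat_lit 6440020908) (nat_lit 79) (nat_lit 5) (nat_lit 85) (nat_lit 5) (nat_lit 80) (nat_lit 5) (nat_lit 328) (nat_lit 284) (nat_lit 168)))))) (XT.nd (nat_lit 468) (nat_lit 912) (nat_lit 0) (XT.nd (nat_lit 234) (nat_lit 380) (nat_lit 0) (XT.nd (nat_lit 78) (nat_lit 304) (nat_lit 0) (XT.lf (nat_lit 0) (nat_lit 5101326863) (nat_lit 304) (nat_lit 6137388978) (nat_lit 380) (nat_lit 7165488081)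 (nat_lit 75) (nat_lit 5) (nat_lit 79) (nat_lit 5) (nat_lit 80) (nat_lit 5) (nat_lit 329) (nat_lit 284) (nat_lit 167)) (XT.nd (nat_lit 78) (nat_lit 304) (nat_lit 0) (XT.lf (nat_lit 0) (nat_lit 13531243936) (nat_lit 304) (nat_lit 469052271) (nat_lit 380) (nat_lit 4765173745) (nat_lit 75) (nat_lit 5) (nat_lit 79) (nat_lit 5) (nat_lit 80) (nat_lit 5) (nat_lit 330) (nat_lit 284) (nat_lit 166)) (XT.lf (nat_lit 0) (nat_lit 3070873792) (nat_lit 304) (nat_lit 13844260256) (nat_lit 380) (nat_lit 2220345309) (nat_lit 71) (nat_lit 5) (nat_lit 75) (nat_lit 5) (nat_lit 76) (nat_lit 5) (nat_lit 331) (nat_lit 284) (nat_lit 165)))) (XT.nd (nat_lit 78) (nat_lit 304) (nat_lit 0) (XT.lf (nat_lit 0) (nat_lit 440365389) (nat_lit 380) (nat_lit 7805614369) (nat_lit 76) (nat_lit 11269089611) (nat_lit 70) (nat_lit 5) (nat_lit 75) (nat_lit 5) (nat_lit 71) (nat_lit 5) (nat_lit 332) (nat_lit 284) (nat_lit 164)) (XT.nd (nat_lit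 78) (nat_lit 0) (nat_lit 0) (XT.lf (nat_lit 0) (nat_lit 678803335) (nat_lit 304) (nat_lit 2453639186) (nat_lit 380) (nat_lit 16773076090) (nat_lit 66) (nat_lit 5) (nat_lit 70) (nat_lit 5) (nat_lit 71) (nat_lit 5) (nat_lit 333) (nat_lit 284) (nat_lit 163)) (XT.lf (nat_lit 0) (nat_lit 6008434997) (nat_lit 380) (nat_lit 10775861759) (nat_lit 76) (nat_lit 3520305706) (nat_lit 66) (nat_lit 5) (nat_lit 71) (nat_lit 5) (nat_lit 67) (nat_lit 5) (nat_lit 334) (nat_lit 284) (nat_lit 162))))) (XT.nd (nat_lit 234) (nat_lit 608) (nat_lit 0) (XT.nd (nat_lit 78) (nat_lit 304) (nat_lit 0) (XT.lf (nat_lit 0) (nat_lit 8985085361) (nat_lit 380) (nat_lit 2109136917) (nat_lit 76) (nat_lit 9621020476) (nat_lit 66) (nat_lit 5) (nat_lit 71) (nat_lit 5) (nat_lit 67) (nat_lit 5) (nat_lit 335) (nat_lit 284) (nat_lit 161)) (XT.nd (nat_lit 78) (nat_lit 0) (nat_lit 0) (XT.lf (nat_lit 0) (nat_lit 6940043237) (nat_lit 304)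 (nat_lit 5168077391) (nat_lit 380) (nat_lit 9028383886) (nat_lit 62) (nat_lit 5) (nat_lit 66) (nat_lit 5) (nat_lit 67) (nat_lit 5) (nat_lit 336) (nat_lit 284) (nat_lit 160)) (XT.lf (nat_lit 0) (nat_lit 15345849879) (nat_lit 380) (nat_lit 5288148537) (nat_lit 76) (nat_lit 935790011) (nat_lit 62) (nat_lit 5) (nat_lit 67) (nat_lit 5) (nat_lit 63) (nat_lit 5) (nat_lit 337) (nat_lit 284) (nat_lit 159)))) (XT.nd (nat_lit 78) (nat_lit 380) (nat_lit 0) (XT.lf (nat_lit 0) (nat_lit 3899611287) (nat_lit 228) (nat_lit 14860528939) (nat_lit 304) (nat_lit 3253561728) (nat_lit 59) (nat_lit 5) (nat_lit 62) (nat_lit 5) (nat_lit 63) (nat_lit 5) (nat_lit 338) (nat_lit 284) (nat_lit 158)) (XT.nd (nat_lit 78) (nat_lit 380) (nat_lit 0) (XT.lf (nat_lit 0) (nat_lit 13458801881) (nat_lit 228) (nat_lit 8862379561) (nat_lit 304) (nat_lit 148435342) (nat_lit 59) (nat_lit 5) (nat_lit 62) (nat_lit 5) (nat_lit 63) (nat_lit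 5) (nat_lit 339) (nat_lit 284) (nat_lit 157)) (XT.lf (nat_lit 0) (nat_lit 330259750) (nat_lit 304) (nat_lit 2654332740) (nat_lit 380) (nat_lit 19953922012) (nat_lit 54) (nat_lit 5) (nat_lit 58) (nat_lit 5) (nat_lit 59) (nat_lit 5) (nat_lit 340) (nat_lit 284) (nat_lit 156))))))) (XT.nd (nat_lit 936) (nat_lit 836) (nat_lit 0) (XT.nd (nat_lit 468) (nat_lit 532) (nat_lit 0) (XT.nd (nat_lit 234) (nat_lit 228) (nat_lit 0) (XT.nd (nat_lit 78) (nat_lit 228) (nat_lit 0) (XT.lf (nat_lit 0) (nat_lit 6327664794) (nat_lit 380) (nat_lit 13333337944) (nat_lit 76) (nat_lit 3756873626) (nat_lit 54) (nat_lit 5) (nat_lit 59) (nat_lit 5) (nat_lit 55) (nat_lit 5) (nat_lit 341) (nat_lit 284) (nat_lit 155)) (XT.nd (nat_lit 78) (nat_lit 228) (nat_lit 0) (XT.lf (nat_lit 0) (nat_lit 9788760108) (nat_lit 380) (nat_lit 3818635464) (nat_lit 76) (nat_lit 10303703637) (nat_lit 54) (nat_lit 5) (nat_lit 59) (nat_lit 5) (nat_lit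 55) (nat_lit 5) (nat_lit 342) (nat_lit 284) (nat_lit 154)) (XT.lf (nat_lit 0) (nat_lit 6088489943) (nat_lit 228) (nat_lit 7315423966) (nat_lit 304) (nat_lit 11013709760) (nat_lit 51) (nat_lit 5) (nat_lit 54) (nat_lit 5) (nat_lit 55) (nat_lit 5) (nat_lit 343) (nat_lit 284) (nat_lit 153)))) (XT.nd (nat_lit 78) (nat_lit 228) (nat_lit 0) (XT.lf (nat_lit 0) (nat_lit 16359396827) (nat_lit 228) (nat_lit 798514765) (nat_lit 304) (nat_lit 7780531953) (nat_lit 51) (nat_lit 5) (nat_lit 54) (nat_lit 5) (nat_lit 55) (nat_lit 5) (nat_lit 344) (nat_lit 284) (nat_lit 152)) (XT.nd (nat_lit 78) (nat_lit 0) (nat_lit 0) (XT.lf (nat_lit 0) (nat_lit 1422874782) (nat_lit 228) (nat_lit 19664213519) (nat_lit 304) (nat_lit 4385933972) (nat_lit 48) (nat_lit 5) (nat_lit 51) (nat_lit 5) (nat_lit 52) (nat_lit 5) (nat_lit 345) (nat_lit 284) (nat_lit 151)) (XT.lf (nat_lit 0) (nat_lit 11881180637) (nat_lit 228) (nat_lit 13339575070)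 (nat_lit 304) (nat_lit 800294901) (nat_lit 48) (nat_lit 5) (nat_lit 51) (nat_lit 5) (nat_lit 52) (nat_lit 5) (nat_lit 346) (nat_lit 284) (nat_lit 150))))) (XT.nd (nat_lit 234) (nat_lit 228) (nat_lit 0) (XT.nd (nat_lit 78) (nat_lit 228) (nat_lit 0) (XT.lf (nat_lit 0) (nat_lit 2828760339) (nat_lit 304) (nat_lit 3971393724) (nat_lit 76) (nat_lit 19784772625) (nat_lit 47) (nat_lit 5) (nat_lit 51) (nat_lit 5) (nat_lit 48) (nat_lit 5) (nat_lit 347) (nat_lit 284) (nat_lit 149)) (XT.nd (nat_lit 78) (nat_lit 0) (nat_lit 0) (XT.lf (nat_lit 0) (nat_lit 6606739452) (nat_lit 304) (nat_lit 20551591989) (nat_lit 76) (nat_lit 5475576) (nat_lit 44) (nat_lit 5) (nat_lit 48) (nat_lit 5) (nat_lit 45) (nat_lit 5) (nat_lit 348) (nat_lit 284) (nat_lit 148)) (XT.lf (nat_lit 0) (nat_lit 10598488740) (nat_lit 304) (nat_lit 10242895466) (nat_lit 76) (nat_lit 6915666140) (nat_lit 44) (nat_lit 5) (nat_lit 48) (nat_lit 5)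 (nat_lit 45) (nat_lit 5) (nat_lit 349) (nat_lit 284) (nat_lit 147)))) (XT.nd (nat_lit 78) (nat_lit 0) (nat_lit 0) (XT.lf (nat_lit 0) (nat_lit 371573655) (nat_lit 228) (nat_lit 14334806307) (nat_lit 304) (nat_lit 13661828565) (nat_lit 41) (nat_lit 5) (nat_lit 44) (nat_lit 5) (nat_lit 45) (nat_lit 5) (nat_lit 350) (nat_lit 284) (nat_lit 146)) (XT.nd (nat_lit 78) (nat_lit 0) (nat_lit 0) (XT.lf (nat_lit 0) (nat_lit 11503812411) (nat_lit 228) (nat_lit 7530053307) (nat_lit 304) (nat_lit 9960953968) (nat_lit 41) (nat_lit 5) (nat_lit 44) (nat_lit 5) (nat_lit 45) (nat_lit 5) (nat_lit 351) (nat_lit 284) (nat_lit 145)) (XT.lf (nat_lit 0) (nat_lit 22959694296) (nat_lit 228) (nat_lit 524612467) (nat_lit 304) (nat_lit 6156137202) (nat_lit 41) (nat_lit 5) (nat_lit 44) (nat_lit 5) (nat_lit 45) (nat_lit 5) (nat_lit 352) (nat_lit 284) (nat_lit 144)))))) (XT.nd (nat_lit 468) (nat_lit 380) (nat_lit 0) (XT.nd (nat_lit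 234) (nat_lit 228) (nat_lit 0) (XT.nd (nat_lit 78) (nat_lit 76) (nat_lit 0) (XT.lf (nat_lit 0) (nat_lit 4466454760) (nat_lit 152) (nat_lit 23702357030) (nat_lit 228) (nat_lit 2133617113) (nat_lit 39) (nat_lit 5) (nat_lit 41) (nat_lit 5) (nat_lit 42) (nat_lit 5) (nat_lit 353) (nat_lit 284) (nat_lit 143)) (XT.nd (nat_lit 78) (nat_lit 0) (nat_lit 0) (XT.lf (nat_lit 0) (nat_lit 2037012292) (nat_lit 228) (nat_lit 14932645271) (nat_lit 76) (nat_lit 14012044839) (nat_lit 38) (nat_lit 5) (nat_lit 41) (nat_lit 5) (nat_lit 39) (nat_lit 5) (nat_lit 354) (nat_lit 284) (nat_lit 142)) (XT.lf (nat_lit 0) (nat_lit 6283394685) (nat_lit 228) (nat_lit 3733283660) (nat_lit 76) (nat_lit 21664244217) (nat_lit 38) (nat_lit 5) (nat_lit 41) (nat_lit 5) (nat_lit 39) (nat_lit 5) (nat_lit 355) (nat_lit 284) (nat_lit 141)))) (XT.nd (nat_lit 78) (nat_lit 0) (nat_lit 0) (XT.lf (nat_lit 0) (nat_lit 7947490334) (nat_lit 228)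 (nat_lit 2779780858) (nat_lit 304) (nat_lit 21671752567) (nat_lit 35) (nat_lit 5) (nat_lit 38) (nat_lit 5) (nat_lit 39) (nat_lit 5) (nat_lit 356) (nat_lit 284) (nat_lit 140)) (XT.nd (nat_lit 78) (nat_lit 0) (nat_lit 0) (XT.lf (nat_lit 0) (nat_lit 15381233264) (nat_lit 304) (nat_lit 13137344662) (nat_lit 76) (nat_lit 4617794278) (nat_lit 35) (nat_lit 5) (nat_lit 39) (nat_lit 5) (nat_lit 36) (nat_lit 5) (nat_lit 357) (nat_lit 284) (nat_lit 139)) (XT.lf (nat_lit 0) (nat_lit 20196284035) (nat_lit 304) (nat_lit 1520688826) (nat_lit 76) (nat_lit 12178231226) (nat_lit 35) (nat_lit 5) (nat_lit 39) (nat_lit 5) (nat_lit 36) (nat_lit 5) (nat_lit 358) (nat_lit 284) (nat_lit 138))))) (XT.nd (nat_lit 234) (nat_lit 228) (nat_lit 0) (XT.nd (nat_lit 78) (nat_lit 0) (nat_lit 0) (XT.lf (nat_lit 0) (nat_lit 10642988554) (nat_lit 152) (nat_lit 14609228239) (nat_lit 228) (nat_lit 9421698091) (nat_lit 33) (nat_lit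 5) (nat_lit 35) (nat_lit 5) (nat_lit 36) (nat_lit 5) (nat_lit 359) (nat_lit 284) (nat_lit 137)) (XT.nd (nat_lit 78) (nat_lit 0) (nat_lit 0) (XT.lf (nat_lit 0) (nat_lit 23193677530) (nat_lit 152) (nat_lit 7275713488) (nat_lit 228) (nat_lit 5006315757) (nat_lit 33) (nat_lit 5) (nat_lit 35) (nat_lit 5) (nat_lit 36) (nat_lit 5) (nat_lit 360) (nat_lit 284) (nat_lit 136)) (XT.lf (nat_lit 0) (nat_lit 35840096538) (nat_lit 228) (nat_lit 192287427) (nat_lit 76) (nat_lit 269264452) (nat_lit 33) (nat_lit 5) (nat_lit 36) (nat_lit 5) (nat_lit 34) (nat_lit 5) (nat_lit 361) (nat_lit 284) (nat_lit 135)))) (XT.nd (nat_lit 78) (nat_lit 0) (nat_lit 0) (XT.lf (nat_lit 0) (nat_lit 4325004297) (nat_lit 228) (nat_lit 24767384816) (nat_lit 76) (nat_lit 8053134830) (nat_lit 30) (nat_lit 5) (nat_lit 33) (nat_lit 5) (nat_lit 31) (nat_lit 5) (nat_lit 362) (nat_lit 284) (nat_lit 134)) (XT.nd (nat_lit 78) (nat_lit 0) (nat_lit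 0) (XT.lf (nat_lit 0) (nat_lit 9242369280) (nat_lit 228) (nat_lit 12698346978) (nat_lit 76) (nat_lit 16073973647) (nat_lit 30) (nat_lit 5) (nat_lit 33) (nat_lit 5) (nat_lit 31) (nat_lit 5) (nat_lit 363) (nat_lit 284) (nat_lit 133)) (XT.lf (nat_lit 0) (nat_lit 14301942498) (nat_lit 228) (nat_lit 275704636) (nat_lit 76) (nat_lit 24332448848) (nat_lit 30) (nat_lit 5) (nat_lit 33) (nat_lit 5) (nat_lit 31) (nat_lit 5) (nat_lit 364) (nat_lit 284) (nat_lit 132))))))))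
noncomputable def xc175 : XT := (XT.nd (nat_lit 1794) (nat_lit 228) (nat_lit 0) (XT.nd (nat_lit 858) (nat_lit 380) (nat_lit 0) (XT.nd (nat_lit 390) (nat_lit 380) (nat_lit 0) (XT.nd (nat_lit 156) (nat_lit 152) (nat_lit 0) (XT.nd (nat_lit 78) (nat_lit 0) (nat_lit 0) (XT.lf (nat_lit 0) (nat_lit 12760398275) (nat_lit 152) (nat_lit 6870407415) (nat_lit 228) (nat_lit 20198039054) (nat_lit 28) (nat_lit 5) (nat_lit 30) (nat_lit 5) (nat_lit 31) (nat_lit 5) (nat_lit 365) (nat_lit 284) (nat_lit 131)) (XT.lf (nat_lit 0) (nat_lit 25127497831) (nat_lit 228) (nat_lit 14600398906) (nat_lit 76) (nat_lit 1047025768) (nat_lit 28) (nat_lit 5) (nat_lit 31) (nat_lit 5) (nat_lit 29) (nat_lit 5) (nat_lit 366) (nat_lit 284) (nat_lit 130))) (XT.nd (nat_lit 78) (nat_lit 152) (nat_lit 0) (XT.lf (nat_lit 0) (nat_lit 30852148226) (nat_lit 228) (nat_lit 1834361029) (nat_lit 76) (nat_lit 9060986887) (nat_lit 28) (nat_lit 5)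 (nat_lit 31) (nat_lit 5) (nat_lit 29) (nat_lit 5) (nat_lit 367) (nat_lit 284) (nat_lit 129)) (XT.nd (nat_lit 78) (nat_lit 0) (nat_lit 0) (XT.lf (nat_lit 0) (nat_lit 11531893285) (nat_lit 152) (nat_lit 25322674765) (nat_lit 228) (nat_lit 5891503153) (nat_lit 26) (nat_lit 5) (nat_lit 28) (nat_lit 5) (nat_lit 29) (nat_lit 5) (nat_lit 368) (nat_lit 284) (nat_lit 128)) (XT.lf (nat_lit 0) (nat_lit 25329020764) (nat_lit 152) (nat_lit 17721807716) (nat_lit 228) (nat_lit 723366960) (nat_lit 26) (nat_lit 5) (nat_lit 28) (nat_lit 5) (nat_lit 29) (nat_lit 5) (nat_lit 369) (nat_lit 284) (nat_lit 127))))) (XT.nd (nat_lit 234) (nat_lit 152) (nat_lit 0) (XT.nd (nat_lit 78) (nat_lit 152) (nat_lit 0) (XT.lf (nat_lit 0) (nat_lit 4505387023) (nat_lit 228) (nat_lit 5344907425) (nat_lit 76) (nat_lit 34981687173) (nat_lit 25) (nat_lit 5) (nat_lit 28) (nat_lit 5) (nat_lit 26) (nat_lit 5) (nat_lit 370) (nat_lit 284)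 (nat_lit 126)) (XT.nd (nat_lit 78) (nat_lit 0) (nat_lit 0) (XT.lf (nat_lit 0) (nat_lit 8295716296) (nat_lit 152) (nat_lit 1655960445) (nat_lit 228) (nat_lit 35967357965) (nat_lit 23) (nat_lit 5) (nat_lit 25) (nat_lit 5) (nat_lit 26) (nat_lit 5) (nat_lit 371) (nat_lit 284) (nat_lit 125)) (XT.lf (nat_lit 0) (nat_lit 15676579781) (nat_lit 228) (nat_lit 24655112285) (nat_lit 76) (nat_lit 6703554989) (nat_lit 23) (nat_lit 5) (nat_lit 26) (nat_lit 5) (nat_lit 24) (nat_lit 5) (nat_lit 372) (nat_lit 284) (nat_lit 124)))) (XT.nd (nat_lit 78) (nat_lit 152) (nat_lit 0) (XT.lf (nat_lit 0) (nat_lit 21585259778) (nat_lit 228) (nat_lit 11321447746) (nat_lit 76) (nat_lit 15277881639) (nat_lit 23) (nat_lit 5) (nat_lit 26) (nat_lit 5) (nat_lit 24) (nat_lit 5) (nat_lit 373) (nat_lit 284) (nat_lit 123)) (XT.nd (nat_lit 78) (nat_lit 0) (nat_lit 0) (XT.lf (nat_lit 0) (nat_lit 2453113161) (nat_lit 152) (nat_lit 25237429214)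 (nat_lit 228) (nat_lit 21677293050) (nat_lit 21) (nat_lit 5) (nat_lit 23) (nat_lit 5) (nat_lit 24) (nat_lit 5) (nat_lit 374) (nat_lit 284) (nat_lit 122)) (XT.lf (nat_lit 0) (nat_lit 16866075291) (nat_lit 152) (nat_lit 17223050949) (nat_lit 228) (nat_lit 16494152588) (nat_lit 21) (nat_lit 5) (nat_lit 23) (nat_lit 5) (nat_lit 24) (nat_lit 5) (nat_lit 375) (nat_lit 284) (nat_lit 121)))))) (XT.nd (nat_lit 468) (nat_lit 228) (nat_lit 0) (XT.nd (nat_lit 234) (nat_lit 0) (nat_lit 0) (XT.nd (nat_lit 78) (nat_lit 152) (nat_lit 0) (XT.lf (nat_lit 0) (nat_lit 31704713485) (nat_lit 152) (nat_lit 8970894300) (nat_lit 228) (nat_lit 11159703464) (nat_lit 21) (nat_lit 5) (nat_lit 23) (nat_lit 5) (nat_lit 24) (nat_lit 5) (nat_lit 376) (nat_lit 284) (nat_lit 120)) (XT.nd (nat_lit 78) (nat_lit 152) (nat_lit 0) (XT.lf (nat_lit 0) (nat_lit 46981993543) (nat_lit 152) (nat_lit 473748644) (nat_lit 228) (nat_lit 5669284508)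 (nat_lit 21) (nat_lit 5) (nat_lit 23) (nat_lit 5) (nat_lit 24) (nat_lit 5) (nat_lit 377) (nat_lit 284) (nat_lit 119)) (XT.lf (nat_lit 0) (nat_lit 143566578) (nat_lit 152) (nat_lit 46109246000) (nat_lit 76) (nat_lit 8195905392) (nat_lit 19) (nat_lit 5) (nat_lit 21) (nat_lit 5) (nat_lit 20) (nat_lit 5) (nat_lit 378) (nat_lit 284) (nat_lit 118)))) (XT.nd (nat_lit 78) (nat_lit 0) (nat_lit 0) (XT.lf (nat_lit 0) (nat_lit 6080352618) (nat_lit 152) (nat_lit 32495755779) (nat_lit 76) (nat_lit 17232426231) (nat_lit 19) (nat_lit 5) (nat_lit 21) (nat_lit 5) (nat_lit 20) (nat_lit 5) (nat_lit 379) (nat_lit 284) (nat_lit 117)) (XT.nd (nat_lit 78) (nat_lit 0) (nat_lit 0) (XT.lf (nat_lit 0) (nat_lit 12191513182) (nat_lit 152) (nat_lit 18480112194) (nat_lit 76) (nat_lit 26537635663) (nat_lit 19) (nat_lit 5) (nat_lit 21) (nat_lit 5) (nat_lit 20) (nat_lit 5) (nat_lit 380) (nat_lit 284) (nat_lit 116)) (XT.lf (nat_lit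 0) (nat_lit 18482388119) (nat_lit 152) (nat_lit 4050068564) (nat_lit 76) (nat_lit 36119664452) (nat_lit 19) (nat_lit 5) (nat_lit 21) (nat_lit 5) (nat_lit 20) (nat_lit 5) (nat_lit 381) (nat_lit 284) (nat_lit 115))))) (XT.nd (nat_lit 234) (nat_lit 76) (nat_lit 0) (XT.nd (nat_lit 78) (nat_lit 0) (nat_lit 0) (XT.lf (nat_lit 0) (nat_lit 11022064052) (nat_lit 152) (nat_lit 14042361081) (nat_lit 228) (nat_lit 35070772016) (nat_lit 17) (nat_lit 5) (nat_lit 19) (nat_lit 5) (nat_lit 20) (nat_lit 5) (nat_lit 382) (nat_lit 284) (nat_lit 114)) (XT.nd (nat_lit 78) (nat_lit 0) (nat_lit 0) (XT.lf (nat_lit 0) (nat_lit 26623548364) (nat_lit 152) (nat_lit 5257803942) (nat_lit 228) (nat_lit 29780293359) (nat_lit 17) (nat_lit 5) (nat_lit 19) (nat_lit 5) (nat_lit 20) (nat_lit 5) (nat_lit 383) (nat_lit 284) (nat_lit 113)) (XT.lf (nat_lit 0) (nat_lit 38935832127) (nat_lit 228) (nat_lit 20582991748) (nat_lit 76) (nat_lit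 3714075421) (nat_lit 17) (nat_lit 5) (nat_lit 20) (nat_lit 5) (nat_lit 18) (nat_lit 4) (nat_lit 384) (nat_lit 284) (nat_lit 112)))) (XT.nd (nat_lit 78) (nat_lit 76) (nat_lit 0) (XT.lf (nat_lit 0) (nat_lit 46250712784) (nat_lit 228) (nat_lit 5751869841) (nat_lit 76) (nat_lit 12847247833) (nat_lit 17) (nat_lit 5) (nat_lit 20) (nat_lit 5) (nat_lit 18) (nat_lit 4) (nat_lit 385) (nat_lit 284) (nat_lit 111)) (XT.nd (nat_lit 78) (nat_lit 0) (nat_lit 0) (XT.lf (nat_lit 0) (nat_lit 9708211044) (nat_lit 76) (nat_lit 44166954913) (nat_lit 152) (nat_lit 12637402647) (nat_lit 16) (nat_lit 5) (nat_lit 17) (nat_lit 5) (nat_lit 18) (nat_lit 4) (nat_lit 386) (nat_lit 284) (nat_lit 110)) (XT.lf (nat_lit 0) (nat_lit 25744638311) (nat_lit 76) (nat_lit 36038643357) (nat_lit 152) (nat_lit 6440262107) (nat_lit 16) (nat_lit 5) (nat_lit 17) (nat_lit 5) (nat_lit 18) (nat_lit 4) (nat_lit 387) (nat_lit 284) (nat_lit 109)))))))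 (XT.nd (nat_lit 33228) (nat_lit 0) (nat_lit 10564) (XT.nd (nat_lit 32760) (nat_lit 0) (nat_lit 12312) (XT.nd (nat_lit 234) (nat_lit 0) (nat_lit 0) (XT.nd (nat_lit 78) (nat_lit 228) (nat_lit 0) (XT.lf (nat_lit 0) (nat_lit 42256950884) (nat_lit 76) (nat_lit 27668628156) (nat_lit 152) (nat_lit 60363683) (nat_lit 16) (nat_lit 5) (nat_lit 17) (nat_lit 5) (nat_lit 18) (nat_lit 4) (nat_lit 388) (nat_lit 284) (nat_lit 108)) (XT.nd (nat_lit 78) (nat_lit 152) (nat_lit 0) (XT.lf (nat_lit 0) (nat_lit 6380875360) (nat_lit 152) (nat_lit 12604286016) (nat_lit 76) (nat_lit 52814267307) (nat_lit 15) (nat_lit 5) (nat_lit 17) (nat_lit 5) (nat_lit 16) (nat_lit 5) (nat_lit 389) (nat_lit 284) (nat_lit 107)) (XT.lf (nat_lit 0) (nat_lit 3027675089) (nat_lit 152) (nat_lit 10012650010) (nat_lit 228) (nat_lit 60626193033) (nat_lit 13) (nat_lit 5) (nat_lit 15) (nat_lit 5) (nat_lit 16) (nat_lit 5) (nat_lit 390) (nat_lit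 284) (nat_lit 106)))) (XT.nd (nat_lit 32370) (nat_lit 0) (nat_lit 13224) (XT.lf (nat_lit 0) (nat_lit 19382050174) (nat_lit 152) (nat_lit 641907307) (nat_lit 228) (nat_lit 55561933179) (nat_lit 13) (nat_lit 5) (nat_lit 15) (nat_lit 5) (nat_lit 16) (nat_lit 5) (nat_lit 391) (nat_lit 284) (nat_lit 105)) (XT.nd (nat_lit 78) (nat_lit 0) (nat_lit 0) (XT.lf (nat_lit 0) (nat_lit 3527943027) (nat_lit 988) (nat_lit 532474241) (nat_lit 988) (nat_lit 532474241) (nat_lit 187) (nat_lit 3) (nat_lit 200) (nat_lit 3) (nat_lit 200) (nat_lit 5) (nat_lit 285) (nat_lit 285) (nat_lit 210)) (XT.lf (nat_lit 76) (nat_lit 2920043271) (nat_lit 0) (nat_lit 5045646617) (nat_lit 988) (nat_lit 1331887051) (nat_lit 188) (nat_lit 5) (nat_lit 187) (nat_lit 3) (nat_lit 200) (nat_lit 5) (nat_lit 286) (nat_lit 285) (nat_lit 209))))) (XT.nd (nat_lit 234) (nat_lit 0) (nat_lit 0) (XT.nd (nat_lit 78) (nat_lit 912) (nat_lit 0) (XT.lf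 (nat_lit 76) (nat_lit 7030472772) (nat_lit 0) (nat_lit 1852634646) (nat_lit 988) (nat_lit 530280802) (nat_lit 188) (nat_lit 5) (nat_lit 187) (nat_lit 3) (nat_lit 200) (nat_lit 5) (nat_lit 287) (nat_lit 285) (nat_lit 208)) (XT.nd (nat_lit 78) (nat_lit 0) (nat_lit 0) (XT.lf (nat_lit 0) (nat_lit 290621602) (nat_lit 988) (nat_lit 7800540182) (nat_lit 1064) (nat_lit 1441465457) (nat_lit 175) (nat_lit 5) (nat_lit 188) (nat_lit 5) (nat_lit 189) (nat_lit 5) (nat_lit 288) (nat_lit 285) (nat_lit 207)) (XT.lf (nat_lit 0) (nat_lit 1139071339) (nat_lit 988) (nat_lit 3676219621) (nat_lit 1064) (nat_lit 4839654538) (nat_lit 175) (nat_lit 5) (nat_lit 188) (nat_lit 5) (nat_lit 189) (nat_lit 5) (nat_lit 289) (nat_lit 285) (nat_lit 206)))) (XT.nd (nat_lit 78) (nat_lit 0) (nat_lit 76) (XT.lf (nat_lit 76) (nat_lit 566324619) (nat_lit 0) (nat_lit 1423874819) (nat_lit 1064) (nat_lit 7791482094) (nat_lit 176) (nat_lit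 5) (nat_lit 175) (nat_lit 5) (nat_lit 189) (nat_lit 5) (nat_lit 290) (nat_lit 285) (nat_lit 205)) (XT.nd (nat_lit 78) (nat_lit 0) (nat_lit 0) (XT.lf (nat_lit 0) (nat_lit 2896795369) (nat_lit 988) (nat_lit 4937252305) (nat_lit 1064) (nat_lit 2077337037) (nat_lit 176) (nat_lit 5) (nat_lit 189) (nat_lit 5) (nat_lit 190) (nat_lit 5) (nat_lit 291) (nat_lit 285) (nat_lit 204)) (XT.lf (nat_lit 0) (nat_lit 3818038993) (nat_lit 988) (nat_lit 561787423) (nat_lit 1064) (nat_lit 5665590321) (nat_lit 176) (nat_lit 5) (nat_lit 189) (nat_lit 5) (nat_lit 190) (nat_lit 5) (nat_lit 292) (nat_lit 285) (nat_lit 203)))))) (XT.nd (nat_lit 468) (nat_lit 1824) (nat_lit 0) (XT.nd (nat_lit 234) (nat_lit 0) (nat_lit 152) (XT.nd (nat_lit 78) (nat_lit 0) (nat_lit 76) (XT.lf (nat_lit 76) (nat_lit 4006733918) (nat_lit 0) (nat_lit 772829384) (nat_lit 1064) (nat_lit 5403586585) (nat_lit 177) (nat_lit 5) (nat_lit 176) (nat_lit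 5) (nat_lit 190) (nat_lit 5) (nat_lit 293) (nat_lit 285) (nat_lit 202)) (XT.nd (nat_lit 78) (nat_lit 0) (nat_lit 0) (XT.lf (nat_lit 0) (nat_lit 5778759016) (nat_lit 988) (nat_lit 1646493403) (nat_lit 1064) (nat_lit 2899555572) (nat_lit 177) (nat_lit 5) (nat_lit 190) (nat_lit 5) (nat_lit 191) (nat_lit 5) (nat_lit 294) (nat_lit 285) (nat_lit 201)) (XT.lf (nat_lit 76) (nat_lit 3054645846) (nat_lit 0) (nat_lit 3765845892) (nat_lit 1064) (nat_lit 3649903315) (nat_lit 178) (nat_lit 5) (nat_lit 177) (nat_lit 5) (nat_lit 191) (nat_lit 5) (nat_lit 295) (nat_lit 285) (nat_lit 200)))) (XT.nd (nat_lit 78) (nat_lit 0) (nat_lit 0) (XT.lf (nat_lit 0) (nat_lit 7886471067) (nat_lit 988) (nat_lit 2706792974) (nat_lit 1064) (nat_lit 27350263) (nat_lit 178) (nat_lit 5) (nat_lit 191) (nat_lit 5) (nat_lit 192) (nat_lit 5) (nat_lit 296) (nat_lit 285) (nat_lit 199)) (XT.nd (nat_lit 78) (nat_lit 0) (nat_lit 0) (XT.lf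 (nat_lit 76) (nat_lit 2130916487) (nat_lit 0) (nat_lit 6888148117) (nat_lit 1064) (nat_lit 1755289316) (nat_lit 179) (nat_lit 5) (nat_lit 178) (nat_lit 5) (nat_lit 192) (nat_lit 5) (nat_lit 297) (nat_lit 285) (nat_lit 198)) (XT.lf (nat_lit 76) (nat_lit 7152596947) (nat_lit 0) (nat_lit 3037751655) (nat_lit 1064) (nat_lit 742267036) (nat_lit 179) (nat_lit 5) (nat_lit 178) (nat_lit 5) (nat_lit 192) (nat_lit 5) (nat_lit 298) (nat_lit 285) (nat_lit 197))))) (XT.nd (nat_lit 234) (nat_lit 988) (nat_lit 0) (XT.nd (nat_lit 78) (nat_lit 0) (nat_lit 0) (XT.lf (nat_lit 0) (nat_lit 294023442) (nat_lit 1064) (nat_lit 9871187887) (nat_lit 1140) (nat_lit 930412764) (nat_lit 165) (nat_lit 5) (nat_lit 179) (nat_lit 5) (nat_lit 180) (nat_lit 5) (nat_lit 299) (nat_lit 285) (nat_lit 196)) (XT.nd (nat_lit 78) (nat_lit 0) (nat_lit 0) (XT.lf (nat_lit 0) (nat_lit 1393420568) (nat_lit 1064) (nat_lit 4860909178) (nat_lit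 1140) (nat_lit 5007611417) (nat_lit 165) (nat_lit 5) (nat_lit 179) (nat_lit 5) (nat_lit 180) (nat_lit 5) (nat_lit 300) (nat_lit 285) (nat_lit 195)) (XT.lf (nat_lit 76) (nat_lit 288572004) (nat_lit 0) (nat_lit 2218944554) (nat_lit 1140) (nat_lit 8926325254) (nat_lit 166) (nat_lit 5) (nat_lit 165) (nat_lit 5) (nat_lit 180) (nat_lit 5) (nat_lit 301) (nat_lit 285) (nat_lit 194)))) (XT.nd (nat_lit 78) (nat_lit 1064) (nat_lit 0) (XT.lf (nat_lit 0) (nat_lit 3702667293) (nat_lit 1064) (nat_lit 5953629819) (nat_lit 76) (nat_lit 1953217655) (nat_lit 166) (nat_lit 5) (nat_lit 180) (nat_lit 5) (nat_lit 167) (nat_lit 5) (nat_lit 302) (nat_lit 285) (nat_lit 193)) (XT.nd (nat_lit 78) (nat_lit 1064) (nat_lit 0) (XT.lf (nat_lit 0) (nat_lit 4935677018) (nat_lit 1064) (nat_lit 644981207) (nat_lit 76) (nat_lit 6209782512) (nat_lit 166) (nat_lit 5) (nat_lit 180) (nat_lit 5) (nat_lit 167) (nat_lit 5) (nat_lit 303)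 (nat_lit 285) (nat_lit 192)) (XT.lf (nat_lit 0) (nat_lit 4902306157) (nat_lit 1064) (nat_lit 1331111074) (nat_lit 1140) (nat_lit 5742586752) (nat_lit 152) (nat_lit 5) (nat_lit 166) (nat_lit 5) (nat_lit 167) (nat_lit 5) (nat_lit 304) (nat_lit 285) (nat_lit 191))))))))
noncomputable def xc176 : XT := (XT.nd (nat_lit 1794) (nat_lit 3040) (nat_lit 0) (XT.nd (nat_lit 858) (nat_lit 2204) (nat_lit 0) (XT.nd (nat_lit 390) (nat_lit 1520) (nat_lit 0) (XT.nd (nat_lit 156) (nat_lit 608) (nat_lit 0) (XT.nd (nat_lit 78) (nat_lit 836) (nat_lit 0) (XT.lf (nat_lit 0) (nat_lit 7586999691) (nat_lit 1140) (nat_lit 1583808720) (nat_lit 76) (nat_lit 2995858908) (nat_lit 152) (nat_lit 5) (nat_lit 167) (nat_lit 5) (nat_lit 153) (nat_lit 5) (nat_lit 305) (nat_lit 285) (nat_lit 190)) (XT.lf (nat_lit 0) (nat_lit 4121756352) (nat_lit 836) (nat_lit 4893838516) (nat_lit 912) (nat_lit 3346462840) (nat_lit 141) (nat_lit 5)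 (nat_lit 152) (nat_lit 5) (nat_lit 153) (nat_lit 5) (nat_lit 306) (nat_lit 285) (nat_lit 189))) (XT.nd (nat_lit 78) (nat_lit 608) (nat_lit 0) (XT.lf (nat_lit 0) (nat_lit 10014842730) (nat_lit 836) (nat_lit 470184512) (nat_lit 912) (nat_lit 2078381354) (nat_lit 141) (nat_lit 5) (nat_lit 152) (nat_lit 5) (nat_lit 153) (nat_lit 5) (nat_lit 307) (nat_lit 285) (nat_lit 188)) (XT.nd (nat_lit 78) (nat_lit 76) (nat_lit 0) (XT.lf (nat_lit 0) (nat_lit 3323269417) (nat_lit 532) (nat_lit 8729025728) (nat_lit 608) (nat_lit 716929343) (nat_lit 134) (nat_lit 5) (nat_lit 141) (nat_lit 5) (nat_lit 142) (nat_lit 5) (nat_lit 308) (nat_lit 285) (nat_lit 187)) (XT.lf (nat_lit 0) (nat_lit 685316010) (nat_lit 608) (nat_lit 3584881185) (nat_lit 76) (nat_lit 8710455232) (nat_lit 133) (nat_lit 5) (nat_lit 141) (nat_lit 5) (nat_lit 134) (nat_lit 5) (nat_lit 309) (nat_lit 285) (nat_lit 186))))) (XT.nd (nat_lit 234) (nat_lit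 532) (nat_lit 0) (XT.nd (nat_lit 78) (nat_lit 456) (nat_lit 0) (XT.lf (nat_lit 0) (nat_lit 2125628490) (nat_lit 608) (nat_lit 10724143968) (nat_lit 76) (nat_lit 348159430) (nat_lit 126) (nat_lit 5) (nat_lit 134) (nat_lit 5) (nat_lit 127) (nat_lit 5) (nat_lit 310) (nat_lit 285) (nat_lit 185)) (XT.nd (nat_lit 78) (nat_lit 456) (nat_lit 0) (XT.lf (nat_lit 0) (nat_lit 3671515194) (nat_lit 608) (nat_lit 4691919003) (nat_lit 76) (nat_lit 5056457512) (nat_lit 126) (nat_lit 5) (nat_lit 134) (nat_lit 5) (nat_lit 127) (nat_lit 5) (nat_lit 311) (nat_lit 285) (nat_lit 184)) (XT.lf (nat_lit 0) (nat_lit 1535367899) (nat_lit 456) (nat_lit 3727176273) (nat_lit 532) (nat_lit 8386035146) (nat_lit 120) (nat_lit 5) (nat_lit 126) (nat_lit 5) (nat_lit 127) (nat_lit 5) (nat_lit 312) (nat_lit 285) (nat_lit 183)))) (XT.nd (nat_lit 78) (nat_lit 532) (nat_lit 0) (XT.lf (nat_lit 0) (nat_lit 6943549235) (nat_lit 532) (nat_lit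 5863808688) (nat_lit 76) (nat_lit 1075533310) (nat_lit 120) (nat_lit 5) (nat_lit 127) (nat_lit 5) (nat_lit 121) (nat_lit 5) (nat_lit 313) (nat_lit 285) (nat_lit 182)) (XT.nd (nat_lit 78) (nat_lit 0) (nat_lit 0) (XT.lf (nat_lit 0) (nat_lit 530792311) (nat_lit 532) (nat_lit 8170975120) (nat_lit 608) (nat_lit 5421691713) (nat_lit 113) (nat_lit 5) (nat_lit 120) (nat_lit 5) (nat_lit 121) (nat_lit 5) (nat_lit 314) (nat_lit 285) (nat_lit 181)) (XT.lf (nat_lit 0) (nat_lit 7221849224) (nat_lit 532) (nat_lit 3335167420) (nat_lit 608) (nat_lit 3812928166) (nat_lit 113) (nat_lit 5) (nat_lit 120) (nat_lit 5) (nat_lit 121) (nat_lit 5) (nat_lit 315) (nat_lit 285) (nat_lit 180)))))) (XT.nd (nat_lit 468) (nat_lit 836) (nat_lit 0) (XT.nd (nat_lit 234) (nat_lit 836) (nat_lit 0) (XT.nd (nat_lit 78) (nat_lit 532) (nat_lit 0) (XT.lf (nat_lit 0) (nat_lit 12469243139) (nat_lit 608) (nat_lit 541594436) (nat_lit 76) (nat_lit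 1612976278) (nat_lit 113) (nat_lit 5) (nat_lit 121) (nat_lit 5) (nat_lit 114) (nat_lit 5) (nat_lit 316) (nat_lit 285) (nat_lit 179)) (XT.nd (nat_lit 78) (nat_lit 76) (nat_lit 0) (XT.lf (nat_lit 0) (nat_lit 6338636304) (nat_lit 456) (nat_lit 8180074947) (nat_lit 532) (nat_lit 364219043) (nat_lit 107) (nat_lit 5) (nat_lit 113) (nat_lit 5) (nat_lit 114) (nat_lit 5) (nat_lit 317) (nat_lit 285) (nat_lit 178)) (XT.lf (nat_lit 0) (nat_lit 1442514794) (nat_lit 532) (nat_lit 1742848694) (nat_lit 76) (nat_lit 11964309515) (nat_lit 106) (nat_lit 5) (nat_lit 113) (nat_lit 5) (nat_lit 107) (nat_lit 5) (nat_lit 318) (nat_lit 285) (nat_lit 177)))) (XT.nd (nat_lit 78) (nat_lit 380) (nat_lit 0) (XT.lf (nat_lit 0) (nat_lit 3353341756) (nat_lit 532) (nat_lit 10094005602) (nat_lit 76) (nat_lit 1975271337) (nat_lit 100) (nat_lit 5) (nat_lit 107) (nat_lit 5) (nat_lit 101) (nat_lit 5) (nat_lit 319) (nat_lit 285) (nat_lit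 176)) (XT.nd (nat_lit 78) (nat_lit 380) (nat_lit 0) (XT.lf (nat_lit 0) (nat_lit 5357478471) (nat_lit 532) (nat_lit 3102100951) (nat_lit 76) (nat_lit 7243118286) (nat_lit 100) (nat_lit 5) (nat_lit 107) (nat_lit 5) (nat_lit 101) (nat_lit 5) (nat_lit 320) (nat_lit 285) (nat_lit 175)) (XT.lf (nat_lit 0) (nat_lit 4166189172) (nat_lit 380) (nat_lit 3282659322) (nat_lit 456) (nat_lit 8541541104) (nat_lit 95) (nat_lit 5) (nat_lit 100) (nat_lit 5) (nat_lit 101) (nat_lit 5) (nat_lit 321) (nat_lit 285) (nat_lit 174))))) (XT.nd (nat_lit 234) (nat_lit 456) (nat_lit 0) (XT.nd (nat_lit 78) (nat_lit 380) (nat_lit 0) (XT.lf (nat_lit 0) (nat_lit 9641577562) (nat_lit 456) (nat_lit 4604578135) (nat_lit 76) (nat_lit 2039421102) (nat_lit 95) (nat_lit 5) (nat_lit 101) (nat_lit 5) (nat_lit 96) (nat_lit 5) (nat_lit 322) (nat_lit 285) (nat_lit 173)) (XT.nd (nat_lit 78) (nat_lit 0) (nat_lit 0) (XT.lf (nat_lit 0) (nat_lit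 2840073825) (nat_lit 380) (nat_lit 9107468188) (nat_lit 456) (nat_lit 4640676417) (nat_lit 90) (nat_lit 5) (nat_lit 95) (nat_lit 5) (nat_lit 96) (nat_lit 5) (nat_lit 323) (nat_lit 285) (nat_lit 172)) (XT.lf (nat_lit 0) (nat_lit 10588119127) (nat_lit 380) (nat_lit 3768936754) (nat_lit 456) (nat_lit 2541874079) (nat_lit 90) (nat_lit 5) (nat_lit 95) (nat_lit 5) (nat_lit 96) (nat_lit 5) (nat_lit 324) (nat_lit 285) (nat_lit 171)))) (XT.nd (nat_lit 78) (nat_lit 76) (nat_lit 0) (XT.lf (nat_lit 0) (nat_lit 1344989377) (nat_lit 380) (nat_lit 15511627936) (nat_lit 456) (nat_lit 361833792) (nat_lit 85) (nat_lit 5) (nat_lit 90) (nat_lit 5) (nat_lit 91) (nat_lit 5) (nat_lit 325) (nat_lit 285) (nat_lit 170)) (XT.nd (nat_lit 78) (nat_lit 0) (nat_lit 0) (XT.lf (nat_lit 0) (nat_lit 1936804417) (nat_lit 456) (nat_lit 8256255618) (nat_lit 76) (nat_lit 7351275996) (nat_lit 84) (nat_lit 5) (nat_lit 90) (nat_lit 5)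 (nat_lit 85) (nat_lit 5) (nat_lit 326) (nat_lit 285) (nat_lit 169)) (XT.lf (nat_lit 0) (nat_lit 4285749376) (nat_lit 456) (nat_lit 428081870) (nat_lit 76) (nat_lit 13166419518) (nat_lit 84) (nat_lit 5) (nat_lit 90) (nat_lit 5) (nat_lit 85) (nat_lit 5) (nat_lit 327) (nat_lit 285) (nat_lit 168))))))) (XT.nd (nat_lit 858) (nat_lit 1368) (nat_lit 0) (XT.nd (nat_lit 390) (nat_lit 684) (nat_lit 0) (XT.nd (nat_lit 156) (nat_lit 608) (nat_lit 0) (XT.nd (nat_lit 78) (nat_lit 0) (nat_lit 0) (XT.lf (nat_lit 0) (nat_lit 6778486851) (nat_lit 456) (nat_lit 10460946614) (nat_lit 76) (nat_lit 984628526) (nat_lit 79) (nat_lit 5) (nat_lit 85) (nat_lit 5) (nat_lit 80) (nat_lit 5) (nat_lit 328) (nat_lit 285) (nat_lit 167)) (XT.lf (nat_lit 0) (nat_lit 9386163217) (nat_lit 456) (nat_lit 2429693976) (nat_lit 76) (nat_lit 6761143886) (nat_lit 79) (nat_lit 5) (nat_lit 85) (nat_lit 5) (nat_lit 80) (nat_lit 5) (nat_lit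 329) (nat_lit 285) (nat_lit 166))) (XT.nd (nat_lit 78) (nat_lit 304) (nat_lit 0) (XT.lf (nat_lit 0) (nat_lit 5945162618) (nat_lit 304) (nat_lit 6173492284) (nat_lit 380) (nat_lit 6820493585) (nat_lit 75) (nat_lit 5) (nat_lit 79) (nat_lit 5) (nat_lit 80) (nat_lit 5) (nat_lit 330) (nat_lit 285) (nat_lit 165)) (XT.nd (nat_lit 78) (nat_lit 304) (nat_lit 0) (XT.lf (nat_lit 0) (nat_lit 14607856933) (nat_lit 304) (nat_lit 339416690) (nat_lit 380) (nat_lit 4364479308) (nat_lit 75) (nat_lit 5) (nat_lit 79) (nat_lit 5) (nat_lit 80) (nat_lit 5) (nat_lit 331) (nat_lit 285) (nat_lit 164)) (XT.lf (nat_lit 0) (nat_lit 3842250155) (nat_lit 304) (nat_lit 14099828382) (nat_lit 380) (nat_lit 1751033825) (nat_lit 71) (nat_lit 5) (nat_lit 75) (nat_lit 5) (nat_lit 76) (nat_lit 5) (nat_lit 332) (nat_lit 285) (nat_lit 163))))) (XT.nd (nat_lit 234) (nat_lit 304) (nat_lit 0) (XT.nd (nat_lit 78) (nat_lit 304) (nat_lit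 0) (XT.lf (nat_lit 0) (nat_lit 963735650) (nat_lit 380) (nat_lit 7369365404) (nat_lit 76) (nat_lit 11751317555) (nat_lit 70) (nat_lit 5) (nat_lit 75) (nat_lit 5) (nat_lit 71) (nat_lit 5) (nat_lit 333) (nat_lit 285) (nat_lit 162)) (XT.nd (nat_lit 78) (nat_lit 0) (nat_lit 0) (XT.lf (nat_lit 0) (nat_lit 1363012111) (nat_lit 304) (nat_lit 2365085257) (nat_lit 380) (nat_lit 16758761536) (nat_lit 66) (nat_lit 5) (nat_lit 70) (nat_lit 5) (nat_lit 71) (nat_lit 5) (nat_lit 334) (nat_lit 285) (nat_lit 161)) (XT.lf (nat_lit 0) (nat_lit 6677270943) (nat_lit 380) (nat_lit 10440777292) (nat_lit 76) (nat_lit 3780282565) (nat_lit 66) (nat_lit 5) (nat_lit 71) (nat_lit 5) (nat_lit 67) (nat_lit 5) (nat_lit 335) (nat_lit 285) (nat_lit 160)))) (XT.nd (nat_lit 78) (nat_lit 304) (nat_lit 0) (XT.lf (nat_lit 0) (nat_lit 9728990248) (nat_lit 380) (nat_lit 1533226248) (nat_lit 76) (nat_lit 10059522631) (nat_lit 66) (nat_lit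 5) (nat_lit 71) (nat_lit 5) (nat_lit 67) (nat_lit 5) (nat_lit 336) (nat_lit 285) (nat_lit 159)) (XT.nd (nat_lit 78) (nat_lit 0) (nat_lit 0) (XT.lf (nat_lit 0) (nat_lit 7781162793) (nat_lit 304) (nat_lit 5156821690) (nat_lit 380) (nat_lit 8817907491) (nat_lit 62) (nat_lit 5) (nat_lit 66) (nat_lit 5) (nat_lit 67) (nat_lit 5) (nat_lit 337) (nat_lit 285) (nat_lit 158)) (XT.lf (nat_lit 0) (nat_lit 16260806730) (nat_lit 380) (nat_lit 4819581948) (nat_lit 76) (nat_lit 1122167546) (nat_lit 62) (nat_lit 5) (nat_lit 67) (nat_lit 5) (nat_lit 63) (nat_lit 5) (nat_lit 338) (nat_lit 285) (nat_lit 157)))))) (XT.nd (nat_lit 468) (nat_lit 532) (nat_lit 0) (XT.nd (nat_lit 234) (nat_lit 228) (nat_lit 0) (XT.nd (nat_lit 78) (nat_lit 380) (nat_lit 0) (XT.lf (nat_lit 0) (nat_lit 4637661542) (nat_lit 228) (nat_lit 15132594038) (nat_lit 304) (nat_lit 2889769733) (nat_lit 59) (nat_lit 5) (nat_lit 62) (nat_lit 5) (nat_lit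 63) (nat_lit 5) (nat_lit 339) (nat_lit 285) (nat_lit 156)) (XT.nd (nat_lit 78) (nat_lit 304) (nat_lit 0) (XT.lf (nat_lit 0) (nat_lit 289313731) (nat_lit 304) (nat_lit 8667325648) (nat_lit 76) (nat_lit 14173303439) (nat_lit 58) (nat_lit 5) (nat_lit 62) (nat_lit 5) (nat_lit 59) (nat_lit 5) (nat_lit 340) (nat_lit 285) (nat_lit 155)) (XT.lf (nat_lit 0) (nat_lit 946508215) (nat_lit 304) (nat_lit 2559876520) (nat_lit 380) (nat_lit 20106705921) (nat_lit 54) (nat_lit 5) (nat_lit 58) (nat_lit 5) (nat_lit 59) (nat_lit 5) (nat_lit 341) (nat_lit 285) (nat_lit 154)))) (XT.nd (nat_lit 78) (nat_lit 228) (nat_lit 0) (XT.lf (nat_lit 0) (nat_lit 6938783954) (nat_lit 380) (nat_lit 13133098732) (nat_lit 76) (nat_lit 4035297460) (nat_lit 54) (nat_lit 5) (nat_lit 59) (nat_lit 5) (nat_lit 55) (nat_lit 5) (nat_lit 342) (nat_lit 285) (nat_lit 153)) (XT.nd (nat_lit 78) (nat_lit 228) (nat_lit 0) (XT.lf (nat_lit 0) (nat_lit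 10491441568) (nat_lit 380) (nat_lit 3350437876) (nat_lit 76) (nat_lit 10773705644) (nat_lit 54) (nat_lit 5) (nat_lit 59) (nat_lit 5) (nat_lit 55) (nat_lit 5) (nat_lit 343) (nat_lit 285) (nat_lit 152)) (XT.lf (nat_lit 0) (nat_lit 6848187992) (nat_lit 228) (nat_lit 7360495720) (nat_lit 304) (nat_lit 10928829351) (nat_lit 51) (nat_lit 5) (nat_lit 54) (nat_lit 5) (nat_lit 55) (nat_lit 5) (nat_lit 344) (nat_lit 285) (nat_lit 151))))) (XT.nd (nat_lit 234) (nat_lit 304) (nat_lit 0) (XT.nd (nat_lit 78) (nat_lit 228) (nat_lit 0) (XT.lf (nat_lit 0) (nat_lit 17410414995) (nat_lit 228) (nat_lit 653158592) (nat_lit 304) (nat_lit 7610752084) (nat_lit 51) (nat_lit 5) (nat_lit 54) (nat_lit 5) (nat_lit 55) (nat_lit 5) (nat_lit 345) (nat_lit 285) (nat_lit 150)) (XT.nd (nat_lit 78) (nat_lit 0) (nat_lit 0) (XT.lf (nat_lit 0) (nat_lit 2030844080) (nat_lit 228) (nat_lit 20075409331) (nat_lit 304) (nat_lit 4118835343)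 (nat_lit 48) (nat_lit 5) (nat_lit 51) (nat_lit 5) (nat_lit 52) (nat_lit 5) (nat_lit 346) (nat_lit 285) (nat_lit 149)) (XT.lf (nat_lit 0) (nat_lit 12786434556) (nat_lit 228) (nat_lit 13566237474) (nat_lit 304) (nat_lit 437239041) (nat_lit 48) (nat_lit 5) (nat_lit 51) (nat_lit 5) (nat_lit 52) (nat_lit 5) (nat_lit 347) (nat_lit 285) (nat_lit 148)))) (XT.nd (nat_lit 78) (nat_lit 228) (nat_lit 0) (XT.lf (nat_lit 0) (nat_lit 3282081090) (nat_lit 304) (nat_lit 3549886165) (nat_lit 76) (nat_lit 20538970654) (nat_lit 47) (nat_lit 5) (nat_lit 51) (nat_lit 5) (nat_lit 48) (nat_lit 5) (nat_lit 348) (nat_lit 285) (nat_lit 147)) (XT.nd (nat_lit 78) (nat_lit 0) (nat_lit 0) (XT.lf (nat_lit 0) (nat_lit 7169471844) (nat_lit 304) (nat_lit 20623093868) (nat_lit 76) (nat_lit 174750832) (nat_lit 44) (nat_lit 5) (nat_lit 48) (nat_lit 5) (nat_lit 45) (nat_lit 5) (nat_lit 349) (nat_lit 285) (nat_lit 146)) (XT.lf (nat_lit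 0) (nat_lit 11270356227) (nat_lit 304) (nat_lit 10021011571) (nat_lit 76) (nat_lit 7287321550) (nat_lit 44) (nat_lit 5) (nat_lit 48) (nat_lit 5) (nat_lit 45) (nat_lit 5) (nat_lit 350) (nat_lit 285) (nat_lit 145))))))))
noncomputable def xc177 : XT := (XT.nd (nat_lit 1794) (nat_lit 608) (nat_lit 0) (XT.nd (nat_lit 858) (nat_lit 760) (nat_lit 0) (XT.nd (nat_lit 390) (nat_lit 380) (nat_lit 0) (XT.nd (nat_lit 156) (nat_lit 228) (nat_lit 0) (XT.nd (nat_lit 78) (nat_lit 0) (nat_lit 0) (XT.lf (nat_lit 0) (nat_lit 906703674) (nat_lit 228) (nat_lit 14589509214) (nat_lit 304) (nat_lit 13712140782) (nat_lit 41) (nat_lit 5) (nat_lit 44) (nat_lit 5) (nat_lit 45) (nat_lit 5) (nat_lit 351) (nat_lit 285) (nat_lit 144)) (XT.lf (nat_lit 0) (nat_lit 12357647957) (nat_lit 228) (nat_lit 7585720651) (nat_lit 304) (nat_lit 9910712063) (nat_lit 41) (nat_lit 5) (nat_lit 44) (nat_lit 5) (nat_lit 45) (nat_lit 5) (nat_lit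 352) (nat_lit 285) (nat_lit 143))) (XT.nd (nat_lit 78) (nat_lit 228) (nat_lit 0) (XT.lf (nat_lit 0) (nat_lit 24142389178) (nat_lit 228) (nat_lit 375074865) (nat_lit 304) (nat_lit 6001917897) (nat_lit 41) (nat_lit 5) (nat_lit 44) (nat_lit 5) (nat_lit 45) (nat_lit 5) (nat_lit 353) (nat_lit 285) (nat_lit 142)) (XT.nd (nat_lit 78) (nat_lit 76) (nat_lit 0) (XT.lf (nat_lit 0) (nat_lit 5098111707) (nat_lit 152) (nat_lit 24241147126) (nat_lit 228) (nat_lit 1862077084) (nat_lit 39) (nat_lit 5) (nat_lit 41) (nat_lit 5) (nat_lit 42) (nat_lit 5) (nat_lit 354) (nat_lit 285) (nat_lit 141)) (XT.lf (nat_lit 0) (nat_lit 2417540894) (nat_lit 228) (nat_lit 14890718165) (nat_lit 76) (nat_lit 14592930709) (nat_lit 38) (nat_lit 5) (nat_lit 41) (nat_lit 5) (nat_lit 39) (nat_lit 5) (nat_lit 355) (nat_lit 285) (nat_lit 140))))) (XT.nd (nat_lit 234) (nat_lit 152) (nat_lit 0) (XT.nd (nat_lit 78) (nat_lit 228) (nat_lit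 0) (XT.lf (nat_lit 0) (nat_lit 6782011316) (nat_lit 228) (nat_lit 3369644826) (nat_lit 76) (nat_lit 22470020597) (nat_lit 38) (nat_lit 5) (nat_lit 41) (nat_lit 5) (nat_lit 39) (nat_lit 5) (nat_lit 356) (nat_lit 285) (nat_lit 139)) (XT.nd (nat_lit 78) (nat_lit 0) (nat_lit 0) (XT.lf (nat_lit 0) (nat_lit 8656889277) (nat_lit 228) (nat_lit 2697809664) (nat_lit 304) (nat_lit 22006767964) (nat_lit 35) (nat_lit 5) (nat_lit 38) (nat_lit 5) (nat_lit 39) (nat_lit 5) (nat_lit 357) (nat_lit 285) (nat_lit 138)) (XT.lf (nat_lit 0) (nat_lit 16140921912) (nat_lit 304) (nat_lit 13066501688) (nat_lit 76) (nat_lit 4913743408) (nat_lit 35) (nat_lit 5) (nat_lit 39) (nat_lit 5) (nat_lit 36) (nat_lit 5) (nat_lit 358) (nat_lit 285) (nat_lit 137)))) (XT.nd (nat_lit 78) (nat_lit 152) (nat_lit 0) (XT.lf (nat_lit 0) (nat_lit 21091737264) (nat_lit 304) (nat_lit 1114888797) (nat_lit 76) (nat_lit 12696408553) (nat_lit 35)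 (nat_lit 5) (nat_lit 39) (nat_lit 5) (nat_lit 36) (nat_lit 5) (nat_lit 359) (nat_lit 285) (nat_lit 136)) (XT.nd (nat_lit 78) (nat_lit 0) (nat_lit 0) (XT.lf (nat_lit 0) (nat_lit 11409273212) (nat_lit 152) (nat_lit 14885937660) (nat_lit 228) (nat_lit 9410029842) (nat_lit 33) (nat_lit 5) (nat_lit 35) (nat_lit 5) (nat_lit 36) (nat_lit 5) (nat_lit 360) (nat_lit 285) (nat_lit 135)) (XT.lf (nat_lit 0) (nat_lit 24323463585) (nat_lit 152) (nat_lit 7337123313) (nat_lit 228) (nat_lit 4870758441) (nat_lit 33) (nat_lit 5) (nat_lit 35) (nat_lit 5) (nat_lit 36) (nat_lit 5) (nat_lit 361) (nat_lit 285) (nat_lit 134)))))) (XT.nd (nat_lit 468) (nat_lit 380) (nat_lit 0) (XT.nd (nat_lit 234) (nat_lit 152) (nat_lit 0) (XT.nd (nat_lit 78) (nat_lit 76) (nat_lit 0) (XT.lf (nat_lit 0) (nat_lit 234778249) (nat_lit 152) (nat_lit 36953284812) (nat_lit 228) (nat_lit 194141983) (nat_lit 31) (nat_lit 5) (nat_lit 33) (nat_lit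 5) (nat_lit 34) (nat_lit 5) (nat_lit 362) (nat_lit 285) (nat_lit 133)) (XT.nd (nat_lit 78) (nat_lit 0) (nat_lit 0) (XT.lf (nat_lit 0) (nat_lit 4724394307) (nat_lit 228) (nat_lit 25080693500) (nat_lit 76) (nat_lit 8446420532) (nat_lit 30) (nat_lit 5) (nat_lit 33) (nat_lit 5) (nat_lit 31) (nat_lit 5) (nat_lit 363) (nat_lit 285) (nat_lit 132)) (XT.lf (nat_lit 0) (nat_lit 9781426651) (nat_lit 228) (nat_lit 12662100434) (nat_lit 76) (nat_lit 16703466310) (nat_lit 30) (nat_lit 5) (nat_lit 33) (nat_lit 5) (nat_lit 31) (nat_lit 5) (nat_lit 364) (nat_lit 285) (nat_lit 131)))) (XT.nd (nat_lit 78) (nat_lit 0) (nat_lit 0) (XT.lf (nat_lit 0) (nat_lit 123479336) (nat_lit 152) (nat_lit 14862869844) (nat_lit 228) (nat_lit 25083113871) (nat_lit 28) (nat_lit 5) (nat_lit 30) (nat_lit 5) (nat_lit 31) (nat_lit 5) (nat_lit 365) (nat_lit 285) (nat_lit 130)) (XT.nd (nat_lit 78) (nat_lit 0) (nat_lit 0) (XT.lf (nat_lit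 0) (nat_lit 13544284773) (nat_lit 152) (nat_lit 6926059150) (nat_lit 228) (nat_lit 20545580405) (nat_lit 28) (nat_lit 5) (nat_lit 30) (nat_lit 5) (nat_lit 31) (nat_lit 5) (nat_lit 366) (nat_lit 285) (nat_lit 129)) (XT.lf (nat_lit 0) (nat_lit 26126041582) (nat_lit 228) (nat_lit 14642863310) (nat_lit 76) (nat_lit 1221664174) (nat_lit 28) (nat_lit 5) (nat_lit 31) (nat_lit 5) (nat_lit 29) (nat_lit 5) (nat_lit 367) (nat_lit 285) (nat_lit 128))))) (XT.nd (nat_lit 234) (nat_lit 228) (nat_lit 0) (XT.nd (nat_lit 78) (nat_lit 152) (nat_lit 0) (XT.lf (nat_lit 0) (nat_lit 32015303756) (nat_lit 228) (nat_lit 1505365099) (nat_lit 76) (nat_lit 9471872448) (nat_lit 28) (nat_lit 5) (nat_lit 31) (nat_lit 5) (nat_lit 29) (nat_lit 5) (nat_lit 368) (nat_lit 285) (nat_lit 127)) (XT.nd (nat_lit 78) (nat_lit 0) (nat_lit 0) (XT.lf (nat_lit 0) (nat_lit 12258111876) (nat_lit 152) (nat_lit 25936419480) (nat_lit 228) (nat_lit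 5826647545) (nat_lit 26) (nat_lit 5) (nat_lit 28) (nat_lit 5) (nat_lit 29) (nat_lit 5) (nat_lit 369) (nat_lit 285) (nat_lit 126)) (XT.lf (nat_lit 0) (nat_lit 26458077594) (nat_lit 152) (nat_lit 18111776968) (nat_lit 228) (nat_lit 510504180) (nat_lit 26) (nat_lit 5) (nat_lit 28) (nat_lit 5) (nat_lit 29) (nat_lit 5) (nat_lit 370) (nat_lit 285) (nat_lit 125)))) (XT.nd (nat_lit 78) (nat_lit 152) (nat_lit 0) (XT.lf (nat_lit 0) (nat_lit 4863836600) (nat_lit 228) (nat_lit 5142153679) (nat_lit 76) (nat_lit 36164028261) (nat_lit 25) (nat_lit 5) (nat_lit 28) (nat_lit 5) (nat_lit 26) (nat_lit 5) (nat_lit 371) (nat_lit 285) (nat_lit 124)) (XT.nd (nat_lit 78) (nat_lit 0) (nat_lit 0) (XT.lf (nat_lit 0) (nat_lit 8904128941) (nat_lit 152) (nat_lit 1566338665) (nat_lit 228) (nat_lit 36819313555) (nat_lit 23) (nat_lit 5) (nat_lit 25) (nat_lit 5) (nat_lit 26) (nat_lit 5) (nat_lit 372) (nat_lit 285) (nat_lit 123))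 (XT.lf (nat_lit 0) (nat_lit 16362003005) (nat_lit 228) (nat_lit 25040370800) (nat_lit 76) (nat_lit 7037265849) (nat_lit 23) (nat_lit 5) (nat_lit 26) (nat_lit 5) (nat_lit 24) (nat_lit 5) (nat_lit 373) (nat_lit 285) (nat_lit 122))))))) (XT.nd (nat_lit 936) (nat_lit 152) (nat_lit 0) (XT.nd (nat_lit 468) (nat_lit 152) (nat_lit 0) (XT.nd (nat_lit 234) (nat_lit 152) (nat_lit 0) (XT.nd (nat_lit 78) (nat_lit 152) (nat_lit 0) (XT.lf (nat_lit 0) (nat_lit 22441677601) (nat_lit 228) (nat_lit 11317018505) (nat_lit 76) (nat_lit 15864960040) (nat_lit 23) (nat_lit 5) (nat_lit 26) (nat_lit 5) (nat_lit 24) (nat_lit 5) (nat_lit 374) (nat_lit 285) (nat_lit 121)) (XT.nd (nat_lit 78) (nat_lit 0) (nat_lit 0) (XT.lf (nat_lit 0) (nat_lit 2867405968) (nat_lit 152) (nat_lit 25859904417) (nat_lit 228) (nat_lit 22115179627) (nat_lit 21) (nat_lit 5) (nat_lit 23) (nat_lit 5) (nat_lit 24) (nat_lit 5) (nat_lit 375) (nat_lit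 285) (nat_lit 120)) (XT.lf (nat_lit 0) (nat_lit 17702833678) (nat_lit 152) (nat_lit 17609016581) (nat_lit 228) (nat_lit 16782732297) (nat_lit 21) (nat_lit 5) (nat_lit 23) (nat_lit 5) (nat_lit 24) (nat_lit 5) (nat_lit 376) (nat_lit 285) (nat_lit 119)))) (XT.nd (nat_lit 78) (nat_lit 152) (nat_lit 0) (XT.lf (nat_lit 0) (nat_lit 32976996762) (nat_lit 152) (nat_lit 9113102783) (nat_lit 228) (nat_lit 11294256831) (nat_lit 21) (nat_lit 5) (nat_lit 23) (nat_lit 5) (nat_lit 24) (nat_lit 5) (nat_lit 377) (nat_lit 285) (nat_lit 118)) (XT.nd (nat_lit 78) (nat_lit 152) (nat_lit 0) (XT.lf (nat_lit 0) (nat_lit 48703241575) (nat_lit 152) (nat_lit 364739408) (nat_lit 228) (nat_lit 5644957474) (nat_lit 21) (nat_lit 5) (nat_lit 23) (nat_lit 5) (nat_lit 24) (nat_lit 5) (nat_lit 378) (nat_lit 285) (nat_lit 117)) (XT.lf (nat_lit 0) (nat_lit 337136996) (nat_lit 152) (nat_lit 47175244672) (nat_lit 76) (nat_lit 8563948346)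 (nat_lit 19) (nat_lit 5) (nat_lit 21) (nat_lit 5) (nat_lit 20) (nat_lit 5) (nat_lit 379) (nat_lit 285) (nat_lit 116))))) (XT.nd (nat_lit 234) (nat_lit 152) (nat_lit 0) (XT.nd (nat_lit 78) (nat_lit 0) (nat_lit 0) (XT.lf (nat_lit 0) (nat_lit 6446514090) (nat_lit 152) (nat_lit 33162590871) (nat_lit 76) (nat_lit 17868006583) (nat_lit 19) (nat_lit 5) (nat_lit 21) (nat_lit 5) (nat_lit 20) (nat_lit 5) (nat_lit 380) (nat_lit 285) (nat_lit 115)) (XT.nd (nat_lit 78) (nat_lit 0) (nat_lit 0) (XT.lf (nat_lit 0) (nat_lit 12735657504) (nat_lit 152) (nat_lit 18735449946) (nat_lit 76) (nat_lit 27448917708) (nat_lit 19) (nat_lit 5) (nat_lit 21) (nat_lit 5) (nat_lit 20) (nat_lit 5) (nat_lit 381) (nat_lit 285) (nat_lit 114)) (XT.lf (nat_lit 0) (nat_lit 19210062604) (nat_lit 152) (nat_lit 3881215657) (nat_lit 76) (nat_lit 37315053392) (nat_lit 19) (nat_lit 5) (nat_lit 21) (nat_lit 5) (nat_lit 20) (nat_lit 5) (nat_lit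 382) (nat_lit 285) (nat_lit 113)))) (XT.nd (nat_lit 78) (nat_lit 0) (nat_lit 0) (XT.lf (nat_lit 0) (nat_lit 11640234321) (nat_lit 152) (nat_lit 14347045370) (nat_lit 228) (nat_lit 35946693260) (nat_lit 17) (nat_lit 5) (nat_lit 19) (nat_lit 5) (nat_lit 20) (nat_lit 5) (nat_lit 383) (nat_lit 285) (nat_lit 112)) (XT.nd (nat_lit 78) (nat_lit 0) (nat_lit 0) (XT.lf (nat_lit 0) (nat_lit 27701389132) (nat_lit 152) (nat_lit 5302347243) (nat_lit 228) (nat_lit 30502632338) (nat_lit 17) (nat_lit 5) (nat_lit 19) (nat_lit 5) (nat_lit 20) (nat_lit 5) (nat_lit 384) (nat_lit 285) (nat_lit 111)) (XT.lf (nat_lit 0) (nat_lit 40266073653) (nat_lit 228) (nat_lit 20925556664) (nat_lit 76) (nat_lit 3933247254) (nat_lit 17) (nat_lit 5) (nat_lit 20) (nat_lit 5) (nat_lit 18) (nat_lit 4) (nat_lit 385) (nat_lit 285) (nat_lit 110)))))) (XT.nd (nat_lit 32916) (nat_lit 0) (nat_lit 12084) (XT.nd (nat_lit 234) (nat_lit 76) (nat_lit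 0) (XT.nd (nat_lit 78) (nat_lit 76) (nat_lit 0) (XT.lf (nat_lit 0) (nat_lit 47795677432) (nat_lit 228) (nat_lit 5657508619) (nat_lit 76) (nat_lit 13337276502) (nat_lit 17) (nat_lit 5) (nat_lit 20) (nat_lit 5) (nat_lit 18) (nat_lit 4) (nat_lit 386) (nat_lit 285) (nat_lit 109)) (XT.nd (nat_lit 78) (nat_lit 0) (nat_lit 0) (XT.lf (nat_lit 0) (nat_lit 10263757855) (nat_lit 76) (nat_lit 45383061236) (nat_lit 152) (nat_lit 12856329169) (nat_lit 16) (nat_lit 5) (nat_lit 17) (nat_lit 5) (nat_lit 18) (nat_lit 4) (nat_lit 387) (nat_lit 285) (nat_lit 108)) (XT.lf (nat_lit 0) (nat_lit 26773579868) (nat_lit 76) (nat_lit 37014072245) (nat_lit 152) (nat_lit 6477940303) (nat_lit 16) (nat_lit 5) (nat_lit 17) (nat_lit 5) (nat_lit 18) (nat_lit 4) (nat_lit 388) (nat_lit 285) (nat_lit 107)))) (XT.nd (nat_lit 78) (nat_lit 0) (nat_lit 0) (XT.lf (nat_lit 0) (nat_lit 87091785) (nat_lit 152) (nat_lit 28308064874) (nat_lit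 76) (nat_lit 43685816720) (nat_lit 15) (nat_lit 5) (nat_lit 17) (nat_lit 5) (nat_lit 16) (nat_lit 5) (nat_lit 389) (nat_lit 285) (nat_lit 106)) (XT.nd (nat_lit 32526) (nat_lit 0) (nat_lit 13072) (XT.lf (nat_lit 0) (nat_lit 6716042523) (nat_lit 152) (nat_lit 12737561139) (nat_lit 76) (nat_lit 54495375303) (nat_lit 15) (nat_lit 5) (nat_lit 17) (nat_lit 5) (nat_lit 16) (nat_lit 5) (nat_lit 390) (nat_lit 285) (nat_lit 105)) (XT.lf (nat_lit 0) (nat_lit 4402219230) (nat_lit 988) (nat_lit 151775020) (nat_lit 988) (nat_lit 151775020) (nat_lit 187) (nat_lit 3) (nat_lit 200) (nat_lit 3) (nat_lit 200) (nat_lit 5) (nat_lit 286) (nat_lit 286) (nat_lit 208))))) (XT.nd (nat_lit 234) (nat_lit 0) (nat_lit 76) (XT.nd (nat_lit 78) (nat_lit 0) (nat_lit 0) (XT.lf (nat_lit 0) (nat_lit 172971191) (nat_lit 988) (nat_lit 5736392988) (nat_lit 1064) (nat_lit 3618495693) (nat_lit 174) (nat_lit 5) (nat_lit 187) (nat_lit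 3) (nat_lit 188) (nat_lit 5) (nat_lit 287) (nat_lit 286) (nat_lit 207)) (XT.nd (nat_lit 78) (nat_lit 0) (nat_lit 76) (XT.lf (nat_lit 0) (nat_lit 938299226) (nat_lit 988) (nat_lit 1653735433) (nat_lit 1064) (nat_lit 7056301082) (nat_lit 174) (nat_lit 5) (nat_lit 187) (nat_lit 3) (nat_lit 188) (nat_lit 5) (nat_lit 288) (nat_lit 286) (nat_lit 206)) (XT.lf (nat_lit 0) (nat_lit 1731558143) (nat_lit 988) (nat_lit 7194228979) (nat_lit 1064) (nat_lit 846554608) (nat_lit 175) (nat_lit 5) (nat_lit 188) (nat_lit 5) (nat_lit 189) (nat_lit 5) (nat_lit 289) (nat_lit 286) (nat_lit 205)))) (XT.nd (nat_lit 78) (nat_lit 0) (nat_lit 0) (XT.lf (nat_lit 0) (nat_lit 2563746287) (nat_lit 988) (nat_lit 2970654357) (nat_lit 1064) (nat_lit 4365276394) (nat_lit 175) (nat_lit 5) (nat_lit 188) (nat_lit 5) (nat_lit 189) (nat_lit 5) (nat_lit 290) (nat_lit 286) (nat_lit 204)) (XT.nd (nat_lit 78) (nat_lit 0) (nat_lit 76) (XT.lf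 (nat_lit 76) (nat_lit 1391167662) (nat_lit 0) (nat_lit 2016506065) (nat_lit 1064) (nat_lit 6623616715) (nat_lit 176) (nat_lit 5) (nat_lit 175) (nat_lit 5) (nat_lit 189) (nat_lit 5) (nat_lit 291) (nat_lit 286) (nat_lit 203)) (XT.lf (nat_lit 0) (nat_lit 4296788733) (nat_lit 988) (nat_lit 4253349525) (nat_lit 1064) (nat_lit 1616177363) (nat_lit 176) (nat_lit 5) (nat_lit 189) (nat_lit 5) (nat_lit 190) (nat_lit 5) (nat_lit 292) (nat_lit 286) (nat_lit 202))))))))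
noncomputable def xc178 : XT := (XT.nd (nat_lit 1794) (nat_lit 3876) (nat_lit 0) (XT.nd (nat_lit 858) (nat_lit 3876) (nat_lit 0) (XT.nd (nat_lit 390) (nat_lit 912) (nat_lit 0) (XT.nd (nat_lit 156) (nat_lit 0) (nat_lit 76) (XT.nd (nat_lit 78) (nat_lit 0) (nat_lit 0) (XT.lf (nat_lit 76) (nat_lit 233706148) (nat_lit 0) (nat_lit 4975964718) (nat_lit 1064) (nat_lit 5095865607) (nat_lit 177) (nat_lit 5) (nat_lit 176) (nat_lit 5) (nat_lit 190) (nat_lit 5) (nat_lit 293) (nat_lit 286) (nat_lit 201)) (XT.lf (nat_lit 76) (nat_lit 4926803204) (nat_lit 0) (nat_lit 1241548603) (nat_lit 1064) (nat_lit 4280085823) (nat_lit 177) (nat_lit 5) (nat_lit 176) (nat_lit 5) (nat_lit 190) (nat_lit 5) (nat_lit 294) (nat_lit 286) (nat_lit 200))) (XT.nd (nat_lit 78) (nat_lit 0) (nat_lit 0) (XT.lf (nat_lit 0) (nat_lit 7157091551) (nat_lit 988) (nat_lit 876124351) (nat_lit 1064) (nat_lit 2562425386) (nat_lit 177) (nat_lit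 5) (nat_lit 190) (nat_lit 5) (nat_lit 191) (nat_lit 5) (nat_lit 295) (nat_lit 286) (nat_lit 199)) (XT.nd (nat_lit 78) (nat_lit 0) (nat_lit 0) (XT.lf (nat_lit 76) (nat_lit 3958012175) (nat_lit 0) (nat_lit 4244770689) (nat_lit 1064) (nat_lit 2543712342) (nat_lit 178) (nat_lit 5) (nat_lit 177) (nat_lit 5) (nat_lit 191) (nat_lit 5) (nat_lit 296) (nat_lit 286) (nat_lit 198)) (XT.lf (nat_lit 76) (nat_lit 8939604860) (nat_lit 0) (nat_lit 326559275) (nat_lit 1064) (nat_lit 1636172322) (nat_lit 178) (nat_lit 5) (nat_lit 177) (nat_lit 5) (nat_lit 191) (nat_lit 5) (nat_lit 297) (nat_lit 286) (nat_lit 197))))) (XT.nd (nat_lit 234) (nat_lit 0) (nat_lit 76) (XT.nd (nat_lit 78) (nat_lit 1064) (nat_lit 0) (XT.lf (nat_lit 76) (nat_lit 3015126625) (nat_lit 0) (nat_lit 7389152111) (nat_lit 1064) (nat_lit 657339053) (nat_lit 179) (nat_lit 5) (nat_lit 178) (nat_lit 5) (nat_lit 192) (nat_lit 5) (nat_lit 298) (nat_lit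 286) (nat_lit 196)) (XT.nd (nat_lit 78) (nat_lit 0) (nat_lit 76) (XT.lf (nat_lit 0) (nat_lit 345681278) (nat_lit 1064) (nat_lit 3065498195) (nat_lit 1140) (nat_lit 7814393790) (nat_lit 164) (nat_lit 5) (nat_lit 178) (nat_lit 5) (nat_lit 179) (nat_lit 5) (nat_lit 299) (nat_lit 286) (nat_lit 195)) (XT.lf (nat_lit 0) (nat_lit 1371563696) (nat_lit 1064) (nat_lit 9317860697) (nat_lit 1140) (nat_lit 704693833) (nat_lit 165) (nat_lit 5) (nat_lit 179) (nat_lit 5) (nat_lit 180) (nat_lit 5) (nat_lit 300) (nat_lit 286) (nat_lit 194)))) (XT.nd (nat_lit 78) (nat_lit 0) (nat_lit 0) (XT.lf (nat_lit 0) (nat_lit 2472814981) (nat_lit 1064) (nat_lit 4182015263) (nat_lit 1140) (nat_lit 4911595765) (nat_lit 165) (nat_lit 5) (nat_lit 179) (nat_lit 5) (nat_lit 180) (nat_lit 5) (nat_lit 301) (nat_lit 286) (nat_lit 193)) (XT.nd (nat_lit 78) (nat_lit 0) (nat_lit 76) (XT.lf (nat_lit 76) (nat_lit 1113864853) (nat_lit 0)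 (nat_lit 2484097879) (nat_lit 1140) (nat_lit 8146257484) (nat_lit 166) (nat_lit 5) (nat_lit 165) (nat_lit 5) (nat_lit 180) (nat_lit 5) (nat_lit 302) (nat_lit 286) (nat_lit 192)) (XT.lf (nat_lit 0) (nat_lit 4797545135) (nat_lit 1064) (nat_lit 5305848948) (nat_lit 76) (nat_lit 1822775467) (nat_lit 166) (nat_lit 5) (nat_lit 180) (nat_lit 5) (nat_lit 167) (nat_lit 5) (nat_lit 303) (nat_lit 286) (nat_lit 191)))))) (XT.nd (nat_lit 468) (nat_lit 1520) (nat_lit 0) (XT.nd (nat_lit 234) (nat_lit 1444) (nat_lit 0) (XT.nd (nat_lit 78) (nat_lit 0) (nat_lit 0) (XT.lf (nat_lit 0) (nat_lit 140735779) (nat_lit 1064) (nat_lit 5899507904) (nat_lit 1140) (nat_lit 6073160310) (nat_lit 152) (nat_lit 5) (nat_lit 166) (nat_lit 5) (nat_lit 167) (nat_lit 5) (nat_lit 304) (nat_lit 286) (nat_lit 190)) (XT.nd (nat_lit 78) (nat_lit 0) (nat_lit 0) (XT.lf (nat_lit 0) (nat_lit 5843829619) (nat_lit 1064) (nat_lit 1511550713)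 (nat_lit 1140) (nat_lit 4949859736) (nat_lit 152) (nat_lit 5) (nat_lit 166) (nat_lit 5) (nat_lit 167) (nat_lit 5) (nat_lit 305) (nat_lit 286) (nat_lit 189)) (XT.lf (nat_lit 0) (nat_lit 8721027110) (nat_lit 1140) (nat_lit 829527889) (nat_lit 76) (nat_lit 2951982712) (nat_lit 152) (nat_lit 5) (nat_lit 167) (nat_lit 5) (nat_lit 153) (nat_lit 5) (nat_lit 306) (nat_lit 286) (nat_lit 188)))) (XT.nd (nat_lit 78) (nat_lit 608) (nat_lit 0) (XT.lf (nat_lit 0) (nat_lit 5039343399) (nat_lit 836) (nat_lit 5134368017) (nat_lit 912) (nat_lit 2530697877) (nat_lit 141) (nat_lit 5) (nat_lit 152) (nat_lit 5) (nat_lit 153) (nat_lit 5) (nat_lit 307) (nat_lit 286) (nat_lit 187)) (XT.nd (nat_lit 78) (nat_lit 608) (nat_lit 0) (XT.lf (nat_lit 0) (nat_lit 11086098067) (nat_lit 836) (nat_lit 575274849) (nat_lit 912) (nat_lit 1251258184) (nat_lit 141) (nat_lit 5) (nat_lit 152) (nat_lit 5) (nat_lit 153) (nat_lit 5) (nat_lit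 308) (nat_lit 286) (nat_lit 186)) (XT.lf (nat_lit 0) (nat_lit 129515060) (nat_lit 608) (nat_lit 8911999643) (nat_lit 76) (nat_lit 4083672095) (nat_lit 133) (nat_lit 5) (nat_lit 141) (nat_lit 5) (nat_lit 134) (nat_lit 5) (nat_lit 309) (nat_lit 286) (nat_lit 185))))) (XT.nd (nat_lit 234) (nat_lit 988) (nat_lit 0) (XT.nd (nat_lit 78) (nat_lit 532) (nat_lit 0) (XT.lf (nat_lit 0) (nat_lit 1534557737) (nat_lit 608) (nat_lit 2905790951) (nat_lit 76) (nat_lit 8903191882) (nat_lit 133) (nat_lit 5) (nat_lit 141) (nat_lit 5) (nat_lit 134) (nat_lit 5) (nat_lit 310) (nat_lit 286) (nat_lit 184)) (XT.nd (nat_lit 78) (nat_lit 0) (nat_lit 0) (XT.lf (nat_lit 0) (nat_lit 3001112452) (nat_lit 608) (nat_lit 10240642183) (nat_lit 76) (nat_lit 326141462) (nat_lit 126) (nat_lit 5) (nat_lit 134) (nat_lit 5) (nat_lit 127) (nat_lit 5) (nat_lit 311) (nat_lit 286) (nat_lit 183)) (XT.lf (nat_lit 0) (nat_lit 4569733569) (nat_lit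 608) (nat_lit 4050903656) (nat_lit 76) (nat_lit 5176634004) (nat_lit 126) (nat_lit 5) (nat_lit 134) (nat_lit 5) (nat_lit 127) (nat_lit 5) (nat_lit 312) (nat_lit 286) (nat_lit 182)))) (XT.nd (nat_lit 78) (nat_lit 532) (nat_lit 0) (XT.lf (nat_lit 0) (nat_lit 2355537413) (nat_lit 456) (nat_lit 3837443628) (nat_lit 532) (nat_lit 7840349672) (nat_lit 120) (nat_lit 5) (nat_lit 126) (nat_lit 5) (nat_lit 127) (nat_lit 5) (nat_lit 313) (nat_lit 286) (nat_lit 181)) (XT.nd (nat_lit 78) (nat_lit 532) (nat_lit 0) (XT.lf (nat_lit 0) (nat_lit 7901928939) (nat_lit 532) (nat_lit 5264189374) (nat_lit 76) (nat_lit 1109272830) (nat_lit 120) (nat_lit 5) (nat_lit 127) (nat_lit 5) (nat_lit 121) (nat_lit 5) (nat_lit 314) (nat_lit 286) (nat_lit 180)) (XT.lf (nat_lit 0) (nat_lit 1314646385) (nat_lit 532) (nat_lit 8383782319) (nat_lit 608) (nat_lit 4825224579) (nat_lit 113) (nat_lit 5) (nat_lit 120) (nat_lit 5) (nat_lit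 121) (nat_lit 5) (nat_lit 315) (nat_lit 286) (nat_lit 179))))))) (XT.nd (nat_lit 858) (nat_lit 1672) (nat_lit 0) (XT.nd (nat_lit 390) (nat_lit 1216) (nat_lit 0) (XT.nd (nat_lit 156) (nat_lit 532) (nat_lit 0) (XT.nd (nat_lit 78) (nat_lit 456) (nat_lit 0) (XT.lf (nat_lit 0) (nat_lit 8184068104) (nat_lit 532) (nat_lit 3403841807) (nat_lit 608) (nat_lit 3190308356) (nat_lit 113) (nat_lit 5) (nat_lit 120) (nat_lit 5) (nat_lit 121) (nat_lit 5) (nat_lit 316) (nat_lit 286) (nat_lit 178)) (XT.lf (nat_lit 0) (nat_lit 191611956) (nat_lit 456) (nat_lit 13347224559) (nat_lit 532) (nat_lit 1501467625) (nat_lit 107) (nat_lit 5) (nat_lit 113) (nat_lit 5) (nat_lit 114) (nat_lit 5) (nat_lit 317) (nat_lit 286) (nat_lit 177))) (XT.nd (nat_lit 78) (nat_lit 456) (nat_lit 0) (XT.lf (nat_lit 0) (nat_lit 320774541) (nat_lit 532) (nat_lit 8043627289) (nat_lit 76) (nat_lit 6943185911) (nat_lit 106) (nat_lit 5) (nat_lit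 113) (nat_lit 5) (nat_lit 107) (nat_lit 5) (nat_lit 318) (nat_lit 286) (nat_lit 176)) (XT.nd (nat_lit 78) (nat_lit 456) (nat_lit 0) (XT.lf (nat_lit 0) (nat_lit 2154333649) (nat_lit 532) (nat_lit 1063688143) (nat_lit 76) (nat_lit 12364841744) (nat_lit 106) (nat_lit 5) (nat_lit 113) (nat_lit 5) (nat_lit 107) (nat_lit 5) (nat_lit 319) (nat_lit 286) (nat_lit 175)) (XT.lf (nat_lit 0) (nat_lit 4110631435) (nat_lit 532) (nat_lit 9652318634) (nat_lit 76) (nat_lit 2101439364) (nat_lit 100) (nat_lit 5) (nat_lit 107) (nat_lit 5) (nat_lit 101) (nat_lit 5) (nat_lit 320) (nat_lit 286) (nat_lit 174))))) (XT.nd (nat_lit 234) (nat_lit 836) (nat_lit 0) (XT.nd (nat_lit 78) (nat_lit 380) (nat_lit 0) (XT.lf (nat_lit 0) (nat_lit 6155765375) (nat_lit 532) (nat_lit 2472341517) (nat_lit 76) (nat_lit 7525372890) (nat_lit 100) (nat_lit 5) (nat_lit 107) (nat_lit 5) (nat_lit 101) (nat_lit 5) (nat_lit 321) (nat_lit 286) (nat_lit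 173)) (XT.nd (nat_lit 78) (nat_lit 0) (nat_lit 0) (XT.lf (nat_lit 0) (nat_lit 5006910815) (nat_lit 380) (nat_lit 3291275993) (nat_lit 456) (nat_lit 8152000447) (nat_lit 95) (nat_lit 5) (nat_lit 100) (nat_lit 5) (nat_lit 101) (nat_lit 5) (nat_lit 322) (nat_lit 286) (nat_lit 172)) (XT.lf (nat_lit 0) (nat_lit 10539307101) (nat_lit 456) (nat_lit 4029330839) (nat_lit 76) (nat_lit 2186146993) (nat_lit 95) (nat_lit 5) (nat_lit 101) (nat_lit 5) (nat_lit 96) (nat_lit 5) (nat_lit 323) (nat_lit 286) (nat_lit 171)))) (XT.nd (nat_lit 78) (nat_lit 456) (nat_lit 0) (XT.lf (nat_lit 0) (nat_lit 3631666713) (nat_lit 380) (nat_lit 9271851248) (nat_lit 456) (nat_lit 4163348002) (nat_lit 90) (nat_lit 5) (nat_lit 95) (nat_lit 5) (nat_lit 96) (nat_lit 5) (nat_lit 324) (nat_lit 286) (nat_lit 170)) (XT.nd (nat_lit 78) (nat_lit 456) (nat_lit 0) (XT.lf (nat_lit 0) (nat_lit 11591578889) (nat_lit 380) (nat_lit 3776333998)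 (nat_lit 456) (nat_lit 2019539323) (nat_lit 90) (nat_lit 5) (nat_lit 95) (nat_lit 5) (nat_lit 96) (nat_lit 5) (nat_lit 325) (nat_lit 286) (nat_lit 169)) (XT.lf (nat_lit 0) (nat_lit 212155514) (nat_lit 456) (nat_lit 15637255245) (nat_lit 76) (nat_lit 1867392685) (nat_lit 84) (nat_lit 5) (nat_lit 90) (nat_lit 5) (nat_lit 85) (nat_lit 5) (nat_lit 326) (nat_lit 286) (nat_lit 168)))))) (XT.nd (nat_lit 468) (nat_lit 988) (nat_lit 0) (XT.nd (nat_lit 234) (nat_lit 304) (nat_lit 0) (XT.nd (nat_lit 78) (nat_lit 380) (nat_lit 0) (XT.lf (nat_lit 0) (nat_lit 2555657889) (nat_lit 456) (nat_lit 7815760935) (nat_lit 76) (nat_lit 7681471880) (nat_lit 84) (nat_lit 5) (nat_lit 90) (nat_lit 5) (nat_lit 85) (nat_lit 5) (nat_lit 327) (nat_lit 286) (nat_lit 167)) (XT.nd (nat_lit 78) (nat_lit 0) (nat_lit 0) (XT.lf (nat_lit 0) (nat_lit 231735879) (nat_lit 380) (nat_lit 4729230399) (nat_lit 456) (nat_lit 13438367504)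 (nat_lit 79) (nat_lit 5) (nat_lit 84) (nat_lit 5) (nat_lit 85) (nat_lit 5) (nat_lit 328) (nat_lit 286) (nat_lit 166)) (XT.lf (nat_lit 0) (nat_lit 7517978689) (nat_lit 456) (nat_lit 10097458979) (nat_lit 76) (nat_lit 1138363839) (nat_lit 79) (nat_lit 5) (nat_lit 85) (nat_lit 5) (nat_lit 80) (nat_lit 5) (nat_lit 329) (nat_lit 286) (nat_lit 165)))) (XT.nd (nat_lit 78) (nat_lit 304) (nat_lit 0) (XT.lf (nat_lit 0) (nat_lit 10188269699) (nat_lit 456) (nat_lit 1844996415) (nat_lit 76) (nat_lit 7084557287) (nat_lit 79) (nat_lit 5) (nat_lit 85) (nat_lit 5) (nat_lit 80) (nat_lit 5) (nat_lit 330) (nat_lit 286) (nat_lit 164)) (XT.nd (nat_lit 78) (nat_lit 0) (nat_lit 0) (XT.lf (nat_lit 0) (nat_lit 6774658933) (nat_lit 304) (nat_lit 6219175549) (nat_lit 380) (nat_lit 6497293199) (nat_lit 75) (nat_lit 5) (nat_lit 79) (nat_lit 5) (nat_lit 80) (nat_lit 5) (nat_lit 331) (nat_lit 286) (nat_lit 163)) (XT.lf (nat_lit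 0) (nat_lit 15678268793) (nat_lit 304) (nat_lit 214141420) (nat_lit 380) (nat_lit 3982971751) (nat_lit 75) (nat_lit 5) (nat_lit 79) (nat_lit 5) (nat_lit 80) (nat_lit 5) (nat_lit 332) (nat_lit 286) (nat_lit 162))))) (XT.nd (nat_lit 234) (nat_lit 304) (nat_lit 0) (XT.nd (nat_lit 78) (nat_lit 380) (nat_lit 0) (XT.lf (nat_lit 0) (nat_lit 4597776071) (nat_lit 304) (nat_lit 14372234410) (nat_lit 380) (nat_lit 1298407102) (nat_lit 71) (nat_lit 5) (nat_lit 75) (nat_lit 5) (nat_lit 76) (nat_lit 5) (nat_lit 333) (nat_lit 286) (nat_lit 161)) (XT.nd (nat_lit 78) (nat_lit 304) (nat_lit 0) (XT.lf (nat_lit 0) (nat_lit 1473521788) (nat_lit 380) (nat_lit 6958513671) (nat_lit 76) (nat_lit 12239737236) (nat_lit 70) (nat_lit 5) (nat_lit 75) (nat_lit 5) (nat_lit 71) (nat_lit 5) (nat_lit 334) (nat_lit 286) (nat_lit 160)) (XT.lf (nat_lit 0) (nat_lit 2029639750) (nat_lit 304) (nat_lit 2283183536) (nat_lit 380) (nat_lit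 16773724556) (nat_lit 66) (nat_lit 5) (nat_lit 70) (nat_lit 5) (nat_lit 71) (nat_lit 5) (nat_lit 335) (nat_lit 286) (nat_lit 159)))) (XT.nd (nat_lit 78) (nat_lit 304) (nat_lit 0) (XT.lf (nat_lit 0) (nat_lit 7338125310) (nat_lit 380) (nat_lit 10133432866) (nat_lit 76) (nat_lit 4039197393) (nat_lit 66) (nat_lit 5) (nat_lit 71) (nat_lit 5) (nat_lit 67) (nat_lit 5) (nat_lit 336) (nat_lit 286) (nat_lit 158)) (XT.nd (nat_lit 78) (nat_lit 304) (nat_lit 0) (XT.lf (nat_lit 0) (nat_lit 10467982517) (nat_lit 380) (nat_lit 976730080) (nat_lit 76) (nat_lit 10502576612) (nat_lit 66) (nat_lit 5) (nat_lit 71) (nat_lit 5) (nat_lit 67) (nat_lit 5) (nat_lit 337) (nat_lit 286) (nat_lit 157)) (XT.lf (nat_lit 0) (nat_lit 8611183839) (nat_lit 304) (nat_lit 5154774504) (nat_lit 380) (nat_lit 8628746996) (nat_lit 62) (nat_lit 5) (nat_lit 66) (nat_lit 5) (nat_lit 67) (nat_lit 5) (nat_lit 338) (nat_lit 286) (nat_lit 156))))))))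
noncomputable def xc179 : XT := (XT.nd (nat_lit 1794) (nat_lit 1216) (nat_lit 0) (XT.nd (nat_lit 858) (nat_lit 1064) (nat_lit 0) (XT.nd (nat_lit 390) (nat_lit 532) (nat_lit 0) (XT.nd (nat_lit 156) (nat_lit 380) (nat_lit 0) (XT.nd (nat_lit 78) (nat_lit 228) (nat_lit 0) (XT.lf (nat_lit 0) (nat_lit 17177117457) (nat_lit 380) (nat_lit 4372962842) (nat_lit 76) (nat_lit 1305049120) (nat_lit 62) (nat_lit 5) (nat_lit 67) (nat_lit 5) (nat_lit 63) (nat_lit 5) (nat_lit 339) (nat_lit 286) (nat_lit 155)) (XT.lf (nat_lit 0) (nat_lit 5362201810) (nat_lit 228) (nat_lit 15422795095) (nat_lit 304) (nat_lit 2541550160) (nat_lit 59) (nat_lit 5) (nat_lit 62) (nat_lit 5) (nat_lit 63) (nat_lit 5) (nat_lit 340) (nat_lit 286) (nat_lit 154))) (XT.nd (nat_lit 78) (nat_lit 304) (nat_lit 0) (XT.lf (nat_lit 0) (nat_lit 711998922) (nat_lit 304) (nat_lit 8350152425) (nat_lit 76) (nat_lit 14748675750) (nat_lit 58) (nat_lit 5)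 (nat_lit 62) (nat_lit 5) (nat_lit 59) (nat_lit 5) (nat_lit 341) (nat_lit 286) (nat_lit 153)) (XT.nd (nat_lit 78) (nat_lit 0) (nat_lit 0) (XT.lf (nat_lit 0) (nat_lit 1546437699) (nat_lit 304) (nat_lit 2472579873) (nat_lit 380) (nat_lit 20289666028) (nat_lit 54) (nat_lit 5) (nat_lit 58) (nat_lit 5) (nat_lit 59) (nat_lit 5) (nat_lit 342) (nat_lit 286) (nat_lit 152)) (XT.lf (nat_lit 0) (nat_lit 7544052965) (nat_lit 380) (nat_lit 12961308537) (nat_lit 76) (nat_lit 4312561140) (nat_lit 54) (nat_lit 5) (nat_lit 59) (nat_lit 5) (nat_lit 55) (nat_lit 5) (nat_lit 343) (nat_lit 286) (nat_lit 151))))) (XT.nd (nat_lit 234) (nat_lit 304) (nat_lit 0) (XT.nd (nat_lit 78) (nat_lit 228) (nat_lit 0) (XT.lf (nat_lit 0) (nat_lit 11191724127) (nat_lit 380) (nat_lit 2901646977) (nat_lit 76) (nat_lit 11248571916) (nat_lit 54) (nat_lit 5) (nat_lit 59) (nat_lit 5) (nat_lit 55) (nat_lit 5) (nat_lit 344) (nat_lit 286) (nat_lit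 150)) (XT.nd (nat_lit 78) (nat_lit 0) (nat_lit 0) (XT.lf (nat_lit 0) (nat_lit 7597552334) (nat_lit 228) (nat_lit 7416930381) (nat_lit 304) (nat_lit 10865241973) (nat_lit 51) (nat_lit 5) (nat_lit 54) (nat_lit 5) (nat_lit 55) (nat_lit 5) (nat_lit 345) (nat_lit 286) (nat_lit 149)) (XT.lf (nat_lit 0) (nat_lit 18460803854) (nat_lit 228) (nat_lit 513160912) (nat_lit 304) (nat_lit 7459023910) (nat_lit 51) (nat_lit 5) (nat_lit 54) (nat_lit 5) (nat_lit 55) (nat_lit 5) (nat_lit 346) (nat_lit 286) (nat_lit 148)))) (XT.nd (nat_lit 78) (nat_lit 76) (nat_lit 0) (XT.lf (nat_lit 0) (nat_lit 2624602898) (nat_lit 228) (nat_lit 20509200884) (nat_lit 304) (nat_lit 3866609426) (nat_lit 48) (nat_lit 5) (nat_lit 51) (nat_lit 5) (nat_lit 52) (nat_lit 5) (nat_lit 347) (nat_lit 286) (nat_lit 147)) (XT.nd (nat_lit 78) (nat_lit 76) (nat_lit 0) (XT.lf (nat_lit 0) (nat_lit 13687341666) (nat_lit 228) (nat_lit 13809660786)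 (nat_lit 304) (nat_lit 85510603) (nat_lit 48) (nat_lit 5) (nat_lit 51) (nat_lit 5) (nat_lit 52) (nat_lit 5) (nat_lit 348) (nat_lit 286) (nat_lit 146)) (XT.lf (nat_lit 0) (nat_lit 3727850472) (nat_lit 304) (nat_lit 3146768865) (nat_lit 76) (nat_lit 21306572379) (nat_lit 47) (nat_lit 5) (nat_lit 51) (nat_lit 5) (nat_lit 48) (nat_lit 5) (nat_lit 349) (nat_lit 286) (nat_lit 145)))))) (XT.nd (nat_lit 468) (nat_lit 456) (nat_lit 0) (XT.nd (nat_lit 234) (nat_lit 152) (nat_lit 0) (XT.nd (nat_lit 78) (nat_lit 228) (nat_lit 0) (XT.lf (nat_lit 0) (nat_lit 7728160683) (nat_lit 304) (nat_lit 20728028666) (nat_lit 76) (nat_lit 339396683) (nat_lit 44) (nat_lit 5) (nat_lit 48) (nat_lit 5) (nat_lit 45) (nat_lit 5) (nat_lit 350) (nat_lit 286) (nat_lit 144)) (XT.nd (nat_lit 78) (nat_lit 228) (nat_lit 0) (XT.lf (nat_lit 0) (nat_lit 11942063694) (nat_lit 304) (nat_lit 9822847727) (nat_lit 76) (nat_lit 7660701707)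 (nat_lit 44) (nat_lit 5) (nat_lit 48) (nat_lit 5) (nat_lit 45) (nat_lit 5) (nat_lit 351) (nat_lit 286) (nat_lit 143)) (XT.lf (nat_lit 0) (nat_lit 1427808837) (nat_lit 228) (nat_lit 14861918514) (nat_lit 304) (nat_lit 13784601583) (nat_lit 41) (nat_lit 5) (nat_lit 44) (nat_lit 5) (nat_lit 45) (nat_lit 5) (nat_lit 352) (nat_lit 286) (nat_lit 142)))) (XT.nd (nat_lit 78) (nat_lit 152) (nat_lit 0) (XT.lf (nat_lit 0) (nat_lit 13207895894) (nat_lit 228) (nat_lit 7652830159) (nat_lit 304) (nat_lit 9879000977) (nat_lit 41) (nat_lit 5) (nat_lit 44) (nat_lit 5) (nat_lit 45) (nat_lit 5) (nat_lit 353) (nat_lit 286) (nat_lit 141)) (XT.nd (nat_lit 78) (nat_lit 152) (nat_lit 0) (XT.lf (nat_lit 0) (nat_lit 25332212793) (nat_lit 228) (nat_lit 230538652) (nat_lit 304) (nat_lit 5862526454) (nat_lit 41) (nat_lit 5) (nat_lit 44) (nat_lit 5) (nat_lit 45) (nat_lit 5) (nat_lit 354) (nat_lit 286) (nat_lit 140)) (XT.lf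 (nat_lit 0) (nat_lit 5720150453) (nat_lit 152) (nat_lit 24805990537) (nat_lit 228) (nat_lit 1601652714) (nat_lit 39) (nat_lit 5) (nat_lit 41) (nat_lit 5) (nat_lit 42) (nat_lit 5) (nat_lit 355) (nat_lit 286) (nat_lit 139))))) (XT.nd (nat_lit 234) (nat_lit 152) (nat_lit 0) (XT.nd (nat_lit 78) (nat_lit 228) (nat_lit 0) (XT.lf (nat_lit 0) (nat_lit 2791149442) (nat_lit 228) (nat_lit 14875655880) (nat_lit 76) (nat_lit 15182028391) (nat_lit 38) (nat_lit 5) (nat_lit 41) (nat_lit 5) (nat_lit 39) (nat_lit 5) (nat_lit 356) (nat_lit 286) (nat_lit 138)) (XT.nd (nat_lit 78) (nat_lit 228) (nat_lit 0) (XT.lf (nat_lit 0) (nat_lit 7277784588) (nat_lit 228) (nat_lit 3022400356) (nat_lit 76) (nat_lit 23291023895) (nat_lit 38) (nat_lit 5) (nat_lit 41) (nat_lit 5) (nat_lit 39) (nat_lit 5) (nat_lit 357) (nat_lit 286) (nat_lit 137)) (XT.lf (nat_lit 0) (nat_lit 9360534340) (nat_lit 228) (nat_lit 2622871940) (nat_lit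 304) (nat_lit 22369923986) (nat_lit 35) (nat_lit 5) (nat_lit 38) (nat_lit 5) (nat_lit 39) (nat_lit 5) (nat_lit 358) (nat_lit 286) (nat_lit 136)))) (XT.nd (nat_lit 78) (nat_lit 152) (nat_lit 0) (XT.lf (nat_lit 0) (nat_lit 16906280354) (nat_lit 304) (nat_lit 13020224220) (nat_lit 76) (nat_lit 5209534729) (nat_lit 35) (nat_lit 5) (nat_lit 39) (nat_lit 5) (nat_lit 36) (nat_lit 5) (nat_lit 359) (nat_lit 286) (nat_lit 135)) (XT.nd (nat_lit 78) (nat_lit 152) (nat_lit 0) (XT.lf (nat_lit 0) (nat_lit 21997431892) (nat_lit 304) (nat_lit 722828161) (nat_lit 76) (nat_lit 13221358109) (nat_lit 35) (nat_lit 5) (nat_lit 39) (nat_lit 5) (nat_lit 36) (nat_lit 5) (nat_lit 360) (nat_lit 286) (nat_lit 134)) (XT.lf (nat_lit 0) (nat_lit 12172887067) (nat_lit 152) (nat_lit 15180222994) (nat_lit 228) (nat_lit 9414906671) (nat_lit 33) (nat_lit 5) (nat_lit 35) (nat_lit 5) (nat_lit 36) (nat_lit 5) (nat_lit 361) (nat_lit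 286) (nat_lit 133))))))) (XT.nd (nat_lit 936) (nat_lit 456) (nat_lit 0) (XT.nd (nat_lit 468) (nat_lit 380) (nat_lit 0) (XT.nd (nat_lit 234) (nat_lit 152) (nat_lit 0) (XT.nd (nat_lit 78) (nat_lit 228) (nat_lit 0) (XT.lf (nat_lit 0) (nat_lit 25462231239) (nat_lit 152) (nat_lit 7409379929) (nat_lit 228) (nat_lit 4747537440) (nat_lit 33) (nat_lit 5) (nat_lit 35) (nat_lit 5) (nat_lit 36) (nat_lit 5) (nat_lit 362) (nat_lit 286) (nat_lit 132)) (XT.nd (nat_lit 78) (nat_lit 0) (nat_lit 0) (XT.lf (nat_lit 0) (nat_lit 65722111) (nat_lit 228) (nat_lit 37842730449) (nat_lit 76) (nat_lit 587139095) (nat_lit 30) (nat_lit 5) (nat_lit 33) (nat_lit 5) (nat_lit 31) (nat_lit 5) (nat_lit 363) (nat_lit 286) (nat_lit 131)) (XT.lf (nat_lit 0) (nat_lit 5120287586) (nat_lit 228) (nat_lit 25428068720) (nat_lit 76) (nat_lit 8842797083) (nat_lit 30) (nat_lit 5) (nat_lit 33) (nat_lit 5) (nat_lit 31) (nat_lit 5) (nat_lit 364)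 (nat_lit 286) (nat_lit 130)))) (XT.nd (nat_lit 78) (nat_lit 152) (nat_lit 0) (XT.lf (nat_lit 0) (nat_lit 10321628139) (nat_lit 228) (nat_lit 12648715307) (nat_lit 76) (nat_lit 17343389654) (nat_lit 30) (nat_lit 5) (nat_lit 33) (nat_lit 5) (nat_lit 31) (nat_lit 5) (nat_lit 365) (nat_lit 286) (nat_lit 129)) (XT.nd (nat_lit 78) (nat_lit 0) (nat_lit 0) (XT.lf (nat_lit 0) (nat_lit 516576483) (nat_lit 152) (nat_lit 15162677796) (nat_lit 228) (nat_lit 25584733675) (nat_lit 28) (nat_lit 5) (nat_lit 30) (nat_lit 5) (nat_lit 31) (nat_lit 5) (nat_lit 366) (nat_lit 286) (nat_lit 128)) (XT.lf (nat_lit 0) (nat_lit 14328664547) (nat_lit 152) (nat_lit 6992017485) (nat_lit 228) (nat_lit 20918381203) (nat_lit 28) (nat_lit 5) (nat_lit 30) (nat_lit 5) (nat_lit 31) (nat_lit 5) (nat_lit 367) (nat_lit 286) (nat_lit 127))))) (XT.nd (nat_lit 234) (nat_lit 228) (nat_lit 0) (XT.nd (nat_lit 78) (nat_lit 152) (nat_lit 0)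 (XT.lf (nat_lit 0) (nat_lit 27140493784) (nat_lit 228) (nat_lit 14709307694) (nat_lit 76) (nat_lit 1393319879) (nat_lit 28) (nat_lit 5) (nat_lit 31) (nat_lit 5) (nat_lit 29) (nat_lit 5) (nat_lit 368) (nat_lit 286) (nat_lit 126)) (XT.nd (nat_lit 78) (nat_lit 152) (nat_lit 0) (XT.lf (nat_lit 0) (nat_lit 33199715252) (nat_lit 228) (nat_lit 1188543998) (nat_lit 76) (nat_lit 9887102194) (nat_lit 28) (nat_lit 5) (nat_lit 31) (nat_lit 5) (nat_lit 29) (nat_lit 5) (nat_lit 369) (nat_lit 286) (nat_lit 125)) (XT.lf (nat_lit 0) (nat_lit 12984288442) (nat_lit 152) (nat_lit 26576953832) (nat_lit 228) (nat_lit 5773715137) (nat_lit 26) (nat_lit 5) (nat_lit 28) (nat_lit 5) (nat_lit 29) (nat_lit 5) (nat_lit 370) (nat_lit 286) (nat_lit 124)))) (XT.nd (nat_lit 78) (nat_lit 228) (nat_lit 0) (XT.lf (nat_lit 0) (nat_lit 27599813329) (nat_lit 152) (nat_lit 18521578596) (nat_lit 228) (nat_lit 304720437) (nat_lit 26)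 (nat_lit 5) (nat_lit 28) (nat_lit 5) (nat_lit 29) (nat_lit 5) (nat_lit 371) (nat_lit 286) (nat_lit 123)) (XT.nd (nat_lit 78) (nat_lit 152) (nat_lit 0) (XT.lf (nat_lit 0) (nat_lit 5220222021) (nat_lit 228) (nat_lit 4954160801) (nat_lit 76) (nat_lit 37374211126) (nat_lit 25) (nat_lit 5) (nat_lit 28) (nat_lit 5) (nat_lit 26) (nat_lit 5) (nat_lit 372) (nat_lit 286) (nat_lit 122)) (XT.lf (nat_lit 0) (nat_lit 9510154831) (nat_lit 152) (nat_lit 1482024656) (nat_lit 228) (nat_lit 37709862281) (nat_lit 23) (nat_lit 5) (nat_lit 25) (nat_lit 5) (nat_lit 26) (nat_lit 5) (nat_lit 373) (nat_lit 286) (nat_lit 121)))))) (XT.nd (nat_lit 468) (nat_lit 304) (nat_lit 0) (XT.nd (nat_lit 234) (nat_lit 0) (nat_lit 0) (XT.nd (nat_lit 78) (nat_lit 152) (nat_lit 0) (XT.lf (nat_lit 0) (nat_lit 17055639823) (nat_lit 228) (nat_lit 25457530785) (nat_lit 76) (nat_lit 7373376010) (nat_lit 23) (nat_lit 5) (nat_lit 26) (nat_lit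 5) (nat_lit 24) (nat_lit 5) (nat_lit 374) (nat_lit 286) (nat_lit 120)) (XT.nd (nat_lit 78) (nat_lit 152) (nat_lit 0) (XT.lf (nat_lit 0) (nat_lit 23311798538) (nat_lit 228) (nat_lit 11332207565) (nat_lit 76) (nat_lit 16462260478) (nat_lit 23) (nat_lit 5) (nat_lit 26) (nat_lit 5) (nat_lit 24) (nat_lit 5) (nat_lit 375) (nat_lit 286) (nat_lit 119)) (XT.lf (nat_lit 0) (nat_lit 3274570019) (nat_lit 152) (nat_lit 26508783203) (nat_lit 228) (nat_lit 22578397280) (nat_lit 21) (nat_lit 5) (nat_lit 23) (nat_lit 5) (nat_lit 24) (nat_lit 5) (nat_lit 376) (nat_lit 286) (nat_lit 118)))) (XT.nd (nat_lit 78) (nat_lit 0) (nat_lit 0) (XT.lf (nat_lit 0) (nat_lit 18545706914) (nat_lit 152) (nat_lit 18014065383) (nat_lit 228) (nat_lit 17091808697) (nat_lit 21) (nat_lit 5) (nat_lit 23) (nat_lit 5) (nat_lit 24) (nat_lit 5) (nat_lit 377) (nat_lit 286) (nat_lit 117)) (XT.nd (nat_lit 78) (nat_lit 0) (nat_lit 0) (XT.lf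 (nat_lit 0) (nat_lit 34269013680) (nat_lit 152) (nat_lit 9266863152) (nat_lit 228) (nat_lit 11444341265) (nat_lit 21) (nat_lit 5) (nat_lit 23) (nat_lit 5) (nat_lit 24) (nat_lit 5) (nat_lit 378) (nat_lit 286) (nat_lit 116)) (XT.lf (nat_lit 0) (nat_lit 50458229128) (nat_lit 152) (nat_lit 259533324) (nat_lit 228) (nat_lit 5631060304) (nat_lit 21) (nat_lit 5) (nat_lit 23) (nat_lit 5) (nat_lit 24) (nat_lit 5) (nat_lit 379) (nat_lit 286) (nat_lit 115))))) (XT.nd (nat_lit 234) (nat_lit 152) (nat_lit 0) (XT.nd (nat_lit 78) (nat_lit 0) (nat_lit 0) (XT.lf (nat_lit 0) (nat_lit 525650032) (nat_lit 152) (nat_lit 48291436399) (nat_lit 76) (nat_lit 8936019772) (nat_lit 19) (nat_lit 5) (nat_lit 21) (nat_lit 5) (nat_lit 20) (nat_lit 5) (nat_lit 380) (nat_lit 286) (nat_lit 114)) (XT.nd (nat_lit 78) (nat_lit 0) (nat_lit 0) (XT.lf (nat_lit 0) (nat_lit 6813112354) (nat_lit 152) (nat_lit 33867113633) (nat_lit 76)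 (nat_lit 18515845786) (nat_lit 19) (nat_lit 5) (nat_lit 21) (nat_lit 5) (nat_lit 20) (nat_lit 5) (nat_lit 381) (nat_lit 286) (nat_lit 113)) (XT.lf (nat_lit 0) (nat_lit 13285885327) (nat_lit 152) (nat_lit 19015615421) (nat_lit 76) (nat_lit 28380927964) (nat_lit 19) (nat_lit 5) (nat_lit 21) (nat_lit 5) (nat_lit 20) (nat_lit 5) (nat_lit 382) (nat_lit 286) (nat_lit 112)))) (XT.nd (nat_lit 78) (nat_lit 152) (nat_lit 0) (XT.lf (nat_lit 0) (nat_lit 19949624771) (nat_lit 152) (nat_lit 3723964726) (nat_lit 76) (nat_lit 38539886279) (nat_lit 19) (nat_lit 5) (nat_lit 21) (nat_lit 5) (nat_lit 20) (nat_lit 5) (nat_lit 383) (nat_lit 286) (nat_lit 111)) (XT.nd (nat_lit 78) (nat_lit 0) (nat_lit 0) (XT.lf (nat_lit 0) (nat_lit 12260445542) (nat_lit 152) (nat_lit 14667562733) (nat_lit 228) (nat_lit 36859006852) (nat_lit 17) (nat_lit 5) (nat_lit 19) (nat_lit 5) (nat_lit 20) (nat_lit 5) (nat_lit 384) (nat_lit 286)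 (nat_lit 110)) (XT.lf (nat_lit 0) (nat_lit 28795541671) (nat_lit 152) (nat_lit 5354724458) (nat_lit 228) (nat_lit 31256461593) (nat_lit 17) (nat_lit 5) (nat_lit 19) (nat_lit 5) (nat_lit 20) (nat_lit 5) (nat_lit 385) (nat_lit 286) (nat_lit 109))))))))
noncomputable def xc180 : XT := (XT.nd (nat_lit 34320) (nat_lit 0) (nat_lit 5244) (XT.nd (nat_lit 33384) (nat_lit 0) (nat_lit 11324) (XT.nd (nat_lit 32916) (nat_lit 0) (nat_lit 12084) (XT.nd (nat_lit 156) (nat_lit 152) (nat_lit 0) (XT.nd (nat_lit 78) (nat_lit 0) (nat_lit 0) (XT.lf (nat_lit 0) (nat_lit 41626913400) (nat_lit 228) (nat_lit 21294180339) (nat_lit 76) (nat_lit 4152808976) (nat_lit 17) (nat_lit 5) (nat_lit 20) (nat_lit 5) (nat_lit 18) (nat_lit 4) (nat_lit 386) (nat_lit 286) (nat_lit 108)) (XT.lf (nat_lit 0) (nat_lit 49377953131) (nat_lit 228) (nat_lit 5575638708) (nat_lit 76) (nat_lit 13836000918) (nat_lit 17) (nat_lit 5) (nat_lit 20) (nat_lit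 5) (nat_lit 18) (nat_lit 4) (nat_lit 387) (nat_lit 286) (nat_lit 107))) (XT.nd (nat_lit 78) (nat_lit 76) (nat_lit 0) (XT.lf (nat_lit 0) (nat_lit 10820799142) (nat_lit 76) (nat_lit 46641902187) (nat_lit 152) (nat_lit 13091019367) (nat_lit 16) (nat_lit 5) (nat_lit 17) (nat_lit 5) (nat_lit 18) (nat_lit 4) (nat_lit 388) (nat_lit 286) (nat_lit 106)) (XT.nd (nat_lit 78) (nat_lit 76) (nat_lit 0) (XT.lf (nat_lit 0) (nat_lit 27818659644) (nat_lit 76) (nat_lit 38024833359) (nat_lit 152) (nat_lit 6525676883) (nat_lit 16) (nat_lit 5) (nat_lit 17) (nat_lit 5) (nat_lit 18) (nat_lit 4) (nat_lit 389) (nat_lit 286) (nat_lit 105)) (XT.lf (nat_lit 0) (nat_lit 229258813) (nat_lit 152) (nat_lit 28919585016) (nat_lit 76) (nat_lit 45090255276) (nat_lit 15) (nat_lit 5) (nat_lit 17) (nat_lit 5) (nat_lit 16) (nat_lit 5) (nat_lit 390) (nat_lit 286) (nat_lit 104))))) (XT.nd (nat_lit 234) (nat_lit 0) (nat_lit 76) (XT.nd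 (nat_lit 78) (nat_lit 0) (nat_lit 0) (XT.lf (nat_lit 0) (nat_lit 215441414) (nat_lit 0) (nat_lit 215441414) (nat_lit 988) (nat_lit 4392328171) (nat_lit 174) (nat_lit 5) (nat_lit 174) (nat_lit 3) (nat_lit 187) (nat_lit 3) (nat_lit 287) (nat_lit 287) (nat_lit 206)) (XT.nd (nat_lit 78) (nat_lit 0) (nat_lit 0) (XT.lf (nat_lit 0) (nat_lit 1609063564) (nat_lit 988) (nat_lit 5136235094) (nat_lit 1064) (nat_lit 3022172122) (nat_lit 174) (nat_lit 5) (nat_lit 187) (nat_lit 3) (nat_lit 188) (nat_lit 5) (nat_lit 288) (nat_lit 287) (nat_lit 205)) (XT.lf (nat_lit 0) (nat_lit 2355674647) (nat_lit 988) (nat_lit 953590520) (nat_lit 1064) (nat_lit 6583642113) (nat_lit 174) (nat_lit 5) (nat_lit 187) (nat_lit 3) (nat_lit 188) (nat_lit 5) (nat_lit 289) (nat_lit 287) (nat_lit 204)))) (XT.nd (nat_lit 78) (nat_lit 0) (nat_lit 0) (XT.lf (nat_lit 0) (nat_lit 3133507614) (nat_lit 988) (nat_lit 6617966671) (nat_lit 1064)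 (nat_lit 270429130) (nat_lit 175) (nat_lit 5) (nat_lit 188) (nat_lit 5) (nat_lit 189) (nat_lit 5) (nat_lit 290) (nat_lit 287) (nat_lit 203)) (XT.nd (nat_lit 78) (nat_lit 0) (nat_lit 0) (XT.lf (nat_lit 0) (nat_lit 3951340935) (nat_lit 988) (nat_lit 2290755369) (nat_lit 1064) (nat_lit 3912232631) (nat_lit 175) (nat_lit 5) (nat_lit 188) (nat_lit 5) (nat_lit 189) (nat_lit 5) (nat_lit 291) (nat_lit 287) (nat_lit 202)) (XT.lf (nat_lit 76) (nat_lit 2194381913) (nat_lit 0) (nat_lit 2595348878) (nat_lit 1064) (nat_lit 5501173514) (nat_lit 176) (nat_lit 5) (nat_lit 175) (nat_lit 5) (nat_lit 189) (nat_lit 5) (nat_lit 292) (nat_lit 287) (nat_lit 201)))))) (XT.nd (nat_lit 468) (nat_lit 912) (nat_lit 0) (XT.nd (nat_lit 234) (nat_lit 0) (nat_lit 76) (XT.nd (nat_lit 78) (nat_lit 0) (nat_lit 0) (XT.lf (nat_lit 0) (nat_lit 5663405188) (nat_lit 988) (nat_lit 3596691034) (nat_lit 1064) (nat_lit 1171232779) (nat_lit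 176) (nat_lit 5) (nat_lit 189) (nat_lit 5) (nat_lit 190) (nat_lit 5) (nat_lit 293) (nat_lit 287) (nat_lit 200)) (XT.nd (nat_lit 78) (nat_lit 0) (nat_lit 0) (XT.lf (nat_lit 76) (nat_lit 1017287496) (nat_lit 0) (nat_lit 5557801269) (nat_lit 1064) (nat_lit 4000578120) (nat_lit 177) (nat_lit 5) (nat_lit 176) (nat_lit 5) (nat_lit 190) (nat_lit 5) (nat_lit 294) (nat_lit 287) (nat_lit 199)) (XT.lf (nat_lit 76) (nat_lit 5828558915) (nat_lit 0) (nat_lit 1698753906) (nat_lit 1064) (nat_lit 3196679218) (nat_lit 177) (nat_lit 5) (nat_lit 176) (nat_lit 5) (nat_lit 190) (nat_lit 5) (nat_lit 295) (nat_lit 287) (nat_lit 198)))) (XT.nd (nat_lit 78) (nat_lit 0) (nat_lit 0) (XT.lf (nat_lit 0) (nat_lit 8507603869) (nat_lit 988) (nat_lit 129702026) (nat_lit 1064) (nat_lit 2239527337) (nat_lit 177) (nat_lit 5) (nat_lit 190) (nat_lit 5) (nat_lit 191) (nat_lit 5) (nat_lit 296) (nat_lit 287) (nat_lit 197)) (XT.nd (nat_lit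 78) (nat_lit 0) (nat_lit 0) (XT.lf (nat_lit 76) (nat_lit 4841883046) (nat_lit 0) (nat_lit 4717056237) (nat_lit 1064) (nat_lit 1474121108) (nat_lit 178) (nat_lit 5) (nat_lit 177) (nat_lit 5) (nat_lit 191) (nat_lit 5) (nat_lit 297) (nat_lit 287) (nat_lit 196)) (XT.lf (nat_lit 76) (nat_lit 9950638157) (nat_lit 0) (nat_lit 671251614) (nat_lit 1064) (nat_lit 572730692) (nat_lit 178) (nat_lit 5) (nat_lit 177) (nat_lit 5) (nat_lit 191) (nat_lit 5) (nat_lit 298) (nat_lit 287) (nat_lit 195))))) (XT.nd (nat_lit 234) (nat_lit 0) (nat_lit 76) (XT.nd (nat_lit 78) (nat_lit 0) (nat_lit 0) (XT.lf (nat_lit 0) (nat_lit 399548263) (nat_lit 1064) (nat_lit 7484705865) (nat_lit 1140) (nat_lit 3475192570) (nat_lit 164) (nat_lit 5) (nat_lit 178) (nat_lit 5) (nat_lit 179) (nat_lit 5) (nat_lit 299) (nat_lit 287) (nat_lit 194)) (XT.nd (nat_lit 78) (nat_lit 0) (nat_lit 76) (XT.lf (nat_lit 0) (nat_lit 1388474652) (nat_lit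 1064) (nat_lit 2383995445) (nat_lit 1140) (nat_lit 7756652040) (nat_lit 164) (nat_lit 5) (nat_lit 178) (nat_lit 5) (nat_lit 179) (nat_lit 5) (nat_lit 300) (nat_lit 287) (nat_lit 193)) (XT.lf (nat_lit 0) (nat_lit 2420081282) (nat_lit 1064) (nat_lit 8796696332) (nat_lit 1140) (nat_lit 486762808) (nat_lit 165) (nat_lit 5) (nat_lit 179) (nat_lit 5) (nat_lit 180) (nat_lit 5) (nat_lit 301) (nat_lit 287) (nat_lit 192)))) (XT.nd (nat_lit 78) (nat_lit 0) (nat_lit 0) (XT.lf (nat_lit 0) (nat_lit 3525029213) (nat_lit 1064) (nat_lit 3530096900) (nat_lit 1140) (nat_lit 4826835056) (nat_lit 165) (nat_lit 5) (nat_lit 179) (nat_lit 5) (nat_lit 180) (nat_lit 5) (nat_lit 302) (nat_lit 287) (nat_lit 191)) (XT.nd (nat_lit 78) (nat_lit 0) (nat_lit 76) (XT.lf (nat_lit 76) (nat_lit 1917038258) (nat_lit 0) (nat_lit 2745806213) (nat_lit 1140) (nat_lit 7402938991) (nat_lit 166) (nat_lit 5) (nat_lit 165) (nat_lit 5) (nat_lit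 180) (nat_lit 5) (nat_lit 303) (nat_lit 287) (nat_lit 190)) (XT.lf (nat_lit 0) (nat_lit 5868795292) (nat_lit 1064) (nat_lit 4686072804) (nat_lit 76) (nat_lit 1699271608) (nat_lit 166) (nat_lit 5) (nat_lit 180) (nat_lit 5) (nat_lit 167) (nat_lit 5) (nat_lit 304) (nat_lit 287) (nat_lit 189))))))) (XT.nd (nat_lit 858) (nat_lit 2736) (nat_lit 0) (XT.nd (nat_lit 390) (nat_lit 1596) (nat_lit 0) (XT.nd (nat_lit 156) (nat_lit 836) (nat_lit 0) (XT.nd (nat_lit 78) (nat_lit 0) (nat_lit 0) (XT.lf (nat_lit 0) (nat_lit 916272685) (nat_lit 1064) (nat_lit 6212907031) (nat_lit 1140) (nat_lit 5318457430) (nat_lit 152) (nat_lit 5) (nat_lit 166) (nat_lit 5) (nat_lit 167) (nat_lit 5) (nat_lit 305) (nat_lit 287) (nat_lit 188)) (XT.lf (nat_lit 0) (nat_lit 6767993859) (nat_lit 1064) (nat_lit 1689337904) (nat_lit 1140) (nat_lit 4188746121) (nat_lit 152) (nat_lit 5) (nat_lit 166) (nat_lit 5) (nat_lit 167) (nat_lit 5)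 (nat_lit 306) (nat_lit 287) (nat_lit 187))) (XT.nd (nat_lit 78) (nat_lit 836) (nat_lit 0) (XT.lf (nat_lit 0) (nat_lit 9837043283) (nat_lit 1140) (nat_lit 98644951) (nat_lit 76) (nat_lit 2914468139) (nat_lit 152) (nat_lit 5) (nat_lit 167) (nat_lit 5) (nat_lit 153) (nat_lit 5) (nat_lit 307) (nat_lit 287) (nat_lit 186)) (XT.nd (nat_lit 78) (nat_lit 0) (nat_lit 0) (XT.lf (nat_lit 0) (nat_lit 5938882978) (nat_lit 836) (nat_lit 5376733818) (nat_lit 912) (nat_lit 1743051230) (nat_lit 141) (nat_lit 5) (nat_lit 152) (nat_lit 5) (nat_lit 153) (nat_lit 5) (nat_lit 308) (nat_lit 287) (nat_lit 185)) (XT.lf (nat_lit 0) (nat_lit 12145243413) (nat_lit 836) (nat_lit 678294997) (nat_lit 912) (nat_lit 450380801) (nat_lit 141) (nat_lit 5) (nat_lit 152) (nat_lit 5) (nat_lit 153) (nat_lit 5) (nat_lit 309) (nat_lit 287) (nat_lit 184))))) (XT.nd (nat_lit 234) (nat_lit 456) (nat_lit 0) (XT.nd (nat_lit 78) (nat_lit 532)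 (nat_lit 0) (XT.lf (nat_lit 0) (nat_lit 937946382) (nat_lit 608) (nat_lit 8415634709) (nat_lit 76) (nat_lit 4139602639) (nat_lit 133) (nat_lit 5) (nat_lit 141) (nat_lit 5) (nat_lit 134) (nat_lit 5) (nat_lit 310) (nat_lit 287) (nat_lit 183)) (XT.nd (nat_lit 78) (nat_lit 532) (nat_lit 0) (XT.lf (nat_lit 0) (nat_lit 2361706965) (nat_lit 608) (nat_lit 2251484172) (nat_lit 76) (nat_lit 9105647231) (nat_lit 133) (nat_lit 5) (nat_lit 141) (nat_lit 5) (nat_lit 134) (nat_lit 5) (nat_lit 311) (nat_lit 287) (nat_lit 182)) (XT.lf (nat_lit 0) (nat_lit 3856265165) (nat_lit 608) (nat_lit 9788858616) (nat_lit 76) (nat_lit 305326449) (nat_lit 126) (nat_lit 5) (nat_lit 134) (nat_lit 5) (nat_lit 127) (nat_lit 5) (nat_lit 312) (nat_lit 287) (nat_lit 181)))) (XT.nd (nat_lit 78) (nat_lit 456) (nat_lit 0) (XT.lf (nat_lit 0) (nat_lit 5449659887) (nat_lit 608) (nat_lit 3435534812) (nat_lit 76) (nat_lit 5302225008) (nat_lit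 126) (nat_lit 5) (nat_lit 134) (nat_lit 5) (nat_lit 127) (nat_lit 5) (nat_lit 313) (nat_lit 287) (nat_lit 180)) (XT.nd (nat_lit 78) (nat_lit 0) (nat_lit 0) (XT.lf (nat_lit 0) (nat_lit 3155875019) (nat_lit 456) (nat_lit 3951107862) (nat_lit 532) (nat_lit 7324059993) (nat_lit 120) (nat_lit 5) (nat_lit 126) (nat_lit 5) (nat_lit 127) (nat_lit 5) (nat_lit 314) (nat_lit 287) (nat_lit 179)) (XT.lf (nat_lit 0) (nat_lit 8846002762) (nat_lit 532) (nat_lit 4691100280) (nat_lit 76) (nat_lit 1143939951) (nat_lit 120) (nat_lit 5) (nat_lit 127) (nat_lit 5) (nat_lit 121) (nat_lit 5) (nat_lit 315) (nat_lit 287) (nat_lit 178)))))) (XT.nd (nat_lit 468) (nat_lit 1216) (nat_lit 0) (XT.nd (nat_lit 234) (nat_lit 532) (nat_lit 0) (XT.nd (nat_lit 78) (nat_lit 456) (nat_lit 0) (XT.lf (nat_lit 0) (nat_lit 2077933740) (nat_lit 532) (nat_lit 8604829152) (nat_lit 608) (nat_lit 4254439904) (nat_lit 113) (nat_lit 5) (nat_lit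 120) (nat_lit 5) (nat_lit 121) (nat_lit 5) (nat_lit 316) (nat_lit 287) (nat_lit 177)) (XT.nd (nat_lit 78) (nat_lit 456) (nat_lit 0) (XT.lf (nat_lit 0) (nat_lit 9132355160) (nat_lit 532) (nat_lit 3476377802) (nat_lit 608) (nat_lit 2591317205) (nat_lit 113) (nat_lit 5) (nat_lit 120) (nat_lit 5) (nat_lit 121) (nat_lit 5) (nat_lit 317) (nat_lit 287) (nat_lit 176)) (XT.lf (nat_lit 0) (nat_lit 914257647) (nat_lit 456) (nat_lit 13691489673) (nat_lit 532) (nat_lit 864662917) (nat_lit 107) (nat_lit 5) (nat_lit 113) (nat_lit 5) (nat_lit 114) (nat_lit 5) (nat_lit 318) (nat_lit 287) (nat_lit 175)))) (XT.nd (nat_lit 78) (nat_lit 456) (nat_lit 0) (XT.lf (nat_lit 0) (nat_lit 979469050) (nat_lit 532) (nat_lit 7574794349) (nat_lit 76) (nat_lit 7191872695) (nat_lit 106) (nat_lit 5) (nat_lit 113) (nat_lit 5) (nat_lit 107) (nat_lit 5) (nat_lit 319) (nat_lit 287) (nat_lit 174)) (XT.nd (nat_lit 78) (nat_lit 456) (nat_lit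 0) (XT.lf (nat_lit 0) (nat_lit 2849129944) (nat_lit 532) (nat_lit 406140769) (nat_lit 76) (nat_lit 12775001761) (nat_lit 106) (nat_lit 5) (nat_lit 113) (nat_lit 5) (nat_lit 107) (nat_lit 5) (nat_lit 320) (nat_lit 287) (nat_lit 173)) (XT.lf (nat_lit 0) (nat_lit 4852943146) (nat_lit 532) (nat_lit 9240118812) (nat_lit 76) (nat_lit 2227551531) (nat_lit 100) (nat_lit 5) (nat_lit 107) (nat_lit 5) (nat_lit 101) (nat_lit 5) (nat_lit 321) (nat_lit 287) (nat_lit 172))))) (XT.nd (nat_lit 234) (nat_lit 836) (nat_lit 0) (XT.nd (nat_lit 78) (nat_lit 380) (nat_lit 0) (XT.lf (nat_lit 0) (nat_lit 6941402188) (nat_lit 532) (nat_lit 1865182266) (nat_lit 76) (nat_lit 7812366101) (nat_lit 100) (nat_lit 5) (nat_lit 107) (nat_lit 5) (nat_lit 101) (nat_lit 5) (nat_lit 322) (nat_lit 287) (nat_lit 171)) (XT.nd (nat_lit 78) (nat_lit 0) (nat_lit 0) (XT.lf (nat_lit 0) (nat_lit 5831767935) (nat_lit 380) (nat_lit 3305309674)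 (nat_lit 456) (nat_lit 7787844379) (nat_lit 95) (nat_lit 5) (nat_lit 100) (nat_lit 5) (nat_lit 101) (nat_lit 5) (nat_lit 323) (nat_lit 287) (nat_lit 170)) (XT.lf (nat_lit 0) (nat_lit 11429039158) (nat_lit 456) (nat_lit 3477777320) (nat_lit 76) (nat_lit 2332364128) (nat_lit 95) (nat_lit 5) (nat_lit 101) (nat_lit 5) (nat_lit 96) (nat_lit 5) (nat_lit 324) (nat_lit 287) (nat_lit 169)))) (XT.nd (nat_lit 78) (nat_lit 456) (nat_lit 0) (XT.lf (nat_lit 0) (nat_lit 4406457674) (nat_lit 380) (nat_lit 9447413719) (nat_lit 456) (nat_lit 3707092153) (nat_lit 90) (nat_lit 5) (nat_lit 95) (nat_lit 5) (nat_lit 96) (nat_lit 5) (nat_lit 325) (nat_lit 287) (nat_lit 168)) (XT.nd (nat_lit 78) (nat_lit 456) (nat_lit 0) (XT.lf (nat_lit 0) (nat_lit 12585773789) (nat_lit 380) (nat_lit 3790019098) (nat_lit 456) (nat_lit 1515896096) (nat_lit 90) (nat_lit 5) (nat_lit 95) (nat_lit 5) (nat_lit 96) (nat_lit 5) (nat_lit 326)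 (nat_lit 287) (nat_lit 167)) (XT.lf (nat_lit 0) (nat_lit 762937014) (nat_lit 456) (nat_lit 15438234697) (nat_lit 76) (nat_lit 2029878159) (nat_lit 84) (nat_lit 5) (nat_lit 90) (nat_lit 5) (nat_lit 85) (nat_lit 5) (nat_lit 327) (nat_lit 287) (nat_lit 166))))))))
noncomputable def xc181 : XT := (XT.nd (nat_lit 1794) (nat_lit 1824) (nat_lit 0) (XT.nd (nat_lit 858) (nat_lit 1444) (nat_lit 0) (XT.nd (nat_lit 390) (nat_lit 684) (nat_lit 0) (XT.nd (nat_lit 156) (nat_lit 304) (nat_lit 0) (XT.nd (nat_lit 78) (nat_lit 380) (nat_lit 0) (XT.lf (nat_lit 0) (nat_lit 3160887659) (nat_lit 456) (nat_lit 7401555894) (nat_lit 76) (nat_lit 8015278846) (nat_lit 84) (nat_lit 5) (nat_lit 90) (nat_lit 5) (nat_lit 85) (nat_lit 5) (nat_lit 328) (nat_lit 287) (nat_lit 165)) (XT.lf (nat_lit 0) (nat_lit 881006238) (nat_lit 380) (nat_lit 4748128466) (nat_lit 456) (nat_lit 13305726845) (nat_lit 79) (nat_lit 5) (nat_lit 84)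 (nat_lit 5) (nat_lit 85) (nat_lit 5) (nat_lit 329) (nat_lit 287) (nat_lit 164))) (XT.nd (nat_lit 78) (nat_lit 304) (nat_lit 0) (XT.lf (nat_lit 0) (nat_lit 8248878812) (nat_lit 456) (nat_lit 9761947427) (nat_lit 76) (nat_lit 1289581827) (nat_lit 79) (nat_lit 5) (nat_lit 85) (nat_lit 5) (nat_lit 80) (nat_lit 5) (nat_lit 330) (nat_lit 287) (nat_lit 163)) (XT.nd (nat_lit 78) (nat_lit 304) (nat_lit 0) (XT.lf (nat_lit 0) (nat_lit 10984559306) (nat_lit 456) (nat_lit 1280506189) (nat_lit 76) (nat_lit 7410751358) (nat_lit 79) (nat_lit 5) (nat_lit 85) (nat_lit 5) (nat_lit 80) (nat_lit 5) (nat_lit 331) (nat_lit 287) (nat_lit 162)) (XT.lf (nat_lit 0) (nat_lit 7591661955) (nat_lit 304) (nat_lit 6274238416) (nat_lit 380) (nat_lit 6194695552) (nat_lit 75) (nat_lit 5) (nat_lit 79) (nat_lit 5) (nat_lit 80) (nat_lit 5) (nat_lit 332) (nat_lit 287) (nat_lit 161))))) (XT.nd (nat_lit 234) (nat_lit 304) (nat_lit 0)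 (XT.nd (nat_lit 78) (nat_lit 380) (nat_lit 0) (XT.lf (nat_lit 0) (nat_lit 16744503511) (nat_lit 304) (nat_lit 92883722) (nat_lit 380) (nat_lit 3619435232) (nat_lit 75) (nat_lit 5) (nat_lit 79) (nat_lit 5) (nat_lit 80) (nat_lit 5) (nat_lit 333) (nat_lit 287) (nat_lit 160)) (XT.nd (nat_lit 78) (nat_lit 76) (nat_lit 0) (XT.lf (nat_lit 0) (nat_lit 5339214312) (nat_lit 304) (nat_lit 14661457034) (nat_lit 380) (nat_lit 861199698) (nat_lit 71) (nat_lit 5) (nat_lit 75) (nat_lit 5) (nat_lit 76) (nat_lit 5) (nat_lit 334) (nat_lit 287) (nat_lit 159)) (XT.lf (nat_lit 0) (nat_lit 1970997371) (nat_lit 380) (nat_lit 6571611909) (nat_lit 76) (nat_lit 12735009431) (nat_lit 70) (nat_lit 5) (nat_lit 75) (nat_lit 5) (nat_lit 71) (nat_lit 5) (nat_lit 335) (nat_lit 287) (nat_lit 158)))) (XT.nd (nat_lit 78) (nat_lit 0) (nat_lit 0) (XT.lf (nat_lit 0) (nat_lit 2680346340) (nat_lit 304) (nat_lit 2207599224) (nat_lit 380)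 (nat_lit 16817138171) (nat_lit 66) (nat_lit 5) (nat_lit 70) (nat_lit 5) (nat_lit 71) (nat_lit 5) (nat_lit 336) (nat_lit 287) (nat_lit 157)) (XT.nd (nat_lit 78) (nat_lit 0) (nat_lit 0) (XT.lf (nat_lit 0) (nat_lit 7992368644) (nat_lit 380) (nat_lit 9852491235) (nat_lit 76) (nat_lit 4297527005) (nat_lit 66) (nat_lit 5) (nat_lit 71) (nat_lit 5) (nat_lit 67) (nat_lit 5) (nat_lit 337) (nat_lit 287) (nat_lit 156)) (XT.lf (nat_lit 0) (nat_lit 11203477891) (nat_lit 380) (nat_lit 438124587) (nat_lit 76) (nat_lit 10950812834) (nat_lit 66) (nat_lit 5) (nat_lit 71) (nat_lit 5) (nat_lit 67) (nat_lit 5) (nat_lit 338) (nat_lit 287) (nat_lit 155)))))) (XT.nd (nat_lit 468) (nat_lit 532) (nat_lit 0) (XT.nd (nat_lit 234) (nat_lit 380) (nat_lit 0) (XT.nd (nat_lit 78) (nat_lit 228) (nat_lit 0) (XT.lf (nat_lit 0) (nat_lit 9431859030) (nat_lit 304) (nat_lit 5161664100) (nat_lit 380) (nat_lit 8459955791) (nat_lit 62)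 (nat_lit 5) (nat_lit 66) (nat_lit 5) (nat_lit 67) (nat_lit 5) (nat_lit 339) (nat_lit 287) (nat_lit 154)) (XT.nd (nat_lit 78) (nat_lit 228) (nat_lit 0) (XT.lf (nat_lit 0) (nat_lit 18096320626) (nat_lit 380) (nat_lit 3946882839) (nat_lit 76) (nat_lit 1484851500) (nat_lit 62) (nat_lit 5) (nat_lit 67) (nat_lit 5) (nat_lit 63) (nat_lit 5) (nat_lit 340) (nat_lit 287) (nat_lit 153)) (XT.lf (nat_lit 0) (nat_lit 6074873333) (nat_lit 228) (nat_lit 15731103641) (nat_lit 304) (nat_lit 2207849767) (nat_lit 59) (nat_lit 5) (nat_lit 62) (nat_lit 5) (nat_lit 63) (nat_lit 5) (nat_lit 341) (nat_lit 287) (nat_lit 152)))) (XT.nd (nat_lit 78) (nat_lit 304) (nat_lit 0) (XT.lf (nat_lit 0) (nat_lit 1123599043) (nat_lit 304) (nat_lit 8056597245) (nat_lit 76) (nat_lit 15332688673) (nat_lit 58) (nat_lit 5) (nat_lit 62) (nat_lit 5) (nat_lit 59) (nat_lit 5) (nat_lit 342) (nat_lit 287) (nat_lit 151)) (XT.nd (nat_lit 78) (nat_lit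 0) (nat_lit 0) (XT.lf (nat_lit 0) (nat_lit 2131556665) (nat_lit 304) (nat_lit 2392083932) (nat_lit 380) (nat_lit 20502238495) (nat_lit 54) (nat_lit 5) (nat_lit 58) (nat_lit 5) (nat_lit 59) (nat_lit 5) (nat_lit 343) (nat_lit 287) (nat_lit 150)) (XT.lf (nat_lit 0) (nat_lit 8144684566) (nat_lit 380) (nat_lit 12816842904) (nat_lit 76) (nat_lit 4589175938) (nat_lit 54) (nat_lit 5) (nat_lit 59) (nat_lit 5) (nat_lit 55) (nat_lit 5) (nat_lit 344) (nat_lit 287) (nat_lit 149))))) (XT.nd (nat_lit 234) (nat_lit 304) (nat_lit 0) (XT.nd (nat_lit 78) (nat_lit 228) (nat_lit 0) (XT.lf (nat_lit 0) (nat_lit 11890883630) (nat_lit 380) (nat_lit 2470924650) (nat_lit 76) (nat_lit 11728978553) (nat_lit 54) (nat_lit 5) (nat_lit 59) (nat_lit 5) (nat_lit 55) (nat_lit 5) (nat_lit 345) (nat_lit 287) (nat_lit 148)) (XT.nd (nat_lit 78) (nat_lit 0) (nat_lit 0) (XT.lf (nat_lit 0) (nat_lit 8338174447) (nat_lit 228) (nat_lit 7484494178)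 (nat_lit 304) (nat_lit 10822217934) (nat_lit 51) (nat_lit 5) (nat_lit 54) (nat_lit 5) (nat_lit 55) (nat_lit 5) (nat_lit 346) (nat_lit 287) (nat_lit 147)) (XT.lf (nat_lit 0) (nat_lit 19512390633) (nat_lit 228) (nat_lit 378124561) (nat_lit 304) (nat_lit 7324560357) (nat_lit 51) (nat_lit 5) (nat_lit 54) (nat_lit 5) (nat_lit 55) (nat_lit 5) (nat_lit 347) (nat_lit 287) (nat_lit 146)))) (XT.nd (nat_lit 78) (nat_lit 76) (nat_lit 0) (XT.lf (nat_lit 0) (nat_lit 3205587657) (nat_lit 228) (nat_lit 20965677093) (nat_lit 304) (nat_lit 3628388671) (nat_lit 48) (nat_lit 5) (nat_lit 51) (nat_lit 5) (nat_lit 52) (nat_lit 5) (nat_lit 348) (nat_lit 287) (nat_lit 145)) (XT.nd (nat_lit 78) (nat_lit 0) (nat_lit 0) (XT.lf (nat_lit 0) (nat_lit 250833968) (nat_lit 304) (nat_lit 13816409129) (nat_lit 76) (nat_lit 14332213145) (nat_lit 47) (nat_lit 5) (nat_lit 51) (nat_lit 5) (nat_lit 48) (nat_lit 5) (nat_lit 349) (nat_lit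 287) (nat_lit 144)) (XT.lf (nat_lit 0) (nat_lit 4167056095) (nat_lit 304) (nat_lit 2760811967) (nat_lit 76) (nat_lit 22088509304) (nat_lit 47) (nat_lit 5) (nat_lit 51) (nat_lit 5) (nat_lit 48) (nat_lit 5) (nat_lit 350) (nat_lit 287) (nat_lit 143))))))) (XT.nd (nat_lit 936) (nat_lit 760) (nat_lit 0) (XT.nd (nat_lit 468) (nat_lit 456) (nat_lit 0) (XT.nd (nat_lit 234) (nat_lit 152) (nat_lit 0) (XT.nd (nat_lit 78) (nat_lit 228) (nat_lit 0) (XT.lf (nat_lit 0) (nat_lit 8283885873) (nat_lit 304) (nat_lit 20865603321) (nat_lit 76) (nat_lit 499831506) (nat_lit 44) (nat_lit 5) (nat_lit 48) (nat_lit 5) (nat_lit 45) (nat_lit 5) (nat_lit 351) (nat_lit 287) (nat_lit 142)) (XT.nd (nat_lit 78) (nat_lit 228) (nat_lit 0) (XT.lf (nat_lit 0) (nat_lit 12614772565) (nat_lit 304) (nat_lit 9647371794) (nat_lit 76) (nat_lit 8036399383) (nat_lit 44) (nat_lit 5) (nat_lit 48) (nat_lit 5) (nat_lit 45) (nat_lit 5) (nat_lit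 352) (nat_lit 287) (nat_lit 141)) (XT.lf (nat_lit 0) (nat_lit 1936195042) (nat_lit 228) (nat_lit 15151987611) (nat_lit 304) (nat_lit 13878690652) (nat_lit 41) (nat_lit 5) (nat_lit 44) (nat_lit 5) (nat_lit 45) (nat_lit 5) (nat_lit 353) (nat_lit 287) (nat_lit 140)))) (XT.nd (nat_lit 78) (nat_lit 152) (nat_lit 0) (XT.lf (nat_lit 0) (nat_lit 14056124945) (nat_lit 228) (nat_lit 7731164133) (nat_lit 304) (nat_lit 9865226366) (nat_lit 41) (nat_lit 5) (nat_lit 44) (nat_lit 5) (nat_lit 45) (nat_lit 5) (nat_lit 354) (nat_lit 287) (nat_lit 139)) (XT.nd (nat_lit 78) (nat_lit 152) (nat_lit 0) (XT.lf (nat_lit 0) (nat_lit 26531006531) (nat_lit 228) (nat_lit 90609248) (nat_lit 304) (nat_lit 5737290947) (nat_lit 41) (nat_lit 5) (nat_lit 44) (nat_lit 5) (nat_lit 45) (nat_lit 5) (nat_lit 355) (nat_lit 287) (nat_lit 138)) (XT.lf (nat_lit 0) (nat_lit 6333922367) (nat_lit 152) (nat_lit 25397101159) (nat_lit 228) (nat_lit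 1351571763) (nat_lit 39) (nat_lit 5) (nat_lit 41) (nat_lit 5) (nat_lit 42) (nat_lit 5) (nat_lit 356) (nat_lit 287) (nat_lit 137))))) (XT.nd (nat_lit 234) (nat_lit 152) (nat_lit 0) (XT.nd (nat_lit 78) (nat_lit 228) (nat_lit 0) (XT.lf (nat_lit 0) (nat_lit 3158682889) (nat_lit 228) (nat_lit 14886650008) (nat_lit 76) (nat_lit 15780113204) (nat_lit 38) (nat_lit 5) (nat_lit 41) (nat_lit 5) (nat_lit 39) (nat_lit 5) (nat_lit 357) (nat_lit 287) (nat_lit 136)) (XT.nd (nat_lit 78) (nat_lit 228) (nat_lit 0) (XT.lf (nat_lit 0) (nat_lit 7771651100) (nat_lit 228) (nat_lit 2690474746) (nat_lit 76) (nat_lit 24128224477) (nat_lit 38) (nat_lit 5) (nat_lit 41) (nat_lit 5) (nat_lit 39) (nat_lit 5) (nat_lit 358) (nat_lit 287) (nat_lit 135)) (XT.lf (nat_lit 0) (nat_lit 10059804876) (nat_lit 228) (nat_lit 2554633775) (nat_lit 304) (nat_lit 22761026403) (nat_lit 35) (nat_lit 5) (nat_lit 38) (nat_lit 5) (nat_lit 39) (nat_lit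 5) (nat_lit 359) (nat_lit 287) (nat_lit 134)))) (XT.nd (nat_lit 78) (nat_lit 152) (nat_lit 0) (XT.lf (nat_lit 0) (nat_lit 17678461492) (nat_lit 304) (nat_lit 12997717064) (nat_lit 76) (nat_lit 5505682228) (nat_lit 35) (nat_lit 5) (nat_lit 39) (nat_lit 5) (nat_lit 36) (nat_lit 5) (nat_lit 360) (nat_lit 287) (nat_lit 133)) (XT.nd (nat_lit 78) (nat_lit 152) (nat_lit 0) (XT.lf (nat_lit 0) (nat_lit 22914629341) (nat_lit 304) (nat_lit 343431567) (nat_lit 76) (nat_lit 13753786675) (nat_lit 35) (nat_lit 5) (nat_lit 39) (nat_lit 5) (nat_lit 36) (nat_lit 5) (nat_lit 361) (nat_lit 287) (nat_lit 132)) (XT.lf (nat_lit 0) (nat_lit 12935222948) (nat_lit 152) (nat_lit 15492079118) (nat_lit 228) (nat_lit 9435855081) (nat_lit 33) (nat_lit 5) (nat_lit 35) (nat_lit 5) (nat_lit 36) (nat_lit 5) (nat_lit 362) (nat_lit 287) (nat_lit 131)))))) (XT.nd (nat_lit 468) (nat_lit 380) (nat_lit 0) (XT.nd (nat_lit 234) (nat_lit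 152) (nat_lit 0) (XT.nd (nat_lit 78) (nat_lit 228) (nat_lit 0) (XT.lf (nat_lit 0) (nat_lit 26611679991) (nat_lit 152) (nat_lit 7492291846) (nat_lit 228) (nat_lit 4636081243) (nat_lit 33) (nat_lit 5) (nat_lit 35) (nat_lit 5) (nat_lit 36) (nat_lit 5) (nat_lit 363) (nat_lit 287) (nat_lit 130)) (XT.nd (nat_lit 78) (nat_lit 0) (nat_lit 0) (XT.lf (nat_lit 0) (nat_lit 314452462) (nat_lit 228) (nat_lit 38584764221) (nat_lit 76) (nat_lit 743572623) (nat_lit 30) (nat_lit 5) (nat_lit 33) (nat_lit 5) (nat_lit 31) (nat_lit 5) (nat_lit 364) (nat_lit 287) (nat_lit 129)) (XT.lf (nat_lit 0) (nat_lit 5513467755) (nat_lit 228) (nat_lit 25809116470) (nat_lit 76) (nat_lit 9242857068) (nat_lit 30) (nat_lit 5) (nat_lit 33) (nat_lit 5) (nat_lit 31) (nat_lit 5) (nat_lit 365) (nat_lit 287) (nat_lit 128)))) (XT.nd (nat_lit 78) (nat_lit 152) (nat_lit 0) (XT.lf (nat_lit 0) (nat_lit 10863870713) (nat_lit 228) (nat_lit 12657502677)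 (nat_lit 76) (nat_lit 17994541899) (nat_lit 30) (nat_lit 5) (nat_lit 33) (nat_lit 5) (nat_lit 31) (nat_lit 5) (nat_lit 366) (nat_lit 287) (nat_lit 127)) (XT.nd (nat_lit 78) (nat_lit 0) (nat_lit 0) (XT.lf (nat_lit 0) (nat_lit 899113806) (nat_lit 152) (nat_lit 15479865470) (nat_lit 228) (nat_lit 26115803244) (nat_lit 28) (nat_lit 5) (nat_lit 30) (nat_lit 5) (nat_lit 31) (nat_lit 5) (nat_lit 367) (nat_lit 287) (nat_lit 126)) (XT.lf (nat_lit 0) (nat_lit 15114874026) (nat_lit 152) (nat_lit 7068095815) (nat_lit 228) (nat_lit 21316347744) (nat_lit 28) (nat_lit 5) (nat_lit 30) (nat_lit 5) (nat_lit 31) (nat_lit 5) (nat_lit 368) (nat_lit 287) (nat_lit 125))))) (XT.nd (nat_lit 234) (nat_lit 228) (nat_lit 0) (XT.nd (nat_lit 78) (nat_lit 152) (nat_lit 0) (XT.lf (nat_lit 0) (nat_lit 28172138096) (nat_lit 228) (nat_lit 14799148038) (nat_lit 76) (nat_lit 1562375372) (nat_lit 28) (nat_lit 5) (nat_lit 31) (nat_lit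 5) (nat_lit 29) (nat_lit 5) (nat_lit 369) (nat_lit 287) (nat_lit 124)) (XT.nd (nat_lit 78) (nat_lit 152) (nat_lit 0) (XT.lf (nat_lit 0) (nat_lit 34406803310) (nat_lit 228) (nat_lit 882997515) (nat_lit 76) (nat_lit 10307264674) (nat_lit 28) (nat_lit 5) (nat_lit 31) (nat_lit 5) (nat_lit 29) (nat_lit 5) (nat_lit 370) (nat_lit 287) (nat_lit 123)) (XT.lf (nat_lit 0) (nat_lit 13711674773) (nat_lit 152) (nat_lit 27244600620) (nat_lit 228) (nat_lit 5732267496) (nat_lit 26) (nat_lit 5) (nat_lit 28) (nat_lit 5) (nat_lit 29) (nat_lit 5) (nat_lit 371) (nat_lit 287) (nat_lit 122)))) (XT.nd (nat_lit 78) (nat_lit 228) (nat_lit 0) (XT.lf (nat_lit 0) (nat_lit 28755824892) (nat_lit 152) (nat_lit 18951340684) (nat_lit 228) (nat_lit 105455162) (nat_lit 26) (nat_lit 5) (nat_lit 28) (nat_lit 5) (nat_lit 29) (nat_lit 5) (nat_lit 372) (nat_lit 287) (nat_lit 121)) (XT.nd (nat_lit 78) (nat_lit 152) (nat_lit 0) (XT.lf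 (nat_lit 0) (nat_lit 5575217147) (nat_lit 228) (nat_lit 4780175117) (nat_lit 76) (nat_lit 38613508924) (nat_lit 25) (nat_lit 5) (nat_lit 28) (nat_lit 5) (nat_lit 26) (nat_lit 5) (nat_lit 373) (nat_lit 287) (nat_lit 120)) (XT.lf (nat_lit 0) (nat_lit 10114907136) (nat_lit 152) (nat_lit 1402718623) (nat_lit 228) (nat_lit 38639413706) (nat_lit 23) (nat_lit 5) (nat_lit 25) (nat_lit 5) (nat_lit 26) (nat_lit 5) (nat_lit 374) (nat_lit 287) (nat_lit 119))))))))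
noncomputable def xc182 : XT := (XT.nd (nat_lit 34398) (nat_lit 0) (nat_lit 7372) (XT.nd (nat_lit 858) (nat_lit 76) (nat_lit 0) (XT.nd (nat_lit 390) (nat_lit 304) (nat_lit 0) (XT.nd (nat_lit 156) (nat_lit 152) (nat_lit 0) (XT.nd (nat_lit 78) (nat_lit 0) (nat_lit 0) (XT.lf (nat_lit 0) (nat_lit 17758445531) (nat_lit 228) (nat_lit 25906381471) (nat_lit 76) (nat_lit 7712394414) (nat_lit 23) (nat_lit 5) (nat_lit 26) (nat_lit 5) (nat_lit 24) (nat_lit 5) (nat_lit 375) (nat_lit 287) (nat_lit 118)) (XT.lf (nat_lit 0) (nat_lit 24196721925) (nat_lit 228) (nat_lit 11366469678) (nat_lit 76) (nat_lit 17070513849) (nat_lit 23) (nat_lit 5) (nat_lit 26) (nat_lit 5) (nat_lit 24) (nat_lit 5) (nat_lit 376) (nat_lit 287) (nat_lit 117))) (XT.nd (nat_lit 78) (nat_lit 0) (nat_lit 0) (XT.lf (nat_lit 0) (nat_lit 3675514135) (nat_lit 152) (nat_lit 27184413985) (nat_lit 228) (nat_lit 23067005927) (nat_lit 21) (nat_lit 5)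 (nat_lit 23) (nat_lit 5) (nat_lit 24) (nat_lit 5) (nat_lit 377) (nat_lit 287) (nat_lit 116)) (XT.nd (nat_lit 78) (nat_lit 0) (nat_lit 0) (XT.lf (nat_lit 0) (nat_lit 19395968427) (nat_lit 152) (nat_lit 18438339079) (nat_lit 228) (nat_lit 17421317063) (nat_lit 21) (nat_lit 5) (nat_lit 23) (nat_lit 5) (nat_lit 24) (nat_lit 5) (nat_lit 378) (nat_lit 287) (nat_lit 115)) (XT.lf (nat_lit 0) (nat_lit 35582414484) (nat_lit 152) (nat_lit 9432103740) (nat_lit 228) (nat_lit 11609762867) (nat_lit 21) (nat_lit 5) (nat_lit 23) (nat_lit 5) (nat_lit 24) (nat_lit 5) (nat_lit 379) (nat_lit 287) (nat_lit 114))))) (XT.nd (nat_lit 234) (nat_lit 152) (nat_lit 0) (XT.nd (nat_lit 78) (nat_lit 152) (nat_lit 0) (XT.lf (nat_lit 0) (nat_lit 52248995801) (nat_lit 152) (nat_lit 157838443) (nat_lit 228) (nat_lit 5627265282) (nat_lit 21) (nat_lit 5) (nat_lit 23) (nat_lit 5) (nat_lit 24) (nat_lit 5) (nat_lit 380) (nat_lit 287)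 (nat_lit 113)) (XT.nd (nat_lit 78) (nat_lit 0) (nat_lit 0) (XT.lf (nat_lit 0) (nat_lit 709577631) (nat_lit 152) (nat_lit 49458281467) (nat_lit 76) (nat_lit 9312643089) (nat_lit 19) (nat_lit 5) (nat_lit 21) (nat_lit 5) (nat_lit 20) (nat_lit 5) (nat_lit 381) (nat_lit 287) (nat_lit 112)) (XT.lf (nat_lit 0) (nat_lit 7180766014) (nat_lit 152) (nat_lit 34609439641) (nat_lit 76) (nat_lit 19176702445) (nat_lit 19) (nat_lit 5) (nat_lit 21) (nat_lit 5) (nat_lit 20) (nat_lit 5) (nat_lit 382) (nat_lit 287) (nat_lit 111)))) (XT.nd (nat_lit 78) (nat_lit 152) (nat_lit 0) (XT.lf (nat_lit 0) (nat_lit 13842967022) (nat_lit 152) (nat_lit 19320367960) (nat_lit 76) (nat_lit 29334667730) (nat_lit 19) (nat_lit 5) (nat_lit 21) (nat_lit 5) (nat_lit 20) (nat_lit 5) (nat_lit 383) (nat_lit 287) (nat_lit 110)) (XT.nd (nat_lit 78) (nat_lit 152) (nat_lit 0) (XT.lf (nat_lit 0) (nat_lit 20702001995) (nat_lit 152) (nat_lit 3577707043)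 (nat_lit 76) (nat_lit 39795414836) (nat_lit 19) (nat_lit 5) (nat_lit 21) (nat_lit 5) (nat_lit 20) (nat_lit 5) (nat_lit 384) (nat_lit 287) (nat_lit 109)) (XT.lf (nat_lit 0) (nat_lit 12883706351) (nat_lit 152) (nat_lit 15004003982) (nat_lit 228) (nat_lit 37808223937) (nat_lit 17) (nat_lit 5) (nat_lit 19) (nat_lit 5) (nat_lit 20) (nat_lit 5) (nat_lit 385) (nat_lit 287) (nat_lit 108)))))) (XT.nd (nat_lit 33072) (nat_lit 0) (nat_lit 12008) (XT.nd (nat_lit 234) (nat_lit 76) (nat_lit 0) (XT.nd (nat_lit 78) (nat_lit 0) (nat_lit 0) (XT.lf (nat_lit 0) (nat_lit 29907415147) (nat_lit 152) (nat_lit 5414797615) (nat_lit 228) (nat_lit 32042162120) (nat_lit 17) (nat_lit 5) (nat_lit 19) (nat_lit 5) (nat_lit 20) (nat_lit 5) (nat_lit 386) (nat_lit 287) (nat_lit 107)) (XT.nd (nat_lit 78) (nat_lit 0) (nat_lit 0) (XT.lf (nat_lit 0) (nat_lit 43019803691) (nat_lit 228) (nat_lit 21688738593) (nat_lit 76) (nat_lit 4373127343)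 (nat_lit 17) (nat_lit 5) (nat_lit 20) (nat_lit 5) (nat_lit 18) (nat_lit 4) (nat_lit 387) (nat_lit 287) (nat_lit 106)) (XT.lf (nat_lit 0) (nat_lit 50999178025) (nat_lit 228) (nat_lit 5505755290) (nat_lit 76) (nat_lit 14344026671) (nat_lit 17) (nat_lit 5) (nat_lit 20) (nat_lit 5) (nat_lit 18) (nat_lit 4) (nat_lit 388) (nat_lit 287) (nat_lit 105)))) (XT.nd (nat_lit 78) (nat_lit 0) (nat_lit 0) (XT.lf (nat_lit 0) (nat_lit 11380250669) (nat_lit 76) (nat_lit 47944400948) (nat_lit 152) (nat_lit 13341418270) (nat_lit 16) (nat_lit 5) (nat_lit 17) (nat_lit 5) (nat_lit 18) (nat_lit 4) (nat_lit 389) (nat_lit 287) (nat_lit 104)) (XT.nd (nat_lit 32682) (nat_lit 0) (nat_lit 12008) (XT.lf (nat_lit 0) (nat_lit 28881207349) (nat_lit 76) (nat_lit 39071638258) (nat_lit 152) (nat_lit 6583261095) (nat_lit 16) (nat_lit 5) (nat_lit 17) (nat_lit 5) (nat_lit 18) (nat_lit 4) (nat_lit 390) (nat_lit 287) (nat_lit 103)) (XT.lf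 (nat_lit 0) (nat_lit 570888591) (nat_lit 0) (nat_lit 570888591) (nat_lit 988) (nat_lit 3803590242) (nat_lit 174) (nat_lit 5) (nat_lit 174) (nat_lit 3) (nat_lit 187) (nat_lit 3) (nat_lit 288) (nat_lit 288) (nat_lit 204))))) (XT.nd (nat_lit 234) (nat_lit 0) (nat_lit 76) (XT.nd (nat_lit 78) (nat_lit 0) (nat_lit 0) (XT.lf (nat_lit 0) (nat_lit 3006099009) (nat_lit 988) (nat_lit 4562402753) (nat_lit 1064) (nat_lit 2448421750) (nat_lit 174) (nat_lit 5) (nat_lit 187) (nat_lit 3) (nat_lit 188) (nat_lit 5) (nat_lit 289) (nat_lit 288) (nat_lit 203)) (XT.nd (nat_lit 78) (nat_lit 0) (nat_lit 0) (XT.lf (nat_lit 0) (nat_lit 3735824049) (nat_lit 988) (nat_lit 275480378) (nat_lit 1064) (nat_lit 6136087749) (nat_lit 174) (nat_lit 5) (nat_lit 187) (nat_lit 3) (nat_lit 188) (nat_lit 5) (nat_lit 290) (nat_lit 288) (nat_lit 202)) (XT.lf (nat_lit 76) (nat_lit 4208656826) (nat_lit 0) (nat_lit 294191007) (nat_lit 1064)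 (nat_lit 5778522589) (nat_lit 175) (nat_lit 5) (nat_lit 174) (nat_lit 5) (nat_lit 188) (nat_lit 5) (nat_lit 291) (nat_lit 288) (nat_lit 201)))) (XT.nd (nat_lit 78) (nat_lit 0) (nat_lit 0) (XT.lf (nat_lit 0) (nat_lit 5305324898) (nat_lit 988) (nat_lit 1634604225) (nat_lit 1064) (nat_lit 3479121663) (nat_lit 175) (nat_lit 5) (nat_lit 188) (nat_lit 5) (nat_lit 189) (nat_lit 5) (nat_lit 292) (nat_lit 288) (nat_lit 200)) (XT.nd (nat_lit 78) (nat_lit 0) (nat_lit 76) (XT.lf (nat_lit 76) (nat_lit 2977980569) (nat_lit 0) (nat_lit 3161801701) (nat_lit 1064) (nat_lit 4420896529) (nat_lit 176) (nat_lit 5) (nat_lit 175) (nat_lit 5) (nat_lit 189) (nat_lit 5) (nat_lit 293) (nat_lit 288) (nat_lit 199)) (XT.lf (nat_lit 0) (nat_lit 6999970359) (nat_lit 988) (nat_lit 2965352462) (nat_lit 1064) (nat_lit 741264753) (nat_lit 176) (nat_lit 5) (nat_lit 189) (nat_lit 5) (nat_lit 190) (nat_lit 5) (nat_lit 294) (nat_lit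 288) (nat_lit 198))))))) (XT.nd (nat_lit 858) (nat_lit 3800) (nat_lit 0) (XT.nd (nat_lit 390) (nat_lit 0) (nat_lit 76) (XT.nd (nat_lit 156) (nat_lit 988) (nat_lit 0) (XT.nd (nat_lit 78) (nat_lit 0) (nat_lit 0) (XT.lf (nat_lit 76) (nat_lit 1779797980) (nat_lit 0) (nat_lit 6132262341) (nat_lit 1064) (nat_lit 2944081696) (nat_lit 177) (nat_lit 5) (nat_lit 176) (nat_lit 5) (nat_lit 190) (nat_lit 5) (nat_lit 295) (nat_lit 288) (nat_lit 197)) (XT.lf (nat_lit 76) (nat_lit 6714087390) (nat_lit 0) (nat_lit 2145568013) (nat_lit 1064) (nat_lit 2150333218) (nat_lit 177) (nat_lit 5) (nat_lit 176) (nat_lit 5) (nat_lit 190) (nat_lit 5) (nat_lit 296) (nat_lit 288) (nat_lit 196))) (XT.nd (nat_lit 78) (nat_lit 1064) (nat_lit 0) (XT.lf (nat_lit 76) (nat_lit 606593299) (nat_lit 0) (nat_lit 9232669661) (nat_lit 1064) (nat_lit 1329128473) (nat_lit 178) (nat_lit 5) (nat_lit 177) (nat_lit 5) (nat_lit 191) (nat_lit 5)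 (nat_lit 297) (nat_lit 288) (nat_lit 195)) (XT.nd (nat_lit 78) (nat_lit 1064) (nat_lit 0) (XT.lf (nat_lit 76) (nat_lit 5708348422) (nat_lit 0) (nat_lit 5183709245) (nat_lit 1064) (nat_lit 438221635) (nat_lit 178) (nat_lit 5) (nat_lit 177) (nat_lit 5) (nat_lit 191) (nat_lit 5) (nat_lit 298) (nat_lit 288) (nat_lit 194)) (XT.lf (nat_lit 0) (nat_lit 449798720) (nat_lit 1064) (nat_lit 552719542) (nat_lit 1140) (nat_lit 10495019297) (nat_lit 163) (nat_lit 5) (nat_lit 177) (nat_lit 5) (nat_lit 178) (nat_lit 5) (nat_lit 299) (nat_lit 288) (nat_lit 193))))) (XT.nd (nat_lit 234) (nat_lit 0) (nat_lit 76) (XT.nd (nat_lit 78) (nat_lit 0) (nat_lit 0) (XT.lf (nat_lit 0) (nat_lit 1413887077) (nat_lit 1064) (nat_lit 6958307530) (nat_lit 1140) (nat_lit 3295784692) (nat_lit 164) (nat_lit 5) (nat_lit 178) (nat_lit 5) (nat_lit 179) (nat_lit 5) (nat_lit 300) (nat_lit 288) (nat_lit 192)) (XT.nd (nat_lit 78) (nat_lit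 0) (nat_lit 76) (XT.lf (nat_lit 0) (nat_lit 2403286528) (nat_lit 1064) (nat_lit 1726447822) (nat_lit 1140) (nat_lit 7713949995) (nat_lit 164) (nat_lit 5) (nat_lit 178) (nat_lit 5) (nat_lit 179) (nat_lit 5) (nat_lit 301) (nat_lit 288) (nat_lit 191)) (XT.lf (nat_lit 0) (nat_lit 3442227199) (nat_lit 1064) (nat_lit 8305860503) (nat_lit 1140) (nat_lit 276017554) (nat_lit 165) (nat_lit 5) (nat_lit 179) (nat_lit 5) (nat_lit 180) (nat_lit 5) (nat_lit 302) (nat_lit 288) (nat_lit 190)))) (XT.nd (nat_lit 78) (nat_lit 0) (nat_lit 0) (XT.lf (nat_lit 0) (nat_lit 4552666961) (nat_lit 1064) (nat_lit 2903245711) (nat_lit 1140) (nat_lit 4752855507) (nat_lit 165) (nat_lit 5) (nat_lit 179) (nat_lit 5) (nat_lit 180) (nat_lit 5) (nat_lit 303) (nat_lit 288) (nat_lit 189)) (XT.nd (nat_lit 78) (nat_lit 0) (nat_lit 76) (XT.lf (nat_lit 76) (nat_lit 2700119639) (nat_lit 0) (nat_lit 3004620590) (nat_lit 1140) (nat_lit 6694019320)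 (nat_lit 166) (nat_lit 5) (nat_lit 165) (nat_lit 5) (nat_lit 180) (nat_lit 5) (nat_lit 304) (nat_lit 288) (nat_lit 188)) (XT.lf (nat_lit 0) (nat_lit 6918950774) (nat_lit 1064) (nat_lit 4092418385) (nat_lit 76) (nat_lit 1582291303) (nat_lit 166) (nat_lit 5) (nat_lit 180) (nat_lit 5) (nat_lit 167) (nat_lit 5) (nat_lit 305) (nat_lit 288) (nat_lit 187)))))) (XT.nd (nat_lit 468) (nat_lit 1520) (nat_lit 0) (XT.nd (nat_lit 234) (nat_lit 608) (nat_lit 0) (XT.nd (nat_lit 78) (nat_lit 836) (nat_lit 0) (XT.lf (nat_lit 0) (nat_lit 1670799071) (nat_lit 1064) (nat_lit 6527877416) (nat_lit 1140) (nat_lit 4594895225) (nat_lit 152) (nat_lit 5) (nat_lit 166) (nat_lit 5) (nat_lit 167) (nat_lit 5) (nat_lit 306) (nat_lit 288) (nat_lit 186)) (XT.nd (nat_lit 78) (nat_lit 836) (nat_lit 0) (XT.lf (nat_lit 0) (nat_lit 7676896011) (nat_lit 1064) (nat_lit 1864856074) (nat_lit 1140) (nat_lit 3457014399) (nat_lit 152) (nat_lit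 5) (nat_lit 166) (nat_lit 5) (nat_lit 167) (nat_lit 5) (nat_lit 307) (nat_lit 288) (nat_lit 185)) (XT.lf (nat_lit 0) (nat_lit 622935979) (nat_lit 836) (nat_lit 10320546788) (nat_lit 912) (nat_lit 2266117359) (nat_lit 141) (nat_lit 5) (nat_lit 152) (nat_lit 5) (nat_lit 153) (nat_lit 5) (nat_lit 308) (nat_lit 288) (nat_lit 184)))) (XT.nd (nat_lit 78) (nat_lit 608) (nat_lit 0) (XT.lf (nat_lit 0) (nat_lit 6822449860) (nat_lit 836) (nat_lit 5621299815) (nat_lit 912) (nat_lit 981347496) (nat_lit 141) (nat_lit 5) (nat_lit 152) (nat_lit 5) (nat_lit 153) (nat_lit 5) (nat_lit 309) (nat_lit 288) (nat_lit 183)) (XT.nd (nat_lit 78) (nat_lit 532) (nat_lit 0) (XT.lf (nat_lit 0) (nat_lit 320025314) (nat_lit 912) (nat_lit 456225723) (nat_lit 76) (nat_lit 12871198523) (nat_lit 140) (nat_lit 5) (nat_lit 152) (nat_lit 5) (nat_lit 141) (nat_lit 5) (nat_lit 310) (nat_lit 288) (nat_lit 182)) (XT.lf (nat_lit 0) (nat_lit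 1724446420) (nat_lit 608) (nat_lit 7948219763) (nat_lit 76) (nat_lit 4201033041) (nat_lit 133) (nat_lit 5) (nat_lit 141) (nat_lit 5) (nat_lit 134) (nat_lit 5) (nat_lit 311) (nat_lit 288) (nat_lit 181))))) (XT.nd (nat_lit 234) (nat_lit 988) (nat_lit 0) (XT.nd (nat_lit 78) (nat_lit 532) (nat_lit 0) (XT.lf (nat_lit 0) (nat_lit 3168831617) (nat_lit 608) (nat_lit 1620112204) (nat_lit 76) (nat_lit 9317886865) (nat_lit 133) (nat_lit 5) (nat_lit 141) (nat_lit 5) (nat_lit 134) (nat_lit 5) (nat_lit 312) (nat_lit 288) (nat_lit 180)) (XT.nd (nat_lit 78) (nat_lit 0) (nat_lit 0) (XT.lf (nat_lit 0) (nat_lit 4693151479) (nat_lit 608) (nat_lit 9367091410) (nat_lit 76) (nat_lit 285643509) (nat_lit 126) (nat_lit 5) (nat_lit 134) (nat_lit 5) (nat_lit 127) (nat_lit 5) (nat_lit 313) (nat_lit 288) (nat_lit 179)) (XT.lf (nat_lit 0) (nat_lit 6313342266) (nat_lit 608) (nat_lit 2844005745) (nat_lit 76) (nat_lit 5433289104)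 (nat_lit 126) (nat_lit 5) (nat_lit 134) (nat_lit 5) (nat_lit 127) (nat_lit 5) (nat_lit 314) (nat_lit 288) (nat_lit 178)))) (XT.nd (nat_lit 78) (nat_lit 532) (nat_lit 0) (XT.lf (nat_lit 0) (nat_lit 3938336624) (nat_lit 456) (nat_lit 4068265780) (nat_lit 532) (nat_lit 6835420808) (nat_lit 120) (nat_lit 5) (nat_lit 126) (nat_lit 5) (nat_lit 127) (nat_lit 5) (nat_lit 315) (nat_lit 288) (nat_lit 177)) (XT.nd (nat_lit 78) (nat_lit 532) (nat_lit 0) (XT.lf (nat_lit 0) (nat_lit 9777813192) (nat_lit 532) (nat_lit 4142781752) (nat_lit 76) (nat_lit 1179567354) (nat_lit 120) (nat_lit 5) (nat_lit 127) (nat_lit 5) (nat_lit 121) (nat_lit 5) (nat_lit 316) (nat_lit 288) (nat_lit 176)) (XT.lf (nat_lit 0) (nat_lit 2822567881) (nat_lit 532) (nat_lit 8834256299) (nat_lit 608) (nat_lit 3707606692) (nat_lit 113) (nat_lit 5) (nat_lit 120) (nat_lit 5) (nat_lit 121) (nat_lit 5) (nat_lit 317) (nat_lit 288) (nat_lit 175))))))))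
noncomputable def xc183 : XT := (XT.nd (nat_lit 1794) (nat_lit 2204) (nat_lit 0) (XT.nd (nat_lit 858) (nat_lit 1672) (nat_lit 0) (XT.nd (nat_lit 390) (nat_lit 1216) (nat_lit 0) (XT.nd (nat_lit 156) (nat_lit 532) (nat_lit 0) (XT.nd (nat_lit 78) (nat_lit 456) (nat_lit 0) (XT.lf (nat_lit 0) (nat_lit 10068749241) (nat_lit 532) (nat_lit 3552787848) (nat_lit 608) (nat_lit 2014234965) (nat_lit 113) (nat_lit 5) (nat_lit 120) (nat_lit 5) (nat_lit 121) (nat_lit 5) (nat_lit 318) (nat_lit 288) (nat_lit 174)) (XT.lf (nat_lit 0) (nat_lit 1617429870) (nat_lit 456) (nat_lit 14049306074) (nat_lit 532) (nat_lit 247894975) (nat_lit 107) (nat_lit 5) (nat_lit 113) (nat_lit 5) (nat_lit 114) (nat_lit 5) (nat_lit 319) (nat_lit 288) (nat_lit 173))) (XT.nd (nat_lit 78) (nat_lit 456) (nat_lit 0) (XT.lf (nat_lit 0) (nat_lit 1620665049) (nat_lit 532) (nat_lit 7132661462) (nat_lit 76) (nat_lit 7445701463) (nat_lit 106) (nat_lit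 5) (nat_lit 113) (nat_lit 5) (nat_lit 107) (nat_lit 5) (nat_lit 320) (nat_lit 288) (nat_lit 172)) (XT.nd (nat_lit 78) (nat_lit 0) (nat_lit 0) (XT.lf (nat_lit 0) (nat_lit 236163720) (nat_lit 456) (nat_lit 3294702434) (nat_lit 532) (nat_lit 12961321920) (nat_lit 100) (nat_lit 5) (nat_lit 106) (nat_lit 5) (nat_lit 107) (nat_lit 5) (nat_lit 321) (nat_lit 288) (nat_lit 171)) (XT.lf (nat_lit 0) (nat_lit 5581991490) (nat_lit 532) (nat_lit 8855837428) (nat_lit 76) (nat_lit 2353826645) (nat_lit 100) (nat_lit 5) (nat_lit 107) (nat_lit 5) (nat_lit 101) (nat_lit 5) (nat_lit 322) (nat_lit 288) (nat_lit 170))))) (XT.nd (nat_lit 234) (nat_lit 836) (nat_lit 0) (XT.nd (nat_lit 78) (nat_lit 380) (nat_lit 0) (XT.lf (nat_lit 0) (nat_lit 7716110322) (nat_lit 532) (nat_lit 1278919338) (nat_lit 76) (nat_lit 8104454141) (nat_lit 100) (nat_lit 5) (nat_lit 107) (nat_lit 5) (nat_lit 101) (nat_lit 5) (nat_lit 323) (nat_lit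 288) (nat_lit 169)) (XT.nd (nat_lit 78) (nat_lit 0) (nat_lit 0) (XT.lf (nat_lit 0) (nat_lit 6642643111) (nat_lit 380) (nat_lit 3324626756) (nat_lit 456) (nat_lit 7447706423) (nat_lit 95) (nat_lit 5) (nat_lit 100) (nat_lit 5) (nat_lit 101) (nat_lit 5) (nat_lit 324) (nat_lit 288) (nat_lit 168)) (XT.lf (nat_lit 0) (nat_lit 12312538897) (nat_lit 456) (nat_lit 2948277626) (nat_lit 76) (nat_lit 2478339129) (nat_lit 95) (nat_lit 5) (nat_lit 101) (nat_lit 5) (nat_lit 96) (nat_lit 5) (nat_lit 325) (nat_lit 288) (nat_lit 167)))) (XT.nd (nat_lit 78) (nat_lit 456) (nat_lit 0) (XT.lf (nat_lit 0) (nat_lit 5166270368) (nat_lit 380) (nat_lit 9634132325) (nat_lit 456) (nat_lit 3270509377) (nat_lit 90) (nat_lit 5) (nat_lit 95) (nat_lit 5) (nat_lit 96) (nat_lit 5) (nat_lit 326) (nat_lit 288) (nat_lit 166)) (XT.nd (nat_lit 78) (nat_lit 456) (nat_lit 0) (XT.lf (nat_lit 0) (nat_lit 13572685802) (nat_lit 380) (nat_lit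 3809832481) (nat_lit 456) (nat_lit 1029532648) (nat_lit 90) (nat_lit 5) (nat_lit 95) (nat_lit 5) (nat_lit 96) (nat_lit 5) (nat_lit 327) (nat_lit 288) (nat_lit 165)) (XT.lf (nat_lit 0) (nat_lit 1298990205) (nat_lit 456) (nat_lit 15271597399) (nat_lit 76) (nat_lit 2191126745) (nat_lit 84) (nat_lit 5) (nat_lit 90) (nat_lit 5) (nat_lit 85) (nat_lit 5) (nat_lit 328) (nat_lit 288) (nat_lit 164)))))) (XT.nd (nat_lit 468) (nat_lit 988) (nat_lit 0) (XT.nd (nat_lit 234) (nat_lit 304) (nat_lit 0) (XT.nd (nat_lit 78) (nat_lit 380) (nat_lit 0) (XT.lf (nat_lit 0) (nat_lit 3753932815) (nat_lit 456) (nat_lit 7012161465) (nat_lit 76) (nat_lit 8353166572) (nat_lit 84) (nat_lit 5) (nat_lit 90) (nat_lit 5) (nat_lit 85) (nat_lit 5) (nat_lit 329) (nat_lit 288) (nat_lit 163)) (XT.nd (nat_lit 78) (nat_lit 0) (nat_lit 0) (XT.lf (nat_lit 0) (nat_lit 1512883010) (nat_lit 380) (nat_lit 4774652964) (nat_lit 456) (nat_lit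 13199863601) (nat_lit 79) (nat_lit 5) (nat_lit 84) (nat_lit 5) (nat_lit 85) (nat_lit 5) (nat_lit 330) (nat_lit 288) (nat_lit 162)) (XT.lf (nat_lit 0) (nat_lit 8972696164) (nat_lit 456) (nat_lit 9453019328) (nat_lit 76) (nat_lit 1438616225) (nat_lit 79) (nat_lit 5) (nat_lit 85) (nat_lit 5) (nat_lit 80) (nat_lit 5) (nat_lit 331) (nat_lit 288) (nat_lit 161)))) (XT.nd (nat_lit 78) (nat_lit 304) (nat_lit 0) (XT.lf (nat_lit 0) (nat_lit 11776572772) (nat_lit 456) (nat_lit 734662615) (nat_lit 76) (nat_lit 7740206853) (nat_lit 79) (nat_lit 5) (nat_lit 85) (nat_lit 5) (nat_lit 80) (nat_lit 5) (nat_lit 332) (nat_lit 288) (nat_lit 160)) (XT.nd (nat_lit 78) (nat_lit 0) (nat_lit 0) (XT.lf (nat_lit 0) (nat_lit 8397942546) (nat_lit 304) (nat_lit 6338502520) (nat_lit 380) (nat_lit 5911579455) (nat_lit 75) (nat_lit 5) (nat_lit 79) (nat_lit 5) (nat_lit 80) (nat_lit 5) (nat_lit 333) (nat_lit 288) (nat_lit 159))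 (XT.lf (nat_lit 0) (nat_lit 17784073959) (nat_lit 380) (nat_lit 3248275286) (nat_lit 76) (nat_lit 24200601) (nat_lit 75) (nat_lit 5) (nat_lit 80) (nat_lit 5) (nat_lit 76) (nat_lit 5) (nat_lit 334) (nat_lit 288) (nat_lit 158))))) (XT.nd (nat_lit 234) (nat_lit 304) (nat_lit 0) (XT.nd (nat_lit 78) (nat_lit 380) (nat_lit 0) (XT.lf (nat_lit 0) (nat_lit 6068252048) (nat_lit 304) (nat_lit 14967504526) (nat_lit 380) (nat_lit 438209582) (nat_lit 71) (nat_lit 5) (nat_lit 75) (nat_lit 5) (nat_lit 76) (nat_lit 5) (nat_lit 335) (nat_lit 288) (nat_lit 157)) (XT.nd (nat_lit 78) (nat_lit 304) (nat_lit 0) (XT.lf (nat_lit 0) (nat_lit 2457377674) (nat_lit 380) (nat_lit 6207296251) (nat_lit 76) (nat_lit 13237787471) (nat_lit 70) (nat_lit 5) (nat_lit 75) (nat_lit 5) (nat_lit 71) (nat_lit 5) (nat_lit 336) (nat_lit 288) (nat_lit 156)) (XT.lf (nat_lit 0) (nat_lit 3316716195) (nat_lit 304) (nat_lit 2138018153) (nat_lit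 380) (nat_lit 16888248489) (nat_lit 66) (nat_lit 5) (nat_lit 70) (nat_lit 5) (nat_lit 71) (nat_lit 5) (nat_lit 337) (nat_lit 288) (nat_lit 155)))) (XT.nd (nat_lit 78) (nat_lit 304) (nat_lit 0) (XT.lf (nat_lit 0) (nat_lit 8641320187) (nat_lit 380) (nat_lit 9596699569) (nat_lit 76) (nat_lit 4555733324) (nat_lit 66) (nat_lit 5) (nat_lit 71) (nat_lit 5) (nat_lit 67) (nat_lit 5) (nat_lit 338) (nat_lit 288) (nat_lit 154)) (XT.nd (nat_lit 78) (nat_lit 0) (nat_lit 0) (XT.lf (nat_lit 0) (nat_lit 85711400) (nat_lit 304) (nat_lit 11851957342) (nat_lit 380) (nat_lit 11319964785) (nat_lit 62) (nat_lit 5) (nat_lit 66) (nat_lit 5) (nat_lit 67) (nat_lit 5) (nat_lit 339) (nat_lit 288) (nat_lit 153)) (XT.lf (nat_lit 0) (nat_lit 10244873879) (nat_lit 304) (nat_lit 5177242047) (nat_lit 380) (nat_lit 8310649917) (nat_lit 62) (nat_lit 5) (nat_lit 66) (nat_lit 5) (nat_lit 67) (nat_lit 5) (nat_lit 340) (nat_lit 288)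 (nat_lit 152))))))) (XT.nd (nat_lit 936) (nat_lit 836) (nat_lit 0) (XT.nd (nat_lit 468) (nat_lit 760) (nat_lit 0) (XT.nd (nat_lit 234) (nat_lit 304) (nat_lit 0) (XT.nd (nat_lit 78) (nat_lit 304) (nat_lit 0) (XT.lf (nat_lit 0) (nat_lit 19019914972) (nat_lit 380) (nat_lit 3540009948) (nat_lit 76) (nat_lit 1661974014) (nat_lit 62) (nat_lit 5) (nat_lit 67) (nat_lit 5) (nat_lit 63) (nat_lit 5) (nat_lit 341) (nat_lit 288) (nat_lit 151)) (XT.nd (nat_lit 78) (nat_lit 76) (nat_lit 0) (XT.lf (nat_lit 0) (nat_lit 6777249111) (nat_lit 228) (nat_lit 16057523216) (nat_lit 304) (nat_lit 1887670990) (nat_lit 59) (nat_lit 5) (nat_lit 62) (nat_lit 5) (nat_lit 63) (nat_lit 5) (nat_lit 342) (nat_lit 288) (nat_lit 150)) (XT.lf (nat_lit 0) (nat_lit 1525145787) (nat_lit 304) (nat_lit 7785466664) (nat_lit 76) (nat_lit 15926096283) (nat_lit 58) (nat_lit 5) (nat_lit 62) (nat_lit 5) (nat_lit 59) (nat_lit 5) (nat_lit 343)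 (nat_lit 288) (nat_lit 149)))) (XT.nd (nat_lit 78) (nat_lit 0) (nat_lit 0) (XT.lf (nat_lit 0) (nat_lit 2703304132) (nat_lit 304) (nat_lit 2318051996) (nat_lit 380) (nat_lit 20743926902) (nat_lit 54) (nat_lit 5) (nat_lit 58) (nat_lit 5) (nat_lit 59) (nat_lit 5) (nat_lit 344) (nat_lit 288) (nat_lit 148)) (XT.nd (nat_lit 78) (nat_lit 0) (nat_lit 0) (XT.lf (nat_lit 0) (nat_lit 8741848189) (nat_lit 380) (nat_lit 12698657184) (nat_lit 76) (nat_lit 4865637118) (nat_lit 54) (nat_lit 5) (nat_lit 59) (nat_lit 5) (nat_lit 55) (nat_lit 5) (nat_lit 345) (nat_lit 288) (nat_lit 147)) (XT.lf (nat_lit 0) (nat_lit 12590156824) (nat_lit 380) (nat_lit 2057002868) (nat_lit 76) (nat_lit 12215591504) (nat_lit 54) (nat_lit 5) (nat_lit 59) (nat_lit 5) (nat_lit 55) (nat_lit 5) (nat_lit 346) (nat_lit 288) (nat_lit 146))))) (XT.nd (nat_lit 234) (nat_lit 304) (nat_lit 0) (XT.nd (nat_lit 78) (nat_lit 228) (nat_lit 0) (XT.lf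 (nat_lit 0) (nat_lit 9071584402) (nat_lit 228) (nat_lit 7562979316) (nat_lit 304) (nat_lit 10799084210) (nat_lit 51) (nat_lit 5) (nat_lit 54) (nat_lit 5) (nat_lit 55) (nat_lit 5) (nat_lit 347) (nat_lit 288) (nat_lit 145)) (XT.nd (nat_lit 78) (nat_lit 228) (nat_lit 0) (XT.lf (nat_lit 0) (nat_lit 20566951403) (nat_lit 228) (nat_lit 247672484) (nat_lit 304) (nat_lit 7206627011) (nat_lit 51) (nat_lit 5) (nat_lit 54) (nat_lit 5) (nat_lit 55) (nat_lit 5) (nat_lit 348) (nat_lit 288) (nat_lit 144)) (XT.lf (nat_lit 0) (nat_lit 3775170946) (nat_lit 228) (nat_lit 21444963348) (nat_lit 304) (nat_lit 3403354915) (nat_lit 48) (nat_lit 5) (nat_lit 51) (nat_lit 5) (nat_lit 52) (nat_lit 5) (nat_lit 349) (nat_lit 288) (nat_lit 143)))) (XT.nd (nat_lit 78) (nat_lit 228) (nat_lit 0) (XT.lf (nat_lit 0) (nat_lit 576194044) (nat_lit 304) (nat_lit 13764532507) (nat_lit 76) (nat_lit 14900761824) (nat_lit 47) (nat_lit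 5) (nat_lit 51) (nat_lit 5) (nat_lit 48) (nat_lit 5) (nat_lit 350) (nat_lit 288) (nat_lit 142)) (XT.nd (nat_lit 78) (nat_lit 228) (nat_lit 0) (XT.lf (nat_lit 0) (nat_lit 4600645503) (nat_lit 304) (nat_lit 2390850990) (nat_lit 76) (nat_lit 22885710491) (nat_lit 47) (nat_lit 5) (nat_lit 51) (nat_lit 5) (nat_lit 48) (nat_lit 5) (nat_lit 351) (nat_lit 288) (nat_lit 141)) (XT.lf (nat_lit 0) (nat_lit 8837690760) (nat_lit 304) (nat_lit 21035104076) (nat_lit 76) (nat_lit 656454242) (nat_lit 44) (nat_lit 5) (nat_lit 48) (nat_lit 5) (nat_lit 45) (nat_lit 5) (nat_lit 352) (nat_lit 288) (nat_lit 140)))))) (XT.nd (nat_lit 468) (nat_lit 380) (nat_lit 0) (XT.nd (nat_lit 234) (nat_lit 228) (nat_lit 0) (XT.nd (nat_lit 78) (nat_lit 228) (nat_lit 0) (XT.lf (nat_lit 0) (nat_lit 13289612160) (nat_lit 304) (nat_lit 9493620768) (nat_lit 76) (nat_lit 8414994073) (nat_lit 44) (nat_lit 5) (nat_lit 48) (nat_lit 5) (nat_lit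 45) (nat_lit 5) (nat_lit 353) (nat_lit 288) (nat_lit 139)) (XT.nd (nat_lit 78) (nat_lit 0) (nat_lit 0) (XT.lf (nat_lit 0) (nat_lit 2433108247) (nat_lit 228) (nat_lit 15459701676) (nat_lit 304) (nat_lit 13993940071) (nat_lit 41) (nat_lit 5) (nat_lit 44) (nat_lit 5) (nat_lit 45) (nat_lit 5) (nat_lit 354) (nat_lit 288) (nat_lit 138)) (XT.lf (nat_lit 0) (nat_lit 14903854668) (nat_lit 228) (nat_lit 7820530548) (nat_lit 304) (nat_lit 9868842088) (nat_lit 41) (nat_lit 5) (nat_lit 44) (nat_lit 5) (nat_lit 45) (nat_lit 5) (nat_lit 355) (nat_lit 288) (nat_lit 137)))) (XT.nd (nat_lit 78) (nat_lit 228) (nat_lit 0) (XT.lf (nat_lit 0) (nat_lit 27695918512) (nat_lit 304) (nat_lit 5580928312) (nat_lit 76) (nat_lit 44208662) (nat_lit 41) (nat_lit 5) (nat_lit 45) (nat_lit 5) (nat_lit 42) (nat_lit 5) (nat_lit 356) (nat_lit 288) (nat_lit 136)) (XT.nd (nat_lit 78) (nat_lit 76) (nat_lit 0) (XT.lf (nat_lit 0) (nat_lit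 6940725221) (nat_lit 152) (nat_lit 26014731891) (nat_lit 228) (nat_lit 1111102295) (nat_lit 39) (nat_lit 5) (nat_lit 41) (nat_lit 5) (nat_lit 42) (nat_lit 5) (nat_lit 357) (nat_lit 288) (nat_lit 135)) (XT.lf (nat_lit 0) (nat_lit 3520951118) (nat_lit 228) (nat_lit 14922960557) (nat_lit 76) (nat_lit 16387953363) (nat_lit 38) (nat_lit 5) (nat_lit 41) (nat_lit 5) (nat_lit 39) (nat_lit 5) (nat_lit 358) (nat_lit 288) (nat_lit 134))))) (XT.nd (nat_lit 234) (nat_lit 152) (nat_lit 0) (XT.nd (nat_lit 78) (nat_lit 228) (nat_lit 0) (XT.lf (nat_lit 0) (nat_lit 8264516888) (nat_lit 228) (nat_lit 2372850201) (nat_lit 76) (nat_lit 24982592340) (nat_lit 38) (nat_lit 5) (nat_lit 41) (nat_lit 5) (nat_lit 39) (nat_lit 5) (nat_lit 359) (nat_lit 288) (nat_lit 133)) (XT.nd (nat_lit 78) (nat_lit 0) (nat_lit 0) (XT.lf (nat_lit 0) (nat_lit 10756032528) (nat_lit 228) (nat_lit 2492782523) (nat_lit 304) (nat_lit 23179934768)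 (nat_lit 35) (nat_lit 5) (nat_lit 38) (nat_lit 5) (nat_lit 39) (nat_lit 5) (nat_lit 360) (nat_lit 288) (nat_lit 132)) (XT.lf (nat_lit 0) (nat_lit 18458596398) (nat_lit 304) (nat_lit 12998249120) (nat_lit 76) (nat_lit 5802685531) (nat_lit 35) (nat_lit 5) (nat_lit 39) (nat_lit 5) (nat_lit 36) (nat_lit 5) (nat_lit 361) (nat_lit 288) (nat_lit 131)))) (XT.nd (nat_lit 78) (nat_lit 0) (nat_lit 0) (XT.lf (nat_lit 0) (nat_lit 24807289) (nat_lit 152) (nat_lit 23820005279) (nat_lit 228) (nat_lit 14269824493) (nat_lit 33) (nat_lit 5) (nat_lit 35) (nat_lit 5) (nat_lit 36) (nat_lit 5) (nat_lit 362) (nat_lit 288) (nat_lit 130)) (XT.nd (nat_lit 78) (nat_lit 0) (nat_lit 0) (XT.lf (nat_lit 0) (nat_lit 13697630912) (nat_lit 152) (nat_lit 15821531315) (nat_lit 228) (nat_lit 9472443043) (nat_lit 33) (nat_lit 5) (nat_lit 35) (nat_lit 5) (nat_lit 36) (nat_lit 5) (nat_lit 363) (nat_lit 288) (nat_lit 129)) (XT.lf (nat_lit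 0) (nat_lit 27773478231) (nat_lit 152) (nat_lit 7585691498) (nat_lit 228) (nat_lit 4535855243) (nat_lit 33) (nat_lit 5) (nat_lit 35) (nat_lit 5) (nat_lit 36) (nat_lit 5) (nat_lit 364) (nat_lit 288) (nat_lit 128))))))))
noncomputable def xc184 : XT := (XT.nd (nat_lit 1794) (nat_lit 0) (nat_lit 0) (XT.nd (nat_lit 858) (nat_lit 456) (nat_lit 0) (XT.nd (nat_lit 390) (nat_lit 380) (nat_lit 0) (XT.nd (nat_lit 156) (nat_lit 152) (nat_lit 0) (XT.nd (nat_lit 78) (nat_lit 0) (nat_lit 0) (XT.lf (nat_lit 0) (nat_lit 556479766) (nat_lit 228) (nat_lit 39371633059) (nat_lit 76) (nat_lit 896730357) (nat_lit 30) (nat_lit 5) (nat_lit 33) (nat_lit 5) (nat_lit 31) (nat_lit 5) (nat_lit 365) (nat_lit 288) (nat_lit 127)) (XT.lf (nat_lit 0) (nat_lit 5904690943) (nat_lit 228) (nat_lit 26223512208) (nat_lit 76) (nat_lit 9647182155) (nat_lit 30) (nat_lit 5) (nat_lit 33) (nat_lit 5) (nat_lit 31) (nat_lit 5) (nat_lit 366)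 (nat_lit 288) (nat_lit 126))) (XT.nd (nat_lit 78) (nat_lit 152) (nat_lit 0) (XT.lf (nat_lit 0) (nat_lit 11409028733) (nat_lit 228) (nat_lit 12687831878) (nat_lit 76) (nat_lit 18657717355) (nat_lit 30) (nat_lit 5) (nat_lit 33) (nat_lit 5) (nat_lit 31) (nat_lit 5) (nat_lit 367) (nat_lit 288) (nat_lit 125)) (XT.nd (nat_lit 78) (nat_lit 0) (nat_lit 0) (XT.lf (nat_lit 0) (nat_lit 1272057650) (nat_lit 152) (nat_lit 15814472896) (nat_lit 228) (nat_lit 26676379386) (nat_lit 28) (nat_lit 5) (nat_lit 30) (nat_lit 5) (nat_lit 31) (nat_lit 5) (nat_lit 368) (nat_lit 288) (nat_lit 124)) (XT.lf (nat_lit 0) (nat_lit 15904213868) (nat_lit 152) (nat_lit 7154130400) (nat_lit 228) (nat_lit 21739432395) (nat_lit 28) (nat_lit 5) (nat_lit 30) (nat_lit 5) (nat_lit 31) (nat_lit 5) (nat_lit 369) (nat_lit 288) (nat_lit 123))))) (XT.nd (nat_lit 234) (nat_lit 228) (nat_lit 0) (XT.nd (nat_lit 78) (nat_lit 152) (nat_lit 0)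 (XT.lf (nat_lit 0) (nat_lit 29222250395) (nat_lit 228) (nat_lit 14911857622) (nat_lit 76) (nat_lit 1729197521) (nat_lit 28) (nat_lit 5) (nat_lit 31) (nat_lit 5) (nat_lit 29) (nat_lit 5) (nat_lit 370) (nat_lit 288) (nat_lit 122)) (XT.nd (nat_lit 78) (nat_lit 152) (nat_lit 0) (XT.lf (nat_lit 0) (nat_lit 35637986201) (nat_lit 228) (nat_lit 587871075) (nat_lit 76) (nat_lit 10732939787) (nat_lit 28) (nat_lit 5) (nat_lit 31) (nat_lit 5) (nat_lit 29) (nat_lit 5) (nat_lit 371) (nat_lit 288) (nat_lit 121)) (XT.lf (nat_lit 0) (nat_lit 14441488280) (nat_lit 152) (nat_lit 27939719930) (nat_lit 228) (nat_lit 5701898735) (nat_lit 26) (nat_lit 5) (nat_lit 28) (nat_lit 5) (nat_lit 29) (nat_lit 5) (nat_lit 372) (nat_lit 288) (nat_lit 120)))) (XT.nd (nat_lit 78) (nat_lit 152) (nat_lit 0) (XT.lf (nat_lit 0) (nat_lit 86110888) (nat_lit 228) (nat_lit 19314241526) (nat_lit 76) (nat_lit 29840706835) (nat_lit 25) (nat_lit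 5) (nat_lit 28) (nat_lit 5) (nat_lit 26) (nat_lit 5) (nat_lit 373) (nat_lit 288) (nat_lit 119)) (XT.nd (nat_lit 78) (nat_lit 152) (nat_lit 0) (XT.lf (nat_lit 0) (nat_lit 5929473818) (nat_lit 228) (nat_lit 4619489026) (nat_lit 76) (nat_lit 39883207871) (nat_lit 25) (nat_lit 5) (nat_lit 28) (nat_lit 5) (nat_lit 26) (nat_lit 5) (nat_lit 374) (nat_lit 288) (nat_lit 118)) (XT.lf (nat_lit 0) (nat_lit 10719464407) (nat_lit 152) (nat_lit 1328138128) (nat_lit 228) (nat_lit 39608432630) (nat_lit 23) (nat_lit 5) (nat_lit 25) (nat_lit 5) (nat_lit 26) (nat_lit 5) (nat_lit 375) (nat_lit 288) (nat_lit 117)))))) (XT.nd (nat_lit 468) (nat_lit 304) (nat_lit 0) (XT.nd (nat_lit 234) (nat_lit 0) (nat_lit 0) (XT.nd (nat_lit 78) (nat_lit 152) (nat_lit 0) (XT.lf (nat_lit 0) (nat_lit 18471363393) (nat_lit 228) (nat_lit 26386772804) (nat_lit 76) (nat_lit 8054820185) (nat_lit 23) (nat_lit 5) (nat_lit 26) (nat_lit 5) (nat_lit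 24) (nat_lit 5) (nat_lit 376) (nat_lit 288) (nat_lit 116)) (XT.nd (nat_lit 78) (nat_lit 152) (nat_lit 0) (XT.lf (nat_lit 0) (nat_lit 25097540569) (nat_lit 228) (nat_lit 11419308321) (nat_lit 76) (nat_lit 17690448622) (nat_lit 23) (nat_lit 5) (nat_lit 26) (nat_lit 5) (nat_lit 24) (nat_lit 5) (nat_lit 377) (nat_lit 288) (nat_lit 115)) (XT.lf (nat_lit 0) (nat_lit 4071109952) (nat_lit 152) (nat_lit 27887181098) (nat_lit 228) (nat_lit 23581107469) (nat_lit 21) (nat_lit 5) (nat_lit 23) (nat_lit 5) (nat_lit 24) (nat_lit 5) (nat_lit 378) (nat_lit 288) (nat_lit 114)))) (XT.nd (nat_lit 78) (nat_lit 0) (nat_lit 0) (XT.lf (nat_lit 0) (nat_lit 20254867280) (nat_lit 152) (nat_lit 18882008371) (nat_lit 228) (nat_lit 17771229745) (nat_lit 21) (nat_lit 5) (nat_lit 23) (nat_lit 5) (nat_lit 24) (nat_lit 5) (nat_lit 379) (nat_lit 288) (nat_lit 113)) (XT.nd (nat_lit 78) (nat_lit 0) (nat_lit 0) (XT.lf (nat_lit 0)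 (nat_lit 36918838180) (nat_lit 152) (nat_lit 9608774736) (nat_lit 228) (nat_lit 11790359802) (nat_lit 21) (nat_lit 5) (nat_lit 23) (nat_lit 5) (nat_lit 24) (nat_lit 5) (nat_lit 380) (nat_lit 288) (nat_lit 112)) (XT.lf (nat_lit 0) (nat_lit 54077583405) (nat_lit 152) (nat_lit 59377367) (nat_lit 228) (nat_lit 5633271637) (nat_lit 21) (nat_lit 5) (nat_lit 23) (nat_lit 5) (nat_lit 24) (nat_lit 5) (nat_lit 381) (nat_lit 288) (nat_lit 111))))) (XT.nd (nat_lit 234) (nat_lit 152) (nat_lit 0) (XT.nd (nat_lit 78) (nat_lit 0) (nat_lit 0) (XT.lf (nat_lit 0) (nat_lit 889370095) (nat_lit 152) (nat_lit 50676313988) (nat_lit 76) (nat_lit 9694334310) (nat_lit 19) (nat_lit 5) (nat_lit 21) (nat_lit 5) (nat_lit 20) (nat_lit 5) (nat_lit 382) (nat_lit 288) (nat_lit 110)) (XT.nd (nat_lit 78) (nat_lit 0) (nat_lit 0) (XT.lf (nat_lit 0) (nat_lit 7550077475) (nat_lit 152) (nat_lit 35389746205) (nat_lit 76) (nat_lit 19851335487)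 (nat_lit 19) (nat_lit 5) (nat_lit 21) (nat_lit 5) (nat_lit 20) (nat_lit 5) (nat_lit 383) (nat_lit 288) (nat_lit 109)) (XT.lf (nat_lit 0) (nat_lit 14407662324) (nat_lit 152) (nat_lit 19649516257) (nat_lit 76) (nat_lit 30311146566) (nat_lit 19) (nat_lit 5) (nat_lit 21) (nat_lit 5) (nat_lit 20) (nat_lit 5) (nat_lit 384) (nat_lit 288) (nat_lit 108)))) (XT.nd (nat_lit 78) (nat_lit 152) (nat_lit 0) (XT.lf (nat_lit 0) (nat_lit 21468116707) (nat_lit 152) (nat_lit 3441870543) (nat_lit 76) (nat_lit 41082907188) (nat_lit 19) (nat_lit 5) (nat_lit 21) (nat_lit 5) (nat_lit 20) (nat_lit 5) (nat_lit 385) (nat_lit 288) (nat_lit 107)) (XT.nd (nat_lit 78) (nat_lit 0) (nat_lit 0) (XT.lf (nat_lit 0) (nat_lit 13511001255) (nat_lit 152) (nat_lit 15356484707) (nat_lit 228) (nat_lit 38794904324) (nat_lit 17) (nat_lit 5) (nat_lit 19) (nat_lit 5) (nat_lit 20) (nat_lit 5) (nat_lit 386) (nat_lit 288) (nat_lit 106)) (XT.lf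 (nat_lit 0) (nat_lit 31038408198) (nat_lit 152) (nat_lit 5482446016) (nat_lit 228) (nat_lit 32860158701) (nat_lit 17) (nat_lit 5) (nat_lit 19) (nat_lit 5) (nat_lit 20) (nat_lit 5) (nat_lit 387) (nat_lit 288) (nat_lit 105))))))) (XT.nd (nat_lit 33618) (nat_lit 0) (nat_lit 9424) (XT.nd (nat_lit 33150) (nat_lit 0) (nat_lit 11932) (XT.nd (nat_lit 32916) (nat_lit 0) (nat_lit 11932) (XT.nd (nat_lit 78) (nat_lit 0) (nat_lit 0) (XT.lf (nat_lit 0) (nat_lit 44446209744) (nat_lit 228) (nat_lit 22109155529) (nat_lit 76) (nat_lit 4594559733) (nat_lit 17) (nat_lit 5) (nat_lit 20) (nat_lit 5) (nat_lit 18) (nat_lit 4) (nat_lit 388) (nat_lit 288) (nat_lit 104)) (XT.lf (nat_lit 0) (nat_lit 52661009621) (nat_lit 228) (nat_lit 5447388899) (nat_lit 76) (nat_lit 14861957732) (nat_lit 17) (nat_lit 5) (nat_lit 20) (nat_lit 5) (nat_lit 18) (nat_lit 4) (nat_lit 389) (nat_lit 288) (nat_lit 103))) (XT.nd (nat_lit 78) (nat_lit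 0) (nat_lit 0) (XT.lf (nat_lit 0) (nat_lit 916966078) (nat_lit 0) (nat_lit 916966078) (nat_lit 988) (nat_lit 3238550268) (nat_lit 174) (nat_lit 5) (nat_lit 174) (nat_lit 3) (nat_lit 187) (nat_lit 3) (nat_lit 289) (nat_lit 289) (nat_lit 202)) (XT.nd (nat_lit 78) (nat_lit 0) (nat_lit 0) (XT.lf (nat_lit 0) (nat_lit 4367620972) (nat_lit 988) (nat_lit 4013140994) (nat_lit 1064) (nat_lit 1895599037) (nat_lit 174) (nat_lit 5) (nat_lit 187) (nat_lit 3) (nat_lit 188) (nat_lit 5) (nat_lit 290) (nat_lit 289) (nat_lit 201)) (XT.lf (nat_lit 76) (nat_lit 390015171) (nat_lit 0) (nat_lit 4695942365) (nat_lit 1064) (nat_lit 5325869938) (nat_lit 175) (nat_lit 5) (nat_lit 174) (nat_lit 5) (nat_lit 188) (nat_lit 5) (nat_lit 291) (nat_lit 289) (nat_lit 200))))) (XT.nd (nat_lit 234) (nat_lit 0) (nat_lit 152) (XT.nd (nat_lit 78) (nat_lit 0) (nat_lit 76) (XT.lf (nat_lit 76) (nat_lit 4994535016) (nat_lit 0) (nat_lit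 848097843) (nat_lit 1064) (nat_lit 4708275839) (nat_lit 175) (nat_lit 5) (nat_lit 174) (nat_lit 5) (nat_lit 188) (nat_lit 5) (nat_lit 292) (nat_lit 289) (nat_lit 199)) (XT.nd (nat_lit 78) (nat_lit 0) (nat_lit 0) (XT.lf (nat_lit 0) (nat_lit 6629008856) (nat_lit 988) (nat_lit 1000379270) (nat_lit 1064) (nat_lit 3064617051) (nat_lit 175) (nat_lit 5) (nat_lit 188) (nat_lit 5) (nat_lit 189) (nat_lit 5) (nat_lit 293) (nat_lit 289) (nat_lit 198)) (XT.lf (nat_lit 76) (nat_lit 3743884411) (nat_lit 0) (nat_lit 3717200908) (nat_lit 1064) (nat_lit 3379697249) (nat_lit 176) (nat_lit 5) (nat_lit 175) (nat_lit 5) (nat_lit 189) (nat_lit 5) (nat_lit 294) (nat_lit 289) (nat_lit 197)))) (XT.nd (nat_lit 78) (nat_lit 0) (nat_lit 0) (XT.lf (nat_lit 0) (nat_lit 8309661256) (nat_lit 988) (nat_lit 2357509092) (nat_lit 1064) (nat_lit 325096616) (nat_lit 176) (nat_lit 5) (nat_lit 189) (nat_lit 5) (nat_lit 190) (nat_lit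 5) (nat_lit 295) (nat_lit 289) (nat_lit 196)) (XT.nd (nat_lit 78) (nat_lit 0) (nat_lit 0) (XT.lf (nat_lit 76) (nat_lit 2523164452) (nat_lit 0) (nat_lit 6700552045) (nat_lit 1064) (nat_lit 1923427083) (nat_lit 177) (nat_lit 5) (nat_lit 176) (nat_lit 5) (nat_lit 190) (nat_lit 5) (nat_lit 296) (nat_lit 289) (nat_lit 195)) (XT.lf (nat_lit 76) (nat_lit 7585386257) (nat_lit 0) (nat_lit 2583063047) (nat_lit 1064) (nat_lit 1138166454) (nat_lit 177) (nat_lit 5) (nat_lit 176) (nat_lit 5) (nat_lit 190) (nat_lit 5) (nat_lit 297) (nat_lit 289) (nat_lit 194)))))) (XT.nd (nat_lit 468) (nat_lit 1672) (nat_lit 0) (XT.nd (nat_lit 234) (nat_lit 0) (nat_lit 76) (XT.nd (nat_lit 78) (nat_lit 1064) (nat_lit 0) (XT.lf (nat_lit 76) (nat_lit 1324993898) (nat_lit 0) (nat_lit 9825320937) (nat_lit 1064) (nat_lit 320339117) (nat_lit 178) (nat_lit 5) (nat_lit 177) (nat_lit 5) (nat_lit 191) (nat_lit 5) (nat_lit 298) (nat_lit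 289) (nat_lit 193)) (XT.nd (nat_lit 78) (nat_lit 0) (nat_lit 0) (XT.lf (nat_lit 0) (nat_lit 555691977) (nat_lit 1064) (nat_lit 5084394025) (nat_lit 1140) (nat_lit 5998104042) (nat_lit 163) (nat_lit 5) (nat_lit 177) (nat_lit 5) (nat_lit 178) (nat_lit 5) (nat_lit 299) (nat_lit 289) (nat_lit 192)) (XT.lf (nat_lit 76) (nat_lit 114343676) (nat_lit 0) (nat_lit 1319225273) (nat_lit 1140) (nat_lit 10377669721) (nat_lit 164) (nat_lit 5) (nat_lit 163) (nat_lit 5) (nat_lit 178) (nat_lit 5) (nat_lit 300) (nat_lit 289) (nat_lit 191)))) (XT.nd (nat_lit 78) (nat_lit 0) (nat_lit 0) (XT.lf (nat_lit 0) (nat_lit 2401116928) (nat_lit 1064) (nat_lit 6459224246) (nat_lit 1140) (nat_lit 3127278033) (nat_lit 164) (nat_lit 5) (nat_lit 178) (nat_lit 5) (nat_lit 179) (nat_lit 5) (nat_lit 301) (nat_lit 289) (nat_lit 190)) (XT.nd (nat_lit 78) (nat_lit 0) (nat_lit 76) (XT.lf (nat_lit 0) (nat_lit 3392679531) (nat_lit 1064)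 (nat_lit 1091025227) (nat_lit 1140) (nat_lit 7685776067) (nat_lit 164) (nat_lit 5) (nat_lit 178) (nat_lit 5) (nat_lit 179) (nat_lit 5) (nat_lit 302) (nat_lit 289) (nat_lit 189)) (XT.lf (nat_lit 0) (nat_lit 4440529813) (nat_lit 1064) (nat_lit 7843624574) (nat_lit 1140) (nat_lit 71885848) (nat_lit 165) (nat_lit 5) (nat_lit 179) (nat_lit 5) (nat_lit 180) (nat_lit 5) (nat_lit 303) (nat_lit 289) (nat_lit 188))))) (XT.nd (nat_lit 234) (nat_lit 1824) (nat_lit 0) (XT.nd (nat_lit 78) (nat_lit 0) (nat_lit 0) (XT.lf (nat_lit 0) (nat_lit 5558213764) (nat_lit 1064) (nat_lit 2299652068) (nat_lit 1140) (nat_lit 4689215704) (nat_lit 165) (nat_lit 5) (nat_lit 179) (nat_lit 5) (nat_lit 180) (nat_lit 5) (nat_lit 304) (nat_lit 289) (nat_lit 187)) (XT.nd (nat_lit 78) (nat_lit 0) (nat_lit 76) (XT.lf (nat_lit 76) (nat_lit 3465042761) (nat_lit 0) (nat_lit 3261071009) (nat_lit 1140) (nat_lit 6017275717) (nat_lit 166)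 (nat_lit 5) (nat_lit 165) (nat_lit 5) (nat_lit 180) (nat_lit 5) (nat_lit 305) (nat_lit 289) (nat_lit 186)) (XT.lf (nat_lit 0) (nat_lit 7950434485) (nat_lit 1064) (nat_lit 3523102517) (nat_lit 76) (nat_lit 1471443092) (nat_lit 166) (nat_lit 5) (nat_lit 180) (nat_lit 5) (nat_lit 167) (nat_lit 5) (nat_lit 306) (nat_lit 289) (nat_lit 185)))) (XT.nd (nat_lit 78) (nat_lit 836) (nat_lit 0) (XT.lf (nat_lit 0) (nat_lit 2406226281) (nat_lit 1064) (nat_lit 6844915713) (nat_lit 1140) (nat_lit 3900320620) (nat_lit 152) (nat_lit 5) (nat_lit 166) (nat_lit 5) (nat_lit 167) (nat_lit 5) (nat_lit 307) (nat_lit 289) (nat_lit 184)) (XT.nd (nat_lit 78) (nat_lit 836) (nat_lit 0) (XT.lf (nat_lit 0) (nat_lit 8572545841) (nat_lit 1064) (nat_lit 2038473576) (nat_lit 1140) (nat_lit 2752548655) (nat_lit 152) (nat_lit 5) (nat_lit 166) (nat_lit 5) (nat_lit 167) (nat_lit 5) (nat_lit 308) (nat_lit 289) (nat_lit 183)) (XT.lf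 (nat_lit 0) (nat_lit 1326478808) (nat_lit 836) (nat_lit 10711002011) (nat_lit 912) (nat_lit 1543814209) (nat_lit 141) (nat_lit 5) (nat_lit 152) (nat_lit 5) (nat_lit 153) (nat_lit 5) (nat_lit 309) (nat_lit 289) (nat_lit 182))))))))
noncomputable def xc185 : XT := (XT.nd (nat_lit 1794) (nat_lit 2888) (nat_lit 0) (XT.nd (nat_lit 858) (nat_lit 2052) (nat_lit 0) (XT.nd (nat_lit 390) (nat_lit 1520) (nat_lit 0) (XT.nd (nat_lit 156) (nat_lit 532) (nat_lit 0) (XT.nd (nat_lit 78) (nat_lit 608) (nat_lit 0) (XT.lf (nat_lit 0) (nat_lit 7692030881) (nat_lit 836) (nat_lit 5868423100) (nat_lit 912) (nat_lit 243519308) (nat_lit 141) (nat_lit 5) (nat_lit 152) (nat_lit 5) (nat_lit 153) (nat_lit 5) (nat_lit 310) (nat_lit 289) (nat_lit 181)) (XT.lf (nat_lit 0) (nat_lit 195463712) (nat_lit 532) (nat_lit 866426169) (nat_lit 608) (nat_lit 12971530622) (nat_lit 133) (nat_lit 5) (nat_lit 140) (nat_lit 5) (nat_lit 141)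 (nat_lit 5) (nat_lit 311) (nat_lit 289) (nat_lit 180))) (XT.nd (nat_lit 78) (nat_lit 532) (nat_lit 0) (XT.lf (nat_lit 0) (nat_lit 2491008398) (nat_lit 608) (nat_lit 7508106654) (nat_lit 76) (nat_lit 4267908903) (nat_lit 133) (nat_lit 5) (nat_lit 141) (nat_lit 5) (nat_lit 134) (nat_lit 5) (nat_lit 312) (nat_lit 289) (nat_lit 179)) (XT.nd (nat_lit 78) (nat_lit 532) (nat_lit 0) (XT.lf (nat_lit 0) (nat_lit 3957904901) (nat_lit 608) (nat_lit 1009919743) (nat_lit 76) (nat_lit 9539991307) (nat_lit 133) (nat_lit 5) (nat_lit 141) (nat_lit 5) (nat_lit 134) (nat_lit 5) (nat_lit 313) (nat_lit 289) (nat_lit 178)) (XT.lf (nat_lit 0) (nat_lit 5513744647) (nat_lit 608) (nat_lit 8973739967) (nat_lit 76) (nat_lit 267025771) (nat_lit 126) (nat_lit 5) (nat_lit 134) (nat_lit 5) (nat_lit 127) (nat_lit 5) (nat_lit 314) (nat_lit 289) (nat_lit 177))))) (XT.nd (nat_lit 234) (nat_lit 1064) (nat_lit 0) (XT.nd (nat_lit 78)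 (nat_lit 456) (nat_lit 0) (XT.lf (nat_lit 0) (nat_lit 7162741197) (nat_lit 608) (nat_lit 2274603407) (nat_lit 76) (nat_lit 5569892589) (nat_lit 126) (nat_lit 5) (nat_lit 134) (nat_lit 5) (nat_lit 127) (nat_lit 5) (nat_lit 315) (nat_lit 289) (nat_lit 176)) (XT.nd (nat_lit 78) (nat_lit 0) (nat_lit 0) (XT.lf (nat_lit 0) (nat_lit 4704790385) (nat_lit 456) (nat_lit 4189017384) (nat_lit 532) (nat_lit 6372785266) (nat_lit 120) (nat_lit 5) (nat_lit 126) (nat_lit 5) (nat_lit 127) (nat_lit 5) (nat_lit 316) (nat_lit 289) (nat_lit 175)) (XT.lf (nat_lit 0) (nat_lit 10699322106) (nat_lit 532) (nat_lit 3617568045) (nat_lit 76) (nat_lit 1216188426) (nat_lit 120) (nat_lit 5) (nat_lit 127) (nat_lit 5) (nat_lit 121) (nat_lit 5) (nat_lit 317) (nat_lit 289) (nat_lit 174)))) (XT.nd (nat_lit 78) (nat_lit 532) (nat_lit 0) (XT.lf (nat_lit 0) (nat_lit 3550374458) (nat_lit 532) (nat_lit 9072214776) (nat_lit 608) (nat_lit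 3183085615) (nat_lit 113) (nat_lit 5) (nat_lit 120) (nat_lit 5) (nat_lit 121) (nat_lit 5) (nat_lit 318) (nat_lit 289) (nat_lit 173)) (XT.nd (nat_lit 78) (nat_lit 532) (nat_lit 0) (XT.lf (nat_lit 0) (nat_lit 10995209330) (nat_lit 532) (nat_lit 3633090695) (nat_lit 608) (nat_lit 1457429705) (nat_lit 113) (nat_lit 5) (nat_lit 120) (nat_lit 5) (nat_lit 121) (nat_lit 5) (nat_lit 319) (nat_lit 289) (nat_lit 172)) (XT.lf (nat_lit 0) (nat_lit 343642780) (nat_lit 532) (nat_lit 14073782367) (nat_lit 76) (nat_lit 1955793862) (nat_lit 106) (nat_lit 5) (nat_lit 113) (nat_lit 5) (nat_lit 107) (nat_lit 5) (nat_lit 320) (nat_lit 289) (nat_lit 171)))))) (XT.nd (nat_lit 468) (nat_lit 1216) (nat_lit 0) (XT.nd (nat_lit 234) (nat_lit 380) (nat_lit 0) (XT.nd (nat_lit 78) (nat_lit 456) (nat_lit 0) (XT.lf (nat_lit 0) (nat_lit 2245976420) (nat_lit 532) (nat_lit 6715689551) (nat_lit 76) (nat_lit 7704959572) (nat_lit 106)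 (nat_lit 5) (nat_lit 113) (nat_lit 5) (nat_lit 107) (nat_lit 5) (nat_lit 321) (nat_lit 289) (nat_lit 170)) (XT.nd (nat_lit 78) (nat_lit 0) (nat_lit 0) (XT.lf (nat_lit 0) (nat_lit 868014585) (nat_lit 456) (nat_lit 3334677768) (nat_lit 532) (nat_lit 12766243068) (nat_lit 100) (nat_lit 5) (nat_lit 106) (nat_lit 5) (nat_lit 107) (nat_lit 5) (nat_lit 322) (nat_lit 289) (nat_lit 169)) (XT.lf (nat_lit 0) (nat_lit 6299418291) (nat_lit 532) (nat_lit 8497999545) (nat_lit 76) (nat_lit 2480477421) (nat_lit 100) (nat_lit 5) (nat_lit 107) (nat_lit 5) (nat_lit 101) (nat_lit 5) (nat_lit 323) (nat_lit 289) (nat_lit 168)))) (XT.nd (nat_lit 78) (nat_lit 380) (nat_lit 0) (XT.lf (nat_lit 0) (nat_lit 8481542230) (nat_lit 532) (nat_lit 711934485) (nat_lit 76) (nat_lit 8401991626) (nat_lit 100) (nat_lit 5) (nat_lit 107) (nat_lit 5) (nat_lit 101) (nat_lit 5) (nat_lit 324) (nat_lit 289) (nat_lit 167)) (XT.nd (nat_lit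 78) (nat_lit 0) (nat_lit 0) (XT.lf (nat_lit 0) (nat_lit 7441340009) (nat_lit 380) (nat_lit 3349106620) (nat_lit 456) (nat_lit 7130301262) (nat_lit 95) (nat_lit 5) (nat_lit 100) (nat_lit 5) (nat_lit 101) (nat_lit 5) (nat_lit 325) (nat_lit 289) (nat_lit 166)) (XT.lf (nat_lit 0) (nat_lit 13191509337) (nat_lit 456) (nat_lit 2439277550) (nat_lit 76) (nat_lit 2624330435) (nat_lit 95) (nat_lit 5) (nat_lit 101) (nat_lit 5) (nat_lit 96) (nat_lit 5) (nat_lit 326) (nat_lit 289) (nat_lit 165))))) (XT.nd (nat_lit 234) (nat_lit 380) (nat_lit 0) (XT.nd (nat_lit 78) (nat_lit 456) (nat_lit 0) (XT.lf (nat_lit 0) (nat_lit 5912849547) (nat_lit 380) (nat_lit 9832003683) (nat_lit 456) (nat_lit 2852274822) (nat_lit 90) (nat_lit 5) (nat_lit 95) (nat_lit 5) (nat_lit 96) (nat_lit 5) (nat_lit 327) (nat_lit 289) (nat_lit 164)) (XT.nd (nat_lit 78) (nat_lit 456) (nat_lit 0) (XT.lf (nat_lit 0) (nat_lit 14554226637) (nat_lit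 380) (nat_lit 3835629774) (nat_lit 456) (nat_lit 559108107) (nat_lit 90) (nat_lit 5) (nat_lit 95) (nat_lit 5) (nat_lit 96) (nat_lit 5) (nat_lit 328) (nat_lit 289) (nat_lit 163)) (XT.lf (nat_lit 0) (nat_lit 1821667218) (nat_lit 456) (nat_lit 15136113180) (nat_lit 76) (nat_lit 2351452160) (nat_lit 84) (nat_lit 5) (nat_lit 90) (nat_lit 5) (nat_lit 85) (nat_lit 5) (nat_lit 329) (nat_lit 289) (nat_lit 162)))) (XT.nd (nat_lit 78) (nat_lit 380) (nat_lit 0) (XT.lf (nat_lit 0) (nat_lit 4336169543) (nat_lit 456) (nat_lit 6646184423) (nat_lit 76) (nat_lit 8695598086) (nat_lit 84) (nat_lit 5) (nat_lit 90) (nat_lit 5) (nat_lit 85) (nat_lit 5) (nat_lit 330) (nat_lit 289) (nat_lit 161)) (XT.nd (nat_lit 78) (nat_lit 0) (nat_lit 0) (XT.lf (nat_lit 0) (nat_lit 2128960975) (nat_lit 380) (nat_lit 4808627442) (nat_lit 456) (nat_lit 13119815538) (nat_lit 79) (nat_lit 5) (nat_lit 84) (nat_lit 5) (nat_lit 85) (nat_lit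 5) (nat_lit 331) (nat_lit 289) (nat_lit 160)) (XT.lf (nat_lit 0) (nat_lit 9690883540) (nat_lit 456) (nat_lit 9169368394) (nat_lit 76) (nat_lit 1585787290) (nat_lit 79) (nat_lit 5) (nat_lit 85) (nat_lit 5) (nat_lit 80) (nat_lit 5) (nat_lit 332) (nat_lit 289) (nat_lit 159))))))) (XT.nd (nat_lit 936) (nat_lit 1292) (nat_lit 0) (XT.nd (nat_lit 468) (nat_lit 608) (nat_lit 0) (XT.nd (nat_lit 234) (nat_lit 684) (nat_lit 0) (XT.nd (nat_lit 78) (nat_lit 304) (nat_lit 0) (XT.lf (nat_lit 0) (nat_lit 12565798588) (nat_lit 456) (nat_lit 205982577) (nat_lit 76) (nat_lit 8073396144) (nat_lit 79) (nat_lit 5) (nat_lit 85) (nat_lit 5) (nat_lit 80) (nat_lit 5) (nat_lit 333) (nat_lit 289) (nat_lit 158)) (XT.nd (nat_lit 78) (nat_lit 0) (nat_lit 0) (XT.lf (nat_lit 0) (nat_lit 9195201524) (nat_lit 304) (nat_lit 6411810532) (nat_lit 380) (nat_lit 5646889924) (nat_lit 75) (nat_lit 5) (nat_lit 79) (nat_lit 5) (nat_lit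 80) (nat_lit 5) (nat_lit 334) (nat_lit 289) (nat_lit 157)) (XT.lf (nat_lit 0) (nat_lit 18734680492) (nat_lit 380) (nat_lit 2804208231) (nat_lit 76) (nat_lit 136156674) (nat_lit 75) (nat_lit 5) (nat_lit 80) (nat_lit 5) (nat_lit 76) (nat_lit 5) (nat_lit 335) (nat_lit 289) (nat_lit 156)))) (XT.nd (nat_lit 78) (nat_lit 380) (nat_lit 0) (XT.lf (nat_lit 0) (nat_lit 6786505949) (nat_lit 304) (nat_lit 15290413893) (nat_lit 380) (nat_lit 28294217) (nat_lit 71) (nat_lit 5) (nat_lit 75) (nat_lit 5) (nat_lit 76) (nat_lit 5) (nat_lit 336) (nat_lit 289) (nat_lit 155)) (XT.nd (nat_lit 78) (nat_lit 304) (nat_lit 0) (XT.lf (nat_lit 0) (nat_lit 2933823466) (nat_lit 380) (nat_lit 5864281456) (nat_lit 76) (nat_lit 13748718585) (nat_lit 70) (nat_lit 5) (nat_lit 75) (nat_lit 5) (nat_lit 71) (nat_lit 5) (nat_lit 337) (nat_lit 289) (nat_lit 154)) (XT.lf (nat_lit 0) (nat_lit 3940262799) (nat_lit 304) (nat_lit 2074145646)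 (nat_lit 380) (nat_lit 16986371268) (nat_lit 66) (nat_lit 5) (nat_lit 70) (nat_lit 5) (nat_lit 71) (nat_lit 5) (nat_lit 338) (nat_lit 289) (nat_lit 153))))) (XT.nd (nat_lit 234) (nat_lit 304) (nat_lit 0) (XT.nd (nat_lit 78) (nat_lit 304) (nat_lit 0) (XT.lf (nat_lit 0) (nat_lit 9286251643) (nat_lit 380) (nat_lit 9364884840) (nat_lit 76) (nat_lit 4814264602) (nat_lit 66) (nat_lit 5) (nat_lit 71) (nat_lit 5) (nat_lit 67) (nat_lit 5) (nat_lit 339) (nat_lit 289) (nat_lit 152)) (XT.nd (nat_lit 78) (nat_lit 0) (nat_lit 0) (XT.lf (nat_lit 0) (nat_lit 602903206) (nat_lit 304) (nat_lit 12072300552) (nat_lit 380) (nat_lit 11268200090) (nat_lit 62) (nat_lit 5) (nat_lit 66) (nat_lit 5) (nat_lit 67) (nat_lit 5) (nat_lit 340) (nat_lit 289) (nat_lit 151)) (XT.lf (nat_lit 0) (nat_lit 11051851614) (nat_lit 304) (nat_lit 5201282113) (nat_lit 380) (nat_lit 8180004717) (nat_lit 62) (nat_lit 5) (nat_lit 66) (nat_lit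 5) (nat_lit 67) (nat_lit 5) (nat_lit 341) (nat_lit 289) (nat_lit 150)))) (XT.nd (nat_lit 78) (nat_lit 304) (nat_lit 0) (XT.lf (nat_lit 0) (nat_lit 19949363140) (nat_lit 380) (nat_lit 3151084057) (nat_lit 76) (nat_lit 1836799743) (nat_lit 62) (nat_lit 5) (nat_lit 67) (nat_lit 5) (nat_lit 63) (nat_lit 5) (nat_lit 342) (nat_lit 289) (nat_lit 149)) (XT.nd (nat_lit 78) (nat_lit 76) (nat_lit 0) (XT.lf (nat_lit 0) (nat_lit 7470838596) (nat_lit 228) (nat_lit 16402088451) (nat_lit 304) (nat_lit 1580068610) (nat_lit 59) (nat_lit 5) (nat_lit 62) (nat_lit 5) (nat_lit 63) (nat_lit 5) (nat_lit 343) (nat_lit 289) (nat_lit 148)) (XT.lf (nat_lit 0) (nat_lit 1917623482) (nat_lit 304) (nat_lit 7535640620) (nat_lit 76) (nat_lit 16529646868) (nat_lit 58) (nat_lit 5) (nat_lit 62) (nat_lit 5) (nat_lit 59) (nat_lit 5) (nat_lit 344) (nat_lit 289) (nat_lit 147)))))) (XT.nd (nat_lit 468) (nat_lit 532) (nat_lit 0) (XT.nd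 (nat_lit 234) (nat_lit 456) (nat_lit 0) (XT.nd (nat_lit 78) (nat_lit 0) (nat_lit 0) (XT.lf (nat_lit 0) (nat_lit 3263054182) (nat_lit 304) (nat_lit 2250168300) (nat_lit 380) (nat_lit 21014299428) (nat_lit 54) (nat_lit 5) (nat_lit 58) (nat_lit 5) (nat_lit 59) (nat_lit 5) (nat_lit 345) (nat_lit 289) (nat_lit 146)) (XT.nd (nat_lit 78) (nat_lit 0) (nat_lit 0) (XT.lf (nat_lit 0) (nat_lit 9336673233) (nat_lit 380) (nat_lit 12605782413) (nat_lit 76) (nat_lit 5142425255) (nat_lit 54) (nat_lit 5) (nat_lit 59) (nat_lit 5) (nat_lit 55) (nat_lit 5) (nat_lit 346) (nat_lit 289) (nat_lit 145)) (XT.lf (nat_lit 0) (nat_lit 13290744634) (nat_lit 380) (nat_lit 1658679472) (nat_lit 76) (nat_lit 12709068010) (nat_lit 54) (nat_lit 5) (nat_lit 59) (nat_lit 5) (nat_lit 55) (nat_lit 5) (nat_lit 347) (nat_lit 289) (nat_lit 144)))) (XT.nd (nat_lit 78) (nat_lit 228) (nat_lit 0) (XT.lf (nat_lit 0) (nat_lit 9799255284) (nat_lit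 228) (nat_lit 7652202857) (nat_lit 304) (nat_lit 10795221632) (nat_lit 51) (nat_lit 5) (nat_lit 54) (nat_lit 5) (nat_lit 55) (nat_lit 5) (nat_lit 348) (nat_lit 289) (nat_lit 143)) (XT.nd (nat_lit 78) (nat_lit 228) (nat_lit 0) (XT.lf (nat_lit 0) (nat_lit 21626215624) (nat_lit 228) (nat_lit 121446505) (nat_lit 304) (nat_lit 7104539312) (nat_lit 51) (nat_lit 5) (nat_lit 54) (nat_lit 5) (nat_lit 55) (nat_lit 5) (nat_lit 349) (nat_lit 289) (nat_lit 142)) (XT.lf (nat_lit 0) (nat_lit 4334665738) (nat_lit 228) (nat_lit 21947220667) (nat_lit 304) (nat_lit 3190736535) (nat_lit 48) (nat_lit 5) (nat_lit 51) (nat_lit 5) (nat_lit 52) (nat_lit 5) (nat_lit 350) (nat_lit 289) (nat_lit 141))))) (XT.nd (nat_lit 234) (nat_lit 228) (nat_lit 0) (XT.nd (nat_lit 78) (nat_lit 228) (nat_lit 0) (XT.lf (nat_lit 0) (nat_lit 893069891) (nat_lit 304) (nat_lit 13737871068) (nat_lit 76) (nat_lit 15478411774) (nat_lit 47) (nat_lit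 5) (nat_lit 51) (nat_lit 5) (nat_lit 48) (nat_lit 5) (nat_lit 351) (nat_lit 289) (nat_lit 140)) (XT.nd (nat_lit 78) (nat_lit 228) (nat_lit 0) (XT.lf (nat_lit 0) (nat_lit 5029528970) (nat_lit 304) (nat_lit 2035782913) (nat_lit 76) (nat_lit 23699104229) (nat_lit 47) (nat_lit 5) (nat_lit 51) (nat_lit 5) (nat_lit 48) (nat_lit 5) (nat_lit 352) (nat_lit 289) (nat_lit 139)) (XT.lf (nat_lit 0) (nat_lit 9390584996) (nat_lit 304) (nat_lit 21235892947) (nat_lit 76) (nat_lit 809645645) (nat_lit 44) (nat_lit 5) (nat_lit 48) (nat_lit 5) (nat_lit 45) (nat_lit 5) (nat_lit 353) (nat_lit 289) (nat_lit 138)))) (XT.nd (nat_lit 78) (nat_lit 228) (nat_lit 0) (XT.lf (nat_lit 0) (nat_lit 13967682577) (nat_lit 304) (nat_lit 9360697108) (nat_lit 76) (nat_lit 8797053387) (nat_lit 44) (nat_lit 5) (nat_lit 48) (nat_lit 5) (nat_lit 45) (nat_lit 5) (nat_lit 354) (nat_lit 289) (nat_lit 137)) (XT.nd (nat_lit 78) (nat_lit 0)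 (nat_lit 0) (XT.lf (nat_lit 0) (nat_lit 2919738363) (nat_lit 228) (nat_lit 15785076698) (nat_lit 304) (nat_lit 14129931993) (nat_lit 41) (nat_lit 5) (nat_lit 44) (nat_lit 5) (nat_lit 45) (nat_lit 5) (nat_lit 355) (nat_lit 289) (nat_lit 136)) (XT.lf (nat_lit 0) (nat_lit 15752559501) (nat_lit 228) (nat_lit 7920761972) (nat_lit 304) (nat_lit 9889347856) (nat_lit 41) (nat_lit 5) (nat_lit 44) (nat_lit 5) (nat_lit 45) (nat_lit 5) (nat_lit 356) (nat_lit 289) (nat_lit 135))))))))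
noncomputable def xc186 : XT := (XT.nd (nat_lit 1794) (nat_lit 304) (nat_lit 0) (XT.nd (nat_lit 858) (nat_lit 684) (nat_lit 0) (XT.nd (nat_lit 390) (nat_lit 380) (nat_lit 0) (XT.nd (nat_lit 156) (nat_lit 304) (nat_lit 0) (XT.nd (nat_lit 78) (nat_lit 152) (nat_lit 0) (XT.lf (nat_lit 0) (nat_lit 28787472267) (nat_lit 304) (nat_lit 5351606450) (nat_lit 76) (nat_lit 173459356) (nat_lit 41) (nat_lit 5) (nat_lit 45) (nat_lit 5) (nat_lit 42) (nat_lit 5) (nat_lit 357) (nat_lit 289) (nat_lit 134)) (XT.lf (nat_lit 0) (nat_lit 7541806985) (nat_lit 152) (nat_lit 26659173940) (nat_lit 228) (nat_lit 879550246) (nat_lit 39) (nat_lit 5) (nat_lit 41) (nat_lit 5) (nat_lit 42) (nat_lit 5) (nat_lit 358) (nat_lit 289) (nat_lit 133))) (XT.nd (nat_lit 78) (nat_lit 228) (nat_lit 0) (XT.lf (nat_lit 0) (nat_lit 3878731355) (nat_lit 228) (nat_lit 14983912687) (nat_lit 76) (nat_lit 17006311506) (nat_lit 38) (nat_lit 5)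 (nat_lit 41) (nat_lit 5) (nat_lit 39) (nat_lit 5) (nat_lit 359) (nat_lit 289) (nat_lit 132)) (XT.nd (nat_lit 78) (nat_lit 228) (nat_lit 0) (XT.lf (nat_lit 0) (nat_lit 8757259874) (nat_lit 228) (nat_lit 2068563196) (nat_lit 76) (nat_lit 25855098792) (nat_lit 38) (nat_lit 5) (nat_lit 41) (nat_lit 5) (nat_lit 39) (nat_lit 5) (nat_lit 360) (nat_lit 289) (nat_lit 131)) (XT.lf (nat_lit 0) (nat_lit 11450504913) (nat_lit 228) (nat_lit 2437025640) (nat_lit 304) (nat_lit 23626560611) (nat_lit 35) (nat_lit 5) (nat_lit 38) (nat_lit 5) (nat_lit 39) (nat_lit 5) (nat_lit 361) (nat_lit 289) (nat_lit 130))))) (XT.nd (nat_lit 234) (nat_lit 228) (nat_lit 0) (XT.nd (nat_lit 78) (nat_lit 152) (nat_lit 0) (XT.lf (nat_lit 0) (nat_lit 19247796896) (nat_lit 304) (nat_lit 13021150259) (nat_lit 76) (nat_lit 6101031190) (nat_lit 35) (nat_lit 5) (nat_lit 39) (nat_lit 5) (nat_lit 36) (nat_lit 5) (nat_lit 362) (nat_lit 289)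 (nat_lit 129)) (XT.nd (nat_lit 78) (nat_lit 0) (nat_lit 0) (XT.lf (nat_lit 0) (nat_lit 388999349) (nat_lit 152) (nat_lit 24403236334) (nat_lit 228) (nat_lit 14458610791) (nat_lit 33) (nat_lit 5) (nat_lit 35) (nat_lit 5) (nat_lit 36) (nat_lit 5) (nat_lit 363) (nat_lit 289) (nat_lit 128)) (XT.lf (nat_lit 0) (nat_lit 14461421821) (nat_lit 152) (nat_lit 16168634436) (nat_lit 228) (nat_lit 9524278046) (nat_lit 33) (nat_lit 5) (nat_lit 35) (nat_lit 5) (nat_lit 36) (nat_lit 5) (nat_lit 364) (nat_lit 289) (nat_lit 127)))) (XT.nd (nat_lit 78) (nat_lit 228) (nat_lit 0) (XT.lf (nat_lit 0) (nat_lit 28949267026) (nat_lit 152) (nat_lit 7689434264) (nat_lit 228) (nat_lit 4446359747) (nat_lit 33) (nat_lit 5) (nat_lit 35) (nat_lit 5) (nat_lit 36) (nat_lit 5) (nat_lit 365) (nat_lit 289) (nat_lit 126)) (XT.nd (nat_lit 78) (nat_lit 0) (nat_lit 0) (XT.lf (nat_lit 0) (nat_lit 792416058) (nat_lit 228) (nat_lit 40203386171)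 (nat_lit 76) (nat_lit 1046971466) (nat_lit 30) (nat_lit 5) (nat_lit 33) (nat_lit 5) (nat_lit 31) (nat_lit 5) (nat_lit 366) (nat_lit 289) (nat_lit 125)) (XT.lf (nat_lit 0) (nat_lit 6294687884) (nat_lit 228) (nat_lit 26670998274) (nat_lit 76) (nat_lit 10056344415) (nat_lit 30) (nat_lit 5) (nat_lit 33) (nat_lit 5) (nat_lit 31) (nat_lit 5) (nat_lit 367) (nat_lit 289) (nat_lit 124)))))) (XT.nd (nat_lit 468) (nat_lit 380) (nat_lit 0) (XT.nd (nat_lit 234) (nat_lit 152) (nat_lit 0) (XT.nd (nat_lit 78) (nat_lit 152) (nat_lit 0) (XT.lf (nat_lit 0) (nat_lit 11957956111) (nat_lit 228) (nat_lit 12739127707) (nat_lit 76) (nat_lit 19333707900) (nat_lit 30) (nat_lit 5) (nat_lit 33) (nat_lit 5) (nat_lit 31) (nat_lit 5) (nat_lit 368) (nat_lit 289) (nat_lit 123)) (XT.nd (nat_lit 78) (nat_lit 0) (nat_lit 0) (XT.lf (nat_lit 0) (nat_lit 1636329692) (nat_lit 152) (nat_lit 16166568937) (nat_lit 228) (nat_lit 27266568066)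 (nat_lit 28) (nat_lit 5) (nat_lit 30) (nat_lit 5) (nat_lit 31) (nat_lit 5) (nat_lit 369) (nat_lit 289) (nat_lit 122)) (XT.lf (nat_lit 0) (nat_lit 16697952237) (nat_lit 152) (nat_lit 7249979413) (nat_lit 228) (nat_lit 22187632162) (nat_lit 28) (nat_lit 5) (nat_lit 30) (nat_lit 5) (nat_lit 31) (nat_lit 5) (nat_lit 370) (nat_lit 289) (nat_lit 121)))) (XT.nd (nat_lit 78) (nat_lit 152) (nat_lit 0) (XT.lf (nat_lit 0) (nat_lit 30292101200) (nat_lit 228) (nat_lit 15046964451) (nat_lit 76) (nat_lit 1894138662) (nat_lit 28) (nat_lit 5) (nat_lit 31) (nat_lit 5) (nat_lit 29) (nat_lit 5) (nat_lit 371) (nat_lit 289) (nat_lit 120)) (XT.nd (nat_lit 78) (nat_lit 152) (nat_lit 0) (XT.lf (nat_lit 0) (nat_lit 36894682383) (nat_lit 228) (nat_lit 302352936) (nat_lit 76) (nat_lit 11164700034) (nat_lit 28) (nat_lit 5) (nat_lit 31) (nat_lit 5) (nat_lit 29) (nat_lit 5) (nat_lit 372) (nat_lit 289) (nat_lit 119)) (XT.lf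 (nat_lit 0) (nat_lit 15174915099) (nat_lit 152) (nat_lit 28662708674) (nat_lit 228) (nat_lit 5682233872) (nat_lit 26) (nat_lit 5) (nat_lit 28) (nat_lit 5) (nat_lit 29) (nat_lit 5) (nat_lit 373) (nat_lit 289) (nat_lit 118))))) (XT.nd (nat_lit 234) (nat_lit 152) (nat_lit 0) (XT.nd (nat_lit 78) (nat_lit 152) (nat_lit 0) (XT.lf (nat_lit 0) (nat_lit 270247764) (nat_lit 228) (nat_lit 19598434456) (nat_lit 76) (nat_lit 30843980156) (nat_lit 25) (nat_lit 5) (nat_lit 28) (nat_lit 5) (nat_lit 26) (nat_lit 5) (nat_lit 374) (nat_lit 289) (nat_lit 117)) (XT.nd (nat_lit 78) (nat_lit 152) (nat_lit 0) (XT.lf (nat_lit 0) (nat_lit 6283623615) (nat_lit 228) (nat_lit 4471438439) (nat_lit 76) (nat_lit 41184609074) (nat_lit 25) (nat_lit 5) (nat_lit 28) (nat_lit 5) (nat_lit 26) (nat_lit 5) (nat_lit 375) (nat_lit 289) (nat_lit 116)) (XT.lf (nat_lit 0) (nat_lit 11324873448) (nat_lit 152) (nat_lit 1258017097) (nat_lit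 228) (nat_lit 40617438283) (nat_lit 23) (nat_lit 5) (nat_lit 25) (nat_lit 5) (nat_lit 26) (nat_lit 5) (nat_lit 376) (nat_lit 289) (nat_lit 115)))) (XT.nd (nat_lit 78) (nat_lit 152) (nat_lit 0) (XT.lf (nat_lit 0) (nat_lit 19195326612) (nat_lit 228) (nat_lit 26898613418) (nat_lit 76) (nat_lit 8401143779) (nat_lit 23) (nat_lit 5) (nat_lit 26) (nat_lit 5) (nat_lit 24) (nat_lit 5) (nat_lit 377) (nat_lit 289) (nat_lit 114)) (XT.nd (nat_lit 78) (nat_lit 152) (nat_lit 0) (XT.lf (nat_lit 0) (nat_lit 26015342822) (nat_lit 228) (nat_lit 11490273425) (nat_lit 76) (nat_lit 18322792167) (nat_lit 23) (nat_lit 5) (nat_lit 26) (nat_lit 5) (nat_lit 24) (nat_lit 5) (nat_lit 378) (nat_lit 289) (nat_lit 113)) (XT.lf (nat_lit 0) (nat_lit 4462194513) (nat_lit 152) (nat_lit 28617504414) (nat_lit 228) (nat_lit 24120844741) (nat_lit 21) (nat_lit 5) (nat_lit 23) (nat_lit 5) (nat_lit 24) (nat_lit 5) (nat_lit 379) (nat_lit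 289) (nat_lit 112))))))) (XT.nd (nat_lit 33696) (nat_lit 0) (nat_lit 11096) (XT.nd (nat_lit 390) (nat_lit 152) (nat_lit 0) (XT.nd (nat_lit 156) (nat_lit 152) (nat_lit 0) (XT.nd (nat_lit 78) (nat_lit 0) (nat_lit 0) (XT.lf (nat_lit 0) (nat_lit 21123631028) (nat_lit 152) (nat_lit 19345272392) (nat_lit 228) (nat_lit 18141555033) (nat_lit 21) (nat_lit 5) (nat_lit 23) (nat_lit 5) (nat_lit 24) (nat_lit 5) (nat_lit 380) (nat_lit 289) (nat_lit 111)) (XT.lf (nat_lit 0) (nat_lit 38279915685) (nat_lit 152) (nat_lit 9796847463) (nat_lit 228) (nat_lit 11986001077) (nat_lit 21) (nat_lit 5) (nat_lit 23) (nat_lit 5) (nat_lit 24) (nat_lit 5) (nat_lit 381) (nat_lit 289) (nat_lit 110))) (XT.nd (nat_lit 78) (nat_lit 152) (nat_lit 0) (XT.lf (nat_lit 0) (nat_lit 55910272902) (nat_lit 228) (nat_lit 5613037725) (nat_lit 76) (nat_lit 35408948) (nat_lit 21) (nat_lit 5) (nat_lit 24) (nat_lit 5) (nat_lit 22) (nat_lit 4)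 (nat_lit 382) (nat_lit 289) (nat_lit 109)) (XT.nd (nat_lit 78) (nat_lit 0) (nat_lit 0) (XT.lf (nat_lit 0) (nat_lit 1065457490) (nat_lit 152) (nat_lit 51946140665) (nat_lit 76) (nat_lit 10081603143) (nat_lit 19) (nat_lit 5) (nat_lit 21) (nat_lit 5) (nat_lit 20) (nat_lit 5) (nat_lit 383) (nat_lit 289) (nat_lit 108)) (XT.lf (nat_lit 0) (nat_lit 7921634452) (nat_lit 152) (nat_lit 36208270880) (nat_lit 76) (nat_lit 20540505459) (nat_lit 19) (nat_lit 5) (nat_lit 21) (nat_lit 5) (nat_lit 20) (nat_lit 5) (nat_lit 384) (nat_lit 289) (nat_lit 107))))) (XT.nd (nat_lit 234) (nat_lit 0) (nat_lit 0) (XT.nd (nat_lit 78) (nat_lit 152) (nat_lit 0) (XT.lf (nat_lit 0) (nat_lit 14980721954) (nat_lit 152) (nat_lit 20002916588) (nat_lit 76) (nat_lit 31311383786) (nat_lit 19) (nat_lit 5) (nat_lit 21) (nat_lit 5) (nat_lit 20) (nat_lit 5) (nat_lit 385) (nat_lit 289) (nat_lit 106)) (XT.nd (nat_lit 78) (nat_lit 152) (nat_lit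 0) (XT.lf (nat_lit 0) (nat_lit 22248888131) (nat_lit 152) (nat_lit 3315917769) (nat_lit 76) (nat_lit 42403649571) (nat_lit 19) (nat_lit 5) (nat_lit 21) (nat_lit 5) (nat_lit 20) (nat_lit 5) (nat_lit 386) (nat_lit 289) (nat_lit 105)) (XT.lf (nat_lit 0) (nat_lit 14143293037) (nat_lit 152) (nat_lit 15725144755) (nat_lit 228) (nat_lit 39819656033) (nat_lit 17) (nat_lit 5) (nat_lit 19) (nat_lit 5) (nat_lit 20) (nat_lit 5) (nat_lit 387) (nat_lit 289) (nat_lit 104)))) (XT.nd (nat_lit 78) (nat_lit 0) (nat_lit 0) (XT.lf (nat_lit 0) (nat_lit 32189911651) (nat_lit 152) (nat_lit 5557565519) (nat_lit 228) (nat_lit 33710919365) (nat_lit 17) (nat_lit 5) (nat_lit 19) (nat_lit 5) (nat_lit 20) (nat_lit 5) (nat_lit 388) (nat_lit 289) (nat_lit 103)) (XT.nd (nat_lit 32916) (nat_lit 0) (nat_lit 11932) (XT.lf (nat_lit 0) (nat_lit 45907611818) (nat_lit 228) (nat_lit 22555401991) (nat_lit 76) (nat_lit 4817455031) (nat_lit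 17) (nat_lit 5) (nat_lit 20) (nat_lit 5) (nat_lit 18) (nat_lit 4) (nat_lit 389) (nat_lit 289) (nat_lit 102)) (XT.lf (nat_lit 0) (nat_lit 1254542766) (nat_lit 0) (nat_lit 1254542766) (nat_lit 988) (nat_lit 2695544950) (nat_lit 174) (nat_lit 5) (nat_lit 174) (nat_lit 3) (nat_lit 187) (nat_lit 3) (nat_lit 290) (nat_lit 290) (nat_lit 200)))))) (XT.nd (nat_lit 468) (nat_lit 836) (nat_lit 0) (XT.nd (nat_lit 234) (nat_lit 0) (nat_lit 76) (XT.nd (nat_lit 78) (nat_lit 0) (nat_lit 0) (XT.lf (nat_lit 0) (nat_lit 5697008535) (nat_lit 988) (nat_lit 3486788271) (nat_lit 1064) (nat_lit 1362142410) (nat_lit 174) (nat_lit 5) (nat_lit 187) (nat_lit 3) (nat_lit 188) (nat_lit 5) (nat_lit 291) (nat_lit 290) (nat_lit 199)) (XT.nd (nat_lit 78) (nat_lit 0) (nat_lit 0) (XT.lf (nat_lit 76) (nat_lit 1042121923) (nat_lit 0) (nat_lit 5366025592) (nat_lit 1064) (nat_lit 4278265039) (nat_lit 175) (nat_lit 5) (nat_lit 174)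 (nat_lit 5) (nat_lit 188) (nat_lit 5) (nat_lit 292) (nat_lit 290) (nat_lit 198)) (XT.lf (nat_lit 76) (nat_lit 5766124752) (nat_lit 0) (nat_lit 1387331998) (nat_lit 1064) (nat_lit 3677309554) (nat_lit 175) (nat_lit 5) (nat_lit 174) (nat_lit 5) (nat_lit 188) (nat_lit 5) (nat_lit 293) (nat_lit 290) (nat_lit 197)))) (XT.nd (nat_lit 78) (nat_lit 0) (nat_lit 0) (XT.lf (nat_lit 0) (nat_lit 7925554879) (nat_lit 988) (nat_lit 386349661) (nat_lit 1064) (nat_lit 2667463036) (nat_lit 175) (nat_lit 5) (nat_lit 188) (nat_lit 5) (nat_lit 189) (nat_lit 5) (nat_lit 294) (nat_lit 290) (nat_lit 196)) (XT.nd (nat_lit 78) (nat_lit 0) (nat_lit 0) (XT.lf (nat_lit 76) (nat_lit 4493927802) (nat_lit 0) (nat_lit 4262824916) (nat_lit 1064) (nat_lit 2374644415) (nat_lit 176) (nat_lit 5) (nat_lit 175) (nat_lit 5) (nat_lit 189) (nat_lit 5) (nat_lit 295) (nat_lit 290) (nat_lit 195)) (XT.lf (nat_lit 76) (nat_lit 9516334223)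 (nat_lit 0) (nat_lit 79950381) (nat_lit 1064) (nat_lit 1692247969) (nat_lit 176) (nat_lit 5) (nat_lit 175) (nat_lit 5) (nat_lit 189) (nat_lit 5) (nat_lit 296) (nat_lit 290) (nat_lit 194))))) (XT.nd (nat_lit 234) (nat_lit 0) (nat_lit 0) (XT.nd (nat_lit 78) (nat_lit 988) (nat_lit 0) (XT.lf (nat_lit 76) (nat_lit 3249224671) (nat_lit 0) (nat_lit 7263828795) (nat_lit 1064) (nat_lit 935812652) (nat_lit 177) (nat_lit 5) (nat_lit 176) (nat_lit 5) (nat_lit 190) (nat_lit 5) (nat_lit 297) (nat_lit 290) (nat_lit 193)) (XT.nd (nat_lit 78) (nat_lit 988) (nat_lit 0) (XT.lf (nat_lit 76) (nat_lit 8444370453) (nat_lit 0) (nat_lit 3012263859) (nat_lit 1064) (nat_lit 157440337) (nat_lit 177) (nat_lit 5) (nat_lit 176) (nat_lit 5) (nat_lit 190) (nat_lit 5) (nat_lit 298) (nat_lit 290) (nat_lit 192)) (XT.lf (nat_lit 0) (nat_lit 645666335) (nat_lit 1064) (nat_lit 9765444633) (nat_lit 1140) (nat_lit 1372565711) (nat_lit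 163) (nat_lit 5) (nat_lit 177) (nat_lit 5) (nat_lit 178) (nat_lit 5) (nat_lit 299) (nat_lit 290) (nat_lit 191)))) (XT.nd (nat_lit 78) (nat_lit 0) (nat_lit 0) (XT.lf (nat_lit 0) (nat_lit 1513311403) (nat_lit 1064) (nat_lit 4575359294) (nat_lit 1140) (nat_lit 5868381513) (nat_lit 163) (nat_lit 5) (nat_lit 177) (nat_lit 5) (nat_lit 178) (nat_lit 5) (nat_lit 300) (nat_lit 290) (nat_lit 190)) (XT.nd (nat_lit 78) (nat_lit 0) (nat_lit 76) (XT.lf (nat_lit 76) (nat_lit 772854591) (nat_lit 0) (nat_lit 1623560858) (nat_lit 1140) (nat_lit 9739569981) (nat_lit 164) (nat_lit 5) (nat_lit 163) (nat_lit 5) (nat_lit 178) (nat_lit 5) (nat_lit 301) (nat_lit 290) (nat_lit 189)) (XT.lf (nat_lit 0) (nat_lit 3363727530) (nat_lit 1064) (nat_lit 5985800944) (nat_lit 1140) (nat_lit 2969064891) (nat_lit 164) (nat_lit 5) (nat_lit 178) (nat_lit 5) (nat_lit 179) (nat_lit 5) (nat_lit 302) (nat_lit 290) (nat_lit 188))))))))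
noncomputable def xc187 : XT := (XT.nd (nat_lit 1794) (nat_lit 3724) (nat_lit 0) (XT.nd (nat_lit 858) (nat_lit 2508) (nat_lit 0) (XT.nd (nat_lit 390) (nat_lit 2356) (nat_lit 0) (XT.nd (nat_lit 156) (nat_lit 0) (nat_lit 76) (XT.nd (nat_lit 78) (nat_lit 0) (nat_lit 0) (XT.lf (nat_lit 0) (nat_lit 4359097872) (nat_lit 1064) (nat_lit 475988966) (nat_lit 1140) (nat_lit 7671658588) (nat_lit 164) (nat_lit 5) (nat_lit 178) (nat_lit 5) (nat_lit 179) (nat_lit 5) (nat_lit 303) (nat_lit 290) (nat_lit 187)) (XT.lf (nat_lit 76) (nat_lit 5289952175) (nat_lit 0) (nat_lit 128687637) (nat_lit 1140) (nat_lit 7280908898) (nat_lit 165) (nat_lit 5) (nat_lit 164) (nat_lit 5) (nat_lit 179) (nat_lit 5) (nat_lit 304) (nat_lit 290) (nat_lit 186))) (XT.nd (nat_lit 78) (nat_lit 0) (nat_lit 0) (XT.lf (nat_lit 0) (nat_lit 6544044723) (nat_lit 1064) (nat_lit 1717599107) (nat_lit 1140) (nat_lit 4635504891) (nat_lit 165) (nat_lit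 5) (nat_lit 179) (nat_lit 5) (nat_lit 180) (nat_lit 5) (nat_lit 305) (nat_lit 290) (nat_lit 185)) (XT.nd (nat_lit 78) (nat_lit 0) (nat_lit 76) (XT.lf (nat_lit 76) (nat_lit 4213653798) (nat_lit 0) (nat_lit 3515667963) (nat_lit 1140) (nat_lit 5370605581) (nat_lit 166) (nat_lit 5) (nat_lit 165) (nat_lit 5) (nat_lit 180) (nat_lit 5) (nat_lit 306) (nat_lit 290) (nat_lit 184)) (XT.lf (nat_lit 0) (nat_lit 8965566605) (nat_lit 1064) (nat_lit 2976435880) (nat_lit 76) (nat_lit 1366357474) (nat_lit 166) (nat_lit 5) (nat_lit 180) (nat_lit 5) (nat_lit 167) (nat_lit 5) (nat_lit 307) (nat_lit 290) (nat_lit 183))))) (XT.nd (nat_lit 234) (nat_lit 608) (nat_lit 0) (XT.nd (nat_lit 78) (nat_lit 836) (nat_lit 0) (XT.lf (nat_lit 0) (nat_lit 3124377098) (nat_lit 1064) (nat_lit 7164507669) (nat_lit 1140) (nat_lit 3232693174) (nat_lit 152) (nat_lit 5) (nat_lit 166) (nat_lit 5) (nat_lit 167) (nat_lit 5) (nat_lit 308)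 (nat_lit 290) (nat_lit 182)) (XT.nd (nat_lit 78) (nat_lit 836) (nat_lit 0) (XT.lf (nat_lit 0) (nat_lit 9456871758) (nat_lit 1064) (nat_lit 2210544759) (nat_lit 1140) (nat_lit 2073341557) (nat_lit 152) (nat_lit 5) (nat_lit 166) (nat_lit 5) (nat_lit 167) (nat_lit 5) (nat_lit 309) (nat_lit 290) (nat_lit 181)) (XT.lf (nat_lit 0) (nat_lit 2011814459) (nat_lit 836) (nat_lit 11108530410) (nat_lit 912) (nat_lit 845207652) (nat_lit 141) (nat_lit 5) (nat_lit 152) (nat_lit 5) (nat_lit 153) (nat_lit 5) (nat_lit 310) (nat_lit 290) (nat_lit 180)))) (XT.nd (nat_lit 78) (nat_lit 532) (nat_lit 0) (XT.lf (nat_lit 0) (nat_lit 463181154) (nat_lit 912) (nat_lit 5650596387) (nat_lit 76) (nat_lit 8081672543) (nat_lit 140) (nat_lit 5) (nat_lit 152) (nat_lit 5) (nat_lit 141) (nat_lit 5) (nat_lit 311) (nat_lit 290) (nat_lit 179)) (XT.nd (nat_lit 78) (nat_lit 0) (nat_lit 0) (XT.lf (nat_lit 0) (nat_lit 837323843) (nat_lit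 532) (nat_lit 950994131) (nat_lit 608) (nat_lit 12643868597) (nat_lit 133) (nat_lit 5) (nat_lit 140) (nat_lit 5) (nat_lit 141) (nat_lit 5) (nat_lit 312) (nat_lit 290) (nat_lit 178)) (XT.lf (nat_lit 0) (nat_lit 3239533150) (nat_lit 608) (nat_lit 7093742254) (nat_lit 76) (nat_lit 4340186788) (nat_lit 133) (nat_lit 5) (nat_lit 141) (nat_lit 5) (nat_lit 134) (nat_lit 5) (nat_lit 313) (nat_lit 290) (nat_lit 177)))))) (XT.nd (nat_lit 468) (nat_lit 988) (nat_lit 0) (XT.nd (nat_lit 234) (nat_lit 988) (nat_lit 0) (XT.nd (nat_lit 78) (nat_lit 532) (nat_lit 0) (XT.lf (nat_lit 0) (nat_lit 4730811465) (nat_lit 608) (nat_lit 419239084) (nat_lit 76) (nat_lit 9772055723) (nat_lit 133) (nat_lit 5) (nat_lit 141) (nat_lit 5) (nat_lit 134) (nat_lit 5) (nat_lit 314) (nat_lit 290) (nat_lit 176)) (XT.nd (nat_lit 78) (nat_lit 0) (nat_lit 0) (XT.lf (nat_lit 0) (nat_lit 6319932388) (nat_lit 608) (nat_lit 8607299243) (nat_lit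 76) (nat_lit 249410149) (nat_lit 126) (nat_lit 5) (nat_lit 134) (nat_lit 5) (nat_lit 127) (nat_lit 5) (nat_lit 315) (nat_lit 290) (nat_lit 175)) (XT.lf (nat_lit 0) (nat_lit 7999735473) (nat_lit 608) (nat_lit 1725702750) (nat_lit 76) (nat_lit 5712109371) (nat_lit 126) (nat_lit 5) (nat_lit 134) (nat_lit 5) (nat_lit 127) (nat_lit 5) (nat_lit 316) (nat_lit 290) (nat_lit 174)))) (XT.nd (nat_lit 78) (nat_lit 532) (nat_lit 0) (XT.lf (nat_lit 0) (nat_lit 5457022477) (nat_lit 456) (nat_lit 4313465953) (nat_lit 532) (nat_lit 5934599264) (nat_lit 120) (nat_lit 5) (nat_lit 126) (nat_lit 5) (nat_lit 127) (nat_lit 5) (nat_lit 317) (nat_lit 290) (nat_lit 173)) (XT.nd (nat_lit 78) (nat_lit 532) (nat_lit 0) (XT.lf (nat_lit 0) (nat_lit 11612416501) (nat_lit 532) (nat_lit 3113881721) (nat_lit 76) (nat_lit 1253837290) (nat_lit 120) (nat_lit 5) (nat_lit 127) (nat_lit 5) (nat_lit 121) (nat_lit 5) (nat_lit 318) (nat_lit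 290) (nat_lit 172)) (XT.lf (nat_lit 0) (nat_lit 4263096965) (nat_lit 532) (nat_lit 9318865891) (nat_lit 608) (nat_lit 2679323515) (nat_lit 113) (nat_lit 5) (nat_lit 120) (nat_lit 5) (nat_lit 121) (nat_lit 5) (nat_lit 319) (nat_lit 290) (nat_lit 171))))) (XT.nd (nat_lit 234) (nat_lit 456) (nat_lit 0) (XT.nd (nat_lit 78) (nat_lit 532) (nat_lit 0) (XT.lf (nat_lit 0) (nat_lit 11913620245) (nat_lit 532) (nat_lit 3717311252) (nat_lit 608) (nat_lit 919351948) (nat_lit 113) (nat_lit 5) (nat_lit 120) (nat_lit 5) (nat_lit 121) (nat_lit 5) (nat_lit 320) (nat_lit 290) (nat_lit 170)) (XT.nd (nat_lit 78) (nat_lit 0) (nat_lit 0) (XT.lf (nat_lit 0) (nat_lit 913846646) (nat_lit 532) (nat_lit 13883421319) (nat_lit 76) (nat_lit 2049309488) (nat_lit 106) (nat_lit 5) (nat_lit 113) (nat_lit 5) (nat_lit 107) (nat_lit 5) (nat_lit 321) (nat_lit 290) (nat_lit 169)) (XT.lf (nat_lit 0) (nat_lit 2856942685) (nat_lit 532)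 (nat_lit 6322427694) (nat_lit 76) (nat_lit 7969935360) (nat_lit 106) (nat_lit 5) (nat_lit 113) (nat_lit 5) (nat_lit 107) (nat_lit 5) (nat_lit 322) (nat_lit 290) (nat_lit 168)))) (XT.nd (nat_lit 78) (nat_lit 0) (nat_lit 0) (XT.lf (nat_lit 0) (nat_lit 1482956854) (nat_lit 456) (nat_lit 3379231496) (nat_lit 532) (nat_lit 12598831160) (nat_lit 100) (nat_lit 5) (nat_lit 106) (nat_lit 5) (nat_lit 107) (nat_lit 5) (nat_lit 323) (nat_lit 290) (nat_lit 167)) (XT.nd (nat_lit 78) (nat_lit 0) (nat_lit 0) (XT.lf (nat_lit 0) (nat_lit 7006797537) (nat_lit 532) (nat_lit 8165218723) (nat_lit 76) (nat_lit 2607711026) (nat_lit 100) (nat_lit 5) (nat_lit 107) (nat_lit 5) (nat_lit 101) (nat_lit 5) (nat_lit 324) (nat_lit 290) (nat_lit 166)) (XT.lf (nat_lit 0) (nat_lit 9239286262) (nat_lit 532) (nat_lit 162689793) (nat_lit 76) (nat_lit 8705332232) (nat_lit 100) (nat_lit 5) (nat_lit 107) (nat_lit 5) (nat_lit 101) (nat_lit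 5) (nat_lit 325) (nat_lit 290) (nat_lit 165))))))) (XT.nd (nat_lit 936) (nat_lit 1444) (nat_lit 0) (XT.nd (nat_lit 468) (nat_lit 1064) (nat_lit 0) (XT.nd (nat_lit 234) (nat_lit 456) (nat_lit 0) (XT.nd (nat_lit 78) (nat_lit 380) (nat_lit 0) (XT.lf (nat_lit 0) (nat_lit 8229588792) (nat_lit 380) (nat_lit 3378641051) (nat_lit 456) (nat_lit 6834420166) (nat_lit 95) (nat_lit 5) (nat_lit 100) (nat_lit 5) (nat_lit 101) (nat_lit 5) (nat_lit 326) (nat_lit 290) (nat_lit 164)) (XT.nd (nat_lit 78) (nat_lit 380) (nat_lit 0) (XT.lf (nat_lit 0) (nat_lit 14067596094) (nat_lit 456) (nat_lit 1949303453) (nat_lit 76) (nat_lit 2770588986) (nat_lit 95) (nat_lit 5) (nat_lit 101) (nat_lit 5) (nat_lit 96) (nat_lit 5) (nat_lit 327) (nat_lit 290) (nat_lit 163)) (XT.lf (nat_lit 0) (nat_lit 6647866354) (nat_lit 380) (nat_lit 10041043715) (nat_lit 456) (nat_lit 2451133824) (nat_lit 90) (nat_lit 5) (nat_lit 95) (nat_lit 5)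 (nat_lit 96) (nat_lit 5) (nat_lit 328) (nat_lit 290) (nat_lit 162)))) (XT.nd (nat_lit 78) (nat_lit 456) (nat_lit 0) (XT.lf (nat_lit 0) (nat_lit 15532243068) (nat_lit 380) (nat_lit 3867281116) (nat_lit 456) (nat_lit 103348105) (nat_lit 90) (nat_lit 5) (nat_lit 95) (nat_lit 5) (nat_lit 96) (nat_lit 5) (nat_lit 329) (nat_lit 290) (nat_lit 161)) (XT.nd (nat_lit 78) (nat_lit 0) (nat_lit 0) (XT.lf (nat_lit 0) (nat_lit 2332257762) (nat_lit 456) (nat_lit 15030641347) (nat_lit 76) (nat_lit 2511157392) (nat_lit 84) (nat_lit 5) (nat_lit 90) (nat_lit 5) (nat_lit 85) (nat_lit 5) (nat_lit 330) (nat_lit 290) (nat_lit 160)) (XT.lf (nat_lit 0) (nat_lit 4908915336) (nat_lit 456) (nat_lit 6302312453) (nat_lit 76) (nat_lit 9043030754) (nat_lit 84) (nat_lit 5) (nat_lit 90) (nat_lit 5) (nat_lit 85) (nat_lit 5) (nat_lit 331) (nat_lit 290) (nat_lit 159))))) (XT.nd (nat_lit 234) (nat_lit 380) (nat_lit 0) (XT.nd (nat_lit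 78) (nat_lit 304) (nat_lit 0) (XT.lf (nat_lit 0) (nat_lit 2730761254) (nat_lit 380) (nat_lit 4849893418) (nat_lit 456) (nat_lit 13064692903) (nat_lit 79) (nat_lit 5) (nat_lit 84) (nat_lit 5) (nat_lit 85) (nat_lit 5) (nat_lit 332) (nat_lit 290) (nat_lit 158)) (XT.nd (nat_lit 78) (nat_lit 304) (nat_lit 0) (XT.lf (nat_lit 0) (nat_lit 10404841729) (nat_lit 456) (nat_lit 8909769915) (nat_lit 76) (nat_lit 1731402739) (nat_lit 79) (nat_lit 5) (nat_lit 85) (nat_lit 5) (nat_lit 80) (nat_lit 5) (nat_lit 333) (nat_lit 290) (nat_lit 157)) (XT.lf (nat_lit 0) (nat_lit 313053078) (nat_lit 304) (nat_lit 13043633271) (nat_lit 380) (nat_lit 8100740451) (nat_lit 75) (nat_lit 5) (nat_lit 79) (nat_lit 5) (nat_lit 80) (nat_lit 5) (nat_lit 334) (nat_lit 290) (nat_lit 156)))) (XT.nd (nat_lit 78) (nat_lit 380) (nat_lit 0) (XT.lf (nat_lit 0) (nat_lit 9985074632) (nat_lit 304) (nat_lit 6494025285) (nat_lit 380) (nat_lit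 5399634433) (nat_lit 75) (nat_lit 5) (nat_lit 79) (nat_lit 5) (nat_lit 80) (nat_lit 5) (nat_lit 335) (nat_lit 290) (nat_lit 155)) (XT.nd (nat_lit 78) (nat_lit 380) (nat_lit 0) (XT.lf (nat_lit 0) (nat_lit 19689862876) (nat_lit 380) (nat_lit 2377904358) (nat_lit 76) (nat_lit 245086368) (nat_lit 75) (nat_lit 5) (nat_lit 80) (nat_lit 5) (nat_lit 76) (nat_lit 5) (nat_lit 336) (nat_lit 290) (nat_lit 154)) (XT.lf (nat_lit 0) (nat_lit 362420264) (nat_lit 380) (nat_lit 15264170103) (nat_lit 76) (nat_lit 7129447031) (nat_lit 70) (nat_lit 5) (nat_lit 75) (nat_lit 5) (nat_lit 71) (nat_lit 5) (nat_lit 337) (nat_lit 290) (nat_lit 153)))))) (XT.nd (nat_lit 468) (nat_lit 836) (nat_lit 0) (XT.nd (nat_lit 234) (nat_lit 304) (nat_lit 0) (XT.nd (nat_lit 78) (nat_lit 304) (nat_lit 0) (XT.lf (nat_lit 0) (nat_lit 3401444600) (nat_lit 380) (nat_lit 5541356395) (nat_lit 76) (nat_lit 14268445191) (nat_lit 70) (nat_lit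 5) (nat_lit 75) (nat_lit 5) (nat_lit 71) (nat_lit 5) (nat_lit 338) (nat_lit 290) (nat_lit 152)) (XT.nd (nat_lit 78) (nat_lit 0) (nat_lit 0) (XT.lf (nat_lit 0) (nat_lit 4552433467) (nat_lit 304) (nat_lit 2015705436) (nat_lit 380) (nat_lit 17110888718) (nat_lit 66) (nat_lit 5) (nat_lit 70) (nat_lit 5) (nat_lit 71) (nat_lit 5) (nat_lit 339) (nat_lit 290) (nat_lit 151)) (XT.lf (nat_lit 0) (nat_lit 9928390752) (nat_lit 380) (nat_lit 9155949477) (nat_lit 76) (nat_lit 5073556597) (nat_lit 66) (nat_lit 5) (nat_lit 71) (nat_lit 5) (nat_lit 67) (nat_lit 5) (nat_lit 340) (nat_lit 290) (nat_lit 150)))) (XT.nd (nat_lit 78) (nat_lit 0) (nat_lit 0) (XT.lf (nat_lit 0) (nat_lit 1106069447) (nat_lit 304) (nat_lit 12307015981) (nat_lit 380) (nat_lit 11237348328) (nat_lit 62) (nat_lit 5) (nat_lit 66) (nat_lit 5) (nat_lit 67) (nat_lit 5) (nat_lit 341) (nat_lit 290) (nat_lit 149)) (XT.nd (nat_lit 78) (nat_lit 0) (nat_lit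 0) (XT.lf (nat_lit 0) (nat_lit 11854357788) (nat_lit 304) (nat_lit 5233579230) (nat_lit 380) (nat_lit 8067251689) (nat_lit 62) (nat_lit 5) (nat_lit 66) (nat_lit 5) (nat_lit 67) (nat_lit 5) (nat_lit 342) (nat_lit 290) (nat_lit 148)) (XT.lf (nat_lit 0) (nat_lit 20886095253) (nat_lit 380) (nat_lit 2778912657) (nat_lit 76) (nat_lit 2009696655) (nat_lit 62) (nat_lit 5) (nat_lit 67) (nat_lit 5) (nat_lit 63) (nat_lit 5) (nat_lit 343) (nat_lit 290) (nat_lit 147))))) (XT.nd (nat_lit 234) (nat_lit 228) (nat_lit 0) (XT.nd (nat_lit 78) (nat_lit 380) (nat_lit 0) (XT.lf (nat_lit 0) (nat_lit 8157092147) (nat_lit 228) (nat_lit 16764864215) (nat_lit 304) (nat_lit 1284146594) (nat_lit 59) (nat_lit 5) (nat_lit 62) (nat_lit 5) (nat_lit 63) (nat_lit 5) (nat_lit 344) (nat_lit 290) (nat_lit 146)) (XT.nd (nat_lit 78) (nat_lit 304) (nat_lit 0) (XT.lf (nat_lit 0) (nat_lit 2301972172) (nat_lit 304) (nat_lit 7306068360)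 (nat_lit 76) (nat_lit 17144084391) (nat_lit 58) (nat_lit 5) (nat_lit 62) (nat_lit 5) (nat_lit 59) (nat_lit 5) (nat_lit 345) (nat_lit 290) (nat_lit 145)) (XT.lf (nat_lit 0) (nat_lit 3812120212) (nat_lit 304) (nat_lit 2188136865) (nat_lit 380) (nat_lit 21312986229) (nat_lit 54) (nat_lit 5) (nat_lit 58) (nat_lit 5) (nat_lit 59) (nat_lit 5) (nat_lit 346) (nat_lit 290) (nat_lit 144)))) (XT.nd (nat_lit 78) (nat_lit 228) (nat_lit 0) (XT.lf (nat_lit 0) (nat_lit 9930252172) (nat_lit 380) (nat_lit 12537321437) (nat_lit 76) (nat_lit 5420007490) (nat_lit 54) (nat_lit 5) (nat_lit 59) (nat_lit 5) (nat_lit 55) (nat_lit 5) (nat_lit 347) (nat_lit 290) (nat_lit 143)) (XT.nd (nat_lit 78) (nat_lit 228) (nat_lit 0) (XT.lf (nat_lit 0) (nat_lit 13993815266) (nat_lit 380) (nat_lit 1274814178) (nat_lit 76) (nat_lit 13210057989) (nat_lit 54) (nat_lit 5) (nat_lit 59) (nat_lit 5) (nat_lit 55) (nat_lit 5) (nat_lit 348) (nat_lit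 290) (nat_lit 142)) (XT.lf (nat_lit 0) (nat_lit 10522607389) (nat_lit 228) (nat_lit 7752005686) (nat_lit 304) (nat_lit 10810062253) (nat_lit 51) (nat_lit 5) (nat_lit 54) (nat_lit 5) (nat_lit 55) (nat_lit 5) (nat_lit 349) (nat_lit 290) (nat_lit 141))))))))
noncomputable def xc188 : XT := (XT.nd (nat_lit 1794) (nat_lit 836) (nat_lit 0) (XT.nd (nat_lit 858) (nat_lit 760) (nat_lit 0) (XT.nd (nat_lit 390) (nat_lit 456) (nat_lit 0) (XT.nd (nat_lit 156) (nat_lit 304) (nat_lit 0) (XT.nd (nat_lit 78) (nat_lit 228) (nat_lit 0) (XT.lf (nat_lit 0) (nat_lit 22690985236) (nat_lit 304) (nat_lit 7016774679) (nat_lit 76) (nat_lit 876401) (nat_lit 51) (nat_lit 5) (nat_lit 55) (nat_lit 5) (nat_lit 52) (nat_lit 5) (nat_lit 350) (nat_lit 290) (nat_lit 140)) (XT.lf (nat_lit 0) (nat_lit 4885329392) (nat_lit 228) (nat_lit 22472644940) (nat_lit 304) (nat_lit 2989805764) (nat_lit 48) (nat_lit 5) (nat_lit 51) (nat_lit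 5) (nat_lit 52) (nat_lit 5) (nat_lit 351) (nat_lit 290) (nat_lit 139))) (XT.nd (nat_lit 78) (nat_lit 228) (nat_lit 0) (XT.lf (nat_lit 0) (nat_lit 1202254319) (nat_lit 304) (nat_lit 13735644475) (nat_lit 76) (nat_lit 16065892693) (nat_lit 47) (nat_lit 5) (nat_lit 51) (nat_lit 5) (nat_lit 48) (nat_lit 5) (nat_lit 352) (nat_lit 290) (nat_lit 138)) (XT.nd (nat_lit 78) (nat_lit 228) (nat_lit 0) (XT.lf (nat_lit 0) (nat_lit 5454582151) (nat_lit 304) (nat_lit 1694562494) (nat_lit 76) (nat_lit 24529619652) (nat_lit 47) (nat_lit 5) (nat_lit 51) (nat_lit 5) (nat_lit 48) (nat_lit 5) (nat_lit 353) (nat_lit 290) (nat_lit 137)) (XT.lf (nat_lit 0) (nat_lit 9943547256) (nat_lit 304) (nat_lit 21467404412) (nat_lit 76) (nat_lit 959769472) (nat_lit 44) (nat_lit 5) (nat_lit 48) (nat_lit 5) (nat_lit 45) (nat_lit 5) (nat_lit 354) (nat_lit 290) (nat_lit 136))))) (XT.nd (nat_lit 234) (nat_lit 228) (nat_lit 0) (XT.nd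 (nat_lit 78) (nat_lit 228) (nat_lit 0) (XT.lf (nat_lit 0) (nat_lit 14650057433) (nat_lit 304) (nat_lit 9247765281) (nat_lit 76) (nat_lit 9183134365) (nat_lit 44) (nat_lit 5) (nat_lit 48) (nat_lit 5) (nat_lit 45) (nat_lit 5) (nat_lit 355) (nat_lit 290) (nat_lit 135)) (XT.nd (nat_lit 78) (nat_lit 0) (nat_lit 0) (XT.lf (nat_lit 0) (nat_lit 3397222934) (nat_lit 228) (nat_lit 16128158618) (nat_lit 304) (nat_lit 14286296462) (nat_lit 41) (nat_lit 5) (nat_lit 44) (nat_lit 5) (nat_lit 45) (nat_lit 5) (nat_lit 356) (nat_lit 290) (nat_lit 134)) (XT.lf (nat_lit 0) (nat_lit 16603672616) (nat_lit 228) (nat_lit 8031714558) (nat_lit 304) (nat_lit 9926287038) (nat_lit 41) (nat_lit 5) (nat_lit 44) (nat_lit 5) (nat_lit 45) (nat_lit 5) (nat_lit 357) (nat_lit 290) (nat_lit 133)))) (XT.nd (nat_lit 78) (nat_lit 228) (nat_lit 0) (XT.lf (nat_lit 0) (nat_lit 29896808755) (nat_lit 304) (nat_lit 5138179989) (nat_lit 76)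 (nat_lit 299244185) (nat_lit 41) (nat_lit 5) (nat_lit 45) (nat_lit 5) (nat_lit 42) (nat_lit 5) (nat_lit 358) (nat_lit 290) (nat_lit 132)) (XT.nd (nat_lit 78) (nat_lit 76) (nat_lit 0) (XT.lf (nat_lit 0) (nat_lit 8138369431) (nat_lit 152) (nat_lit 27330756201) (nat_lit 228) (nat_lit 656257126) (nat_lit 39) (nat_lit 5) (nat_lit 41) (nat_lit 5) (nat_lit 42) (nat_lit 5) (nat_lit 359) (nat_lit 290) (nat_lit 131)) (XT.lf (nat_lit 0) (nat_lit 4232770459) (nat_lit 228) (nat_lit 15068893649) (nat_lit 76) (nat_lit 17635946173) (nat_lit 38) (nat_lit 5) (nat_lit 41) (nat_lit 5) (nat_lit 39) (nat_lit 5) (nat_lit 360) (nat_lit 290) (nat_lit 130)))))) (XT.nd (nat_lit 468) (nat_lit 380) (nat_lit 0) (XT.nd (nat_lit 234) (nat_lit 152) (nat_lit 0) (XT.nd (nat_lit 78) (nat_lit 228) (nat_lit 0) (XT.lf (nat_lit 0) (nat_lit 9250732198) (nat_lit 228) (nat_lit 1776701238) (nat_lit 76) (nat_lit 26746718088) (nat_lit 38)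 (nat_lit 5) (nat_lit 41) (nat_lit 5) (nat_lit 39) (nat_lit 5) (nat_lit 361) (nat_lit 290) (nat_lit 129)) (XT.nd (nat_lit 78) (nat_lit 0) (nat_lit 0) (XT.lf (nat_lit 0) (nat_lit 12144469121) (nat_lit 228) (nat_lit 2387089602) (nat_lit 304) (nat_lit 24100865771) (nat_lit 35) (nat_lit 5) (nat_lit 38) (nat_lit 5) (nat_lit 39) (nat_lit 5) (nat_lit 362) (nat_lit 290) (nat_lit 128)) (XT.lf (nat_lit 0) (nat_lit 20047158040) (nat_lit 304) (nat_lit 13065808394) (nat_lit 76) (nat_lit 6401193893) (nat_lit 35) (nat_lit 5) (nat_lit 39) (nat_lit 5) (nat_lit 36) (nat_lit 5) (nat_lit 363) (nat_lit 290) (nat_lit 127)))) (XT.nd (nat_lit 78) (nat_lit 0) (nat_lit 0) (XT.lf (nat_lit 0) (nat_lit 743253777) (nat_lit 152) (nat_lit 25011505445) (nat_lit 228) (nat_lit 14666797962) (nat_lit 33) (nat_lit 5) (nat_lit 35) (nat_lit 5) (nat_lit 36) (nat_lit 5) (nat_lit 364) (nat_lit 290) (nat_lit 126)) (XT.nd (nat_lit 78) (nat_lit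 0) (nat_lit 0) (XT.lf (nat_lit 0) (nat_lit 15227870735) (nat_lit 152) (nat_lit 16533472130) (nat_lit 228) (nat_lit 9591005268) (nat_lit 33) (nat_lit 5) (nat_lit 35) (nat_lit 5) (nat_lit 36) (nat_lit 5) (nat_lit 365) (nat_lit 290) (nat_lit 125)) (XT.lf (nat_lit 0) (nat_lit 30140663736) (nat_lit 152) (nat_lit 7803397545) (nat_lit 228) (nat_lit 4367128093) (nat_lit 33) (nat_lit 5) (nat_lit 35) (nat_lit 5) (nat_lit 36) (nat_lit 5) (nat_lit 366) (nat_lit 290) (nat_lit 124))))) (XT.nd (nat_lit 234) (nat_lit 152) (nat_lit 0) (XT.nd (nat_lit 78) (nat_lit 0) (nat_lit 0) (XT.lf (nat_lit 0) (nat_lit 1022845056) (nat_lit 228) (nat_lit 41080148630) (nat_lit 76) (nat_lit 1194639635) (nat_lit 30) (nat_lit 5) (nat_lit 33) (nat_lit 5) (nat_lit 31) (nat_lit 5) (nat_lit 367) (nat_lit 290) (nat_lit 123)) (XT.nd (nat_lit 78) (nat_lit 0) (nat_lit 0) (XT.lf (nat_lit 0) (nat_lit 6684165915) (nat_lit 228) (nat_lit 27151381497)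 (nat_lit 76) (nat_lit 10470907586) (nat_lit 30) (nat_lit 5) (nat_lit 33) (nat_lit 5) (nat_lit 31) (nat_lit 5) (nat_lit 368) (nat_lit 290) (nat_lit 122)) (XT.lf (nat_lit 0) (nat_lit 12511488382) (nat_lit 228) (nat_lit 12810867825) (nat_lit 76) (nat_lit 20023304417) (nat_lit 30) (nat_lit 5) (nat_lit 33) (nat_lit 5) (nat_lit 31) (nat_lit 5) (nat_lit 369) (nat_lit 290) (nat_lit 121)))) (XT.nd (nat_lit 78) (nat_lit 0) (nat_lit 0) (XT.lf (nat_lit 0) (nat_lit 1992809828) (nat_lit 152) (nat_lit 16536250570) (nat_lit 228) (nat_lit 27886523161) (nat_lit 28) (nat_lit 5) (nat_lit 30) (nat_lit 5) (nat_lit 31) (nat_lit 5) (nat_lit 370) (nat_lit 290) (nat_lit 120)) (XT.nd (nat_lit 78) (nat_lit 0) (nat_lit 0) (XT.lf (nat_lit 0) (nat_lit 17497327936) (nat_lit 152) (nat_lit 7355522063) (nat_lit 228) (nat_lit 22660987392) (nat_lit 28) (nat_lit 5) (nat_lit 30) (nat_lit 5) (nat_lit 31) (nat_lit 5) (nat_lit 371) (nat_lit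 290) (nat_lit 119)) (XT.lf (nat_lit 0) (nat_lit 31382958018) (nat_lit 228) (nat_lit 15204048849) (nat_lit 76) (nat_lit 2057537632) (nat_lit 28) (nat_lit 5) (nat_lit 31) (nat_lit 5) (nat_lit 29) (nat_lit 5) (nat_lit 372) (nat_lit 290) (nat_lit 118))))))) (XT.nd (nat_lit 858) (nat_lit 304) (nat_lit 0) (XT.nd (nat_lit 390) (nat_lit 152) (nat_lit 0) (XT.nd (nat_lit 156) (nat_lit 228) (nat_lit 0) (XT.nd (nat_lit 78) (nat_lit 152) (nat_lit 0) (XT.lf (nat_lit 0) (nat_lit 38178312934) (nat_lit 228) (nat_lit 25671548) (nat_lit 76) (nat_lit 11603111724) (nat_lit 28) (nat_lit 5) (nat_lit 31) (nat_lit 5) (nat_lit 29) (nat_lit 5) (nat_lit 373) (nat_lit 290) (nat_lit 117)) (XT.lf (nat_lit 0) (nat_lit 15913113038) (nat_lit 152) (nat_lit 29414000196) (nat_lit 228) (nat_lit 5672927275) (nat_lit 26) (nat_lit 5) (nat_lit 28) (nat_lit 5) (nat_lit 29) (nat_lit 5) (nat_lit 374) (nat_lit 290) (nat_lit 116))) (XT.nd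 (nat_lit 78) (nat_lit 152) (nat_lit 0) (XT.lf (nat_lit 0) (nat_lit 449486830) (nat_lit 228) (nat_lit 19908100832) (nat_lit 76) (nat_lit 31871149043) (nat_lit 25) (nat_lit 5) (nat_lit 28) (nat_lit 5) (nat_lit 26) (nat_lit 5) (nat_lit 375) (nat_lit 290) (nat_lit 115)) (XT.nd (nat_lit 78) (nat_lit 152) (nat_lit 0) (XT.lf (nat_lit 0) (nat_lit 6638279540) (nat_lit 228) (nat_lit 4335400370) (nat_lit 76) (nat_lit 42519030339) (nat_lit 25) (nat_lit 5) (nat_lit 28) (nat_lit 5) (nat_lit 26) (nat_lit 5) (nat_lit 376) (nat_lit 290) (nat_lit 114)) (XT.lf (nat_lit 0) (nat_lit 11932152037) (nat_lit 152) (nat_lit 1192104887) (nat_lit 228) (nat_lit 41667003636) (nat_lit 23) (nat_lit 5) (nat_lit 25) (nat_lit 5) (nat_lit 26) (nat_lit 5) (nat_lit 377) (nat_lit 290) (nat_lit 113))))) (XT.nd (nat_lit 234) (nat_lit 0) (nat_lit 0) (XT.nd (nat_lit 78) (nat_lit 152) (nat_lit 0) (XT.lf (nat_lit 0) (nat_lit 19931260231)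 (nat_lit 228) (nat_lit 27441868767) (nat_lit 76) (nat_lit 8751848078) (nat_lit 23) (nat_lit 5) (nat_lit 26) (nat_lit 5) (nat_lit 24) (nat_lit 5) (nat_lit 378) (nat_lit 290) (nat_lit 112)) (XT.nd (nat_lit 78) (nat_lit 152) (nat_lit 0) (XT.lf (nat_lit 0) (nat_lit 26951214583) (nat_lit 228) (nat_lit 11578959245) (nat_lit 76) (nat_lit 18968272035) (nat_lit 23) (nat_lit 5) (nat_lit 26) (nat_lit 5) (nat_lit 24) (nat_lit 5) (nat_lit 379) (nat_lit 290) (nat_lit 111)) (XT.lf (nat_lit 0) (nat_lit 4849572708) (nat_lit 152) (nat_lit 29375839032) (nat_lit 228) (nat_lit 24686400565) (nat_lit 21) (nat_lit 5) (nat_lit 23) (nat_lit 5) (nat_lit 24) (nat_lit 5) (nat_lit 380) (nat_lit 290) (nat_lit 110)))) (XT.nd (nat_lit 78) (nat_lit 0) (nat_lit 0) (XT.lf (nat_lit 0) (nat_lit 22003468463) (nat_lit 152) (nat_lit 19828358220) (nat_lit 228) (nat_lit 18532336133) (nat_lit 21) (nat_lit 5) (nat_lit 23) (nat_lit 5) (nat_lit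 24) (nat_lit 5) (nat_lit 381) (nat_lit 290) (nat_lit 109)) (XT.nd (nat_lit 78) (nat_lit 0) (nat_lit 0) (XT.lf (nat_lit 0) (nat_lit 39667272868) (nat_lit 152) (nat_lit 9996313718) (nat_lit 228) (nat_lit 12196585428) (nat_lit 21) (nat_lit 5) (nat_lit 23) (nat_lit 5) (nat_lit 24) (nat_lit 5) (nat_lit 382) (nat_lit 290) (nat_lit 108)) (XT.lf (nat_lit 0) (nat_lit 57728773663) (nat_lit 228) (nat_lit 5545965708) (nat_lit 76) (nat_lit 126370557) (nat_lit 21) (nat_lit 5) (nat_lit 24) (nat_lit 5) (nat_lit 22) (nat_lit 4) (nat_lit 383) (nat_lit 290) (nat_lit 107)))))) (XT.nd (nat_lit 33462) (nat_lit 0) (nat_lit 11932) (XT.nd (nat_lit 234) (nat_lit 152) (nat_lit 0) (XT.nd (nat_lit 78) (nat_lit 0) (nat_lit 0) (XT.lf (nat_lit 0) (nat_lit 1238250974) (nat_lit 152) (nat_lit 53268439728) (nat_lit 76) (nat_lit 10474954060) (nat_lit 19) (nat_lit 5) (nat_lit 21) (nat_lit 5) (nat_lit 20) (nat_lit 5) (nat_lit 384)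 (nat_lit 290) (nat_lit 106)) (XT.nd (nat_lit 78) (nat_lit 0) (nat_lit 0) (XT.lf (nat_lit 0) (nat_lit 8296011407) (nat_lit 152) (nat_lit 37065310117) (nat_lit 76) (nat_lit 21244975790) (nat_lit 19) (nat_lit 5) (nat_lit 21) (nat_lit 5) (nat_lit 20) (nat_lit 5) (nat_lit 385) (nat_lit 290) (nat_lit 105)) (XT.lf (nat_lit 0) (nat_lit 15562889167) (nat_lit 152) (nat_lit 20380471183) (nat_lit 76) (nat_lit 32336409928) (nat_lit 19) (nat_lit 5) (nat_lit 21) (nat_lit 5) (nat_lit 20) (nat_lit 5) (nat_lit 386) (nat_lit 290) (nat_lit 104)))) (XT.nd (nat_lit 78) (nat_lit 152) (nat_lit 0) (XT.lf (nat_lit 0) (nat_lit 23045233954) (nat_lit 152) (nat_lit 3199343940) (nat_lit 76) (nat_lit 43758948018) (nat_lit 19) (nat_lit 5) (nat_lit 21) (nat_lit 5) (nat_lit 20) (nat_lit 5) (nat_lit 387) (nat_lit 290) (nat_lit 103)) (XT.nd (nat_lit 33072) (nat_lit 0) (nat_lit 11932) (XT.lf (nat_lit 0) (nat_lit 14781525039) (nat_lit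 152) (nat_lit 16110147760) (nat_lit 228) (nat_lit 40883134940) (nat_lit 17) (nat_lit 5) (nat_lit 19) (nat_lit 5) (nat_lit 20) (nat_lit 5) (nat_lit 388) (nat_lit 290) (nat_lit 102)) (XT.lf (nat_lit 0) (nat_lit 1584447600) (nat_lit 0) (nat_lit 1584447600) (nat_lit 988) (nat_lit 2172997380) (nat_lit 174) (nat_lit 5) (nat_lit 174) (nat_lit 3) (nat_lit 187) (nat_lit 3) (nat_lit 291) (nat_lit 291) (nat_lit 198))))) (XT.nd (nat_lit 234) (nat_lit 0) (nat_lit 76) (XT.nd (nat_lit 78) (nat_lit 0) (nat_lit 0) (XT.lf (nat_lit 0) (nat_lit 6997487020) (nat_lit 988) (nat_lit 2981770887) (nat_lit 1064) (nat_lit 846569131) (nat_lit 174) (nat_lit 5) (nat_lit 187) (nat_lit 3) (nat_lit 188) (nat_lit 5) (nat_lit 292) (nat_lit 291) (nat_lit 197)) (XT.nd (nat_lit 78) (nat_lit 0) (nat_lit 0) (XT.lf (nat_lit 76) (nat_lit 1677029936) (nat_lit 0) (nat_lit 6025832787) (nat_lit 1064) (nat_lit 3268540602) (nat_lit 175) (nat_lit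 5) (nat_lit 174) (nat_lit 5) (nat_lit 188) (nat_lit 5) (nat_lit 293) (nat_lit 291) (nat_lit 196)) (XT.lf (nat_lit 76) (nat_lit 6525170976) (nat_lit 0) (nat_lit 1913249459) (nat_lit 1064) (nat_lit 2682704192) (nat_lit 175) (nat_lit 5) (nat_lit 174) (nat_lit 5) (nat_lit 188) (nat_lit 5) (nat_lit 294) (nat_lit 291) (nat_lit 195)))) (XT.nd (nat_lit 78) (nat_lit 0) (nat_lit 0) (XT.lf (nat_lit 76) (nat_lit 213292349) (nat_lit 0) (nat_lit 8986744151) (nat_lit 1064) (nat_lit 2075228259) (nat_lit 176) (nat_lit 5) (nat_lit 175) (nat_lit 5) (nat_lit 189) (nat_lit 5) (nat_lit 295) (nat_lit 291) (nat_lit 194)) (XT.nd (nat_lit 78) (nat_lit 0) (nat_lit 0) (XT.lf (nat_lit 76) (nat_lit 5229864365) (nat_lit 0) (nat_lit 4799898070) (nat_lit 1064) (nat_lit 1402954393) (nat_lit 176) (nat_lit 5) (nat_lit 175) (nat_lit 5) (nat_lit 189) (nat_lit 5) (nat_lit 296) (nat_lit 291) (nat_lit 193)) (XT.lf (nat_lit 76) (nat_lit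 10385434666) (nat_lit 0) (nat_lit 479619190) (nat_lit 1064) (nat_lit 730462637) (nat_lit 176) (nat_lit 5) (nat_lit 175) (nat_lit 5) (nat_lit 189) (nat_lit 5) (nat_lit 297) (nat_lit 291) (nat_lit 192))))))))
noncomputable def xc189 : XT := (XT.nd (nat_lit 1794) (nat_lit 3876) (nat_lit 0) (XT.nd (nat_lit 858) (nat_lit 3724) (nat_lit 0) (XT.nd (nat_lit 390) (nat_lit 0) (nat_lit 152) (XT.nd (nat_lit 156) (nat_lit 0) (nat_lit 76) (XT.nd (nat_lit 78) (nat_lit 0) (nat_lit 0) (XT.lf (nat_lit 0) (nat_lit 21006652) (nat_lit 1064) (nat_lit 7801989852) (nat_lit 1140) (nat_lit 3938514291) (nat_lit 162) (nat_lit 5) (nat_lit 176) (nat_lit 5) (nat_lit 177) (nat_lit 5) (nat_lit 298) (nat_lit 291) (nat_lit 191)) (XT.lf (nat_lit 0) (nat_lit 778947232) (nat_lit 1064) (nat_lit 2647338093) (nat_lit 1140) (nat_lit 8506064861) (nat_lit 162) (nat_lit 5) (nat_lit 176) (nat_lit 5) (nat_lit 177) (nat_lit 5) (nat_lit 299)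 (nat_lit 291) (nat_lit 190))) (XT.nd (nat_lit 78) (nat_lit 0) (nat_lit 0) (XT.lf (nat_lit 0) (nat_lit 1578578720) (nat_lit 1064) (nat_lit 9416110349) (nat_lit 1140) (nat_lit 1113096420) (nat_lit 163) (nat_lit 5) (nat_lit 177) (nat_lit 5) (nat_lit 178) (nat_lit 5) (nat_lit 300) (nat_lit 291) (nat_lit 189)) (XT.nd (nat_lit 78) (nat_lit 0) (nat_lit 0) (XT.lf (nat_lit 0) (nat_lit 2445645109) (nat_lit 1064) (nat_lit 4089030148) (nat_lit 1140) (nat_lit 5752543382) (nat_lit 163) (nat_lit 5) (nat_lit 177) (nat_lit 5) (nat_lit 178) (nat_lit 5) (nat_lit 301) (nat_lit 291) (nat_lit 188)) (XT.lf (nat_lit 76) (nat_lit 1413516527) (nat_lit 0) (nat_lit 1921828270) (nat_lit 1140) (nat_lit 9136828404) (nat_lit 164) (nat_lit 5) (nat_lit 163) (nat_lit 5) (nat_lit 178) (nat_lit 5) (nat_lit 302) (nat_lit 291) (nat_lit 187))))) (XT.nd (nat_lit 234) (nat_lit 0) (nat_lit 76) (XT.nd (nat_lit 78) (nat_lit 0) (nat_lit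 0) (XT.lf (nat_lit 0) (nat_lit 4304093681) (nat_lit 1064) (nat_lit 5536474955) (nat_lit 1140) (nat_lit 2820572992) (nat_lit 164) (nat_lit 5) (nat_lit 178) (nat_lit 5) (nat_lit 179) (nat_lit 5) (nat_lit 303) (nat_lit 291) (nat_lit 186)) (XT.nd (nat_lit 78) (nat_lit 0) (nat_lit 0) (XT.lf (nat_lit 76) (nat_lit 122708389) (nat_lit 0) (nat_lit 5183346167) (nat_lit 1140) (nat_lit 7549634995) (nat_lit 165) (nat_lit 5) (nat_lit 164) (nat_lit 5) (nat_lit 179) (nat_lit 5) (nat_lit 304) (nat_lit 291) (nat_lit 185)) (XT.lf (nat_lit 76) (nat_lit 6053247179) (nat_lit 0) (nat_lit 325029792) (nat_lit 1140) (nat_lit 6676624769) (nat_lit 165) (nat_lit 5) (nat_lit 164) (nat_lit 5) (nat_lit 179) (nat_lit 5) (nat_lit 305) (nat_lit 291) (nat_lit 184)))) (XT.nd (nat_lit 78) (nat_lit 0) (nat_lit 0) (XT.lf (nat_lit 0) (nat_lit 7512431806) (nat_lit 1064) (nat_lit 1155457060) (nat_lit 1140) (nat_lit 4591341380) (nat_lit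 165) (nat_lit 5) (nat_lit 179) (nat_lit 5) (nat_lit 180) (nat_lit 5) (nat_lit 306) (nat_lit 291) (nat_lit 183)) (XT.nd (nat_lit 78) (nat_lit 0) (nat_lit 76) (XT.lf (nat_lit 76) (nat_lit 4947717059) (nat_lit 0) (nat_lit 3768903883) (nat_lit 1140) (nat_lit 4752019339) (nat_lit 166) (nat_lit 5) (nat_lit 165) (nat_lit 5) (nat_lit 180) (nat_lit 5) (nat_lit 307) (nat_lit 291) (nat_lit 182)) (XT.lf (nat_lit 0) (nat_lit 9966571577) (nat_lit 1064) (nat_lit 2450817361) (nat_lit 76) (nat_lit 1266685638) (nat_lit 166) (nat_lit 5) (nat_lit 180) (nat_lit 5) (nat_lit 167) (nat_lit 5) (nat_lit 308) (nat_lit 291) (nat_lit 181)))))) (XT.nd (nat_lit 468) (nat_lit 1520) (nat_lit 0) (XT.nd (nat_lit 234) (nat_lit 608) (nat_lit 0) (XT.nd (nat_lit 78) (nat_lit 836) (nat_lit 0) (XT.lf (nat_lit 0) (nat_lit 3826991463) (nat_lit 1064) (nat_lit 7487129283) (nat_lit 1140) (nat_lit 2590078282) (nat_lit 152) (nat_lit 5) (nat_lit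 166) (nat_lit 5) (nat_lit 167) (nat_lit 5) (nat_lit 309) (nat_lit 291) (nat_lit 180)) (XT.nd (nat_lit 78) (nat_lit 836) (nat_lit 0) (XT.lf (nat_lit 0) (nat_lit 10331726504) (nat_lit 1064) (nat_lit 2381410989) (nat_lit 1140) (nat_lit 1417487739) (nat_lit 152) (nat_lit 5) (nat_lit 166) (nat_lit 5) (nat_lit 167) (nat_lit 5) (nat_lit 310) (nat_lit 291) (nat_lit 179)) (XT.lf (nat_lit 0) (nat_lit 2680653468) (nat_lit 836) (nat_lit 11513610566) (nat_lit 912) (nat_lit 168404410) (nat_lit 141) (nat_lit 5) (nat_lit 152) (nat_lit 5) (nat_lit 153) (nat_lit 5) (nat_lit 311) (nat_lit 291) (nat_lit 178)))) (XT.nd (nat_lit 78) (nat_lit 532) (nat_lit 0) (XT.lf (nat_lit 0) (nat_lit 1145482231) (nat_lit 912) (nat_lit 5214691325) (nat_lit 76) (nat_lit 8239729215) (nat_lit 140) (nat_lit 5) (nat_lit 152) (nat_lit 5) (nat_lit 141) (nat_lit 5) (nat_lit 312) (nat_lit 291) (nat_lit 177)) (XT.nd (nat_lit 78) (nat_lit 0)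 (nat_lit 0) (XT.lf (nat_lit 0) (nat_lit 1461930992) (nat_lit 532) (nat_lit 1034736677) (nat_lit 608) (nat_lit 12347524419) (nat_lit 133) (nat_lit 5) (nat_lit 140) (nat_lit 5) (nat_lit 141) (nat_lit 5) (nat_lit 313) (nat_lit 291) (nat_lit 176)) (XT.lf (nat_lit 0) (nat_lit 3971835084) (nat_lit 608) (nat_lit 6703663016) (nat_lit 76) (nat_lit 4417833825) (nat_lit 133) (nat_lit 5) (nat_lit 141) (nat_lit 5) (nat_lit 134) (nat_lit 5) (nat_lit 314) (nat_lit 291) (nat_lit 175))))) (XT.nd (nat_lit 234) (nat_lit 988) (nat_lit 0) (XT.nd (nat_lit 78) (nat_lit 0) (nat_lit 0) (XT.lf (nat_lit 0) (nat_lit 156570558) (nat_lit 532) (nat_lit 5334287720) (nat_lit 608) (nat_lit 9859124154) (nat_lit 126) (nat_lit 5) (nat_lit 133) (nat_lit 5) (nat_lit 134) (nat_lit 5) (nat_lit 315) (nat_lit 291) (nat_lit 174)) (XT.nd (nat_lit 78) (nat_lit 0) (nat_lit 0) (XT.lf (nat_lit 0) (nat_lit 7113522632) (nat_lit 608) (nat_lit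 8266354376) (nat_lit 76) (nat_lit 232737118) (nat_lit 126) (nat_lit 5) (nat_lit 134) (nat_lit 5) (nat_lit 127) (nat_lit 5) (nat_lit 316) (nat_lit 291) (nat_lit 173)) (XT.lf (nat_lit 0) (nat_lit 8826127801) (nat_lit 608) (nat_lit 1195761362) (nat_lit 76) (nat_lit 5860020870) (nat_lit 126) (nat_lit 5) (nat_lit 134) (nat_lit 5) (nat_lit 127) (nat_lit 5) (nat_lit 317) (nat_lit 291) (nat_lit 172)))) (XT.nd (nat_lit 78) (nat_lit 532) (nat_lit 0) (XT.lf (nat_lit 0) (nat_lit 6196742558) (nat_lit 456) (nat_lit 4441718124) (nat_lit 532) (nat_lit 5519396069) (nat_lit 120) (nat_lit 5) (nat_lit 126) (nat_lit 5) (nat_lit 127) (nat_lit 5) (nat_lit 318) (nat_lit 291) (nat_lit 171)) (XT.nd (nat_lit 78) (nat_lit 532) (nat_lit 0) (XT.lf (nat_lit 0) (nat_lit 12518913920) (nat_lit 532) (nat_lit 2630228359) (nat_lit 76) (nat_lit 1292548847) (nat_lit 120) (nat_lit 5) (nat_lit 127) (nat_lit 5) (nat_lit 121) (nat_lit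 5) (nat_lit 319) (nat_lit 291) (nat_lit 170)) (XT.lf (nat_lit 0) (nat_lit 4962402141) (nat_lit 532) (nat_lit 9574381223) (nat_lit 608) (nat_lit 2194848221) (nat_lit 113) (nat_lit 5) (nat_lit 120) (nat_lit 5) (nat_lit 121) (nat_lit 5) (nat_lit 320) (nat_lit 291) (nat_lit 169))))))) (XT.nd (nat_lit 936) (nat_lit 1672) (nat_lit 0) (XT.nd (nat_lit 468) (nat_lit 836) (nat_lit 0) (XT.nd (nat_lit 234) (nat_lit 836) (nat_lit 0) (XT.nd (nat_lit 78) (nat_lit 532) (nat_lit 0) (XT.lf (nat_lit 0) (nat_lit 12825798043) (nat_lit 532) (nat_lit 3805480449) (nat_lit 608) (nat_lit 398529594) (nat_lit 113) (nat_lit 5) (nat_lit 120) (nat_lit 5) (nat_lit 121) (nat_lit 5) (nat_lit 321) (nat_lit 291) (nat_lit 168)) (XT.nd (nat_lit 78) (nat_lit 0) (nat_lit 0) (XT.lf (nat_lit 0) (nat_lit 1469016388) (nat_lit 532) (nat_lit 13722513723) (nat_lit 76) (nat_lit 2143630521) (nat_lit 106) (nat_lit 5) (nat_lit 113) (nat_lit 5)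 (nat_lit 107) (nat_lit 5) (nat_lit 322) (nat_lit 291) (nat_lit 167)) (XT.lf (nat_lit 0) (nat_lit 3455033823) (nat_lit 532) (nat_lit 5951508063) (nat_lit 76) (nat_lit 8240918613) (nat_lit 106) (nat_lit 5) (nat_lit 113) (nat_lit 5) (nat_lit 107) (nat_lit 5) (nat_lit 323) (nat_lit 291) (nat_lit 166)))) (XT.nd (nat_lit 78) (nat_lit 380) (nat_lit 0) (XT.lf (nat_lit 0) (nat_lit 2082542018) (nat_lit 456) (nat_lit 3428306995) (nat_lit 532) (nat_lit 12457992061) (nat_lit 100) (nat_lit 5) (nat_lit 106) (nat_lit 5) (nat_lit 107) (nat_lit 5) (nat_lit 324) (nat_lit 291) (nat_lit 165)) (XT.nd (nat_lit 78) (nat_lit 380) (nat_lit 0) (XT.lf (nat_lit 0) (nat_lit 7705640070) (nat_lit 532) (nat_lit 7856192055) (nat_lit 76) (nat_lit 2735729597) (nat_lit 100) (nat_lit 5) (nat_lit 107) (nat_lit 5) (nat_lit 101) (nat_lit 5) (nat_lit 325) (nat_lit 291) (nat_lit 164)) (XT.lf (nat_lit 0) (nat_lit 377646553) (nat_lit 380)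 (nat_lit 9616854880) (nat_lit 456) (nat_lit 8640812941) (nat_lit 95) (nat_lit 5) (nat_lit 100) (nat_lit 5) (nat_lit 101) (nat_lit 5) (nat_lit 326) (nat_lit 291) (nat_lit 163))))) (XT.nd (nat_lit 234) (nat_lit 456) (nat_lit 0) (XT.nd (nat_lit 78) (nat_lit 380) (nat_lit 0) (XT.lf (nat_lit 0) (nat_lit 9009051234) (nat_lit 380) (nat_lit 3413133690) (nat_lit 456) (nat_lit 6558926675) (nat_lit 95) (nat_lit 5) (nat_lit 100) (nat_lit 5) (nat_lit 101) (nat_lit 5) (nat_lit 327) (nat_lit 291) (nat_lit 162)) (XT.nd (nat_lit 78) (nat_lit 380) (nat_lit 0) (XT.lf (nat_lit 0) (nat_lit 14942391888) (nat_lit 456) (nat_lit 1476957387) (nat_lit 76) (nat_lit 2917358873) (nat_lit 95) (nat_lit 5) (nat_lit 101) (nat_lit 5) (nat_lit 96) (nat_lit 5) (nat_lit 328) (nat_lit 291) (nat_lit 161)) (XT.lf (nat_lit 0) (nat_lit 7372923347) (nat_lit 380) (nat_lit 10261287111) (nat_lit 456) (nat_lit 2065897697) (nat_lit 90) (nat_lit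 5) (nat_lit 95) (nat_lit 5) (nat_lit 96) (nat_lit 5) (nat_lit 329) (nat_lit 291) (nat_lit 160)))) (XT.nd (nat_lit 78) (nat_lit 380) (nat_lit 0) (XT.lf (nat_lit 0) (nat_lit 332345037) (nat_lit 456) (nat_lit 3568969435) (nat_lit 76) (nat_lit 16172820941) (nat_lit 89) (nat_lit 5) (nat_lit 95) (nat_lit 5) (nat_lit 90) (nat_lit 5) (nat_lit 330) (nat_lit 291) (nat_lit 159)) (XT.nd (nat_lit 78) (nat_lit 0) (nat_lit 0) (XT.lf (nat_lit 0) (nat_lit 2831993172) (nat_lit 456) (nat_lit 14954126118) (nat_lit 76) (nat_lit 2670535537) (nat_lit 84) (nat_lit 5) (nat_lit 90) (nat_lit 5) (nat_lit 85) (nat_lit 5) (nat_lit 331) (nat_lit 291) (nat_lit 158)) (XT.lf (nat_lit 0) (nat_lit 5473432967) (nat_lit 456) (nat_lit 5979309527) (nat_lit 76) (nat_lit 9395917233) (nat_lit 84) (nat_lit 5) (nat_lit 90) (nat_lit 5) (nat_lit 85) (nat_lit 5) (nat_lit 332) (nat_lit 291) (nat_lit 157)))))) (XT.nd (nat_lit 468) (nat_lit 608)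 (nat_lit 0) (XT.nd (nat_lit 234) (nat_lit 380) (nat_lit 0) (XT.nd (nat_lit 78) (nat_lit 304) (nat_lit 0) (XT.lf (nat_lit 0) (nat_lit 3319736075) (nat_lit 380) (nat_lit 4898309585) (nat_lit 456) (nat_lit 13033674788) (nat_lit 79) (nat_lit 5) (nat_lit 84) (nat_lit 5) (nat_lit 85) (nat_lit 5) (nat_lit 333) (nat_lit 291) (nat_lit 156)) (XT.nd (nat_lit 78) (nat_lit 304) (nat_lit 0) (XT.lf (nat_lit 0) (nat_lit 11115923433) (nat_lit 456) (nat_lit 8673076274) (nat_lit 76) (nat_lit 1875758649) (nat_lit 79) (nat_lit 5) (nat_lit 85) (nat_lit 5) (nat_lit 80) (nat_lit 5) (nat_lit 334) (nat_lit 291) (nat_lit 155)) (XT.lf (nat_lit 0) (nat_lit 821490362) (nat_lit 304) (nat_lit 13328010654) (nat_lit 380) (nat_lit 7939236268) (nat_lit 75) (nat_lit 5) (nat_lit 79) (nat_lit 5) (nat_lit 80) (nat_lit 5) (nat_lit 335) (nat_lit 291) (nat_lit 154)))) (XT.nd (nat_lit 78) (nat_lit 380) (nat_lit 0) (XT.lf (nat_lit 0) (nat_lit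 10769137251) (nat_lit 304) (nat_lit 6585028941) (nat_lit 380) (nat_lit 5168879392) (nat_lit 75) (nat_lit 5) (nat_lit 79) (nat_lit 5) (nat_lit 80) (nat_lit 5) (nat_lit 336) (nat_lit 291) (nat_lit 153)) (XT.nd (nat_lit 78) (nat_lit 380) (nat_lit 0) (XT.lf (nat_lit 0) (nat_lit 20651132773) (nat_lit 380) (nat_lit 1968112147) (nat_lit 76) (nat_lit 351265422) (nat_lit 75) (nat_lit 5) (nat_lit 80) (nat_lit 5) (nat_lit 76) (nat_lit 5) (nat_lit 337) (nat_lit 291) (nat_lit 152)) (XT.lf (nat_lit 0) (nat_lit 741842805) (nat_lit 380) (nat_lit 15237771415) (nat_lit 76) (nat_lit 7447471266) (nat_lit 70) (nat_lit 5) (nat_lit 75) (nat_lit 5) (nat_lit 71) (nat_lit 5) (nat_lit 338) (nat_lit 291) (nat_lit 151))))) (XT.nd (nat_lit 234) (nat_lit 304) (nat_lit 0) (XT.nd (nat_lit 78) (nat_lit 304) (nat_lit 0) (XT.lf (nat_lit 0) (nat_lit 3861303407) (nat_lit 380) (nat_lit 5237379814) (nat_lit 76) (nat_lit 14797606143)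 (nat_lit 70) (nat_lit 5) (nat_lit 75) (nat_lit 5) (nat_lit 71) (nat_lit 5) (nat_lit 339) (nat_lit 291) (nat_lit 150)) (XT.nd (nat_lit 78) (nat_lit 0) (nat_lit 0) (XT.lf (nat_lit 0) (nat_lit 5154613770) (nat_lit 304) (nat_lit 1962438660) (nat_lit 380) (nat_lit 17261246497) (nat_lit 66) (nat_lit 5) (nat_lit 70) (nat_lit 5) (nat_lit 71) (nat_lit 5) (nat_lit 340) (nat_lit 291) (nat_lit 149)) (XT.lf (nat_lit 0) (nat_lit 10568924687) (nat_lit 380) (nat_lit 8968867279) (nat_lit 76) (nat_lit 5334033685) (nat_lit 66) (nat_lit 5) (nat_lit 71) (nat_lit 5) (nat_lit 67) (nat_lit 5) (nat_lit 341) (nat_lit 291) (nat_lit 148)))) (XT.nd (nat_lit 78) (nat_lit 0) (nat_lit 0) (XT.lf (nat_lit 0) (nat_lit 1596485147) (nat_lit 304) (nat_lit 12556089230) (nat_lit 380) (nat_lit 11226747253) (nat_lit 62) (nat_lit 5) (nat_lit 66) (nat_lit 5) (nat_lit 67) (nat_lit 5) (nat_lit 342) (nat_lit 291) (nat_lit 147)) (XT.nd (nat_lit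 78) (nat_lit 0) (nat_lit 0) (XT.lf (nat_lit 0) (nat_lit 12653904654) (nat_lit 304) (nat_lit 5273948519) (nat_lit 380) (nat_lit 7971675527) (nat_lit 62) (nat_lit 5) (nat_lit 66) (nat_lit 5) (nat_lit 67) (nat_lit 5) (nat_lit 343) (nat_lit 291) (nat_lit 146)) (XT.lf (nat_lit 0) (nat_lit 21831512327) (nat_lit 380) (nat_lit 2422366830) (nat_lit 76) (nat_lit 2181018679) (nat_lit 62) (nat_lit 5) (nat_lit 67) (nat_lit 5) (nat_lit 63) (nat_lit 5) (nat_lit 344) (nat_lit 291) (nat_lit 145))))))))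
noncomputable def xc190 : XT := (XT.nd (nat_lit 1794) (nat_lit 1064) (nat_lit 0) (XT.nd (nat_lit 858) (nat_lit 836) (nat_lit 0) (XT.nd (nat_lit 390) (nat_lit 760) (nat_lit 0) (XT.nd (nat_lit 156) (nat_lit 304) (nat_lit 0) (XT.nd (nat_lit 78) (nat_lit 76) (nat_lit 0) (XT.lf (nat_lit 0) (nat_lit 8837405243) (nat_lit 228) (nat_lit 17145944848) (nat_lit 304) (nat_lit 999055125) (nat_lit 59) (nat_lit 5) (nat_lit 62) (nat_lit 5) (nat_lit 63) (nat_lit 5) (nat_lit 345) (nat_lit 291) (nat_lit 144)) (XT.lf (nat_lit 0) (nat_lit 2679090518) (nat_lit 304) (nat_lit 7095764618) (nat_lit 76) (nat_lit 17770149892) (nat_lit 58) (nat_lit 5) (nat_lit 62) (nat_lit 5) (nat_lit 59) (nat_lit 5) (nat_lit 346) (nat_lit 291) (nat_lit 143))) (XT.nd (nat_lit 78) (nat_lit 0) (nat_lit 0) (XT.lf (nat_lit 0) (nat_lit 4351758967) (nat_lit 304) (nat_lit 2131680411) (nat_lit 380) (nat_lit 21639676993) (nat_lit 54) (nat_lit 5) (nat_lit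 58) (nat_lit 5) (nat_lit 59) (nat_lit 5) (nat_lit 347) (nat_lit 291) (nat_lit 142)) (XT.nd (nat_lit 78) (nat_lit 0) (nat_lit 0) (XT.lf (nat_lit 0) (nat_lit 10523643517) (nat_lit 380) (nat_lit 12492445276) (nat_lit 76) (nat_lit 5698838722) (nat_lit 54) (nat_lit 5) (nat_lit 59) (nat_lit 5) (nat_lit 55) (nat_lit 5) (nat_lit 348) (nat_lit 291) (nat_lit 141)) (XT.lf (nat_lit 0) (nat_lit 14700507180) (nat_lit 380) (nat_lit 904324813) (nat_lit 76) (nat_lit 13719205367) (nat_lit 54) (nat_lit 5) (nat_lit 59) (nat_lit 5) (nat_lit 55) (nat_lit 5) (nat_lit 349) (nat_lit 291) (nat_lit 140))))) (XT.nd (nat_lit 234) (nat_lit 304) (nat_lit 0) (XT.nd (nat_lit 78) (nat_lit 228) (nat_lit 0) (XT.lf (nat_lit 0) (nat_lit 11243012207) (nat_lit 228) (nat_lit 7862251543) (nat_lit 304) (nat_lit 10843086877) (nat_lit 51) (nat_lit 5) (nat_lit 54) (nat_lit 5) (nat_lit 55) (nat_lit 5) (nat_lit 350) (nat_lit 291) (nat_lit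 139)) (XT.nd (nat_lit 78) (nat_lit 228) (nat_lit 0) (XT.lf (nat_lit 0) (nat_lit 23647042989) (nat_lit 304) (nat_lit 6826874232) (nat_lit 76) (nat_lit 117337180) (nat_lit 51) (nat_lit 5) (nat_lit 55) (nat_lit 5) (nat_lit 52) (nat_lit 5) (nat_lit 351) (nat_lit 291) (nat_lit 138)) (XT.lf (nat_lit 0) (nat_lit 5428367435) (nat_lit 228) (nat_lit 23021466246) (nat_lit 304) (nat_lit 2799876157) (nat_lit 48) (nat_lit 5) (nat_lit 51) (nat_lit 5) (nat_lit 52) (nat_lit 5) (nat_lit 352) (nat_lit 291) (nat_lit 137)))) (XT.nd (nat_lit 78) (nat_lit 228) (nat_lit 0) (XT.lf (nat_lit 0) (nat_lit 1504503805) (nat_lit 304) (nat_lit 13757137201) (nat_lit 76) (nat_lit 16663929956) (nat_lit 47) (nat_lit 5) (nat_lit 51) (nat_lit 5) (nat_lit 48) (nat_lit 5) (nat_lit 353) (nat_lit 291) (nat_lit 136)) (XT.nd (nat_lit 78) (nat_lit 228) (nat_lit 0) (XT.lf (nat_lit 0) (nat_lit 5876648603) (nat_lit 304) (nat_lit 1366198777)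 (nat_lit 76) (nat_lit 25378188322) (nat_lit 47) (nat_lit 5) (nat_lit 51) (nat_lit 5) (nat_lit 48) (nat_lit 5) (nat_lit 354) (nat_lit 291) (nat_lit 135)) (XT.lf (nat_lit 0) (nat_lit 10497527828) (nat_lit 304) (nat_lit 21729142329) (nat_lit 76) (nat_lit 1107173602) (nat_lit 44) (nat_lit 5) (nat_lit 48) (nat_lit 5) (nat_lit 45) (nat_lit 5) (nat_lit 355) (nat_lit 291) (nat_lit 134)))))) (XT.nd (nat_lit 468) (nat_lit 380) (nat_lit 0) (XT.nd (nat_lit 234) (nat_lit 228) (nat_lit 0) (XT.nd (nat_lit 78) (nat_lit 228) (nat_lit 0) (XT.lf (nat_lit 0) (nat_lit 15337786490) (nat_lit 304) (nat_lit 9154048516) (nat_lit 76) (nat_lit 9573784750) (nat_lit 44) (nat_lit 5) (nat_lit 48) (nat_lit 5) (nat_lit 45) (nat_lit 5) (nat_lit 356) (nat_lit 291) (nat_lit 133)) (XT.nd (nat_lit 78) (nat_lit 0) (nat_lit 0) (XT.lf (nat_lit 0) (nat_lit 3866650622) (nat_lit 228) (nat_lit 16489022529) (nat_lit 304) (nat_lit 14462709382)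 (nat_lit 41) (nat_lit 5) (nat_lit 44) (nat_lit 5) (nat_lit 45) (nat_lit 5) (nat_lit 357) (nat_lit 291) (nat_lit 132)) (XT.lf (nat_lit 0) (nat_lit 17458589591) (nat_lit 228) (nat_lit 8153267113) (nat_lit 304) (nat_lit 9979244607) (nat_lit 41) (nat_lit 5) (nat_lit 44) (nat_lit 5) (nat_lit 45) (nat_lit 5) (nat_lit 358) (nat_lit 291) (nat_lit 131)))) (XT.nd (nat_lit 78) (nat_lit 228) (nat_lit 0) (XT.lf (nat_lit 0) (nat_lit 31025320445) (nat_lit 304) (nat_lit 4939818410) (nat_lit 76) (nat_lit 421880714) (nat_lit 41) (nat_lit 5) (nat_lit 45) (nat_lit 5) (nat_lit 42) (nat_lit 5) (nat_lit 359) (nat_lit 291) (nat_lit 130)) (XT.nd (nat_lit 78) (nat_lit 76) (nat_lit 0) (XT.lf (nat_lit 0) (nat_lit 8731571543) (nat_lit 152) (nat_lit 28029844730) (nat_lit 228) (nat_lit 440597843) (nat_lit 39) (nat_lit 5) (nat_lit 41) (nat_lit 5) (nat_lit 42) (nat_lit 5) (nat_lit 360) (nat_lit 291) (nat_lit 129)) (XT.lf (nat_lit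 0) (nat_lit 4583787096) (nat_lit 228) (nat_lit 15177349921) (nat_lit 76) (nat_lit 18277613230) (nat_lit 38) (nat_lit 5) (nat_lit 41) (nat_lit 5) (nat_lit 39) (nat_lit 5) (nat_lit 361) (nat_lit 291) (nat_lit 128))))) (XT.nd (nat_lit 234) (nat_lit 152) (nat_lit 0) (XT.nd (nat_lit 78) (nat_lit 228) (nat_lit 0) (XT.lf (nat_lit 0) (nat_lit 9745762439) (nat_lit 228) (nat_lit 1496399812) (nat_lit 76) (nat_lit 27658429021) (nat_lit 38) (nat_lit 5) (nat_lit 41) (nat_lit 5) (nat_lit 39) (nat_lit 5) (nat_lit 362) (nat_lit 291) (nat_lit 127)) (XT.nd (nat_lit 78) (nat_lit 0) (nat_lit 0) (XT.lf (nat_lit 0) (nat_lit 12839135046) (nat_lit 228) (nat_lit 2342718873) (nat_lit 304) (nat_lit 24602860867) (nat_lit 35) (nat_lit 5) (nat_lit 38) (nat_lit 5) (nat_lit 39) (nat_lit 5) (nat_lit 363) (nat_lit 291) (nat_lit 126)) (XT.lf (nat_lit 0) (nat_lit 20857760487) (nat_lit 304) (nat_lit 13131666732) (nat_lit 76) (nat_lit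 6703637636) (nat_lit 35) (nat_lit 5) (nat_lit 39) (nat_lit 5) (nat_lit 36) (nat_lit 5) (nat_lit 364) (nat_lit 291) (nat_lit 125)))) (XT.nd (nat_lit 78) (nat_lit 0) (nat_lit 0) (XT.lf (nat_lit 0) (nat_lit 1088470089) (nat_lit 152) (nat_lit 25645130862) (nat_lit 228) (nat_lit 14894179454) (nat_lit 33) (nat_lit 5) (nat_lit 35) (nat_lit 5) (nat_lit 36) (nat_lit 5) (nat_lit 365) (nat_lit 291) (nat_lit 124)) (XT.nd (nat_lit 78) (nat_lit 0) (nat_lit 0) (XT.lf (nat_lit 0) (nat_lit 15998220158) (nat_lit 152) (nat_lit 16916156152) (nat_lit 228) (nat_lit 9672305866) (nat_lit 33) (nat_lit 5) (nat_lit 35) (nat_lit 5) (nat_lit 36) (nat_lit 5) (nat_lit 366) (nat_lit 291) (nat_lit 123)) (XT.lf (nat_lit 0) (nat_lit 31349265493) (nat_lit 152) (nat_lit 7927479916) (nat_lit 228) (nat_lit 4297724887) (nat_lit 33) (nat_lit 5) (nat_lit 35) (nat_lit 5) (nat_lit 36) (nat_lit 5) (nat_lit 367) (nat_lit 291) (nat_lit 122)))))))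 (XT.nd (nat_lit 936) (nat_lit 304) (nat_lit 0) (XT.nd (nat_lit 468) (nat_lit 380) (nat_lit 0) (XT.nd (nat_lit 234) (nat_lit 152) (nat_lit 0) (XT.nd (nat_lit 78) (nat_lit 0) (nat_lit 0) (XT.lf (nat_lit 0) (nat_lit 1248323995) (nat_lit 228) (nat_lit 42002119375) (nat_lit 76) (nat_lit 1340064104) (nat_lit 30) (nat_lit 5) (nat_lit 33) (nat_lit 5) (nat_lit 31) (nat_lit 5) (nat_lit 368) (nat_lit 291) (nat_lit 121)) (XT.nd (nat_lit 78) (nat_lit 0) (nat_lit 0) (XT.lf (nat_lit 0) (nat_lit 7073810880) (nat_lit 228) (nat_lit 27664530987) (nat_lit 76) (nat_lit 10891428290) (nat_lit 30) (nat_lit 5) (nat_lit 33) (nat_lit 5) (nat_lit 31) (nat_lit 5) (nat_lit 369) (nat_lit 291) (nat_lit 120)) (XT.lf (nat_lit 0) (nat_lit 13070444672) (nat_lit 228) (nat_lit 12902580311) (nat_lit 76) (nat_lit 20727298187) (nat_lit 30) (nat_lit 5) (nat_lit 33) (nat_lit 5) (nat_lit 31) (nat_lit 5) (nat_lit 370) (nat_lit 291) (nat_lit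 119)))) (XT.nd (nat_lit 78) (nat_lit 0) (nat_lit 0) (XT.lf (nat_lit 0) (nat_lit 2342338911) (nat_lit 152) (nat_lit 16923642230) (nat_lit 228) (nat_lit 28536445328) (nat_lit 28) (nat_lit 5) (nat_lit 30) (nat_lit 5) (nat_lit 31) (nat_lit 5) (nat_lit 371) (nat_lit 291) (nat_lit 118)) (XT.nd (nat_lit 78) (nat_lit 0) (nat_lit 0) (XT.lf (nat_lit 0) (nat_lit 18303553394) (nat_lit 152) (nat_lit 7470657766) (nat_lit 228) (nat_lit 23159580578) (nat_lit 28) (nat_lit 5) (nat_lit 30) (nat_lit 5) (nat_lit 31) (nat_lit 5) (nat_lit 372) (nat_lit 291) (nat_lit 117)) (XT.lf (nat_lit 0) (nat_lit 32496087612) (nat_lit 228) (nat_lit 15382741212) (nat_lit 76) (nat_lit 2219720741) (nat_lit 28) (nat_lit 5) (nat_lit 31) (nat_lit 5) (nat_lit 29) (nat_lit 5) (nat_lit 373) (nat_lit 291) (nat_lit 116))))) (XT.nd (nat_lit 234) (nat_lit 152) (nat_lit 0) (XT.nd (nat_lit 78) (nat_lit 76) (nat_lit 0) (XT.lf (nat_lit 0) (nat_lit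 247741273) (nat_lit 152) (nat_lit 39244944095) (nat_lit 228) (nat_lit 11803376292) (nat_lit 26) (nat_lit 5) (nat_lit 28) (nat_lit 5) (nat_lit 29) (nat_lit 5) (nat_lit 374) (nat_lit 291) (nat_lit 115)) (XT.nd (nat_lit 78) (nat_lit 76) (nat_lit 0) (XT.lf (nat_lit 0) (nat_lit 16657214400) (nat_lit 152) (nat_lit 30194063958) (nat_lit 228) (nat_lit 5673661221) (nat_lit 26) (nat_lit 5) (nat_lit 28) (nat_lit 5) (nat_lit 29) (nat_lit 5) (nat_lit 375) (nat_lit 291) (nat_lit 114)) (XT.lf (nat_lit 0) (nat_lit 624279413) (nat_lit 228) (nat_lit 20243031991) (nat_lit 76) (nat_lit 32923286419) (nat_lit 25) (nat_lit 5) (nat_lit 28) (nat_lit 5) (nat_lit 26) (nat_lit 5) (nat_lit 376) (nat_lit 291) (nat_lit 113)))) (XT.nd (nat_lit 78) (nat_lit 152) (nat_lit 0) (XT.lf (nat_lit 0) (nat_lit 6994037613) (nat_lit 228) (nat_lit 4210790667) (nat_lit 76) (nat_lit 43887807953) (nat_lit 25) (nat_lit 5) (nat_lit 28) (nat_lit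 5) (nat_lit 26) (nat_lit 5) (nat_lit 377) (nat_lit 291) (nat_lit 112)) (XT.nd (nat_lit 78) (nat_lit 0) (nat_lit 0) (XT.lf (nat_lit 0) (nat_lit 12542291531) (nat_lit 152) (nat_lit 1130165400) (nat_lit 228) (nat_lit 42757754818) (nat_lit 23) (nat_lit 5) (nat_lit 25) (nat_lit 5) (nat_lit 26) (nat_lit 5) (nat_lit 378) (nat_lit 291) (nat_lit 111)) (XT.lf (nat_lit 0) (nat_lit 20680082967) (nat_lit 228) (nat_lit 28016559410) (nat_lit 76) (nat_lit 9107409446) (nat_lit 23) (nat_lit 5) (nat_lit 26) (nat_lit 5) (nat_lit 24) (nat_lit 5) (nat_lit 379) (nat_lit 291) (nat_lit 110)))))) (XT.nd (nat_lit 468) (nat_lit 0) (nat_lit 0) (XT.nd (nat_lit 234) (nat_lit 152) (nat_lit 0) (XT.nd (nat_lit 78) (nat_lit 152) (nat_lit 0) (XT.lf (nat_lit 0) (nat_lit 27906241243) (nat_lit 228) (nat_lit 11685002372) (nat_lit 76) (nat_lit 19627617210) (nat_lit 23) (nat_lit 5) (nat_lit 26) (nat_lit 5) (nat_lit 24) (nat_lit 5) (nat_lit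 380) (nat_lit 291) (nat_lit 109)) (XT.nd (nat_lit 78) (nat_lit 0) (nat_lit 0) (XT.lf (nat_lit 0) (nat_lit 5234019602) (nat_lit 152) (nat_lit 30162675034) (nat_lit 228) (nat_lit 25277996901) (nat_lit 21) (nat_lit 5) (nat_lit 23) (nat_lit 5) (nat_lit 24) (nat_lit 5) (nat_lit 381) (nat_lit 291) (nat_lit 108)) (XT.lf (nat_lit 0) (nat_lit 22895572238) (nat_lit 152) (nat_lit 20331520453) (nat_lit 228) (nat_lit 18943650215) (nat_lit 21) (nat_lit 5) (nat_lit 23) (nat_lit 5) (nat_lit 24) (nat_lit 5) (nat_lit 382) (nat_lit 291) (nat_lit 107)))) (XT.nd (nat_lit 78) (nat_lit 152) (nat_lit 0) (XT.lf (nat_lit 0) (nat_lit 41082533502) (nat_lit 152) (nat_lit 10207185155) (nat_lit 228) (nat_lit 12422040272) (nat_lit 21) (nat_lit 5) (nat_lit 23) (nat_lit 5) (nat_lit 24) (nat_lit 5) (nat_lit 383) (nat_lit 291) (nat_lit 106)) (XT.nd (nat_lit 78) (nat_lit 152) (nat_lit 0) (XT.lf (nat_lit 0) (nat_lit 59593724415)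 (nat_lit 228) (nat_lit 5490398079) (nat_lit 76) (nat_lit 214900424) (nat_lit 21) (nat_lit 5) (nat_lit 24) (nat_lit 5) (nat_lit 22) (nat_lit 4) (nat_lit 384) (nat_lit 291) (nat_lit 105)) (XT.lf (nat_lit 0) (nat_lit 1408144059) (nat_lit 152) (nat_lit 54643960017) (nat_lit 76) (nat_lit 10874887311) (nat_lit 19) (nat_lit 5) (nat_lit 21) (nat_lit 5) (nat_lit 20) (nat_lit 5) (nat_lit 385) (nat_lit 291) (nat_lit 104))))) (XT.nd (nat_lit 33306) (nat_lit 0) (nat_lit 11780) (XT.nd (nat_lit 78) (nat_lit 0) (nat_lit 0) (XT.lf (nat_lit 0) (nat_lit 8673770929) (nat_lit 152) (nat_lit 37961218058) (nat_lit 76) (nat_lit 21965514024) (nat_lit 19) (nat_lit 5) (nat_lit 21) (nat_lit 5) (nat_lit 20) (nat_lit 5) (nat_lit 386) (nat_lit 291) (nat_lit 103)) (XT.nd (nat_lit 78) (nat_lit 0) (nat_lit 0) (XT.lf (nat_lit 0) (nat_lit 16154901260) (nat_lit 152) (nat_lit 20782126714) (nat_lit 76) (nat_lit 33387268206) (nat_lit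 19) (nat_lit 5) (nat_lit 21) (nat_lit 5) (nat_lit 20) (nat_lit 5) (nat_lit 387) (nat_lit 291) (nat_lit 102)) (XT.lf (nat_lit 0) (nat_lit 23858071961) (nat_lit 152) (nat_lit 3091675129) (nat_lit 76) (nat_lit 45150130032) (nat_lit 19) (nat_lit 5) (nat_lit 21) (nat_lit 5) (nat_lit 20) (nat_lit 5) (nat_lit 388) (nat_lit 291) (nat_lit 101)))) (XT.nd (nat_lit 78) (nat_lit 0) (nat_lit 0) (XT.lf (nat_lit 0) (nat_lit 1907472168) (nat_lit 0) (nat_lit 1907472168) (nat_lit 988) (nat_lit 1669411810) (nat_lit 174) (nat_lit 5) (nat_lit 174) (nat_lit 3) (nat_lit 187) (nat_lit 3) (nat_lit 292) (nat_lit 292) (nat_lit 196)) (XT.nd (nat_lit 78) (nat_lit 0) (nat_lit 0) (XT.lf (nat_lit 0) (nat_lit 8272138022) (nat_lit 988) (nat_lit 2496597722) (nat_lit 1064) (nat_lit 347470445) (nat_lit 174) (nat_lit 5) (nat_lit 187) (nat_lit 3) (nat_lit 188) (nat_lit 5) (nat_lit 293) (nat_lit 292) (nat_lit 195)) (XT.lf (nat_lit 76)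 (nat_lit 2296333534) (nat_lit 0) (nat_lit 6676799520) (nat_lit 1064) (nat_lit 2293854442) (nat_lit 175) (nat_lit 5) (nat_lit 174) (nat_lit 5) (nat_lit 188) (nat_lit 5) (nat_lit 294) (nat_lit 292) (nat_lit 194))))))))
noncomputable def xc191 : XT := (XT.nd (nat_lit 1794) (nat_lit 4560) (nat_lit 0) (XT.nd (nat_lit 858) (nat_lit 2660) (nat_lit 0) (XT.nd (nat_lit 390) (nat_lit 0) (nat_lit 76) (XT.nd (nat_lit 156) (nat_lit 988) (nat_lit 0) (XT.nd (nat_lit 78) (nat_lit 0) (nat_lit 76) (XT.lf (nat_lit 76) (nat_lit 7273346202) (nat_lit 0) (nat_lit 2427143787) (nat_lit 1064) (nat_lit 1721687863) (nat_lit 175) (nat_lit 5) (nat_lit 174) (nat_lit 5) (nat_lit 188) (nat_lit 5) (nat_lit 295) (nat_lit 292) (nat_lit 193)) (XT.lf (nat_lit 76) (nat_lit 803301536) (nat_lit 0) (nat_lit 9653616773) (nat_lit 1064) (nat_lit 1124932336) (nat_lit 176) (nat_lit 5) (nat_lit 175) (nat_lit 5) (nat_lit 189) (nat_lit 5) (nat_lit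 296) (nat_lit 292) (nat_lit 192))) (XT.nd (nat_lit 78) (nat_lit 1064) (nat_lit 0) (XT.lf (nat_lit 76) (nat_lit 5953372350) (nat_lit 0) (nat_lit 5329594330) (nat_lit 1064) (nat_lit 461982082) (nat_lit 176) (nat_lit 5) (nat_lit 175) (nat_lit 5) (nat_lit 189) (nat_lit 5) (nat_lit 297) (nat_lit 292) (nat_lit 191)) (XT.nd (nat_lit 78) (nat_lit 0) (nat_lit 76) (XT.lf (nat_lit 0) (nat_lit 198108828) (nat_lit 1064) (nat_lit 668363783) (nat_lit 1140) (nat_lit 11046997157) (nat_lit 161) (nat_lit 5) (nat_lit 175) (nat_lit 5) (nat_lit 176) (nat_lit 5) (nat_lit 298) (nat_lit 292) (nat_lit 190)) (XT.lf (nat_lit 0) (nat_lit 932264410) (nat_lit 1064) (nat_lit 7438089922) (nat_lit 1140) (nat_lit 3714687742) (nat_lit 162) (nat_lit 5) (nat_lit 176) (nat_lit 5) (nat_lit 177) (nat_lit 5) (nat_lit 299) (nat_lit 292) (nat_lit 189))))) (XT.nd (nat_lit 234) (nat_lit 0) (nat_lit 76) (XT.nd (nat_lit 78) (nat_lit 0) (nat_lit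 76) (XT.lf (nat_lit 0) (nat_lit 1686420074) (nat_lit 1064) (nat_lit 2146214910) (nat_lit 1140) (nat_lit 8429225469) (nat_lit 162) (nat_lit 5) (nat_lit 176) (nat_lit 5) (nat_lit 177) (nat_lit 5) (nat_lit 300) (nat_lit 292) (nat_lit 188)) (XT.nd (nat_lit 78) (nat_lit 0) (nat_lit 0) (XT.lf (nat_lit 0) (nat_lit 2487037406) (nat_lit 1064) (nat_lit 9093166548) (nat_lit 1140) (nat_lit 863101375) (nat_lit 163) (nat_lit 5) (nat_lit 177) (nat_lit 5) (nat_lit 178) (nat_lit 5) (nat_lit 301) (nat_lit 292) (nat_lit 187)) (XT.lf (nat_lit 0) (nat_lit 3355035166) (nat_lit 1064) (nat_lit 3623907741) (nat_lit 1140) (nat_lit 5649985764) (nat_lit 163) (nat_lit 5) (nat_lit 177) (nat_lit 5) (nat_lit 178) (nat_lit 5) (nat_lit 302) (nat_lit 292) (nat_lit 186)))) (XT.nd (nat_lit 78) (nat_lit 0) (nat_lit 76) (XT.lf (nat_lit 76) (nat_lit 2037952655) (nat_lit 0) (nat_lit 2214717905) (nat_lit 1140) (nat_lit 8567377148) (nat_lit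 164) (nat_lit 5) (nat_lit 163) (nat_lit 5) (nat_lit 178) (nat_lit 5) (nat_lit 303) (nat_lit 292) (nat_lit 185)) (XT.nd (nat_lit 78) (nat_lit 0) (nat_lit 0) (XT.lf (nat_lit 0) (nat_lit 5224482705) (nat_lit 1064) (nat_lit 5109770619) (nat_lit 1140) (nat_lit 2681263474) (nat_lit 164) (nat_lit 5) (nat_lit 178) (nat_lit 5) (nat_lit 179) (nat_lit 5) (nat_lit 304) (nat_lit 292) (nat_lit 184)) (XT.lf (nat_lit 76) (nat_lit 713376474) (nat_lit 0) (nat_lit 5525721819) (nat_lit 1140) (nat_lit 6977375117) (nat_lit 165) (nat_lit 5) (nat_lit 164) (nat_lit 5) (nat_lit 179) (nat_lit 5) (nat_lit 305) (nat_lit 292) (nat_lit 183)))))) (XT.nd (nat_lit 468) (nat_lit 1976) (nat_lit 0) (XT.nd (nat_lit 234) (nat_lit 912) (nat_lit 0) (XT.nd (nat_lit 78) (nat_lit 0) (nat_lit 76) (XT.lf (nat_lit 76) (nat_lit 6804734724) (nat_lit 0) (nat_lit 516212985) (nat_lit 1140) (nat_lit 6101439116) (nat_lit 165) (nat_lit 5) (nat_lit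 164) (nat_lit 5) (nat_lit 179) (nat_lit 5) (nat_lit 306) (nat_lit 292) (nat_lit 182)) (XT.nd (nat_lit 78) (nat_lit 0) (nat_lit 0) (XT.lf (nat_lit 0) (nat_lit 8465550770) (nat_lit 1064) (nat_lit 611677922) (nat_lit 1140) (nat_lit 4556371038) (nat_lit 165) (nat_lit 5) (nat_lit 179) (nat_lit 5) (nat_lit 180) (nat_lit 5) (nat_lit 307) (nat_lit 292) (nat_lit 181)) (XT.lf (nat_lit 76) (nat_lit 5668920413) (nat_lit 0) (nat_lit 4021254515) (nat_lit 1140) (nat_lit 4159633732) (nat_lit 166) (nat_lit 5) (nat_lit 165) (nat_lit 5) (nat_lit 180) (nat_lit 5) (nat_lit 308) (nat_lit 292) (nat_lit 180)))) (XT.nd (nat_lit 78) (nat_lit 1064) (nat_lit 0) (XT.lf (nat_lit 0) (nat_lit 10955584723) (nat_lit 1064) (nat_lit 1944728727) (nat_lit 76) (nat_lit 1172098254) (nat_lit 166) (nat_lit 5) (nat_lit 180) (nat_lit 5) (nat_lit 167) (nat_lit 5) (nat_lit 309) (nat_lit 292) (nat_lit 179)) (XT.nd (nat_lit 78) (nat_lit 0)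 (nat_lit 0) (XT.lf (nat_lit 0) (nat_lit 4515731880) (nat_lit 1064) (nat_lit 7813247907) (nat_lit 1140) (nat_lit 1970640762) (nat_lit 152) (nat_lit 5) (nat_lit 166) (nat_lit 5) (nat_lit 167) (nat_lit 5) (nat_lit 310) (nat_lit 292) (nat_lit 178)) (XT.lf (nat_lit 0) (nat_lit 11198892545) (nat_lit 1064) (nat_lit 2551401615) (nat_lit 1140) (nat_lit 783177546) (nat_lit 152) (nat_lit 5) (nat_lit 166) (nat_lit 5) (nat_lit 167) (nat_lit 5) (nat_lit 311) (nat_lit 292) (nat_lit 177))))) (XT.nd (nat_lit 234) (nat_lit 532) (nat_lit 0) (XT.nd (nat_lit 78) (nat_lit 532) (nat_lit 0) (XT.lf (nat_lit 0) (nat_lit 478865735) (nat_lit 912) (nat_lit 11443018781) (nat_lit 76) (nat_lit 2850926803) (nat_lit 140) (nat_lit 5) (nat_lit 152) (nat_lit 5) (nat_lit 141) (nat_lit 5) (nat_lit 312) (nat_lit 292) (nat_lit 176)) (XT.nd (nat_lit 78) (nat_lit 532) (nat_lit 0) (XT.lf (nat_lit 0) (nat_lit 1809883121) (nat_lit 912) (nat_lit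 4800462866) (nat_lit 76) (nat_lit 8407372120) (nat_lit 140) (nat_lit 5) (nat_lit 152) (nat_lit 5) (nat_lit 141) (nat_lit 5) (nat_lit 313) (nat_lit 292) (nat_lit 175)) (XT.lf (nat_lit 0) (nat_lit 2070863324) (nat_lit 532) (nat_lit 1117822064) (nat_lit 608) (nat_lit 12081075578) (nat_lit 133) (nat_lit 5) (nat_lit 140) (nat_lit 5) (nat_lit 141) (nat_lit 5) (nat_lit 314) (nat_lit 292) (nat_lit 174)))) (XT.nd (nat_lit 78) (nat_lit 532) (nat_lit 0) (XT.lf (nat_lit 0) (nat_lit 4689647823) (nat_lit 608) (nat_lit 6336489839) (nat_lit 76) (nat_lit 4500827351) (nat_lit 133) (nat_lit 5) (nat_lit 141) (nat_lit 5) (nat_lit 134) (nat_lit 5) (nat_lit 315) (nat_lit 292) (nat_lit 173)) (XT.nd (nat_lit 78) (nat_lit 0) (nat_lit 0) (XT.lf (nat_lit 0) (nat_lit 723979339) (nat_lit 532) (nat_lit 5518234870) (nat_lit 608) (nat_lit 9549496810) (nat_lit 126) (nat_lit 5) (nat_lit 133) (nat_lit 5) (nat_lit 134) (nat_lit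 5) (nat_lit 316) (nat_lit 292) (nat_lit 172)) (XT.lf (nat_lit 0) (nat_lit 7896248955) (nat_lit 608) (nat_lit 7949575618) (nat_lit 76) (nat_lit 216950511) (nat_lit 126) (nat_lit 5) (nat_lit 134) (nat_lit 5) (nat_lit 127) (nat_lit 5) (nat_lit 317) (nat_lit 292) (nat_lit 171))))))) (XT.nd (nat_lit 936) (nat_lit 2204) (nat_lit 0) (XT.nd (nat_lit 468) (nat_lit 836) (nat_lit 0) (XT.nd (nat_lit 234) (nat_lit 1064) (nat_lit 0) (XT.nd (nat_lit 78) (nat_lit 456) (nat_lit 0) (XT.lf (nat_lit 0) (nat_lit 9643650126) (nat_lit 608) (nat_lit 683314408) (nat_lit 76) (nat_lit 6013715942) (nat_lit 126) (nat_lit 5) (nat_lit 134) (nat_lit 5) (nat_lit 127) (nat_lit 5) (nat_lit 318) (nat_lit 292) (nat_lit 170)) (XT.nd (nat_lit 78) (nat_lit 0) (nat_lit 0) (XT.lf (nat_lit 0) (nat_lit 6925588945) (nat_lit 456) (nat_lit 4573883979) (nat_lit 532) (nat_lit 5125791249) (nat_lit 120) (nat_lit 5) (nat_lit 126) (nat_lit 5) (nat_lit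 127) (nat_lit 5) (nat_lit 319) (nat_lit 292) (nat_lit 169)) (XT.lf (nat_lit 0) (nat_lit 13420567607) (nat_lit 532) (nat_lit 2165191564) (nat_lit 76) (nat_lit 1332358811) (nat_lit 120) (nat_lit 5) (nat_lit 127) (nat_lit 5) (nat_lit 121) (nat_lit 5) (nat_lit 320) (nat_lit 292) (nat_lit 168)))) (XT.nd (nat_lit 78) (nat_lit 532) (nat_lit 0) (XT.lf (nat_lit 0) (nat_lit 5649885070) (nat_lit 532) (nat_lit 9838942621) (nat_lit 608) (nat_lit 1728263656) (nat_lit 113) (nat_lit 5) (nat_lit 120) (nat_lit 5) (nat_lit 121) (nat_lit 5) (nat_lit 321) (nat_lit 292) (nat_lit 167)) (XT.nd (nat_lit 78) (nat_lit 456) (nat_lit 0) (XT.lf (nat_lit 0) (nat_lit 104359892) (nat_lit 608) (nat_lit 3792221393) (nat_lit 76) (nat_lit 13628081432) (nat_lit 112) (nat_lit 5) (nat_lit 120) (nat_lit 5) (nat_lit 113) (nat_lit 5) (nat_lit 322) (nat_lit 292) (nat_lit 166)) (XT.lf (nat_lit 0) (nat_lit 2010545964) (nat_lit 532) (nat_lit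 13589924608) (nat_lit 76) (nat_lit 2238895934) (nat_lit 106) (nat_lit 5) (nat_lit 113) (nat_lit 5) (nat_lit 107) (nat_lit 5) (nat_lit 323) (nat_lit 292) (nat_lit 165))))) (XT.nd (nat_lit 234) (nat_lit 380) (nat_lit 0) (XT.nd (nat_lit 78) (nat_lit 456) (nat_lit 0) (XT.lf (nat_lit 0) (nat_lit 4041654822) (nat_lit 532) (nat_lit 5601641143) (nat_lit 76) (nat_lit 8518201023) (nat_lit 106) (nat_lit 5) (nat_lit 113) (nat_lit 5) (nat_lit 107) (nat_lit 5) (nat_lit 324) (nat_lit 292) (nat_lit 164)) (XT.nd (nat_lit 78) (nat_lit 0) (nat_lit 0) (XT.lf (nat_lit 0) (nat_lit 2668249928) (nat_lit 456) (nat_lit 3481857075) (nat_lit 532) (nat_lit 12342709263) (nat_lit 100) (nat_lit 5) (nat_lit 106) (nat_lit 5) (nat_lit 107) (nat_lit 5) (nat_lit 325) (nat_lit 292) (nat_lit 163)) (XT.lf (nat_lit 0) (nat_lit 8397398024) (nat_lit 532) (nat_lit 7569695490) (nat_lit 76) (nat_lit 2864730734) (nat_lit 100) (nat_lit 5)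 (nat_lit 107) (nat_lit 5) (nat_lit 101) (nat_lit 5) (nat_lit 326) (nat_lit 292) (nat_lit 162)))) (XT.nd (nat_lit 78) (nat_lit 0) (nat_lit 0) (XT.lf (nat_lit 0) (nat_lit 906038841) (nat_lit 380) (nat_lit 9840441504) (nat_lit 456) (nat_lit 8433507140) (nat_lit 95) (nat_lit 5) (nat_lit 100) (nat_lit 5) (nat_lit 101) (nat_lit 5) (nat_lit 327) (nat_lit 292) (nat_lit 161)) (XT.nd (nat_lit 78) (nat_lit 0) (nat_lit 0) (XT.lf (nat_lit 0) (nat_lit 9781325578) (nat_lit 380) (nat_lit 3452499524) (nat_lit 456) (nat_lit 6302752544) (nat_lit 95) (nat_lit 5) (nat_lit 100) (nat_lit 5) (nat_lit 101) (nat_lit 5) (nat_lit 328) (nat_lit 292) (nat_lit 160)) (XT.lf (nat_lit 0) (nat_lit 15817440826) (nat_lit 456) (nat_lit 1020912475) (nat_lit 76) (nat_lit 3064877959) (nat_lit 95) (nat_lit 5) (nat_lit 101) (nat_lit 5) (nat_lit 96) (nat_lit 5) (nat_lit 329) (nat_lit 292) (nat_lit 159)))))) (XT.nd (nat_lit 468) (nat_lit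 988) (nat_lit 0) (XT.nd (nat_lit 234) (nat_lit 380) (nat_lit 0) (XT.nd (nat_lit 78) (nat_lit 456) (nat_lit 0) (XT.lf (nat_lit 0) (nat_lit 8089559253) (nat_lit 380) (nat_lit 10492786848) (nat_lit 456) (nat_lit 1695439770) (nat_lit 90) (nat_lit 5) (nat_lit 95) (nat_lit 5) (nat_lit 96) (nat_lit 5) (nat_lit 330) (nat_lit 292) (nat_lit 158)) (XT.nd (nat_lit 78) (nat_lit 380) (nat_lit 0) (XT.lf (nat_lit 0) (nat_lit 753962472) (nat_lit 456) (nat_lit 3186119191) (nat_lit 76) (nat_lit 16723219332) (nat_lit 89) (nat_lit 5) (nat_lit 95) (nat_lit 5) (nat_lit 90) (nat_lit 5) (nat_lit 331) (nat_lit 292) (nat_lit 157)) (XT.lf (nat_lit 0) (nat_lit 3322050220) (nat_lit 456) (nat_lit 14905592329) (nat_lit 76) (nat_lit 2829870589) (nat_lit 84) (nat_lit 5) (nat_lit 90) (nat_lit 5) (nat_lit 85) (nat_lit 5) (nat_lit 332) (nat_lit 292) (nat_lit 156)))) (XT.nd (nat_lit 78) (nat_lit 380) (nat_lit 0) (XT.lf (nat_lit 0)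 (nat_lit 6030934261) (nat_lit 456) (nat_lit 5676011557) (nat_lit 76) (nat_lit 9754706387) (nat_lit 84) (nat_lit 5) (nat_lit 90) (nat_lit 5) (nat_lit 85) (nat_lit 5) (nat_lit 333) (nat_lit 292) (nat_lit 155)) (XT.nd (nat_lit 78) (nat_lit 0) (nat_lit 0) (XT.lf (nat_lit 0) (nat_lit 3897273282) (nat_lit 380) (nat_lit 4953751063) (nat_lit 456) (nat_lit 13026005699) (nat_lit 79) (nat_lit 5) (nat_lit 84) (nat_lit 5) (nat_lit 85) (nat_lit 5) (nat_lit 334) (nat_lit 292) (nat_lit 154)) (XT.lf (nat_lit 0) (nat_lit 11825437004) (nat_lit 456) (nat_lit 8458212725) (nat_lit 76) (nat_lit 2019140305) (nat_lit 79) (nat_lit 5) (nat_lit 85) (nat_lit 5) (nat_lit 80) (nat_lit 5) (nat_lit 335) (nat_lit 292) (nat_lit 153))))) (XT.nd (nat_lit 234) (nat_lit 684) (nat_lit 0) (XT.nd (nat_lit 78) (nat_lit 0) (nat_lit 0) (XT.lf (nat_lit 0) (nat_lit 1316533500) (nat_lit 304) (nat_lit 13627057671) (nat_lit 380) (nat_lit 7796108430)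 (nat_lit 75) (nat_lit 5) (nat_lit 79) (nat_lit 5) (nat_lit 80) (nat_lit 5) (nat_lit 336) (nat_lit 292) (nat_lit 152)) (XT.nd (nat_lit 78) (nat_lit 0) (nat_lit 0) (XT.lf (nat_lit 0) (nat_lit 11548908871) (nat_lit 304) (nat_lit 6684722234) (nat_lit 380) (nat_lit 4953746817) (nat_lit 75) (nat_lit 5) (nat_lit 79) (nat_lit 5) (nat_lit 80) (nat_lit 5) (nat_lit 337) (nat_lit 292) (nat_lit 151)) (XT.lf (nat_lit 0) (nat_lit 21619968304) (nat_lit 380) (nat_lit 1573644962) (nat_lit 76) (nat_lit 454956804) (nat_lit 75) (nat_lit 5) (nat_lit 80) (nat_lit 5) (nat_lit 76) (nat_lit 5) (nat_lit 338) (nat_lit 292) (nat_lit 150)))) (XT.nd (nat_lit 78) (nat_lit 304) (nat_lit 0) (XT.lf (nat_lit 0) (nat_lit 1111491747) (nat_lit 380) (nat_lit 15238382934) (nat_lit 76) (nat_lit 7769058118) (nat_lit 70) (nat_lit 5) (nat_lit 75) (nat_lit 5) (nat_lit 71) (nat_lit 5) (nat_lit 339) (nat_lit 292) (nat_lit 149)) (XT.nd (nat_lit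 78) (nat_lit 304) (nat_lit 0) (XT.lf (nat_lit 0) (nat_lit 4314417906) (nat_lit 380) (nat_lit 4951276331) (nat_lit 76) (nat_lit 15336837934) (nat_lit 70) (nat_lit 5) (nat_lit 75) (nat_lit 5) (nat_lit 71) (nat_lit 5) (nat_lit 340) (nat_lit 292) (nat_lit 148)) (XT.lf (nat_lit 0) (nat_lit 5748131719) (nat_lit 304) (nat_lit 1914102904) (nat_lit 380) (nat_lit 17436950908) (nat_lit 66) (nat_lit 5) (nat_lit 70) (nat_lit 5) (nat_lit 71) (nat_lit 5) (nat_lit 341) (nat_lit 292) (nat_lit 147))))))))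
noncomputable def xc192 : XT := (XT.nd (nat_lit 1794) (nat_lit 1216) (nat_lit 0) (XT.nd (nat_lit 858) (nat_lit 1216) (nat_lit 0) (XT.nd (nat_lit 390) (nat_lit 608) (nat_lit 0) (XT.nd (nat_lit 156) (nat_lit 228) (nat_lit 0) (XT.nd (nat_lit 78) (nat_lit 304) (nat_lit 0) (XT.lf (nat_lit 0) (nat_lit 11209003280) (nat_lit 380) (nat_lit 8802679567) (nat_lit 76) (nat_lit 5596109922) (nat_lit 66) (nat_lit 5) (nat_lit 71) (nat_lit 5) (nat_lit 67) (nat_lit 5) (nat_lit 342) (nat_lit 292) (nat_lit 146)) (XT.lf (nat_lit 0) (nat_lit 2075366238) (nat_lit 304) (nat_lit 12819531046) (nat_lit 380) (nat_lit 11235788785) (nat_lit 62) (nat_lit 5) (nat_lit 66) (nat_lit 5) (nat_lit 67) (nat_lit 5) (nat_lit 343) (nat_lit 292) (nat_lit 145))) (XT.nd (nat_lit 78) (nat_lit 228) (nat_lit 0) (XT.lf (nat_lit 0) (nat_lit 13451955325) (nat_lit 304) (nat_lit 5322224391) (nat_lit 380) (nat_lit 7892611341) (nat_lit 62) (nat_lit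 5) (nat_lit 66) (nat_lit 5) (nat_lit 67) (nat_lit 5) (nat_lit 344) (nat_lit 292) (nat_lit 144)) (XT.nd (nat_lit 78) (nat_lit 228) (nat_lit 0) (XT.lf (nat_lit 0) (nat_lit 22786989524) (nat_lit 380) (nat_lit 2080377445) (nat_lit 76) (nat_lit 2351106724) (nat_lit 62) (nat_lit 5) (nat_lit 67) (nat_lit 5) (nat_lit 63) (nat_lit 5) (nat_lit 345) (nat_lit 292) (nat_lit 143)) (XT.lf (nat_lit 0) (nat_lit 9513122492) (nat_lit 228) (nat_lit 17545453467) (nat_lit 304) (nat_lit 723987786) (nat_lit 59) (nat_lit 5) (nat_lit 62) (nat_lit 5) (nat_lit 63) (nat_lit 5) (nat_lit 346) (nat_lit 292) (nat_lit 142))))) (XT.nd (nat_lit 234) (nat_lit 228) (nat_lit 0) (XT.nd (nat_lit 78) (nat_lit 304) (nat_lit 0) (XT.lf (nat_lit 0) (nat_lit 3049838557) (nat_lit 304) (nat_lit 6903806004) (nat_lit 76) (nat_lit 18408582855) (nat_lit 58) (nat_lit 5) (nat_lit 62) (nat_lit 5) (nat_lit 59) (nat_lit 5) (nat_lit 347) (nat_lit 292)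 (nat_lit 141)) (XT.nd (nat_lit 78) (nat_lit 0) (nat_lit 0) (XT.lf (nat_lit 0) (nat_lit 4883174351) (nat_lit 304) (nat_lit 2080539334) (nat_lit 380) (nat_lit 21994118671) (nat_lit 54) (nat_lit 5) (nat_lit 58) (nat_lit 5) (nat_lit 59) (nat_lit 5) (nat_lit 348) (nat_lit 292) (nat_lit 140)) (XT.lf (nat_lit 0) (nat_lit 11117874625) (nat_lit 380) (nat_lit 12470389712) (nat_lit 76) (nat_lit 5979362757) (nat_lit 54) (nat_lit 5) (nat_lit 59) (nat_lit 5) (nat_lit 55) (nat_lit 5) (nat_lit 349) (nat_lit 292) (nat_lit 139)))) (XT.nd (nat_lit 78) (nat_lit 228) (nat_lit 0) (XT.lf (nat_lit 0) (nat_lit 15411931913) (nat_lit 380) (nat_lit 546183759) (nat_lit 76) (nat_lit 14237149366) (nat_lit 54) (nat_lit 5) (nat_lit 59) (nat_lit 5) (nat_lit 55) (nat_lit 5) (nat_lit 350) (nat_lit 292) (nat_lit 138)) (XT.nd (nat_lit 78) (nat_lit 0) (nat_lit 0) (XT.lf (nat_lit 0) (nat_lit 11961796207) (nat_lit 228) (nat_lit 7982826117)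 (nat_lit 304) (nat_lit 10893822745) (nat_lit 51) (nat_lit 5) (nat_lit 54) (nat_lit 5) (nat_lit 55) (nat_lit 5) (nat_lit 351) (nat_lit 292) (nat_lit 137)) (XT.lf (nat_lit 0) (nat_lit 24615977510) (nat_lit 304) (nat_lit 6654261581) (nat_lit 76) (nat_lit 230607966) (nat_lit 51) (nat_lit 5) (nat_lit 55) (nat_lit 5) (nat_lit 52) (nat_lit 5) (nat_lit 352) (nat_lit 292) (nat_lit 136)))))) (XT.nd (nat_lit 468) (nat_lit 456) (nat_lit 0) (XT.nd (nat_lit 234) (nat_lit 456) (nat_lit 0) (XT.nd (nat_lit 78) (nat_lit 76) (nat_lit 0) (XT.lf (nat_lit 0) (nat_lit 5964937151) (nat_lit 228) (nat_lit 23593948255) (nat_lit 304) (nat_lit 2620300212) (nat_lit 48) (nat_lit 5) (nat_lit 51) (nat_lit 5) (nat_lit 52) (nat_lit 5) (nat_lit 353) (nat_lit 292) (nat_lit 135)) (XT.nd (nat_lit 78) (nat_lit 0) (nat_lit 0) (XT.lf (nat_lit 0) (nat_lit 1800540849) (nat_lit 304) (nat_lit 13801695403) (nat_lit 76) (nat_lit 17273245991)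 (nat_lit 47) (nat_lit 5) (nat_lit 51) (nat_lit 5) (nat_lit 48) (nat_lit 5) (nat_lit 354) (nat_lit 292) (nat_lit 134)) (XT.lf (nat_lit 0) (nat_lit 6296542167) (nat_lit 304) (nat_lit 1049751815) (nat_lit 76) (nat_lit 26245745753) (nat_lit 47) (nat_lit 5) (nat_lit 51) (nat_lit 5) (nat_lit 48) (nat_lit 5) (nat_lit 355) (nat_lit 292) (nat_lit 133)))) (XT.nd (nat_lit 78) (nat_lit 228) (nat_lit 0) (XT.lf (nat_lit 0) (nat_lit 11053451075) (nat_lit 304) (nat_lit 22020677062) (nat_lit 76) (nat_lit 1252191095) (nat_lit 44) (nat_lit 5) (nat_lit 48) (nat_lit 5) (nat_lit 45) (nat_lit 5) (nat_lit 356) (nat_lit 292) (nat_lit 132)) (XT.nd (nat_lit 78) (nat_lit 228) (nat_lit 0) (XT.lf (nat_lit 0) (nat_lit 16031898155) (nat_lit 304) (nat_lit 9078825761) (nat_lit 76) (nat_lit 9969544201) (nat_lit 44) (nat_lit 5) (nat_lit 48) (nat_lit 5) (nat_lit 45) (nat_lit 5) (nat_lit 357) (nat_lit 292) (nat_lit 131)) (XT.lf (nat_lit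 0) (nat_lit 4329064506) (nat_lit 228) (nat_lit 16867771960) (nat_lit 304) (nat_lit 14658890622) (nat_lit 41) (nat_lit 5) (nat_lit 44) (nat_lit 5) (nat_lit 45) (nat_lit 5) (nat_lit 358) (nat_lit 292) (nat_lit 130))))) (XT.nd (nat_lit 234) (nat_lit 304) (nat_lit 0) (XT.nd (nat_lit 78) (nat_lit 152) (nat_lit 0) (XT.lf (nat_lit 0) (nat_lit 18318671905) (nat_lit 228) (nat_lit 8285320229) (nat_lit 304) (nat_lit 10047845206) (nat_lit 41) (nat_lit 5) (nat_lit 44) (nat_lit 5) (nat_lit 45) (nat_lit 5) (nat_lit 359) (nat_lit 292) (nat_lit 129)) (XT.nd (nat_lit 78) (nat_lit 152) (nat_lit 0) (XT.lf (nat_lit 0) (nat_lit 32174392271) (nat_lit 304) (nat_lit 4755741325) (nat_lit 76) (nat_lit 541671835) (nat_lit 41) (nat_lit 5) (nat_lit 45) (nat_lit 5) (nat_lit 42) (nat_lit 5) (nat_lit 360) (nat_lit 292) (nat_lit 128)) (XT.lf (nat_lit 0) (nat_lit 9322532761) (nat_lit 152) (nat_lit 28756842290) (nat_lit 228) (nat_lit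 231978663) (nat_lit 39) (nat_lit 5) (nat_lit 41) (nat_lit 5) (nat_lit 42) (nat_lit 5) (nat_lit 361) (nat_lit 292) (nat_lit 127)))) (XT.nd (nat_lit 78) (nat_lit 228) (nat_lit 0) (XT.lf (nat_lit 0) (nat_lit 4932473791) (nat_lit 228) (nat_lit 15308784531) (nat_lit 76) (nat_lit 18932067249) (nat_lit 38) (nat_lit 5) (nat_lit 41) (nat_lit 5) (nat_lit 39) (nat_lit 5) (nat_lit 362) (nat_lit 292) (nat_lit 126)) (XT.nd (nat_lit 78) (nat_lit 228) (nat_lit 0) (XT.lf (nat_lit 0) (nat_lit 10243157722) (nat_lit 228) (nat_lit 1226839489) (nat_lit 76) (nat_lit 28591216476) (nat_lit 38) (nat_lit 5) (nat_lit 41) (nat_lit 5) (nat_lit 39) (nat_lit 5) (nat_lit 363) (nat_lit 292) (nat_lit 125)) (XT.lf (nat_lit 0) (nat_lit 13535678548) (nat_lit 228) (nat_lit 2303674945) (nat_lit 304) (nat_lit 25132603892) (nat_lit 35) (nat_lit 5) (nat_lit 38) (nat_lit 5) (nat_lit 39) (nat_lit 5) (nat_lit 364) (nat_lit 292) (nat_lit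 124))))))) (XT.nd (nat_lit 858) (nat_lit 532) (nat_lit 0) (XT.nd (nat_lit 390) (nat_lit 304) (nat_lit 0) (XT.nd (nat_lit 156) (nat_lit 228) (nat_lit 0) (XT.nd (nat_lit 78) (nat_lit 152) (nat_lit 0) (XT.lf (nat_lit 0) (nat_lit 21680672778) (nat_lit 304) (nat_lit 13218221207) (nat_lit 76) (nat_lit 7008816823) (nat_lit 35) (nat_lit 5) (nat_lit 39) (nat_lit 5) (nat_lit 36) (nat_lit 5) (nat_lit 365) (nat_lit 292) (nat_lit 123)) (XT.lf (nat_lit 0) (nat_lit 1425506037) (nat_lit 152) (nat_lit 26304465232) (nat_lit 228) (nat_lit 15140587789) (nat_lit 33) (nat_lit 5) (nat_lit 35) (nat_lit 5) (nat_lit 36) (nat_lit 5) (nat_lit 366) (nat_lit 292) (nat_lit 122))) (XT.nd (nat_lit 78) (nat_lit 228) (nat_lit 0) (XT.lf (nat_lit 0) (nat_lit 16773683117) (nat_lit 152) (nat_lit 17316825734) (nat_lit 228) (nat_lit 9767895384) (nat_lit 33) (nat_lit 5) (nat_lit 35) (nat_lit 5) (nat_lit 36) (nat_lit 5) (nat_lit 367)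 (nat_lit 292) (nat_lit 121)) (XT.nd (nat_lit 78) (nat_lit 228) (nat_lit 0) (XT.lf (nat_lit 0) (nat_lit 32576652539) (nat_lit 152) (nat_lit 8061600330) (nat_lit 228) (nat_lit 4237744344) (nat_lit 33) (nat_lit 5) (nat_lit 35) (nat_lit 5) (nat_lit 36) (nat_lit 5) (nat_lit 368) (nat_lit 292) (nat_lit 120)) (XT.lf (nat_lit 0) (nat_lit 1469385354) (nat_lit 228) (nat_lit 42969569408) (nat_lit 76) (nat_lit 1483560664) (nat_lit 30) (nat_lit 5) (nat_lit 33) (nat_lit 5) (nat_lit 31) (nat_lit 5) (nat_lit 369) (nat_lit 292) (nat_lit 119))))) (XT.nd (nat_lit 234) (nat_lit 152) (nat_lit 0) (XT.nd (nat_lit 78) (nat_lit 152) (nat_lit 0) (XT.lf (nat_lit 0) (nat_lit 7464288933) (nat_lit 228) (nat_lit 28210376092) (nat_lit 76) (nat_lit 11318457194) (nat_lit 30) (nat_lit 5) (nat_lit 33) (nat_lit 5) (nat_lit 31) (nat_lit 5) (nat_lit 370) (nat_lit 292) (nat_lit 118)) (XT.nd (nat_lit 78) (nat_lit 152) (nat_lit 0) (XT.lf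 (nat_lit 0) (nat_lit 13635629591) (nat_lit 228) (nat_lit 13013841387) (nat_lit 76) (nat_lit 21446482235) (nat_lit 30) (nat_lit 5) (nat_lit 33) (nat_lit 5) (nat_lit 31) (nat_lit 5) (nat_lit 371) (nat_lit 292) (nat_lit 117)) (XT.lf (nat_lit 0) (nat_lit 2685721331) (nat_lit 152) (nat_lit 17328895226) (nat_lit 228) (nat_lit 29216580983) (nat_lit 28) (nat_lit 5) (nat_lit 30) (nat_lit 5) (nat_lit 31) (nat_lit 5) (nat_lit 372) (nat_lit 292) (nat_lit 116)))) (XT.nd (nat_lit 78) (nat_lit 152) (nat_lit 0) (XT.lf (nat_lit 0) (nat_lit 19117817522) (nat_lit 152) (nat_lit 7595305391) (nat_lit 228) (nat_lit 23683535273) (nat_lit 28) (nat_lit 5) (nat_lit 30) (nat_lit 5) (nat_lit 31) (nat_lit 5) (nat_lit 373) (nat_lit 292) (nat_lit 115)) (XT.nd (nat_lit 78) (nat_lit 152) (nat_lit 0) (XT.lf (nat_lit 0) (nat_lit 33632758207) (nat_lit 228) (nat_lit 15582719911) (nat_lit 76) (nat_lit 2381002701) (nat_lit 28) (nat_lit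 5) (nat_lit 31) (nat_lit 5) (nat_lit 29) (nat_lit 5) (nat_lit 374) (nat_lit 292) (nat_lit 114)) (XT.lf (nat_lit 0) (nat_lit 514113288) (nat_lit 152) (nat_lit 40322917424) (nat_lit 228) (nat_lit 11992959258) (nat_lit 26) (nat_lit 5) (nat_lit 28) (nat_lit 5) (nat_lit 29) (nat_lit 5) (nat_lit 375) (nat_lit 292) (nat_lit 113)))))) (XT.nd (nat_lit 468) (nat_lit 304) (nat_lit 0) (XT.nd (nat_lit 234) (nat_lit 152) (nat_lit 0) (XT.nd (nat_lit 78) (nat_lit 76) (nat_lit 0) (XT.lf (nat_lit 0) (nat_lit 17408328674) (nat_lit 152) (nat_lit 31003405300) (nat_lit 228) (nat_lit 5684144531) (nat_lit 26) (nat_lit 5) (nat_lit 28) (nat_lit 5) (nat_lit 29) (nat_lit 5) (nat_lit 376) (nat_lit 292) (nat_lit 112)) (XT.nd (nat_lit 78) (nat_lit 0) (nat_lit 0) (XT.lf (nat_lit 0) (nat_lit 795056035) (nat_lit 228) (nat_lit 20603068860) (nat_lit 76) (nat_lit 34001476958) (nat_lit 25) (nat_lit 5) (nat_lit 28) (nat_lit 5) (nat_lit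 26) (nat_lit 5) (nat_lit 377) (nat_lit 292) (nat_lit 111)) (XT.lf (nat_lit 0) (nat_lit 7351478391) (nat_lit 228) (nat_lit 4097061872) (nat_lit 76) (nat_lit 45292298450) (nat_lit 25) (nat_lit 5) (nat_lit 28) (nat_lit 5) (nat_lit 26) (nat_lit 5) (nat_lit 378) (nat_lit 292) (nat_lit 110)))) (XT.nd (nat_lit 78) (nat_lit 0) (nat_lit 0) (XT.lf (nat_lit 0) (nat_lit 13156259337) (nat_lit 152) (nat_lit 1071976260) (nat_lit 228) (nat_lit 43890370650) (nat_lit 23) (nat_lit 5) (nat_lit 25) (nat_lit 5) (nat_lit 26) (nat_lit 5) (nat_lit 379) (nat_lit 292) (nat_lit 109)) (XT.nd (nat_lit 78) (nat_lit 0) (nat_lit 0) (XT.lf (nat_lit 0) (nat_lit 21442708973) (nat_lit 228) (nat_lit 28622759444) (nat_lit 76) (nat_lit 9468298734) (nat_lit 23) (nat_lit 5) (nat_lit 26) (nat_lit 5) (nat_lit 24) (nat_lit 5) (nat_lit 380) (nat_lit 292) (nat_lit 108)) (XT.lf (nat_lit 0) (nat_lit 28881509565) (nat_lit 228) (nat_lit 11808079872)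 (nat_lit 76) (nat_lit 20301559323) (nat_lit 23) (nat_lit 5) (nat_lit 26) (nat_lit 5) (nat_lit 24) (nat_lit 5) (nat_lit 381) (nat_lit 292) (nat_lit 107))))) (XT.nd (nat_lit 234) (nat_lit 152) (nat_lit 0) (XT.nd (nat_lit 78) (nat_lit 0) (nat_lit 0) (XT.lf (nat_lit 0) (nat_lit 5616282638) (nat_lit 152) (nat_lit 30978537311) (nat_lit 228) (nat_lit 25895894089) (nat_lit 21) (nat_lit 5) (nat_lit 23) (nat_lit 5) (nat_lit 24) (nat_lit 5) (nat_lit 382) (nat_lit 292) (nat_lit 106)) (XT.nd (nat_lit 78) (nat_lit 0) (nat_lit 0) (XT.lf (nat_lit 0) (nat_lit 23801121394) (nat_lit 152) (nat_lit 20855040849) (nat_lit 228) (nat_lit 19375607567) (nat_lit 21) (nat_lit 5) (nat_lit 23) (nat_lit 5) (nat_lit 24) (nat_lit 5) (nat_lit 383) (nat_lit 292) (nat_lit 105)) (XT.lf (nat_lit 0) (nat_lit 42527322117) (nat_lit 152) (nat_lit 10429492732) (nat_lit 228) (nat_lit 12662320747) (nat_lit 21) (nat_lit 5) (nat_lit 23) (nat_lit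 5) (nat_lit 24) (nat_lit 5) (nat_lit 384) (nat_lit 292) (nat_lit 104)))) (XT.nd (nat_lit 78) (nat_lit 152) (nat_lit 0) (XT.lf (nat_lit 0) (nat_lit 61506983921) (nat_lit 228) (nat_lit 5445904063) (nat_lit 76) (nat_lit 301221837) (nat_lit 21) (nat_lit 5) (nat_lit 24) (nat_lit 5) (nat_lit 22) (nat_lit 4) (nat_lit 385) (nat_lit 292) (nat_lit 103)) (XT.nd (nat_lit 78) (nat_lit 0) (nat_lit 0) (XT.lf (nat_lit 0) (nat_lit 1575513798) (nat_lit 152) (nat_lit 56073520214) (nat_lit 76) (nat_lit 11281899910) (nat_lit 19) (nat_lit 5) (nat_lit 21) (nat_lit 5) (nat_lit 20) (nat_lit 5) (nat_lit 386) (nat_lit 292) (nat_lit 102)) (XT.lf (nat_lit 0) (nat_lit 9055465045) (nat_lit 152) (nat_lit 38896405470) (nat_lit 76) (nat_lit 22702893018) (nat_lit 19) (nat_lit 5) (nat_lit 21) (nat_lit 5) (nat_lit 20) (nat_lit 5) (nat_lit 387) (nat_lit 292) (nat_lit 101))))))))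
noncomputable def xc193 : XT := (XT.nd (nat_lit 34944) (nat_lit 0) (nat_lit 4256) (XT.nd (nat_lit 34008) (nat_lit 0) (nat_lit 9196) (XT.nd (nat_lit 33540) (nat_lit 0) (nat_lit 10792) (XT.nd (nat_lit 33306) (nat_lit 0) (nat_lit 11780) (XT.nd (nat_lit 33228) (nat_lit 0) (nat_lit 11780) (XT.lf (nat_lit 0) (nat_lit 16757491004) (nat_lit 152) (nat_lit 21207872914) (nat_lit 76) (nat_lit 34465015935) (nat_lit 19) (nat_lit 5) (nat_lit 21) (nat_lit 5) (nat_lit 20) (nat_lit 5) (nat_lit 388) (nat_lit 292) (nat_lit 100)) (XT.lf (nat_lit 0) (nat_lit 2224373155) (nat_lit 0) (nat_lit 2224373155) (nat_lit 988) (nat_lit 1183368714) (nat_lit 174) (nat_lit 5) (nat_lit 174) (nat_lit 3) (nat_lit 187) (nat_lit 3) (nat_lit 293) (nat_lit 293) (nat_lit 194))) (XT.nd (nat_lit 78) (nat_lit 0) (nat_lit 0) (XT.lf (nat_lit 0) (nat_lit 9386037595) (nat_lit 0) (nat_lit 139209476) (nat_lit 988) (nat_lit 1891983954) (nat_lit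 174) (nat_lit 5) (nat_lit 174) (nat_lit 3) (nat_lit 187) (nat_lit 3) (nat_lit 294) (nat_lit 293) (nat_lit 193)) (XT.nd (nat_lit 78) (nat_lit 0) (nat_lit 0) (XT.lf (nat_lit 76) (nat_lit 2901553731) (nat_lit 0) (nat_lit 7320304325) (nat_lit 1064) (nat_lit 1351507498) (nat_lit 175) (nat_lit 5) (nat_lit 174) (nat_lit 5) (nat_lit 188) (nat_lit 5) (nat_lit 295) (nat_lit 293) (nat_lit 192)) (XT.lf (nat_lit 76) (nat_lit 8012255511) (nat_lit 0) (nat_lit 2930250159) (nat_lit 1064) (nat_lit 791627260) (nat_lit 175) (nat_lit 5) (nat_lit 174) (nat_lit 5) (nat_lit 188) (nat_lit 5) (nat_lit 296) (nat_lit 293) (nat_lit 191))))) (XT.nd (nat_lit 234) (nat_lit 0) (nat_lit 76) (XT.nd (nat_lit 78) (nat_lit 1064) (nat_lit 0) (XT.lf (nat_lit 76) (nat_lit 1377509372) (nat_lit 0) (nat_lit 10317690634) (nat_lit 1064) (nat_lit 204252207) (nat_lit 176) (nat_lit 5) (nat_lit 175) (nat_lit 5) (nat_lit 189) (nat_lit 5) (nat_lit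 297) (nat_lit 293) (nat_lit 190)) (XT.nd (nat_lit 78) (nat_lit 0) (nat_lit 0) (XT.lf (nat_lit 0) (nat_lit 441991186) (nat_lit 1064) (nat_lit 5406586328) (nat_lit 1140) (nat_lit 6219605295) (nat_lit 161) (nat_lit 5) (nat_lit 175) (nat_lit 5) (nat_lit 176) (nat_lit 5) (nat_lit 298) (nat_lit 293) (nat_lit 189)) (XT.lf (nat_lit 0) (nat_lit 1086136898) (nat_lit 1064) (nat_lit 150392079) (nat_lit 1140) (nat_lit 11005945236) (nat_lit 161) (nat_lit 5) (nat_lit 175) (nat_lit 5) (nat_lit 176) (nat_lit 5) (nat_lit 299) (nat_lit 293) (nat_lit 188)))) (XT.nd (nat_lit 78) (nat_lit 0) (nat_lit 0) (XT.lf (nat_lit 0) (nat_lit 1818586153) (nat_lit 1064) (nat_lit 7097598323) (nat_lit 1140) (nat_lit 3503777561) (nat_lit 162) (nat_lit 5) (nat_lit 176) (nat_lit 5) (nat_lit 177) (nat_lit 5) (nat_lit 300) (nat_lit 293) (nat_lit 187)) (XT.nd (nat_lit 78) (nat_lit 0) (nat_lit 76) (XT.lf (nat_lit 0) (nat_lit 2570365891)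 (nat_lit 1064) (nat_lit 1663383593) (nat_lit 1140) (nat_lit 8369140279) (nat_lit 162) (nat_lit 5) (nat_lit 176) (nat_lit 5) (nat_lit 177) (nat_lit 5) (nat_lit 301) (nat_lit 293) (nat_lit 186)) (XT.lf (nat_lit 0) (nat_lit 3373319114) (nat_lit 1064) (nat_lit 8795288426) (nat_lit 1140) (nat_lit 621874106) (nat_lit 163) (nat_lit 5) (nat_lit 177) (nat_lit 5) (nat_lit 178) (nat_lit 5) (nat_lit 302) (nat_lit 293) (nat_lit 185)))))) (XT.nd (nat_lit 468) (nat_lit 1748) (nat_lit 0) (XT.nd (nat_lit 234) (nat_lit 0) (nat_lit 76) (XT.nd (nat_lit 78) (nat_lit 0) (nat_lit 0) (XT.lf (nat_lit 0) (nat_lit 4243715916) (nat_lit 1064) (nat_lit 3178573401) (nat_lit 1140) (nat_lit 5560145230) (nat_lit 163) (nat_lit 5) (nat_lit 177) (nat_lit 5) (nat_lit 178) (nat_lit 5) (nat_lit 303) (nat_lit 293) (nat_lit 184)) (XT.nd (nat_lit 78) (nat_lit 0) (nat_lit 76) (XT.lf (nat_lit 76) (nat_lit 2647710928) (nat_lit 0) (nat_lit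 2502890791) (nat_lit 1140) (nat_lit 8029265925) (nat_lit 164) (nat_lit 5) (nat_lit 163) (nat_lit 5) (nat_lit 178) (nat_lit 5) (nat_lit 304) (nat_lit 293) (nat_lit 183)) (XT.lf (nat_lit 0) (nat_lit 6127061482) (nat_lit 1064) (nat_lit 4704294217) (nat_lit 1140) (nat_lit 2550628979) (nat_lit 164) (nat_lit 5) (nat_lit 178) (nat_lit 5) (nat_lit 179) (nat_lit 5) (nat_lit 305) (nat_lit 293) (nat_lit 182)))) (XT.nd (nat_lit 78) (nat_lit 0) (nat_lit 0) (XT.lf (nat_lit 76) (nat_lit 1288069156) (nat_lit 0) (nat_lit 5867641337) (nat_lit 1140) (nat_lit 6433798899) (nat_lit 165) (nat_lit 5) (nat_lit 164) (nat_lit 5) (nat_lit 179) (nat_lit 5) (nat_lit 306) (nat_lit 293) (nat_lit 181)) (XT.nd (nat_lit 78) (nat_lit 0) (nat_lit 76) (XT.lf (nat_lit 76) (nat_lit 7546052870) (nat_lit 0) (nat_lit 702716717) (nat_lit 1140) (nat_lit 5553513870) (nat_lit 165) (nat_lit 5) (nat_lit 164) (nat_lit 5) (nat_lit 179) (nat_lit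 5) (nat_lit 307) (nat_lit 293) (nat_lit 180)) (XT.lf (nat_lit 0) (nat_lit 9405487704) (nat_lit 1064) (nat_lit 84790395) (nat_lit 1140) (nat_lit 4530265879) (nat_lit 165) (nat_lit 5) (nat_lit 179) (nat_lit 5) (nat_lit 180) (nat_lit 5) (nat_lit 308) (nat_lit 293) (nat_lit 179))))) (XT.nd (nat_lit 234) (nat_lit 912) (nat_lit 0) (XT.nd (nat_lit 78) (nat_lit 988) (nat_lit 0) (XT.lf (nat_lit 76) (nat_lit 6378880420) (nat_lit 0) (nat_lit 4273180223) (nat_lit 1140) (nat_lit 3591665475) (nat_lit 166) (nat_lit 5) (nat_lit 165) (nat_lit 5) (nat_lit 180) (nat_lit 5) (nat_lit 309) (nat_lit 293) (nat_lit 178)) (XT.nd (nat_lit 78) (nat_lit 1064) (nat_lit 0) (XT.lf (nat_lit 0) (nat_lit 11934658522) (nat_lit 1064) (nat_lit 1456729600) (nat_lit 76) (nat_lit 1082284339) (nat_lit 166) (nat_lit 5) (nat_lit 180) (nat_lit 5) (nat_lit 167) (nat_lit 5) (nat_lit 310) (nat_lit 293) (nat_lit 177)) (XT.lf (nat_lit 0) (nat_lit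 5192188540) (nat_lit 1064) (nat_lit 8143323302) (nat_lit 1140) (nat_lit 1372638796) (nat_lit 152) (nat_lit 5) (nat_lit 166) (nat_lit 5) (nat_lit 167) (nat_lit 5) (nat_lit 311) (nat_lit 293) (nat_lit 176)))) (XT.nd (nat_lit 78) (nat_lit 912) (nat_lit 0) (XT.lf (nat_lit 0) (nat_lit 12060087190) (nat_lit 1064) (nat_lit 2720834885) (nat_lit 1140) (nat_lit 168691136) (nat_lit 152) (nat_lit 5) (nat_lit 166) (nat_lit 5) (nat_lit 167) (nat_lit 5) (nat_lit 312) (nat_lit 293) (nat_lit 175)) (XT.nd (nat_lit 78) (nat_lit 0) (nat_lit 0) (XT.lf (nat_lit 0) (nat_lit 1104917555) (nat_lit 912) (nat_lit 11232261578) (nat_lit 76) (nat_lit 2859222595) (nat_lit 140) (nat_lit 5) (nat_lit 152) (nat_lit 5) (nat_lit 141) (nat_lit 5) (nat_lit 313) (nat_lit 293) (nat_lit 174)) (XT.lf (nat_lit 0) (nat_lit 2458049370) (nat_lit 912) (nat_lit 4406566300) (nat_lit 76) (nat_lit 8584610748) (nat_lit 140) (nat_lit 5) (nat_lit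 152) (nat_lit 5) (nat_lit 141) (nat_lit 5) (nat_lit 314) (nat_lit 293) (nat_lit 173))))))) (XT.nd (nat_lit 936) (nat_lit 1900) (nat_lit 0) (XT.nd (nat_lit 468) (nat_lit 1520) (nat_lit 0) (XT.nd (nat_lit 234) (nat_lit 456) (nat_lit 0) (XT.nd (nat_lit 78) (nat_lit 532) (nat_lit 0) (XT.lf (nat_lit 0) (nat_lit 2665626045) (nat_lit 532) (nat_lit 1200412514) (nat_lit 608) (nat_lit 11843192478) (nat_lit 133) (nat_lit 5) (nat_lit 140) (nat_lit 5) (nat_lit 141) (nat_lit 5) (nat_lit 315) (nat_lit 293) (nat_lit 172)) (XT.nd (nat_lit 78) (nat_lit 532) (nat_lit 0) (XT.lf (nat_lit 0) (nat_lit 5394629544) (nat_lit 608) (nat_lit 5990923239) (nat_lit 76) (nat_lit 4589154566) (nat_lit 133) (nat_lit 5) (nat_lit 141) (nat_lit 5) (nat_lit 134) (nat_lit 5) (nat_lit 316) (nat_lit 293) (nat_lit 171)) (XT.lf (nat_lit 0) (nat_lit 1276108433) (nat_lit 532) (nat_lit 5706327414) (nat_lit 608) (nat_lit 9265333142) (nat_lit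 126) (nat_lit 5) (nat_lit 133) (nat_lit 5) (nat_lit 134) (nat_lit 5) (nat_lit 317) (nat_lit 293) (nat_lit 170)))) (XT.nd (nat_lit 78) (nat_lit 456) (nat_lit 0) (XT.lf (nat_lit 0) (nat_lit 8669775735) (nat_lit 608) (nat_lit 7655713571) (nat_lit 76) (nat_lit 201997323) (nat_lit 126) (nat_lit 5) (nat_lit 134) (nat_lit 5) (nat_lit 127) (nat_lit 5) (nat_lit 318) (nat_lit 293) (nat_lit 169)) (XT.nd (nat_lit 78) (nat_lit 456) (nat_lit 0) (XT.lf (nat_lit 0) (nat_lit 10453968669) (nat_lit 608) (nat_lit 186969844) (nat_lit 76) (nat_lit 6173290816) (nat_lit 126) (nat_lit 5) (nat_lit 134) (nat_lit 5) (nat_lit 127) (nat_lit 5) (nat_lit 319) (nat_lit 293) (nat_lit 168)) (XT.lf (nat_lit 0) (nat_lit 7645133511) (nat_lit 456) (nat_lit 4710077132) (nat_lit 532) (nat_lit 4752477888) (nat_lit 120) (nat_lit 5) (nat_lit 126) (nat_lit 5) (nat_lit 127) (nat_lit 5) (nat_lit 320) (nat_lit 293) (nat_lit 167))))) (XT.nd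 (nat_lit 234) (nat_lit 912) (nat_lit 0) (XT.nd (nat_lit 78) (nat_lit 608) (nat_lit 0) (XT.lf (nat_lit 0) (nat_lit 14319071401) (nat_lit 532) (nat_lit 1717428256) (nat_lit 76) (nat_lit 1373303746) (nat_lit 120) (nat_lit 5) (nat_lit 127) (nat_lit 5) (nat_lit 121) (nat_lit 5) (nat_lit 321) (nat_lit 293) (nat_lit 166)) (XT.nd (nat_lit 78) (nat_lit 76) (nat_lit 0) (XT.lf (nat_lit 0) (nat_lit 6327074020) (nat_lit 532) (nat_lit 10112742213) (nat_lit 608) (nat_lit 1278245215) (nat_lit 113) (nat_lit 5) (nat_lit 120) (nat_lit 5) (nat_lit 121) (nat_lit 5) (nat_lit 322) (nat_lit 293) (nat_lit 165)) (XT.lf (nat_lit 0) (nat_lit 585231592) (nat_lit 608) (nat_lit 3402676588) (nat_lit 76) (nat_lit 14047263966) (nat_lit 112) (nat_lit 5) (nat_lit 120) (nat_lit 5) (nat_lit 113) (nat_lit 5) (nat_lit 323) (nat_lit 293) (nat_lit 164)))) (XT.nd (nat_lit 78) (nat_lit 456) (nat_lit 0) (XT.lf (nat_lit 0) (nat_lit 2539765240)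 (nat_lit 532) (nat_lit 13484600830) (nat_lit 76) (nat_lit 2335242279) (nat_lit 106) (nat_lit 5) (nat_lit 113) (nat_lit 5) (nat_lit 107) (nat_lit 5) (nat_lit 324) (nat_lit 293) (nat_lit 163)) (XT.nd (nat_lit 78) (nat_lit 456) (nat_lit 0) (XT.lf (nat_lit 0) (nat_lit 4618149999) (nat_lit 532) (nat_lit 5271611236) (nat_lit 76) (nat_lit 8802076634) (nat_lit 106) (nat_lit 5) (nat_lit 113) (nat_lit 5) (nat_lit 107) (nat_lit 5) (nat_lit 325) (nat_lit 293) (nat_lit 162)) (XT.lf (nat_lit 0) (nat_lit 3241493439) (nat_lit 456) (nat_lit 3539843629) (nat_lit 532) (nat_lit 12252039877) (nat_lit 100) (nat_lit 5) (nat_lit 106) (nat_lit 5) (nat_lit 107) (nat_lit 5) (nat_lit 326) (nat_lit 293) (nat_lit 161)))))) (XT.nd (nat_lit 468) (nat_lit 1064) (nat_lit 0) (XT.nd (nat_lit 234) (nat_lit 456) (nat_lit 0) (XT.nd (nat_lit 78) (nat_lit 380) (nat_lit 0) (XT.lf (nat_lit 0) (nat_lit 9083469037) (nat_lit 532) (nat_lit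 7304579430) (nat_lit 76) (nat_lit 2994907973) (nat_lit 100) (nat_lit 5) (nat_lit 107) (nat_lit 5) (nat_lit 101) (nat_lit 5) (nat_lit 327) (nat_lit 293) (nat_lit 160)) (XT.nd (nat_lit 78) (nat_lit 0) (nat_lit 0) (XT.lf (nat_lit 0) (nat_lit 1420601373) (nat_lit 380) (nat_lit 10074462345) (nat_lit 456) (nat_lit 8246762906) (nat_lit 95) (nat_lit 5) (nat_lit 100) (nat_lit 5) (nat_lit 101) (nat_lit 5) (nat_lit 328) (nat_lit 293) (nat_lit 159)) (XT.lf (nat_lit 0) (nat_lit 10547951138) (nat_lit 380) (nat_lit 3496664409) (nat_lit 456) (nat_lit 6064893908) (nat_lit 95) (nat_lit 5) (nat_lit 100) (nat_lit 5) (nat_lit 101) (nat_lit 5) (nat_lit 329) (nat_lit 293) (nat_lit 158)))) (XT.nd (nat_lit 78) (nat_lit 456) (nat_lit 0) (XT.lf (nat_lit 0) (nat_lit 16694242475) (nat_lit 456) (nat_lit 579908561) (nat_lit 76) (nat_lit 3213378469) (nat_lit 95) (nat_lit 5) (nat_lit 101) (nat_lit 5) (nat_lit 96) (nat_lit 5)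 (nat_lit 330) (nat_lit 293) (nat_lit 157)) (XT.nd (nat_lit 78) (nat_lit 76) (nat_lit 0) (XT.lf (nat_lit 0) (nat_lit 8799253483) (nat_lit 380) (nat_lit 10735613740) (nat_lit 456) (nat_lit 1338691635) (nat_lit 90) (nat_lit 5) (nat_lit 95) (nat_lit 5) (nat_lit 96) (nat_lit 5) (nat_lit 331) (nat_lit 293) (nat_lit 156)) (XT.lf (nat_lit 0) (nat_lit 1164598204) (nat_lit 456) (nat_lit 2819906813) (nat_lit 76) (nat_lit 17286386139) (nat_lit 89) (nat_lit 5) (nat_lit 95) (nat_lit 5) (nat_lit 90) (nat_lit 5) (nat_lit 332) (nat_lit 293) (nat_lit 155))))) (XT.nd (nat_lit 234) (nat_lit 304) (nat_lit 0) (XT.nd (nat_lit 78) (nat_lit 380) (nat_lit 0) (XT.lf (nat_lit 0) (nat_lit 3803554741) (nat_lit 456) (nat_lit 14884141405) (nat_lit 76) (nat_lit 2989438200) (nat_lit 84) (nat_lit 5) (nat_lit 90) (nat_lit 5) (nat_lit 85) (nat_lit 5) (nat_lit 333) (nat_lit 293) (nat_lit 154)) (XT.nd (nat_lit 78) (nat_lit 380) (nat_lit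 0) (XT.lf (nat_lit 0) (nat_lit 6582583662) (nat_lit 456) (nat_lit 5391322298) (nat_lit 76) (nat_lit 10119844174) (nat_lit 84) (nat_lit 5) (nat_lit 90) (nat_lit 5) (nat_lit 85) (nat_lit 5) (nat_lit 334) (nat_lit 293) (nat_lit 153)) (XT.lf (nat_lit 0) (nat_lit 4464700600) (nat_lit 380) (nat_lit 5016108707) (nat_lit 456) (nat_lit 13040992363) (nat_lit 79) (nat_lit 5) (nat_lit 84) (nat_lit 5) (nat_lit 85) (nat_lit 5) (nat_lit 335) (nat_lit 293) (nat_lit 152)))) (XT.nd (nat_lit 78) (nat_lit 304) (nat_lit 0) (XT.lf (nat_lit 0) (nat_lit 12534649986) (nat_lit 456) (nat_lit 8264173418) (nat_lit 76) (nat_lit 2161823003) (nat_lit 79) (nat_lit 5) (nat_lit 85) (nat_lit 5) (nat_lit 80) (nat_lit 5) (nat_lit 336) (nat_lit 293) (nat_lit 151)) (XT.nd (nat_lit 78) (nat_lit 0) (nat_lit 0) (XT.lf (nat_lit 0) (nat_lit 1799425139) (nat_lit 304) (nat_lit 13940862046) (nat_lit 380) (nat_lit 7670575219) (nat_lit 75) (nat_lit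 5) (nat_lit 79) (nat_lit 5) (nat_lit 80) (nat_lit 5) (nat_lit 337) (nat_lit 293) (nat_lit 150)) (XT.lf (nat_lit 0) (nat_lit 12325857335) (nat_lit 304) (nat_lit 6793023750) (nat_lit 380) (nat_lit 4753411199) (nat_lit 75) (nat_lit 5) (nat_lit 79) (nat_lit 5) (nat_lit 80) (nat_lit 5) (nat_lit 338) (nat_lit 293) (nat_lit 149))))))))
noncomputable def xc194 : XT := (XT.nd (nat_lit 1794) (nat_lit 1520) (nat_lit 0) (XT.nd (nat_lit 858) (nat_lit 988) (nat_lit 0) (XT.nd (nat_lit 390) (nat_lit 912) (nat_lit 0) (XT.nd (nat_lit 156) (nat_lit 304) (nat_lit 0) (XT.nd (nat_lit 78) (nat_lit 380) (nat_lit 0) (XT.lf (nat_lit 0) (nat_lit 22597817562) (nat_lit 380) (nat_lit 1193377122) (nat_lit 76) (nat_lit 556411540) (nat_lit 75) (nat_lit 5) (nat_lit 80) (nat_lit 5) (nat_lit 76) (nat_lit 5) (nat_lit 339) (nat_lit 293) (nat_lit 148)) (XT.lf (nat_lit 0) (nat_lit 1472288341) (nat_lit 380) (nat_lit 15265219006) (nat_lit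 76) (nat_lit 8094657635) (nat_lit 70) (nat_lit 5) (nat_lit 75) (nat_lit 5) (nat_lit 71) (nat_lit 5) (nat_lit 340) (nat_lit 293) (nat_lit 147))) (XT.nd (nat_lit 78) (nat_lit 304) (nat_lit 0) (XT.lf (nat_lit 0) (nat_lit 4761764852) (nat_lit 380) (nat_lit 4682032664) (nat_lit 76) (nat_lit 15886775861) (nat_lit 70) (nat_lit 5) (nat_lit 75) (nat_lit 5) (nat_lit 71) (nat_lit 5) (nat_lit 341) (nat_lit 293) (nat_lit 146)) (XT.nd (nat_lit 78) (nat_lit 0) (nat_lit 0) (XT.lf (nat_lit 0) (nat_lit 6334261726) (nat_lit 304) (nat_lit 1870471306) (nat_lit 380) (nat_lit 17637566284) (nat_lit 66) (nat_lit 5) (nat_lit 70) (nat_lit 5) (nat_lit 71) (nat_lit 5) (nat_lit 342) (nat_lit 293) (nat_lit 145)) (XT.lf (nat_lit 0) (nat_lit 11849742086) (nat_lit 380) (nat_lit 8656491569) (nat_lit 76) (nat_lit 5860190059) (nat_lit 66) (nat_lit 5) (nat_lit 71) (nat_lit 5) (nat_lit 67) (nat_lit 5) (nat_lit 343) (nat_lit 293) (nat_lit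 144))))) (XT.nd (nat_lit 234) (nat_lit 608) (nat_lit 0) (XT.nd (nat_lit 78) (nat_lit 0) (nat_lit 0) (XT.lf (nat_lit 0) (nat_lit 2543873372) (nat_lit 304) (nat_lit 13097376604) (nat_lit 380) (nat_lit 11263916378) (nat_lit 62) (nat_lit 5) (nat_lit 66) (nat_lit 5) (nat_lit 67) (nat_lit 5) (nat_lit 344) (nat_lit 293) (nat_lit 143)) (XT.nd (nat_lit 78) (nat_lit 0) (nat_lit 0) (XT.lf (nat_lit 0) (nat_lit 14249927719) (nat_lit 304) (nat_lit 5378259692) (nat_lit 380) (nat_lit 7829442040) (nat_lit 62) (nat_lit 5) (nat_lit 66) (nat_lit 5) (nat_lit 67) (nat_lit 5) (nat_lit 345) (nat_lit 293) (nat_lit 142)) (XT.lf (nat_lit 0) (nat_lit 23753879281) (nat_lit 380) (nat_lit 1751931582) (nat_lit 76) (nat_lit 2520289641) (nat_lit 62) (nat_lit 5) (nat_lit 67) (nat_lit 5) (nat_lit 63) (nat_lit 5) (nat_lit 346) (nat_lit 293) (nat_lit 141)))) (XT.nd (nat_lit 78) (nat_lit 380) (nat_lit 0) (XT.lf (nat_lit 0) (nat_lit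 10185541421) (nat_lit 228) (nat_lit 17963541336) (nat_lit 304) (nat_lit 458178913) (nat_lit 59) (nat_lit 5) (nat_lit 62) (nat_lit 5) (nat_lit 63) (nat_lit 5) (nat_lit 347) (nat_lit 293) (nat_lit 140)) (XT.nd (nat_lit 78) (nat_lit 304) (nat_lit 0) (XT.lf (nat_lit 0) (nat_lit 3415040306) (nat_lit 304) (nat_lit 6729327620) (nat_lit 76) (nat_lit 19060122522) (nat_lit 58) (nat_lit 5) (nat_lit 62) (nat_lit 5) (nat_lit 59) (nat_lit 5) (nat_lit 348) (nat_lit 293) (nat_lit 139)) (XT.lf (nat_lit 0) (nat_lit 5407521043) (nat_lit 304) (nat_lit 2034470748) (nat_lit 380) (nat_lit 22376113377) (nat_lit 54) (nat_lit 5) (nat_lit 58) (nat_lit 5) (nat_lit 59) (nat_lit 5) (nat_lit 349) (nat_lit 293) (nat_lit 138)))))) (XT.nd (nat_lit 468) (nat_lit 456) (nat_lit 0) (XT.nd (nat_lit 234) (nat_lit 304) (nat_lit 0) (XT.nd (nat_lit 78) (nat_lit 228) (nat_lit 0) (XT.lf (nat_lit 0) (nat_lit 11713944375) (nat_lit 380) (nat_lit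 12470452084) (nat_lit 76) (nat_lit 6262013385) (nat_lit 54) (nat_lit 5) (nat_lit 59) (nat_lit 5) (nat_lit 55) (nat_lit 5) (nat_lit 350) (nat_lit 293) (nat_lit 137)) (XT.nd (nat_lit 78) (nat_lit 228) (nat_lit 0) (XT.lf (nat_lit 0) (nat_lit 16129176774) (nat_lit 380) (nat_lit 199414593) (nat_lit 76) (nat_lit 14764525736) (nat_lit 54) (nat_lit 5) (nat_lit 59) (nat_lit 5) (nat_lit 55) (nat_lit 5) (nat_lit 351) (nat_lit 293) (nat_lit 136)) (XT.lf (nat_lit 0) (nat_lit 12680244432) (nat_lit 228) (nat_lit 8113636216) (nat_lit 304) (nat_lit 10961841368) (nat_lit 51) (nat_lit 5) (nat_lit 54) (nat_lit 5) (nat_lit 55) (nat_lit 5) (nat_lit 352) (nat_lit 293) (nat_lit 135)))) (XT.nd (nat_lit 78) (nat_lit 304) (nat_lit 0) (XT.lf (nat_lit 0) (nat_lit 25599082371) (nat_lit 304) (nat_lit 6498135938) (nat_lit 76) (nat_lit 340976739) (nat_lit 51) (nat_lit 5) (nat_lit 55) (nat_lit 5) (nat_lit 52) (nat_lit 5) (nat_lit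 353) (nat_lit 293) (nat_lit 134)) (XT.nd (nat_lit 78) (nat_lit 76) (nat_lit 0) (XT.lf (nat_lit 0) (nat_lit 6496150976) (nat_lit 228) (nat_lit 24190387706) (nat_lit 304) (nat_lit 2450467112) (nat_lit 48) (nat_lit 5) (nat_lit 51) (nat_lit 5) (nat_lit 52) (nat_lit 5) (nat_lit 354) (nat_lit 293) (nat_lit 133)) (XT.lf (nat_lit 0) (nat_lit 2091056206) (nat_lit 304) (nat_lit 13868724007) (nat_lit 76) (nat_lit 17894561606) (nat_lit 47) (nat_lit 5) (nat_lit 51) (nat_lit 5) (nat_lit 48) (nat_lit 5) (nat_lit 355) (nat_lit 293) (nat_lit 132))))) (XT.nd (nat_lit 234) (nat_lit 228) (nat_lit 0) (XT.nd (nat_lit 78) (nat_lit 228) (nat_lit 0) (XT.lf (nat_lit 0) (nat_lit 6715049240) (nat_lit 304) (nat_lit 744329556) (nat_lit 76) (nat_lit 27133232918) (nat_lit 47) (nat_lit 5) (nat_lit 51) (nat_lit 5) (nat_lit 48) (nat_lit 5) (nat_lit 356) (nat_lit 293) (nat_lit 131)) (XT.nd (nat_lit 78) (nat_lit 0) (nat_lit 0) (XT.lf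 (nat_lit 0) (nat_lit 11612217782) (nat_lit 304) (nat_lit 22341642801) (nat_lit 76) (nat_lit 1395141206) (nat_lit 44) (nat_lit 5) (nat_lit 48) (nat_lit 5) (nat_lit 45) (nat_lit 5) (nat_lit 357) (nat_lit 293) (nat_lit 130)) (XT.lf (nat_lit 0) (nat_lit 16733401871) (nat_lit 304) (nat_lit 9021428812) (nat_lit 76) (nat_lit 10370945456) (nat_lit 44) (nat_lit 5) (nat_lit 48) (nat_lit 5) (nat_lit 45) (nat_lit 5) (nat_lit 358) (nat_lit 293) (nat_lit 129)))) (XT.nd (nat_lit 78) (nat_lit 0) (nat_lit 0) (XT.lf (nat_lit 0) (nat_lit 4785465205) (nat_lit 228) (nat_lit 17264538229) (nat_lit 304) (nat_lit 14874602254) (nat_lit 41) (nat_lit 5) (nat_lit 44) (nat_lit 5) (nat_lit 45) (nat_lit 5) (nat_lit 359) (nat_lit 293) (nat_lit 128)) (XT.nd (nat_lit 78) (nat_lit 0) (nat_lit 0) (XT.lf (nat_lit 0) (nat_lit 19185250280) (nat_lit 228) (nat_lit 8427795477) (nat_lit 304) (nat_lit 10131751351) (nat_lit 41) (nat_lit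 5) (nat_lit 44) (nat_lit 5) (nat_lit 45) (nat_lit 5) (nat_lit 360) (nat_lit 293) (nat_lit 127)) (XT.lf (nat_lit 0) (nat_lit 33345404239) (nat_lit 304) (nat_lit 4585215679) (nat_lit 76) (nat_lit 658906720) (nat_lit 41) (nat_lit 5) (nat_lit 45) (nat_lit 5) (nat_lit 42) (nat_lit 5) (nat_lit 361) (nat_lit 293) (nat_lit 126))))))) (XT.nd (nat_lit 858) (nat_lit 684) (nat_lit 0) (XT.nd (nat_lit 390) (nat_lit 380) (nat_lit 0) (XT.nd (nat_lit 156) (nat_lit 228) (nat_lit 0) (XT.nd (nat_lit 78) (nat_lit 76) (nat_lit 0) (XT.lf (nat_lit 0) (nat_lit 9912336062) (nat_lit 152) (nat_lit 29512187975) (nat_lit 228) (nat_lit 29835265) (nat_lit 39) (nat_lit 5) (nat_lit 41) (nat_lit 5) (nat_lit 42) (nat_lit 5) (nat_lit 362) (nat_lit 293) (nat_lit 125)) (XT.lf (nat_lit 0) (nat_lit 5279498888) (nat_lit 228) (nat_lit 15462754555) (nat_lit 76) (nat_lit 19600062843) (nat_lit 38) (nat_lit 5) (nat_lit 41) (nat_lit 5) (nat_lit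 39) (nat_lit 5) (nat_lit 363) (nat_lit 293) (nat_lit 124))) (XT.nd (nat_lit 78) (nat_lit 228) (nat_lit 0) (XT.lf (nat_lit 0) (nat_lit 10743705738) (nat_lit 228) (nat_lit 967243205) (nat_lit 76) (nat_lit 29546072947) (nat_lit 38) (nat_lit 5) (nat_lit 41) (nat_lit 5) (nat_lit 39) (nat_lit 5) (nat_lit 364) (nat_lit 293) (nat_lit 123)) (XT.nd (nat_lit 78) (nat_lit 0) (nat_lit 0) (XT.lf (nat_lit 0) (nat_lit 14235244476) (nat_lit 228) (nat_lit 2269735429) (nat_lit 304) (nat_lit 25690198936) (nat_lit 35) (nat_lit 5) (nat_lit 38) (nat_lit 5) (nat_lit 39) (nat_lit 5) (nat_lit 365) (nat_lit 293) (nat_lit 122)) (XT.lf (nat_lit 0) (nat_lit 22516953529) (nat_lit 304) (nat_lit 13325018078) (nat_lit 76) (nat_lit 7317177340) (nat_lit 35) (nat_lit 5) (nat_lit 39) (nat_lit 5) (nat_lit 36) (nat_lit 5) (nat_lit 366) (nat_lit 293) (nat_lit 121))))) (XT.nd (nat_lit 234) (nat_lit 228) (nat_lit 0) (XT.nd (nat_lit 78)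 (nat_lit 0) (nat_lit 0) (XT.lf (nat_lit 0) (nat_lit 1755180300) (nat_lit 152) (nat_lit 26989895206) (nat_lit 228) (nat_lit 15405893133) (nat_lit 33) (nat_lit 5) (nat_lit 35) (nat_lit 5) (nat_lit 36) (nat_lit 5) (nat_lit 367) (nat_lit 293) (nat_lit 120)) (XT.nd (nat_lit 78) (nat_lit 0) (nat_lit 0) (XT.lf (nat_lit 0) (nat_lit 17555446117) (nat_lit 152) (nat_lit 17735647027) (nat_lit 228) (nat_lit 9877522255) (nat_lit 33) (nat_lit 5) (nat_lit 35) (nat_lit 5) (nat_lit 36) (nat_lit 5) (nat_lit 368) (nat_lit 293) (nat_lit 119)) (XT.lf (nat_lit 0) (nat_lit 33824391442) (nat_lit 152) (nat_lit 8205697390) (nat_lit 228) (nat_lit 4186808723) (nat_lit 33) (nat_lit 5) (nat_lit 35) (nat_lit 5) (nat_lit 36) (nat_lit 5) (nat_lit 369) (nat_lit 293) (nat_lit 118)))) (XT.nd (nat_lit 78) (nat_lit 0) (nat_lit 0) (XT.lf (nat_lit 0) (nat_lit 1686538493) (nat_lit 228) (nat_lit 43982840156) (nat_lit 76) (nat_lit 1625432587)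 (nat_lit 30) (nat_lit 5) (nat_lit 33) (nat_lit 5) (nat_lit 31) (nat_lit 5) (nat_lit 370) (nat_lit 293) (nat_lit 117)) (XT.nd (nat_lit 78) (nat_lit 0) (nat_lit 0) (XT.lf (nat_lit 0) (nat_lit 7856248261) (nat_lit 228) (nat_lit 28788904527) (nat_lit 76) (nat_lit 11752540135) (nat_lit 30) (nat_lit 5) (nat_lit 33) (nat_lit 5) (nat_lit 31) (nat_lit 5) (nat_lit 371) (nat_lit 293) (nat_lit 116)) (XT.lf (nat_lit 0) (nat_lit 14207835042) (nat_lit 228) (nat_lit 13144273280) (nat_lit 76) (nat_lit 22181652649) (nat_lit 30) (nat_lit 5) (nat_lit 33) (nat_lit 5) (nat_lit 31) (nat_lit 5) (nat_lit 372) (nat_lit 293) (nat_lit 115)))))) (XT.nd (nat_lit 468) (nat_lit 304) (nat_lit 0) (XT.nd (nat_lit 234) (nat_lit 228) (nat_lit 0) (XT.nd (nat_lit 78) (nat_lit 0) (nat_lit 0) (XT.lf (nat_lit 0) (nat_lit 3023727462) (nat_lit 152) (nat_lit 17752187222) (nat_lit 228) (nat_lit 29927221400) (nat_lit 28) (nat_lit 5) (nat_lit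 30) (nat_lit 5) (nat_lit 31) (nat_lit 5) (nat_lit 373) (nat_lit 293) (nat_lit 114)) (XT.nd (nat_lit 78) (nat_lit 0) (nat_lit 0) (XT.lf (nat_lit 0) (nat_lit 19941288447) (nat_lit 152) (nat_lit 7729402552) (nat_lit 228) (nat_lit 24233015105) (nat_lit 28) (nat_lit 5) (nat_lit 30) (nat_lit 5) (nat_lit 31) (nat_lit 5) (nat_lit 374) (nat_lit 293) (nat_lit 113)) (XT.lf (nat_lit 0) (nat_lit 34794241629) (nat_lit 228) (nat_lit 15803709344) (nat_lit 76) (nat_lit 2541687507) (nat_lit 28) (nat_lit 5) (nat_lit 31) (nat_lit 5) (nat_lit 29) (nat_lit 5) (nat_lit 375) (nat_lit 293) (nat_lit 112)))) (XT.nd (nat_lit 78) (nat_lit 76) (nat_lit 0) (XT.lf (nat_lit 0) (nat_lit 773612261) (nat_lit 152) (nat_lit 41438934484) (nat_lit 228) (nat_lit 12197673738) (nat_lit 26) (nat_lit 5) (nat_lit 28) (nat_lit 5) (nat_lit 29) (nat_lit 5) (nat_lit 376) (nat_lit 293) (nat_lit 111)) (XT.nd (nat_lit 78) (nat_lit 76) (nat_lit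 0) (XT.lf (nat_lit 0) (nat_lit 18167545111) (nat_lit 152) (nat_lit 31842565263) (nat_lit 228) (nat_lit 5704111296) (nat_lit 26) (nat_lit 5) (nat_lit 28) (nat_lit 5) (nat_lit 29) (nat_lit 5) (nat_lit 377) (nat_lit 293) (nat_lit 110)) (XT.lf (nat_lit 0) (nat_lit 962227765) (nat_lit 228) (nat_lit 20988100230) (nat_lit 76) (nat_lit 35106818605) (nat_lit 25) (nat_lit 5) (nat_lit 28) (nat_lit 5) (nat_lit 26) (nat_lit 5) (nat_lit 378) (nat_lit 293) (nat_lit 109))))) (XT.nd (nat_lit 234) (nat_lit 152) (nat_lit 0) (XT.nd (nat_lit 78) (nat_lit 152) (nat_lit 0) (XT.lf (nat_lit 0) (nat_lit 7711168422) (nat_lit 228) (nat_lit 3993701208) (nat_lit 76) (nat_lit 46733880353) (nat_lit 25) (nat_lit 5) (nat_lit 28) (nat_lit 5) (nat_lit 26) (nat_lit 5) (nat_lit 379) (nat_lit 293) (nat_lit 108)) (XT.nd (nat_lit 78) (nat_lit 0) (nat_lit 0) (XT.lf (nat_lit 0) (nat_lit 13775001278) (nat_lit 152) (nat_lit 1017328023)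 (nat_lit 228) (nat_lit 45065582275) (nat_lit 23) (nat_lit 5) (nat_lit 25) (nat_lit 5) (nat_lit 26) (nat_lit 5) (nat_lit 380) (nat_lit 293) (nat_lit 107)) (XT.lf (nat_lit 0) (nat_lit 22220049547) (nat_lit 228) (nat_lit 29260595071) (nat_lit 76) (nat_lit 9834982256) (nat_lit 23) (nat_lit 5) (nat_lit 26) (nat_lit 5) (nat_lit 24) (nat_lit 5) (nat_lit 381) (nat_lit 293) (nat_lit 106)))) (XT.nd (nat_lit 78) (nat_lit 152) (nat_lit 0) (XT.lf (nat_lit 0) (nat_lit 29878109517) (nat_lit 228) (nat_lit 11947907554) (nat_lit 76) (nat_lit 20990833831) (nat_lit 23) (nat_lit 5) (nat_lit 26) (nat_lit 5) (nat_lit 24) (nat_lit 5) (nat_lit 382) (nat_lit 293) (nat_lit 105)) (XT.nd (nat_lit 78) (nat_lit 0) (nat_lit 0) (XT.lf (nat_lit 0) (nat_lit 5997083727) (nat_lit 152) (nat_lit 31823985451) (nat_lit 228) (nat_lit 26540390178) (nat_lit 21) (nat_lit 5) (nat_lit 23) (nat_lit 5) (nat_lit 24) (nat_lit 5) (nat_lit 383)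 (nat_lit 293) (nat_lit 104)) (XT.lf (nat_lit 0) (nat_lit 24721283783) (nat_lit 152) (nat_lit 21399228017) (nat_lit 228) (nat_lit 19828350810) (nat_lit 21) (nat_lit 5) (nat_lit 23) (nat_lit 5) (nat_lit 24) (nat_lit 5) (nat_lit 384) (nat_lit 293) (nat_lit 103))))))))
noncomputable def xc195 : XT := (XT.nd (nat_lit 35100) (nat_lit 0) (nat_lit 4560) (XT.nd (nat_lit 34164) (nat_lit 0) (nat_lit 10032) (XT.nd (nat_lit 33696) (nat_lit 0) (nat_lit 10716) (XT.nd (nat_lit 156) (nat_lit 152) (nat_lit 0) (XT.nd (nat_lit 78) (nat_lit 0) (nat_lit 0) (XT.lf (nat_lit 0) (nat_lit 44003266778) (nat_lit 152) (nat_lit 10663286196) (nat_lit 228) (nat_lit 12917408832) (nat_lit 21) (nat_lit 5) (nat_lit 23) (nat_lit 5) (nat_lit 24) (nat_lit 5) (nat_lit 385) (nat_lit 293) (nat_lit 102)) (XT.lf (nat_lit 0) (nat_lit 63470439996) (nat_lit 228) (nat_lit 5412084505) (nat_lit 76) (nat_lit 385547774) (nat_lit 21) (nat_lit 5)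 (nat_lit 24) (nat_lit 5) (nat_lit 22) (nat_lit 4) (nat_lit 386) (nat_lit 293) (nat_lit 101))) (XT.nd (nat_lit 33384) (nat_lit 0) (nat_lit 11780) (XT.lf (nat_lit 0) (nat_lit 1740721918) (nat_lit 152) (nat_lit 57558008219) (nat_lit 76) (nat_lit 11696486590) (nat_lit 19) (nat_lit 5) (nat_lit 21) (nat_lit 5) (nat_lit 20) (nat_lit 5) (nat_lit 387) (nat_lit 293) (nat_lit 100)) (XT.nd (nat_lit 78) (nat_lit 0) (nat_lit 0) (XT.lf (nat_lit 0) (nat_lit 2535874660) (nat_lit 0) (nat_lit 2535874660) (nat_lit 988) (nat_lit 713520118) (nat_lit 174) (nat_lit 5) (nat_lit 174) (nat_lit 3) (nat_lit 187) (nat_lit 3) (nat_lit 294) (nat_lit 294) (nat_lit 192)) (XT.lf (nat_lit 0) (nat_lit 10142900878) (nat_lit 0) (nat_lit 618667916) (nat_lit 988) (nat_lit 967482002) (nat_lit 174) (nat_lit 5) (nat_lit 174) (nat_lit 3) (nat_lit 187) (nat_lit 3) (nat_lit 295) (nat_lit 294) (nat_lit 191))))) (XT.nd (nat_lit 234) (nat_lit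 0) (nat_lit 76) (XT.nd (nat_lit 78) (nat_lit 1064) (nat_lit 0) (XT.lf (nat_lit 76) (nat_lit 3494142987) (nat_lit 0) (nat_lit 7957672734) (nat_lit 1064) (nat_lit 438935015) (nat_lit 175) (nat_lit 5) (nat_lit 174) (nat_lit 5) (nat_lit 188) (nat_lit 5) (nat_lit 296) (nat_lit 294) (nat_lit 190)) (XT.nd (nat_lit 78) (nat_lit 0) (nat_lit 76) (XT.lf (nat_lit 0) (nat_lit 107834796) (nat_lit 1064) (nat_lit 3314825480) (nat_lit 1140) (nat_lit 8634517561) (nat_lit 160) (nat_lit 5) (nat_lit 174) (nat_lit 5) (nat_lit 175) (nat_lit 5) (nat_lit 297) (nat_lit 294) (nat_lit 189)) (XT.lf (nat_lit 0) (nat_lit 675810298) (nat_lit 1064) (nat_lit 10297556209) (nat_lit 1140) (nat_lit 1254730292) (nat_lit 161) (nat_lit 5) (nat_lit 175) (nat_lit 5) (nat_lit 176) (nat_lit 5) (nat_lit 298) (nat_lit 294) (nat_lit 188)))) (XT.nd (nat_lit 78) (nat_lit 0) (nat_lit 0) (XT.lf (nat_lit 0) (nat_lit 1311643936) (nat_lit 1064) (nat_lit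 5046431862) (nat_lit 1140) (nat_lit 6044580020) (nat_lit 161) (nat_lit 5) (nat_lit 175) (nat_lit 5) (nat_lit 176) (nat_lit 5) (nat_lit 299) (nat_lit 294) (nat_lit 187)) (XT.nd (nat_lit 78) (nat_lit 0) (nat_lit 76) (XT.lf (nat_lit 76) (nat_lit 359244226) (nat_lit 0) (nat_lit 1594379583) (nat_lit 1140) (nat_lit 10629251639) (nat_lit 162) (nat_lit 5) (nat_lit 161) (nat_lit 5) (nat_lit 176) (nat_lit 5) (nat_lit 300) (nat_lit 294) (nat_lit 186)) (XT.lf (nat_lit 0) (nat_lit 2682224529) (nat_lit 1064) (nat_lit 6779246891) (nat_lit 1140) (nat_lit 3305044330) (nat_lit 162) (nat_lit 5) (nat_lit 176) (nat_lit 5) (nat_lit 177) (nat_lit 5) (nat_lit 301) (nat_lit 294) (nat_lit 185)))))) (XT.nd (nat_lit 468) (nat_lit 836) (nat_lit 0) (XT.nd (nat_lit 234) (nat_lit 0) (nat_lit 76) (XT.nd (nat_lit 78) (nat_lit 0) (nat_lit 76) (XT.lf (nat_lit 0) (nat_lit 3432992199) (nat_lit 1064) (nat_lit 1197479876) (nat_lit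 1140) (nat_lit 8325217829) (nat_lit 162) (nat_lit 5) (nat_lit 176) (nat_lit 5) (nat_lit 177) (nat_lit 5) (nat_lit 302) (nat_lit 294) (nat_lit 184)) (XT.nd (nat_lit 78) (nat_lit 0) (nat_lit 0) (XT.lf (nat_lit 0) (nat_lit 4239596061) (nat_lit 1064) (nat_lit 8521232932) (nat_lit 1140) (nat_lit 388743817) (nat_lit 163) (nat_lit 5) (nat_lit 177) (nat_lit 5) (nat_lit 178) (nat_lit 5) (nat_lit 303) (nat_lit 294) (nat_lit 183)) (XT.lf (nat_lit 0) (nat_lit 5113820960) (nat_lit 1064) (nat_lit 2751683859) (nat_lit 1140) (nat_lit 5482496662) (nat_lit 163) (nat_lit 5) (nat_lit 177) (nat_lit 5) (nat_lit 178) (nat_lit 5) (nat_lit 304) (nat_lit 294) (nat_lit 182)))) (XT.nd (nat_lit 78) (nat_lit 0) (nat_lit 76) (XT.lf (nat_lit 76) (nat_lit 3244268935) (nat_lit 0) (nat_lit 2786980577) (nat_lit 1140) (nat_lit 7520655226) (nat_lit 164) (nat_lit 5) (nat_lit 163) (nat_lit 5) (nat_lit 178) (nat_lit 5) (nat_lit 305)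 (nat_lit 294) (nat_lit 181)) (XT.nd (nat_lit 78) (nat_lit 0) (nat_lit 0) (XT.lf (nat_lit 0) (nat_lit 7013903108) (nat_lit 1064) (nat_lit 4318729180) (nat_lit 1140) (nat_lit 2428191868) (nat_lit 164) (nat_lit 5) (nat_lit 178) (nat_lit 5) (nat_lit 179) (nat_lit 5) (nat_lit 306) (nat_lit 294) (nat_lit 180)) (XT.lf (nat_lit 76) (nat_lit 1848241429) (nat_lit 0) (nat_lit 6209706832) (nat_lit 1140) (nat_lit 5917134789) (nat_lit 165) (nat_lit 5) (nat_lit 164) (nat_lit 5) (nat_lit 179) (nat_lit 5) (nat_lit 307) (nat_lit 294) (nat_lit 179))))) (XT.nd (nat_lit 234) (nat_lit 988) (nat_lit 0) (XT.nd (nat_lit 78) (nat_lit 0) (nat_lit 76) (XT.lf (nat_lit 76) (nat_lit 8278774455) (nat_lit 0) (nat_lit 884998466) (nat_lit 1140) (nat_lit 5031111445) (nat_lit 165) (nat_lit 5) (nat_lit 164) (nat_lit 5) (nat_lit 179) (nat_lit 5) (nat_lit 308) (nat_lit 294) (nat_lit 178)) (XT.nd (nat_lit 78) (nat_lit 0) (nat_lit 0)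 (XT.lf (nat_lit 76) (nat_lit 435095146) (nat_lit 0) (nat_lit 9903332494) (nat_lit 1140) (nat_lit 4081809994) (nat_lit 166) (nat_lit 5) (nat_lit 165) (nat_lit 5) (nat_lit 180) (nat_lit 5) (nat_lit 309) (nat_lit 294) (nat_lit 177)) (XT.lf (nat_lit 76) (nat_lit 7079147195) (nat_lit 0) (nat_lit 4525127229) (nat_lit 1140) (nat_lit 3046425271) (nat_lit 166) (nat_lit 5) (nat_lit 165) (nat_lit 5) (nat_lit 180) (nat_lit 5) (nat_lit 310) (nat_lit 294) (nat_lit 176)))) (XT.nd (nat_lit 78) (nat_lit 1140) (nat_lit 0) (XT.lf (nat_lit 0) (nat_lit 12905768556) (nat_lit 1064) (nat_lit 985452707) (nat_lit 76) (nat_lit 996950189) (nat_lit 166) (nat_lit 5) (nat_lit 180) (nat_lit 5) (nat_lit 167) (nat_lit 5) (nat_lit 311) (nat_lit 294) (nat_lit 175)) (XT.nd (nat_lit 78) (nat_lit 76) (nat_lit 0) (XT.lf (nat_lit 0) (nat_lit 5857884166) (nat_lit 1064) (nat_lit 8477808652) (nat_lit 1140) (nat_lit 794418215) (nat_lit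 152) (nat_lit 5) (nat_lit 166) (nat_lit 5) (nat_lit 167) (nat_lit 5) (nat_lit 312) (nat_lit 294) (nat_lit 174)) (XT.lf (nat_lit 0) (nat_lit 419262949) (nat_lit 1140) (nat_lit 2466522133) (nat_lit 76) (nat_lit 12493470763) (nat_lit 151) (nat_lit 5) (nat_lit 166) (nat_lit 5) (nat_lit 152) (nat_lit 5) (nat_lit 313) (nat_lit 294) (nat_lit 173))))))) (XT.nd (nat_lit 936) (nat_lit 2052) (nat_lit 0) (XT.nd (nat_lit 468) (nat_lit 1520) (nat_lit 0) (XT.nd (nat_lit 234) (nat_lit 532) (nat_lit 0) (XT.nd (nat_lit 78) (nat_lit 532) (nat_lit 0) (XT.lf (nat_lit 0) (nat_lit 1714637659) (nat_lit 912) (nat_lit 11046986268) (nat_lit 76) (nat_lit 2872200695) (nat_lit 140) (nat_lit 5) (nat_lit 152) (nat_lit 5) (nat_lit 141) (nat_lit 5) (nat_lit 314) (nat_lit 294) (nat_lit 172)) (XT.nd (nat_lit 78) (nat_lit 532) (nat_lit 0) (XT.lf (nat_lit 0) (nat_lit 3091570053) (nat_lit 912) (nat_lit 4031731097) (nat_lit 76) (nat_lit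 8771470839) (nat_lit 140) (nat_lit 5) (nat_lit 152) (nat_lit 5) (nat_lit 141) (nat_lit 5) (nat_lit 315) (nat_lit 294) (nat_lit 171)) (XT.lf (nat_lit 0) (nat_lit 3247656114) (nat_lit 532) (nat_lit 1282664675) (nat_lit 608) (nat_lit 11632633442) (nat_lit 133) (nat_lit 5) (nat_lit 140) (nat_lit 5) (nat_lit 141) (nat_lit 5) (nat_lit 316) (nat_lit 294) (nat_lit 170)))) (XT.nd (nat_lit 78) (nat_lit 532) (nat_lit 0) (XT.lf (nat_lit 0) (nat_lit 6088368031) (nat_lit 608) (nat_lit 5665738791) (nat_lit 76) (nat_lit 4682812231) (nat_lit 133) (nat_lit 5) (nat_lit 141) (nat_lit 5) (nat_lit 134) (nat_lit 5) (nat_lit 317) (nat_lit 294) (nat_lit 169)) (XT.nd (nat_lit 78) (nat_lit 0) (nat_lit 0) (XT.lf (nat_lit 0) (nat_lit 1814353712) (nat_lit 532) (nat_lit 5898768531) (nat_lit 608) (nat_lit 9005402127) (nat_lit 126) (nat_lit 5) (nat_lit 133) (nat_lit 5) (nat_lit 134) (nat_lit 5) (nat_lit 318) (nat_lit 294) (nat_lit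 168)) (XT.lf (nat_lit 0) (nat_lit 9435703026) (nat_lit 608) (nat_lit 7383594692) (nat_lit 76) (nat_lit 187827529) (nat_lit 126) (nat_lit 5) (nat_lit 134) (nat_lit 5) (nat_lit 127) (nat_lit 5) (nat_lit 319) (nat_lit 294) (nat_lit 167))))) (XT.nd (nat_lit 234) (nat_lit 1064) (nat_lit 0) (XT.nd (nat_lit 78) (nat_lit 0) (nat_lit 0) (XT.lf (nat_lit 0) (nat_lit 300459135) (nat_lit 456) (nat_lit 10961117780) (nat_lit 532) (nat_lit 6041278103) (nat_lit 120) (nat_lit 5) (nat_lit 126) (nat_lit 5) (nat_lit 127) (nat_lit 5) (nat_lit 320) (nat_lit 294) (nat_lit 166)) (XT.nd (nat_lit 78) (nat_lit 0) (nat_lit 0) (XT.lf (nat_lit 0) (nat_lit 8356886327) (nat_lit 456) (nat_lit 4850414826) (nat_lit 532) (nat_lit 4398222082) (nat_lit 120) (nat_lit 5) (nat_lit 126) (nat_lit 5) (nat_lit 127) (nat_lit 5) (nat_lit 321) (nat_lit 294) (nat_lit 165)) (XT.lf (nat_lit 0) (nat_lit 15216064380) (nat_lit 532) (nat_lit 1285664219)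 (nat_lit 76) (nat_lit 1415421108) (nat_lit 120) (nat_lit 5) (nat_lit 127) (nat_lit 5) (nat_lit 121) (nat_lit 5) (nat_lit 322) (nat_lit 294) (nat_lit 164)))) (XT.nd (nat_lit 78) (nat_lit 532) (nat_lit 0) (XT.lf (nat_lit 0) (nat_lit 6995435018) (nat_lit 532) (nat_lit 10395982444) (nat_lit 608) (nat_lit 843535402) (nat_lit 113) (nat_lit 5) (nat_lit 120) (nat_lit 5) (nat_lit 121) (nat_lit 5) (nat_lit 323) (nat_lit 294) (nat_lit 163)) (XT.nd (nat_lit 78) (nat_lit 456) (nat_lit 0) (XT.lf (nat_lit 0) (nat_lit 1053105161) (nat_lit 608) (nat_lit 3030337575) (nat_lit 76) (nat_lit 14478428412) (nat_lit 112) (nat_lit 5) (nat_lit 120) (nat_lit 5) (nat_lit 113) (nat_lit 5) (nat_lit 324) (nat_lit 294) (nat_lit 162)) (XT.lf (nat_lit 0) (nat_lit 3057944151) (nat_lit 532) (nat_lit 13405566872) (nat_lit 76) (nat_lit 2432803995) (nat_lit 106) (nat_lit 5) (nat_lit 113) (nat_lit 5) (nat_lit 107) (nat_lit 5) (nat_lit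 325) (nat_lit 294) (nat_lit 161)))))) (XT.nd (nat_lit 468) (nat_lit 1216) (nat_lit 0) (XT.nd (nat_lit 234) (nat_lit 380) (nat_lit 0) (XT.nd (nat_lit 78) (nat_lit 456) (nat_lit 0) (XT.lf (nat_lit 0) (nat_lit 5185807075) (nat_lit 532) (nat_lit 4960272211) (nat_lit 76) (nat_lit 9092842279) (nat_lit 106) (nat_lit 5) (nat_lit 113) (nat_lit 5) (nat_lit 107) (nat_lit 5) (nat_lit 326) (nat_lit 294) (nat_lit 160)) (XT.nd (nat_lit 78) (nat_lit 0) (nat_lit 0) (XT.lf (nat_lit 0) (nat_lit 3803622787) (nat_lit 456) (nat_lit 3602237300) (nat_lit 532) (nat_lit 12185110863) (nat_lit 100) (nat_lit 5) (nat_lit 106) (nat_lit 5) (nat_lit 107) (nat_lit 5) (nat_lit 327) (nat_lit 294) (nat_lit 159)) (XT.lf (nat_lit 0) (nat_lit 9765200248) (nat_lit 532) (nat_lit 7059764580) (nat_lit 76) (nat_lit 3126451242) (nat_lit 100) (nat_lit 5) (nat_lit 107) (nat_lit 5) (nat_lit 101) (nat_lit 5) (nat_lit 328) (nat_lit 294) (nat_lit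 158)))) (XT.nd (nat_lit 78) (nat_lit 0) (nat_lit 0) (XT.lf (nat_lit 0) (nat_lit 1922623096) (nat_lit 380) (nat_lit 10319016506) (nat_lit 456) (nat_lit 8079659763) (nat_lit 95) (nat_lit 5) (nat_lit 100) (nat_lit 5) (nat_lit 101) (nat_lit 5) (nat_lit 329) (nat_lit 294) (nat_lit 157)) (XT.nd (nat_lit 78) (nat_lit 0) (nat_lit 0) (XT.lf (nat_lit 0) (nat_lit 11310412665) (nat_lit 380) (nat_lit 3545564623) (nat_lit 456) (nat_lit 5844407686) (nat_lit 95) (nat_lit 5) (nat_lit 100) (nat_lit 5) (nat_lit 101) (nat_lit 5) (nat_lit 330) (nat_lit 294) (nat_lit 156)) (XT.lf (nat_lit 0) (nat_lit 17574255747) (nat_lit 456) (nat_lit 152748095) (nat_lit 76) (nat_lit 3363087554) (nat_lit 95) (nat_lit 5) (nat_lit 101) (nat_lit 5) (nat_lit 96) (nat_lit 5) (nat_lit 331) (nat_lit 294) (nat_lit 155))))) (XT.nd (nat_lit 234) (nat_lit 380) (nat_lit 0) (XT.nd (nat_lit 78) (nat_lit 456) (nat_lit 0) (XT.lf (nat_lit 0) (nat_lit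 9503430401) (nat_lit 380) (nat_lit 10989856049) (nat_lit 456) (nat_lit 994639613) (nat_lit 90) (nat_lit 5) (nat_lit 95) (nat_lit 5) (nat_lit 96) (nat_lit 5) (nat_lit 332) (nat_lit 294) (nat_lit 154)) (XT.nd (nat_lit 78) (nat_lit 380) (nat_lit 0) (XT.lf (nat_lit 0) (nat_lit 1565279253) (nat_lit 456) (nat_lit 2469217041) (nat_lit 76) (nat_lit 17862919306) (nat_lit 89) (nat_lit 5) (nat_lit 95) (nat_lit 5) (nat_lit 90) (nat_lit 5) (nat_lit 333) (nat_lit 294) (nat_lit 153)) (XT.lf (nat_lit 0) (nat_lit 4277585047) (nat_lit 456) (nat_lit 14888947583) (nat_lit 76) (nat_lit 3149506389) (nat_lit 84) (nat_lit 5) (nat_lit 90) (nat_lit 5) (nat_lit 85) (nat_lit 5) (nat_lit 334) (nat_lit 294) (nat_lit 152)))) (XT.nd (nat_lit 78) (nat_lit 380) (nat_lit 0) (XT.lf (nat_lit 0) (nat_lit 7129501621) (nat_lit 456) (nat_lit 5124209477) (nat_lit 76) (nat_lit 10491774493) (nat_lit 84) (nat_lit 5) (nat_lit 90) (nat_lit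 5) (nat_lit 85) (nat_lit 5) (nat_lit 335) (nat_lit 294) (nat_lit 151)) (XT.nd (nat_lit 78) (nat_lit 0) (nat_lit 0) (XT.lf (nat_lit 0) (nat_lit 5023289672) (nat_lit 380) (nat_lit 5085288464) (nat_lit 456) (nat_lit 13078000712) (nat_lit 79) (nat_lit 5) (nat_lit 84) (nat_lit 5) (nat_lit 85) (nat_lit 5) (nat_lit 336) (nat_lit 294) (nat_lit 150)) (XT.lf (nat_lit 0) (nat_lit 13244792483) (nat_lit 456) (nat_lit 8090017661) (nat_lit 76) (nat_lit 2304072819) (nat_lit 79) (nat_lit 5) (nat_lit 85) (nat_lit 5) (nat_lit 80) (nat_lit 5) (nat_lit 337) (nat_lit 294) (nat_lit 149))))))))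
noncomputable def xc196 : XT := (XT.nd (nat_lit 1794) (nat_lit 1368) (nat_lit 0) (XT.nd (nat_lit 858) (nat_lit 1368) (nat_lit 0) (XT.nd (nat_lit 390) (nat_lit 836) (nat_lit 0) (XT.nd (nat_lit 156) (nat_lit 380) (nat_lit 0) (XT.nd (nat_lit 78) (nat_lit 0) (nat_lit 0) (XT.lf (nat_lit 0) (nat_lit 2271350803) (nat_lit 304) (nat_lit 14269534363) (nat_lit 380) (nat_lit 7561907988) (nat_lit 75) (nat_lit 5) (nat_lit 79) (nat_lit 5) (nat_lit 80) (nat_lit 5) (nat_lit 338) (nat_lit 294) (nat_lit 148)) (XT.lf (nat_lit 0) (nat_lit 13101402871) (nat_lit 304) (nat_lit 6909869274) (nat_lit 380) (nat_lit 4567096556) (nat_lit 75) (nat_lit 5) (nat_lit 79) (nat_lit 5) (nat_lit 80) (nat_lit 5) (nat_lit 339) (nat_lit 294) (nat_lit 147))) (XT.nd (nat_lit 78) (nat_lit 380) (nat_lit 0) (XT.lf (nat_lit 0) (nat_lit 23586101990) (nat_lit 380) (nat_lit 826240186) (nat_lit 76) (nat_lit 655869493) (nat_lit 75) (nat_lit 5)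 (nat_lit 80) (nat_lit 5) (nat_lit 76) (nat_lit 5) (nat_lit 340) (nat_lit 294) (nat_lit 146)) (XT.nd (nat_lit 78) (nat_lit 0) (nat_lit 0) (XT.lf (nat_lit 0) (nat_lit 1825111757) (nat_lit 380) (nat_lit 15317562027) (nat_lit 76) (nat_lit 8424713665) (nat_lit 70) (nat_lit 5) (nat_lit 75) (nat_lit 5) (nat_lit 71) (nat_lit 5) (nat_lit 341) (nat_lit 294) (nat_lit 145)) (XT.lf (nat_lit 0) (nat_lit 5204282619) (nat_lit 380) (nat_lit 4428694081) (nat_lit 76) (nat_lit 16448055157) (nat_lit 70) (nat_lit 5) (nat_lit 75) (nat_lit 5) (nat_lit 71) (nat_lit 5) (nat_lit 342) (nat_lit 294) (nat_lit 144))))) (XT.nd (nat_lit 234) (nat_lit 228) (nat_lit 0) (XT.nd (nat_lit 78) (nat_lit 304) (nat_lit 0) (XT.lf (nat_lit 0) (nat_lit 6914228361) (nat_lit 304) (nat_lit 1831331712) (nat_lit 380) (nat_lit 17862712548) (nat_lit 66) (nat_lit 5) (nat_lit 70) (nat_lit 5) (nat_lit 71) (nat_lit 5) (nat_lit 343) (nat_lit 294) (nat_lit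 143)) (XT.nd (nat_lit 78) (nat_lit 304) (nat_lit 0) (XT.lf (nat_lit 0) (nat_lit 12492225307) (nat_lit 380) (nat_lit 8529469014) (nat_lit 76) (nat_lit 6126670509) (nat_lit 66) (nat_lit 5) (nat_lit 71) (nat_lit 5) (nat_lit 67) (nat_lit 5) (nat_lit 344) (nat_lit 294) (nat_lit 142)) (XT.lf (nat_lit 0) (nat_lit 3003115529) (nat_lit 304) (nat_lit 13389684863) (nat_lit 380) (nat_lit 11310622568) (nat_lit 62) (nat_lit 5) (nat_lit 66) (nat_lit 5) (nat_lit 67) (nat_lit 5) (nat_lit 345) (nat_lit 294) (nat_lit 141)))) (XT.nd (nat_lit 78) (nat_lit 228) (nat_lit 0) (XT.lf (nat_lit 0) (nat_lit 15049198323) (nat_lit 304) (nat_lit 5441924921) (nat_lit 380) (nat_lit 7781595882) (nat_lit 62) (nat_lit 5) (nat_lit 66) (nat_lit 5) (nat_lit 67) (nat_lit 5) (nat_lit 346) (nat_lit 294) (nat_lit 140)) (XT.nd (nat_lit 78) (nat_lit 228) (nat_lit 0) (XT.lf (nat_lit 0) (nat_lit 24733514295) (nat_lit 380) (nat_lit 1436069144)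 (nat_lit 76) (nat_lit 2688885149) (nat_lit 62) (nat_lit 5) (nat_lit 67) (nat_lit 5) (nat_lit 63) (nat_lit 5) (nat_lit 347) (nat_lit 294) (nat_lit 139)) (XT.lf (nat_lit 0) (nat_lit 10855916084) (nat_lit 228) (nat_lit 18400387311) (nat_lit 304) (nat_lit 200901086) (nat_lit 59) (nat_lit 5) (nat_lit 62) (nat_lit 5) (nat_lit 63) (nat_lit 5) (nat_lit 348) (nat_lit 294) (nat_lit 138)))))) (XT.nd (nat_lit 468) (nat_lit 760) (nat_lit 0) (XT.nd (nat_lit 234) (nat_lit 228) (nat_lit 0) (XT.nd (nat_lit 78) (nat_lit 304) (nat_lit 0) (XT.lf (nat_lit 0) (nat_lit 3775486229) (nat_lit 304) (nat_lit 6571519858) (nat_lit 76) (nat_lit 19725509176) (nat_lit 58) (nat_lit 5) (nat_lit 62) (nat_lit 5) (nat_lit 59) (nat_lit 5) (nat_lit 349) (nat_lit 294) (nat_lit 137)) (XT.nd (nat_lit 78) (nat_lit 0) (nat_lit 0) (XT.lf (nat_lit 0) (nat_lit 5925907916) (nat_lit 304) (nat_lit 1993247574) (nat_lit 380) (nat_lit 22785516436)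 (nat_lit 54) (nat_lit 5) (nat_lit 58) (nat_lit 5) (nat_lit 59) (nat_lit 5) (nat_lit 350) (nat_lit 294) (nat_lit 136)) (XT.lf (nat_lit 0) (nat_lit 12312825720) (nat_lit 380) (nat_lit 12491988289) (nat_lit 76) (nat_lit 6547215426) (nat_lit 54) (nat_lit 5) (nat_lit 59) (nat_lit 5) (nat_lit 55) (nat_lit 5) (nat_lit 351) (nat_lit 294) (nat_lit 135)))) (XT.nd (nat_lit 78) (nat_lit 0) (nat_lit 0) (XT.lf (nat_lit 0) (nat_lit 139635882) (nat_lit 228) (nat_lit 16715013814) (nat_lit 304) (nat_lit 15163674337) (nat_lit 51) (nat_lit 5) (nat_lit 54) (nat_lit 5) (nat_lit 55) (nat_lit 5) (nat_lit 352) (nat_lit 294) (nat_lit 134)) (XT.nd (nat_lit 78) (nat_lit 0) (nat_lit 0) (XT.lf (nat_lit 0) (nat_lit 13399603918) (nat_lit 228) (nat_lit 8254608990) (nat_lit 304) (nat_lit 11046756503) (nat_lit 51) (nat_lit 5) (nat_lit 54) (nat_lit 5) (nat_lit 55) (nat_lit 5) (nat_lit 353) (nat_lit 294) (nat_lit 133)) (XT.lf (nat_lit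 0) (nat_lit 26597637872) (nat_lit 304) (nat_lit 6357748231) (nat_lit 76) (nat_lit 448718091) (nat_lit 51) (nat_lit 5) (nat_lit 55) (nat_lit 5) (nat_lit 52) (nat_lit 5) (nat_lit 354) (nat_lit 294) (nat_lit 132))))) (XT.nd (nat_lit 234) (nat_lit 456) (nat_lit 0) (XT.nd (nat_lit 78) (nat_lit 76) (nat_lit 0) (XT.lf (nat_lit 0) (nat_lit 7023079724) (nat_lit 228) (nat_lit 24811113950) (nat_lit 304) (nat_lit 2289800612) (nat_lit 48) (nat_lit 5) (nat_lit 51) (nat_lit 5) (nat_lit 52) (nat_lit 5) (nat_lit 355) (nat_lit 294) (nat_lit 131)) (XT.nd (nat_lit 78) (nat_lit 0) (nat_lit 0) (XT.lf (nat_lit 0) (nat_lit 2376711007) (nat_lit 304) (nat_lit 13957683967) (nat_lit 76) (nat_lit 18528597280) (nat_lit 47) (nat_lit 5) (nat_lit 51) (nat_lit 5) (nat_lit 48) (nat_lit 5) (nat_lit 356) (nat_lit 294) (nat_lit 130)) (XT.lf (nat_lit 0) (nat_lit 7132930925) (nat_lit 304) (nat_lit 449084917) (nat_lit 76) (nat_lit 28041597698)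 (nat_lit 47) (nat_lit 5) (nat_lit 51) (nat_lit 5) (nat_lit 48) (nat_lit 5) (nat_lit 357) (nat_lit 294) (nat_lit 129)))) (XT.nd (nat_lit 78) (nat_lit 228) (nat_lit 0) (XT.lf (nat_lit 0) (nat_lit 12174707394) (nat_lit 304) (nat_lit 22691735073) (nat_lit 76) (nat_lit 1536330325) (nat_lit 44) (nat_lit 5) (nat_lit 48) (nat_lit 5) (nat_lit 45) (nat_lit 5) (nat_lit 358) (nat_lit 294) (nat_lit 128)) (XT.nd (nat_lit 78) (nat_lit 228) (nat_lit 0) (XT.lf (nat_lit 0) (nat_lit 17443290411) (nat_lit 304) (nat_lit 8981239626) (nat_lit 76) (nat_lit 10778515454) (nat_lit 44) (nat_lit 5) (nat_lit 48) (nat_lit 5) (nat_lit 45) (nat_lit 5) (nat_lit 359) (nat_lit 294) (nat_lit 127)) (XT.lf (nat_lit 0) (nat_lit 5236813838) (nat_lit 228) (nat_lit 17679479852) (nat_lit 304) (nat_lit 15109646913) (nat_lit 41) (nat_lit 5) (nat_lit 44) (nat_lit 5) (nat_lit 45) (nat_lit 5) (nat_lit 360) (nat_lit 294) (nat_lit 126)))))))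 (XT.nd (nat_lit 858) (nat_lit 532) (nat_lit 0) (XT.nd (nat_lit 390) (nat_lit 608) (nat_lit 0) (XT.nd (nat_lit 156) (nat_lit 228) (nat_lit 0) (XT.nd (nat_lit 78) (nat_lit 0) (nat_lit 0) (XT.lf (nat_lit 0) (nat_lit 20059627863) (nat_lit 228) (nat_lit 8580634658) (nat_lit 304) (nat_lit 10230661748) (nat_lit 41) (nat_lit 5) (nat_lit 44) (nat_lit 5) (nat_lit 45) (nat_lit 5) (nat_lit 361) (nat_lit 294) (nat_lit 125)) (XT.lf (nat_lit 0) (nat_lit 34539733940) (nat_lit 304) (nat_lit 4427553104) (nat_lit 76) (nat_lit 773861715) (nat_lit 41) (nat_lit 5) (nat_lit 45) (nat_lit 5) (nat_lit 42) (nat_lit 5) (nat_lit 362) (nat_lit 294) (nat_lit 124))) (XT.nd (nat_lit 78) (nat_lit 0) (nat_lit 0) (XT.lf (nat_lit 0) (nat_lit 163122620) (nat_lit 228) (nat_lit 30131587072) (nat_lit 76) (nat_lit 10337261046) (nat_lit 38) (nat_lit 5) (nat_lit 41) (nat_lit 5) (nat_lit 39) (nat_lit 5) (nat_lit 363) (nat_lit 294) (nat_lit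 123)) (XT.nd (nat_lit 78) (nat_lit 0) (nat_lit 0) (XT.lf (nat_lit 0) (nat_lit 5625508403) (nat_lit 228) (nat_lit 15638868777) (nat_lit 76) (nat_lit 20282355969) (nat_lit 38) (nat_lit 5) (nat_lit 41) (nat_lit 5) (nat_lit 39) (nat_lit 5) (nat_lit 364) (nat_lit 294) (nat_lit 122)) (XT.lf (nat_lit 0) (nat_lit 11248176666) (nat_lit 228) (nat_lit 716873690) (nat_lit 76) (nat_lit 30524000029) (nat_lit 38) (nat_lit 5) (nat_lit 41) (nat_lit 5) (nat_lit 39) (nat_lit 5) (nat_lit 365) (nat_lit 294) (nat_lit 121))))) (XT.nd (nat_lit 234) (nat_lit 228) (nat_lit 0) (XT.nd (nat_lit 78) (nat_lit 152) (nat_lit 0) (XT.lf (nat_lit 0) (nat_lit 14938949535) (nat_lit 228) (nat_lit 2240693206) (nat_lit 304) (nat_lit 26275795024) (nat_lit 35) (nat_lit 5) (nat_lit 38) (nat_lit 5) (nat_lit 39) (nat_lit 5) (nat_lit 366) (nat_lit 294) (nat_lit 120)) (XT.nd (nat_lit 78) (nat_lit 152) (nat_lit 0) (XT.lf (nat_lit 0) (nat_lit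 23367653546) (nat_lit 304) (nat_lit 13451651677) (nat_lit 76) (nat_lit 7629157559) (nat_lit 35) (nat_lit 5) (nat_lit 39) (nat_lit 5) (nat_lit 36) (nat_lit 5) (nat_lit 367) (nat_lit 294) (nat_lit 119)) (XT.lf (nat_lit 0) (nat_lit 2078275035) (nat_lit 152) (nat_lit 27701841112) (nat_lit 228) (nat_lit 15690001976) (nat_lit 33) (nat_lit 5) (nat_lit 35) (nat_lit 5) (nat_lit 36) (nat_lit 5) (nat_lit 368) (nat_lit 294) (nat_lit 118)))) (XT.nd (nat_lit 78) (nat_lit 228) (nat_lit 0) (XT.lf (nat_lit 0) (nat_lit 18344671953) (nat_lit 152) (nat_lit 18172812603) (nat_lit 228) (nat_lit 10000966416) (nat_lit 33) (nat_lit 5) (nat_lit 35) (nat_lit 5) (nat_lit 36) (nat_lit 5) (nat_lit 369) (nat_lit 294) (nat_lit 117)) (XT.nd (nat_lit 78) (nat_lit 228) (nat_lit 0) (XT.lf (nat_lit 0) (nat_lit 35094038188) (nat_lit 152) (nat_lit 8359728666) (nat_lit 228) (nat_lit 4144566862) (nat_lit 33) (nat_lit 5) (nat_lit 35)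 (nat_lit 5) (nat_lit 36) (nat_lit 5) (nat_lit 370) (nat_lit 294) (nat_lit 116)) (XT.lf (nat_lit 0) (nat_lit 1900271211) (nat_lit 228) (nat_lit 45042342013) (nat_lit 76) (nat_lit 1765971511) (nat_lit 30) (nat_lit 5) (nat_lit 33) (nat_lit 5) (nat_lit 31) (nat_lit 5) (nat_lit 371) (nat_lit 294) (nat_lit 115)))))) (XT.nd (nat_lit 468) (nat_lit 228) (nat_lit 0) (XT.nd (nat_lit 234) (nat_lit 152) (nat_lit 0) (XT.nd (nat_lit 78) (nat_lit 152) (nat_lit 0) (XT.lf (nat_lit 0) (nat_lit 8250320721) (nat_lit 228) (nat_lit 29400160645) (nat_lit 76) (nat_lit 12194219201) (nat_lit 30) (nat_lit 5) (nat_lit 33) (nat_lit 5) (nat_lit 31) (nat_lit 5) (nat_lit 372) (nat_lit 294) (nat_lit 114)) (XT.nd (nat_lit 78) (nat_lit 152) (nat_lit 0) (XT.lf (nat_lit 0) (nat_lit 14787841950) (nat_lit 228) (nat_lit 13293542239) (nat_lit 76) (nat_lit 22933609861) (nat_lit 30) (nat_lit 5) (nat_lit 33) (nat_lit 5) (nat_lit 31) (nat_lit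 5) (nat_lit 373) (nat_lit 294) (nat_lit 113)) (XT.lf (nat_lit 0) (nat_lit 3357095985) (nat_lit 152) (nat_lit 18193721769) (nat_lit 228) (nat_lit 30668701901) (nat_lit 28) (nat_lit 5) (nat_lit 30) (nat_lit 5) (nat_lit 31) (nat_lit 5) (nat_lit 374) (nat_lit 294) (nat_lit 112)))) (XT.nd (nat_lit 78) (nat_lit 152) (nat_lit 0) (XT.lf (nat_lit 0) (nat_lit 20775116129) (nat_lit 152) (nat_lit 7872904949) (nat_lit 228) (nat_lit 24808222897) (nat_lit 28) (nat_lit 5) (nat_lit 30) (nat_lit 5) (nat_lit 31) (nat_lit 5) (nat_lit 375) (nat_lit 294) (nat_lit 111)) (XT.nd (nat_lit 78) (nat_lit 152) (nat_lit 0) (XT.lf (nat_lit 0) (nat_lit 35981815391) (nat_lit 228) (nat_lit 16045478119) (nat_lit 76) (nat_lit 2702069272) (nat_lit 28) (nat_lit 5) (nat_lit 31) (nat_lit 5) (nat_lit 29) (nat_lit 5) (nat_lit 376) (nat_lit 294) (nat_lit 110)) (XT.lf (nat_lit 0) (nat_lit 1026885267) (nat_lit 152) (nat_lit 42593809124)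 (nat_lit 228) (nat_lit 12417431552) (nat_lit 26) (nat_lit 5) (nat_lit 28) (nat_lit 5) (nat_lit 29) (nat_lit 5) (nat_lit 377) (nat_lit 294) (nat_lit 109))))) (XT.nd (nat_lit 234) (nat_lit 152) (nat_lit 0) (XT.nd (nat_lit 78) (nat_lit 76) (nat_lit 0) (XT.lf (nat_lit 0) (nat_lit 18935935191) (nat_lit 152) (nat_lit 32712120478) (nat_lit 228) (nat_lit 5733319685) (nat_lit 26) (nat_lit 5) (nat_lit 28) (nat_lit 5) (nat_lit 29) (nat_lit 5) (nat_lit 378) (nat_lit 294) (nat_lit 108)) (XT.nd (nat_lit 78) (nat_lit 0) (nat_lit 0) (XT.lf (nat_lit 0) (nat_lit 1126187489) (nat_lit 228) (nat_lit 21398061180) (nat_lit 76) (nat_lit 36240424085) (nat_lit 25) (nat_lit 5) (nat_lit 28) (nat_lit 5) (nat_lit 26) (nat_lit 5) (nat_lit 379) (nat_lit 294) (nat_lit 107)) (XT.lf (nat_lit 0) (nat_lit 8073661621) (nat_lit 228) (nat_lit 3900228693) (nat_lit 76) (nat_lit 48213955911) (nat_lit 25) (nat_lit 5) (nat_lit 28) (nat_lit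 5) (nat_lit 26) (nat_lit 5) (nat_lit 380) (nat_lit 294) (nat_lit 106)))) (XT.nd (nat_lit 78) (nat_lit 0) (nat_lit 0) (XT.lf (nat_lit 0) (nat_lit 14399443853) (nat_lit 152) (nat_lit 966023447) (nat_lit 228) (nat_lit 46284172900) (nat_lit 23) (nat_lit 5) (nat_lit 25) (nat_lit 5) (nat_lit 26) (nat_lit 5) (nat_lit 381) (nat_lit 294) (nat_lit 105)) (XT.nd (nat_lit 78) (nat_lit 0) (nat_lit 0) (XT.lf (nat_lit 0) (nat_lit 23013014786) (nat_lit 228) (nat_lit 29930243297) (nat_lit 76) (nat_lit 10207922722) (nat_lit 23) (nat_lit 5) (nat_lit 26) (nat_lit 5) (nat_lit 24) (nat_lit 5) (nat_lit 382) (nat_lit 294) (nat_lit 104)) (XT.lf (nat_lit 0) (nat_lit 30897136057) (nat_lit 228) (nat_lit 12104238347) (nat_lit 76) (nat_lit 21696181174) (nat_lit 23) (nat_lit 5) (nat_lit 26) (nat_lit 5) (nat_lit 24) (nat_lit 5) (nat_lit 383) (nat_lit 294) (nat_lit 103))))))))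
noncomputable def xc197 : XT := (XT.nd (nat_lit 35178) (nat_lit 0) (nat_lit 4408) (XT.nd (nat_lit 34242) (nat_lit 0) (nat_lit 9956) (XT.nd (nat_lit 33774) (nat_lit 0) (nat_lit 10564) (XT.nd (nat_lit 156) (nat_lit 0) (nat_lit 0) (XT.nd (nat_lit 78) (nat_lit 0) (nat_lit 0) (XT.lf (nat_lit 0) (nat_lit 6377121236) (nat_lit 152) (nat_lit 32699613698) (nat_lit 228) (nat_lit 27211820346) (nat_lit 21) (nat_lit 5) (nat_lit 23) (nat_lit 5) (nat_lit 24) (nat_lit 5) (nat_lit 384) (nat_lit 294) (nat_lit 102)) (XT.lf (nat_lit 0) (nat_lit 25657218410) (nat_lit 152) (nat_lit 21964417171) (nat_lit 228) (nat_lit 20302054211) (nat_lit 21) (nat_lit 5) (nat_lit 23) (nat_lit 5) (nat_lit 24) (nat_lit 5) (nat_lit 385) (nat_lit 294) (nat_lit 101))) (XT.nd (nat_lit 78) (nat_lit 0) (nat_lit 0) (XT.lf (nat_lit 0) (nat_lit 45512001785) (nat_lit 152) (nat_lit 10908633630) (nat_lit 228) (nat_lit 13187312530) (nat_lit 21) (nat_lit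 5) (nat_lit 23) (nat_lit 5) (nat_lit 24) (nat_lit 5) (nat_lit 386) (nat_lit 294) (nat_lit 100)) (XT.nd (nat_lit 33462) (nat_lit 0) (nat_lit 11628) (XT.lf (nat_lit 0) (nat_lit 65486011917) (nat_lit 228) (nat_lit 5388570256) (nat_lit 76) (nat_lit 468081577) (nat_lit 21) (nat_lit 5) (nat_lit 24) (nat_lit 5) (nat_lit 22) (nat_lit 4) (nat_lit 387) (nat_lit 294) (nat_lit 99)) (XT.lf (nat_lit 0) (nat_lit 2842670393) (nat_lit 0) (nat_lit 2842670393) (nat_lit 988) (nat_lit 258585202) (nat_lit 174) (nat_lit 5) (nat_lit 174) (nat_lit 3) (nat_lit 187) (nat_lit 3) (nat_lit 295) (nat_lit 295) (nat_lit 190))))) (XT.nd (nat_lit 234) (nat_lit 0) (nat_lit 76) (XT.nd (nat_lit 78) (nat_lit 1064) (nat_lit 0) (XT.lf (nat_lit 0) (nat_lit 10895186920) (nat_lit 0) (nat_lit 1085226969) (nat_lit 988) (nat_lit 71573415) (nat_lit 174) (nat_lit 5) (nat_lit 174) (nat_lit 3) (nat_lit 187) (nat_lit 3) (nat_lit 296) (nat_lit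 295) (nat_lit 189)) (XT.nd (nat_lit 78) (nat_lit 0) (nat_lit 0) (XT.lf (nat_lit 0) (nat_lit 437592831) (nat_lit 1064) (nat_lit 8148169443) (nat_lit 1140) (nat_lit 3633478044) (nat_lit 160) (nat_lit 5) (nat_lit 174) (nat_lit 5) (nat_lit 175) (nat_lit 5) (nat_lit 297) (nat_lit 295) (nat_lit 188)) (XT.lf (nat_lit 0) (nat_lit 966287062) (nat_lit 1064) (nat_lit 2932725926) (nat_lit 1140) (nat_lit 8492342984) (nat_lit 160) (nat_lit 5) (nat_lit 174) (nat_lit 5) (nat_lit 175) (nat_lit 5) (nat_lit 298) (nat_lit 295) (nat_lit 187)))) (XT.nd (nat_lit 78) (nat_lit 0) (nat_lit 0) (XT.lf (nat_lit 0) (nat_lit 1527534136) (nat_lit 1064) (nat_lit 10099344976) (nat_lit 1140) (nat_lit 941291197) (nat_lit 161) (nat_lit 5) (nat_lit 175) (nat_lit 5) (nat_lit 176) (nat_lit 5) (nat_lit 299) (nat_lit 295) (nat_lit 186)) (XT.nd (nat_lit 78) (nat_lit 0) (nat_lit 0) (XT.lf (nat_lit 0) (nat_lit 2158225806) (nat_lit 1064)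 (nat_lit 4705457906) (nat_lit 1140) (nat_lit 5885062078) (nat_lit 161) (nat_lit 5) (nat_lit 175) (nat_lit 5) (nat_lit 176) (nat_lit 5) (nat_lit 300) (nat_lit 295) (nat_lit 185)) (XT.lf (nat_lit 76) (nat_lit 857561337) (nat_lit 0) (nat_lit 1943078640) (nat_lit 1140) (nat_lit 10134348416) (nat_lit 162) (nat_lit 5) (nat_lit 161) (nat_lit 5) (nat_lit 176) (nat_lit 5) (nat_lit 301) (nat_lit 295) (nat_lit 184)))))) (XT.nd (nat_lit 468) (nat_lit 760) (nat_lit 0) (XT.nd (nat_lit 234) (nat_lit 0) (nat_lit 76) (XT.nd (nat_lit 78) (nat_lit 0) (nat_lit 0) (XT.lf (nat_lit 0) (nat_lit 3525327508) (nat_lit 1064) (nat_lit 6481842525) (nat_lit 1140) (nat_lit 3117791137) (nat_lit 162) (nat_lit 5) (nat_lit 176) (nat_lit 5) (nat_lit 177) (nat_lit 5) (nat_lit 302) (nat_lit 295) (nat_lit 183)) (XT.nd (nat_lit 78) (nat_lit 0) (nat_lit 76) (XT.lf (nat_lit 0) (nat_lit 4276405503) (nat_lit 1064) (nat_lit 747208376) (nat_lit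 1140) (nat_lit 8296911720) (nat_lit 162) (nat_lit 5) (nat_lit 176) (nat_lit 5) (nat_lit 177) (nat_lit 5) (nat_lit 303) (nat_lit 295) (nat_lit 182)) (XT.lf (nat_lit 0) (nat_lit 5087942746) (nat_lit 1064) (nat_lit 8269834246) (nat_lit 1140) (nat_lit 163073196) (nat_lit 163) (nat_lit 5) (nat_lit 177) (nat_lit 5) (nat_lit 178) (nat_lit 5) (nat_lit 304) (nat_lit 295) (nat_lit 181)))) (XT.nd (nat_lit 78) (nat_lit 0) (nat_lit 0) (XT.lf (nat_lit 0) (nat_lit 5967389766) (nat_lit 1064) (nat_lit 2341966730) (nat_lit 1140) (nat_lit 5416551236) (nat_lit 163) (nat_lit 5) (nat_lit 177) (nat_lit 5) (nat_lit 178) (nat_lit 5) (nat_lit 305) (nat_lit 295) (nat_lit 180)) (XT.nd (nat_lit 78) (nat_lit 0) (nat_lit 76) (XT.lf (nat_lit 76) (nat_lit 3829038494) (nat_lit 0) (nat_lit 3067595426) (nat_lit 1140) (nat_lit 7039809923) (nat_lit 164) (nat_lit 5) (nat_lit 163) (nat_lit 5) (nat_lit 178) (nat_lit 5) (nat_lit 306)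 (nat_lit 295) (nat_lit 179)) (XT.lf (nat_lit 0) (nat_lit 7886993198) (nat_lit 1064) (nat_lit 3951831574) (nat_lit 1140) (nat_lit 2313502531) (nat_lit 164) (nat_lit 5) (nat_lit 178) (nat_lit 5) (nat_lit 179) (nat_lit 5) (nat_lit 307) (nat_lit 295) (nat_lit 178))))) (XT.nd (nat_lit 234) (nat_lit 912) (nat_lit 0) (XT.nd (nat_lit 78) (nat_lit 0) (nat_lit 0) (XT.lf (nat_lit 76) (nat_lit 2395280904) (nat_lit 0) (nat_lit 6552503132) (nat_lit 1140) (nat_lit 5425709180) (nat_lit 165) (nat_lit 5) (nat_lit 164) (nat_lit 5) (nat_lit 179) (nat_lit 5) (nat_lit 308) (nat_lit 295) (nat_lit 177)) (XT.nd (nat_lit 78) (nat_lit 0) (nat_lit 76) (XT.lf (nat_lit 76) (nat_lit 9004411700) (nat_lit 0) (nat_lit 1063495114) (nat_lit 1140) (nat_lit 4532588815) (nat_lit 165) (nat_lit 5) (nat_lit 164) (nat_lit 5) (nat_lit 179) (nat_lit 5) (nat_lit 309) (nat_lit 295) (nat_lit 176)) (XT.lf (nat_lit 76) (nat_lit 942226022) (nat_lit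 0) (nat_lit 10320579652) (nat_lit 1140) (nat_lit 3570293257) (nat_lit 166) (nat_lit 5) (nat_lit 165) (nat_lit 5) (nat_lit 180) (nat_lit 5) (nat_lit 310) (nat_lit 295) (nat_lit 175)))) (XT.nd (nat_lit 78) (nat_lit 988) (nat_lit 0) (XT.lf (nat_lit 76) (nat_lit 7771209011) (nat_lit 0) (nat_lit 4777528797) (nat_lit 1140) (nat_lit 2522312169) (nat_lit 166) (nat_lit 5) (nat_lit 165) (nat_lit 5) (nat_lit 180) (nat_lit 5) (nat_lit 311) (nat_lit 295) (nat_lit 174)) (XT.nd (nat_lit 78) (nat_lit 1064) (nat_lit 0) (XT.lf (nat_lit 0) (nat_lit 13870819149) (nat_lit 1064) (nat_lit 529599396) (nat_lit 76) (nat_lit 915818371) (nat_lit 166) (nat_lit 5) (nat_lit 180) (nat_lit 5) (nat_lit 167) (nat_lit 5) (nat_lit 312) (nat_lit 295) (nat_lit 173)) (XT.lf (nat_lit 0) (nat_lit 6514278594) (nat_lit 1064) (nat_lit 8817151538) (nat_lit 1140) (nat_lit 234407097) (nat_lit 152) (nat_lit 5) (nat_lit 166) (nat_lit 5) (nat_lit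 167) (nat_lit 5) (nat_lit 313) (nat_lit 295) (nat_lit 172))))))) (XT.nd (nat_lit 936) (nat_lit 2508) (nat_lit 0) (XT.nd (nat_lit 468) (nat_lit 1064) (nat_lit 0) (XT.nd (nat_lit 234) (nat_lit 1064) (nat_lit 0) (XT.nd (nat_lit 78) (nat_lit 836) (nat_lit 0) (XT.lf (nat_lit 0) (nat_lit 987618286) (nat_lit 1140) (nat_lit 2061660733) (nat_lit 76) (nat_lit 12773543333) (nat_lit 151) (nat_lit 5) (nat_lit 166) (nat_lit 5) (nat_lit 152) (nat_lit 5) (nat_lit 314) (nat_lit 295) (nat_lit 171)) (XT.nd (nat_lit 78) (nat_lit 0) (nat_lit 0) (XT.lf (nat_lit 0) (nat_lit 2309551743) (nat_lit 912) (nat_lit 10886131592) (nat_lit 76) (nat_lit 2889747074) (nat_lit 140) (nat_lit 5) (nat_lit 152) (nat_lit 5) (nat_lit 141) (nat_lit 5) (nat_lit 315) (nat_lit 295) (nat_lit 170)) (XT.lf (nat_lit 0) (nat_lit 3711962741) (nat_lit 912) (nat_lit 3674756560) (nat_lit 76) (nat_lit 8967993952) (nat_lit 140) (nat_lit 5) (nat_lit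 152) (nat_lit 5) (nat_lit 141) (nat_lit 5) (nat_lit 316) (nat_lit 295) (nat_lit 169)))) (XT.nd (nat_lit 78) (nat_lit 532) (nat_lit 0) (XT.lf (nat_lit 0) (nat_lit 3818326714) (nat_lit 532) (nat_lit 1364730048) (nat_lit 608) (nat_lit 11448240016) (nat_lit 133) (nat_lit 5) (nat_lit 140) (nat_lit 5) (nat_lit 141) (nat_lit 5) (nat_lit 317) (nat_lit 295) (nat_lit 168)) (XT.nd (nat_lit 78) (nat_lit 532) (nat_lit 0) (XT.lf (nat_lit 0) (nat_lit 6772385459) (nat_lit 608) (nat_lit 5359782833) (nat_lit 76) (nat_lit 4781806381) (nat_lit 133) (nat_lit 5) (nat_lit 141) (nat_lit 5) (nat_lit 134) (nat_lit 5) (nat_lit 318) (nat_lit 295) (nat_lit 167)) (XT.lf (nat_lit 0) (nat_lit 2340046484) (nat_lit 532) (nat_lit 6095762970) (nat_lit 608) (nat_lit 8768550326) (nat_lit 126) (nat_lit 5) (nat_lit 133) (nat_lit 5) (nat_lit 134) (nat_lit 5) (nat_lit 319) (nat_lit 295) (nat_lit 166))))) (XT.nd (nat_lit 234) (nat_lit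 608) (nat_lit 0) (XT.nd (nat_lit 78) (nat_lit 456) (nat_lit 0) (XT.lf (nat_lit 0) (nat_lit 10195571194) (nat_lit 608) (nat_lit 7132117061) (nat_lit 76) (nat_lit 174393910) (nat_lit 126) (nat_lit 5) (nat_lit 134) (nat_lit 5) (nat_lit 127) (nat_lit 5) (nat_lit 320) (nat_lit 295) (nat_lit 165)) (XT.nd (nat_lit 78) (nat_lit 0) (nat_lit 0) (XT.lf (nat_lit 0) (nat_lit 777821268) (nat_lit 456) (nat_lit 11289014788) (nat_lit 532) (nat_lit 5740157085) (nat_lit 120) (nat_lit 5) (nat_lit 126) (nat_lit 5) (nat_lit 127) (nat_lit 5) (nat_lit 321) (nat_lit 295) (nat_lit 164)) (XT.lf (nat_lit 0) (nat_lit 9062300062) (nat_lit 456) (nat_lit 4995018023) (nat_lit 532) (nat_lit 4061858685) (nat_lit 120) (nat_lit 5) (nat_lit 126) (nat_lit 5) (nat_lit 127) (nat_lit 5) (nat_lit 322) (nat_lit 295) (nat_lit 163)))) (XT.nd (nat_lit 78) (nat_lit 608) (nat_lit 0) (XT.lf (nat_lit 0) (nat_lit 16113135280) (nat_lit 532) (nat_lit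 868689906) (nat_lit 76) (nat_lit 1458749280) (nat_lit 120) (nat_lit 5) (nat_lit 127) (nat_lit 5) (nat_lit 121) (nat_lit 5) (nat_lit 323) (nat_lit 295) (nat_lit 162)) (XT.nd (nat_lit 78) (nat_lit 76) (nat_lit 0) (XT.lf (nat_lit 0) (nat_lit 7656376189) (nat_lit 532) (nat_lit 10688876116) (nat_lit 608) (nat_lit 422939712) (nat_lit 113) (nat_lit 5) (nat_lit 120) (nat_lit 5) (nat_lit 121) (nat_lit 5) (nat_lit 324) (nat_lit 295) (nat_lit 161)) (XT.lf (nat_lit 0) (nat_lit 1509164921) (nat_lit 608) (nat_lit 2674062001) (nat_lit 76) (nat_lit 14921968301) (nat_lit 112) (nat_lit 5) (nat_lit 120) (nat_lit 5) (nat_lit 113) (nat_lit 5) (nat_lit 325) (nat_lit 295) (nat_lit 160)))))) (XT.nd (nat_lit 468) (nat_lit 1216) (nat_lit 0) (XT.nd (nat_lit 234) (nat_lit 380) (nat_lit 0) (XT.nd (nat_lit 78) (nat_lit 456) (nat_lit 0) (XT.lf (nat_lit 0) (nat_lit 3566296627) (nat_lit 532) (nat_lit 13351920906) (nat_lit 76)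 (nat_lit 2531713694) (nat_lit 106) (nat_lit 5) (nat_lit 113) (nat_lit 5) (nat_lit 107) (nat_lit 5) (nat_lit 326) (nat_lit 295) (nat_lit 159)) (XT.nd (nat_lit 78) (nat_lit 456) (nat_lit 0) (XT.lf (nat_lit 0) (nat_lit 5745861046) (nat_lit 532) (nat_lit 4666543511) (nat_lit 76) (nat_lit 9390798013) (nat_lit 106) (nat_lit 5) (nat_lit 113) (nat_lit 5) (nat_lit 107) (nat_lit 5) (nat_lit 327) (nat_lit 295) (nat_lit 158)) (XT.lf (nat_lit 0) (nat_lit 4355929740) (nat_lit 456) (nat_lit 3669017174) (nat_lit 532) (nat_lit 12141115494) (nat_lit 100) (nat_lit 5) (nat_lit 106) (nat_lit 5) (nat_lit 107) (nat_lit 5) (nat_lit 328) (nat_lit 295) (nat_lit 157)))) (XT.nd (nat_lit 78) (nat_lit 380) (nat_lit 0) (XT.lf (nat_lit 0) (nat_lit 10443892084) (nat_lit 532) (nat_lit 6834238040) (nat_lit 76) (nat_lit 3259547286) (nat_lit 100) (nat_lit 5) (nat_lit 107) (nat_lit 5) (nat_lit 101) (nat_lit 5) (nat_lit 329) (nat_lit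 295) (nat_lit 156)) (XT.nd (nat_lit 78) (nat_lit 0) (nat_lit 0) (XT.lf (nat_lit 0) (nat_lit 2413333820) (nat_lit 380) (nat_lit 10574218342) (nat_lit 456) (nat_lit 7931337866) (nat_lit 95) (nat_lit 5) (nat_lit 100) (nat_lit 5) (nat_lit 101) (nat_lit 5) (nat_lit 330) (nat_lit 295) (nat_lit 155)) (XT.lf (nat_lit 0) (nat_lit 12070144493) (nat_lit 380) (nat_lit 3599146456) (nat_lit 456) (nat_lit 5640408180) (nat_lit 95) (nat_lit 5) (nat_lit 100) (nat_lit 5) (nat_lit 101) (nat_lit 5) (nat_lit 331) (nat_lit 295) (nat_lit 154))))) (XT.nd (nat_lit 234) (nat_lit 760) (nat_lit 0) (XT.nd (nat_lit 78) (nat_lit 76) (nat_lit 0) (XT.lf (nat_lit 0) (nat_lit 266916250) (nat_lit 380) (nat_lit 18194552102) (nat_lit 456) (nat_lit 3249877341) (nat_lit 90) (nat_lit 5) (nat_lit 95) (nat_lit 5) (nat_lit 96) (nat_lit 5) (nat_lit 332) (nat_lit 295) (nat_lit 153)) (XT.nd (nat_lit 78) (nat_lit 76) (nat_lit 0) (XT.lf (nat_lit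 0) (nat_lit 10203463385) (nat_lit 380) (nat_lit 11255619122) (nat_lit 456) (nat_lit 662321415) (nat_lit 90) (nat_lit 5) (nat_lit 95) (nat_lit 5) (nat_lit 96) (nat_lit 5) (nat_lit 333) (nat_lit 295) (nat_lit 152)) (XT.lf (nat_lit 0) (nat_lit 1956985583) (nat_lit 456) (nat_lit 2132993828) (nat_lit 76) (nat_lit 18453422386) (nat_lit 89) (nat_lit 5) (nat_lit 95) (nat_lit 5) (nat_lit 90) (nat_lit 5) (nat_lit 334) (nat_lit 295) (nat_lit 151)))) (XT.nd (nat_lit 78) (nat_lit 380) (nat_lit 0) (XT.lf (nat_lit 0) (nat_lit 4745175170) (nat_lit 456) (nat_lit 14919254370) (nat_lit 76) (nat_lit 3310336235) (nat_lit 84) (nat_lit 5) (nat_lit 90) (nat_lit 5) (nat_lit 85) (nat_lit 5) (nat_lit 335) (nat_lit 295) (nat_lit 150)) (XT.nd (nat_lit 78) (nat_lit 380) (nat_lit 0) (XT.lf (nat_lit 0) (nat_lit 7672767808) (nat_lit 456) (nat_lit 4873701159) (nat_lit 76) (nat_lit 10870940013) (nat_lit 84) (nat_lit 5) (nat_lit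 90) (nat_lit 5) (nat_lit 85) (nat_lit 5) (nat_lit 336) (nat_lit 295) (nat_lit 149)) (XT.lf (nat_lit 0) (nat_lit 5574259880) (nat_lit 380) (nat_lit 5161210768) (nat_lit 456) (nat_lit 13136453069) (nat_lit 79) (nat_lit 5) (nat_lit 84) (nat_lit 5) (nat_lit 85) (nat_lit 5) (nat_lit 337) (nat_lit 295) (nat_lit 148))))))))
noncomputable def xc198 : XT := (XT.nd (nat_lit 1794) (nat_lit 1596) (nat_lit 0) (XT.nd (nat_lit 858) (nat_lit 1368) (nat_lit 0) (XT.nd (nat_lit 390) (nat_lit 608) (nat_lit 0) (XT.nd (nat_lit 156) (nat_lit 380) (nat_lit 0) (XT.nd (nat_lit 78) (nat_lit 304) (nat_lit 0) (XT.lf (nat_lit 0) (nat_lit 13957060377) (nat_lit 456) (nat_lit 7934866406) (nat_lit 76) (nat_lit 2446147333) (nat_lit 79) (nat_lit 5) (nat_lit 85) (nat_lit 5) (nat_lit 80) (nat_lit 5) (nat_lit 338) (nat_lit 295) (nat_lit 147)) (XT.lf (nat_lit 0) (nat_lit 2733442605) (nat_lit 304) (nat_lit 14613207590) (nat_lit 380)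 (nat_lit 7469428355) (nat_lit 75) (nat_lit 5) (nat_lit 79) (nat_lit 5) (nat_lit 80) (nat_lit 5) (nat_lit 339) (nat_lit 295) (nat_lit 146))) (XT.nd (nat_lit 78) (nat_lit 380) (nat_lit 0) (XT.lf (nat_lit 0) (nat_lit 13876921925) (nat_lit 304) (nat_lit 7035211173) (nat_lit 380) (nat_lit 4394073654) (nat_lit 75) (nat_lit 5) (nat_lit 79) (nat_lit 5) (nat_lit 80) (nat_lit 5) (nat_lit 340) (nat_lit 295) (nat_lit 145)) (XT.nd (nat_lit 78) (nat_lit 380) (nat_lit 0) (XT.lf (nat_lit 0) (nat_lit 24586219596) (nat_lit 380) (nat_lit 471219446) (nat_lit 76) (nat_lit 753560100) (nat_lit 75) (nat_lit 5) (nat_lit 80) (nat_lit 5) (nat_lit 76) (nat_lit 5) (nat_lit 341) (nat_lit 295) (nat_lit 144)) (XT.lf (nat_lit 0) (nat_lit 2170801830) (nat_lit 380) (nat_lit 15394759214) (nat_lit 76) (nat_lit 8759664803) (nat_lit 70) (nat_lit 5) (nat_lit 75) (nat_lit 5) (nat_lit 71) (nat_lit 5) (nat_lit 342) (nat_lit 295) (nat_lit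 143))))) (XT.nd (nat_lit 234) (nat_lit 304) (nat_lit 0) (XT.nd (nat_lit 78) (nat_lit 304) (nat_lit 0) (XT.lf (nat_lit 0) (nat_lit 5642873932) (nat_lit 380) (nat_lit 4190361046) (nat_lit 76) (nat_lit 17021312082) (nat_lit 70) (nat_lit 5) (nat_lit 75) (nat_lit 5) (nat_lit 71) (nat_lit 5) (nat_lit 343) (nat_lit 295) (nat_lit 142)) (XT.nd (nat_lit 78) (nat_lit 0) (nat_lit 0) (XT.lf (nat_lit 0) (nat_lit 7489209913) (nat_lit 304) (nat_lit 1796485884) (nat_lit 380) (nat_lit 18112062936) (nat_lit 66) (nat_lit 5) (nat_lit 70) (nat_lit 5) (nat_lit 71) (nat_lit 5) (nat_lit 344) (nat_lit 295) (nat_lit 141)) (XT.lf (nat_lit 0) (nat_lit 13137508570) (nat_lit 380) (nat_lit 8420834937) (nat_lit 76) (nat_lit 6395940270) (nat_lit 66) (nat_lit 5) (nat_lit 71) (nat_lit 5) (nat_lit 67) (nat_lit 5) (nat_lit 345) (nat_lit 295) (nat_lit 140)))) (XT.nd (nat_lit 78) (nat_lit 0) (nat_lit 0) (XT.lf (nat_lit 0) (nat_lit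 3454153434) (nat_lit 304) (nat_lit 13696537971) (nat_lit 380) (nat_lit 11375446663) (nat_lit 62) (nat_lit 5) (nat_lit 66) (nat_lit 5) (nat_lit 67) (nat_lit 5) (nat_lit 346) (nat_lit 295) (nat_lit 139)) (XT.nd (nat_lit 78) (nat_lit 0) (nat_lit 0) (XT.lf (nat_lit 0) (nat_lit 15851105767) (nat_lit 304) (nat_lit 5513107486) (nat_lit 380) (nat_lit 7748544164) (nat_lit 62) (nat_lit 5) (nat_lit 66) (nat_lit 5) (nat_lit 67) (nat_lit 5) (nat_lit 347) (nat_lit 295) (nat_lit 138)) (XT.lf (nat_lit 0) (nat_lit 25727210398) (nat_lit 380) (nat_lit 1131879670) (nat_lit 76) (nat_lit 2857200699) (nat_lit 62) (nat_lit 5) (nat_lit 67) (nat_lit 5) (nat_lit 63) (nat_lit 5) (nat_lit 348) (nat_lit 295) (nat_lit 137)))))) (XT.nd (nat_lit 468) (nat_lit 532) (nat_lit 0) (XT.nd (nat_lit 234) (nat_lit 228) (nat_lit 0) (XT.nd (nat_lit 78) (nat_lit 304) (nat_lit 0) (XT.lf (nat_lit 0) (nat_lit 47590098) (nat_lit 304) (nat_lit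 18808126677) (nat_lit 76) (nat_lit 11477389826) (nat_lit 58) (nat_lit 5) (nat_lit 62) (nat_lit 5) (nat_lit 59) (nat_lit 5) (nat_lit 349) (nat_lit 295) (nat_lit 136)) (XT.nd (nat_lit 78) (nat_lit 304) (nat_lit 0) (XT.lf (nat_lit 0) (nat_lit 4131935578) (nat_lit 304) (nat_lit 6429625403) (nat_lit 76) (nat_lit 20405485383) (nat_lit 58) (nat_lit 5) (nat_lit 62) (nat_lit 5) (nat_lit 59) (nat_lit 5) (nat_lit 350) (nat_lit 295) (nat_lit 135)) (XT.lf (nat_lit 0) (nat_lit 6439401282) (nat_lit 304) (nat_lit 1956657691) (nat_lit 380) (nat_lit 23222234591) (nat_lit 54) (nat_lit 5) (nat_lit 58) (nat_lit 5) (nat_lit 59) (nat_lit 5) (nat_lit 351) (nat_lit 295) (nat_lit 134)))) (XT.nd (nat_lit 78) (nat_lit 228) (nat_lit 0) (XT.lf (nat_lit 0) (nat_lit 12915468117) (nat_lit 380) (nat_lit 12534409962) (nat_lit 76) (nat_lit 6835385720) (nat_lit 54) (nat_lit 5) (nat_lit 59) (nat_lit 5) (nat_lit 55) (nat_lit 5) (nat_lit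 352) (nat_lit 295) (nat_lit 133)) (XT.nd (nat_lit 78) (nat_lit 0) (nat_lit 0) (XT.lf (nat_lit 0) (nat_lit 472904718) (nat_lit 228) (nat_lit 17117011498) (nat_lit 304) (nat_lit 15381749512) (nat_lit 51) (nat_lit 5) (nat_lit 54) (nat_lit 5) (nat_lit 55) (nat_lit 5) (nat_lit 353) (nat_lit 295) (nat_lit 132)) (XT.lf (nat_lit 0) (nat_lit 14121086948) (nat_lit 228) (nat_lit 8405691210) (nat_lit 304) (nat_lit 11148222252) (nat_lit 51) (nat_lit 5) (nat_lit 54) (nat_lit 5) (nat_lit 55) (nat_lit 5) (nat_lit 354) (nat_lit 295) (nat_lit 131))))) (XT.nd (nat_lit 234) (nat_lit 228) (nat_lit 0) (XT.nd (nat_lit 78) (nat_lit 304) (nat_lit 0) (XT.lf (nat_lit 0) (nat_lit 27612913629) (nat_lit 304) (nat_lit 6232398310) (nat_lit 76) (nat_lit 554094093) (nat_lit 51) (nat_lit 5) (nat_lit 55) (nat_lit 5) (nat_lit 52) (nat_lit 5) (nat_lit 355) (nat_lit 295) (nat_lit 130)) (XT.nd (nat_lit 78) (nat_lit 76) (nat_lit 0)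 (XT.lf (nat_lit 0) (nat_lit 7546755637) (nat_lit 228) (nat_lit 25456488572) (nat_lit 304) (nat_lit 2137757037) (nat_lit 48) (nat_lit 5) (nat_lit 51) (nat_lit 5) (nat_lit 52) (nat_lit 5) (nat_lit 356) (nat_lit 295) (nat_lit 129)) (XT.lf (nat_lit 0) (nat_lit 2658138752) (nat_lit 304) (nat_lit 14068089704) (nat_lit 76) (nat_lit 19176074415) (nat_lit 47) (nat_lit 5) (nat_lit 51) (nat_lit 5) (nat_lit 48) (nat_lit 5) (nat_lit 357) (nat_lit 295) (nat_lit 128)))) (XT.nd (nat_lit 78) (nat_lit 228) (nat_lit 0) (XT.lf (nat_lit 0) (nat_lit 7550925082) (nat_lit 304) (nat_lit 163213017) (nat_lit 76) (nat_lit 28971796324) (nat_lit 47) (nat_lit 5) (nat_lit 51) (nat_lit 5) (nat_lit 48) (nat_lit 5) (nat_lit 358) (nat_lit 295) (nat_lit 127)) (XT.nd (nat_lit 78) (nat_lit 0) (nat_lit 0) (XT.lf (nat_lit 0) (nat_lit 12741780155) (nat_lit 304) (nat_lit 23070708436) (nat_lit 76) (nat_lit 1676052888) (nat_lit 44) (nat_lit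 5) (nat_lit 48) (nat_lit 5) (nat_lit 45) (nat_lit 5) (nat_lit 359) (nat_lit 295) (nat_lit 126)) (XT.lf (nat_lit 0) (nat_lit 18162542073) (nat_lit 304) (nat_lit 8957687797) (nat_lit 76) (nat_lit 11192776407) (nat_lit 44) (nat_lit 5) (nat_lit 48) (nat_lit 5) (nat_lit 45) (nat_lit 5) (nat_lit 360) (nat_lit 295) (nat_lit 125))))))) (XT.nd (nat_lit 858) (nat_lit 760) (nat_lit 0) (XT.nd (nat_lit 390) (nat_lit 380) (nat_lit 0) (XT.nd (nat_lit 156) (nat_lit 228) (nat_lit 0) (XT.nd (nat_lit 78) (nat_lit 0) (nat_lit 0) (XT.lf (nat_lit 0) (nat_lit 5684034830) (nat_lit 228) (nat_lit 18112782030) (nat_lit 304) (nat_lit 15363866278) (nat_lit 41) (nat_lit 5) (nat_lit 44) (nat_lit 5) (nat_lit 45) (nat_lit 5) (nat_lit 361) (nat_lit 295) (nat_lit 124)) (XT.lf (nat_lit 0) (nat_lit 20943083278) (nat_lit 228) (nat_lit 8743799118) (nat_lit 304) (nat_lit 10344309715) (nat_lit 41) (nat_lit 5) (nat_lit 44) (nat_lit 5)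 (nat_lit 45) (nat_lit 5) (nat_lit 362) (nat_lit 295) (nat_lit 123))) (XT.nd (nat_lit 78) (nat_lit 228) (nat_lit 0) (XT.lf (nat_lit 0) (nat_lit 35758759000) (nat_lit 304) (nat_lit 4282107432) (nat_lit 76) (nat_lit 886801191) (nat_lit 41) (nat_lit 5) (nat_lit 45) (nat_lit 5) (nat_lit 42) (nat_lit 5) (nat_lit 363) (nat_lit 295) (nat_lit 122)) (XT.nd (nat_lit 78) (nat_lit 0) (nat_lit 0) (XT.lf (nat_lit 0) (nat_lit 350176054) (nat_lit 228) (nat_lit 30756147873) (nat_lit 76) (nat_lit 10738923771) (nat_lit 38) (nat_lit 5) (nat_lit 41) (nat_lit 5) (nat_lit 39) (nat_lit 5) (nat_lit 364) (nat_lit 295) (nat_lit 121)) (XT.lf (nat_lit 0) (nat_lit 5971127786) (nat_lit 228) (nat_lit 15836785509) (nat_lit 76) (nat_lit 20979705185) (nat_lit 38) (nat_lit 5) (nat_lit 41) (nat_lit 5) (nat_lit 39) (nat_lit 5) (nat_lit 365) (nat_lit 295) (nat_lit 120))))) (XT.nd (nat_lit 234) (nat_lit 152) (nat_lit 0) (XT.nd (nat_lit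 78) (nat_lit 228) (nat_lit 0) (XT.lf (nat_lit 0) (nat_lit 11757325006) (nat_lit 228) (nat_lit 475031036) (nat_lit 76) (nat_lit 31526009872) (nat_lit 38) (nat_lit 5) (nat_lit 41) (nat_lit 5) (nat_lit 39) (nat_lit 5) (nat_lit 366) (nat_lit 295) (nat_lit 119)) (XT.nd (nat_lit 78) (nat_lit 0) (nat_lit 0) (XT.lf (nat_lit 0) (nat_lit 15647885035) (nat_lit 228) (nat_lit 2216355621) (nat_lit 304) (nat_lit 26889585059) (nat_lit 35) (nat_lit 5) (nat_lit 38) (nat_lit 5) (nat_lit 39) (nat_lit 5) (nat_lit 367) (nat_lit 295) (nat_lit 118)) (XT.lf (nat_lit 0) (nat_lit 24233817859) (nat_lit 304) (nat_lit 13597762313) (nat_lit 76) (nat_lit 7945189322) (nat_lit 35) (nat_lit 5) (nat_lit 39) (nat_lit 5) (nat_lit 36) (nat_lit 5) (nat_lit 368) (nat_lit 295) (nat_lit 117)))) (XT.nd (nat_lit 78) (nat_lit 0) (nat_lit 0) (XT.lf (nat_lit 0) (nat_lit 2395538289) (nat_lit 152) (nat_lit 28440756699) (nat_lit 228) (nat_lit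 15992855912) (nat_lit 33) (nat_lit 5) (nat_lit 35) (nat_lit 5) (nat_lit 36) (nat_lit 5) (nat_lit 369) (nat_lit 295) (nat_lit 116)) (XT.nd (nat_lit 78) (nat_lit 0) (nat_lit 0) (XT.lf (nat_lit 0) (nat_lit 19142502406) (nat_lit 152) (nat_lit 18628541014) (nat_lit 228) (nat_lit 10138038008) (nat_lit 33) (nat_lit 5) (nat_lit 35) (nat_lit 5) (nat_lit 36) (nat_lit 5) (nat_lit 370) (nat_lit 295) (nat_lit 115)) (XT.lf (nat_lit 0) (nat_lit 36387141173) (nat_lit 152) (nat_lit 8523670072) (nat_lit 228) (nat_lit 4110692799) (nat_lit 33) (nat_lit 5) (nat_lit 35) (nat_lit 5) (nat_lit 36) (nat_lit 5) (nat_lit 371) (nat_lit 295) (nat_lit 114)))))) (XT.nd (nat_lit 468) (nat_lit 380) (nat_lit 0) (XT.nd (nat_lit 234) (nat_lit 152) (nat_lit 0) (XT.nd (nat_lit 78) (nat_lit 0) (nat_lit 0) (XT.lf (nat_lit 0) (nat_lit 2111051204) (nat_lit 228) (nat_lit 46148553033) (nat_lit 76) (nat_lit 1905458289) (nat_lit 30) (nat_lit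 5) (nat_lit 33) (nat_lit 5) (nat_lit 31) (nat_lit 5) (nat_lit 372) (nat_lit 295) (nat_lit 113)) (XT.nd (nat_lit 78) (nat_lit 0) (nat_lit 0) (XT.lf (nat_lit 0) (nat_lit 8647123407) (nat_lit 228) (nat_lit 30044243872) (nat_lit 76) (nat_lit 12644033769) (nat_lit 30) (nat_lit 5) (nat_lit 33) (nat_lit 5) (nat_lit 31) (nat_lit 5) (nat_lit 373) (nat_lit 295) (nat_lit 112)) (XT.lf (nat_lit 0) (nat_lit 15376421931) (nat_lit 228) (nat_lit 13461356668) (nat_lit 76) (nat_lit 23703159897) (nat_lit 30) (nat_lit 5) (nat_lit 33) (nat_lit 5) (nat_lit 31) (nat_lit 5) (nat_lit 374) (nat_lit 295) (nat_lit 111)))) (XT.nd (nat_lit 78) (nat_lit 0) (nat_lit 0) (XT.lf (nat_lit 0) (nat_lit 3686536076) (nat_lit 152) (nat_lit 18653727908) (nat_lit 228) (nat_lit 31441401150) (nat_lit 28) (nat_lit 5) (nat_lit 30) (nat_lit 5) (nat_lit 31) (nat_lit 5) (nat_lit 375) (nat_lit 295) (nat_lit 110)) (XT.nd (nat_lit 78) (nat_lit 0)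 (nat_lit 0) (XT.lf (nat_lit 0) (nat_lit 21620434866) (nat_lit 152) (nat_lit 8025785774) (nat_lit 228) (nat_lit 25409399868) (nat_lit 28) (nat_lit 5) (nat_lit 30) (nat_lit 5) (nat_lit 31) (nat_lit 5) (nat_lit 376) (nat_lit 295) (nat_lit 109)) (XT.lf (nat_lit 0) (nat_lit 37196764728) (nat_lit 228) (nat_lit 16307837367) (nat_lit 76) (nat_lit 2862433017) (nat_lit 28) (nat_lit 5) (nat_lit 31) (nat_lit 5) (nat_lit 29) (nat_lit 5) (nat_lit 377) (nat_lit 295) (nat_lit 108))))) (XT.nd (nat_lit 234) (nat_lit 152) (nat_lit 0) (XT.nd (nat_lit 78) (nat_lit 76) (nat_lit 0) (XT.lf (nat_lit 0) (nat_lit 1274549812) (nat_lit 152) (nat_lit 43788398405) (nat_lit 228) (nat_lit 12652172994) (nat_lit 26) (nat_lit 5) (nat_lit 28) (nat_lit 5) (nat_lit 29) (nat_lit 5) (nat_lit 378) (nat_lit 295) (nat_lit 107)) (XT.nd (nat_lit 78) (nat_lit 76) (nat_lit 0) (XT.lf (nat_lit 0) (nat_lit 19714554982) (nat_lit 152) (nat_lit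 33612683128) (nat_lit 228) (nat_lit 5771550824) (nat_lit 26) (nat_lit 5) (nat_lit 28) (nat_lit 5) (nat_lit 29) (nat_lit 5) (nat_lit 379) (nat_lit 295) (nat_lit 106)) (XT.lf (nat_lit 0) (nat_lit 1287311121) (nat_lit 228) (nat_lit 21832931606) (nat_lit 76) (nat_lit 37403422387) (nat_lit 25) (nat_lit 5) (nat_lit 28) (nat_lit 5) (nat_lit 26) (nat_lit 5) (nat_lit 380) (nat_lit 295) (nat_lit 105)))) (XT.nd (nat_lit 78) (nat_lit 152) (nat_lit 0) (XT.lf (nat_lit 0) (nat_lit 8439500603) (nat_lit 228) (nat_lit 3816195351) (nat_lit 76) (nat_lit 49733952822) (nat_lit 25) (nat_lit 5) (nat_lit 28) (nat_lit 5) (nat_lit 26) (nat_lit 5) (nat_lit 381) (nat_lit 295) (nat_lit 104)) (XT.nd (nat_lit 78) (nat_lit 0) (nat_lit 0) (XT.lf (nat_lit 0) (nat_lit 15030496389) (nat_lit 152) (nat_lit 917876789) (nat_lit 228) (nat_lit 47546977619) (nat_lit 23) (nat_lit 5) (nat_lit 25) (nat_lit 5) (nat_lit 26) (nat_lit 5) (nat_lit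 382) (nat_lit 295) (nat_lit 103)) (XT.lf (nat_lit 0) (nat_lit 23822515186) (nat_lit 228) (nat_lit 30631930758) (nat_lit 76) (nat_lit 10587580139) (nat_lit 23) (nat_lit 5) (nat_lit 26) (nat_lit 5) (nat_lit 24) (nat_lit 5) (nat_lit 383) (nat_lit 295) (nat_lit 102))))))))
noncomputable def xc199 : XT := (XT.nd (nat_lit 35334) (nat_lit 0) (nat_lit 4408) (XT.nd (nat_lit 34398) (nat_lit 0) (nat_lit 9880) (XT.nd (nat_lit 33930) (nat_lit 0) (nat_lit 10564) (XT.nd (nat_lit 156) (nat_lit 0) (nat_lit 0) (XT.nd (nat_lit 78) (nat_lit 152) (nat_lit 0) (XT.lf (nat_lit 0) (nat_lit 31939690873) (nat_lit 228) (nat_lit 12276860801) (nat_lit 76) (nat_lit 22418347907) (nat_lit 23) (nat_lit 5) (nat_lit 26) (nat_lit 5) (nat_lit 24) (nat_lit 5) (nat_lit 384) (nat_lit 295) (nat_lit 101)) (XT.lf (nat_lit 0) (nat_lit 6757071877) (nat_lit 152) (nat_lit 33606050956) (nat_lit 228) (nat_lit 27910556390) (nat_lit 21) (nat_lit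 5) (nat_lit 23) (nat_lit 5) (nat_lit 24) (nat_lit 5) (nat_lit 385) (nat_lit 295) (nat_lit 100))) (XT.nd (nat_lit 33618) (nat_lit 0) (nat_lit 10488) (XT.lf (nat_lit 0) (nat_lit 26610077685) (nat_lit 152) (nat_lit 22550969927) (nat_lit 228) (nat_lit 20796923054) (nat_lit 21) (nat_lit 5) (nat_lit 23) (nat_lit 5) (nat_lit 24) (nat_lit 5) (nat_lit 386) (nat_lit 295) (nat_lit 99)) (XT.nd (nat_lit 78) (nat_lit 0) (nat_lit 0) (XT.lf (nat_lit 0) (nat_lit 179089630) (nat_lit 1140) (nat_lit 2964527670) (nat_lit 1140) (nat_lit 2964527670) (nat_lit 159) (nat_lit 3) (nat_lit 174) (nat_lit 3) (nat_lit 174) (nat_lit 5) (nat_lit 296) (nat_lit 296) (nat_lit 188)) (XT.lf (nat_lit 0) (nat_lit 782543341) (nat_lit 1140) (nat_lit 749620323) (nat_lit 1140) (nat_lit 10853879073) (nat_lit 159) (nat_lit 3) (nat_lit 174) (nat_lit 3) (nat_lit 174) (nat_lit 5) (nat_lit 297) (nat_lit 296) (nat_lit 187))))) (XT.nd (nat_lit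 234) (nat_lit 0) (nat_lit 76) (XT.nd (nat_lit 78) (nat_lit 0) (nat_lit 0) (XT.lf (nat_lit 0) (nat_lit 1281028598) (nat_lit 1064) (nat_lit 7925095770) (nat_lit 1140) (nat_lit 3352958012) (nat_lit 160) (nat_lit 5) (nat_lit 174) (nat_lit 5) (nat_lit 175) (nat_lit 5) (nat_lit 298) (nat_lit 296) (nat_lit 186)) (XT.nd (nat_lit 78) (nat_lit 0) (nat_lit 76) (XT.lf (nat_lit 0) (nat_lit 1801399928) (nat_lit 1064) (nat_lit 2566805999) (nat_lit 1140) (nat_lit 8368934270) (nat_lit 160) (nat_lit 5) (nat_lit 174) (nat_lit 5) (nat_lit 175) (nat_lit 5) (nat_lit 299) (nat_lit 296) (nat_lit 185)) (XT.lf (nat_lit 0) (nat_lit 2357081084) (nat_lit 1064) (nat_lit 9924299198) (nat_lit 1140) (nat_lit 638602416) (nat_lit 161) (nat_lit 5) (nat_lit 175) (nat_lit 5) (nat_lit 176) (nat_lit 5) (nat_lit 300) (nat_lit 296) (nat_lit 184)))) (XT.nd (nat_lit 78) (nat_lit 0) (nat_lit 0) (XT.lf (nat_lit 0) (nat_lit 2983866682) (nat_lit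 1064) (nat_lit 4382518607) (nat_lit 1140) (nat_lit 5740325089) (nat_lit 161) (nat_lit 5) (nat_lit 175) (nat_lit 5) (nat_lit 176) (nat_lit 5) (nat_lit 301) (nat_lit 296) (nat_lit 183)) (XT.nd (nat_lit 78) (nat_lit 0) (nat_lit 76) (XT.lf (nat_lit 76) (nat_lit 1342841184) (nat_lit 0) (nat_lit 2284967634) (nat_lit 1140) (nat_lit 9671312443) (nat_lit 162) (nat_lit 5) (nat_lit 161) (nat_lit 5) (nat_lit 176) (nat_lit 5) (nat_lit 302) (nat_lit 296) (nat_lit 182)) (XT.lf (nat_lit 0) (nat_lit 4349945137) (nat_lit 1064) (nat_lit 6204262950) (nat_lit 1140) (nat_lit 2941361140) (nat_lit 162) (nat_lit 5) (nat_lit 176) (nat_lit 5) (nat_lit 177) (nat_lit 5) (nat_lit 303) (nat_lit 296) (nat_lit 181)))))) (XT.nd (nat_lit 468) (nat_lit 836) (nat_lit 0) (XT.nd (nat_lit 234) (nat_lit 0) (nat_lit 76) (XT.nd (nat_lit 78) (nat_lit 0) (nat_lit 0) (XT.lf (nat_lit 0) (nat_lit 5102617865) (nat_lit 1064) (nat_lit 311338365)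 (nat_lit 1140) (nat_lit 8283718362) (nat_lit 162) (nat_lit 5) (nat_lit 176) (nat_lit 5) (nat_lit 177) (nat_lit 5) (nat_lit 304) (nat_lit 296) (nat_lit 180)) (XT.nd (nat_lit 78) (nat_lit 0) (nat_lit 76) (XT.lf (nat_lit 76) (nat_lit 5864035801) (nat_lit 0) (nat_lit 56853070) (nat_lit 1140) (nat_lit 7983692956) (nat_lit 163) (nat_lit 5) (nat_lit 162) (nat_lit 5) (nat_lit 177) (nat_lit 5) (nat_lit 305) (nat_lit 296) (nat_lit 179)) (XT.lf (nat_lit 0) (nat_lit 6806373922) (nat_lit 1064) (nat_lit 1948216263) (nat_lit 1140) (nat_lit 5361854516) (nat_lit 163) (nat_lit 5) (nat_lit 177) (nat_lit 5) (nat_lit 178) (nat_lit 5) (nat_lit 306) (nat_lit 296) (nat_lit 178)))) (XT.nd (nat_lit 78) (nat_lit 0) (nat_lit 76) (XT.lf (nat_lit 76) (nat_lit 4403370005) (nat_lit 0) (nat_lit 3345319802) (nat_lit 1140) (nat_lit 6585093238) (nat_lit 164) (nat_lit 5) (nat_lit 163) (nat_lit 5) (nat_lit 178) (nat_lit 5) (nat_lit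 307) (nat_lit 296) (nat_lit 177)) (XT.nd (nat_lit 78) (nat_lit 0) (nat_lit 0) (XT.lf (nat_lit 0) (nat_lit 8748235849) (nat_lit 1064) (nat_lit 3602425845) (nat_lit 1140) (nat_lit 2206137795) (nat_lit 164) (nat_lit 5) (nat_lit 178) (nat_lit 5) (nat_lit 179) (nat_lit 5) (nat_lit 308) (nat_lit 296) (nat_lit 176)) (XT.lf (nat_lit 76) (nat_lit 2930512157) (nat_lit 0) (nat_lit 6896599287) (nat_lit 1140) (nat_lit 4957940676) (nat_lit 165) (nat_lit 5) (nat_lit 164) (nat_lit 5) (nat_lit 179) (nat_lit 5) (nat_lit 309) (nat_lit 296) (nat_lit 175))))) (XT.nd (nat_lit 234) (nat_lit 988) (nat_lit 0) (XT.nd (nat_lit 78) (nat_lit 0) (nat_lit 76) (XT.lf (nat_lit 76) (nat_lit 9724420581) (nat_lit 0) (nat_lit 1238624299) (nat_lit 1140) (nat_lit 4056391936) (nat_lit 165) (nat_lit 5) (nat_lit 164) (nat_lit 5) (nat_lit 179) (nat_lit 5) (nat_lit 310) (nat_lit 296) (nat_lit 174)) (XT.nd (nat_lit 78) (nat_lit 0) (nat_lit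 0) (XT.lf (nat_lit 76) (nat_lit 1436208725) (nat_lit 0) (nat_lit 10743447286) (nat_lit 1140) (nat_lit 3079823549) (nat_lit 166) (nat_lit 5) (nat_lit 165) (nat_lit 5) (nat_lit 180) (nat_lit 5) (nat_lit 311) (nat_lit 296) (nat_lit 173)) (XT.lf (nat_lit 76) (nat_lit 8456496663) (nat_lit 0) (nat_lit 5030806354) (nat_lit 1140) (nat_lit 2017808227) (nat_lit 166) (nat_lit 5) (nat_lit 165) (nat_lit 5) (nat_lit 180) (nat_lit 5) (nat_lit 312) (nat_lit 296) (nat_lit 172)))) (XT.nd (nat_lit 78) (nat_lit 1140) (nat_lit 0) (XT.lf (nat_lit 0) (nat_lit 14831648724) (nat_lit 1064) (nat_lit 87935401) (nat_lit 76) (nat_lit 838626767) (nat_lit 166) (nat_lit 5) (nat_lit 180) (nat_lit 5) (nat_lit 167) (nat_lit 5) (nat_lit 313) (nat_lit 296) (nat_lit 171)) (XT.nd (nat_lit 78) (nat_lit 0) (nat_lit 0) (XT.lf (nat_lit 0) (nat_lit 302861796) (nat_lit 1140) (nat_lit 8855874761) (nat_lit 76) (nat_lit 6856853019) (nat_lit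 151) (nat_lit 5) (nat_lit 166) (nat_lit 5) (nat_lit 152) (nat_lit 5) (nat_lit 314) (nat_lit 296) (nat_lit 170)) (XT.lf (nat_lit 0) (nat_lit 1541120384) (nat_lit 1140) (nat_lit 1672141844) (nat_lit 76) (nat_lit 13067456059) (nat_lit 151) (nat_lit 5) (nat_lit 166) (nat_lit 5) (nat_lit 152) (nat_lit 5) (nat_lit 315) (nat_lit 296) (nat_lit 169))))))) (XT.nd (nat_lit 936) (nat_lit 2052) (nat_lit 0) (XT.nd (nat_lit 468) (nat_lit 1520) (nat_lit 0) (XT.nd (nat_lit 234) (nat_lit 532) (nat_lit 0) (XT.nd (nat_lit 78) (nat_lit 532) (nat_lit 0) (XT.lf (nat_lit 0) (nat_lit 2891115563) (nat_lit 912) (nat_lit 10748709259) (nat_lit 76) (nat_lit 2911758892) (nat_lit 140) (nat_lit 5) (nat_lit 152) (nat_lit 5) (nat_lit 141) (nat_lit 5) (nat_lit 316) (nat_lit 296) (nat_lit 168)) (XT.nd (nat_lit 78) (nat_lit 532) (nat_lit 0) (XT.lf (nat_lit 0) (nat_lit 4320678194) (nat_lit 912) (nat_lit 3334507722) (nat_lit 76) (nat_lit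 9174237077) (nat_lit 140) (nat_lit 5) (nat_lit 152) (nat_lit 5) (nat_lit 141) (nat_lit 5) (nat_lit 317) (nat_lit 296) (nat_lit 167)) (XT.lf (nat_lit 0) (nat_lit 4378951467) (nat_lit 532) (nat_lit 1446755400) (nat_lit 608) (nat_lit 11288932547) (nat_lit 133) (nat_lit 5) (nat_lit 140) (nat_lit 5) (nat_lit 141) (nat_lit 5) (nat_lit 318) (nat_lit 296) (nat_lit 166)))) (XT.nd (nat_lit 78) (nat_lit 532) (nat_lit 0) (XT.lf (nat_lit 0) (nat_lit 7448142929) (nat_lit 608) (nat_lit 5071968416) (nat_lit 76) (nat_lit 4886152063) (nat_lit 133) (nat_lit 5) (nat_lit 141) (nat_lit 5) (nat_lit 134) (nat_lit 5) (nat_lit 319) (nat_lit 296) (nat_lit 165)) (XT.nd (nat_lit 78) (nat_lit 0) (nat_lit 0) (XT.lf (nat_lit 0) (nat_lit 2854457663) (nat_lit 532) (nat_lit 6297517358) (nat_lit 608) (nat_lit 8553697641) (nat_lit 126) (nat_lit 5) (nat_lit 133) (nat_lit 5) (nat_lit 134) (nat_lit 5) (nat_lit 320) (nat_lit 296) (nat_lit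 164)) (XT.lf (nat_lit 0) (nat_lit 10950865304) (nat_lit 608) (nat_lit 6900246402) (nat_lit 76) (nat_lit 161651889) (nat_lit 126) (nat_lit 5) (nat_lit 134) (nat_lit 5) (nat_lit 127) (nat_lit 5) (nat_lit 321) (nat_lit 296) (nat_lit 163))))) (XT.nd (nat_lit 234) (nat_lit 1064) (nat_lit 0) (XT.nd (nat_lit 78) (nat_lit 0) (nat_lit 0) (XT.lf (nat_lit 0) (nat_lit 1242619154) (nat_lit 456) (nat_lit 11626802467) (nat_lit 532) (nat_lit 5457691836) (nat_lit 120) (nat_lit 5) (nat_lit 126) (nat_lit 5) (nat_lit 127) (nat_lit 5) (nat_lit 322) (nat_lit 296) (nat_lit 162)) (XT.nd (nat_lit 78) (nat_lit 0) (nat_lit 0) (XT.lf (nat_lit 0) (nat_lit 9762774158) (nat_lit 456) (nat_lit 5144011511) (nat_lit 532) (nat_lit 3742287298) (nat_lit 120) (nat_lit 5) (nat_lit 126) (nat_lit 5) (nat_lit 127) (nat_lit 5) (nat_lit 323) (nat_lit 296) (nat_lit 161)) (XT.lf (nat_lit 0) (nat_lit 17011826698) (nat_lit 532) (nat_lit 465356466)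 (nat_lit 76) (nat_lit 1503327612) (nat_lit 120) (nat_lit 5) (nat_lit 127) (nat_lit 5) (nat_lit 121) (nat_lit 5) (nat_lit 324) (nat_lit 296) (nat_lit 160)))) (XT.nd (nat_lit 78) (nat_lit 532) (nat_lit 0) (XT.lf (nat_lit 0) (nat_lit 8311251865) (nat_lit 532) (nat_lit 10991646461) (nat_lit 608) (nat_lit 15322736) (nat_lit 113) (nat_lit 5) (nat_lit 120) (nat_lit 5) (nat_lit 121) (nat_lit 5) (nat_lit 325) (nat_lit 296) (nat_lit 159)) (XT.nd (nat_lit 78) (nat_lit 456) (nat_lit 0) (XT.lf (nat_lit 0) (nat_lit 1954540354) (nat_lit 608) (nat_lit 2332768448) (nat_lit 76) (nat_lit 15378287014) (nat_lit 112) (nat_lit 5) (nat_lit 120) (nat_lit 5) (nat_lit 113) (nat_lit 5) (nat_lit 326) (nat_lit 296) (nat_lit 158)) (XT.lf (nat_lit 0) (nat_lit 4065984321) (nat_lit 532) (nat_lit 13322831090) (nat_lit 76) (nat_lit 2632102449) (nat_lit 106) (nat_lit 5) (nat_lit 113) (nat_lit 5) (nat_lit 107) (nat_lit 5) (nat_lit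 327) (nat_lit 296) (nat_lit 157)))))) (XT.nd (nat_lit 468) (nat_lit 836) (nat_lit 0) (XT.nd (nat_lit 234) (nat_lit 760) (nat_lit 0) (XT.nd (nat_lit 78) (nat_lit 456) (nat_lit 0) (XT.lf (nat_lit 0) (nat_lit 6299497843) (nat_lit 532) (nat_lit 4389406377) (nat_lit 76) (nat_lit 9696247531) (nat_lit 106) (nat_lit 5) (nat_lit 113) (nat_lit 5) (nat_lit 107) (nat_lit 5) (nat_lit 328) (nat_lit 296) (nat_lit 156)) (XT.nd (nat_lit 78) (nat_lit 0) (nat_lit 0) (XT.lf (nat_lit 0) (nat_lit 4899651528) (nat_lit 456) (nat_lit 3740170501) (nat_lit 532) (nat_lit 12119310034) (nat_lit 100) (nat_lit 5) (nat_lit 106) (nat_lit 5) (nat_lit 107) (nat_lit 5) (nat_lit 329) (nat_lit 296) (nat_lit 155)) (XT.lf (nat_lit 0) (nat_lit 11120801860) (nat_lit 532) (nat_lit 6627049631) (nat_lit 76) (nat_lit 3394380087) (nat_lit 100) (nat_lit 5) (nat_lit 107) (nat_lit 5) (nat_lit 101) (nat_lit 5) (nat_lit 330) (nat_lit 296) (nat_lit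 154)))) (XT.nd (nat_lit 78) (nat_lit 380) (nat_lit 0) (XT.lf (nat_lit 0) (nat_lit 2893908056) (nat_lit 380) (nat_lit 10840197217) (nat_lit 456) (nat_lit 7800994763) (nat_lit 95) (nat_lit 5) (nat_lit 100) (nat_lit 5) (nat_lit 101) (nat_lit 5) (nat_lit 331) (nat_lit 296) (nat_lit 153)) (XT.nd (nat_lit 78) (nat_lit 380) (nat_lit 0) (XT.lf (nat_lit 0) (nat_lit 12828534480) (nat_lit 380) (nat_lit 3657365825) (nat_lit 456) (nat_lit 5452063882) (nat_lit 95) (nat_lit 5) (nat_lit 100) (nat_lit 5) (nat_lit 101) (nat_lit 5) (nat_lit 332) (nat_lit 296) (nat_lit 152)) (XT.lf (nat_lit 0) (nat_lit 677768468) (nat_lit 380) (nat_lit 18678318172) (nat_lit 456) (nat_lit 2995764549) (nat_lit 90) (nat_lit 5) (nat_lit 95) (nat_lit 5) (nat_lit 96) (nat_lit 5) (nat_lit 333) (nat_lit 296) (nat_lit 151))))) (XT.nd (nat_lit 234) (nat_lit 380) (nat_lit 0) (XT.nd (nat_lit 78) (nat_lit 456) (nat_lit 0) (XT.lf (nat_lit 0)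 (nat_lit 10900678676) (nat_lit 380) (nat_lit 11533025082) (nat_lit 456) (nat_lit 340822987) (nat_lit 90) (nat_lit 5) (nat_lit 95) (nat_lit 5) (nat_lit 96) (nat_lit 5) (nat_lit 334) (nat_lit 296) (nat_lit 150)) (XT.nd (nat_lit 78) (nat_lit 380) (nat_lit 0) (XT.lf (nat_lit 0) (nat_lit 2340653160) (nat_lit 456) (nat_lit 1810236802) (nat_lit 76) (nat_lit 19058505404) (nat_lit 89) (nat_lit 5) (nat_lit 95) (nat_lit 5) (nat_lit 90) (nat_lit 5) (nat_lit 335) (nat_lit 296) (nat_lit 149)) (XT.lf (nat_lit 0) (nat_lit 5207317938) (nat_lit 456) (nat_lit 14974371222) (nat_lit 76) (nat_lit 3472182521) (nat_lit 84) (nat_lit 5) (nat_lit 90) (nat_lit 5) (nat_lit 85) (nat_lit 5) (nat_lit 336) (nat_lit 296) (nat_lit 148)))) (XT.nd (nat_lit 78) (nat_lit 380) (nat_lit 0) (XT.lf (nat_lit 0) (nat_lit 8213424156) (nat_lit 456) (nat_lit 4638882312) (nat_lit 76) (nat_lit 11257782970) (nat_lit 84) (nat_lit 5) (nat_lit 90)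 (nat_lit 5) (nat_lit 85) (nat_lit 5) (nat_lit 337) (nat_lit 296) (nat_lit 147)) (XT.nd (nat_lit 78) (nat_lit 0) (nat_lit 0) (XT.lf (nat_lit 0) (nat_lit 6118781972) (nat_lit 380) (nat_lit 5243809980) (nat_lit 456) (nat_lit 13215825515) (nat_lit 79) (nat_lit 5) (nat_lit 84) (nat_lit 5) (nat_lit 85) (nat_lit 5) (nat_lit 338) (nat_lit 296) (nat_lit 146)) (XT.lf (nat_lit 0) (nat_lit 14672618375) (nat_lit 456) (nat_lit 7797898933) (nat_lit 76) (nat_lit 2588296320) (nat_lit 79) (nat_lit 5) (nat_lit 85) (nat_lit 5) (nat_lit 80) (nat_lit 5) (nat_lit 339) (nat_lit 296) (nat_lit 145))))))))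
noncomputable def xc200 : XT := (XT.nd (nat_lit 1794) (nat_lit 1368) (nat_lit 0) (XT.nd (nat_lit 858) (nat_lit 1292) (nat_lit 0) (XT.nd (nat_lit 390) (nat_lit 912) (nat_lit 0) (XT.nd (nat_lit 156) (nat_lit 380) (nat_lit 0) (XT.nd (nat_lit 78) (nat_lit 0) (nat_lit 0) (XT.lf (nat_lit 0) (nat_lit 3186782745) (nat_lit 304) (nat_lit 14972036653) (nat_lit 380) (nat_lit 7392505576) (nat_lit 75) (nat_lit 5) (nat_lit 79) (nat_lit 5) (nat_lit 80) (nat_lit 5) (nat_lit 340) (nat_lit 296) (nat_lit 144)) (XT.lf (nat_lit 0) (nat_lit 14653750809) (nat_lit 304) (nat_lit 7169017834) (nat_lit 380) (nat_lit 4233657388) (nat_lit 75) (nat_lit 5) (nat_lit 79) (nat_lit 5) (nat_lit 80) (nat_lit 5) (nat_lit 341) (nat_lit 296) (nat_lit 143))) (XT.nd (nat_lit 78) (nat_lit 380) (nat_lit 0) (XT.lf (nat_lit 0) (nat_lit 25599548051) (nat_lit 380) (nat_lit 127350613) (nat_lit 76) (nat_lit 849703072) (nat_lit 75) (nat_lit 5)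 (nat_lit 80) (nat_lit 5) (nat_lit 76) (nat_lit 5) (nat_lit 342) (nat_lit 296) (nat_lit 142)) (XT.nd (nat_lit 78) (nat_lit 0) (nat_lit 0) (XT.lf (nat_lit 0) (nat_lit 2510161647) (nat_lit 380) (nat_lit 15496219605) (nat_lit 76) (nat_lit 9099945300) (nat_lit 70) (nat_lit 5) (nat_lit 75) (nat_lit 5) (nat_lit 71) (nat_lit 5) (nat_lit 343) (nat_lit 296) (nat_lit 141)) (XT.lf (nat_lit 0) (nat_lit 6078408463) (nat_lit 380) (nat_lit 3966186066) (nat_lit 76) (nat_lit 17607184991) (nat_lit 70) (nat_lit 5) (nat_lit 75) (nat_lit 5) (nat_lit 71) (nat_lit 5) (nat_lit 344) (nat_lit 296) (nat_lit 140))))) (XT.nd (nat_lit 234) (nat_lit 304) (nat_lit 0) (XT.nd (nat_lit 78) (nat_lit 304) (nat_lit 0) (XT.lf (nat_lit 0) (nat_lit 8060341769) (nat_lit 304) (nat_lit 1765748752) (nat_lit 380) (nat_lit 18385341888) (nat_lit 66) (nat_lit 5) (nat_lit 70) (nat_lit 5) (nat_lit 71) (nat_lit 5) (nat_lit 345) (nat_lit 296) (nat_lit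 139)) (XT.nd (nat_lit 78) (nat_lit 304) (nat_lit 0) (XT.lf (nat_lit 0) (nat_lit 13786621576) (nat_lit 380) (nat_lit 8329866672) (nat_lit 76) (nat_lit 6668381816) (nat_lit 66) (nat_lit 5) (nat_lit 71) (nat_lit 5) (nat_lit 67) (nat_lit 5) (nat_lit 346) (nat_lit 296) (nat_lit 138)) (XT.lf (nat_lit 0) (nat_lit 3898002789) (nat_lit 304) (nat_lit 14018040728) (nat_lit 380) (nat_lit 11457972593) (nat_lit 62) (nat_lit 5) (nat_lit 66) (nat_lit 5) (nat_lit 67) (nat_lit 5) (nat_lit 347) (nat_lit 296) (nat_lit 137)))) (XT.nd (nat_lit 78) (nat_lit 304) (nat_lit 0) (XT.lf (nat_lit 0) (nat_lit 16656954234) (nat_lit 304) (nat_lit 5591711019) (nat_lit 380) (nat_lit 7729799062) (nat_lit 62) (nat_lit 5) (nat_lit 66) (nat_lit 5) (nat_lit 67) (nat_lit 5) (nat_lit 348) (nat_lit 296) (nat_lit 136)) (XT.nd (nat_lit 78) (nat_lit 304) (nat_lit 0) (XT.lf (nat_lit 0) (nat_lit 26736269310) (nat_lit 380) (nat_lit 838499320)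 (nat_lit 76) (nat_lit 3025534304) (nat_lit 62) (nat_lit 5) (nat_lit 67) (nat_lit 5) (nat_lit 63) (nat_lit 5) (nat_lit 349) (nat_lit 296) (nat_lit 135)) (XT.lf (nat_lit 0) (nat_lit 285119512) (nat_lit 304) (nat_lit 19043205379) (nat_lit 76) (nat_lit 11907353202) (nat_lit 58) (nat_lit 5) (nat_lit 62) (nat_lit 5) (nat_lit 59) (nat_lit 5) (nat_lit 350) (nat_lit 296) (nat_lit 134)))))) (XT.nd (nat_lit 468) (nat_lit 760) (nat_lit 0) (XT.nd (nat_lit 234) (nat_lit 228) (nat_lit 0) (XT.nd (nat_lit 78) (nat_lit 304) (nat_lit 0) (XT.lf (nat_lit 0) (nat_lit 4485118607) (nat_lit 304) (nat_lit 6302936399) (nat_lit 76) (nat_lit 21100797208) (nat_lit 58) (nat_lit 5) (nat_lit 62) (nat_lit 5) (nat_lit 59) (nat_lit 5) (nat_lit 351) (nat_lit 296) (nat_lit 133)) (XT.nd (nat_lit 78) (nat_lit 0) (nat_lit 0) (XT.lf (nat_lit 0) (nat_lit 6949027971) (nat_lit 304) (nat_lit 1924503138) (nat_lit 380) (nat_lit 23686224337)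 (nat_lit 54) (nat_lit 5) (nat_lit 58) (nat_lit 5) (nat_lit 59) (nat_lit 5) (nat_lit 352) (nat_lit 296) (nat_lit 132)) (XT.lf (nat_lit 0) (nat_lit 13522799843) (nat_lit 380) (nat_lit 12597181845) (nat_lit 76) (nat_lit 7126934077) (nat_lit 54) (nat_lit 5) (nat_lit 59) (nat_lit 5) (nat_lit 55) (nat_lit 5) (nat_lit 353) (nat_lit 296) (nat_lit 131)))) (XT.nd (nat_lit 78) (nat_lit 0) (nat_lit 0) (XT.lf (nat_lit 0) (nat_lit 797281095) (nat_lit 228) (nat_lit 17536778105) (nat_lit 304) (nat_lit 15619962244) (nat_lit 51) (nat_lit 5) (nat_lit 54) (nat_lit 5) (nat_lit 55) (nat_lit 5) (nat_lit 354) (nat_lit 296) (nat_lit 130)) (XT.nd (nat_lit 78) (nat_lit 0) (nat_lit 0) (XT.lf (nat_lit 0) (nat_lit 14845874154) (nat_lit 228) (nat_lit 8566848610) (nat_lit 304) (nat_lit 11265931295) (nat_lit 51) (nat_lit 5) (nat_lit 54) (nat_lit 5) (nat_lit 55) (nat_lit 5) (nat_lit 355) (nat_lit 296) (nat_lit 129)) (XT.lf (nat_lit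 0) (nat_lit 28646171073) (nat_lit 304) (nat_lit 6121432312) (nat_lit 76) (nat_lit 657355109) (nat_lit 51) (nat_lit 5) (nat_lit 55) (nat_lit 5) (nat_lit 52) (nat_lit 5) (nat_lit 356) (nat_lit 296) (nat_lit 128))))) (XT.nd (nat_lit 234) (nat_lit 228) (nat_lit 0) (XT.nd (nat_lit 78) (nat_lit 304) (nat_lit 0) (XT.lf (nat_lit 0) (nat_lit 8068175293) (nat_lit 228) (nat_lit 26126905073) (nat_lit 304) (nat_lit 1993823395) (nat_lit 48) (nat_lit 5) (nat_lit 51) (nat_lit 5) (nat_lit 52) (nat_lit 5) (nat_lit 357) (nat_lit 296) (nat_lit 127)) (XT.nd (nat_lit 78) (nat_lit 228) (nat_lit 0) (XT.lf (nat_lit 0) (nat_lit 2935947215) (nat_lit 304) (nat_lit 14199506717) (nat_lit 76) (nat_lit 19837716546) (nat_lit 47) (nat_lit 5) (nat_lit 51) (nat_lit 5) (nat_lit 48) (nat_lit 5) (nat_lit 358) (nat_lit 296) (nat_lit 126)) (XT.lf (nat_lit 0) (nat_lit 116321292) (nat_lit 228) (nat_lit 7854545130) (nat_lit 304) (nat_lit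 29809591635) (nat_lit 44) (nat_lit 5) (nat_lit 47) (nat_lit 5) (nat_lit 48) (nat_lit 5) (nat_lit 359) (nat_lit 296) (nat_lit 125)))) (XT.nd (nat_lit 78) (nat_lit 228) (nat_lit 0) (XT.lf (nat_lit 0) (nat_lit 13314279142) (nat_lit 304) (nat_lit 23478374332) (nat_lit 76) (nat_lit 1814592232) (nat_lit 44) (nat_lit 5) (nat_lit 48) (nat_lit 5) (nat_lit 45) (nat_lit 5) (nat_lit 360) (nat_lit 296) (nat_lit 124)) (XT.nd (nat_lit 78) (nat_lit 228) (nat_lit 0) (XT.lf (nat_lit 0) (nat_lit 18892122785) (nat_lit 304) (nat_lit 8950248180) (nat_lit 76) (nat_lit 11614246842) (nat_lit 44) (nat_lit 5) (nat_lit 48) (nat_lit 5) (nat_lit 45) (nat_lit 5) (nat_lit 361) (nat_lit 296) (nat_lit 123)) (XT.lf (nat_lit 0) (nat_lit 6128018574) (nat_lit 228) (nat_lit 18564656191) (nat_lit 304) (nat_lit 15637139659) (nat_lit 41) (nat_lit 5) (nat_lit 44) (nat_lit 5) (nat_lit 45) (nat_lit 5) (nat_lit 362) (nat_lit 296) (nat_lit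 122))))))) (XT.nd (nat_lit 858) (nat_lit 532) (nat_lit 0) (XT.nd (nat_lit 390) (nat_lit 608) (nat_lit 0) (XT.nd (nat_lit 156) (nat_lit 228) (nat_lit 0) (XT.nd (nat_lit 78) (nat_lit 0) (nat_lit 0) (XT.lf (nat_lit 0) (nat_lit 21836873543) (nat_lit 228) (nat_lit 8917269110) (nat_lit 304) (nat_lit 10472461717) (nat_lit 41) (nat_lit 5) (nat_lit 44) (nat_lit 5) (nat_lit 45) (nat_lit 5) (nat_lit 363) (nat_lit 296) (nat_lit 121)) (XT.lf (nat_lit 0) (nat_lit 37003859447) (nat_lit 304) (nat_lit 4148272357) (nat_lit 76) (nat_lit 997978348) (nat_lit 41) (nat_lit 5) (nat_lit 45) (nat_lit 5) (nat_lit 42) (nat_lit 5) (nat_lit 364) (nat_lit 296) (nat_lit 120))) (XT.nd (nat_lit 78) (nat_lit 0) (nat_lit 0) (XT.lf (nat_lit 0) (nat_lit 532384376) (nat_lit 228) (nat_lit 31415483444) (nat_lit 76) (nat_lit 11147381327) (nat_lit 38) (nat_lit 5) (nat_lit 41) (nat_lit 5) (nat_lit 39) (nat_lit 5) (nat_lit 365) (nat_lit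 296) (nat_lit 119)) (XT.nd (nat_lit 78) (nat_lit 0) (nat_lit 0) (XT.lf (nat_lit 0) (nat_lit 6316963601) (nat_lit 228) (nat_lit 16056210564) (nat_lit 76) (nat_lit 21692872886) (nat_lit 38) (nat_lit 5) (nat_lit 41) (nat_lit 5) (nat_lit 39) (nat_lit 5) (nat_lit 366) (nat_lit 296) (nat_lit 118)) (XT.lf (nat_lit 0) (nat_lit 12271891340) (nat_lit 228) (nat_lit 241050404) (nat_lit 76) (nat_lit 32553126621) (nat_lit 38) (nat_lit 5) (nat_lit 41) (nat_lit 5) (nat_lit 39) (nat_lit 5) (nat_lit 367) (nat_lit 296) (nat_lit 117))))) (XT.nd (nat_lit 234) (nat_lit 228) (nat_lit 0) (XT.nd (nat_lit 78) (nat_lit 152) (nat_lit 0) (XT.lf (nat_lit 0) (nat_lit 16363119506) (nat_lit 228) (nat_lit 2196543735) (nat_lit 304) (nat_lit 27531804880) (nat_lit 35) (nat_lit 5) (nat_lit 38) (nat_lit 5) (nat_lit 39) (nat_lit 5) (nat_lit 368) (nat_lit 296) (nat_lit 116)) (XT.nd (nat_lit 78) (nat_lit 152) (nat_lit 0) (XT.lf (nat_lit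 0) (nat_lit 25116487694) (nat_lit 304) (nat_lit 13763034315) (nat_lit 76) (nat_lit 8265698867) (nat_lit 35) (nat_lit 5) (nat_lit 39) (nat_lit 5) (nat_lit 36) (nat_lit 5) (nat_lit 369) (nat_lit 296) (nat_lit 115)) (XT.lf (nat_lit 0) (nat_lit 2707686277) (nat_lit 152) (nat_lit 29207128947) (nat_lit 228) (nat_lit 16314430521) (nat_lit 33) (nat_lit 5) (nat_lit 35) (nat_lit 5) (nat_lit 36) (nat_lit 5) (nat_lit 370) (nat_lit 296) (nat_lit 114)))) (XT.nd (nat_lit 78) (nat_lit 228) (nat_lit 0) (XT.lf (nat_lit 0) (nat_lit 19950060817) (nat_lit 152) (nat_lit 19103076416) (nat_lit 228) (nat_lit 10288576169) (nat_lit 33) (nat_lit 5) (nat_lit 35) (nat_lit 5) (nat_lit 36) (nat_lit 5) (nat_lit 371) (nat_lit 296) (nat_lit 113)) (XT.nd (nat_lit 78) (nat_lit 228) (nat_lit 0) (XT.lf (nat_lit 0) (nat_lit 37705244087) (nat_lit 152) (nat_lit 8697515293) (nat_lit 228) (nat_lit 4084884477) (nat_lit 33) (nat_lit 5) (nat_lit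 35) (nat_lit 5) (nat_lit 36) (nat_lit 5) (nat_lit 372) (nat_lit 296) (nat_lit 112)) (XT.lf (nat_lit 0) (nat_lit 2319327463) (nat_lit 228) (nat_lit 47302017787) (nat_lit 76) (nat_lit 2044163778) (nat_lit 30) (nat_lit 5) (nat_lit 33) (nat_lit 5) (nat_lit 31) (nat_lit 5) (nat_lit 373) (nat_lit 296) (nat_lit 111)))))) (XT.nd (nat_lit 468) (nat_lit 228) (nat_lit 0) (XT.nd (nat_lit 234) (nat_lit 152) (nat_lit 0) (XT.nd (nat_lit 78) (nat_lit 152) (nat_lit 0) (XT.lf (nat_lit 0) (nat_lit 9047260141) (nat_lit 228) (nat_lit 30721307269) (nat_lit 76) (nat_lit 13102521521) (nat_lit 30) (nat_lit 5) (nat_lit 33) (nat_lit 5) (nat_lit 31) (nat_lit 5) (nat_lit 374) (nat_lit 296) (nat_lit 110)) (XT.nd (nat_lit 78) (nat_lit 152) (nat_lit 0) (XT.lf (nat_lit 0) (nat_lit 15974338892) (nat_lit 228) (nat_lit 13647465408) (nat_lit 76) (nat_lit 24491115605) (nat_lit 30) (nat_lit 5) (nat_lit 33) (nat_lit 5) (nat_lit 31)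 (nat_lit 5) (nat_lit 375) (nat_lit 296) (nat_lit 109)) (XT.lf (nat_lit 0) (nat_lit 4012729492) (nat_lit 152) (nat_lit 19132459819) (nat_lit 228) (nat_lit 32245740548) (nat_lit 28) (nat_lit 5) (nat_lit 30) (nat_lit 5) (nat_lit 31) (nat_lit 5) (nat_lit 376) (nat_lit 296) (nat_lit 108)))) (XT.nd (nat_lit 78) (nat_lit 152) (nat_lit 0) (XT.lf (nat_lit 0) (nat_lit 22478365712) (nat_lit 152) (nat_lit 8188035147) (nat_lit 228) (nat_lit 26036824935) (nat_lit 28) (nat_lit 5) (nat_lit 30) (nat_lit 5) (nat_lit 31) (nat_lit 5) (nat_lit 377) (nat_lit 296) (nat_lit 107)) (XT.nd (nat_lit 78) (nat_lit 152) (nat_lit 0) (XT.lf (nat_lit 0) (nat_lit 38440384584) (nat_lit 228) (nat_lit 16590639180) (nat_lit 76) (nat_lit 3023055435) (nat_lit 28) (nat_lit 5) (nat_lit 31) (nat_lit 5) (nat_lit 29) (nat_lit 5) (nat_lit 378) (nat_lit 296) (nat_lit 106)) (XT.lf (nat_lit 0) (nat_lit 1517195758) (nat_lit 152) (nat_lit 45023602819)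 (nat_lit 228) (nat_lit 12901865900) (nat_lit 26) (nat_lit 5) (nat_lit 28) (nat_lit 5) (nat_lit 29) (nat_lit 5) (nat_lit 379) (nat_lit 296) (nat_lit 105))))) (XT.nd (nat_lit 234) (nat_lit 152) (nat_lit 0) (XT.nd (nat_lit 78) (nat_lit 76) (nat_lit 0) (XT.lf (nat_lit 0) (nat_lit 20504447409) (nat_lit 152) (nat_lit 34544900964) (nat_lit 228) (nat_lit 5818607754) (nat_lit 26) (nat_lit 5) (nat_lit 28) (nat_lit 5) (nat_lit 29) (nat_lit 5) (nat_lit 380) (nat_lit 296) (nat_lit 104)) (XT.nd (nat_lit 78) (nat_lit 0) (nat_lit 0) (XT.lf (nat_lit 0) (nat_lit 1445958739) (nat_lit 228) (nat_lit 22292734891) (nat_lit 76) (nat_lit 38596960237) (nat_lit 25) (nat_lit 5) (nat_lit 28) (nat_lit 5) (nat_lit 26) (nat_lit 5) (nat_lit 381) (nat_lit 296) (nat_lit 103)) (XT.lf (nat_lit 0) (nat_lit 8809217936) (nat_lit 228) (nat_lit 3741181539) (nat_lit 76) (nat_lit 51295325948) (nat_lit 25) (nat_lit 5) (nat_lit 28) (nat_lit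 5) (nat_lit 26) (nat_lit 5) (nat_lit 382) (nat_lit 296) (nat_lit 102)))) (XT.nd (nat_lit 78) (nat_lit 0) (nat_lit 0) (XT.lf (nat_lit 0) (nat_lit 15669053113) (nat_lit 152) (nat_lit 872713158) (nat_lit 228) (nat_lit 48854883349) (nat_lit 23) (nat_lit 5) (nat_lit 25) (nat_lit 5) (nat_lit 26) (nat_lit 5) (nat_lit 383) (nat_lit 296) (nat_lit 101)) (XT.nd (nat_lit 78) (nat_lit 0) (nat_lit 0) (XT.lf (nat_lit 0) (nat_lit 24649463199) (nat_lit 228) (nat_lit 31365932664) (nat_lit 76) (nat_lit 10974412687) (nat_lit 23) (nat_lit 5) (nat_lit 26) (nat_lit 5) (nat_lit 24) (nat_lit 5) (nat_lit 384) (nat_lit 296) (nat_lit 100)) (XT.lf (nat_lit 0) (nat_lit 33006884083) (nat_lit 228) (nat_lit 12465597676) (nat_lit 76) (nat_lit 23158087803) (nat_lit 23) (nat_lit 5) (nat_lit 26) (nat_lit 5) (nat_lit 24) (nat_lit 5) (nat_lit 385) (nat_lit 296) (nat_lit 99))))))))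
noncomputable def xc201 : XT := (XT.nd (nat_lit 35412) (nat_lit 0) (nat_lit 4104) (XT.nd (nat_lit 34476) (nat_lit 0) (nat_lit 9044) (XT.nd (nat_lit 34008) (nat_lit 0) (nat_lit 10640) (XT.nd (nat_lit 33774) (nat_lit 0) (nat_lit 10488) (XT.nd (nat_lit 33696) (nat_lit 0) (nat_lit 10488) (XT.lf (nat_lit 0) (nat_lit 7137592501) (nat_lit 152) (nat_lit 34543960874) (nat_lit 228) (nat_lit 28637006302) (nat_lit 21) (nat_lit 5) (nat_lit 23) (nat_lit 5) (nat_lit 24) (nat_lit 5) (nat_lit 386) (nat_lit 296) (nat_lit 98)) (XT.lf (nat_lit 0) (nat_lit 599426108) (nat_lit 1140) (nat_lit 2839300672) (nat_lit 1140) (nat_lit 2839300672) (nat_lit 159) (nat_lit 3) (nat_lit 174) (nat_lit 3) (nat_lit 174) (nat_lit 5) (nat_lit 297) (nat_lit 297) (nat_lit 186))) (XT.nd (nat_lit 78) (nat_lit 0) (nat_lit 76) (XT.lf (nat_lit 0) (nat_lit 1611774570) (nat_lit 1140) (nat_lit 356258781) (nat_lit 1140) (nat_lit 10763645293) (nat_lit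 159) (nat_lit 3) (nat_lit 174) (nat_lit 3) (nat_lit 174) (nat_lit 5) (nat_lit 298) (nat_lit 297) (nat_lit 185)) (XT.nd (nat_lit 78) (nat_lit 0) (nat_lit 0) (XT.lf (nat_lit 0) (nat_lit 2102104363) (nat_lit 1064) (nat_lit 7722167377) (nat_lit 1140) (nat_lit 3086382672) (nat_lit 160) (nat_lit 5) (nat_lit 174) (nat_lit 5) (nat_lit 175) (nat_lit 5) (nat_lit 299) (nat_lit 297) (nat_lit 184)) (XT.lf (nat_lit 0) (nat_lit 2615291350) (nat_lit 1064) (nat_lit 2215964289) (nat_lit 1140) (nat_lit 8263532317) (nat_lit 160) (nat_lit 5) (nat_lit 174) (nat_lit 5) (nat_lit 175) (nat_lit 5) (nat_lit 300) (nat_lit 297) (nat_lit 183))))) (XT.nd (nat_lit 234) (nat_lit 0) (nat_lit 76) (XT.nd (nat_lit 78) (nat_lit 0) (nat_lit 0) (XT.lf (nat_lit 0) (nat_lit 3166525654) (nat_lit 1064) (nat_lit 9771442701) (nat_lit 1140) (nat_lit 345829564) (nat_lit 161) (nat_lit 5) (nat_lit 175) (nat_lit 5) (nat_lit 176) (nat_lit 5) (nat_lit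 301) (nat_lit 297) (nat_lit 182)) (XT.nd (nat_lit 78) (nat_lit 0) (nat_lit 0) (XT.lf (nat_lit 0) (nat_lit 3790598350) (nat_lit 1064) (nat_lit 4076532541) (nat_lit 1140) (nat_lit 5609689284) (nat_lit 161) (nat_lit 5) (nat_lit 175) (nat_lit 5) (nat_lit 176) (nat_lit 5) (nat_lit 302) (nat_lit 297) (nat_lit 181)) (XT.lf (nat_lit 76) (nat_lit 1816299204) (nat_lit 0) (nat_lit 2620833692) (nat_lit 1140) (nat_lit 9238418140) (nat_lit 162) (nat_lit 5) (nat_lit 161) (nat_lit 5) (nat_lit 176) (nat_lit 5) (nat_lit 303) (nat_lit 297) (nat_lit 180)))) (XT.nd (nat_lit 78) (nat_lit 0) (nat_lit 0) (XT.lf (nat_lit 0) (nat_lit 5158035916) (nat_lit 1064) (nat_lit 5945452720) (nat_lit 1140) (nat_lit 2775135266) (nat_lit 162) (nat_lit 5) (nat_lit 176) (nat_lit 5) (nat_lit 177) (nat_lit 5) (nat_lit 304) (nat_lit 297) (nat_lit 179)) (XT.nd (nat_lit 78) (nat_lit 0) (nat_lit 0) (XT.lf (nat_lit 76) (nat_lit 113515332)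 (nat_lit 0) (nat_lit 5801128971) (nat_lit 1140) (nat_lit 8172750703) (nat_lit 163) (nat_lit 5) (nat_lit 162) (nat_lit 5) (nat_lit 177) (nat_lit 5) (nat_lit 305) (nat_lit 297) (nat_lit 178)) (XT.lf (nat_lit 76) (nat_lit 6467700545) (nat_lit 0) (nat_lit 273622574) (nat_lit 1140) (nat_lit 7559712530) (nat_lit 163) (nat_lit 5) (nat_lit 162) (nat_lit 5) (nat_lit 177) (nat_lit 5) (nat_lit 306) (nat_lit 297) (nat_lit 177)))))) (XT.nd (nat_lit 468) (nat_lit 1748) (nat_lit 0) (XT.nd (nat_lit 234) (nat_lit 0) (nat_lit 76) (XT.nd (nat_lit 78) (nat_lit 0) (nat_lit 0) (XT.lf (nat_lit 0) (nat_lit 7632643058) (nat_lit 1064) (nat_lit 1569289324) (nat_lit 1140) (nat_lit 5317984676) (nat_lit 163) (nat_lit 5) (nat_lit 177) (nat_lit 5) (nat_lit 178) (nat_lit 5) (nat_lit 307) (nat_lit 297) (nat_lit 176)) (XT.nd (nat_lit 78) (nat_lit 0) (nat_lit 76) (XT.lf (nat_lit 76) (nat_lit 4968556557) (nat_lit 0) (nat_lit 3620716170)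 (nat_lit 1140) (nat_lit 6154961068) (nat_lit 164) (nat_lit 5) (nat_lit 163) (nat_lit 5) (nat_lit 178) (nat_lit 5) (nat_lit 308) (nat_lit 297) (nat_lit 175)) (XT.lf (nat_lit 0) (nat_lit 9599459299) (nat_lit 1064) (nat_lit 3269400801) (nat_lit 1140) (nat_lit 2105699428) (nat_lit 164) (nat_lit 5) (nat_lit 178) (nat_lit 5) (nat_lit 179) (nat_lit 5) (nat_lit 309) (nat_lit 297) (nat_lit 174)))) (XT.nd (nat_lit 78) (nat_lit 0) (nat_lit 0) (XT.lf (nat_lit 76) (nat_lit 3455200853) (nat_lit 0) (nat_lit 7242550016) (nat_lit 1140) (nat_lit 4512334679) (nat_lit 165) (nat_lit 5) (nat_lit 164) (nat_lit 5) (nat_lit 179) (nat_lit 5) (nat_lit 310) (nat_lit 297) (nat_lit 173)) (XT.nd (nat_lit 78) (nat_lit 0) (nat_lit 76) (XT.lf (nat_lit 76) (nat_lit 10440204976) (nat_lit 0) (nat_lit 1410785698) (nat_lit 1140) (nat_lit 3601050474) (nat_lit 165) (nat_lit 5) (nat_lit 164) (nat_lit 5) (nat_lit 179) (nat_lit 5) (nat_lit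 311) (nat_lit 297) (nat_lit 172)) (XT.lf (nat_lit 76) (nat_lit 1918276911) (nat_lit 0) (nat_lit 11172499921) (nat_lit 1140) (nat_lit 2608943200) (nat_lit 166) (nat_lit 5) (nat_lit 165) (nat_lit 5) (nat_lit 180) (nat_lit 5) (nat_lit 312) (nat_lit 297) (nat_lit 171))))) (XT.nd (nat_lit 234) (nat_lit 836) (nat_lit 0) (XT.nd (nat_lit 78) (nat_lit 1064) (nat_lit 0) (XT.lf (nat_lit 76) (nat_lit 9136387605) (nat_lit 0) (nat_lit 5285370561) (nat_lit 1140) (nat_lit 1531473489) (nat_lit 166) (nat_lit 5) (nat_lit 165) (nat_lit 5) (nat_lit 180) (nat_lit 5) (nat_lit 313) (nat_lit 297) (nat_lit 170)) (XT.nd (nat_lit 78) (nat_lit 76) (nat_lit 0) (XT.lf (nat_lit 0) (nat_lit 347494018) (nat_lit 1064) (nat_lit 15445881199) (nat_lit 1140) (nat_lit 420973987) (nat_lit 152) (nat_lit 5) (nat_lit 166) (nat_lit 5) (nat_lit 167) (nat_lit 5) (nat_lit 314) (nat_lit 297) (nat_lit 169)) (XT.lf (nat_lit 0) (nat_lit 820562746)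 (nat_lit 1140) (nat_lit 8683328955) (nat_lit 76) (nat_lit 6975865819) (nat_lit 151) (nat_lit 5) (nat_lit 166) (nat_lit 5) (nat_lit 152) (nat_lit 5) (nat_lit 315) (nat_lit 297) (nat_lit 168)))) (XT.nd (nat_lit 78) (nat_lit 836) (nat_lit 0) (XT.lf (nat_lit 0) (nat_lit 2081155061) (nat_lit 1140) (nat_lit 1296847800) (nat_lit 76) (nat_lit 13375311983) (nat_lit 151) (nat_lit 5) (nat_lit 166) (nat_lit 5) (nat_lit 152) (nat_lit 5) (nat_lit 316) (nat_lit 297) (nat_lit 167)) (XT.nd (nat_lit 78) (nat_lit 0) (nat_lit 0) (XT.lf (nat_lit 0) (nat_lit 3460719487) (nat_lit 912) (nat_lit 10633800114) (nat_lit 76) (nat_lit 2938143996) (nat_lit 140) (nat_lit 5) (nat_lit 152) (nat_lit 5) (nat_lit 141) (nat_lit 5) (nat_lit 317) (nat_lit 297) (nat_lit 166)) (XT.lf (nat_lit 0) (nat_lit 4919104808) (nat_lit 912) (nat_lit 3009911475) (nat_lit 76) (nat_lit 9390272284) (nat_lit 140) (nat_lit 5) (nat_lit 152) (nat_lit 5)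 (nat_lit 141) (nat_lit 5) (nat_lit 318) (nat_lit 297) (nat_lit 165))))))) (XT.nd (nat_lit 936) (nat_lit 1900) (nat_lit 0) (XT.nd (nat_lit 468) (nat_lit 1520) (nat_lit 0) (XT.nd (nat_lit 234) (nat_lit 456) (nat_lit 0) (XT.nd (nat_lit 78) (nat_lit 532) (nat_lit 0) (XT.lf (nat_lit 0) (nat_lit 4930788436) (nat_lit 532) (nat_lit 1528883155) (nat_lit 608) (nat_lit 11153706029) (nat_lit 133) (nat_lit 5) (nat_lit 140) (nat_lit 5) (nat_lit 141) (nat_lit 5) (nat_lit 319) (nat_lit 297) (nat_lit 164)) (XT.nd (nat_lit 78) (nat_lit 532) (nat_lit 0) (XT.lf (nat_lit 0) (nat_lit 8117044758) (nat_lit 608) (nat_lit 4801271496) (nat_lit 76) (nat_lit 4995873104) (nat_lit 133) (nat_lit 5) (nat_lit 141) (nat_lit 5) (nat_lit 134) (nat_lit 5) (nat_lit 320) (nat_lit 297) (nat_lit 163)) (XT.lf (nat_lit 0) (nat_lit 3358801718) (nat_lit 532) (nat_lit 6504240503) (nat_lit 608) (nat_lit 8359833319) (nat_lit 126) (nat_lit 5)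 (nat_lit 133) (nat_lit 5) (nat_lit 134) (nat_lit 5) (nat_lit 321) (nat_lit 297) (nat_lit 162)))) (XT.nd (nat_lit 78) (nat_lit 456) (nat_lit 0) (XT.lf (nat_lit 0) (nat_lit 11703019290) (nat_lit 608) (nat_lit 6687012328) (nat_lit 76) (nat_lit 149559380) (nat_lit 126) (nat_lit 5) (nat_lit 134) (nat_lit 5) (nat_lit 127) (nat_lit 5) (nat_lit 322) (nat_lit 297) (nat_lit 161)) (XT.nd (nat_lit 78) (nat_lit 0) (nat_lit 0) (XT.lf (nat_lit 0) (nat_lit 1696019180) (nat_lit 456) (nat_lit 11974774451) (nat_lit 532) (nat_lit 5192852546) (nat_lit 120) (nat_lit 5) (nat_lit 126) (nat_lit 5) (nat_lit 127) (nat_lit 5) (nat_lit 323) (nat_lit 297) (nat_lit 160)) (XT.lf (nat_lit 0) (nat_lit 10459658792) (nat_lit 456) (nat_lit 5297524002) (nat_lit 532) (nat_lit 3438468495) (nat_lit 120) (nat_lit 5) (nat_lit 126) (nat_lit 5) (nat_lit 127) (nat_lit 5) (nat_lit 324) (nat_lit 297) (nat_lit 159))))) (XT.nd (nat_lit 234)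 (nat_lit 912) (nat_lit 0) (XT.nd (nat_lit 78) (nat_lit 608) (nat_lit 0) (XT.lf (nat_lit 0) (nat_lit 17913639091) (nat_lit 532) (nat_lit 74572003) (nat_lit 76) (nat_lit 1549196460) (nat_lit 120) (nat_lit 5) (nat_lit 127) (nat_lit 5) (nat_lit 121) (nat_lit 5) (nat_lit 325) (nat_lit 297) (nat_lit 158)) (XT.nd (nat_lit 78) (nat_lit 0) (nat_lit 0) (XT.lf (nat_lit 0) (nat_lit 372972626) (nat_lit 608) (nat_lit 10927788298) (nat_lit 76) (nat_lit 8584627569) (nat_lit 112) (nat_lit 5) (nat_lit 120) (nat_lit 5) (nat_lit 113) (nat_lit 5) (nat_lit 326) (nat_lit 297) (nat_lit 157)) (XT.lf (nat_lit 0) (nat_lit 2390309645) (nat_lit 608) (nat_lit 2005432797) (nat_lit 76) (nat_lit 15847798187) (nat_lit 112) (nat_lit 5) (nat_lit 120) (nat_lit 5) (nat_lit 113) (nat_lit 5) (nat_lit 327) (nat_lit 297) (nat_lit 156)))) (XT.nd (nat_lit 78) (nat_lit 456) (nat_lit 0) (XT.lf (nat_lit 0) (nat_lit 4558120128) (nat_lit 532)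 (nat_lit 13317532101) (nat_lit 76) (nat_lit 2734100064) (nat_lit 106) (nat_lit 5) (nat_lit 113) (nat_lit 5) (nat_lit 107) (nat_lit 5) (nat_lit 328) (nat_lit 297) (nat_lit 155)) (XT.nd (nat_lit 78) (nat_lit 456) (nat_lit 0) (XT.lf (nat_lit 0) (nat_lit 6847857805) (nat_lit 532) (nat_lit 4127900294) (nat_lit 76) (nat_lit 10009498589) (nat_lit 106) (nat_lit 5) (nat_lit 113) (nat_lit 5) (nat_lit 107) (nat_lit 5) (nat_lit 329) (nat_lit 297) (nat_lit 154)) (XT.lf (nat_lit 0) (nat_lit 5435974561) (nat_lit 456) (nat_lit 3815692434) (nat_lit 532) (nat_lit 12119010624) (nat_lit 100) (nat_lit 5) (nat_lit 106) (nat_lit 5) (nat_lit 107) (nat_lit 5) (nat_lit 330) (nat_lit 297) (nat_lit 153)))))) (XT.nd (nat_lit 468) (nat_lit 1064) (nat_lit 0) (XT.nd (nat_lit 234) (nat_lit 456) (nat_lit 0) (XT.nd (nat_lit 78) (nat_lit 380) (nat_lit 0) (XT.lf (nat_lit 0) (nat_lit 11797147203) (nat_lit 532) (nat_lit 6437308428)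 (nat_lit 76) (nat_lit 3531131258) (nat_lit 100) (nat_lit 5) (nat_lit 107) (nat_lit 5) (nat_lit 101) (nat_lit 5) (nat_lit 331) (nat_lit 297) (nat_lit 152)) (XT.nd (nat_lit 78) (nat_lit 0) (nat_lit 0) (XT.lf (nat_lit 0) (nat_lit 3365468649) (nat_lit 380) (nat_lit 11117097285) (nat_lit 456) (nat_lit 7687882330) (nat_lit 95) (nat_lit 5) (nat_lit 100) (nat_lit 5) (nat_lit 101) (nat_lit 5) (nat_lit 332) (nat_lit 297) (nat_lit 151)) (XT.lf (nat_lit 0) (nat_lit 13586927748) (nat_lit 380) (nat_lit 3720187917) (nat_lit 456) (nat_lit 5278594463) (nat_lit 95) (nat_lit 5) (nat_lit 100) (nat_lit 5) (nat_lit 101) (nat_lit 5) (nat_lit 333) (nat_lit 297) (nat_lit 150)))) (XT.nd (nat_lit 78) (nat_lit 76) (nat_lit 0) (XT.lf (nat_lit 0) (nat_lit 1077821317) (nat_lit 380) (nat_lit 19180160324) (nat_lit 456) (nat_lit 2754212174) (nat_lit 90) (nat_lit 5) (nat_lit 95) (nat_lit 5) (nat_lit 96) (nat_lit 5) (nat_lit 334)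 (nat_lit 297) (nat_lit 149)) (XT.nd (nat_lit 78) (nat_lit 76) (nat_lit 0) (XT.lf (nat_lit 0) (nat_lit 11596359031) (nat_lit 380) (nat_lit 11822212540) (nat_lit 456) (nat_lit 29275530) (nat_lit 90) (nat_lit 5) (nat_lit 95) (nat_lit 5) (nat_lit 96) (nat_lit 5) (nat_lit 335) (nat_lit 297) (nat_lit 148)) (XT.lf (nat_lit 0) (nat_lit 2717176845) (nat_lit 456) (nat_lit 1499997916) (nat_lit 76) (nat_lit 19678785730) (nat_lit 89) (nat_lit 5) (nat_lit 95) (nat_lit 5) (nat_lit 90) (nat_lit 5) (nat_lit 336) (nat_lit 297) (nat_lit 147))))) (XT.nd (nat_lit 234) (nat_lit 304) (nat_lit 0) (XT.nd (nat_lit 78) (nat_lit 380) (nat_lit 0) (XT.lf (nat_lit 0) (nat_lit 5664967878) (nat_lit 456) (nat_lit 15053670434) (nat_lit 76) (nat_lit 3635294363) (nat_lit 84) (nat_lit 5) (nat_lit 90) (nat_lit 5) (nat_lit 85) (nat_lit 5) (nat_lit 337) (nat_lit 297) (nat_lit 146)) (XT.nd (nat_lit 78) (nat_lit 380) (nat_lit 0) (XT.lf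 (nat_lit 0) (nat_lit 8752477756) (nat_lit 456) (nat_lit 4418891573) (nat_lit 76) (nat_lit 11652745940) (nat_lit 84) (nat_lit 5) (nat_lit 90) (nat_lit 5) (nat_lit 85) (nat_lit 5) (nat_lit 338) (nat_lit 297) (nat_lit 145)) (XT.lf (nat_lit 0) (nat_lit 6657981490) (nat_lit 380) (nat_lit 5333033875) (nat_lit 456) (nat_lit 13315645416) (nat_lit 79) (nat_lit 5) (nat_lit 84) (nat_lit 5) (nat_lit 85) (nat_lit 5) (nat_lit 339) (nat_lit 297) (nat_lit 144)))) (XT.nd (nat_lit 78) (nat_lit 304) (nat_lit 0) (XT.lf (nat_lit 0) (nat_lit 15392602928) (nat_lit 456) (nat_lit 7678349743) (nat_lit 76) (nat_lit 2730762410) (nat_lit 79) (nat_lit 5) (nat_lit 85) (nat_lit 5) (nat_lit 80) (nat_lit 5) (nat_lit 340) (nat_lit 297) (nat_lit 143)) (XT.nd (nat_lit 78) (nat_lit 0) (nat_lit 0) (XT.lf (nat_lit 0) (nat_lit 3632406835) (nat_lit 304) (nat_lit 15346198070) (nat_lit 380) (nat_lit 7330554068) (nat_lit 75) (nat_lit 5)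 (nat_lit 79) (nat_lit 5) (nat_lit 80) (nat_lit 5) (nat_lit 341) (nat_lit 297) (nat_lit 142)) (XT.lf (nat_lit 0) (nat_lit 15433189166) (nat_lit 304) (nat_lit 7311273143) (nat_lit 380) (nat_lit 4085204318) (nat_lit 75) (nat_lit 5) (nat_lit 79) (nat_lit 5) (nat_lit 80) (nat_lit 5) (nat_lit 342) (nat_lit 297) (nat_lit 141))))))))
noncomputable def xc202 : XT := (XT.nd (nat_lit 1794) (nat_lit 1368) (nat_lit 0) (XT.nd (nat_lit 858) (nat_lit 988) (nat_lit 0) (XT.nd (nat_lit 390) (nat_lit 912) (nat_lit 0) (XT.nd (nat_lit 156) (nat_lit 304) (nat_lit 0) (XT.nd (nat_lit 78) (nat_lit 76) (nat_lit 0) (XT.lf (nat_lit 0) (nat_lit 210388750) (nat_lit 304) (nat_lit 26419081283) (nat_lit 380) (nat_lit 736142692) (nat_lit 71) (nat_lit 5) (nat_lit 75) (nat_lit 5) (nat_lit 76) (nat_lit 5) (nat_lit 343) (nat_lit 297) (nat_lit 140)) (XT.lf (nat_lit 0) (nat_lit 2843960004) (nat_lit 380) (nat_lit 15621411231) (nat_lit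 76) (nat_lit 9445985938) (nat_lit 70) (nat_lit 5) (nat_lit 75) (nat_lit 5) (nat_lit 71) (nat_lit 5) (nat_lit 344) (nat_lit 297) (nat_lit 139))) (XT.nd (nat_lit 78) (nat_lit 304) (nat_lit 0) (XT.lf (nat_lit 0) (nat_lit 6511725287) (nat_lit 380) (nat_lit 3755370713) (nat_lit 76) (nat_lit 18206315375) (nat_lit 70) (nat_lit 5) (nat_lit 75) (nat_lit 5) (nat_lit 71) (nat_lit 5) (nat_lit 345) (nat_lit 297) (nat_lit 138)) (XT.nd (nat_lit 78) (nat_lit 0) (nat_lit 0) (XT.lf (nat_lit 0) (nat_lit 8628719614) (nat_lit 304) (nat_lit 1738947713) (nat_lit 380) (nat_lit 18682323073) (nat_lit 66) (nat_lit 5) (nat_lit 70) (nat_lit 5) (nat_lit 71) (nat_lit 5) (nat_lit 346) (nat_lit 297) (nat_lit 137)) (XT.lf (nat_lit 0) (nat_lit 14440570633) (nat_lit 380) (nat_lit 8255893020) (nat_lit 76) (nat_lit 6944371944) (nat_lit 66) (nat_lit 5) (nat_lit 71) (nat_lit 5) (nat_lit 67) (nat_lit 5) (nat_lit 347) (nat_lit 297) (nat_lit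 136))))) (XT.nd (nat_lit 234) (nat_lit 608) (nat_lit 0) (XT.nd (nat_lit 78) (nat_lit 0) (nat_lit 0) (XT.lf (nat_lit 0) (nat_lit 4335637333) (nat_lit 304) (nat_lit 14354320114) (nat_lit 380) (nat_lit 11557826890) (nat_lit 62) (nat_lit 5) (nat_lit 66) (nat_lit 5) (nat_lit 67) (nat_lit 5) (nat_lit 348) (nat_lit 297) (nat_lit 135)) (XT.nd (nat_lit 78) (nat_lit 0) (nat_lit 0) (XT.lf (nat_lit 0) (nat_lit 17468016705) (nat_lit 304) (nat_lit 5677654742) (nat_lit 380) (nat_lit 7724911596) (nat_lit 62) (nat_lit 5) (nat_lit 66) (nat_lit 5) (nat_lit 67) (nat_lit 5) (nat_lit 349) (nat_lit 297) (nat_lit 134)) (XT.lf (nat_lit 0) (nat_lit 27761981293) (nat_lit 380) (nat_lit 555108027) (nat_lit 76) (nat_lit 3194175330) (nat_lit 62) (nat_lit 5) (nat_lit 67) (nat_lit 5) (nat_lit 63) (nat_lit 5) (nat_lit 350) (nat_lit 297) (nat_lit 133)))) (XT.nd (nat_lit 78) (nat_lit 304) (nat_lit 0) (XT.lf (nat_lit 0) (nat_lit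 516221604) (nat_lit 304) (nat_lit 19304231865) (nat_lit 76) (nat_lit 12345299297) (nat_lit 58) (nat_lit 5) (nat_lit 62) (nat_lit 5) (nat_lit 59) (nat_lit 5) (nat_lit 351) (nat_lit 297) (nat_lit 132)) (XT.nd (nat_lit 78) (nat_lit 304) (nat_lit 0) (XT.lf (nat_lit 0) (nat_lit 4835738677) (nat_lit 304) (nat_lit 6190791797) (nat_lit 76) (nat_lit 21812195395) (nat_lit 58) (nat_lit 5) (nat_lit 62) (nat_lit 5) (nat_lit 59) (nat_lit 5) (nat_lit 352) (nat_lit 297) (nat_lit 131)) (XT.lf (nat_lit 0) (nat_lit 7455778243) (nat_lit 304) (nat_lit 1896599356) (nat_lit 380) (nat_lit 24177490404) (nat_lit 54) (nat_lit 5) (nat_lit 58) (nat_lit 5) (nat_lit 59) (nat_lit 5) (nat_lit 353) (nat_lit 297) (nat_lit 130)))))) (XT.nd (nat_lit 468) (nat_lit 456) (nat_lit 0) (XT.nd (nat_lit 234) (nat_lit 304) (nat_lit 0) (XT.nd (nat_lit 78) (nat_lit 228) (nat_lit 0) (XT.lf (nat_lit 0) (nat_lit 14135730216) (nat_lit 380) (nat_lit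 12679819314) (nat_lit 76) (nat_lit 7422264190) (nat_lit 54) (nat_lit 5) (nat_lit 59) (nat_lit 5) (nat_lit 55) (nat_lit 5) (nat_lit 354) (nat_lit 297) (nat_lit 129)) (XT.nd (nat_lit 78) (nat_lit 0) (nat_lit 0) (XT.lf (nat_lit 0) (nat_lit 1113582633) (nat_lit 228) (nat_lit 17974518986) (nat_lit 304) (nat_lit 15878136233) (nat_lit 51) (nat_lit 5) (nat_lit 54) (nat_lit 5) (nat_lit 55) (nat_lit 5) (nat_lit 355) (nat_lit 297) (nat_lit 128)) (XT.lf (nat_lit 0) (nat_lit 15575117470) (nat_lit 228) (nat_lit 8738065269) (nat_lit 304) (nat_lit 11399613236) (nat_lit 51) (nat_lit 5) (nat_lit 54) (nat_lit 5) (nat_lit 55) (nat_lit 5) (nat_lit 356) (nat_lit 297) (nat_lit 127)))) (XT.nd (nat_lit 78) (nat_lit 304) (nat_lit 0) (XT.lf (nat_lit 0) (nat_lit 29698665862) (nat_lit 304) (nat_lit 6024240191) (nat_lit 76) (nat_lit 758740569) (nat_lit 51) (nat_lit 5) (nat_lit 55) (nat_lit 5) (nat_lit 52) (nat_lit 5) (nat_lit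 357) (nat_lit 297) (nat_lit 126)) (XT.nd (nat_lit 78) (nat_lit 76) (nat_lit 0) (XT.lf (nat_lit 0) (nat_lit 8588302357) (nat_lit 228) (nat_lit 26822788616) (nat_lit 304) (nat_lit 1857515604) (nat_lit 48) (nat_lit 5) (nat_lit 51) (nat_lit 5) (nat_lit 52) (nat_lit 5) (nat_lit 358) (nat_lit 297) (nat_lit 125)) (XT.lf (nat_lit 0) (nat_lit 3210720230) (nat_lit 304) (nat_lit 14351549344) (nat_lit 76) (nat_lit 20514250530) (nat_lit 47) (nat_lit 5) (nat_lit 51) (nat_lit 5) (nat_lit 48) (nat_lit 5) (nat_lit 359) (nat_lit 297) (nat_lit 124))))) (XT.nd (nat_lit 234) (nat_lit 228) (nat_lit 0) (XT.nd (nat_lit 78) (nat_lit 0) (nat_lit 0) (XT.lf (nat_lit 0) (nat_lit 391067794) (nat_lit 228) (nat_lit 8002788999) (nat_lit 304) (nat_lit 30514261548) (nat_lit 44) (nat_lit 5) (nat_lit 47) (nat_lit 5) (nat_lit 48) (nat_lit 5) (nat_lit 360) (nat_lit 297) (nat_lit 123)) (XT.nd (nat_lit 78) (nat_lit 0) (nat_lit 0) (XT.lf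 (nat_lit 0) (nat_lit 13893032224) (nat_lit 304) (nat_lit 23914599105) (nat_lit 76) (nat_lit 1952221399) (nat_lit 44) (nat_lit 5) (nat_lit 48) (nat_lit 5) (nat_lit 45) (nat_lit 5) (nat_lit 361) (nat_lit 297) (nat_lit 122)) (XT.lf (nat_lit 0) (nat_lit 19632988126) (nat_lit 304) (nat_lit 8958438677) (nat_lit 76) (nat_lit 12043442597) (nat_lit 44) (nat_lit 5) (nat_lit 48) (nat_lit 5) (nat_lit 45) (nat_lit 5) (nat_lit 362) (nat_lit 297) (nat_lit 121)))) (XT.nd (nat_lit 78) (nat_lit 0) (nat_lit 0) (XT.lf (nat_lit 0) (nat_lit 6569623953) (nat_lit 228) (nat_lit 19035339584) (nat_lit 304) (nat_lit 15929382694) (nat_lit 41) (nat_lit 5) (nat_lit 44) (nat_lit 5) (nat_lit 45) (nat_lit 5) (nat_lit 363) (nat_lit 297) (nat_lit 120)) (XT.nd (nat_lit 78) (nat_lit 0) (nat_lit 0) (XT.lf (nat_lit 0) (nat_lit 22742236857) (nat_lit 228) (nat_lit 9101043211) (nat_lit 304) (nat_lit 10614916002) (nat_lit 41) (nat_lit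 5) (nat_lit 44) (nat_lit 5) (nat_lit 45) (nat_lit 5) (nat_lit 364) (nat_lit 297) (nat_lit 119)) (XT.lf (nat_lit 0) (nat_lit 38276420020) (nat_lit 304) (nat_lit 4025479224) (nat_lit 76) (nat_lit 1107635977) (nat_lit 41) (nat_lit 5) (nat_lit 45) (nat_lit 5) (nat_lit 42) (nat_lit 5) (nat_lit 365) (nat_lit 297) (nat_lit 118))))))) (XT.nd (nat_lit 858) (nat_lit 532) (nat_lit 0) (XT.nd (nat_lit 390) (nat_lit 380) (nat_lit 0) (XT.nd (nat_lit 156) (nat_lit 228) (nat_lit 0) (XT.nd (nat_lit 78) (nat_lit 0) (nat_lit 0) (XT.lf (nat_lit 0) (nat_lit 710202490) (nat_lit 228) (nat_lit 32109716384) (nat_lit 76) (nat_lit 11563139219) (nat_lit 38) (nat_lit 5) (nat_lit 41) (nat_lit 5) (nat_lit 39) (nat_lit 5) (nat_lit 366) (nat_lit 297) (nat_lit 117)) (XT.lf (nat_lit 0) (nat_lit 6663605114) (nat_lit 228) (nat_lit 16296895363) (nat_lit 76) (nat_lit 22422626502) (nat_lit 38) (nat_lit 5) (nat_lit 41) (nat_lit 5) (nat_lit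 39) (nat_lit 5) (nat_lit 367) (nat_lit 297) (nat_lit 116))) (XT.nd (nat_lit 78) (nat_lit 228) (nat_lit 0) (XT.lf (nat_lit 0) (nat_lit 12792604007) (nat_lit 228) (nat_lit 14299860) (nat_lit 76) (nat_lit 33606387826) (nat_lit 38) (nat_lit 5) (nat_lit 41) (nat_lit 5) (nat_lit 39) (nat_lit 5) (nat_lit 368) (nat_lit 297) (nat_lit 115)) (XT.nd (nat_lit 78) (nat_lit 0) (nat_lit 0) (XT.lf (nat_lit 0) (nat_lit 17085701206) (nat_lit 228) (nat_lit 2181091612) (nat_lit 304) (nat_lit 28202732416) (nat_lit 35) (nat_lit 5) (nat_lit 38) (nat_lit 5) (nat_lit 39) (nat_lit 5) (nat_lit 369) (nat_lit 297) (nat_lit 114)) (XT.lf (nat_lit 0) (nat_lit 26016702373) (nat_lit 304) (nat_lit 13947194204) (nat_lit 76) (nat_lit 8591107730) (nat_lit 35) (nat_lit 5) (nat_lit 39) (nat_lit 5) (nat_lit 36) (nat_lit 5) (nat_lit 370) (nat_lit 297) (nat_lit 113))))) (XT.nd (nat_lit 234) (nat_lit 228) (nat_lit 0) (XT.nd (nat_lit 78)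 (nat_lit 0) (nat_lit 0) (XT.lf (nat_lit 0) (nat_lit 3015405544) (nat_lit 152) (nat_lit 30001477934) (nat_lit 228) (nat_lit 16654734331) (nat_lit 33) (nat_lit 5) (nat_lit 35) (nat_lit 5) (nat_lit 36) (nat_lit 5) (nat_lit 371) (nat_lit 297) (nat_lit 112)) (XT.nd (nat_lit 78) (nat_lit 0) (nat_lit 0) (XT.lf (nat_lit 0) (nat_lit 20768454562) (nat_lit 152) (nat_lit 19596688241) (nat_lit 228) (nat_lit 10452447914) (nat_lit 33) (nat_lit 5) (nat_lit 35) (nat_lit 5) (nat_lit 36) (nat_lit 5) (nat_lit 372) (nat_lit 297) (nat_lit 111)) (XT.lf (nat_lit 0) (nat_lit 39049888711) (nat_lit 152) (nat_lit 8881275248) (nat_lit 228) (nat_lit 4066862526) (nat_lit 33) (nat_lit 5) (nat_lit 35) (nat_lit 5) (nat_lit 36) (nat_lit 5) (nat_lit 373) (nat_lit 297) (nat_lit 110)))) (XT.nd (nat_lit 78) (nat_lit 0) (nat_lit 0) (XT.lf (nat_lit 0) (nat_lit 2525531589) (nat_lit 228) (nat_lit 48503346360) (nat_lit 76) (nat_lit 2182349603)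 (nat_lit 30) (nat_lit 5) (nat_lit 33) (nat_lit 5) (nat_lit 31) (nat_lit 5) (nat_lit 374) (nat_lit 297) (nat_lit 109)) (XT.nd (nat_lit 78) (nat_lit 0) (nat_lit 0) (XT.lf (nat_lit 0) (nat_lit 9451322900) (nat_lit 228) (nat_lit 31431556233) (nat_lit 76) (nat_lit 13570219410) (nat_lit 30) (nat_lit 5) (nat_lit 33) (nat_lit 5) (nat_lit 31) (nat_lit 5) (nat_lit 375) (nat_lit 297) (nat_lit 108)) (XT.lf (nat_lit 0) (nat_lit 16582350567) (nat_lit 228) (nat_lit 13851656114) (nat_lit 76) (nat_lit 25298297853) (nat_lit 30) (nat_lit 5) (nat_lit 33) (nat_lit 5) (nat_lit 31) (nat_lit 5) (nat_lit 376) (nat_lit 297) (nat_lit 107)))))) (XT.nd (nat_lit 468) (nat_lit 152) (nat_lit 0) (XT.nd (nat_lit 234) (nat_lit 228) (nat_lit 0) (XT.nd (nat_lit 78) (nat_lit 0) (nat_lit 0) (XT.lf (nat_lit 0) (nat_lit 4336332542) (nat_lit 152) (nat_lit 19630196526) (nat_lit 228) (nat_lit 33082183707) (nat_lit 28) (nat_lit 5) (nat_lit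 30) (nat_lit 5) (nat_lit 31) (nat_lit 5) (nat_lit 377) (nat_lit 297) (nat_lit 106)) (XT.nd (nat_lit 78) (nat_lit 0) (nat_lit 0) (XT.lf (nat_lit 0) (nat_lit 23350018785) (nat_lit 152) (nat_lit 8359659611) (nat_lit 228) (nat_lit 26690814093) (nat_lit 28) (nat_lit 5) (nat_lit 30) (nat_lit 5) (nat_lit 31) (nat_lit 5) (nat_lit 378) (nat_lit 297) (nat_lit 105)) (XT.lf (nat_lit 0) (nat_lit 39713981564) (nat_lit 228) (nat_lit 16893775165) (nat_lit 76) (nat_lit 3184205603) (nat_lit 28) (nat_lit 5) (nat_lit 31) (nat_lit 5) (nat_lit 29) (nat_lit 5) (nat_lit 379) (nat_lit 297) (nat_lit 104)))) (XT.nd (nat_lit 78) (nat_lit 76) (nat_lit 0) (XT.lf (nat_lit 0) (nat_lit 1755387143) (nat_lit 152) (nat_lit 46300366575) (nat_lit 228) (nat_lit 13166504795) (nat_lit 26) (nat_lit 5) (nat_lit 28) (nat_lit 5) (nat_lit 29) (nat_lit 5) (nat_lit 380) (nat_lit 297) (nat_lit 103)) (XT.nd (nat_lit 78) (nat_lit 76) (nat_lit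 0) (XT.lf (nat_lit 0) (nat_lit 21306644436) (nat_lit 152) (nat_lit 35509457383) (nat_lit 228) (nat_lit 5874314450) (nat_lit 26) (nat_lit 5) (nat_lit 28) (nat_lit 5) (nat_lit 29) (nat_lit 5) (nat_lit 381) (nat_lit 297) (nat_lit 102)) (XT.lf (nat_lit 0) (nat_lit 1602475671) (nat_lit 228) (nat_lit 22777536673) (nat_lit 76) (nat_lit 39822203550) (nat_lit 25) (nat_lit 5) (nat_lit 28) (nat_lit 5) (nat_lit 26) (nat_lit 5) (nat_lit 382) (nat_lit 297) (nat_lit 101))))) (XT.nd (nat_lit 34008) (nat_lit 0) (nat_lit 10336) (XT.nd (nat_lit 78) (nat_lit 152) (nat_lit 0) (XT.lf (nat_lit 0) (nat_lit 9183337358) (nat_lit 228) (nat_lit 3674795369) (nat_lit 76) (nat_lit 52899559034) (nat_lit 25) (nat_lit 5) (nat_lit 28) (nat_lit 5) (nat_lit 26) (nat_lit 5) (nat_lit 383) (nat_lit 297) (nat_lit 100)) (XT.nd (nat_lit 78) (nat_lit 0) (nat_lit 0) (XT.lf (nat_lit 0) (nat_lit 16315995131) (nat_lit 152) (nat_lit 830367892)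 (nat_lit 228) (nat_lit 50208828843) (nat_lit 23) (nat_lit 5) (nat_lit 25) (nat_lit 5) (nat_lit 26) (nat_lit 5) (nat_lit 384) (nat_lit 297) (nat_lit 99)) (XT.lf (nat_lit 0) (nat_lit 25494774749) (nat_lit 228) (nat_lit 32132571860) (nat_lit 76) (nat_lit 11368877552) (nat_lit 23) (nat_lit 5) (nat_lit 26) (nat_lit 5) (nat_lit 24) (nat_lit 5) (nat_lit 385) (nat_lit 297) (nat_lit 98)))) (XT.nd (nat_lit 78) (nat_lit 0) (nat_lit 0) (XT.lf (nat_lit 0) (nat_lit 1008552061) (nat_lit 1140) (nat_lit 2722610687) (nat_lit 1140) (nat_lit 2722610687) (nat_lit 159) (nat_lit 3) (nat_lit 174) (nat_lit 3) (nat_lit 174) (nat_lit 5) (nat_lit 298) (nat_lit 298) (nat_lit 184)) (XT.nd (nat_lit 78) (nat_lit 0) (nat_lit 76) (XT.lf (nat_lit 76) (nat_lit 25530294) (nat_lit 0) (nat_lit 2394344226) (nat_lit 1140) (nat_lit 10669291118) (nat_lit 160) (nat_lit 5) (nat_lit 159) (nat_lit 3) (nat_lit 174) (nat_lit 5) (nat_lit 299)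 (nat_lit 298) (nat_lit 183)) (XT.lf (nat_lit 0) (nat_lit 2902885382) (nat_lit 1064) (nat_lit 7538448039) (nat_lit 1140) (nat_lit 2832886791) (nat_lit 160) (nat_lit 5) (nat_lit 174) (nat_lit 5) (nat_lit 175) (nat_lit 5) (nat_lit 300) (nat_lit 298) (nat_lit 182))))))))
noncomputable def xc203 : XT := (XT.nd (nat_lit 1794) (nat_lit 4560) (nat_lit 0) (XT.nd (nat_lit 858) (nat_lit 2584) (nat_lit 0) (XT.nd (nat_lit 390) (nat_lit 0) (nat_lit 152) (XT.nd (nat_lit 156) (nat_lit 0) (nat_lit 76) (XT.nd (nat_lit 78) (nat_lit 0) (nat_lit 76) (XT.lf (nat_lit 0) (nat_lit 3409981050) (nat_lit 1064) (nat_lit 1879157432) (nat_lit 1140) (nat_lit 8175431140) (nat_lit 160) (nat_lit 5) (nat_lit 174) (nat_lit 5) (nat_lit 175) (nat_lit 5) (nat_lit 301) (nat_lit 298) (nat_lit 181)) (XT.lf (nat_lit 0) (nat_lit 3957847314) (nat_lit 1064) (nat_lit 9639865959) (nat_lit 1140) (nat_lit 62179638) (nat_lit 161) (nat_lit 5) (nat_lit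 175) (nat_lit 5) (nat_lit 176) (nat_lit 5) (nat_lit 302) (nat_lit 298) (nat_lit 180))) (XT.nd (nat_lit 78) (nat_lit 0) (nat_lit 0) (XT.lf (nat_lit 0) (nat_lit 4580360854) (nat_lit 1064) (nat_lit 3786478980) (nat_lit 1140) (nat_lit 5492518979) (nat_lit 161) (nat_lit 5) (nat_lit 175) (nat_lit 5) (nat_lit 176) (nat_lit 5) (nat_lit 303) (nat_lit 298) (nat_lit 179)) (XT.nd (nat_lit 78) (nat_lit 0) (nat_lit 76) (XT.lf (nat_lit 76) (nat_lit 2279095075) (nat_lit 0) (nat_lit 2951430639) (nat_lit 1140) (nat_lit 8834042100) (nat_lit 162) (nat_lit 5) (nat_lit 161) (nat_lit 5) (nat_lit 176) (nat_lit 5) (nat_lit 304) (nat_lit 298) (nat_lit 178)) (XT.lf (nat_lit 0) (nat_lit 5951472841) (nat_lit 1064) (nat_lit 5704419451) (nat_lit 1140) (nat_lit 2618530045) (nat_lit 162) (nat_lit 5) (nat_lit 176) (nat_lit 5) (nat_lit 177) (nat_lit 5) (nat_lit 305) (nat_lit 298) (nat_lit 177))))) (XT.nd (nat_lit 234) (nat_lit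 0) (nat_lit 76) (XT.nd (nat_lit 78) (nat_lit 0) (nat_lit 0) (XT.lf (nat_lit 76) (nat_lit 532205908) (nat_lit 0) (nat_lit 6183962754) (nat_lit 1140) (nat_lit 7773766995) (nat_lit 163) (nat_lit 5) (nat_lit 162) (nat_lit 5) (nat_lit 177) (nat_lit 5) (nat_lit 306) (nat_lit 298) (nat_lit 176)) (XT.nd (nat_lit 78) (nat_lit 0) (nat_lit 76) (XT.lf (nat_lit 76) (nat_lit 7064920995) (nat_lit 0) (nat_lit 484549614) (nat_lit 1140) (nat_lit 7161099801) (nat_lit 163) (nat_lit 5) (nat_lit 162) (nat_lit 5) (nat_lit 177) (nat_lit 5) (nat_lit 307) (nat_lit 298) (nat_lit 175)) (XT.lf (nat_lit 0) (nat_lit 8447990451) (nat_lit 1064) (nat_lit 1204101601) (nat_lit 1140) (nat_lit 5284550821) (nat_lit 163) (nat_lit 5) (nat_lit 177) (nat_lit 5) (nat_lit 178) (nat_lit 5) (nat_lit 308) (nat_lit 298) (nat_lit 174)))) (XT.nd (nat_lit 78) (nat_lit 0) (nat_lit 76) (XT.lf (nat_lit 76) (nat_lit 5525837829) (nat_lit 0) (nat_lit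 3894326603) (nat_lit 1140) (nat_lit 5747956618) (nat_lit 164) (nat_lit 5) (nat_lit 163) (nat_lit 5) (nat_lit 178) (nat_lit 5) (nat_lit 309) (nat_lit 298) (nat_lit 173)) (XT.nd (nat_lit 78) (nat_lit 0) (nat_lit 0) (XT.lf (nat_lit 0) (nat_lit 10442421280) (nat_lit 1064) (nat_lit 2951705825) (nat_lit 1140) (nat_lit 2011812723) (nat_lit 164) (nat_lit 5) (nat_lit 178) (nat_lit 5) (nat_lit 179) (nat_lit 5) (nat_lit 310) (nat_lit 298) (nat_lit 172)) (XT.lf (nat_lit 76) (nat_lit 3970557633) (nat_lit 0) (nat_lit 7590897069) (nat_lit 1140) (nat_lit 4087478292) (nat_lit 165) (nat_lit 5) (nat_lit 164) (nat_lit 5) (nat_lit 179) (nat_lit 5) (nat_lit 311) (nat_lit 298) (nat_lit 171)))))) (XT.nd (nat_lit 468) (nat_lit 1900) (nat_lit 0) (XT.nd (nat_lit 234) (nat_lit 988) (nat_lit 0) (XT.nd (nat_lit 78) (nat_lit 0) (nat_lit 76) (XT.lf (nat_lit 76) (nat_lit 11153120596) (nat_lit 0) (nat_lit 1580362232) (nat_lit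 1140) (nat_lit 3165172835) (nat_lit 165) (nat_lit 5) (nat_lit 164) (nat_lit 5) (nat_lit 179) (nat_lit 5) (nat_lit 312) (nat_lit 298) (nat_lit 170)) (XT.nd (nat_lit 78) (nat_lit 0) (nat_lit 0) (XT.lf (nat_lit 76) (nat_lit 2389607783) (nat_lit 0) (nat_lit 11608296294) (nat_lit 1140) (nat_lit 2156270734) (nat_lit 166) (nat_lit 5) (nat_lit 165) (nat_lit 5) (nat_lit 180) (nat_lit 5) (nat_lit 313) (nat_lit 298) (nat_lit 169)) (XT.lf (nat_lit 76) (nat_lit 9812209879) (nat_lit 0) (nat_lit 5541622334) (nat_lit 1140) (nat_lit 1061941225) (nat_lit 166) (nat_lit 5) (nat_lit 165) (nat_lit 5) (nat_lit 180) (nat_lit 5) (nat_lit 314) (nat_lit 298) (nat_lit 168)))) (XT.nd (nat_lit 78) (nat_lit 0) (nat_lit 0) (XT.lf (nat_lit 0) (nat_lit 68659017) (nat_lit 1140) (nat_lit 15913234483) (nat_lit 76) (nat_lit 703186229) (nat_lit 151) (nat_lit 5) (nat_lit 166) (nat_lit 5) (nat_lit 152) (nat_lit 5) (nat_lit 315) (nat_lit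 298) (nat_lit 167)) (XT.nd (nat_lit 78) (nat_lit 0) (nat_lit 0) (XT.lf (nat_lit 0) (nat_lit 1324598138) (nat_lit 1140) (nat_lit 8530762513) (nat_lit 76) (nat_lit 7103425524) (nat_lit 151) (nat_lit 5) (nat_lit 166) (nat_lit 5) (nat_lit 152) (nat_lit 5) (nat_lit 316) (nat_lit 298) (nat_lit 166)) (XT.lf (nat_lit 0) (nat_lit 2609044576) (nat_lit 1140) (nat_lit 934717981) (nat_lit 76) (nat_lit 13697235158) (nat_lit 151) (nat_lit 5) (nat_lit 166) (nat_lit 5) (nat_lit 152) (nat_lit 5) (nat_lit 317) (nat_lit 298) (nat_lit 165))))) (XT.nd (nat_lit 234) (nat_lit 532) (nat_lit 0) (XT.nd (nat_lit 78) (nat_lit 532) (nat_lit 0) (XT.lf (nat_lit 0) (nat_lit 4019692789) (nat_lit 912) (nat_lit 10540550546) (nat_lit 76) (nat_lit 2968820445) (nat_lit 140) (nat_lit 5) (nat_lit 152) (nat_lit 5) (nat_lit 141) (nat_lit 5) (nat_lit 318) (nat_lit 298) (nat_lit 164)) (XT.nd (nat_lit 78) (nat_lit 532) (nat_lit 0) (XT.lf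 (nat_lit 0) (nat_lit 5508572824) (nat_lit 912) (nat_lit 2699952925) (nat_lit 76) (nat_lit 9616186404) (nat_lit 140) (nat_lit 5) (nat_lit 152) (nat_lit 5) (nat_lit 141) (nat_lit 5) (nat_lit 319) (nat_lit 298) (nat_lit 163)) (XT.lf (nat_lit 0) (nat_lit 5475043906) (nat_lit 532) (nat_lit 1611251763) (nat_lit 608) (nat_lit 11041626197) (nat_lit 133) (nat_lit 5) (nat_lit 140) (nat_lit 5) (nat_lit 141) (nat_lit 5) (nat_lit 320) (nat_lit 298) (nat_lit 162)))) (XT.nd (nat_lit 78) (nat_lit 532) (nat_lit 0) (XT.lf (nat_lit 0) (nat_lit 8780442558) (nat_lit 608) (nat_lit 4546727331) (nat_lit 76) (nat_lit 5111001893) (nat_lit 133) (nat_lit 5) (nat_lit 141) (nat_lit 5) (nat_lit 134) (nat_lit 5) (nat_lit 321) (nat_lit 298) (nat_lit 161)) (XT.nd (nat_lit 78) (nat_lit 0) (nat_lit 0) (XT.lf (nat_lit 0) (nat_lit 3854240410) (nat_lit 532) (nat_lit 6716143686) (nat_lit 608) (nat_lit 8186012189) (nat_lit 126) (nat_lit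 5) (nat_lit 133) (nat_lit 5) (nat_lit 134) (nat_lit 5) (nat_lit 322) (nat_lit 298) (nat_lit 160)) (XT.lf (nat_lit 0) (nat_lit 12453419914) (nat_lit 608) (nat_lit 6491504812) (nat_lit 76) (nat_lit 138076638) (nat_lit 126) (nat_lit 5) (nat_lit 134) (nat_lit 5) (nat_lit 127) (nat_lit 5) (nat_lit 323) (nat_lit 298) (nat_lit 159))))))) (XT.nd (nat_lit 936) (nat_lit 1824) (nat_lit 0) (XT.nd (nat_lit 468) (nat_lit 1216) (nat_lit 0) (XT.nd (nat_lit 234) (nat_lit 532) (nat_lit 0) (XT.nd (nat_lit 78) (nat_lit 532) (nat_lit 0) (XT.lf (nat_lit 0) (nat_lit 2139134133) (nat_lit 456) (nat_lit 12333233360) (nat_lit 532) (nat_lit 4944669751) (nat_lit 120) (nat_lit 5) (nat_lit 126) (nat_lit 5) (nat_lit 127) (nat_lit 5) (nat_lit 324) (nat_lit 298) (nat_lit 158)) (XT.nd (nat_lit 78) (nat_lit 532) (nat_lit 0) (XT.lf (nat_lit 0) (nat_lit 11154258631) (nat_lit 456) (nat_lit 5455688241) (nat_lit 532) (nat_lit 3149420247)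 (nat_lit 120) (nat_lit 5) (nat_lit 126) (nat_lit 5) (nat_lit 127) (nat_lit 5) (nat_lit 325) (nat_lit 298) (nat_lit 157)) (XT.lf (nat_lit 0) (nat_lit 310766131) (nat_lit 532) (nat_lit 18512255731) (nat_lit 608) (nat_lit 1288618371) (nat_lit 113) (nat_lit 5) (nat_lit 120) (nat_lit 5) (nat_lit 121) (nat_lit 5) (nat_lit 326) (nat_lit 298) (nat_lit 156)))) (XT.nd (nat_lit 78) (nat_lit 456) (nat_lit 0) (XT.lf (nat_lit 0) (nat_lit 750310427) (nat_lit 608) (nat_lit 10869875633) (nat_lit 76) (nat_lit 8850091215) (nat_lit 112) (nat_lit 5) (nat_lit 120) (nat_lit 5) (nat_lit 113) (nat_lit 5) (nat_lit 327) (nat_lit 298) (nat_lit 155)) (XT.nd (nat_lit 78) (nat_lit 456) (nat_lit 0) (XT.lf (nat_lit 0) (nat_lit 2817503034) (nat_lit 608) (nat_lit 1691084796) (nat_lit 76) (nat_lit 16330926132) (nat_lit 112) (nat_lit 5) (nat_lit 120) (nat_lit 5) (nat_lit 113) (nat_lit 5) (nat_lit 328) (nat_lit 298) (nat_lit 154))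 (XT.lf (nat_lit 0) (nat_lit 5043771525) (nat_lit 532) (nat_lit 13335321876) (nat_lit 76) (nat_lit 2837835330) (nat_lit 106) (nat_lit 5) (nat_lit 113) (nat_lit 5) (nat_lit 107) (nat_lit 5) (nat_lit 329) (nat_lit 298) (nat_lit 153))))) (XT.nd (nat_lit 234) (nat_lit 760) (nat_lit 0) (XT.nd (nat_lit 78) (nat_lit 456) (nat_lit 0) (XT.lf (nat_lit 0) (nat_lit 7392038969) (nat_lit 532) (nat_lit 3881119644) (nat_lit 76) (nat_lit 10330863415) (nat_lit 106) (nat_lit 5) (nat_lit 113) (nat_lit 5) (nat_lit 107) (nat_lit 5) (nat_lit 330) (nat_lit 298) (nat_lit 152)) (XT.nd (nat_lit 78) (nat_lit 0) (nat_lit 0) (XT.lf (nat_lit 0) (nat_lit 5966037950) (nat_lit 456) (nat_lit 3895585789) (nat_lit 532) (nat_lit 12139590359) (nat_lit 100) (nat_lit 5) (nat_lit 106) (nat_lit 5) (nat_lit 107) (nat_lit 5) (nat_lit 331) (nat_lit 298) (nat_lit 151)) (XT.lf (nat_lit 0) (nat_lit 12474109302) (nat_lit 532) (nat_lit 6264179504)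 (nat_lit 76) (nat_lit 3669980426) (nat_lit 100) (nat_lit 5) (nat_lit 107) (nat_lit 5) (nat_lit 101) (nat_lit 5) (nat_lit 332) (nat_lit 298) (nat_lit 150)))) (XT.nd (nat_lit 78) (nat_lit 380) (nat_lit 0) (XT.lf (nat_lit 0) (nat_lit 3829090218) (nat_lit 380) (nat_lit 11405077307) (nat_lit 456) (nat_lit 7591303912) (nat_lit 95) (nat_lit 5) (nat_lit 100) (nat_lit 5) (nat_lit 101) (nat_lit 5) (nat_lit 333) (nat_lit 298) (nat_lit 149)) (XT.nd (nat_lit 78) (nat_lit 380) (nat_lit 0) (XT.lf (nat_lit 0) (nat_lit 14346630250) (nat_lit 380) (nat_lit 3787586860) (nat_lit 456) (nat_lit 5119267939) (nat_lit 95) (nat_lit 5) (nat_lit 100) (nat_lit 5) (nat_lit 101) (nat_lit 5) (nat_lit 334) (nat_lit 298) (nat_lit 148)) (XT.lf (nat_lit 0) (nat_lit 1468078282) (nat_lit 380) (nat_lit 19700416305) (nat_lit 456) (nat_lit 2524438397) (nat_lit 90) (nat_lit 5) (nat_lit 95) (nat_lit 5) (nat_lit 96) (nat_lit 5) (nat_lit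 335) (nat_lit 298) (nat_lit 147)))))) (XT.nd (nat_lit 468) (nat_lit 988) (nat_lit 0) (XT.nd (nat_lit 234) (nat_lit 380) (nat_lit 0) (XT.nd (nat_lit 78) (nat_lit 380) (nat_lit 0) (XT.lf (nat_lit 0) (nat_lit 267817224) (nat_lit 456) (nat_lit 11852814710) (nat_lit 76) (nat_lit 12021225552) (nat_lit 89) (nat_lit 5) (nat_lit 95) (nat_lit 5) (nat_lit 90) (nat_lit 5) (nat_lit 336) (nat_lit 298) (nat_lit 146)) (XT.nd (nat_lit 78) (nat_lit 380) (nat_lit 0) (XT.lf (nat_lit 0) (nat_lit 3087413133) (nat_lit 456) (nat_lit 1201378294) (nat_lit 76) (nat_lit 20314888923) (nat_lit 89) (nat_lit 5) (nat_lit 95) (nat_lit 5) (nat_lit 90) (nat_lit 5) (nat_lit 337) (nat_lit 298) (nat_lit 145)) (XT.lf (nat_lit 0) (nat_lit 6119043978) (nat_lit 456) (nat_lit 15156584228) (nat_lit 76) (nat_lit 3799915797) (nat_lit 84) (nat_lit 5) (nat_lit 90) (nat_lit 5) (nat_lit 85) (nat_lit 5) (nat_lit 338) (nat_lit 298) (nat_lit 144))))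 (XT.nd (nat_lit 78) (nat_lit 380) (nat_lit 0) (XT.lf (nat_lit 0) (nat_lit 9290903606) (nat_lit 456) (nat_lit 4212918204) (nat_lit 76) (nat_lit 12056272594) (nat_lit 84) (nat_lit 5) (nat_lit 90) (nat_lit 5) (nat_lit 85) (nat_lit 5) (nat_lit 339) (nat_lit 298) (nat_lit 143)) (XT.nd (nat_lit 78) (nat_lit 0) (nat_lit 0) (XT.lf (nat_lit 0) (nat_lit 7192942029) (nat_lit 380) (nat_lit 5428843155) (nat_lit 456) (nat_lit 13435489117) (nat_lit 79) (nat_lit 5) (nat_lit 84) (nat_lit 5) (nat_lit 85) (nat_lit 5) (nat_lit 340) (nat_lit 298) (nat_lit 142)) (XT.lf (nat_lit 0) (nat_lit 16118125008) (nat_lit 456) (nat_lit 7575505629) (nat_lit 76) (nat_lit 2873781709) (nat_lit 79) (nat_lit 5) (nat_lit 85) (nat_lit 5) (nat_lit 80) (nat_lit 5) (nat_lit 341) (nat_lit 298) (nat_lit 141))))) (XT.nd (nat_lit 234) (nat_lit 380) (nat_lit 0) (XT.nd (nat_lit 78) (nat_lit 304) (nat_lit 0) (XT.lf (nat_lit 0) (nat_lit 4071307033)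 (nat_lit 304) (nat_lit 15735889617) (nat_lit 380) (nat_lit 7283031087) (nat_lit 75) (nat_lit 5) (nat_lit 79) (nat_lit 5) (nat_lit 80) (nat_lit 5) (nat_lit 342) (nat_lit 298) (nat_lit 140)) (XT.nd (nat_lit 78) (nat_lit 304) (nat_lit 0) (XT.lf (nat_lit 0) (nat_lit 16216503280) (nat_lit 304) (nat_lit 7461976002) (nat_lit 380) (nat_lit 3948110347) (nat_lit 75) (nat_lit 5) (nat_lit 79) (nat_lit 5) (nat_lit 80) (nat_lit 5) (nat_lit 343) (nat_lit 298) (nat_lit 139)) (XT.lf (nat_lit 0) (nat_lit 541114067) (nat_lit 304) (nat_lit 27135351607) (nat_lit 380) (nat_lit 502267715) (nat_lit 71) (nat_lit 5) (nat_lit 75) (nat_lit 5) (nat_lit 76) (nat_lit 5) (nat_lit 344) (nat_lit 298) (nat_lit 138)))) (XT.nd (nat_lit 78) (nat_lit 304) (nat_lit 0) (XT.lf (nat_lit 0) (nat_lit 3172933726) (nat_lit 380) (nat_lit 15769858486) (nat_lit 76) (nat_lit 9798214869) (nat_lit 70) (nat_lit 5) (nat_lit 75) (nat_lit 5) (nat_lit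 71) (nat_lit 5) (nat_lit 345) (nat_lit 298) (nat_lit 137)) (XT.nd (nat_lit 78) (nat_lit 304) (nat_lit 0) (XT.lf (nat_lit 0) (nat_lit 6943635223) (nat_lit 380) (nat_lit 3557162823) (nat_lit 76) (nat_lit 18819348868) (nat_lit 70) (nat_lit 5) (nat_lit 75) (nat_lit 5) (nat_lit 71) (nat_lit 5) (nat_lit 346) (nat_lit 298) (nat_lit 136)) (XT.lf (nat_lit 0) (nat_lit 9195402479) (nat_lit 304) (nat_lit 1715921968) (nat_lit 380) (nat_lit 19002827574) (nat_lit 66) (nat_lit 5) (nat_lit 70) (nat_lit 5) (nat_lit 71) (nat_lit 5) (nat_lit 347) (nat_lit 298) (nat_lit 135))))))))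
noncomputable def xc204 : XT := (XT.nd (nat_lit 1794) (nat_lit 912) (nat_lit 0) (XT.nd (nat_lit 858) (nat_lit 1216) (nat_lit 0) (XT.nd (nat_lit 390) (nat_lit 532) (nat_lit 0) (XT.nd (nat_lit 156) (nat_lit 304) (nat_lit 0) (XT.nd (nat_lit 78) (nat_lit 304) (nat_lit 0) (XT.lf (nat_lit 0) (nat_lit 15100341065) (nat_lit 380) (nat_lit 8198291601) (nat_lit 76) (nat_lit 7224282585) (nat_lit 66) (nat_lit 5) (nat_lit 71) (nat_lit 5) (nat_lit 67) (nat_lit 5) (nat_lit 348) (nat_lit 298) (nat_lit 134)) (XT.lf (nat_lit 0) (nat_lit 4767991738) (nat_lit 304) (nat_lit 14705524855) (nat_lit 380) (nat_lit 11674676805) (nat_lit 62) (nat_lit 5) (nat_lit 66) (nat_lit 5) (nat_lit 67) (nat_lit 5) (nat_lit 349) (nat_lit 298) (nat_lit 133))) (XT.nd (nat_lit 78) (nat_lit 304) (nat_lit 0) (XT.lf (nat_lit 0) (nat_lit 18285538066) (nat_lit 304) (nat_lit 5770872868) (nat_lit 380) (nat_lit 7733469729) (nat_lit 62) (nat_lit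 5) (nat_lit 66) (nat_lit 5) (nat_lit 67) (nat_lit 5) (nat_lit 350) (nat_lit 298) (nat_lit 132)) (XT.nd (nat_lit 78) (nat_lit 304) (nat_lit 0) (XT.lf (nat_lit 0) (nat_lit 28805627709) (nat_lit 380) (nat_lit 280926814) (nat_lit 76) (nat_lit 3363405243) (nat_lit 62) (nat_lit 5) (nat_lit 67) (nat_lit 5) (nat_lit 63) (nat_lit 5) (nat_lit 351) (nat_lit 298) (nat_lit 131)) (XT.lf (nat_lit 0) (nat_lit 741481564) (nat_lit 304) (nat_lit 19590899895) (nat_lit 76) (nat_lit 12791749801) (nat_lit 58) (nat_lit 5) (nat_lit 62) (nat_lit 5) (nat_lit 59) (nat_lit 5) (nat_lit 352) (nat_lit 298) (nat_lit 130))))) (XT.nd (nat_lit 234) (nat_lit 228) (nat_lit 0) (XT.nd (nat_lit 78) (nat_lit 304) (nat_lit 0) (XT.lf (nat_lit 0) (nat_lit 5184474247) (nat_lit 304) (nat_lit 6092574846) (nat_lit 76) (nat_lit 22540436524) (nat_lit 58) (nat_lit 5) (nat_lit 62) (nat_lit 5) (nat_lit 59) (nat_lit 5) (nat_lit 353) (nat_lit 298)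 (nat_lit 129)) (XT.nd (nat_lit 78) (nat_lit 0) (nat_lit 0) (XT.lf (nat_lit 0) (nat_lit 7960608563) (nat_lit 304) (nat_lit 1872774483) (nat_lit 380) (nat_lit 24696084356) (nat_lit 54) (nat_lit 5) (nat_lit 58) (nat_lit 5) (nat_lit 59) (nat_lit 5) (nat_lit 354) (nat_lit 298) (nat_lit 128)) (XT.lf (nat_lit 0) (nat_lit 14755151711) (nat_lit 380) (nat_lit 12781886071) (nat_lit 76) (nat_lit 7721774505) (nat_lit 54) (nat_lit 5) (nat_lit 59) (nat_lit 5) (nat_lit 55) (nat_lit 5) (nat_lit 355) (nat_lit 298) (nat_lit 127)))) (XT.nd (nat_lit 78) (nat_lit 0) (nat_lit 0) (XT.lf (nat_lit 0) (nat_lit 1422589230) (nat_lit 228) (nat_lit 18430464459) (nat_lit 304) (nat_lit 16156134691) (nat_lit 51) (nat_lit 5) (nat_lit 54) (nat_lit 5) (nat_lit 55) (nat_lit 5) (nat_lit 356) (nat_lit 298) (nat_lit 126)) (XT.nd (nat_lit 78) (nat_lit 0) (nat_lit 0) (XT.lf (nat_lit 0) (nat_lit 16309942954) (nat_lit 228) (nat_lit 8919343056)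 (nat_lit 304) (nat_lit 11549033060) (nat_lit 51) (nat_lit 5) (nat_lit 54) (nat_lit 5) (nat_lit 55) (nat_lit 5) (nat_lit 357) (nat_lit 298) (nat_lit 125)) (XT.lf (nat_lit 0) (nat_lit 30771650211) (nat_lit 304) (nat_lit 5940253389) (nat_lit 76) (nat_lit 858479698) (nat_lit 51) (nat_lit 5) (nat_lit 55) (nat_lit 5) (nat_lit 52) (nat_lit 5) (nat_lit 358) (nat_lit 298) (nat_lit 124)))))) (XT.nd (nat_lit 468) (nat_lit 456) (nat_lit 0) (XT.nd (nat_lit 234) (nat_lit 228) (nat_lit 0) (XT.nd (nat_lit 78) (nat_lit 304) (nat_lit 0) (XT.lf (nat_lit 0) (nat_lit 9108070200) (nat_lit 228) (nat_lit 27544595841) (nat_lit 304) (nat_lit 1728376813) (nat_lit 48) (nat_lit 5) (nat_lit 51) (nat_lit 5) (nat_lit 52) (nat_lit 5) (nat_lit 359) (nat_lit 298) (nat_lit 123)) (XT.nd (nat_lit 78) (nat_lit 228) (nat_lit 0) (XT.lf (nat_lit 0) (nat_lit 3483019402) (nat_lit 304) (nat_lit 14523878674) (nat_lit 76) (nat_lit 21206407697)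 (nat_lit 47) (nat_lit 5) (nat_lit 51) (nat_lit 5) (nat_lit 48) (nat_lit 5) (nat_lit 360) (nat_lit 298) (nat_lit 122)) (XT.lf (nat_lit 0) (nat_lit 658485438) (nat_lit 228) (nat_lit 8160496871) (nat_lit 304) (nat_lit 31250956399) (nat_lit 44) (nat_lit 5) (nat_lit 47) (nat_lit 5) (nat_lit 48) (nat_lit 5) (nat_lit 361) (nat_lit 298) (nat_lit 121)))) (XT.nd (nat_lit 78) (nat_lit 228) (nat_lit 0) (XT.lf (nat_lit 0) (nat_lit 14478853926) (nat_lit 304) (nat_lit 24379302177) (nat_lit 76) (nat_lit 2089203915) (nat_lit 44) (nat_lit 5) (nat_lit 48) (nat_lit 5) (nat_lit 45) (nat_lit 5) (nat_lit 362) (nat_lit 298) (nat_lit 120)) (XT.nd (nat_lit 78) (nat_lit 228) (nat_lit 0) (XT.lf (nat_lit 0) (nat_lit 20386085280) (nat_lit 304) (nat_lit 8981818147) (nat_lit 76) (nat_lit 12480877791) (nat_lit 44) (nat_lit 5) (nat_lit 48) (nat_lit 5) (nat_lit 45) (nat_lit 5) (nat_lit 363) (nat_lit 298) (nat_lit 119)) (XT.lf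 (nat_lit 0) (nat_lit 7009680737) (nat_lit 228) (nat_lit 19525094944) (nat_lit 304) (nat_lit 16240546149) (nat_lit 41) (nat_lit 5) (nat_lit 44) (nat_lit 5) (nat_lit 45) (nat_lit 5) (nat_lit 364) (nat_lit 298) (nat_lit 118))))) (XT.nd (nat_lit 234) (nat_lit 228) (nat_lit 0) (XT.nd (nat_lit 78) (nat_lit 228) (nat_lit 0) (XT.lf (nat_lit 0) (nat_lit 23660395289) (nat_lit 228) (nat_lit 9295137780) (nat_lit 304) (nat_lit 10771501320) (nat_lit 41) (nat_lit 5) (nat_lit 44) (nat_lit 5) (nat_lit 45) (nat_lit 5) (nat_lit 365) (nat_lit 298) (nat_lit 117)) (XT.nd (nat_lit 78) (nat_lit 228) (nat_lit 0) (XT.lf (nat_lit 0) (nat_lit 39577832415) (nat_lit 304) (nat_lit 3913194960) (nat_lit 76) (nat_lit 1216007179) (nat_lit 41) (nat_lit 5) (nat_lit 45) (nat_lit 5) (nat_lit 42) (nat_lit 5) (nat_lit 366) (nat_lit 298) (nat_lit 116)) (XT.lf (nat_lit 0) (nat_lit 884064493) (nat_lit 228) (nat_lit 32839025820) (nat_lit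 76) (nat_lit 11986700802) (nat_lit 38) (nat_lit 5) (nat_lit 41) (nat_lit 5) (nat_lit 39) (nat_lit 5) (nat_lit 367) (nat_lit 298) (nat_lit 115)))) (XT.nd (nat_lit 78) (nat_lit 228) (nat_lit 0) (XT.lf (nat_lit 0) (nat_lit 7011625818) (nat_lit 228) (nat_lit 16558635180) (nat_lit 76) (nat_lit 23169739673) (nat_lit 38) (nat_lit 5) (nat_lit 41) (nat_lit 5) (nat_lit 39) (nat_lit 5) (nat_lit 368) (nat_lit 298) (nat_lit 114)) (XT.nd (nat_lit 78) (nat_lit 0) (nat_lit 0) (XT.lf (nat_lit 0) (nat_lit 209917926) (nat_lit 228) (nat_lit 13112280653) (nat_lit 304) (nat_lit 34478945778) (nat_lit 35) (nat_lit 5) (nat_lit 38) (nat_lit 5) (nat_lit 39) (nat_lit 5) (nat_lit 369) (nat_lit 298) (nat_lit 113)) (XT.lf (nat_lit 0) (nat_lit 17816660510) (nat_lit 228) (nat_lit 2169845658) (nat_lit 304) (nat_lit 28902686939) (nat_lit 35) (nat_lit 5) (nat_lit 38) (nat_lit 5) (nat_lit 39) (nat_lit 5) (nat_lit 370) (nat_lit 298)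 (nat_lit 112))))))) (XT.nd (nat_lit 858) (nat_lit 228) (nat_lit 0) (XT.nd (nat_lit 390) (nat_lit 304) (nat_lit 0) (XT.nd (nat_lit 156) (nat_lit 228) (nat_lit 0) (XT.nd (nat_lit 78) (nat_lit 152) (nat_lit 0) (XT.lf (nat_lit 0) (nat_lit 26935501162) (nat_lit 304) (nat_lit 14150008993) (nat_lit 76) (nat_lit 8921833607) (nat_lit 35) (nat_lit 5) (nat_lit 39) (nat_lit 5) (nat_lit 36) (nat_lit 5) (nat_lit 371) (nat_lit 298) (nat_lit 111)) (XT.lf (nat_lit 0) (nat_lit 3319355012) (nat_lit 152) (nat_lit 30824356769) (nat_lit 228) (nat_lit 17013807875) (nat_lit 33) (nat_lit 5) (nat_lit 35) (nat_lit 5) (nat_lit 36) (nat_lit 5) (nat_lit 372) (nat_lit 298) (nat_lit 110))) (XT.nd (nat_lit 78) (nat_lit 228) (nat_lit 0) (XT.lf (nat_lit 0) (nat_lit 21598777424) (nat_lit 152) (nat_lit 20109670924) (nat_lit 228) (nat_lit 10629547094) (nat_lit 33) (nat_lit 5) (nat_lit 35) (nat_lit 5) (nat_lit 36) (nat_lit 5) (nat_lit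 373) (nat_lit 298) (nat_lit 109)) (XT.nd (nat_lit 78) (nat_lit 228) (nat_lit 0) (XT.lf (nat_lit 0) (nat_lit 40422617630) (nat_lit 152) (nat_lit 9074977619) (nat_lit 228) (nat_lit 4056369123) (nat_lit 33) (nat_lit 5) (nat_lit 35) (nat_lit 5) (nat_lit 36) (nat_lit 5) (nat_lit 374) (nat_lit 298) (nat_lit 108)) (XT.lf (nat_lit 0) (nat_lit 2730079046) (nat_lit 228) (nat_lit 49753213495) (nat_lit 76) (nat_lit 2320268871) (nat_lit 30) (nat_lit 5) (nat_lit 33) (nat_lit 5) (nat_lit 31) (nat_lit 5) (nat_lit 375) (nat_lit 298) (nat_lit 107))))) (XT.nd (nat_lit 234) (nat_lit 152) (nat_lit 0) (XT.nd (nat_lit 78) (nat_lit 152) (nat_lit 0) (XT.lf (nat_lit 0) (nat_lit 9859893178) (nat_lit 228) (nat_lit 32175247332) (nat_lit 76) (nat_lit 14047664614) (nat_lit 30) (nat_lit 5) (nat_lit 33) (nat_lit 5) (nat_lit 31) (nat_lit 5) (nat_lit 376) (nat_lit 298) (nat_lit 106)) (XT.nd (nat_lit 78) (nat_lit 152) (nat_lit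 0) (XT.lf (nat_lit 0) (nat_lit 17201210008) (nat_lit 228) (nat_lit 14073753770) (nat_lit 76) (nat_lit 26125536713) (nat_lit 30) (nat_lit 5) (nat_lit 33) (nat_lit 5) (nat_lit 31) (nat_lit 5) (nat_lit 377) (nat_lit 298) (nat_lit 105)) (XT.lf (nat_lit 0) (nat_lit 4657977957) (nat_lit 152) (nat_lit 20147241655) (nat_lit 228) (nat_lit 33951236025) (nat_lit 28) (nat_lit 5) (nat_lit 30) (nat_lit 5) (nat_lit 31) (nat_lit 5) (nat_lit 378) (nat_lit 298) (nat_lit 104)))) (XT.nd (nat_lit 78) (nat_lit 152) (nat_lit 0) (XT.lf (nat_lit 0) (nat_lit 24236495503) (nat_lit 152) (nat_lit 8540681665) (nat_lit 228) (nat_lit 27371719882) (nat_lit 28) (nat_lit 5) (nat_lit 30) (nat_lit 5) (nat_lit 31) (nat_lit 5) (nat_lit 379) (nat_lit 298) (nat_lit 103)) (XT.nd (nat_lit 78) (nat_lit 152) (nat_lit 0) (XT.lf (nat_lit 0) (nat_lit 41018875835) (nat_lit 228) (nat_lit 17217175100) (nat_lit 76) (nat_lit 3346145669) (nat_lit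 28) (nat_lit 5) (nat_lit 31) (nat_lit 5) (nat_lit 29) (nat_lit 5) (nat_lit 380) (nat_lit 298) (nat_lit 102)) (XT.lf (nat_lit 0) (nat_lit 1989663907) (nat_lit 152) (nat_lit 47619677951) (nat_lit 228) (nat_lit 13446110097) (nat_lit 26) (nat_lit 5) (nat_lit 28) (nat_lit 5) (nat_lit 29) (nat_lit 5) (nat_lit 381) (nat_lit 298) (nat_lit 101)))))) (XT.nd (nat_lit 34320) (nat_lit 0) (nat_lit 10412) (XT.nd (nat_lit 234) (nat_lit 152) (nat_lit 0) (XT.nd (nat_lit 78) (nat_lit 76) (nat_lit 0) (XT.lf (nat_lit 0) (nat_lit 22122169157) (nat_lit 152) (nat_lit 36507071569) (nat_lit 228) (nat_lit 5938514911) (nat_lit 26) (nat_lit 5) (nat_lit 28) (nat_lit 5) (nat_lit 29) (nat_lit 5) (nat_lit 382) (nat_lit 298) (nat_lit 100)) (XT.nd (nat_lit 78) (nat_lit 0) (nat_lit 0) (XT.lf (nat_lit 0) (nat_lit 1757193517) (nat_lit 228) (nat_lit 23287443728) (nat_lit 76) (nat_lit 41080338887) (nat_lit 25) (nat_lit 5) (nat_lit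 28) (nat_lit 5) (nat_lit 26) (nat_lit 5) (nat_lit 383) (nat_lit 298) (nat_lit 99)) (XT.lf (nat_lit 0) (nat_lit 9562374931) (nat_lit 228) (nat_lit 3616671225) (nat_lit 76) (nat_lit 54548166417) (nat_lit 25) (nat_lit 5) (nat_lit 28) (nat_lit 5) (nat_lit 26) (nat_lit 5) (nat_lit 384) (nat_lit 298) (nat_lit 98)))) (XT.nd (nat_lit 33930) (nat_lit 0) (nat_lit 10336) (XT.lf (nat_lit 0) (nat_lit 16972192323) (nat_lit 152) (nat_lit 790685978) (nat_lit 228) (nat_lit 51609804796) (nat_lit 23) (nat_lit 5) (nat_lit 25) (nat_lit 5) (nat_lit 26) (nat_lit 5) (nat_lit 385) (nat_lit 298) (nat_lit 97)) (XT.nd (nat_lit 78) (nat_lit 0) (nat_lit 0) (XT.lf (nat_lit 0) (nat_lit 1407498575) (nat_lit 1140) (nat_lit 2614008109) (nat_lit 1140) (nat_lit 2614008109) (nat_lit 159) (nat_lit 3) (nat_lit 174) (nat_lit 3) (nat_lit 174) (nat_lit 5) (nat_lit 299) (nat_lit 299) (nat_lit 182)) (XT.lf (nat_lit 76) (nat_lit 403127003)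 (nat_lit 0) (nat_lit 2808868900) (nat_lit 1140) (nat_lit 10246683907) (nat_lit 160) (nat_lit 5) (nat_lit 159) (nat_lit 3) (nat_lit 174) (nat_lit 5) (nat_lit 300) (nat_lit 299) (nat_lit 181))))) (XT.nd (nat_lit 234) (nat_lit 0) (nat_lit 76) (XT.nd (nat_lit 78) (nat_lit 0) (nat_lit 0) (XT.lf (nat_lit 0) (nat_lit 3685341807) (nat_lit 1064) (nat_lit 7373061882) (nat_lit 1140) (nat_lit 2591652865) (nat_lit 160) (nat_lit 5) (nat_lit 174) (nat_lit 5) (nat_lit 175) (nat_lit 5) (nat_lit 301) (nat_lit 299) (nat_lit 180)) (XT.nd (nat_lit 78) (nat_lit 0) (nat_lit 0) (XT.lf (nat_lit 0) (nat_lit 4187396854) (nat_lit 1064) (nat_lit 1555396623) (nat_lit 1140) (nat_lit 8103975113) (nat_lit 160) (nat_lit 5) (nat_lit 174) (nat_lit 5) (nat_lit 175) (nat_lit 5) (nat_lit 302) (nat_lit 299) (nat_lit 179)) (XT.lf (nat_lit 76) (nat_lit 4517683204) (nat_lit 0) (nat_lit 217342696) (nat_lit 1140) (nat_lit 9313469116) (nat_lit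 161) (nat_lit 5) (nat_lit 160) (nat_lit 5) (nat_lit 175) (nat_lit 5) (nat_lit 303) (nat_lit 299) (nat_lit 178)))) (XT.nd (nat_lit 78) (nat_lit 0) (nat_lit 0) (XT.lf (nat_lit 0) (nat_lit 5355008511) (nat_lit 1064) (nat_lit 3511394363) (nat_lit 1140) (nat_lit 5388220193) (nat_lit 161) (nat_lit 5) (nat_lit 175) (nat_lit 5) (nat_lit 176) (nat_lit 5) (nat_lit 304) (nat_lit 299) (nat_lit 177)) (XT.nd (nat_lit 78) (nat_lit 0) (nat_lit 76) (XT.lf (nat_lit 76) (nat_lit 2732336336) (nat_lit 0) (nat_lit 3277481276) (nat_lit 1140) (nat_lit 8456657307) (nat_lit 162) (nat_lit 5) (nat_lit 161) (nat_lit 5) (nat_lit 176) (nat_lit 5) (nat_lit 305) (nat_lit 299) (nat_lit 176)) (XT.lf (nat_lit 0) (nat_lit 6732049120) (nat_lit 1064) (nat_lit 5480230279) (nat_lit 1140) (nat_lit 2470995572) (nat_lit 162) (nat_lit 5) (nat_lit 176) (nat_lit 5) (nat_lit 177) (nat_lit 5) (nat_lit 306) (nat_lit 299) (nat_lit 175))))))))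
noncomputable def xc205 : XT := (XT.nd (nat_lit 1794) (nat_lit 4104) (nat_lit 0) (XT.nd (nat_lit 858) (nat_lit 2964) (nat_lit 0) (XT.nd (nat_lit 390) (nat_lit 836) (nat_lit 0) (XT.nd (nat_lit 156) (nat_lit 0) (nat_lit 76) (XT.nd (nat_lit 78) (nat_lit 0) (nat_lit 0) (XT.lf (nat_lit 76) (nat_lit 939618138) (nat_lit 0) (nat_lit 6566295581) (nat_lit 1140) (nat_lit 7399791554) (nat_lit 163) (nat_lit 5) (nat_lit 162) (nat_lit 5) (nat_lit 177) (nat_lit 5) (nat_lit 307) (nat_lit 299) (nat_lit 174)) (XT.lf (nat_lit 76) (nat_lit 7656913336) (nat_lit 0) (nat_lit 690167602) (nat_lit 1140) (nat_lit 6786429444) (nat_lit 163) (nat_lit 5) (nat_lit 162) (nat_lit 5) (nat_lit 177) (nat_lit 5) (nat_lit 308) (nat_lit 299) (nat_lit 173))) (XT.nd (nat_lit 78) (nat_lit 0) (nat_lit 0) (XT.lf (nat_lit 0) (nat_lit 9254138337) (nat_lit 1064) (nat_lit 851624024) (nat_lit 1140) (nat_lit 5261191412) (nat_lit 163) (nat_lit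 5) (nat_lit 177) (nat_lit 5) (nat_lit 178) (nat_lit 5) (nat_lit 309) (nat_lit 299) (nat_lit 172)) (XT.nd (nat_lit 78) (nat_lit 0) (nat_lit 76) (XT.lf (nat_lit 76) (nat_lit 6076403779) (nat_lit 0) (nat_lit 4166674307) (nat_lit 1140) (nat_lit 5362705353) (nat_lit 164) (nat_lit 5) (nat_lit 163) (nat_lit 5) (nat_lit 178) (nat_lit 5) (nat_lit 310) (nat_lit 299) (nat_lit 171)) (XT.lf (nat_lit 0) (nat_lit 11278814101) (nat_lit 1064) (nat_lit 2648347301) (nat_lit 1140) (nat_lit 1924125171) (nat_lit 164) (nat_lit 5) (nat_lit 178) (nat_lit 5) (nat_lit 179) (nat_lit 5) (nat_lit 311) (nat_lit 299) (nat_lit 170))))) (XT.nd (nat_lit 234) (nat_lit 988) (nat_lit 0) (XT.nd (nat_lit 78) (nat_lit 0) (nat_lit 0) (XT.lf (nat_lit 76) (nat_lit 4477741809) (nat_lit 0) (nat_lit 7942170548) (nat_lit 1140) (nat_lit 3682035502) (nat_lit 165) (nat_lit 5) (nat_lit 164) (nat_lit 5) (nat_lit 179) (nat_lit 5) (nat_lit 312) (nat_lit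 299) (nat_lit 169)) (XT.nd (nat_lit 78) (nat_lit 0) (nat_lit 76) (XT.lf (nat_lit 76) (nat_lit 11864478726) (nat_lit 0) (nat_lit 1747721223) (nat_lit 1140) (nat_lit 2747441478) (nat_lit 165) (nat_lit 5) (nat_lit 164) (nat_lit 5) (nat_lit 179) (nat_lit 5) (nat_lit 313) (nat_lit 299) (nat_lit 168)) (XT.lf (nat_lit 76) (nat_lit 2851325770) (nat_lit 0) (nat_lit 12051390479) (nat_lit 1140) (nat_lit 1720496265) (nat_lit 166) (nat_lit 5) (nat_lit 165) (nat_lit 5) (nat_lit 180) (nat_lit 5) (nat_lit 314) (nat_lit 299) (nat_lit 167)))) (XT.nd (nat_lit 78) (nat_lit 1064) (nat_lit 0) (XT.lf (nat_lit 76) (nat_lit 10485245838) (nat_lit 0) (nat_lit 5799953816) (nat_lit 1140) (nat_lit 607913451) (nat_lit 166) (nat_lit 5) (nat_lit 165) (nat_lit 5) (nat_lit 180) (nat_lit 5) (nat_lit 315) (nat_lit 299) (nat_lit 166)) (XT.nd (nat_lit 78) (nat_lit 0) (nat_lit 0) (XT.lf (nat_lit 0) (nat_lit 536173651) (nat_lit 1140)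 (nat_lit 15989596265) (nat_lit 76) (nat_lit 644945631) (nat_lit 151) (nat_lit 5) (nat_lit 166) (nat_lit 5) (nat_lit 152) (nat_lit 5) (nat_lit 316) (nat_lit 299) (nat_lit 165)) (XT.lf (nat_lit 0) (nat_lit 1816234008) (nat_lit 1140) (nat_lit 8397330774) (nat_lit 76) (nat_lit 7239502868) (nat_lit 151) (nat_lit 5) (nat_lit 166) (nat_lit 5) (nat_lit 152) (nat_lit 5) (nat_lit 317) (nat_lit 299) (nat_lit 164)))))) (XT.nd (nat_lit 468) (nat_lit 1064) (nat_lit 0) (XT.nd (nat_lit 234) (nat_lit 1064) (nat_lit 0) (XT.nd (nat_lit 78) (nat_lit 836) (nat_lit 0) (XT.lf (nat_lit 0) (nat_lit 3126051764) (nat_lit 1140) (nat_lit 584745332) (nat_lit 76) (nat_lit 14033370251) (nat_lit 151) (nat_lit 5) (nat_lit 166) (nat_lit 5) (nat_lit 152) (nat_lit 5) (nat_lit 318) (nat_lit 299) (nat_lit 163)) (XT.nd (nat_lit 78) (nat_lit 0) (nat_lit 0) (XT.lf (nat_lit 0) (nat_lit 4569307719) (nat_lit 912) (nat_lit 10468169107) (nat_lit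 76) (nat_lit 3003716080) (nat_lit 140) (nat_lit 5) (nat_lit 152) (nat_lit 5) (nat_lit 141) (nat_lit 5) (nat_lit 319) (nat_lit 299) (nat_lit 162)) (XT.lf (nat_lit 0) (nat_lit 6090358307) (nat_lit 912) (nat_lit 2403671944) (nat_lit 76) (nat_lit 9852080754) (nat_lit 140) (nat_lit 5) (nat_lit 152) (nat_lit 5) (nat_lit 141) (nat_lit 5) (nat_lit 320) (nat_lit 299) (nat_lit 161)))) (XT.nd (nat_lit 78) (nat_lit 532) (nat_lit 0) (XT.lf (nat_lit 0) (nat_lit 6012875972) (nat_lit 532) (nat_lit 1693996059) (nat_lit 608) (nat_lit 10951825863) (nat_lit 133) (nat_lit 5) (nat_lit 140) (nat_lit 5) (nat_lit 141) (nat_lit 5) (nat_lit 321) (nat_lit 299) (nat_lit 160)) (XT.nd (nat_lit 78) (nat_lit 532) (nat_lit 0) (XT.lf (nat_lit 0) (nat_lit 9439639090) (nat_lit 608) (nat_lit 4307427097) (nat_lit 76) (nat_lit 5231579189) (nat_lit 133) (nat_lit 5) (nat_lit 141) (nat_lit 5) (nat_lit 134) (nat_lit 5) (nat_lit 322) (nat_lit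 299) (nat_lit 159)) (XT.lf (nat_lit 0) (nat_lit 4341886324) (nat_lit 532) (nat_lit 6933440955) (nat_lit 608) (nat_lit 8031351128) (nat_lit 126) (nat_lit 5) (nat_lit 133) (nat_lit 5) (nat_lit 134) (nat_lit 5) (nat_lit 323) (nat_lit 299) (nat_lit 158))))) (XT.nd (nat_lit 234) (nat_lit 608) (nat_lit 0) (XT.nd (nat_lit 78) (nat_lit 456) (nat_lit 0) (XT.lf (nat_lit 0) (nat_lit 13203410527) (nat_lit 608) (nat_lit 6312870857) (nat_lit 76) (nat_lit 127166131) (nat_lit 126) (nat_lit 5) (nat_lit 134) (nat_lit 5) (nat_lit 127) (nat_lit 5) (nat_lit 324) (nat_lit 299) (nat_lit 157)) (XT.nd (nat_lit 78) (nat_lit 0) (nat_lit 0) (XT.lf (nat_lit 0) (nat_lit 2573026676) (nat_lit 456) (nat_lit 12702491060) (nat_lit 532) (nat_lit 4712230909) (nat_lit 120) (nat_lit 5) (nat_lit 126) (nat_lit 5) (nat_lit 127) (nat_lit 5) (nat_lit 325) (nat_lit 299) (nat_lit 156)) (XT.lf (nat_lit 0) (nat_lit 11847836409) (nat_lit 456)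 (nat_lit 5618641120) (nat_lit 532) (nat_lit 2874214569) (nat_lit 120) (nat_lit 5) (nat_lit 126) (nat_lit 5) (nat_lit 127) (nat_lit 5) (nat_lit 326) (nat_lit 299) (nat_lit 155)))) (XT.nd (nat_lit 78) (nat_lit 76) (nat_lit 0) (XT.lf (nat_lit 0) (nat_lit 686856906) (nat_lit 532) (nat_lit 19052186210) (nat_lit 608) (nat_lit 964717992) (nat_lit 113) (nat_lit 5) (nat_lit 120) (nat_lit 5) (nat_lit 121) (nat_lit 5) (nat_lit 327) (nat_lit 299) (nat_lit 154)) (XT.nd (nat_lit 78) (nat_lit 0) (nat_lit 0) (XT.lf (nat_lit 0) (nat_lit 1117949933) (nat_lit 608) (nat_lit 10832369004) (nat_lit 76) (nat_lit 9123063853) (nat_lit 112) (nat_lit 5) (nat_lit 120) (nat_lit 5) (nat_lit 113) (nat_lit 5) (nat_lit 328) (nat_lit 299) (nat_lit 153)) (XT.lf (nat_lit 0) (nat_lit 3237105982) (nat_lit 608) (nat_lit 1388804818) (nat_lit 76) (nat_lit 16828106247) (nat_lit 112) (nat_lit 5) (nat_lit 120) (nat_lit 5) (nat_lit 113)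 (nat_lit 5) (nat_lit 329) (nat_lit 299) (nat_lit 152))))))) (XT.nd (nat_lit 936) (nat_lit 1596) (nat_lit 0) (XT.nd (nat_lit 468) (nat_lit 1216) (nat_lit 0) (XT.nd (nat_lit 234) (nat_lit 380) (nat_lit 0) (XT.nd (nat_lit 78) (nat_lit 456) (nat_lit 0) (XT.lf (nat_lit 0) (nat_lit 5523963729) (nat_lit 532) (nat_lit 13375558562) (nat_lit 76) (nat_lit 2943436282) (nat_lit 106) (nat_lit 5) (nat_lit 113) (nat_lit 5) (nat_lit 107) (nat_lit 5) (nat_lit 330) (nat_lit 299) (nat_lit 151)) (XT.nd (nat_lit 78) (nat_lit 456) (nat_lit 0) (XT.lf (nat_lit 0) (nat_lit 7933100195) (nat_lit 532) (nat_lit 3648210545) (nat_lit 76) (nat_lit 10660659115) (nat_lit 106) (nat_lit 5) (nat_lit 113) (nat_lit 5) (nat_lit 107) (nat_lit 5) (nat_lit 331) (nat_lit 299) (nat_lit 150)) (XT.lf (nat_lit 0) (nat_lit 6490936849) (nat_lit 456) (nat_lit 3979860831) (nat_lit 532) (nat_lit 12180476548) (nat_lit 100) (nat_lit 5) (nat_lit 106)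 (nat_lit 5) (nat_lit 107) (nat_lit 5) (nat_lit 332) (nat_lit 299) (nat_lit 149)))) (XT.nd (nat_lit 78) (nat_lit 380) (nat_lit 0) (XT.lf (nat_lit 0) (nat_lit 13152836006) (nat_lit 532) (nat_lit 6106880855) (nat_lit 76) (nat_lit 3811105601) (nat_lit 100) (nat_lit 5) (nat_lit 107) (nat_lit 5) (nat_lit 101) (nat_lit 5) (nat_lit 333) (nat_lit 299) (nat_lit 148)) (XT.nd (nat_lit 78) (nat_lit 0) (nat_lit 0) (XT.lf (nat_lit 0) (nat_lit 4285802409) (nat_lit 380) (nat_lit 11704310505) (nat_lit 456) (nat_lit 7510611614) (nat_lit 95) (nat_lit 5) (nat_lit 100) (nat_lit 5) (nat_lit 101) (nat_lit 5) (nat_lit 334) (nat_lit 299) (nat_lit 147)) (XT.lf (nat_lit 0) (nat_lit 15108912152) (nat_lit 380) (nat_lit 3859545416) (nat_lit 456) (nat_lit 4973398001) (nat_lit 95) (nat_lit 5) (nat_lit 100) (nat_lit 5) (nat_lit 101) (nat_lit 5) (nat_lit 335) (nat_lit 299) (nat_lit 146))))) (XT.nd (nat_lit 234) (nat_lit 760) (nat_lit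 0) (XT.nd (nat_lit 78) (nat_lit 76) (nat_lit 0) (XT.lf (nat_lit 0) (nat_lit 1849496750) (nat_lit 380) (nat_lit 20239445734) (nat_lit 456) (nat_lit 2305704452) (nat_lit 90) (nat_lit 5) (nat_lit 95) (nat_lit 5) (nat_lit 96) (nat_lit 5) (nat_lit 336) (nat_lit 299) (nat_lit 145)) (XT.nd (nat_lit 78) (nat_lit 0) (nat_lit 0) (XT.lf (nat_lit 0) (nat_lit 556163375) (nat_lit 456) (nat_lit 11874787929) (nat_lit 76) (nat_lit 12426269718) (nat_lit 89) (nat_lit 5) (nat_lit 95) (nat_lit 5) (nat_lit 90) (nat_lit 5) (nat_lit 337) (nat_lit 299) (nat_lit 144)) (XT.lf (nat_lit 0) (nat_lit 3452182744) (nat_lit 456) (nat_lit 913525252) (nat_lit 76) (nat_lit 20967449571) (nat_lit 89) (nat_lit 5) (nat_lit 95) (nat_lit 5) (nat_lit 90) (nat_lit 5) (nat_lit 338) (nat_lit 299) (nat_lit 143)))) (XT.nd (nat_lit 78) (nat_lit 380) (nat_lit 0) (XT.lf (nat_lit 0) (nat_lit 6570432304) (nat_lit 456) (nat_lit 15282602031) (nat_lit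 76) (nat_lit 3966286353) (nat_lit 84) (nat_lit 5) (nat_lit 90) (nat_lit 5) (nat_lit 85) (nat_lit 5) (nat_lit 339) (nat_lit 299) (nat_lit 142)) (XT.nd (nat_lit 78) (nat_lit 380) (nat_lit 0) (XT.lf (nat_lit 0) (nat_lit 9829647227) (nat_lit 456) (nat_lit 4020199223) (nat_lit 76) (nat_lit 12468808424) (nat_lit 84) (nat_lit 5) (nat_lit 90) (nat_lit 5) (nat_lit 85) (nat_lit 5) (nat_lit 340) (nat_lit 299) (nat_lit 141)) (XT.lf (nat_lit 0) (nat_lit 7724708323) (nat_lit 380) (nat_lit 5531211006) (nat_lit 456) (nat_lit 13574979785) (nat_lit 79) (nat_lit 5) (nat_lit 84) (nat_lit 5) (nat_lit 85) (nat_lit 5) (nat_lit 341) (nat_lit 299) (nat_lit 140)))))) (XT.nd (nat_lit 468) (nat_lit 912) (nat_lit 0) (XT.nd (nat_lit 234) (nat_lit 380) (nat_lit 0) (XT.nd (nat_lit 78) (nat_lit 304) (nat_lit 0) (XT.lf (nat_lit 0) (nat_lit 16850272766) (nat_lit 456) (nat_lit 7488702925) (nat_lit 76) (nat_lit 3017584403) (nat_lit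 79) (nat_lit 5) (nat_lit 85) (nat_lit 5) (nat_lit 80) (nat_lit 5) (nat_lit 342) (nat_lit 299) (nat_lit 139)) (XT.nd (nat_lit 78) (nat_lit 0) (nat_lit 0) (XT.lf (nat_lit 0) (nat_lit 4504435020) (nat_lit 304) (nat_lit 16141330058) (nat_lit 380) (nat_lit 7249434543) (nat_lit 75) (nat_lit 5) (nat_lit 79) (nat_lit 5) (nat_lit 80) (nat_lit 5) (nat_lit 343) (nat_lit 299) (nat_lit 138)) (XT.lf (nat_lit 0) (nat_lit 17004929229) (nat_lit 304) (nat_lit 7621139897) (nat_lit 380) (nat_lit 3821808535) (nat_lit 75) (nat_lit 5) (nat_lit 79) (nat_lit 5) (nat_lit 80) (nat_lit 5) (nat_lit 344) (nat_lit 299) (nat_lit 137)))) (XT.nd (nat_lit 78) (nat_lit 76) (nat_lit 0) (XT.lf (nat_lit 0) (nat_lit 863138472) (nat_lit 304) (nat_lit 27877490095) (nat_lit 380) (nat_lit 276069598) (nat_lit 71) (nat_lit 5) (nat_lit 75) (nat_lit 5) (nat_lit 76) (nat_lit 5) (nat_lit 345) (nat_lit 299) (nat_lit 136)) (XT.nd (nat_lit 78)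 (nat_lit 0) (nat_lit 0) (XT.lf (nat_lit 0) (nat_lit 3497789872) (nat_lit 380) (nat_lit 15941139666) (nat_lit 76) (nat_lit 10157058433) (nat_lit 70) (nat_lit 5) (nat_lit 75) (nat_lit 5) (nat_lit 71) (nat_lit 5) (nat_lit 346) (nat_lit 299) (nat_lit 135)) (XT.lf (nat_lit 0) (nat_lit 7374923050) (nat_lit 380) (nat_lit 3370853849) (nat_lit 76) (nat_lit 19446936245) (nat_lit 70) (nat_lit 5) (nat_lit 75) (nat_lit 5) (nat_lit 71) (nat_lit 5) (nat_lit 347) (nat_lit 299) (nat_lit 134))))) (XT.nd (nat_lit 234) (nat_lit 304) (nat_lit 0) (XT.nd (nat_lit 78) (nat_lit 304) (nat_lit 0) (XT.lf (nat_lit 0) (nat_lit 9761415629) (nat_lit 304) (nat_lit 1696521904) (nat_lit 380) (nat_lit 19346722193) (nat_lit 66) (nat_lit 5) (nat_lit 70) (nat_lit 5) (nat_lit 71) (nat_lit 5) (nat_lit 348) (nat_lit 299) (nat_lit 133)) (XT.nd (nat_lit 78) (nat_lit 304) (nat_lit 0) (XT.lf (nat_lit 0) (nat_lit 15766899522) (nat_lit 380)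 (nat_lit 8156486358) (nat_lit 76) (nat_lit 7508481591) (nat_lit 66) (nat_lit 5) (nat_lit 71) (nat_lit 5) (nat_lit 67) (nat_lit 5) (nat_lit 349) (nat_lit 299) (nat_lit 132)) (XT.lf (nat_lit 0) (nat_lit 5195964364) (nat_lit 304) (nat_lit 15071825051) (nat_lit 380) (nat_lit 11808228552) (nat_lit 62) (nat_lit 5) (nat_lit 66) (nat_lit 5) (nat_lit 67) (nat_lit 5) (nat_lit 350) (nat_lit 299) (nat_lit 131)))) (XT.nd (nat_lit 78) (nat_lit 304) (nat_lit 0) (XT.lf (nat_lit 0) (nat_lit 19110738065) (nat_lit 304) (nat_lit 5871314054) (nat_lit 380) (nat_lit 7755096581) (nat_lit 62) (nat_lit 5) (nat_lit 66) (nat_lit 5) (nat_lit 67) (nat_lit 5) (nat_lit 351) (nat_lit 299) (nat_lit 130)) (XT.nd (nat_lit 78) (nat_lit 304) (nat_lit 0) (XT.lf (nat_lit 0) (nat_lit 29868483483) (nat_lit 380) (nat_lit 15215251) (nat_lit 76) (nat_lit 3533498326) (nat_lit 62) (nat_lit 5) (nat_lit 67) (nat_lit 5) (nat_lit 63) (nat_lit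 5) (nat_lit 352) (nat_lit 299) (nat_lit 129)) (XT.lf (nat_lit 0) (nat_lit 961457477) (nat_lit 304) (nat_lit 19902956304) (nat_lit 76) (nat_lit 13247225855) (nat_lit 58) (nat_lit 5) (nat_lit 62) (nat_lit 5) (nat_lit 59) (nat_lit 5) (nat_lit 353) (nat_lit 299) (nat_lit 128))))))))
noncomputable def xc206 : XT := (XT.nd (nat_lit 1794) (nat_lit 380) (nat_lit 0) (XT.nd (nat_lit 858) (nat_lit 1064) (nat_lit 0) (XT.nd (nat_lit 390) (nat_lit 532) (nat_lit 0) (XT.nd (nat_lit 156) (nat_lit 228) (nat_lit 0) (XT.nd (nat_lit 78) (nat_lit 304) (nat_lit 0) (XT.lf (nat_lit 0) (nat_lit 5531980771) (nat_lit 304) (nat_lit 6007710744) (nat_lit 76) (nat_lit 23286284144) (nat_lit 58) (nat_lit 5) (nat_lit 62) (nat_lit 5) (nat_lit 59) (nat_lit 5) (nat_lit 354) (nat_lit 299) (nat_lit 127)) (XT.lf (nat_lit 0) (nat_lit 8464444232) (nat_lit 304) (nat_lit 1852868685) (nat_lit 380) (nat_lit 25242103318) (nat_lit 54) (nat_lit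 5) (nat_lit 58) (nat_lit 5) (nat_lit 59) (nat_lit 5) (nat_lit 355) (nat_lit 299) (nat_lit 126))) (XT.nd (nat_lit 78) (nat_lit 228) (nat_lit 0) (XT.lf (nat_lit 0) (nat_lit 15381941985) (nat_lit 380) (nat_lit 12902991986) (nat_lit 76) (nat_lit 8025859062) (nat_lit 54) (nat_lit 5) (nat_lit 59) (nat_lit 5) (nat_lit 55) (nat_lit 5) (nat_lit 356) (nat_lit 299) (nat_lit 125)) (XT.nd (nat_lit 78) (nat_lit 0) (nat_lit 0) (XT.lf (nat_lit 0) (nat_lit 1725045508) (nat_lit 228) (nat_lit 18904869489) (nat_lit 304) (nat_lit 16453858953) (nat_lit 51) (nat_lit 5) (nat_lit 54) (nat_lit 5) (nat_lit 55) (nat_lit 5) (nat_lit 357) (nat_lit 299) (nat_lit 124)) (XT.lf (nat_lit 0) (nat_lit 17051453477) (nat_lit 228) (nat_lit 9110701110) (nat_lit 304) (nat_lit 11713989704) (nat_lit 51) (nat_lit 5) (nat_lit 54) (nat_lit 5) (nat_lit 55) (nat_lit 5) (nat_lit 358) (nat_lit 299) (nat_lit 123))))) (XT.nd (nat_lit 234) (nat_lit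 228) (nat_lit 0) (XT.nd (nat_lit 78) (nat_lit 304) (nat_lit 0) (XT.lf (nat_lit 0) (nat_lit 31866375147) (nat_lit 304) (nat_lit 5868942650) (nat_lit 76) (nat_lit 956792212) (nat_lit 51) (nat_lit 5) (nat_lit 55) (nat_lit 5) (nat_lit 52) (nat_lit 5) (nat_lit 359) (nat_lit 299) (nat_lit 122)) (XT.nd (nat_lit 78) (nat_lit 76) (nat_lit 0) (XT.lf (nat_lit 0) (nat_lit 9628384389) (nat_lit 228) (nat_lit 28292814728) (nat_lit 304) (nat_lit 1605975822) (nat_lit 48) (nat_lit 5) (nat_lit 51) (nat_lit 5) (nat_lit 52) (nat_lit 5) (nat_lit 360) (nat_lit 299) (nat_lit 121)) (XT.lf (nat_lit 0) (nat_lit 3753385717) (nat_lit 304) (nat_lit 14716200604) (nat_lit 76) (nat_lit 21914924983) (nat_lit 47) (nat_lit 5) (nat_lit 51) (nat_lit 5) (nat_lit 48) (nat_lit 5) (nat_lit 361) (nat_lit 299) (nat_lit 120)))) (XT.nd (nat_lit 78) (nat_lit 0) (nat_lit 0) (XT.lf (nat_lit 0) (nat_lit 919248211) (nat_lit 228) (nat_lit 8327664686)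 (nat_lit 304) (nat_lit 32020012099) (nat_lit 44) (nat_lit 5) (nat_lit 47) (nat_lit 5) (nat_lit 48) (nat_lit 5) (nat_lit 362) (nat_lit 299) (nat_lit 119)) (XT.nd (nat_lit 78) (nat_lit 0) (nat_lit 0) (XT.lf (nat_lit 0) (nat_lit 15072547224) (nat_lit 304) (nat_lit 24872454358) (nat_lit 76) (nat_lit 2225794514) (nat_lit 44) (nat_lit 5) (nat_lit 48) (nat_lit 5) (nat_lit 45) (nat_lit 5) (nat_lit 363) (nat_lit 299) (nat_lit 118)) (XT.lf (nat_lit 0) (nat_lit 21152354907) (nat_lit 304) (nat_lit 9019984455) (nat_lit 76) (nat_lit 12927065758) (nat_lit 44) (nat_lit 5) (nat_lit 48) (nat_lit 5) (nat_lit 45) (nat_lit 5) (nat_lit 364) (nat_lit 299) (nat_lit 117)))))) (XT.nd (nat_lit 468) (nat_lit 380) (nat_lit 0) (XT.nd (nat_lit 234) (nat_lit 456) (nat_lit 0) (XT.nd (nat_lit 78) (nat_lit 0) (nat_lit 0) (XT.lf (nat_lit 0) (nat_lit 7448991865) (nat_lit 228) (nat_lit 20034210193) (nat_lit 304) (nat_lit 16570614803)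 (nat_lit 41) (nat_lit 5) (nat_lit 44) (nat_lit 5) (nat_lit 45) (nat_lit 5) (nat_lit 365) (nat_lit 299) (nat_lit 116)) (XT.nd (nat_lit 78) (nat_lit 0) (nat_lit 0) (XT.lf (nat_lit 0) (nat_lit 24592557347) (nat_lit 228) (nat_lit 9499586478) (nat_lit 304) (nat_lit 10942075748) (nat_lit 41) (nat_lit 5) (nat_lit 44) (nat_lit 5) (nat_lit 45) (nat_lit 5) (nat_lit 366) (nat_lit 299) (nat_lit 115)) (XT.lf (nat_lit 0) (nat_lit 40909497479) (nat_lit 304) (nat_lit 3810920114) (nat_lit 76) (nat_lit 1323316052) (nat_lit 41) (nat_lit 5) (nat_lit 45) (nat_lit 5) (nat_lit 42) (nat_lit 5) (nat_lit 367) (nat_lit 299) (nat_lit 114)))) (XT.nd (nat_lit 78) (nat_lit 228) (nat_lit 0) (XT.lf (nat_lit 0) (nat_lit 1054385020) (nat_lit 228) (nat_lit 33603646066) (nat_lit 76) (nat_lit 12418568210) (nat_lit 38) (nat_lit 5) (nat_lit 41) (nat_lit 5) (nat_lit 39) (nat_lit 5) (nat_lit 368) (nat_lit 299) (nat_lit 113)) (XT.nd (nat_lit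 78) (nat_lit 228) (nat_lit 0) (XT.lf (nat_lit 0) (nat_lit 7361584878) (nat_lit 228) (nat_lit 16841267508) (nat_lit 76) (nat_lit 23934993401) (nat_lit 38) (nat_lit 5) (nat_lit 41) (nat_lit 5) (nat_lit 39) (nat_lit 5) (nat_lit 369) (nat_lit 299) (nat_lit 112)) (XT.lf (nat_lit 0) (nat_lit 428242909) (nat_lit 228) (nat_lit 13431203731) (nat_lit 304) (nat_lit 35371442842) (nat_lit 35) (nat_lit 5) (nat_lit 38) (nat_lit 5) (nat_lit 39) (nat_lit 5) (nat_lit 370) (nat_lit 299) (nat_lit 111))))) (XT.nd (nat_lit 234) (nat_lit 228) (nat_lit 0) (XT.nd (nat_lit 78) (nat_lit 152) (nat_lit 0) (XT.lf (nat_lit 0) (nat_lit 18557012214) (nat_lit 228) (nat_lit 2162663996) (nat_lit 304) (nat_lit 29632028412) (nat_lit 35) (nat_lit 5) (nat_lit 38) (nat_lit 5) (nat_lit 39) (nat_lit 5) (nat_lit 371) (nat_lit 299) (nat_lit 110)) (XT.nd (nat_lit 78) (nat_lit 152) (nat_lit 0) (XT.lf (nat_lit 0) (nat_lit 27873925059) (nat_lit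 304) (nat_lit 14371284607) (nat_lit 76) (nat_lit 9258291184) (nat_lit 35) (nat_lit 5) (nat_lit 39) (nat_lit 5) (nat_lit 36) (nat_lit 5) (nat_lit 372) (nat_lit 299) (nat_lit 109)) (XT.lf (nat_lit 0) (nat_lit 3620167920) (nat_lit 152) (nat_lit 31676351585) (nat_lit 228) (nat_lit 17391722832) (nat_lit 33) (nat_lit 5) (nat_lit 35) (nat_lit 5) (nat_lit 36) (nat_lit 5) (nat_lit 373) (nat_lit 299) (nat_lit 108)))) (XT.nd (nat_lit 78) (nat_lit 228) (nat_lit 0) (XT.lf (nat_lit 0) (nat_lit 22442111871) (nat_lit 152) (nat_lit 20642343685) (nat_lit 228) (nat_lit 10819793430) (nat_lit 33) (nat_lit 5) (nat_lit 35) (nat_lit 5) (nat_lit 36) (nat_lit 5) (nat_lit 374) (nat_lit 299) (nat_lit 107)) (XT.nd (nat_lit 78) (nat_lit 228) (nat_lit 0) (XT.lf (nat_lit 0) (nat_lit 41824976861) (nat_lit 152) (nat_lit 9278666397) (nat_lit 228) (nat_lit 4053166918) (nat_lit 33) (nat_lit 5) (nat_lit 35) (nat_lit 5) (nat_lit 36)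 (nat_lit 5) (nat_lit 375) (nat_lit 299) (nat_lit 106)) (XT.lf (nat_lit 0) (nat_lit 2933370341) (nat_lit 228) (nat_lit 51052357872) (nat_lit 76) (nat_lit 2458166861) (nat_lit 30) (nat_lit 5) (nat_lit 33) (nat_lit 5) (nat_lit 31) (nat_lit 5) (nat_lit 376) (nat_lit 299) (nat_lit 105))))))) (XT.nd (nat_lit 34944) (nat_lit 0) (nat_lit 10260) (XT.nd (nat_lit 468) (nat_lit 76) (nat_lit 0) (XT.nd (nat_lit 234) (nat_lit 152) (nat_lit 0) (XT.nd (nat_lit 78) (nat_lit 152) (nat_lit 0) (XT.lf (nat_lit 0) (nat_lit 10273543297) (nat_lit 228) (nat_lit 32952687250) (nat_lit 76) (nat_lit 14535395449) (nat_lit 30) (nat_lit 5) (nat_lit 33) (nat_lit 5) (nat_lit 31) (nat_lit 5) (nat_lit 377) (nat_lit 299) (nat_lit 104)) (XT.nd (nat_lit 78) (nat_lit 152) (nat_lit 0) (XT.lf (nat_lit 0) (nat_lit 17831667011) (nat_lit 228) (nat_lit 14313619294) (nat_lit 76) (nat_lit 26973672617) (nat_lit 30) (nat_lit 5) (nat_lit 33) (nat_lit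 5) (nat_lit 31) (nat_lit 5) (nat_lit 378) (nat_lit 299) (nat_lit 103)) (XT.lf (nat_lit 0) (nat_lit 4978276668) (nat_lit 152) (nat_lit 20683923240) (nat_lit 228) (nat_lit 34853444334) (nat_lit 28) (nat_lit 5) (nat_lit 30) (nat_lit 5) (nat_lit 31) (nat_lit 5) (nat_lit 379) (nat_lit 299) (nat_lit 102)))) (XT.nd (nat_lit 78) (nat_lit 152) (nat_lit 0) (XT.lf (nat_lit 0) (nat_lit 25138890730) (nat_lit 152) (nat_lit 8731139333) (nat_lit 228) (nat_lit 28079930923) (nat_lit 28) (nat_lit 5) (nat_lit 30) (nat_lit 5) (nat_lit 31) (nat_lit 5) (nat_lit 380) (nat_lit 299) (nat_lit 101)) (XT.nd (nat_lit 78) (nat_lit 152) (nat_lit 0) (XT.lf (nat_lit 0) (nat_lit 42356403016) (nat_lit 228) (nat_lit 17560805709) (nat_lit 76) (nat_lit 3509131507) (nat_lit 28) (nat_lit 5) (nat_lit 31) (nat_lit 5) (nat_lit 29) (nat_lit 5) (nat_lit 381) (nat_lit 299) (nat_lit 100)) (XT.lf (nat_lit 0) (nat_lit 2220543522) (nat_lit 152)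 (nat_lit 48982569712) (nat_lit 228) (nat_lit 13740727408) (nat_lit 26) (nat_lit 5) (nat_lit 28) (nat_lit 5) (nat_lit 29) (nat_lit 5) (nat_lit 382) (nat_lit 299) (nat_lit 99))))) (XT.nd (nat_lit 34242) (nat_lit 0) (nat_lit 10184) (XT.nd (nat_lit 78) (nat_lit 76) (nat_lit 0) (XT.lf (nat_lit 0) (nat_lit 22952037821) (nat_lit 152) (nat_lit 37538498690) (nat_lit 228) (nat_lit 6011072308) (nat_lit 26) (nat_lit 5) (nat_lit 28) (nat_lit 5) (nat_lit 29) (nat_lit 5) (nat_lit 383) (nat_lit 299) (nat_lit 98)) (XT.nd (nat_lit 34086) (nat_lit 0) (nat_lit 10184) (XT.lf (nat_lit 0) (nat_lit 1910431121) (nat_lit 228) (nat_lit 23822602958) (nat_lit 76) (nat_lit 42372574890) (nat_lit 25) (nat_lit 5) (nat_lit 28) (nat_lit 5) (nat_lit 26) (nat_lit 5) (nat_lit 384) (nat_lit 299) (nat_lit 97)) (XT.lf (nat_lit 0) (nat_lit 1797249172) (nat_lit 1140) (nat_lit 2513070355) (nat_lit 1140) (nat_lit 2513070355) (nat_lit 159)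 (nat_lit 3) (nat_lit 174) (nat_lit 3) (nat_lit 174) (nat_lit 5) (nat_lit 300) (nat_lit 300) (nat_lit 180)))) (XT.nd (nat_lit 78) (nat_lit 0) (nat_lit 76) (XT.lf (nat_lit 76) (nat_lit 770419983) (nat_lit 0) (nat_lit 3216157256) (nat_lit 1140) (nat_lit 9854031690) (nat_lit 160) (nat_lit 5) (nat_lit 159) (nat_lit 3) (nat_lit 174) (nat_lit 5) (nat_lit 301) (nat_lit 300) (nat_lit 179)) (XT.nd (nat_lit 78) (nat_lit 0) (nat_lit 0) (XT.lf (nat_lit 0) (nat_lit 4451354850) (nat_lit 1064) (nat_lit 7225190116) (nat_lit 1140) (nat_lit 2361908314) (nat_lit 160) (nat_lit 5) (nat_lit 174) (nat_lit 5) (nat_lit 175) (nat_lit 5) (nat_lit 302) (nat_lit 300) (nat_lit 178)) (XT.lf (nat_lit 0) (nat_lit 4949380690) (nat_lit 1064) (nat_lit 1243744325) (nat_lit 1140) (nat_lit 8048556369) (nat_lit 160) (nat_lit 5) (nat_lit 174) (nat_lit 5) (nat_lit 175) (nat_lit 5) (nat_lit 303) (nat_lit 300) (nat_lit 177)))))) (XT.nd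 (nat_lit 468) (nat_lit 0) (nat_lit 228) (XT.nd (nat_lit 234) (nat_lit 0) (nat_lit 152) (XT.nd (nat_lit 78) (nat_lit 0) (nat_lit 76) (XT.lf (nat_lit 76) (nat_lit 5008015013) (nat_lit 0) (nat_lit 490299349) (nat_lit 1140) (nat_lit 8951639728) (nat_lit 161) (nat_lit 5) (nat_lit 160) (nat_lit 5) (nat_lit 175) (nat_lit 5) (nat_lit 304) (nat_lit 300) (nat_lit 176)) (XT.nd (nat_lit 78) (nat_lit 0) (nat_lit 0) (XT.lf (nat_lit 0) (nat_lit 6116315596) (nat_lit 1064) (nat_lit 3250368971) (nat_lit 1140) (nat_lit 5296238413) (nat_lit 161) (nat_lit 5) (nat_lit 175) (nat_lit 5) (nat_lit 176) (nat_lit 5) (nat_lit 305) (nat_lit 300) (nat_lit 175)) (XT.lf (nat_lit 76) (nat_lit 3177081813) (nat_lit 0) (nat_lit 3599679516) (nat_lit 1140) (nat_lit 8104827706) (nat_lit 162) (nat_lit 5) (nat_lit 161) (nat_lit 5) (nat_lit 176) (nat_lit 5) (nat_lit 306) (nat_lit 300) (nat_lit 174)))) (XT.nd (nat_lit 78) (nat_lit 0) (nat_lit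 0) (XT.lf (nat_lit 0) (nat_lit 7501483582) (nat_lit 1064) (nat_lit 5272008518) (nat_lit 1140) (nat_lit 2332013576) (nat_lit 162) (nat_lit 5) (nat_lit 176) (nat_lit 5) (nat_lit 177) (nat_lit 5) (nat_lit 307) (nat_lit 300) (nat_lit 173)) (XT.nd (nat_lit 78) (nat_lit 0) (nat_lit 0) (XT.lf (nat_lit 76) (nat_lit 1336782129) (nat_lit 0) (nat_lit 6948800468) (nat_lit 1140) (nat_lit 7049451950) (nat_lit 163) (nat_lit 5) (nat_lit 162) (nat_lit 5) (nat_lit 177) (nat_lit 5) (nat_lit 308) (nat_lit 300) (nat_lit 172)) (XT.lf (nat_lit 76) (nat_lit 8244849326) (nat_lit 0) (nat_lit 890985270) (nat_lit 1140) (nat_lit 6434358880) (nat_lit 163) (nat_lit 5) (nat_lit 162) (nat_lit 5) (nat_lit 177) (nat_lit 5) (nat_lit 309) (nat_lit 300) (nat_lit 171))))) (XT.nd (nat_lit 234) (nat_lit 0) (nat_lit 76) (XT.nd (nat_lit 78) (nat_lit 0) (nat_lit 0) (XT.lf (nat_lit 0) (nat_lit 10052742950) (nat_lit 1064) (nat_lit 510879386)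 (nat_lit 1140) (nat_lit 5247572792) (nat_lit 163) (nat_lit 5) (nat_lit 177) (nat_lit 5) (nat_lit 178) (nat_lit 5) (nat_lit 310) (nat_lit 300) (nat_lit 170)) (XT.nd (nat_lit 78) (nat_lit 0) (nat_lit 76) (XT.lf (nat_lit 76) (nat_lit 6621398140) (nat_lit 0) (nat_lit 4438265079) (nat_lit 1140) (nat_lit 4997910235) (nat_lit 164) (nat_lit 5) (nat_lit 163) (nat_lit 5) (nat_lit 178) (nat_lit 5) (nat_lit 311) (nat_lit 300) (nat_lit 169)) (XT.lf (nat_lit 0) (nat_lit 12110269468) (nat_lit 1064) (nat_lit 2358385240) (nat_lit 1140) (nat_lit 1842305204) (nat_lit 164) (nat_lit 5) (nat_lit 178) (nat_lit 5) (nat_lit 179) (nat_lit 5) (nat_lit 312) (nat_lit 300) (nat_lit 168)))) (XT.nd (nat_lit 78) (nat_lit 0) (nat_lit 0) (XT.lf (nat_lit 76) (nat_lit 4977864852) (nat_lit 0) (nat_lit 8296890153) (nat_lit 1140) (nat_lit 3294742643) (nat_lit 165) (nat_lit 5) (nat_lit 164) (nat_lit 5) (nat_lit 179) (nat_lit 5) (nat_lit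 313) (nat_lit 300) (nat_lit 167)) (XT.nd (nat_lit 78) (nat_lit 0) (nat_lit 76) (XT.lf (nat_lit 76) (nat_lit 12575549775) (nat_lit 0) (nat_lit 1913215470) (nat_lit 1140) (nat_lit 2346608485) (nat_lit 165) (nat_lit 5) (nat_lit 164) (nat_lit 5) (nat_lit 179) (nat_lit 5) (nat_lit 314) (nat_lit 300) (nat_lit 166)) (XT.lf (nat_lit 76) (nat_lit 3304505993) (nat_lit 0) (nat_lit 12502332982) (nat_lit 1140) (nat_lit 1300377163) (nat_lit 166) (nat_lit 5) (nat_lit 165) (nat_lit 5) (nat_lit 180) (nat_lit 5) (nat_lit 315) (nat_lit 300) (nat_lit 165))))))))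
noncomputable def xc207 : XT := (XT.nd (nat_lit 1794) (nat_lit 3192) (nat_lit 0) (XT.nd (nat_lit 858) (nat_lit 2356) (nat_lit 0) (XT.nd (nat_lit 390) (nat_lit 1520) (nat_lit 0) (XT.nd (nat_lit 156) (nat_lit 836) (nat_lit 0) (XT.nd (nat_lit 78) (nat_lit 1064) (nat_lit 0) (XT.lf (nat_lit 76) (nat_lit 11156735689) (nat_lit 0) (nat_lit 6060749312) (nat_lit 1140) (nat_lit 168156689) (nat_lit 166) (nat_lit 5) (nat_lit 165) (nat_lit 5) (nat_lit 180) (nat_lit 5) (nat_lit 316) (nat_lit 300) (nat_lit 164)) (XT.lf (nat_lit 0) (nat_lit 990994711) (nat_lit 1140) (nat_lit 16091269964) (nat_lit 76) (nat_lit 589512038) (nat_lit 151) (nat_lit 5) (nat_lit 166) (nat_lit 5) (nat_lit 152) (nat_lit 5) (nat_lit 317) (nat_lit 300) (nat_lit 163))) (XT.nd (nat_lit 78) (nat_lit 836) (nat_lit 0) (XT.lf (nat_lit 0) (nat_lit 2296678165) (nat_lit 1140) (nat_lit 8282246631) (nat_lit 76) (nat_lit 7384084107) (nat_lit 151) (nat_lit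 5) (nat_lit 166) (nat_lit 5) (nat_lit 152) (nat_lit 5) (nat_lit 318) (nat_lit 300) (nat_lit 162)) (XT.nd (nat_lit 78) (nat_lit 836) (nat_lit 0) (XT.lf (nat_lit 0) (nat_lit 3633383934) (nat_lit 1140) (nat_lit 245973064) (nat_lit 76) (nat_lit 14383882186) (nat_lit 151) (nat_lit 5) (nat_lit 166) (nat_lit 5) (nat_lit 152) (nat_lit 5) (nat_lit 319) (nat_lit 300) (nat_lit 161)) (XT.lf (nat_lit 0) (nat_lit 5110783356) (nat_lit 912) (nat_lit 10415923336) (nat_lit 76) (nat_lit 3042768104) (nat_lit 140) (nat_lit 5) (nat_lit 152) (nat_lit 5) (nat_lit 141) (nat_lit 5) (nat_lit 320) (nat_lit 300) (nat_lit 160))))) (XT.nd (nat_lit 234) (nat_lit 988) (nat_lit 0) (XT.nd (nat_lit 78) (nat_lit 532) (nat_lit 0) (XT.lf (nat_lit 0) (nat_lit 6665686925) (nat_lit 912) (nat_lit 2120159924) (nat_lit 76) (nat_lit 10098070887) (nat_lit 140) (nat_lit 5) (nat_lit 152) (nat_lit 5) (nat_lit 141) (nat_lit 5) (nat_lit 321) (nat_lit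 300) (nat_lit 159)) (XT.nd (nat_lit 78) (nat_lit 0) (nat_lit 0) (XT.lf (nat_lit 0) (nat_lit 6545397937) (nat_lit 532) (nat_lit 1777247596) (nat_lit 608) (nat_lit 10883501460) (nat_lit 133) (nat_lit 5) (nat_lit 140) (nat_lit 5) (nat_lit 141) (nat_lit 5) (nat_lit 322) (nat_lit 300) (nat_lit 158)) (XT.lf (nat_lit 0) (nat_lit 10095891941) (nat_lit 608) (nat_lit 4082514690) (nat_lit 76) (nat_lit 5357653947) (nat_lit 133) (nat_lit 5) (nat_lit 141) (nat_lit 5) (nat_lit 134) (nat_lit 5) (nat_lit 323) (nat_lit 300) (nat_lit 157)))) (XT.nd (nat_lit 78) (nat_lit 456) (nat_lit 0) (XT.lf (nat_lit 0) (nat_lit 4822806219) (nat_lit 532) (nat_lit 7156349414) (nat_lit 608) (nat_lit 7895025730) (nat_lit 126) (nat_lit 5) (nat_lit 133) (nat_lit 5) (nat_lit 134) (nat_lit 5) (nat_lit 324) (nat_lit 300) (nat_lit 156)) (XT.nd (nat_lit 78) (nat_lit 456) (nat_lit 0) (XT.lf (nat_lit 0) (nat_lit 13954294647) (nat_lit 608)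 (nat_lit 6150311372) (nat_lit 76) (nat_lit 116792401) (nat_lit 126) (nat_lit 5) (nat_lit 134) (nat_lit 5) (nat_lit 127) (nat_lit 5) (nat_lit 325) (nat_lit 300) (nat_lit 155)) (XT.lf (nat_lit 0) (nat_lit 2998712641) (nat_lit 456) (nat_lit 13082868929) (nat_lit 532) (nat_lit 4494677170) (nat_lit 120) (nat_lit 5) (nat_lit 126) (nat_lit 5) (nat_lit 127) (nat_lit 5) (nat_lit 326) (nat_lit 300) (nat_lit 154)))))) (XT.nd (nat_lit 468) (nat_lit 1292) (nat_lit 0) (XT.nd (nat_lit 234) (nat_lit 456) (nat_lit 0) (XT.nd (nat_lit 78) (nat_lit 608) (nat_lit 0) (XT.lf (nat_lit 0) (nat_lit 12541616321) (nat_lit 456) (nat_lit 5786523788) (nat_lit 532) (nat_lit 2611974340) (nat_lit 120) (nat_lit 5) (nat_lit 126) (nat_lit 5) (nat_lit 127) (nat_lit 5) (nat_lit 327) (nat_lit 300) (nat_lit 153)) (XT.nd (nat_lit 78) (nat_lit 76) (nat_lit 0) (XT.lf (nat_lit 0) (nat_lit 1053176431) (nat_lit 532) (nat_lit 19609200761)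 (nat_lit 608) (nat_lit 651912968) (nat_lit 113) (nat_lit 5) (nat_lit 120) (nat_lit 5) (nat_lit 121) (nat_lit 5) (nat_lit 328) (nat_lit 300) (nat_lit 152)) (XT.lf (nat_lit 0) (nat_lit 1476806740) (nat_lit 608) (nat_lit 10814609470) (nat_lit 76) (nat_lit 9403796868) (nat_lit 112) (nat_lit 5) (nat_lit 120) (nat_lit 5) (nat_lit 113) (nat_lit 5) (nat_lit 329) (nat_lit 300) (nat_lit 151)))) (XT.nd (nat_lit 78) (nat_lit 456) (nat_lit 0) (XT.lf (nat_lit 0) (nat_lit 3650062180) (nat_lit 608) (nat_lit 1097720803) (nat_lit 76) (nat_lit 17339785453) (nat_lit 112) (nat_lit 5) (nat_lit 120) (nat_lit 5) (nat_lit 113) (nat_lit 5) (nat_lit 330) (nat_lit 300) (nat_lit 150)) (XT.nd (nat_lit 78) (nat_lit 0) (nat_lit 0) (XT.lf (nat_lit 0) (nat_lit 5999682696) (nat_lit 532) (nat_lit 13437657660) (nat_lit 76) (nat_lit 3051030436) (nat_lit 106) (nat_lit 5) (nat_lit 113) (nat_lit 5) (nat_lit 107) (nat_lit 5) (nat_lit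 331) (nat_lit 300) (nat_lit 149)) (XT.lf (nat_lit 0) (nat_lit 8472064128) (nat_lit 532) (nat_lit 3428367872) (nat_lit 76) (nat_lit 10999208079) (nat_lit 106) (nat_lit 5) (nat_lit 113) (nat_lit 5) (nat_lit 107) (nat_lit 5) (nat_lit 332) (nat_lit 300) (nat_lit 148))))) (XT.nd (nat_lit 234) (nat_lit 456) (nat_lit 0) (XT.nd (nat_lit 78) (nat_lit 380) (nat_lit 0) (XT.lf (nat_lit 0) (nat_lit 7011725621) (nat_lit 456) (nat_lit 4068535068) (nat_lit 532) (nat_lit 12241148152) (nat_lit 100) (nat_lit 5) (nat_lit 106) (nat_lit 5) (nat_lit 107) (nat_lit 5) (nat_lit 333) (nat_lit 300) (nat_lit 147)) (XT.nd (nat_lit 78) (nat_lit 380) (nat_lit 0) (XT.lf (nat_lit 0) (nat_lit 13834444769) (nat_lit 532) (nat_lit 5964680519) (nat_lit 76) (nat_lit 3954683525) (nat_lit 100) (nat_lit 5) (nat_lit 107) (nat_lit 5) (nat_lit 101) (nat_lit 5) (nat_lit 334) (nat_lit 300) (nat_lit 146)) (XT.lf (nat_lit 0) (nat_lit 4736592981)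 (nat_lit 380) (nat_lit 12014984433) (nat_lit 456) (nat_lit 7445203772) (nat_lit 95) (nat_lit 5) (nat_lit 100) (nat_lit 5) (nat_lit 101) (nat_lit 5) (nat_lit 335) (nat_lit 300) (nat_lit 145)))) (XT.nd (nat_lit 78) (nat_lit 456) (nat_lit 0) (XT.lf (nat_lit 0) (nat_lit 15875011069) (nat_lit 380) (nat_lit 3936054702) (nat_lit 456) (nat_lit 4840341504) (nat_lit 95) (nat_lit 5) (nat_lit 100) (nat_lit 5) (nat_lit 101) (nat_lit 5) (nat_lit 336) (nat_lit 300) (nat_lit 144)) (XT.nd (nat_lit 78) (nat_lit 76) (nat_lit 0) (XT.lf (nat_lit 0) (nat_lit 2222991003) (nat_lit 380) (nat_lit 20797630085) (nat_lit 456) (nat_lit 2097312106) (nat_lit 90) (nat_lit 5) (nat_lit 95) (nat_lit 5) (nat_lit 96) (nat_lit 5) (nat_lit 337) (nat_lit 300) (nat_lit 143)) (XT.lf (nat_lit 0) (nat_lit 837068875) (nat_lit 456) (nat_lit 11916570994) (nat_lit 76) (nat_lit 12840916042) (nat_lit 89) (nat_lit 5) (nat_lit 95) (nat_lit 5) (nat_lit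 90) (nat_lit 5) (nat_lit 338) (nat_lit 300) (nat_lit 142))))))) (XT.nd (nat_lit 936) (nat_lit 1444) (nat_lit 0) (XT.nd (nat_lit 468) (nat_lit 684) (nat_lit 0) (XT.nd (nat_lit 234) (nat_lit 684) (nat_lit 0) (XT.nd (nat_lit 78) (nat_lit 380) (nat_lit 0) (XT.lf (nat_lit 0) (nat_lit 3812273080) (nat_lit 456) (nat_lit 635629482) (nat_lit 76) (nat_lit 21637112119) (nat_lit 89) (nat_lit 5) (nat_lit 95) (nat_lit 5) (nat_lit 90) (nat_lit 5) (nat_lit 339) (nat_lit 300) (nat_lit 141)) (XT.nd (nat_lit 78) (nat_lit 0) (nat_lit 0) (XT.lf (nat_lit 0) (nat_lit 7019988489) (nat_lit 456) (nat_lit 15431267929) (nat_lit 76) (nat_lit 4134641597) (nat_lit 84) (nat_lit 5) (nat_lit 90) (nat_lit 5) (nat_lit 85) (nat_lit 5) (nat_lit 340) (nat_lit 300) (nat_lit 140)) (XT.lf (nat_lit 0) (nat_lit 10369627144) (nat_lit 456) (nat_lit 3840016692) (nat_lit 76) (nat_lit 12890801467) (nat_lit 84) (nat_lit 5) (nat_lit 90) (nat_lit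 5) (nat_lit 85) (nat_lit 5) (nat_lit 341) (nat_lit 300) (nat_lit 139)))) (XT.nd (nat_lit 78) (nat_lit 304) (nat_lit 0) (XT.lf (nat_lit 0) (nat_lit 8254289173) (nat_lit 380) (nat_lit 5640122695) (nat_lit 456) (nat_lit 13733785400) (nat_lit 79) (nat_lit 5) (nat_lit 84) (nat_lit 5) (nat_lit 85) (nat_lit 5) (nat_lit 342) (nat_lit 300) (nat_lit 138)) (XT.nd (nat_lit 78) (nat_lit 304) (nat_lit 0) (XT.lf (nat_lit 0) (nat_lit 17590114070) (nat_lit 456) (nat_lit 7417324920) (nat_lit 76) (nat_lit 3162395319) (nat_lit 79) (nat_lit 5) (nat_lit 85) (nat_lit 5) (nat_lit 80) (nat_lit 5) (nat_lit 343) (nat_lit 300) (nat_lit 137)) (XT.lf (nat_lit 0) (nat_lit 4932704819) (nat_lit 304) (nat_lit 16562758906) (nat_lit 380) (nat_lit 7229300956) (nat_lit 75) (nat_lit 5) (nat_lit 79) (nat_lit 5) (nat_lit 80) (nat_lit 5) (nat_lit 344) (nat_lit 300) (nat_lit 136))))) (XT.nd (nat_lit 234) (nat_lit 304) (nat_lit 0) (XT.nd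 (nat_lit 78) (nat_lit 380) (nat_lit 0) (XT.lf (nat_lit 0) (nat_lit 17799675891) (nat_lit 304) (nat_lit 7788792488) (nat_lit 380) (nat_lit 3705767040) (nat_lit 75) (nat_lit 5) (nat_lit 79) (nat_lit 5) (nat_lit 80) (nat_lit 5) (nat_lit 345) (nat_lit 300) (nat_lit 135)) (XT.nd (nat_lit 78) (nat_lit 76) (nat_lit 0) (XT.lf (nat_lit 0) (nat_lit 1177269956) (nat_lit 304) (nat_lit 28646021357) (nat_lit 380) (nat_lit 56935201) (nat_lit 71) (nat_lit 5) (nat_lit 75) (nat_lit 5) (nat_lit 76) (nat_lit 5) (nat_lit 346) (nat_lit 300) (nat_lit 134)) (XT.lf (nat_lit 0) (nat_lit 3819207811) (nat_lit 380) (nat_lit 16134884673) (nat_lit 76) (nat_lit 10522941945) (nat_lit 70) (nat_lit 5) (nat_lit 75) (nat_lit 5) (nat_lit 71) (nat_lit 5) (nat_lit 347) (nat_lit 300) (nat_lit 133)))) (XT.nd (nat_lit 78) (nat_lit 304) (nat_lit 0) (XT.lf (nat_lit 0) (nat_lit 7806349618) (nat_lit 380) (nat_lit 3195776374) (nat_lit 76)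 (nat_lit 20089734389) (nat_lit 70) (nat_lit 5) (nat_lit 75) (nat_lit 5) (nat_lit 71) (nat_lit 5) (nat_lit 348) (nat_lit 300) (nat_lit 132)) (XT.nd (nat_lit 78) (nat_lit 0) (nat_lit 0) (XT.lf (nat_lit 0) (nat_lit 10327753315) (nat_lit 304) (nat_lit 1680608509) (nat_lit 380) (nat_lit 19713917895) (nat_lit 66) (nat_lit 5) (nat_lit 70) (nat_lit 5) (nat_lit 71) (nat_lit 5) (nat_lit 349) (nat_lit 300) (nat_lit 131)) (XT.lf (nat_lit 0) (nat_lit 16441196192) (nat_lit 380) (nat_lit 8129945214) (nat_lit 76) (nat_lit 7797333482) (nat_lit 66) (nat_lit 5) (nat_lit 71) (nat_lit 5) (nat_lit 67) (nat_lit 5) (nat_lit 350) (nat_lit 300) (nat_lit 130)))))) (XT.nd (nat_lit 468) (nat_lit 532) (nat_lit 0) (XT.nd (nat_lit 234) (nat_lit 380) (nat_lit 0) (XT.nd (nat_lit 78) (nat_lit 228) (nat_lit 0) (XT.lf (nat_lit 0) (nat_lit 5620419856) (nat_lit 304) (nat_lit 15453411841) (nat_lit 380) (nat_lit 11958225660) (nat_lit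 62) (nat_lit 5) (nat_lit 66) (nat_lit 5) (nat_lit 67) (nat_lit 5) (nat_lit 351) (nat_lit 300) (nat_lit 129)) (XT.nd (nat_lit 78) (nat_lit 228) (nat_lit 0) (XT.lf (nat_lit 0) (nat_lit 19944814150) (nat_lit 304) (nat_lit 5978940892) (nat_lit 380) (nat_lit 7789448752) (nat_lit 62) (nat_lit 5) (nat_lit 66) (nat_lit 5) (nat_lit 67) (nat_lit 5) (nat_lit 352) (nat_lit 300) (nat_lit 128)) (XT.lf (nat_lit 0) (nat_lit 247561757) (nat_lit 228) (nat_lit 30706637444) (nat_lit 304) (nat_lit 3459540317) (nat_lit 59) (nat_lit 5) (nat_lit 62) (nat_lit 5) (nat_lit 63) (nat_lit 5) (nat_lit 353) (nat_lit 300) (nat_lit 127)))) (XT.nd (nat_lit 78) (nat_lit 304) (nat_lit 0) (XT.lf (nat_lit 0) (nat_lit 1176682072) (nat_lit 304) (nat_lit 20240199025) (nat_lit 76) (nat_lit 13712248965) (nat_lit 58) (nat_lit 5) (nat_lit 62) (nat_lit 5) (nat_lit 59) (nat_lit 5) (nat_lit 354) (nat_lit 300) (nat_lit 126)) (XT.nd (nat_lit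 78) (nat_lit 304) (nat_lit 0) (XT.lf (nat_lit 0) (nat_lit 5878892496) (nat_lit 304) (nat_lit 5935664427) (nat_lit 76) (nat_lit 24050509887) (nat_lit 58) (nat_lit 5) (nat_lit 62) (nat_lit 5) (nat_lit 59) (nat_lit 5) (nat_lit 355) (nat_lit 300) (nat_lit 125)) (XT.lf (nat_lit 0) (nat_lit 8968181888) (nat_lit 304) (nat_lit 1836733535) (nat_lit 380) (nat_lit 25815688815) (nat_lit 54) (nat_lit 5) (nat_lit 58) (nat_lit 5) (nat_lit 59) (nat_lit 5) (nat_lit 356) (nat_lit 300) (nat_lit 124))))) (XT.nd (nat_lit 234) (nat_lit 304) (nat_lit 0) (XT.nd (nat_lit 78) (nat_lit 228) (nat_lit 0) (XT.lf (nat_lit 0) (nat_lit 16016965824) (nat_lit 380) (nat_lit 13042791081) (nat_lit 76) (nat_lit 8334908301) (nat_lit 54) (nat_lit 5) (nat_lit 59) (nat_lit 5) (nat_lit 55) (nat_lit 5) (nat_lit 357) (nat_lit 300) (nat_lit 123)) (XT.nd (nat_lit 78) (nat_lit 0) (nat_lit 0) (XT.lf (nat_lit 0) (nat_lit 2021663120) (nat_lit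 228) (nat_lit 19398013401) (nat_lit 304) (nat_lit 16771247198) (nat_lit 51) (nat_lit 5) (nat_lit 54) (nat_lit 5) (nat_lit 55) (nat_lit 5) (nat_lit 358) (nat_lit 300) (nat_lit 122)) (XT.lf (nat_lit 0) (nat_lit 17800731301) (nat_lit 228) (nat_lit 9312175375) (nat_lit 304) (nat_lit 11894314712) (nat_lit 51) (nat_lit 5) (nat_lit 54) (nat_lit 5) (nat_lit 55) (nat_lit 5) (nat_lit 359) (nat_lit 300) (nat_lit 121)))) (XT.nd (nat_lit 78) (nat_lit 304) (nat_lit 0) (XT.lf (nat_lit 0) (nat_lit 32984092699) (nat_lit 304) (nat_lit 5809815963) (nat_lit 76) (nat_lit 1053888968) (nat_lit 51) (nat_lit 5) (nat_lit 55) (nat_lit 5) (nat_lit 52) (nat_lit 5) (nat_lit 360) (nat_lit 300) (nat_lit 120)) (XT.nd (nat_lit 78) (nat_lit 76) (nat_lit 0) (XT.lf (nat_lit 0) (nat_lit 10150125054) (nat_lit 228) (nat_lit 29067964532) (nat_lit 304) (nat_lit 1489905597) (nat_lit 48) (nat_lit 5) (nat_lit 51) (nat_lit 5) (nat_lit 52)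 (nat_lit 5) (nat_lit 361) (nat_lit 300) (nat_lit 119)) (XT.lf (nat_lit 0) (nat_lit 4022341076) (nat_lit 304) (nat_lit 14928264028) (nat_lit 76) (nat_lit 22640546034) (nat_lit 47) (nat_lit 5) (nat_lit 51) (nat_lit 5) (nat_lit 48) (nat_lit 5) (nat_lit 362) (nat_lit 300) (nat_lit 118))))))))
noncomputable def xc208 : XT := (XT.nd (nat_lit 35880) (nat_lit 0) (nat_lit 8132) (XT.nd (nat_lit 858) (nat_lit 684) (nat_lit 0) (XT.nd (nat_lit 390) (nat_lit 456) (nat_lit 0) (XT.nd (nat_lit 156) (nat_lit 228) (nat_lit 0) (XT.nd (nat_lit 78) (nat_lit 0) (nat_lit 0) (XT.lf (nat_lit 0) (nat_lit 1173999010) (nat_lit 228) (nat_lit 8504304797) (nat_lit 304) (nat_lit 32821810510) (nat_lit 44) (nat_lit 5) (nat_lit 47) (nat_lit 5) (nat_lit 48) (nat_lit 5) (nat_lit 363) (nat_lit 300) (nat_lit 117)) (XT.lf (nat_lit 0) (nat_lit 15674905260) (nat_lit 304) (nat_lit 25394076303) (nat_lit 76) (nat_lit 2362239838) (nat_lit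 44) (nat_lit 5) (nat_lit 48) (nat_lit 5) (nat_lit 45) (nat_lit 5) (nat_lit 364) (nat_lit 300) (nat_lit 116))) (XT.nd (nat_lit 78) (nat_lit 228) (nat_lit 0) (XT.lf (nat_lit 0) (nat_lit 21932732952) (nat_lit 304) (nat_lit 9072572642) (nat_lit 76) (nat_lit 13382519952) (nat_lit 44) (nat_lit 5) (nat_lit 48) (nat_lit 5) (nat_lit 45) (nat_lit 5) (nat_lit 365) (nat_lit 300) (nat_lit 115)) (XT.nd (nat_lit 78) (nat_lit 0) (nat_lit 0) (XT.lf (nat_lit 0) (nat_lit 7888335600) (nat_lit 228) (nat_lit 20562998212) (nat_lit 304) (nat_lit 16919606440) (nat_lit 41) (nat_lit 5) (nat_lit 44) (nat_lit 5) (nat_lit 45) (nat_lit 5) (nat_lit 366) (nat_lit 300) (nat_lit 114)) (XT.lf (nat_lit 0) (nat_lit 25539920456) (nat_lit 228) (nat_lit 9714439814) (nat_lit 304) (nat_lit 11126525586) (nat_lit 41) (nat_lit 5) (nat_lit 44) (nat_lit 5) (nat_lit 45) (nat_lit 5) (nat_lit 367) (nat_lit 300) (nat_lit 113))))) (XT.nd (nat_lit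 234) (nat_lit 228) (nat_lit 0) (XT.nd (nat_lit 78) (nat_lit 228) (nat_lit 0) (XT.lf (nat_lit 0) (nat_lit 42272827357) (nat_lit 304) (nat_lit 3718187018) (nat_lit 76) (nat_lit 1429778337) (nat_lit 41) (nat_lit 5) (nat_lit 45) (nat_lit 5) (nat_lit 42) (nat_lit 5) (nat_lit 368) (nat_lit 300) (nat_lit 112)) (XT.nd (nat_lit 78) (nat_lit 0) (nat_lit 0) (XT.lf (nat_lit 0) (nat_lit 1221560537) (nat_lit 228) (nat_lit 34403865422) (nat_lit 76) (nat_lit 12859243255) (nat_lit 38) (nat_lit 5) (nat_lit 41) (nat_lit 5) (nat_lit 39) (nat_lit 5) (nat_lit 369) (nat_lit 300) (nat_lit 111)) (XT.lf (nat_lit 0) (nat_lit 7714028507) (nat_lit 228) (nat_lit 17144670557) (nat_lit 76) (nat_lit 24719177182) (nat_lit 38) (nat_lit 5) (nat_lit 41) (nat_lit 5) (nat_lit 39) (nat_lit 5) (nat_lit 370) (nat_lit 300) (nat_lit 110)))) (XT.nd (nat_lit 78) (nat_lit 0) (nat_lit 0) (XT.lf (nat_lit 0) (nat_lit 640946399) (nat_lit 228)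 (nat_lit 13763967968) (nat_lit 304) (nat_lit 36298858811) (nat_lit 35) (nat_lit 5) (nat_lit 38) (nat_lit 5) (nat_lit 39) (nat_lit 5) (nat_lit 371) (nat_lit 300) (nat_lit 109)) (XT.nd (nat_lit 78) (nat_lit 0) (nat_lit 0) (XT.lf (nat_lit 0) (nat_lit 19307757729) (nat_lit 228) (nat_lit 2159415882) (nat_lit 304) (nat_lit 30391156919) (nat_lit 35) (nat_lit 5) (nat_lit 38) (nat_lit 5) (nat_lit 39) (nat_lit 5) (nat_lit 372) (nat_lit 300) (nat_lit 108)) (XT.lf (nat_lit 0) (nat_lit 28833018541) (nat_lit 304) (nat_lit 14610864415) (nat_lit 76) (nat_lit 9600892940) (nat_lit 35) (nat_lit 5) (nat_lit 39) (nat_lit 5) (nat_lit 36) (nat_lit 5) (nat_lit 373) (nat_lit 300) (nat_lit 107)))))) (XT.nd (nat_lit 468) (nat_lit 304) (nat_lit 0) (XT.nd (nat_lit 234) (nat_lit 228) (nat_lit 0) (XT.nd (nat_lit 78) (nat_lit 0) (nat_lit 0) (XT.lf (nat_lit 0) (nat_lit 3918453660) (nat_lit 152) (nat_lit 32558081582) (nat_lit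 228) (nat_lit 17788581239) (nat_lit 33) (nat_lit 5) (nat_lit 35) (nat_lit 5) (nat_lit 36) (nat_lit 5) (nat_lit 374) (nat_lit 300) (nat_lit 106)) (XT.nd (nat_lit 78) (nat_lit 0) (nat_lit 0) (XT.lf (nat_lit 0) (nat_lit 23299531249) (nat_lit 152) (nat_lit 21195050355) (nat_lit 228) (nat_lit 11023131623) (nat_lit 33) (nat_lit 5) (nat_lit 35) (nat_lit 5) (nat_lit 36) (nat_lit 5) (nat_lit 375) (nat_lit 300) (nat_lit 105)) (XT.lf (nat_lit 0) (nat_lit 43258518421) (nat_lit 152) (nat_lit 9492401496) (nat_lit 228) (nat_lit 4057038032) (nat_lit 33) (nat_lit 5) (nat_lit 35) (nat_lit 5) (nat_lit 36) (nat_lit 5) (nat_lit 376) (nat_lit 300) (nat_lit 104)))) (XT.nd (nat_lit 78) (nat_lit 0) (nat_lit 0) (XT.lf (nat_lit 0) (nat_lit 3135792154) (nat_lit 228) (nat_lit 52401581519) (nat_lit 76) (nat_lit 2596281669) (nat_lit 30) (nat_lit 5) (nat_lit 33) (nat_lit 5) (nat_lit 31) (nat_lit 5) (nat_lit 377) (nat_lit 300)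 (nat_lit 103)) (XT.nd (nat_lit 78) (nat_lit 0) (nat_lit 0) (XT.lf (nat_lit 0) (nat_lit 10692837657) (nat_lit 228) (nat_lit 33764231859) (nat_lit 76) (nat_lit 15033952267) (nat_lit 30) (nat_lit 5) (nat_lit 33) (nat_lit 5) (nat_lit 31) (nat_lit 5) (nat_lit 378) (nat_lit 300) (nat_lit 102)) (XT.lf (nat_lit 0) (nat_lit 18474469508) (nat_lit 228) (nat_lit 14571148252) (nat_lit 76) (nat_lit 27843557508) (nat_lit 30) (nat_lit 5) (nat_lit 33) (nat_lit 5) (nat_lit 31) (nat_lit 5) (nat_lit 379) (nat_lit 300) (nat_lit 101))))) (XT.nd (nat_lit 234) (nat_lit 152) (nat_lit 0) (XT.nd (nat_lit 78) (nat_lit 0) (nat_lit 0) (XT.lf (nat_lit 0) (nat_lit 5297819494) (nat_lit 152) (nat_lit 21240593577) (nat_lit 228) (nat_lit 35789396640) (nat_lit 28) (nat_lit 5) (nat_lit 30) (nat_lit 5) (nat_lit 31) (nat_lit 5) (nat_lit 380) (nat_lit 300) (nat_lit 100)) (XT.nd (nat_lit 78) (nat_lit 0) (nat_lit 0) (XT.lf (nat_lit 0)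 (nat_lit 26058294856) (nat_lit 152) (nat_lit 8931085785) (nat_lit 228) (nat_lit 28815871546) (nat_lit 28) (nat_lit 5) (nat_lit 30) (nat_lit 5) (nat_lit 31) (nat_lit 5) (nat_lit 381) (nat_lit 300) (nat_lit 99)) (XT.lf (nat_lit 0) (nat_lit 43727916018) (nat_lit 228) (nat_lit 17924669521) (nat_lit 76) (nat_lit 3673413341) (nat_lit 28) (nat_lit 5) (nat_lit 31) (nat_lit 5) (nat_lit 29) (nat_lit 5) (nat_lit 382) (nat_lit 300) (nat_lit 98)))) (XT.nd (nat_lit 78) (nat_lit 0) (nat_lit 0) (XT.lf (nat_lit 0) (nat_lit 2448522536) (nat_lit 152) (nat_lit 50390119593) (nat_lit 228) (nat_lit 14050426851) (nat_lit 26) (nat_lit 5) (nat_lit 28) (nat_lit 5) (nat_lit 29) (nat_lit 5) (nat_lit 383) (nat_lit 300) (nat_lit 97)) (XT.nd (nat_lit 34164) (nat_lit 0) (nat_lit 10108) (XT.lf (nat_lit 0) (nat_lit 23797261779) (nat_lit 152) (nat_lit 38604530145) (nat_lit 228) (nat_lit 6091868186) (nat_lit 26) (nat_lit 5) (nat_lit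 28) (nat_lit 5) (nat_lit 29) (nat_lit 5) (nat_lit 384) (nat_lit 300) (nat_lit 96)) (XT.lf (nat_lit 0) (nat_lit 2178742894) (nat_lit 1140) (nat_lit 2419400352) (nat_lit 1140) (nat_lit 2419400352) (nat_lit 159) (nat_lit 3) (nat_lit 174) (nat_lit 3) (nat_lit 174) (nat_lit 5) (nat_lit 301) (nat_lit 301) (nat_lit 178))))))) (XT.nd (nat_lit 858) (nat_lit 1976) (nat_lit 0) (XT.nd (nat_lit 390) (nat_lit 0) (nat_lit 152) (XT.nd (nat_lit 156) (nat_lit 0) (nat_lit 76) (XT.nd (nat_lit 78) (nat_lit 0) (nat_lit 76) (XT.lf (nat_lit 76) (nat_lit 1128341868) (nat_lit 0) (nat_lit 3617121463) (nat_lit 1140) (nat_lit 9489785798) (nat_lit 160) (nat_lit 5) (nat_lit 159) (nat_lit 3) (nat_lit 174) (nat_lit 5) (nat_lit 302) (nat_lit 301) (nat_lit 177)) (XT.lf (nat_lit 0) (nat_lit 5202722612) (nat_lit 1064) (nat_lit 7094067958) (nat_lit 1140) (nat_lit 2142922847) (nat_lit 160) (nat_lit 5) (nat_lit 174) (nat_lit 5) (nat_lit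 175) (nat_lit 5) (nat_lit 303) (nat_lit 301) (nat_lit 176))) (XT.nd (nat_lit 78) (nat_lit 0) (nat_lit 0) (XT.lf (nat_lit 0) (nat_lit 5697694263) (nat_lit 1064) (nat_lit 943311158) (nat_lit 1140) (nat_lit 8008612366) (nat_lit 160) (nat_lit 5) (nat_lit 174) (nat_lit 5) (nat_lit 175) (nat_lit 5) (nat_lit 304) (nat_lit 301) (nat_lit 175)) (XT.nd (nat_lit 78) (nat_lit 0) (nat_lit 76) (XT.lf (nat_lit 76) (nat_lit 5492689729) (nat_lit 0) (nat_lit 756150163) (nat_lit 1140) (nat_lit 8615764882) (nat_lit 161) (nat_lit 5) (nat_lit 160) (nat_lit 5) (nat_lit 175) (nat_lit 5) (nat_lit 305) (nat_lit 301) (nat_lit 174)) (XT.lf (nat_lit 0) (nat_lit 6865981735) (nat_lit 1064) (nat_lit 3002543795) (nat_lit 1140) (nat_lit 5216056485) (nat_lit 161) (nat_lit 5) (nat_lit 175) (nat_lit 5) (nat_lit 176) (nat_lit 5) (nat_lit 306) (nat_lit 301) (nat_lit 173))))) (XT.nd (nat_lit 234) (nat_lit 0) (nat_lit 76) (XT.nd (nat_lit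 78) (nat_lit 0) (nat_lit 76) (XT.lf (nat_lit 76) (nat_lit 3614344863) (nat_lit 0) (nat_lit 3918692432) (nat_lit 1140) (nat_lit 7777203077) (nat_lit 162) (nat_lit 5) (nat_lit 161) (nat_lit 5) (nat_lit 176) (nat_lit 5) (nat_lit 307) (nat_lit 301) (nat_lit 172)) (XT.nd (nat_lit 78) (nat_lit 0) (nat_lit 0) (XT.lf (nat_lit 0) (nat_lit 8261425806) (nat_lit 1064) (nat_lit 5078930514) (nat_lit 1140) (nat_lit 2201095614) (nat_lit 162) (nat_lit 5) (nat_lit 176) (nat_lit 5) (nat_lit 177) (nat_lit 5) (nat_lit 308) (nat_lit 301) (nat_lit 171)) (XT.lf (nat_lit 76) (nat_lit 1724680340) (nat_lit 0) (nat_lit 7332131123) (nat_lit 1140) (nat_lit 6721456434) (nat_lit 163) (nat_lit 5) (nat_lit 162) (nat_lit 5) (nat_lit 177) (nat_lit 5) (nat_lit 309) (nat_lit 301) (nat_lit 170)))) (XT.nd (nat_lit 78) (nat_lit 0) (nat_lit 76) (XT.lf (nat_lit 76) (nat_lit 8829859608) (nat_lit 0) (nat_lit 1087488266) (nat_lit 1140) (nat_lit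 6103623554) (nat_lit 163) (nat_lit 5) (nat_lit 162) (nat_lit 5) (nat_lit 177) (nat_lit 5) (nat_lit 310) (nat_lit 301) (nat_lit 169)) (XT.nd (nat_lit 78) (nat_lit 0) (nat_lit 0) (XT.lf (nat_lit 0) (nat_lit 10845399292) (nat_lit 1064) (nat_lit 180939145) (nat_lit 1140) (nat_lit 5243387794) (nat_lit 163) (nat_lit 5) (nat_lit 177) (nat_lit 5) (nat_lit 178) (nat_lit 5) (nat_lit 311) (nat_lit 301) (nat_lit 168)) (XT.lf (nat_lit 76) (nat_lit 7161921740) (nat_lit 0) (nat_lit 4709588677) (nat_lit 1140) (nat_lit 4652347233) (nat_lit 164) (nat_lit 5) (nat_lit 163) (nat_lit 5) (nat_lit 178) (nat_lit 5) (nat_lit 312) (nat_lit 301) (nat_lit 167)))))) (XT.nd (nat_lit 468) (nat_lit 1292) (nat_lit 0) (XT.nd (nat_lit 234) (nat_lit 1064) (nat_lit 0) (XT.nd (nat_lit 78) (nat_lit 0) (nat_lit 0) (XT.lf (nat_lit 0) (nat_lit 12938363059) (nat_lit 1064) (nat_lit 2080930106) (nat_lit 1140) (nat_lit 1766041019) (nat_lit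 164) (nat_lit 5) (nat_lit 178) (nat_lit 5) (nat_lit 179) (nat_lit 5) (nat_lit 313) (nat_lit 301) (nat_lit 166)) (XT.nd (nat_lit 78) (nat_lit 0) (nat_lit 0) (XT.lf (nat_lit 76) (nat_lit 5471993698) (nat_lit 0) (nat_lit 8655566382) (nat_lit 1140) (nat_lit 2924404109) (nat_lit 165) (nat_lit 5) (nat_lit 164) (nat_lit 5) (nat_lit 179) (nat_lit 5) (nat_lit 314) (nat_lit 301) (nat_lit 165)) (XT.lf (nat_lit 76) (nat_lit 13287566658) (nat_lit 0) (nat_lit 2077184288) (nat_lit 1140) (nat_lit 1961491387) (nat_lit 165) (nat_lit 5) (nat_lit 164) (nat_lit 5) (nat_lit 179) (nat_lit 5) (nat_lit 315) (nat_lit 301) (nat_lit 164)))) (XT.nd (nat_lit 78) (nat_lit 1140) (nat_lit 0) (XT.lf (nat_lit 76) (nat_lit 3750177556) (nat_lit 0) (nat_lit 12961671789) (nat_lit 1140) (nat_lit 894733948) (nat_lit 166) (nat_lit 5) (nat_lit 165) (nat_lit 5) (nat_lit 180) (nat_lit 5) (nat_lit 316) (nat_lit 301) (nat_lit 163)) (XT.nd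 (nat_lit 78) (nat_lit 0) (nat_lit 76) (XT.lf (nat_lit 0) (nat_lit 253457730) (nat_lit 1140) (nat_lit 6068369021) (nat_lit 1216) (nat_lit 11571863694) (nat_lit 150) (nat_lit 5) (nat_lit 165) (nat_lit 5) (nat_lit 166) (nat_lit 5) (nat_lit 317) (nat_lit 301) (nat_lit 162)) (XT.lf (nat_lit 0) (nat_lit 1434275170) (nat_lit 1140) (nat_lit 16217693435) (nat_lit 76) (nat_lit 536708227) (nat_lit 151) (nat_lit 5) (nat_lit 166) (nat_lit 5) (nat_lit 152) (nat_lit 5) (nat_lit 318) (nat_lit 301) (nat_lit 161))))) (XT.nd (nat_lit 234) (nat_lit 532) (nat_lit 0) (XT.nd (nat_lit 78) (nat_lit 836) (nat_lit 0) (XT.lf (nat_lit 0) (nat_lit 2767083964) (nat_lit 1140) (nat_lit 8184777498) (nat_lit 76) (nat_lit 7537170541) (nat_lit 151) (nat_lit 5) (nat_lit 166) (nat_lit 5) (nat_lit 152) (nat_lit 5) (nat_lit 319) (nat_lit 301) (nat_lit 160)) (XT.nd (nat_lit 78) (nat_lit 0) (nat_lit 0) (XT.lf (nat_lit 0) (nat_lit 84150533)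 (nat_lit 836) (nat_lit 4048854945) (nat_lit 912) (nat_lit 14665614219) (nat_lit 140) (nat_lit 5) (nat_lit 151) (nat_lit 5) (nat_lit 152) (nat_lit 5) (nat_lit 320) (nat_lit 301) (nat_lit 159)) (XT.lf (nat_lit 0) (nat_lit 5645289255) (nat_lit 912) (nat_lit 10383136786) (nat_lit 76) (nat_lit 3085922711) (nat_lit 140) (nat_lit 5) (nat_lit 152) (nat_lit 5) (nat_lit 141) (nat_lit 5) (nat_lit 321) (nat_lit 301) (nat_lit 158)))) (XT.nd (nat_lit 78) (nat_lit 532) (nat_lit 0) (XT.lf (nat_lit 0) (nat_lit 7235737531) (nat_lit 912) (nat_lit 1848556712) (nat_lit 76) (nat_lit 10354286376) (nat_lit 140) (nat_lit 5) (nat_lit 152) (nat_lit 5) (nat_lit 141) (nat_lit 5) (nat_lit 322) (nat_lit 301) (nat_lit 157)) (XT.nd (nat_lit 78) (nat_lit 0) (nat_lit 0) (XT.lf (nat_lit 0) (nat_lit 7073681533) (nat_lit 532) (nat_lit 1861134970) (nat_lit 608) (nat_lit 10835909813) (nat_lit 133) (nat_lit 5) (nat_lit 140) (nat_lit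 5) (nat_lit 141) (nat_lit 5) (nat_lit 323) (nat_lit 301) (nat_lit 156)) (XT.lf (nat_lit 0) (nat_lit 10750416996) (nat_lit 608) (nat_lit 3871183721) (nat_lit 76) (nat_lit 5489283161) (nat_lit 133) (nat_lit 5) (nat_lit 141) (nat_lit 5) (nat_lit 134) (nat_lit 5) (nat_lit 324) (nat_lit 301) (nat_lit 155))))))))
noncomputable def xc209 : XT := (XT.nd (nat_lit 1794) (nat_lit 2432) (nat_lit 0) (XT.nd (nat_lit 858) (nat_lit 2280) (nat_lit 0) (XT.nd (nat_lit 390) (nat_lit 988) (nat_lit 0) (XT.nd (nat_lit 156) (nat_lit 988) (nat_lit 0) (XT.nd (nat_lit 78) (nat_lit 0) (nat_lit 0) (XT.lf (nat_lit 0) (nat_lit 5298024203) (nat_lit 532) (nat_lit 7385089505) (nat_lit 608) (nat_lit 7776267178) (nat_lit 126) (nat_lit 5) (nat_lit 133) (nat_lit 5) (nat_lit 134) (nat_lit 5) (nat_lit 325) (nat_lit 301) (nat_lit 154)) (XT.lf (nat_lit 0) (nat_lit 14707339363) (nat_lit 608) (nat_lit 6003078219) (nat_lit 76) (nat_lit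 106921950) (nat_lit 126) (nat_lit 5) (nat_lit 134) (nat_lit 5) (nat_lit 127) (nat_lit 5) (nat_lit 326) (nat_lit 301) (nat_lit 153))) (XT.nd (nat_lit 78) (nat_lit 532) (nat_lit 0) (XT.lf (nat_lit 0) (nat_lit 3417164136) (nat_lit 456) (nat_lit 13474698137) (nat_lit 532) (nat_lit 4291200334) (nat_lit 120) (nat_lit 5) (nat_lit 126) (nat_lit 5) (nat_lit 127) (nat_lit 5) (nat_lit 327) (nat_lit 301) (nat_lit 152)) (XT.nd (nat_lit 78) (nat_lit 532) (nat_lit 0) (XT.lf (nat_lit 0) (nat_lit 13236787253) (nat_lit 456) (nat_lit 5959481774) (nat_lit 532) (nat_lit 2361870316) (nat_lit 120) (nat_lit 5) (nat_lit 126) (nat_lit 5) (nat_lit 127) (nat_lit 5) (nat_lit 328) (nat_lit 301) (nat_lit 151)) (XT.lf (nat_lit 0) (nat_lit 1410640156) (nat_lit 532) (nat_lit 20183761037) (nat_lit 608) (nat_lit 349341444) (nat_lit 113) (nat_lit 5) (nat_lit 120) (nat_lit 5) (nat_lit 121) (nat_lit 5) (nat_lit 329) (nat_lit 301)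 (nat_lit 150))))) (XT.nd (nat_lit 234) (nat_lit 456) (nat_lit 0) (XT.nd (nat_lit 78) (nat_lit 456) (nat_lit 0) (XT.lf (nat_lit 0) (nat_lit 1827754648) (nat_lit 608) (nat_lit 10815991288) (nat_lit 76) (nat_lit 9692547685) (nat_lit 112) (nat_lit 5) (nat_lit 120) (nat_lit 5) (nat_lit 113) (nat_lit 5) (nat_lit 330) (nat_lit 301) (nat_lit 149)) (XT.nd (nat_lit 78) (nat_lit 456) (nat_lit 0) (XT.lf (nat_lit 0) (nat_lit 4057276382) (nat_lit 608) (nat_lit 817005373) (nat_lit 76) (nat_lit 17866422620) (nat_lit 112) (nat_lit 5) (nat_lit 120) (nat_lit 5) (nat_lit 113) (nat_lit 5) (nat_lit 331) (nat_lit 301) (nat_lit 148)) (XT.lf (nat_lit 0) (nat_lit 6471877960) (nat_lit 532) (nat_lit 13521089342) (nat_lit 76) (nat_lit 3160745029) (nat_lit 106) (nat_lit 5) (nat_lit 113) (nat_lit 5) (nat_lit 107) (nat_lit 5) (nat_lit 332) (nat_lit 301) (nat_lit 147)))) (XT.nd (nat_lit 78) (nat_lit 456) (nat_lit 0) (XT.lf (nat_lit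 0) (nat_lit 9009920017) (nat_lit 532) (nat_lit 3220832454) (nat_lit 76) (nat_lit 11346838379) (nat_lit 106) (nat_lit 5) (nat_lit 113) (nat_lit 5) (nat_lit 107) (nat_lit 5) (nat_lit 333) (nat_lit 301) (nat_lit 146)) (XT.nd (nat_lit 78) (nat_lit 0) (nat_lit 0) (XT.lf (nat_lit 0) (nat_lit 7529420839) (nat_lit 456) (nat_lit 4161633077) (nat_lit 532) (nat_lit 12321133382) (nat_lit 100) (nat_lit 5) (nat_lit 106) (nat_lit 5) (nat_lit 107) (nat_lit 5) (nat_lit 334) (nat_lit 301) (nat_lit 145)) (XT.lf (nat_lit 0) (nat_lit 14520025461) (nat_lit 532) (nat_lit 5836893852) (nat_lit 76) (nat_lit 4100890019) (nat_lit 100) (nat_lit 5) (nat_lit 107) (nat_lit 5) (nat_lit 101) (nat_lit 5) (nat_lit 335) (nat_lit 301) (nat_lit 144)))))) (XT.nd (nat_lit 468) (nat_lit 1064) (nat_lit 0) (XT.nd (nat_lit 234) (nat_lit 456) (nat_lit 0) (XT.nd (nat_lit 78) (nat_lit 380) (nat_lit 0) (XT.lf (nat_lit 0) (nat_lit 5182410725)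 (nat_lit 380) (nat_lit 12337300882) (nat_lit 456) (nat_lit 7394522568) (nat_lit 95) (nat_lit 5) (nat_lit 100) (nat_lit 5) (nat_lit 101) (nat_lit 5) (nat_lit 336) (nat_lit 301) (nat_lit 143)) (XT.nd (nat_lit 78) (nat_lit 380) (nat_lit 0) (XT.lf (nat_lit 0) (nat_lit 16646135144) (nat_lit 380) (nat_lit 4017113933) (nat_lit 456) (nat_lit 4719496101) (nat_lit 95) (nat_lit 5) (nat_lit 100) (nat_lit 5) (nat_lit 101) (nat_lit 5) (nat_lit 337) (nat_lit 301) (nat_lit 142)) (XT.lf (nat_lit 0) (nat_lit 2589435045) (nat_lit 380) (nat_lit 21375372712) (nat_lit 456) (nat_lit 1898601268) (nat_lit 90) (nat_lit 5) (nat_lit 95) (nat_lit 5) (nat_lit 96) (nat_lit 5) (nat_lit 338) (nat_lit 301) (nat_lit 141)))) (XT.nd (nat_lit 78) (nat_lit 380) (nat_lit 0) (XT.lf (nat_lit 0) (nat_lit 1111234197) (nat_lit 456) (nat_lit 11977658874) (nat_lit 76) (nat_lit 13265598923) (nat_lit 89) (nat_lit 5) (nat_lit 95) (nat_lit 5)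 (nat_lit 90) (nat_lit 5) (nat_lit 339) (nat_lit 301) (nat_lit 140)) (XT.nd (nat_lit 78) (nat_lit 380) (nat_lit 0) (XT.lf (nat_lit 0) (nat_lit 4168440550) (nat_lit 456) (nat_lit 366922396) (nat_lit 76) (nat_lit 22324531696) (nat_lit 89) (nat_lit 5) (nat_lit 95) (nat_lit 5) (nat_lit 90) (nat_lit 5) (nat_lit 340) (nat_lit 301) (nat_lit 139)) (XT.lf (nat_lit 0) (nat_lit 7468540086) (nat_lit 456) (nat_lit 15602178290) (nat_lit 76) (nat_lit 4305213651) (nat_lit 84) (nat_lit 5) (nat_lit 90) (nat_lit 5) (nat_lit 85) (nat_lit 5) (nat_lit 341) (nat_lit 301) (nat_lit 138))))) (XT.nd (nat_lit 234) (nat_lit 684) (nat_lit 0) (XT.nd (nat_lit 78) (nat_lit 380) (nat_lit 0) (XT.lf (nat_lit 0) (nat_lit 10911737262) (nat_lit 456) (nat_lit 3671695176) (nat_lit 76) (nat_lit 13322702992) (nat_lit 84) (nat_lit 5) (nat_lit 90) (nat_lit 5) (nat_lit 85) (nat_lit 5) (nat_lit 342) (nat_lit 301) (nat_lit 137)) (XT.nd (nat_lit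 78) (nat_lit 0) (nat_lit 0) (XT.lf (nat_lit 0) (nat_lit 8782660238) (nat_lit 380) (nat_lit 5755575181) (nat_lit 456) (nat_lit 13911616872) (nat_lit 79) (nat_lit 5) (nat_lit 84) (nat_lit 5) (nat_lit 85) (nat_lit 5) (nat_lit 343) (nat_lit 301) (nat_lit 136)) (XT.lf (nat_lit 0) (nat_lit 18338698933) (nat_lit 456) (nat_lit 7360799430) (nat_lit 76) (nat_lit 3308434475) (nat_lit 79) (nat_lit 5) (nat_lit 85) (nat_lit 5) (nat_lit 80) (nat_lit 5) (nat_lit 344) (nat_lit 301) (nat_lit 135)))) (XT.nd (nat_lit 78) (nat_lit 380) (nat_lit 0) (XT.lf (nat_lit 0) (nat_lit 5356995464) (nat_lit 304) (nat_lit 17000436230) (nat_lit 380) (nat_lit 7222203527) (nat_lit 75) (nat_lit 5) (nat_lit 79) (nat_lit 5) (nat_lit 80) (nat_lit 5) (nat_lit 345) (nat_lit 301) (nat_lit 134)) (XT.nd (nat_lit 78) (nat_lit 380) (nat_lit 0) (XT.lf (nat_lit 0) (nat_lit 18601927818) (nat_lit 304) (nat_lit 7964975250) (nat_lit 380) (nat_lit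 3599487180) (nat_lit 75) (nat_lit 5) (nat_lit 79) (nat_lit 5) (nat_lit 80) (nat_lit 5) (nat_lit 346) (nat_lit 301) (nat_lit 133)) (XT.lf (nat_lit 0) (nat_lit 152679960) (nat_lit 380) (nat_lit 29287278450) (nat_lit 76) (nat_lit 1330057653) (nat_lit 70) (nat_lit 5) (nat_lit 75) (nat_lit 5) (nat_lit 71) (nat_lit 5) (nat_lit 347) (nat_lit 301) (nat_lit 132))))))) (XT.nd (nat_lit 936) (nat_lit 988) (nat_lit 0) (XT.nd (nat_lit 468) (nat_lit 836) (nat_lit 0) (XT.nd (nat_lit 234) (nat_lit 304) (nat_lit 0) (XT.nd (nat_lit 78) (nat_lit 304) (nat_lit 0) (XT.lf (nat_lit 0) (nat_lit 4137841207) (nat_lit 380) (nat_lit 16350772873) (nat_lit 76) (nat_lit 10896290452) (nat_lit 70) (nat_lit 5) (nat_lit 75) (nat_lit 5) (nat_lit 71) (nat_lit 5) (nat_lit 348) (nat_lit 301) (nat_lit 131)) (XT.nd (nat_lit 78) (nat_lit 304) (nat_lit 0) (XT.lf (nat_lit 0) (nat_lit 8238653856) (nat_lit 380) (nat_lit 3031301762) (nat_lit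 76) (nat_lit 20748407245) (nat_lit 70) (nat_lit 5) (nat_lit 75) (nat_lit 5) (nat_lit 71) (nat_lit 5) (nat_lit 349) (nat_lit 301) (nat_lit 130)) (XT.lf (nat_lit 0) (nat_lit 10895381387) (nat_lit 304) (nat_lit 1668052825) (nat_lit 380) (nat_lit 20104368362) (nat_lit 66) (nat_lit 5) (nat_lit 70) (nat_lit 5) (nat_lit 71) (nat_lit 5) (nat_lit 350) (nat_lit 301) (nat_lit 129)))) (XT.nd (nat_lit 78) (nat_lit 304) (nat_lit 0) (XT.lf (nat_lit 0) (nat_lit 17124166911) (nat_lit 380) (nat_lit 8118177876) (nat_lit 76) (nat_lit 8091200176) (nat_lit 66) (nat_lit 5) (nat_lit 71) (nat_lit 5) (nat_lit 67) (nat_lit 5) (nat_lit 351) (nat_lit 301) (nat_lit 128)) (XT.nd (nat_lit 78) (nat_lit 0) (nat_lit 0) (XT.lf (nat_lit 0) (nat_lit 6042191619) (nat_lit 304) (nat_lit 15850497125) (nat_lit 380) (nat_lit 12124447453) (nat_lit 62) (nat_lit 5) (nat_lit 66) (nat_lit 5) (nat_lit 67) (nat_lit 5) (nat_lit 352) (nat_lit 301)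 (nat_lit 127)) (XT.lf (nat_lit 0) (nat_lit 20788944174) (nat_lit 304) (nat_lit 6093729438) (nat_lit 380) (nat_lit 7836214761) (nat_lit 62) (nat_lit 5) (nat_lit 66) (nat_lit 5) (nat_lit 67) (nat_lit 5) (nat_lit 353) (nat_lit 301) (nat_lit 126))))) (XT.nd (nat_lit 234) (nat_lit 532) (nat_lit 0) (XT.nd (nat_lit 78) (nat_lit 76) (nat_lit 0) (XT.lf (nat_lit 0) (nat_lit 503405393) (nat_lit 228) (nat_lit 31558338493) (nat_lit 304) (nat_lit 3378772919) (nat_lit 59) (nat_lit 5) (nat_lit 62) (nat_lit 5) (nat_lit 63) (nat_lit 5) (nat_lit 354) (nat_lit 301) (nat_lit 125)) (XT.nd (nat_lit 78) (nat_lit 0) (nat_lit 0) (XT.lf (nat_lit 0) (nat_lit 1387664380) (nat_lit 304) (nat_lit 20602475249) (nat_lit 76) (nat_lit 14187341888) (nat_lit 58) (nat_lit 5) (nat_lit 62) (nat_lit 5) (nat_lit 59) (nat_lit 5) (nat_lit 355) (nat_lit 301) (nat_lit 124)) (XT.lf (nat_lit 0) (nat_lit 6225824170) (nat_lit 304) (nat_lit 5875938489)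 (nat_lit 76) (nat_lit 24833894556) (nat_lit 58) (nat_lit 5) (nat_lit 62) (nat_lit 5) (nat_lit 59) (nat_lit 5) (nat_lit 356) (nat_lit 301) (nat_lit 123)))) (XT.nd (nat_lit 78) (nat_lit 228) (nat_lit 0) (XT.lf (nat_lit 0) (nat_lit 9472691883) (nat_lit 304) (nat_lit 1824231421) (nat_lit 380) (nat_lit 26417025723) (nat_lit 54) (nat_lit 5) (nat_lit 58) (nat_lit 5) (nat_lit 59) (nat_lit 5) (nat_lit 357) (nat_lit 301) (nat_lit 122)) (XT.nd (nat_lit 78) (nat_lit 228) (nat_lit 0) (XT.lf (nat_lit 0) (nat_lit 16661077003) (nat_lit 380) (nat_lit 13200979644) (nat_lit 76) (nat_lit 8649309841) (nat_lit 54) (nat_lit 5) (nat_lit 59) (nat_lit 5) (nat_lit 55) (nat_lit 5) (nat_lit 358) (nat_lit 301) (nat_lit 121)) (XT.lf (nat_lit 0) (nat_lit 2313122936) (nat_lit 228) (nat_lit 19910199659) (nat_lit 304) (nat_lit 17108273272) (nat_lit 51) (nat_lit 5) (nat_lit 54) (nat_lit 5) (nat_lit 55) (nat_lit 5) (nat_lit 359)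 (nat_lit 301) (nat_lit 120)))))) (XT.nd (nat_lit 468) (nat_lit 456) (nat_lit 0) (XT.nd (nat_lit 234) (nat_lit 304) (nat_lit 0) (XT.nd (nat_lit 78) (nat_lit 228) (nat_lit 0) (XT.lf (nat_lit 0) (nat_lit 18558840544) (nat_lit 228) (nat_lit 9523818166) (nat_lit 304) (nat_lit 12089871006) (nat_lit 51) (nat_lit 5) (nat_lit 54) (nat_lit 5) (nat_lit 55) (nat_lit 5) (nat_lit 360) (nat_lit 301) (nat_lit 119)) (XT.nd (nat_lit 78) (nat_lit 228) (nat_lit 0) (XT.lf (nat_lit 0) (nat_lit 34126058026) (nat_lit 304) (nat_lit 5762416628) (nat_lit 76) (nat_lit 1149972590) (nat_lit 51) (nat_lit 5) (nat_lit 55) (nat_lit 5) (nat_lit 52) (nat_lit 5) (nat_lit 361) (nat_lit 301) (nat_lit 118)) (XT.lf (nat_lit 0) (nat_lit 10674149151) (nat_lit 228) (nat_lit 29870595759) (nat_lit 304) (nat_lit 1379781858) (nat_lit 48) (nat_lit 5) (nat_lit 51) (nat_lit 5) (nat_lit 52) (nat_lit 5) (nat_lit 362) (nat_lit 301) (nat_lit 117))))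 (XT.nd (nat_lit 78) (nat_lit 228) (nat_lit 0) (XT.lf (nat_lit 0) (nat_lit 4290389748) (nat_lit 304) (nat_lit 15159859151) (nat_lit 76) (nat_lit 23384022290) (nat_lit 47) (nat_lit 5) (nat_lit 51) (nat_lit 5) (nat_lit 48) (nat_lit 5) (nat_lit 363) (nat_lit 301) (nat_lit 116)) (XT.nd (nat_lit 78) (nat_lit 0) (nat_lit 0) (XT.lf (nat_lit 0) (nat_lit 1423351653) (nat_lit 228) (nat_lit 8690445506) (nat_lit 304) (nat_lit 33656778755) (nat_lit 44) (nat_lit 5) (nat_lit 47) (nat_lit 5) (nat_lit 48) (nat_lit 5) (nat_lit 364) (nat_lit 301) (nat_lit 115)) (XT.lf (nat_lit 0) (nat_lit 16286712998) (nat_lit 304) (nat_lit 25944237091) (nat_lit 76) (nat_lit 2498779093) (nat_lit 44) (nat_lit 5) (nat_lit 48) (nat_lit 5) (nat_lit 45) (nat_lit 5) (nat_lit 365) (nat_lit 301) (nat_lit 114))))) (XT.nd (nat_lit 234) (nat_lit 228) (nat_lit 0) (XT.nd (nat_lit 78) (nat_lit 228) (nat_lit 0) (XT.lf (nat_lit 0) (nat_lit 22728152397)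 (nat_lit 304) (nat_lit 9139253219) (nat_lit 76) (nat_lit 13847754832) (nat_lit 44) (nat_lit 5) (nat_lit 48) (nat_lit 5) (nat_lit 45) (nat_lit 5) (nat_lit 366) (nat_lit 301) (nat_lit 113)) (XT.nd (nat_lit 78) (nat_lit 0) (nat_lit 0) (XT.lf (nat_lit 0) (nat_lit 8328467599) (nat_lit 228) (nat_lit 21111796645) (nat_lit 304) (nat_lit 17287570911) (nat_lit 41) (nat_lit 5) (nat_lit 44) (nat_lit 5) (nat_lit 45) (nat_lit 5) (nat_lit 367) (nat_lit 301) (nat_lit 112)) (XT.lf (nat_lit 0) (nat_lit 26503673341) (nat_lit 228) (nat_lit 9939764742) (nat_lit 304) (nat_lit 11324764342) (nat_lit 41) (nat_lit 5) (nat_lit 44) (nat_lit 5) (nat_lit 45) (nat_lit 5) (nat_lit 368) (nat_lit 301) (nat_lit 111)))) (XT.nd (nat_lit 78) (nat_lit 228) (nat_lit 0) (XT.lf (nat_lit 0) (nat_lit 43669247595) (nat_lit 304) (nat_lit 3634558061) (nat_lit 76) (nat_lit 1535602032) (nat_lit 41) (nat_lit 5) (nat_lit 45) (nat_lit 5) (nat_lit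 42) (nat_lit 5) (nat_lit 369) (nat_lit 301) (nat_lit 110)) (XT.nd (nat_lit 78) (nat_lit 0) (nat_lit 0) (XT.lf (nat_lit 0) (nat_lit 1385970540) (nat_lit 228) (nat_lit 35240025096) (nat_lit 76) (nat_lit 13309228299) (nat_lit 38) (nat_lit 5) (nat_lit 41) (nat_lit 5) (nat_lit 39) (nat_lit 5) (nat_lit 370) (nat_lit 301) (nat_lit 109)) (XT.lf (nat_lit 0) (nat_lit 8069491292) (nat_lit 228) (nat_lit 17468761850) (nat_lit 76) (nat_lit 25523090115) (nat_lit 38) (nat_lit 5) (nat_lit 41) (nat_lit 5) (nat_lit 39) (nat_lit 5) (nat_lit 371) (nat_lit 301) (nat_lit 108))))))))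
noncomputable def xc210 : XT := (XT.nd (nat_lit 36036) (nat_lit 0) (nat_lit 5472) (XT.nd (nat_lit 858) (nat_lit 0) (nat_lit 0) (XT.nd (nat_lit 390) (nat_lit 380) (nat_lit 0) (XT.nd (nat_lit 156) (nat_lit 152) (nat_lit 0) (XT.nd (nat_lit 78) (nat_lit 0) (nat_lit 0) (XT.lf (nat_lit 0) (nat_lit 848558430) (nat_lit 228) (nat_lit 14110743285) (nat_lit 304) (nat_lit 37261773754) (nat_lit 35) (nat_lit 5) (nat_lit 38) (nat_lit 5) (nat_lit 39) (nat_lit 5) (nat_lit 372) (nat_lit 301) (nat_lit 107)) (XT.lf (nat_lit 0) (nat_lit 20069887197) (nat_lit 228) (nat_lit 2159981153) (nat_lit 304) (nat_lit 31180512189) (nat_lit 35) (nat_lit 5) (nat_lit 38) (nat_lit 5) (nat_lit 39) (nat_lit 5) (nat_lit 373) (nat_lit 301) (nat_lit 106))) (XT.nd (nat_lit 78) (nat_lit 152) (nat_lit 0) (XT.lf (nat_lit 0) (nat_lit 29813831259) (nat_lit 304) (nat_lit 14868627873) (nat_lit 76) (nat_lit 9950049920) (nat_lit 35) (nat_lit 5)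 (nat_lit 39) (nat_lit 5) (nat_lit 36) (nat_lit 5) (nat_lit 374) (nat_lit 301) (nat_lit 105)) (XT.nd (nat_lit 78) (nat_lit 0) (nat_lit 0) (XT.lf (nat_lit 0) (nat_lit 4214799524) (nat_lit 152) (nat_lit 33470199136) (nat_lit 228) (nat_lit 18204514782) (nat_lit 33) (nat_lit 5) (nat_lit 35) (nat_lit 5) (nat_lit 36) (nat_lit 5) (nat_lit 375) (nat_lit 301) (nat_lit 104)) (XT.lf (nat_lit 0) (nat_lit 24172101899) (nat_lit 152) (nat_lit 21768159251) (nat_lit 228) (nat_lit 11239530529) (nat_lit 33) (nat_lit 5) (nat_lit 35) (nat_lit 5) (nat_lit 36) (nat_lit 5) (nat_lit 376) (nat_lit 301) (nat_lit 103))))) (XT.nd (nat_lit 234) (nat_lit 152) (nat_lit 0) (XT.nd (nat_lit 78) (nat_lit 228) (nat_lit 0) (XT.lf (nat_lit 0) (nat_lit 44724802822) (nat_lit 152) (nat_lit 9716258380) (nat_lit 228) (nat_lit 4067783113) (nat_lit 33) (nat_lit 5) (nat_lit 35) (nat_lit 5) (nat_lit 36) (nat_lit 5) (nat_lit 377) (nat_lit 301)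 (nat_lit 102)) (XT.nd (nat_lit 78) (nat_lit 0) (nat_lit 0) (XT.lf (nat_lit 0) (nat_lit 3337718405) (nat_lit 228) (nat_lit 53801749344) (nat_lit 76) (nat_lit 2734844832) (nat_lit 30) (nat_lit 5) (nat_lit 33) (nat_lit 5) (nat_lit 31) (nat_lit 5) (nat_lit 378) (nat_lit 301) (nat_lit 101)) (XT.lf (nat_lit 0) (nat_lit 11118333938) (nat_lit 228) (nat_lit 34610285397) (nat_lit 76) (nat_lit 15543878323) (nat_lit 30) (nat_lit 5) (nat_lit 33) (nat_lit 5) (nat_lit 31) (nat_lit 5) (nat_lit 379) (nat_lit 301) (nat_lit 100)))) (XT.nd (nat_lit 78) (nat_lit 152) (nat_lit 0) (XT.lf (nat_lit 0) (nat_lit 19130364905) (nat_lit 228) (nat_lit 14846269673) (nat_lit 76) (nat_lit 28736055970) (nat_lit 30) (nat_lit 5) (nat_lit 33) (nat_lit 5) (nat_lit 31) (nat_lit 5) (nat_lit 380) (nat_lit 301) (nat_lit 99)) (XT.nd (nat_lit 78) (nat_lit 0) (nat_lit 0) (XT.lf (nat_lit 0) (nat_lit 5617178743) (nat_lit 152) (nat_lit 21817629123)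 (nat_lit 228) (nat_lit 36759721933) (nat_lit 28) (nat_lit 5) (nat_lit 30) (nat_lit 5) (nat_lit 31) (nat_lit 5) (nat_lit 381) (nat_lit 301) (nat_lit 98)) (XT.lf (nat_lit 0) (nat_lit 26995795803) (nat_lit 152) (nat_lit 9140588979) (nat_lit 228) (nat_lit 29580001472) (nat_lit 28) (nat_lit 5) (nat_lit 30) (nat_lit 5) (nat_lit 31) (nat_lit 5) (nat_lit 382) (nat_lit 301) (nat_lit 97)))))) (XT.nd (nat_lit 34710) (nat_lit 0) (nat_lit 10108) (XT.nd (nat_lit 34476) (nat_lit 0) (nat_lit 10032) (XT.nd (nat_lit 34320) (nat_lit 0) (nat_lit 9956) (XT.lf (nat_lit 0) (nat_lit 45134786878) (nat_lit 228) (nat_lit 18308803839) (nat_lit 76) (nat_lit 3839236335) (nat_lit 28) (nat_lit 5) (nat_lit 31) (nat_lit 5) (nat_lit 29) (nat_lit 5) (nat_lit 383) (nat_lit 301) (nat_lit 96)) (XT.nd (nat_lit 78) (nat_lit 0) (nat_lit 0) (XT.lf (nat_lit 0) (nat_lit 2552877211) (nat_lit 1140) (nat_lit 2332625105) (nat_lit 1140) (nat_lit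 2332625105) (nat_lit 159) (nat_lit 3) (nat_lit 174) (nat_lit 3) (nat_lit 174) (nat_lit 5) (nat_lit 302) (nat_lit 302) (nat_lit 176)) (XT.lf (nat_lit 76) (nat_lit 1477781986) (nat_lit 0) (nat_lit 4012636227) (nat_lit 1140) (nat_lit 9152491585) (nat_lit 160) (nat_lit 5) (nat_lit 159) (nat_lit 3) (nat_lit 174) (nat_lit 5) (nat_lit 303) (nat_lit 302) (nat_lit 175)))) (XT.nd (nat_lit 78) (nat_lit 0) (nat_lit 0) (XT.lf (nat_lit 0) (nat_lit 5941165604) (nat_lit 1064) (nat_lit 6978981747) (nat_lit 1140) (nat_lit 1934005975) (nat_lit 160) (nat_lit 5) (nat_lit 174) (nat_lit 5) (nat_lit 175) (nat_lit 5) (nat_lit 304) (nat_lit 302) (nat_lit 174)) (XT.nd (nat_lit 78) (nat_lit 0) (nat_lit 0) (XT.lf (nat_lit 0) (nat_lit 6434024424) (nat_lit 1064) (nat_lit 653252969) (nat_lit 1140) (nat_lit 7983623593) (nat_lit 160) (nat_lit 5) (nat_lit 174) (nat_lit 5) (nat_lit 175) (nat_lit 5) (nat_lit 305) (nat_lit 302) (nat_lit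 173)) (XT.lf (nat_lit 76) (nat_lit 5972706792) (nat_lit 0) (nat_lit 1015559933) (nat_lit 1140) (nat_lit 8304510204) (nat_lit 161) (nat_lit 5) (nat_lit 160) (nat_lit 5) (nat_lit 175) (nat_lit 5) (nat_lit 306) (nat_lit 302) (nat_lit 172))))) (XT.nd (nat_lit 234) (nat_lit 0) (nat_lit 76) (XT.nd (nat_lit 78) (nat_lit 0) (nat_lit 0) (XT.lf (nat_lit 0) (nat_lit 7605637000) (nat_lit 1064) (nat_lit 2767107576) (nat_lit 1140) (nat_lit 5147192644) (nat_lit 161) (nat_lit 5) (nat_lit 175) (nat_lit 5) (nat_lit 176) (nat_lit 5) (nat_lit 307) (nat_lit 302) (nat_lit 171)) (XT.nd (nat_lit 78) (nat_lit 0) (nat_lit 76) (XT.lf (nat_lit 76) (nat_lit 4045096442) (nat_lit 0) (nat_lit 4235162179) (nat_lit 1140) (nat_lit 7472514211) (nat_lit 162) (nat_lit 5) (nat_lit 161) (nat_lit 5) (nat_lit 176) (nat_lit 5) (nat_lit 308) (nat_lit 302) (nat_lit 170)) (XT.lf (nat_lit 0) (nat_lit 9013460981) (nat_lit 1064) (nat_lit 4900222683)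 (nat_lit 1140) (nat_lit 2077781353) (nat_lit 162) (nat_lit 5) (nat_lit 176) (nat_lit 5) (nat_lit 177) (nat_lit 5) (nat_lit 309) (nat_lit 302) (nat_lit 169)))) (XT.nd (nat_lit 78) (nat_lit 0) (nat_lit 0) (XT.lf (nat_lit 76) (nat_lit 2104250657) (nat_lit 0) (nat_lit 7716923637) (nat_lit 1140) (nat_lit 6414589358) (nat_lit 163) (nat_lit 5) (nat_lit 162) (nat_lit 5) (nat_lit 177) (nat_lit 5) (nat_lit 310) (nat_lit 302) (nat_lit 168)) (XT.nd (nat_lit 78) (nat_lit 0) (nat_lit 76) (XT.lf (nat_lit 76) (nat_lit 9413036859) (nat_lit 0) (nat_lit 1280140662) (nat_lit 1140) (nat_lit 5793032485) (nat_lit 163) (nat_lit 5) (nat_lit 162) (nat_lit 5) (nat_lit 177) (nat_lit 5) (nat_lit 311) (nat_lit 302) (nat_lit 167)) (XT.lf (nat_lit 76) (nat_lit 141847541) (nat_lit 0) (nat_lit 11493161648) (nat_lit 1140) (nat_lit 5107870432) (nat_lit 164) (nat_lit 5) (nat_lit 163) (nat_lit 5) (nat_lit 178) (nat_lit 5) (nat_lit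 312) (nat_lit 302) (nat_lit 166))))))) (XT.nd (nat_lit 858) (nat_lit 3040) (nat_lit 0) (XT.nd (nat_lit 390) (nat_lit 1748) (nat_lit 0) (XT.nd (nat_lit 156) (nat_lit 0) (nat_lit 76) (XT.nd (nat_lit 78) (nat_lit 0) (nat_lit 76) (XT.lf (nat_lit 76) (nat_lit 7699035641) (nat_lit 0) (nat_lit 4981120136) (nat_lit 1140) (nat_lit 4324861085) (nat_lit 164) (nat_lit 5) (nat_lit 163) (nat_lit 5) (nat_lit 178) (nat_lit 5) (nat_lit 313) (nat_lit 302) (nat_lit 165)) (XT.lf (nat_lit 0) (nat_lit 13764618868) (nat_lit 1064) (nat_lit 1815139806) (nat_lit 1140) (nat_lit 1695039461) (nat_lit 164) (nat_lit 5) (nat_lit 178) (nat_lit 5) (nat_lit 179) (nat_lit 5) (nat_lit 314) (nat_lit 302) (nat_lit 164))) (XT.nd (nat_lit 78) (nat_lit 0) (nat_lit 0) (XT.lf (nat_lit 76) (nat_lit 5961153887) (nat_lit 0) (nat_lit 9018701679) (nat_lit 1140) (nat_lit 2569888317) (nat_lit 165) (nat_lit 5) (nat_lit 164) (nat_lit 5) (nat_lit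 179) (nat_lit 5) (nat_lit 315) (nat_lit 302) (nat_lit 163)) (XT.nd (nat_lit 78) (nat_lit 0) (nat_lit 76) (XT.lf (nat_lit 76) (nat_lit 14001728005) (nat_lit 0) (nat_lit 2239954481) (nat_lit 1140) (nat_lit 1590969220) (nat_lit 165) (nat_lit 5) (nat_lit 164) (nat_lit 5) (nat_lit 179) (nat_lit 5) (nat_lit 316) (nat_lit 302) (nat_lit 162)) (XT.lf (nat_lit 76) (nat_lit 4189326661) (nat_lit 0) (nat_lit 13429953386) (nat_lit 1140) (nat_lit 502446425) (nat_lit 166) (nat_lit 5) (nat_lit 165) (nat_lit 5) (nat_lit 180) (nat_lit 5) (nat_lit 317) (nat_lit 302) (nat_lit 161))))) (XT.nd (nat_lit 234) (nat_lit 760) (nat_lit 0) (XT.nd (nat_lit 78) (nat_lit 0) (nat_lit 76) (XT.lf (nat_lit 0) (nat_lit 660042835) (nat_lit 1140) (nat_lit 5924527695) (nat_lit 1216) (nat_lit 11833139185) (nat_lit 150) (nat_lit 5) (nat_lit 165) (nat_lit 5) (nat_lit 166) (nat_lit 5) (nat_lit 318) (nat_lit 302) (nat_lit 160)) (XT.nd (nat_lit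 78) (nat_lit 0) (nat_lit 0) (XT.lf (nat_lit 0) (nat_lit 1867114546) (nat_lit 1140) (nat_lit 16368363528) (nat_lit 76) (nat_lit 486366669) (nat_lit 151) (nat_lit 5) (nat_lit 166) (nat_lit 5) (nat_lit 152) (nat_lit 5) (nat_lit 319) (nat_lit 302) (nat_lit 159)) (XT.lf (nat_lit 0) (nat_lit 3228553881) (nat_lit 1140) (nat_lit 8104242463) (nat_lit 76) (nat_lit 7698778079) (nat_lit 151) (nat_lit 5) (nat_lit 166) (nat_lit 5) (nat_lit 152) (nat_lit 5) (nat_lit 320) (nat_lit 302) (nat_lit 158)))) (XT.nd (nat_lit 78) (nat_lit 0) (nat_lit 0) (XT.lf (nat_lit 0) (nat_lit 409556562) (nat_lit 836) (nat_lit 4217977182) (nat_lit 912) (nat_lit 14723176151) (nat_lit 140) (nat_lit 5) (nat_lit 151) (nat_lit 5) (nat_lit 152) (nat_lit 5) (nat_lit 321) (nat_lit 302) (nat_lit 157)) (XT.nd (nat_lit 78) (nat_lit 0) (nat_lit 0) (XT.lf (nat_lit 0) (nat_lit 6173948901) (nat_lit 912) (nat_lit 10369186220) (nat_lit 76) (nat_lit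 3133134725) (nat_lit 140) (nat_lit 5) (nat_lit 152) (nat_lit 5) (nat_lit 141) (nat_lit 5) (nat_lit 322) (nat_lit 302) (nat_lit 156)) (XT.lf (nat_lit 0) (nat_lit 7801645549) (nat_lit 912) (nat_lit 1588047714) (nat_lit 76) (nat_lit 10620870631) (nat_lit 140) (nat_lit 5) (nat_lit 152) (nat_lit 5) (nat_lit 141) (nat_lit 5) (nat_lit 323) (nat_lit 302) (nat_lit 155)))))) (XT.nd (nat_lit 468) (nat_lit 1520) (nat_lit 0) (XT.nd (nat_lit 234) (nat_lit 456) (nat_lit 0) (XT.nd (nat_lit 78) (nat_lit 532) (nat_lit 0) (XT.lf (nat_lit 0) (nat_lit 7598759975) (nat_lit 532) (nat_lit 1945784125) (nat_lit 608) (nat_lit 10808365098) (nat_lit 133) (nat_lit 5) (nat_lit 140) (nat_lit 5) (nat_lit 141) (nat_lit 5) (nat_lit 324) (nat_lit 302) (nat_lit 154)) (XT.nd (nat_lit 78) (nat_lit 532) (nat_lit 0) (XT.lf (nat_lit 0) (nat_lit 11404391752) (nat_lit 608) (nat_lit 3672674677) (nat_lit 76) (nat_lit 5626531735) (nat_lit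 133) (nat_lit 5) (nat_lit 141) (nat_lit 5) (nat_lit 134) (nat_lit 5) (nat_lit 325) (nat_lit 302) (nat_lit 153)) (XT.lf (nat_lit 0) (nat_lit 5768524735) (nat_lit 532) (nat_lit 7619885294) (nat_lit 608) (nat_lit 7674359300) (nat_lit 126) (nat_lit 5) (nat_lit 133) (nat_lit 5) (nat_lit 134) (nat_lit 5) (nat_lit 326) (nat_lit 302) (nat_lit 152)))) (XT.nd (nat_lit 78) (nat_lit 456) (nat_lit 0) (XT.lf (nat_lit 0) (nat_lit 15463778581) (nat_lit 608) (nat_lit 5870471449) (nat_lit 76) (nat_lit 97523119) (nat_lit 126) (nat_lit 5) (nat_lit 134) (nat_lit 5) (nat_lit 127) (nat_lit 5) (nat_lit 327) (nat_lit 302) (nat_lit 151)) (XT.nd (nat_lit 78) (nat_lit 0) (nat_lit 0) (XT.lf (nat_lit 0) (nat_lit 3829312500) (nat_lit 456) (nat_lit 13878319928) (nat_lit 532) (nat_lit 4101039981) (nat_lit 120) (nat_lit 5) (nat_lit 126) (nat_lit 5) (nat_lit 127) (nat_lit 5) (nat_lit 328) (nat_lit 302) (nat_lit 150)) (XT.lf (nat_lit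 0) (nat_lit 13934505861) (nat_lit 456) (nat_lit 6137665108) (nat_lit 532) (nat_lit 2123118307) (nat_lit 120) (nat_lit 5) (nat_lit 126) (nat_lit 5) (nat_lit 127) (nat_lit 5) (nat_lit 329) (nat_lit 302) (nat_lit 149))))) (XT.nd (nat_lit 234) (nat_lit 912) (nat_lit 0) (XT.nd (nat_lit 78) (nat_lit 76) (nat_lit 0) (XT.lf (nat_lit 0) (nat_lit 1760121610) (nat_lit 532) (nat_lit 20776345462) (nat_lit 608) (nat_lit 56184292) (nat_lit 113) (nat_lit 5) (nat_lit 120) (nat_lit 5) (nat_lit 121) (nat_lit 5) (nat_lit 330) (nat_lit 302) (nat_lit 148)) (XT.nd (nat_lit 78) (nat_lit 0) (nat_lit 0) (XT.lf (nat_lit 0) (nat_lit 2171628391) (nat_lit 608) (nat_lit 10835959324) (nat_lit 76) (nat_lit 9989580040) (nat_lit 112) (nat_lit 5) (nat_lit 120) (nat_lit 5) (nat_lit 113) (nat_lit 5) (nat_lit 331) (nat_lit 302) (nat_lit 147)) (XT.lf (nat_lit 0) (nat_lit 4459617104) (nat_lit 608) (nat_lit 545873104) (nat_lit 76) (nat_lit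 18408489012) (nat_lit 112) (nat_lit 5) (nat_lit 120) (nat_lit 5) (nat_lit 113) (nat_lit 5) (nat_lit 332) (nat_lit 302) (nat_lit 146)))) (XT.nd (nat_lit 78) (nat_lit 456) (nat_lit 0) (XT.lf (nat_lit 0) (nat_lit 6941465333) (nat_lit 532) (nat_lit 13625375950) (nat_lit 76) (nat_lit 3272707242) (nat_lit 106) (nat_lit 5) (nat_lit 113) (nat_lit 5) (nat_lit 107) (nat_lit 5) (nat_lit 333) (nat_lit 302) (nat_lit 145)) (XT.nd (nat_lit 78) (nat_lit 456) (nat_lit 0) (XT.lf (nat_lit 0) (nat_lit 9547626388) (nat_lit 532) (nat_lit 3024888425) (nat_lit 76) (nat_lit 11703884173) (nat_lit 106) (nat_lit 5) (nat_lit 113) (nat_lit 5) (nat_lit 107) (nat_lit 5) (nat_lit 334) (nat_lit 302) (nat_lit 144)) (XT.lf (nat_lit 0) (nat_lit 8045004143) (nat_lit 456) (nat_lit 4259186336) (nat_lit 532) (nat_lit 12420007449) (nat_lit 100) (nat_lit 5) (nat_lit 106) (nat_lit 5) (nat_lit 107) (nat_lit 5) (nat_lit 335) (nat_lit 302)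 (nat_lit 143))))))))
noncomputable def xc211 : XT := (XT.nd (nat_lit 1794) (nat_lit 1976) (nat_lit 0) (XT.nd (nat_lit 858) (nat_lit 1596) (nat_lit 0) (XT.nd (nat_lit 390) (nat_lit 1064) (nat_lit 0) (XT.nd (nat_lit 156) (nat_lit 456) (nat_lit 0) (XT.nd (nat_lit 78) (nat_lit 380) (nat_lit 0) (XT.lf (nat_lit 0) (nat_lit 15210643049) (nat_lit 532) (nat_lit 5722880974) (nat_lit 76) (nat_lit 4249900306) (nat_lit 100) (nat_lit 5) (nat_lit 107) (nat_lit 5) (nat_lit 101) (nat_lit 5) (nat_lit 336) (nat_lit 302) (nat_lit 142)) (XT.lf (nat_lit 0) (nat_lit 5624168233) (nat_lit 380) (nat_lit 12671475820) (nat_lit 456) (nat_lit 7358051790) (nat_lit 95) (nat_lit 5) (nat_lit 100) (nat_lit 5) (nat_lit 101) (nat_lit 5) (nat_lit 337) (nat_lit 302) (nat_lit 141))) (XT.nd (nat_lit 78) (nat_lit 456) (nat_lit 0) (XT.lf (nat_lit 0) (nat_lit 17423465981) (nat_lit 380) (nat_lit 4102730177) (nat_lit 456) (nat_lit 4610298019)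 (nat_lit 95) (nat_lit 5) (nat_lit 100) (nat_lit 5) (nat_lit 101) (nat_lit 5) (nat_lit 338) (nat_lit 302) (nat_lit 140)) (XT.nd (nat_lit 78) (nat_lit 76) (nat_lit 0) (XT.lf (nat_lit 0) (nat_lit 2949665286) (nat_lit 380) (nat_lit 21973098898) (nat_lit 456) (nat_lit 1708947749) (nat_lit 90) (nat_lit 5) (nat_lit 95) (nat_lit 5) (nat_lit 96) (nat_lit 5) (nat_lit 339) (nat_lit 302) (nat_lit 139)) (XT.lf (nat_lit 0) (nat_lit 1379327803) (nat_lit 456) (nat_lit 12057594493) (nat_lit 76) (nat_lit 13700757388) (nat_lit 89) (nat_lit 5) (nat_lit 95) (nat_lit 5) (nat_lit 90) (nat_lit 5) (nat_lit 340) (nat_lit 302) (nat_lit 138))))) (XT.nd (nat_lit 234) (nat_lit 684) (nat_lit 0) (XT.nd (nat_lit 78) (nat_lit 380) (nat_lit 0) (XT.lf (nat_lit 0) (nat_lit 4521412776) (nat_lit 456) (nat_lit 106673615) (nat_lit 76) (nat_lit 23030374926) (nat_lit 89) (nat_lit 5) (nat_lit 95) (nat_lit 5) (nat_lit 90) (nat_lit 5) (nat_lit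 341) (nat_lit 302) (nat_lit 137)) (XT.nd (nat_lit 78) (nat_lit 0) (nat_lit 0) (XT.lf (nat_lit 0) (nat_lit 7916888816) (nat_lit 456) (nat_lit 15794979544) (nat_lit 76) (nat_lit 4478231692) (nat_lit 84) (nat_lit 5) (nat_lit 90) (nat_lit 5) (nat_lit 85) (nat_lit 5) (nat_lit 342) (nat_lit 302) (nat_lit 136)) (XT.lf (nat_lit 0) (nat_lit 11456849115) (nat_lit 456) (nat_lit 3514599338) (nat_lit 76) (nat_lit 13764968190) (nat_lit 84) (nat_lit 5) (nat_lit 90) (nat_lit 5) (nat_lit 85) (nat_lit 5) (nat_lit 343) (nat_lit 302) (nat_lit 135)))) (XT.nd (nat_lit 78) (nat_lit 304) (nat_lit 0) (XT.lf (nat_lit 0) (nat_lit 9310766673) (nat_lit 380) (nat_lit 5877576781) (nat_lit 456) (nat_lit 14108226299) (nat_lit 79) (nat_lit 5) (nat_lit 84) (nat_lit 5) (nat_lit 85) (nat_lit 5) (nat_lit 344) (nat_lit 302) (nat_lit 134)) (XT.nd (nat_lit 78) (nat_lit 304) (nat_lit 0) (XT.lf (nat_lit 0) (nat_lit 19097061844) (nat_lit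 456) (nat_lit 7318596514) (nat_lit 76) (nat_lit 3455917593) (nat_lit 79) (nat_lit 5) (nat_lit 85) (nat_lit 5) (nat_lit 80) (nat_lit 5) (nat_lit 345) (nat_lit 302) (nat_lit 133)) (XT.lf (nat_lit 0) (nat_lit 5778153532) (nat_lit 304) (nat_lit 17454642509) (nat_lit 380) (nat_lit 7227750340) (nat_lit 75) (nat_lit 5) (nat_lit 79) (nat_lit 5) (nat_lit 80) (nat_lit 5) (nat_lit 346) (nat_lit 302) (nat_lit 132)))))) (XT.nd (nat_lit 468) (nat_lit 912) (nat_lit 0) (XT.nd (nat_lit 234) (nat_lit 304) (nat_lit 0) (XT.nd (nat_lit 78) (nat_lit 380) (nat_lit 0) (XT.lf (nat_lit 0) (nat_lit 19412847987) (nat_lit 304) (nat_lit 8149743140) (nat_lit 380) (nat_lit 3502501608) (nat_lit 75) (nat_lit 5) (nat_lit 79) (nat_lit 5) (nat_lit 80) (nat_lit 5) (nat_lit 347) (nat_lit 302) (nat_lit 131)) (XT.nd (nat_lit 78) (nat_lit 0) (nat_lit 0) (XT.lf (nat_lit 0) (nat_lit 355374108) (nat_lit 380) (nat_lit 29905548901) (nat_lit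 76) (nat_lit 1425940207) (nat_lit 70) (nat_lit 5) (nat_lit 75) (nat_lit 5) (nat_lit 71) (nat_lit 5) (nat_lit 348) (nat_lit 302) (nat_lit 130)) (XT.lf (nat_lit 0) (nat_lit 4454319889) (nat_lit 380) (nat_lit 16588531104) (nat_lit 76) (nat_lit 11277529481) (nat_lit 70) (nat_lit 5) (nat_lit 75) (nat_lit 5) (nat_lit 71) (nat_lit 5) (nat_lit 349) (nat_lit 302) (nat_lit 129)))) (XT.nd (nat_lit 78) (nat_lit 304) (nat_lit 0) (XT.lf (nat_lit 0) (nat_lit 8672554681) (nat_lit 380) (nat_lit 2876837947) (nat_lit 76) (nat_lit 21423626759) (nat_lit 70) (nat_lit 5) (nat_lit 75) (nat_lit 5) (nat_lit 71) (nat_lit 5) (nat_lit 350) (nat_lit 302) (nat_lit 128)) (XT.nd (nat_lit 78) (nat_lit 0) (nat_lit 0) (XT.lf (nat_lit 0) (nat_lit 11465239786) (nat_lit 304) (nat_lit 1658735433) (nat_lit 380) (nat_lit 20518068674) (nat_lit 66) (nat_lit 5) (nat_lit 70) (nat_lit 5) (nat_lit 71) (nat_lit 5) (nat_lit 351) (nat_lit 302)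 (nat_lit 127)) (XT.lf (nat_lit 0) (nat_lit 17816735195) (nat_lit 380) (nat_lit 8120733775) (nat_lit 76) (nat_lit 8390441686) (nat_lit 66) (nat_lit 5) (nat_lit 71) (nat_lit 5) (nat_lit 67) (nat_lit 5) (nat_lit 352) (nat_lit 302) (nat_lit 126))))) (XT.nd (nat_lit 234) (nat_lit 380) (nat_lit 0) (XT.nd (nat_lit 78) (nat_lit 228) (nat_lit 0) (XT.lf (nat_lit 0) (nat_lit 6462084164) (nat_lit 304) (nat_lit 16263313320) (nat_lit 380) (nat_lit 12306707621) (nat_lit 62) (nat_lit 5) (nat_lit 66) (nat_lit 5) (nat_lit 67) (nat_lit 5) (nat_lit 353) (nat_lit 302) (nat_lit 125)) (XT.nd (nat_lit 78) (nat_lit 228) (nat_lit 0) (XT.lf (nat_lit 0) (nat_lit 21644289000) (nat_lit 304) (nat_lit 6215668778) (nat_lit 380) (nat_lit 7895113577) (nat_lit 62) (nat_lit 5) (nat_lit 66) (nat_lit 5) (nat_lit 67) (nat_lit 5) (nat_lit 354) (nat_lit 302) (nat_lit 124)) (XT.lf (nat_lit 0) (nat_lit 752664198) (nat_lit 228) (nat_lit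 32439580047) (nat_lit 304) (nat_lit 3306176632) (nat_lit 59) (nat_lit 5) (nat_lit 62) (nat_lit 5) (nat_lit 63) (nat_lit 5) (nat_lit 355) (nat_lit 302) (nat_lit 123)))) (XT.nd (nat_lit 78) (nat_lit 304) (nat_lit 0) (XT.lf (nat_lit 0) (nat_lit 1594891301) (nat_lit 304) (nat_lit 20989679729) (nat_lit 76) (nat_lit 14673029498) (nat_lit 58) (nat_lit 5) (nat_lit 62) (nat_lit 5) (nat_lit 59) (nat_lit 5) (nat_lit 356) (nat_lit 302) (nat_lit 122)) (XT.nd (nat_lit 78) (nat_lit 304) (nat_lit 0) (XT.lf (nat_lit 0) (nat_lit 6573372671) (nat_lit 304) (nat_lit 5828071229) (nat_lit 76) (nat_lit 25637229211) (nat_lit 58) (nat_lit 5) (nat_lit 62) (nat_lit 5) (nat_lit 59) (nat_lit 5) (nat_lit 357) (nat_lit 302) (nat_lit 121)) (XT.lf (nat_lit 0) (nat_lit 9978820550) (nat_lit 304) (nat_lit 1815234997) (nat_lit 380) (nat_lit 27046341323) (nat_lit 54) (nat_lit 5) (nat_lit 58) (nat_lit 5) (nat_lit 59) (nat_lit 5) (nat_lit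 358) (nat_lit 302) (nat_lit 120))))))) (XT.nd (nat_lit 936) (nat_lit 988) (nat_lit 0) (XT.nd (nat_lit 468) (nat_lit 456) (nat_lit 0) (XT.nd (nat_lit 234) (nat_lit 304) (nat_lit 0) (XT.nd (nat_lit 78) (nat_lit 228) (nat_lit 0) (XT.lf (nat_lit 0) (nat_lit 17315120083) (nat_lit 380) (nat_lit 13377294480) (nat_lit 76) (nat_lit 8969449228) (nat_lit 54) (nat_lit 5) (nat_lit 59) (nat_lit 5) (nat_lit 55) (nat_lit 5) (nat_lit 359) (nat_lit 302) (nat_lit 119)) (XT.nd (nat_lit 78) (nat_lit 0) (nat_lit 0) (XT.lf (nat_lit 0) (nat_lit 2600077113) (nat_lit 228) (nat_lit 20441755678) (nat_lit 304) (nat_lit 17464945599) (nat_lit 51) (nat_lit 5) (nat_lit 54) (nat_lit 5) (nat_lit 55) (nat_lit 5) (nat_lit 360) (nat_lit 302) (nat_lit 118)) (XT.lf (nat_lit 0) (nat_lit 19326829536) (nat_lit 228) (nat_lit 9745697788) (nat_lit 304) (nat_lit 12300551727) (nat_lit 51) (nat_lit 5) (nat_lit 54) (nat_lit 5) (nat_lit 55) (nat_lit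 5) (nat_lit 361) (nat_lit 302) (nat_lit 117)))) (XT.nd (nat_lit 78) (nat_lit 304) (nat_lit 0) (XT.lf (nat_lit 0) (nat_lit 35293531488) (nat_lit 304) (nat_lit 5726321445) (nat_lit 76) (nat_lit 1245238053) (nat_lit 51) (nat_lit 5) (nat_lit 55) (nat_lit 5) (nat_lit 52) (nat_lit 5) (nat_lit 362) (nat_lit 302) (nat_lit 116)) (XT.nd (nat_lit 78) (nat_lit 76) (nat_lit 0) (XT.lf (nat_lit 0) (nat_lit 11201292604) (nat_lit 228) (nat_lit 30701290210) (nat_lit 304) (nat_lit 1275241760) (nat_lit 48) (nat_lit 5) (nat_lit 51) (nat_lit 5) (nat_lit 52) (nat_lit 5) (nat_lit 363) (nat_lit 302) (nat_lit 115)) (XT.lf (nat_lit 0) (nat_lit 4558019755) (nat_lit 304) (nat_lit 15410815922) (nat_lit 76) (nat_lit 24146114054) (nat_lit 47) (nat_lit 5) (nat_lit 51) (nat_lit 5) (nat_lit 48) (nat_lit 5) (nat_lit 364) (nat_lit 302) (nat_lit 114))))) (XT.nd (nat_lit 234) (nat_lit 228) (nat_lit 0) (XT.nd (nat_lit 78) (nat_lit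 0) (nat_lit 0) (XT.lf (nat_lit 0) (nat_lit 1667892784) (nat_lit 228) (nat_lit 8886130656) (nat_lit 304) (nat_lit 34525388640) (nat_lit 44) (nat_lit 5) (nat_lit 47) (nat_lit 5) (nat_lit 48) (nat_lit 5) (nat_lit 365) (nat_lit 302) (nat_lit 113)) (XT.nd (nat_lit 78) (nat_lit 0) (nat_lit 0) (XT.lf (nat_lit 0) (nat_lit 16908748812) (nat_lit 304) (nat_lit 26523052939) (nat_lit 76) (nat_lit 2635644681) (nat_lit 44) (nat_lit 5) (nat_lit 48) (nat_lit 5) (nat_lit 45) (nat_lit 5) (nat_lit 366) (nat_lit 302) (nat_lit 112)) (XT.lf (nat_lit 0) (nat_lit 23539544953) (nat_lit 304) (nat_lit 9219730558) (nat_lit 76) (nat_lit 14323286715) (nat_lit 44) (nat_lit 5) (nat_lit 48) (nat_lit 5) (nat_lit 45) (nat_lit 5) (nat_lit 367) (nat_lit 302) (nat_lit 111)))) (XT.nd (nat_lit 78) (nat_lit 0) (nat_lit 0) (XT.lf (nat_lit 0) (nat_lit 8770122862) (nat_lit 228) (nat_lit 21680967762) (nat_lit 304) (nat_lit 17674589288) (nat_lit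 41) (nat_lit 5) (nat_lit 44) (nat_lit 5) (nat_lit 45) (nat_lit 5) (nat_lit 368) (nat_lit 302) (nat_lit 110)) (XT.nd (nat_lit 78) (nat_lit 0) (nat_lit 0) (XT.lf (nat_lit 0) (nat_lit 27484998333) (nat_lit 228) (nat_lit 10175644304) (nat_lit 304) (nat_lit 11536731787) (nat_lit 41) (nat_lit 5) (nat_lit 44) (nat_lit 5) (nat_lit 45) (nat_lit 5) (nat_lit 369) (nat_lit 302) (nat_lit 109)) (XT.lf (nat_lit 0) (nat_lit 45100199202) (nat_lit 304) (nat_lit 3559624054) (nat_lit 76) (nat_lit 1640987978) (nat_lit 41) (nat_lit 5) (nat_lit 45) (nat_lit 5) (nat_lit 42) (nat_lit 5) (nat_lit 370) (nat_lit 302) (nat_lit 108)))))) (XT.nd (nat_lit 468) (nat_lit 380) (nat_lit 0) (XT.nd (nat_lit 234) (nat_lit 152) (nat_lit 0) (XT.nd (nat_lit 78) (nat_lit 228) (nat_lit 0) (XT.lf (nat_lit 0) (nat_lit 1547978714) (nat_lit 228) (nat_lit 36112518254) (nat_lit 76) (nat_lit 13769027107) (nat_lit 38) (nat_lit 5) (nat_lit 41)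 (nat_lit 5) (nat_lit 39) (nat_lit 5) (nat_lit 371) (nat_lit 302) (nat_lit 107)) (XT.nd (nat_lit 78) (nat_lit 228) (nat_lit 0) (XT.lf (nat_lit 0) (nat_lit 8428497446) (nat_lit 228) (nat_lit 17813496943) (nat_lit 76) (nat_lit 26347542002) (nat_lit 38) (nat_lit 5) (nat_lit 41) (nat_lit 5) (nat_lit 39) (nat_lit 5) (nat_lit 372) (nat_lit 302) (nat_lit 106)) (XT.lf (nat_lit 0) (nat_lit 1051584830) (nat_lit 228) (nat_lit 14471718781) (nat_lit 304) (nat_lit 38260811979) (nat_lit 35) (nat_lit 5) (nat_lit 38) (nat_lit 5) (nat_lit 39) (nat_lit 5) (nat_lit 373) (nat_lit 302) (nat_lit 105)))) (XT.nd (nat_lit 78) (nat_lit 152) (nat_lit 0) (XT.lf (nat_lit 0) (nat_lit 20844381529) (nat_lit 228) (nat_lit 2164249712) (nat_lit 304) (nat_lit 32000573197) (nat_lit 35) (nat_lit 5) (nat_lit 38) (nat_lit 5) (nat_lit 39) (nat_lit 5) (nat_lit 374) (nat_lit 302) (nat_lit 104)) (XT.nd (nat_lit 78) (nat_lit 152) (nat_lit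 0) (XT.lf (nat_lit 0) (nat_lit 30817419691) (nat_lit 304) (nat_lit 15144489260) (nat_lit 76) (nat_lit 10306172485) (nat_lit 35) (nat_lit 5) (nat_lit 39) (nat_lit 5) (nat_lit 36) (nat_lit 5) (nat_lit 375) (nat_lit 302) (nat_lit 103)) (XT.lf (nat_lit 0) (nat_lit 4509772357) (nat_lit 152) (nat_lit 34413389950) (nat_lit 228) (nat_lit 18639684166) (nat_lit 33) (nat_lit 5) (nat_lit 35) (nat_lit 5) (nat_lit 36) (nat_lit 5) (nat_lit 376) (nat_lit 302) (nat_lit 102))))) (XT.nd (nat_lit 234) (nat_lit 152) (nat_lit 0) (XT.nd (nat_lit 78) (nat_lit 228) (nat_lit 0) (XT.lf (nat_lit 0) (nat_lit 25060885196) (nat_lit 152) (nat_lit 22362063096) (nat_lit 228) (nat_lit 11468982406) (nat_lit 33) (nat_lit 5) (nat_lit 35) (nat_lit 5) (nat_lit 36) (nat_lit 5) (nat_lit 377) (nat_lit 302) (nat_lit 101)) (XT.nd (nat_lit 78) (nat_lit 228) (nat_lit 0) (XT.lf (nat_lit 0) (nat_lit 46225401508) (nat_lit 152) (nat_lit 9950327750)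 (nat_lit 228) (nat_lit 4085220452) (nat_lit 33) (nat_lit 5) (nat_lit 35) (nat_lit 5) (nat_lit 36) (nat_lit 5) (nat_lit 378) (nat_lit 302) (nat_lit 100)) (XT.lf (nat_lit 0) (nat_lit 3539511269) (nat_lit 228) (nat_lit 55253788797) (nat_lit 76) (nat_lit 2874081913) (nat_lit 30) (nat_lit 5) (nat_lit 33) (nat_lit 5) (nat_lit 31) (nat_lit 5) (nat_lit 379) (nat_lit 302) (nat_lit 99)))) (XT.nd (nat_lit 78) (nat_lit 152) (nat_lit 0) (XT.lf (nat_lit 0) (nat_lit 11550584260) (nat_lit 228) (nat_lit 35491299757) (nat_lit 76) (nat_lit 16065720630) (nat_lit 30) (nat_lit 5) (nat_lit 33) (nat_lit 5) (nat_lit 31) (nat_lit 5) (nat_lit 380) (nat_lit 302) (nat_lit 98)) (XT.nd (nat_lit 78) (nat_lit 152) (nat_lit 0) (XT.lf (nat_lit 0) (nat_lit 19800101390) (nat_lit 228) (nat_lit 15138944946) (nat_lit 76) (nat_lit 29652046345) (nat_lit 30) (nat_lit 5) (nat_lit 33) (nat_lit 5) (nat_lit 31) (nat_lit 5) (nat_lit 381) (nat_lit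 302) (nat_lit 97)) (XT.lf (nat_lit 0) (nat_lit 5936909738) (nat_lit 152) (nat_lit 22415430444) (nat_lit 228) (nat_lit 37765090076) (nat_lit 28) (nat_lit 5) (nat_lit 30) (nat_lit 5) (nat_lit 31) (nat_lit 5) (nat_lit 382) (nat_lit 302) (nat_lit 96))))))))
noncomputable def xc212 : XT := (XT.nd (nat_lit 36114) (nat_lit 0) (nat_lit 3572) (XT.nd (nat_lit 35178) (nat_lit 0) (nat_lit 8512) (XT.nd (nat_lit 34710) (nat_lit 0) (nat_lit 10032) (XT.nd (nat_lit 34476) (nat_lit 0) (nat_lit 9956) (XT.nd (nat_lit 34398) (nat_lit 0) (nat_lit 9956) (XT.lf (nat_lit 0) (nat_lit 27952480970) (nat_lit 152) (nat_lit 9359731354) (nat_lit 228) (nat_lit 30372815580) (nat_lit 28) (nat_lit 5) (nat_lit 30) (nat_lit 5) (nat_lit 31) (nat_lit 5) (nat_lit 383) (nat_lit 302) (nat_lit 95)) (XT.lf (nat_lit 0) (nat_lit 2920510779) (nat_lit 1140) (nat_lit 2252394359) (nat_lit 1140) (nat_lit 2252394359) (nat_lit 159) (nat_lit 3) (nat_lit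 174) (nat_lit 3) (nat_lit 174) (nat_lit 5) (nat_lit 303) (nat_lit 303) (nat_lit 174))) (XT.nd (nat_lit 78) (nat_lit 0) (nat_lit 76) (XT.lf (nat_lit 76) (nat_lit 1819589159) (nat_lit 0) (nat_lit 4403541396) (nat_lit 1140) (nat_lit 8840783190) (nat_lit 160) (nat_lit 5) (nat_lit 159) (nat_lit 3) (nat_lit 174) (nat_lit 5) (nat_lit 304) (nat_lit 303) (nat_lit 173)) (XT.nd (nat_lit 78) (nat_lit 0) (nat_lit 0) (XT.lf (nat_lit 0) (nat_lit 6668331963) (nat_lit 1064) (nat_lit 6879266226) (nat_lit 1140) (nat_lit 1734504655) (nat_lit 160) (nat_lit 5) (nat_lit 174) (nat_lit 5) (nat_lit 175) (nat_lit 5) (nat_lit 305) (nat_lit 303) (nat_lit 172)) (XT.lf (nat_lit 0) (nat_lit 7159988255) (nat_lit 1064) (nat_lit 372768059) (nat_lit 1140) (nat_lit 7973111428) (nat_lit 160) (nat_lit 5) (nat_lit 174) (nat_lit 5) (nat_lit 175) (nat_lit 5) (nat_lit 306) (nat_lit 303) (nat_lit 171))))) (XT.nd (nat_lit 234) (nat_lit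 0) (nat_lit 152) (XT.nd (nat_lit 78) (nat_lit 0) (nat_lit 76) (XT.lf (nat_lit 76) (nat_lit 6449028510) (nat_lit 0) (nat_lit 1269162997) (nat_lit 1140) (nat_lit 8016622581) (nat_lit 161) (nat_lit 5) (nat_lit 160) (nat_lit 5) (nat_lit 175) (nat_lit 5) (nat_lit 307) (nat_lit 303) (nat_lit 170)) (XT.nd (nat_lit 78) (nat_lit 0) (nat_lit 0) (XT.lf (nat_lit 0) (nat_lit 8336846749) (nat_lit 1064) (nat_lit 2543294023) (nat_lit 1140) (nat_lit 5089198642) (nat_lit 161) (nat_lit 5) (nat_lit 175) (nat_lit 5) (nat_lit 176) (nat_lit 5) (nat_lit 308) (nat_lit 303) (nat_lit 169)) (XT.lf (nat_lit 76) (nat_lit 4470268011) (nat_lit 0) (nat_lit 4549707830) (nat_lit 1140) (nat_lit 7189568365) (nat_lit 162) (nat_lit 5) (nat_lit 161) (nat_lit 5) (nat_lit 176) (nat_lit 5) (nat_lit 309) (nat_lit 303) (nat_lit 168)))) (XT.nd (nat_lit 78) (nat_lit 0) (nat_lit 0) (XT.lf (nat_lit 0) (nat_lit 9759114504) (nat_lit 1064) (nat_lit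 4735158719) (nat_lit 1140) (nat_lit 1961636964) (nat_lit 162) (nat_lit 5) (nat_lit 176) (nat_lit 5) (nat_lit 177) (nat_lit 5) (nat_lit 310) (nat_lit 303) (nat_lit 167)) (XT.nd (nat_lit 78) (nat_lit 0) (nat_lit 0) (XT.lf (nat_lit 76) (nat_lit 2476389305) (nat_lit 0) (nat_lit 8103798091) (nat_lit 1140) (nat_lit 6127706868) (nat_lit 163) (nat_lit 5) (nat_lit 162) (nat_lit 5) (nat_lit 177) (nat_lit 5) (nat_lit 311) (nat_lit 303) (nat_lit 166)) (XT.lf (nat_lit 76) (nat_lit 9995438769) (nat_lit 0) (nat_lit 1469386382) (nat_lit 1140) (nat_lit 5501464071) (nat_lit 163) (nat_lit 5) (nat_lit 162) (nat_lit 5) (nat_lit 177) (nat_lit 5) (nat_lit 312) (nat_lit 303) (nat_lit 165)))))) (XT.nd (nat_lit 468) (nat_lit 1748) (nat_lit 0) (XT.nd (nat_lit 234) (nat_lit 0) (nat_lit 76) (XT.nd (nat_lit 78) (nat_lit 0) (nat_lit 0) (XT.lf (nat_lit 76) (nat_lit 458973112) (nat_lit 0) (nat_lit 11964406787) (nat_lit 1140)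 (nat_lit 4807653569) (nat_lit 164) (nat_lit 5) (nat_lit 163) (nat_lit 5) (nat_lit 178) (nat_lit 5) (nat_lit 313) (nat_lit 303) (nat_lit 164)) (XT.nd (nat_lit 78) (nat_lit 0) (nat_lit 76) (XT.lf (nat_lit 76) (nat_lit 8233764133) (nat_lit 0) (nat_lit 5253321012) (nat_lit 1140) (nat_lit 4014361311) (nat_lit 164) (nat_lit 5) (nat_lit 163) (nat_lit 5) (nat_lit 178) (nat_lit 5) (nat_lit 314) (nat_lit 303) (nat_lit 163)) (XT.lf (nat_lit 0) (nat_lit 14590513337) (nat_lit 1064) (nat_lit 1560216865) (nat_lit 1140) (nat_lit 1629024975) (nat_lit 164) (nat_lit 5) (nat_lit 178) (nat_lit 5) (nat_lit 179) (nat_lit 5) (nat_lit 315) (nat_lit 303) (nat_lit 162)))) (XT.nd (nat_lit 78) (nat_lit 0) (nat_lit 0) (XT.lf (nat_lit 76) (nat_lit 6446332530) (nat_lit 0) (nat_lit 9386791530) (nat_lit 1140) (nat_lit 2230123891) (nat_lit 165) (nat_lit 5) (nat_lit 164) (nat_lit 5) (nat_lit 179) (nat_lit 5) (nat_lit 316) (nat_lit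 303) (nat_lit 161)) (XT.nd (nat_lit 78) (nat_lit 0) (nat_lit 76) (XT.lf (nat_lit 76) (nat_lit 14719201230) (nat_lit 0) (nat_lit 2401841272) (nat_lit 1140) (nat_lit 1233978806) (nat_lit 165) (nat_lit 5) (nat_lit 164) (nat_lit 5) (nat_lit 179) (nat_lit 5) (nat_lit 317) (nat_lit 303) (nat_lit 160)) (XT.lf (nat_lit 76) (nat_lit 4622899550) (nat_lit 0) (nat_lit 13907723740) (nat_lit 1140) (nat_lit 122450028) (nat_lit 166) (nat_lit 5) (nat_lit 165) (nat_lit 5) (nat_lit 180) (nat_lit 5) (nat_lit 318) (nat_lit 303) (nat_lit 159))))) (XT.nd (nat_lit 234) (nat_lit 760) (nat_lit 0) (XT.nd (nat_lit 78) (nat_lit 0) (nat_lit 76) (XT.lf (nat_lit 0) (nat_lit 1055922329) (nat_lit 1140) (nat_lit 5795078686) (nat_lit 1216) (nat_lit 12107182827) (nat_lit 150) (nat_lit 5) (nat_lit 165) (nat_lit 5) (nat_lit 166) (nat_lit 5) (nat_lit 319) (nat_lit 303) (nat_lit 158)) (XT.nd (nat_lit 78) (nat_lit 0) (nat_lit 0) (XT.lf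 (nat_lit 0) (nat_lit 2290562350) (nat_lit 1140) (nat_lit 16542833502) (nat_lit 76) (nat_lit 438328952) (nat_lit 151) (nat_lit 5) (nat_lit 166) (nat_lit 5) (nat_lit 152) (nat_lit 5) (nat_lit 320) (nat_lit 303) (nat_lit 157)) (XT.lf (nat_lit 0) (nat_lit 3682142893) (nat_lit 1140) (nat_lit 8040009609) (nat_lit 76) (nat_lit 7868936843) (nat_lit 151) (nat_lit 5) (nat_lit 166) (nat_lit 5) (nat_lit 152) (nat_lit 5) (nat_lit 321) (nat_lit 303) (nat_lit 156)))) (XT.nd (nat_lit 78) (nat_lit 0) (nat_lit 0) (XT.lf (nat_lit 0) (nat_lit 726190053) (nat_lit 836) (nat_lit 4389437404) (nat_lit 912) (nat_lit 14804416638) (nat_lit 140) (nat_lit 5) (nat_lit 151) (nat_lit 5) (nat_lit 152) (nat_lit 5) (nat_lit 322) (nat_lit 303) (nat_lit 155)) (XT.nd (nat_lit 78) (nat_lit 0) (nat_lit 0) (XT.lf (nat_lit 0) (nat_lit 6697842992) (nat_lit 912) (nat_lit 10373498992) (nat_lit 76) (nat_lit 3184367274) (nat_lit 140) (nat_lit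 5) (nat_lit 152) (nat_lit 5) (nat_lit 141) (nat_lit 5) (nat_lit 323) (nat_lit 303) (nat_lit 154)) (XT.lf (nat_lit 0) (nat_lit 8364506200) (nat_lit 912) (nat_lit 1337861170) (nat_lit 76) (nat_lit 10897980738) (nat_lit 140) (nat_lit 5) (nat_lit 152) (nat_lit 5) (nat_lit 141) (nat_lit 5) (nat_lit 324) (nat_lit 303) (nat_lit 153))))))) (XT.nd (nat_lit 858) (nat_lit 2356) (nat_lit 0) (XT.nd (nat_lit 390) (nat_lit 1064) (nat_lit 0) (XT.nd (nat_lit 156) (nat_lit 988) (nat_lit 0) (XT.nd (nat_lit 78) (nat_lit 0) (nat_lit 0) (XT.lf (nat_lit 0) (nat_lit 8121630867) (nat_lit 532) (nat_lit 2031318649) (nat_lit 608) (nat_lit 10800235986) (nat_lit 133) (nat_lit 5) (nat_lit 140) (nat_lit 5) (nat_lit 141) (nat_lit 5) (nat_lit 325) (nat_lit 303) (nat_lit 152)) (XT.lf (nat_lit 0) (nat_lit 12058958462) (nat_lit 608) (nat_lit 3486272246) (nat_lit 76) (nat_lit 5769472355) (nat_lit 133) (nat_lit 5) (nat_lit 141) (nat_lit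 5) (nat_lit 134) (nat_lit 5) (nat_lit 326) (nat_lit 303) (nat_lit 151))) (XT.nd (nat_lit 78) (nat_lit 456) (nat_lit 0) (XT.lf (nat_lit 0) (nat_lit 6235255475) (nat_lit 532) (nat_lit 7860964748) (nat_lit 608) (nat_lit 7588635800) (nat_lit 126) (nat_lit 5) (nat_lit 133) (nat_lit 5) (nat_lit 134) (nat_lit 5) (nat_lit 327) (nat_lit 303) (nat_lit 150)) (XT.nd (nat_lit 78) (nat_lit 456) (nat_lit 0) (XT.lf (nat_lit 0) (nat_lit 16224816114) (nat_lit 608) (nat_lit 5751836684) (nat_lit 76) (nat_lit 88565989) (nat_lit 126) (nat_lit 5) (nat_lit 134) (nat_lit 5) (nat_lit 127) (nat_lit 5) (nat_lit 328) (nat_lit 303) (nat_lit 149)) (XT.lf (nat_lit 0) (nat_lit 4236051088) (nat_lit 456) (nat_lit 14294085915) (nat_lit 532) (nat_lit 3923480774) (nat_lit 120) (nat_lit 5) (nat_lit 126) (nat_lit 5) (nat_lit 127) (nat_lit 5) (nat_lit 329) (nat_lit 303) (nat_lit 148))))) (XT.nd (nat_lit 234) (nat_lit 456) (nat_lit 0)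 (XT.nd (nat_lit 78) (nat_lit 608) (nat_lit 0) (XT.lf (nat_lit 0) (nat_lit 14635899496) (nat_lit 456) (nat_lit 6321228448) (nat_lit 532) (nat_lit 1894976509) (nat_lit 120) (nat_lit 5) (nat_lit 126) (nat_lit 5) (nat_lit 127) (nat_lit 5) (nat_lit 330) (nat_lit 303) (nat_lit 147)) (XT.nd (nat_lit 78) (nat_lit 0) (nat_lit 0) (XT.lf (nat_lit 0) (nat_lit 223881858) (nat_lit 608) (nat_lit 21161306936) (nat_lit 76) (nat_lit 1876312513) (nat_lit 112) (nat_lit 5) (nat_lit 120) (nat_lit 5) (nat_lit 113) (nat_lit 5) (nat_lit 331) (nat_lit 303) (nat_lit 146)) (XT.lf (nat_lit 0) (nat_lit 2509226205) (nat_lit 608) (nat_lit 10874006619) (nat_lit 76) (nat_lit 10295164251) (nat_lit 112) (nat_lit 5) (nat_lit 120) (nat_lit 5) (nat_lit 113) (nat_lit 5) (nat_lit 332) (nat_lit 303) (nat_lit 145)))) (XT.nd (nat_lit 78) (nat_lit 456) (nat_lit 0) (XT.lf (nat_lit 0) (nat_lit 4857919172) (nat_lit 608) (nat_lit 283577952)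 (nat_lit 76) (nat_lit 18966468740) (nat_lit 112) (nat_lit 5) (nat_lit 120) (nat_lit 5) (nat_lit 113) (nat_lit 5) (nat_lit 333) (nat_lit 303) (nat_lit 144)) (XT.nd (nat_lit 78) (nat_lit 0) (nat_lit 0) (XT.lf (nat_lit 0) (nat_lit 7409329458) (nat_lit 532) (nat_lit 13750089654) (nat_lit 76) (nat_lit 3387044423) (nat_lit 106) (nat_lit 5) (nat_lit 113) (nat_lit 5) (nat_lit 107) (nat_lit 5) (nat_lit 334) (nat_lit 303) (nat_lit 143)) (XT.lf (nat_lit 0) (nat_lit 10086113593) (nat_lit 532) (nat_lit 2839860734) (nat_lit 76) (nat_lit 12070686100) (nat_lit 106) (nat_lit 5) (nat_lit 113) (nat_lit 5) (nat_lit 107) (nat_lit 5) (nat_lit 335) (nat_lit 303) (nat_lit 142)))))) (XT.nd (nat_lit 468) (nat_lit 1064) (nat_lit 0) (XT.nd (nat_lit 234) (nat_lit 456) (nat_lit 0) (XT.nd (nat_lit 78) (nat_lit 380) (nat_lit 0) (XT.lf (nat_lit 0) (nat_lit 8559424942) (nat_lit 456) (nat_lit 4361233081) (nat_lit 532) (nat_lit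 12537390466) (nat_lit 100) (nat_lit 5) (nat_lit 106) (nat_lit 5) (nat_lit 107) (nat_lit 5) (nat_lit 336) (nat_lit 303) (nat_lit 141)) (XT.nd (nat_lit 78) (nat_lit 380) (nat_lit 0) (XT.lf (nat_lit 0) (nat_lit 15907340156) (nat_lit 532) (nat_lit 5622044363) (nat_lit 76) (nat_lit 4401889338) (nat_lit 100) (nat_lit 5) (nat_lit 107) (nat_lit 5) (nat_lit 101) (nat_lit 5) (nat_lit 337) (nat_lit 303) (nat_lit 140)) (XT.lf (nat_lit 0) (nat_lit 6062744525) (nat_lit 380) (nat_lit 13017739344) (nat_lit 456) (nat_lit 7335314737) (nat_lit 95) (nat_lit 5) (nat_lit 100) (nat_lit 5) (nat_lit 101) (nat_lit 5) (nat_lit 338) (nat_lit 303) (nat_lit 139)))) (XT.nd (nat_lit 78) (nat_lit 456) (nat_lit 0) (XT.lf (nat_lit 0) (nat_lit 18208161461) (nat_lit 380) (nat_lit 4192918150) (nat_lit 456) (nat_lit 4512219962) (nat_lit 95) (nat_lit 5) (nat_lit 100) (nat_lit 5) (nat_lit 101) (nat_lit 5) (nat_lit 339) (nat_lit 303)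 (nat_lit 138)) (XT.nd (nat_lit 78) (nat_lit 76) (nat_lit 0) (XT.lf (nat_lit 0) (nat_lit 3304483068) (nat_lit 380) (nat_lit 22591255957) (nat_lit 456) (nat_lit 1527761136) (nat_lit 90) (nat_lit 5) (nat_lit 95) (nat_lit 5) (nat_lit 96) (nat_lit 5) (nat_lit 340) (nat_lit 303) (nat_lit 137)) (XT.lf (nat_lit 0) (nat_lit 1641988229) (nat_lit 456) (nat_lit 12155966548) (nat_lit 76) (nat_lit 14146835721) (nat_lit 89) (nat_lit 5) (nat_lit 95) (nat_lit 5) (nat_lit 90) (nat_lit 5) (nat_lit 341) (nat_lit 303) (nat_lit 136))))) (XT.nd (nat_lit 234) (nat_lit 684) (nat_lit 0) (XT.nd (nat_lit 78) (nat_lit 0) (nat_lit 0) (XT.lf (nat_lit 0) (nat_lit 148713331) (nat_lit 380) (nat_lit 4724606878) (nat_lit 456) (nat_lit 23608036939) (nat_lit 84) (nat_lit 5) (nat_lit 89) (nat_lit 5) (nat_lit 90) (nat_lit 5) (nat_lit 342) (nat_lit 303) (nat_lit 135)) (XT.nd (nat_lit 78) (nat_lit 0) (nat_lit 0) (XT.lf (nat_lit 0) (nat_lit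 8365812700) (nat_lit 456) (nat_lit 16009366122) (nat_lit 76) (nat_lit 4653922438) (nat_lit 84) (nat_lit 5) (nat_lit 90) (nat_lit 5) (nat_lit 85) (nat_lit 5) (nat_lit 343) (nat_lit 303) (nat_lit 134)) (XT.lf (nat_lit 0) (nat_lit 12005814024) (nat_lit 456) (nat_lit 3368131678) (nat_lit 76) (nat_lit 14218056843) (nat_lit 84) (nat_lit 5) (nat_lit 90) (nat_lit 5) (nat_lit 85) (nat_lit 5) (nat_lit 344) (nat_lit 303) (nat_lit 133)))) (XT.nd (nat_lit 78) (nat_lit 304) (nat_lit 0) (XT.lf (nat_lit 0) (nat_lit 9839525650) (nat_lit 380) (nat_lit 6006146845) (nat_lit 456) (nat_lit 14323405334) (nat_lit 79) (nat_lit 5) (nat_lit 84) (nat_lit 5) (nat_lit 85) (nat_lit 5) (nat_lit 345) (nat_lit 303) (nat_lit 132)) (XT.nd (nat_lit 78) (nat_lit 304) (nat_lit 0) (XT.lf (nat_lit 0) (nat_lit 19866223999) (nat_lit 456) (nat_lit 7290226330) (nat_lit 76) (nat_lit 3605056600) (nat_lit 79) (nat_lit 5) (nat_lit 85) (nat_lit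 5) (nat_lit 80) (nat_lit 5) (nat_lit 346) (nat_lit 303) (nat_lit 131)) (XT.lf (nat_lit 0) (nat_lit 6196995549) (nat_lit 304) (nat_lit 17925678515) (nat_lit 380) (nat_lit 7245582669) (nat_lit 75) (nat_lit 5) (nat_lit 79) (nat_lit 5) (nat_lit 80) (nat_lit 5) (nat_lit 347) (nat_lit 303) (nat_lit 130))))))))
noncomputable def xc213 : XT := (XT.nd (nat_lit 1794) (nat_lit 836) (nat_lit 0) (XT.nd (nat_lit 858) (nat_lit 1292) (nat_lit 0) (XT.nd (nat_lit 390) (nat_lit 608) (nat_lit 0) (XT.nd (nat_lit 156) (nat_lit 304) (nat_lit 0) (XT.nd (nat_lit 78) (nat_lit 380) (nat_lit 0) (XT.lf (nat_lit 0) (nat_lit 20233580428) (nat_lit 304) (nat_lit 8343164300) (nat_lit 380) (nat_lit 3414372597) (nat_lit 75) (nat_lit 5) (nat_lit 79) (nat_lit 5) (nat_lit 80) (nat_lit 5) (nat_lit 348) (nat_lit 303) (nat_lit 129)) (XT.lf (nat_lit 0) (nat_lit 552776541) (nat_lit 380) (nat_lit 30557312499) (nat_lit 76) (nat_lit 1521485710)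 (nat_lit 70) (nat_lit 5) (nat_lit 75) (nat_lit 5) (nat_lit 71) (nat_lit 5) (nat_lit 349) (nat_lit 303) (nat_lit 128))) (XT.nd (nat_lit 78) (nat_lit 304) (nat_lit 0) (XT.lf (nat_lit 0) (nat_lit 4769251631) (nat_lit 380) (nat_lit 16847931825) (nat_lit 76) (nat_lit 11667085750) (nat_lit 70) (nat_lit 5) (nat_lit 75) (nat_lit 5) (nat_lit 71) (nat_lit 5) (nat_lit 350) (nat_lit 303) (nat_lit 127)) (XT.nd (nat_lit 78) (nat_lit 304) (nat_lit 0) (XT.lf (nat_lit 0) (nat_lit 9108752822) (nat_lit 380) (nat_lit 2731827345) (nat_lit 76) (nat_lit 22116073799) (nat_lit 70) (nat_lit 5) (nat_lit 75) (nat_lit 5) (nat_lit 71) (nat_lit 5) (nat_lit 351) (nat_lit 303) (nat_lit 126)) (XT.lf (nat_lit 0) (nat_lit 12038244919) (nat_lit 304) (nat_lit 1652545966) (nat_lit 380) (nat_lit 20955054096) (nat_lit 66) (nat_lit 5) (nat_lit 70) (nat_lit 5) (nat_lit 71) (nat_lit 5) (nat_lit 352) (nat_lit 303) (nat_lit 125))))) (XT.nd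 (nat_lit 234) (nat_lit 304) (nat_lit 0) (XT.nd (nat_lit 78) (nat_lit 304) (nat_lit 0) (XT.lf (nat_lit 0) (nat_lit 18519814192) (nat_lit 380) (nat_lit 8137200131) (nat_lit 76) (nat_lit 8695416794) (nat_lit 66) (nat_lit 5) (nat_lit 71) (nat_lit 5) (nat_lit 67) (nat_lit 5) (nat_lit 353) (nat_lit 303) (nat_lit 124)) (XT.nd (nat_lit 78) (nat_lit 0) (nat_lit 0) (XT.lf (nat_lit 0) (nat_lit 6880875330) (nat_lit 304) (nat_lit 16692113163) (nat_lit 380) (nat_lit 12504852901) (nat_lit 62) (nat_lit 5) (nat_lit 66) (nat_lit 5) (nat_lit 67) (nat_lit 5) (nat_lit 354) (nat_lit 303) (nat_lit 123)) (XT.lf (nat_lit 0) (nat_lit 22511994992) (nat_lit 304) (nat_lit 6344760631) (nat_lit 380) (nat_lit 7965893248) (nat_lit 62) (nat_lit 5) (nat_lit 66) (nat_lit 5) (nat_lit 67) (nat_lit 5) (nat_lit 355) (nat_lit 303) (nat_lit 122)))) (XT.nd (nat_lit 78) (nat_lit 76) (nat_lit 0) (XT.lf (nat_lit 0) (nat_lit 995959218) (nat_lit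 228) (nat_lit 33351019310) (nat_lit 304) (nat_lit 3241388441) (nat_lit 59) (nat_lit 5) (nat_lit 62) (nat_lit 5) (nat_lit 63) (nat_lit 5) (nat_lit 356) (nat_lit 303) (nat_lit 121)) (XT.nd (nat_lit 78) (nat_lit 0) (nat_lit 0) (XT.lf (nat_lit 0) (nat_lit 1798829085) (nat_lit 304) (nat_lit 21401753214) (nat_lit 76) (nat_lit 15169839623) (nat_lit 58) (nat_lit 5) (nat_lit 62) (nat_lit 5) (nat_lit 59) (nat_lit 5) (nat_lit 357) (nat_lit 303) (nat_lit 120)) (XT.lf (nat_lit 0) (nat_lit 6922118555) (nat_lit 304) (nat_lit 5791634815) (nat_lit 76) (nat_lit 26461316224) (nat_lit 58) (nat_lit 5) (nat_lit 62) (nat_lit 5) (nat_lit 59) (nat_lit 5) (nat_lit 358) (nat_lit 303) (nat_lit 119)))))) (XT.nd (nat_lit 468) (nat_lit 532) (nat_lit 0) (XT.nd (nat_lit 234) (nat_lit 228) (nat_lit 0) (XT.nd (nat_lit 78) (nat_lit 228) (nat_lit 0) (XT.lf (nat_lit 0) (nat_lit 10487392360) (nat_lit 304) (nat_lit 1809626662) (nat_lit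 380) (nat_lit 27703904463) (nat_lit 54) (nat_lit 5) (nat_lit 58) (nat_lit 5) (nat_lit 59) (nat_lit 5) (nat_lit 359) (nat_lit 303) (nat_lit 118)) (XT.nd (nat_lit 78) (nat_lit 228) (nat_lit 0) (XT.lf (nat_lit 0) (nat_lit 17979932125) (nat_lit 380) (nat_lit 13571511276) (nat_lit 76) (nat_lit 9295710659) (nat_lit 54) (nat_lit 5) (nat_lit 59) (nat_lit 5) (nat_lit 55) (nat_lit 5) (nat_lit 360) (nat_lit 303) (nat_lit 117)) (XT.lf (nat_lit 0) (nat_lit 2883151053) (nat_lit 228) (nat_lit 20993032694) (nat_lit 304) (nat_lit 17841306191) (nat_lit 51) (nat_lit 5) (nat_lit 54) (nat_lit 5) (nat_lit 55) (nat_lit 5) (nat_lit 361) (nat_lit 303) (nat_lit 116)))) (XT.nd (nat_lit 78) (nat_lit 228) (nat_lit 0) (XT.lf (nat_lit 0) (nat_lit 20105733088) (nat_lit 228) (nat_lit 9977898184) (nat_lit 304) (nat_lit 12526279176) (nat_lit 51) (nat_lit 5) (nat_lit 54) (nat_lit 5) (nat_lit 55) (nat_lit 5) (nat_lit 362) (nat_lit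 303) (nat_lit 115)) (XT.nd (nat_lit 78) (nat_lit 228) (nat_lit 0) (XT.lf (nat_lit 0) (nat_lit 36487780661) (nat_lit 304) (nat_lit 5701139006) (nat_lit 76) (nat_lit 1339873247) (nat_lit 51) (nat_lit 5) (nat_lit 55) (nat_lit 5) (nat_lit 52) (nat_lit 5) (nat_lit 363) (nat_lit 303) (nat_lit 114)) (XT.lf (nat_lit 0) (nat_lit 11732372366) (nat_lit 228) (nat_lit 31560661066) (nat_lit 304) (nat_lit 1175942642) (nat_lit 48) (nat_lit 5) (nat_lit 51) (nat_lit 5) (nat_lit 52) (nat_lit 5) (nat_lit 364) (nat_lit 303) (nat_lit 113))))) (XT.nd (nat_lit 234) (nat_lit 228) (nat_lit 0) (XT.nd (nat_lit 78) (nat_lit 228) (nat_lit 0) (XT.lf (nat_lit 0) (nat_lit 4825704183) (nat_lit 304) (nat_lit 15681002589) (nat_lit 76) (nat_lit 24927591543) (nat_lit 47) (nat_lit 5) (nat_lit 51) (nat_lit 5) (nat_lit 48) (nat_lit 5) (nat_lit 365) (nat_lit 303) (nat_lit 112)) (XT.nd (nat_lit 78) (nat_lit 0) (nat_lit 0) (XT.lf (nat_lit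 0) (nat_lit 1908183674) (nat_lit 228) (nat_lit 9091419245) (nat_lit 304) (nat_lit 35428156164) (nat_lit 44) (nat_lit 5) (nat_lit 47) (nat_lit 5) (nat_lit 48) (nat_lit 5) (nat_lit 366) (nat_lit 303) (nat_lit 111)) (XT.lf (nat_lit 0) (nat_lit 17541786018) (nat_lit 304) (nat_lit 27130686025) (nat_lit 76) (nat_lit 2773062796) (nat_lit 44) (nat_lit 5) (nat_lit 48) (nat_lit 5) (nat_lit 45) (nat_lit 5) (nat_lit 367) (nat_lit 303) (nat_lit 110)))) (XT.nd (nat_lit 78) (nat_lit 228) (nat_lit 0) (XT.lf (nat_lit 0) (nat_lit 24367842701) (nat_lit 304) (nat_lit 9313741405) (nat_lit 76) (nat_lit 14809634612) (nat_lit 44) (nat_lit 5) (nat_lit 48) (nat_lit 5) (nat_lit 45) (nat_lit 5) (nat_lit 368) (nat_lit 303) (nat_lit 109)) (XT.nd (nat_lit 78) (nat_lit 0) (nat_lit 0) (XT.lf (nat_lit 0) (nat_lit 9214017607) (nat_lit 228) (nat_lit 22270898367) (nat_lit 304) (nat_lit 18080773098) (nat_lit 41) (nat_lit 5) (nat_lit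 44) (nat_lit 5) (nat_lit 45) (nat_lit 5) (nat_lit 369) (nat_lit 303) (nat_lit 108)) (XT.lf (nat_lit 0) (nat_lit 28485073583) (nat_lit 228) (nat_lit 10422177295) (nat_lit 304) (nat_lit 11762393091) (nat_lit 41) (nat_lit 5) (nat_lit 44) (nat_lit 5) (nat_lit 45) (nat_lit 5) (nat_lit 370) (nat_lit 303) (nat_lit 107))))))) (XT.nd (nat_lit 35412) (nat_lit 0) (nat_lit 9804) (XT.nd (nat_lit 468) (nat_lit 380) (nat_lit 0) (XT.nd (nat_lit 234) (nat_lit 228) (nat_lit 0) (XT.nd (nat_lit 78) (nat_lit 228) (nat_lit 0) (XT.lf (nat_lit 0) (nat_lit 46567140685) (nat_lit 304) (nat_lit 3493002700) (nat_lit 76) (nat_lit 1746130414) (nat_lit 41) (nat_lit 5) (nat_lit 45) (nat_lit 5) (nat_lit 42) (nat_lit 5) (nat_lit 371) (nat_lit 303) (nat_lit 106)) (XT.nd (nat_lit 78) (nat_lit 0) (nat_lit 0) (XT.lf (nat_lit 0) (nat_lit 1707934013) (nat_lit 228) (nat_lit 37021789177) (nat_lit 76) (nat_lit 14239145671) (nat_lit 38)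 (nat_lit 5) (nat_lit 41) (nat_lit 5) (nat_lit 39) (nat_lit 5) (nat_lit 372) (nat_lit 303) (nat_lit 105)) (XT.lf (nat_lit 0) (nat_lit 8791562017) (nat_lit 228) (nat_lit 18178868236) (nat_lit 76) (nat_lit 27193354429) (nat_lit 38) (nat_lit 5) (nat_lit 41) (nat_lit 5) (nat_lit 39) (nat_lit 5) (nat_lit 373) (nat_lit 303) (nat_lit 104)))) (XT.nd (nat_lit 78) (nat_lit 0) (nat_lit 0) (XT.lf (nat_lit 0) (nat_lit 1250508799) (nat_lit 228) (nat_lit 14847102504) (nat_lit 304) (nat_lit 39296641816) (nat_lit 35) (nat_lit 5) (nat_lit 38) (nat_lit 5) (nat_lit 39) (nat_lit 5) (nat_lit 374) (nat_lit 303) (nat_lit 103)) (XT.nd (nat_lit 78) (nat_lit 0) (nat_lit 0) (XT.lf (nat_lit 0) (nat_lit 21632214357) (nat_lit 228) (nat_lit 2172121047) (nat_lit 304) (nat_lit 32851857847) (nat_lit 35) (nat_lit 5) (nat_lit 38) (nat_lit 5) (nat_lit 39) (nat_lit 5) (nat_lit 375) (nat_lit 303) (nat_lit 102)) (XT.lf (nat_lit 0) (nat_lit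 31844848772) (nat_lit 304) (nat_lit 15438396517) (nat_lit 76) (nat_lit 10669671043) (nat_lit 35) (nat_lit 5) (nat_lit 39) (nat_lit 5) (nat_lit 36) (nat_lit 5) (nat_lit 376) (nat_lit 303) (nat_lit 101))))) (XT.nd (nat_lit 234) (nat_lit 228) (nat_lit 0) (XT.nd (nat_lit 78) (nat_lit 0) (nat_lit 0) (XT.lf (nat_lit 0) (nat_lit 4803920130) (nat_lit 152) (nat_lit 35388373267) (nat_lit 228) (nat_lit 19094278536) (nat_lit 33) (nat_lit 5) (nat_lit 35) (nat_lit 5) (nat_lit 36) (nat_lit 5) (nat_lit 377) (nat_lit 303) (nat_lit 100)) (XT.nd (nat_lit 78) (nat_lit 0) (nat_lit 0) (XT.lf (nat_lit 0) (nat_lit 25966939521) (nat_lit 152) (nat_lit 22977178988) (nat_lit 228) (nat_lit 11711502214) (nat_lit 33) (nat_lit 5) (nat_lit 35) (nat_lit 5) (nat_lit 36) (nat_lit 5) (nat_lit 378) (nat_lit 303) (nat_lit 99)) (XT.lf (nat_lit 0) (nat_lit 47761899252) (nat_lit 152) (nat_lit 10194715252) (nat_lit 228) (nat_lit 4109185158)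 (nat_lit 33) (nat_lit 5) (nat_lit 35) (nat_lit 5) (nat_lit 36) (nat_lit 5) (nat_lit 379) (nat_lit 303) (nat_lit 98)))) (XT.nd (nat_lit 78) (nat_lit 0) (nat_lit 0) (XT.lf (nat_lit 0) (nat_lit 3741522145) (nat_lit 228) (nat_lit 56758689645) (nat_lit 76) (nat_lit 3014213067) (nat_lit 30) (nat_lit 5) (nat_lit 33) (nat_lit 5) (nat_lit 31) (nat_lit 5) (nat_lit 380) (nat_lit 303) (nat_lit 97)) (XT.nd (nat_lit 78) (nat_lit 0) (nat_lit 0) (XT.lf (nat_lit 0) (nat_lit 11990136290) (nat_lit 228) (nat_lit 36407773879) (nat_lit 76) (nat_lit 16600030789) (nat_lit 30) (nat_lit 5) (nat_lit 33) (nat_lit 5) (nat_lit 31) (nat_lit 5) (nat_lit 381) (nat_lit 303) (nat_lit 96)) (XT.lf (nat_lit 0) (nat_lit 20484429191) (nat_lit 228) (nat_lit 15449166819) (nat_lit 76) (nat_lit 30592421853) (nat_lit 30) (nat_lit 5) (nat_lit 33) (nat_lit 5) (nat_lit 31) (nat_lit 5) (nat_lit 382) (nat_lit 303) (nat_lit 95)))))) (XT.nd (nat_lit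 468) (nat_lit 0) (nat_lit 152) (XT.nd (nat_lit 234) (nat_lit 0) (nat_lit 76) (XT.nd (nat_lit 78) (nat_lit 0) (nat_lit 0) (XT.lf (nat_lit 0) (nat_lit 3282466052) (nat_lit 1140) (nat_lit 2178379331) (nat_lit 1140) (nat_lit 2178379331) (nat_lit 159) (nat_lit 3) (nat_lit 174) (nat_lit 3) (nat_lit 174) (nat_lit 5) (nat_lit 304) (nat_lit 304) (nat_lit 172)) (XT.nd (nat_lit 78) (nat_lit 0) (nat_lit 76) (XT.lf (nat_lit 76) (nat_lit 2154574339) (nat_lit 0) (nat_lit 4790644417) (nat_lit 1140) (nat_lit 8553378593) (nat_lit 160) (nat_lit 5) (nat_lit 159) (nat_lit 3) (nat_lit 174) (nat_lit 5) (nat_lit 305) (nat_lit 304) (nat_lit 171)) (XT.lf (nat_lit 0) (nat_lit 7385802406) (nat_lit 1064) (nat_lit 6794301980) (nat_lit 1140) (nat_lit 1543801083) (nat_lit 160) (nat_lit 5) (nat_lit 174) (nat_lit 5) (nat_lit 175) (nat_lit 5) (nat_lit 306) (nat_lit 304) (nat_lit 170)))) (XT.nd (nat_lit 78) (nat_lit 0) (nat_lit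 0) (XT.lf (nat_lit 0) (nat_lit 7877137887) (nat_lit 1064) (nat_lit 101094565) (nat_lit 1140) (nat_lit 7976636119) (nat_lit 160) (nat_lit 5) (nat_lit 174) (nat_lit 5) (nat_lit 175) (nat_lit 5) (nat_lit 307) (nat_lit 304) (nat_lit 169)) (XT.nd (nat_lit 78) (nat_lit 0) (nat_lit 76) (XT.lf (nat_lit 76) (nat_lit 6922582798) (nat_lit 0) (nat_lit 1517565219) (nat_lit 1140) (nat_lit 7750925642) (nat_lit 161) (nat_lit 5) (nat_lit 160) (nat_lit 5) (nat_lit 175) (nat_lit 5) (nat_lit 308) (nat_lit 304) (nat_lit 168)) (XT.lf (nat_lit 0) (nat_lit 9061116200) (nat_lit 1064) (nat_lit 2330379174) (nat_lit 1140) (nat_lit 5041658011) (nat_lit 161) (nat_lit 5) (nat_lit 175) (nat_lit 5) (nat_lit 176) (nat_lit 5) (nat_lit 309) (nat_lit 304) (nat_lit 167))))) (XT.nd (nat_lit 234) (nat_lit 0) (nat_lit 76) (XT.nd (nat_lit 78) (nat_lit 0) (nat_lit 76) (XT.lf (nat_lit 76) (nat_lit 4890754292) (nat_lit 0) (nat_lit 4862927112)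 (nat_lit 1140) (nat_lit 6927244979) (nat_lit 162) (nat_lit 5) (nat_lit 161) (nat_lit 5) (nat_lit 176) (nat_lit 5) (nat_lit 310) (nat_lit 304) (nat_lit 166)) (XT.nd (nat_lit 78) (nat_lit 0) (nat_lit 0) (XT.lf (nat_lit 0) (nat_lit 10499856356) (nat_lit 1064) (nat_lit 4583056968) (nat_lit 1140) (nat_lit 1852253601) (nat_lit 162) (nat_lit 5) (nat_lit 176) (nat_lit 5) (nat_lit 177) (nat_lit 5) (nat_lit 311) (nat_lit 304) (nat_lit 165)) (XT.lf (nat_lit 76) (nat_lit 2841953609) (nat_lit 0) (nat_lit 8493360092) (nat_lit 1140) (nat_lit 5859732842) (nat_lit 163) (nat_lit 5) (nat_lit 162) (nat_lit 5) (nat_lit 177) (nat_lit 5) (nat_lit 312) (nat_lit 304) (nat_lit 164)))) (XT.nd (nat_lit 78) (nat_lit 0) (nat_lit 76) (XT.lf (nat_lit 76) (nat_lit 10578090889) (nat_lit 0) (nat_lit 1655650555) (nat_lit 1140) (nat_lit 5227862137) (nat_lit 163) (nat_lit 5) (nat_lit 162) (nat_lit 5) (nat_lit 177) (nat_lit 5) (nat_lit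 313) (nat_lit 304) (nat_lit 163)) (XT.nd (nat_lit 78) (nat_lit 0) (nat_lit 0) (XT.lf (nat_lit 76) (nat_lit 767652425) (nat_lit 0) (nat_lit 12442530516) (nat_lit 1140) (nat_lit 4524460257) (nat_lit 164) (nat_lit 5) (nat_lit 163) (nat_lit 5) (nat_lit 178) (nat_lit 5) (nat_lit 314) (nat_lit 304) (nat_lit 162)) (XT.lf (nat_lit 76) (nat_lit 8767097561) (nat_lit 0) (nat_lit 5526640570) (nat_lit 1140) (nat_lit 3719818442) (nat_lit 164) (nat_lit 5) (nat_lit 163) (nat_lit 5) (nat_lit 178) (nat_lit 5) (nat_lit 315) (nat_lit 304) (nat_lit 161))))))))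
noncomputable def xc214 : XT := (XT.nd (nat_lit 1794) (nat_lit 3496) (nat_lit 0) (XT.nd (nat_lit 858) (nat_lit 2508) (nat_lit 0) (XT.nd (nat_lit 390) (nat_lit 1292) (nat_lit 0) (XT.nd (nat_lit 156) (nat_lit 1064) (nat_lit 0) (XT.nd (nat_lit 78) (nat_lit 0) (nat_lit 0) (XT.lf (nat_lit 0) (nat_lit 15417479282) (nat_lit 1064) (nat_lit 1315405748) (nat_lit 1140) (nat_lit 1567738622) (nat_lit 164) (nat_lit 5) (nat_lit 178) (nat_lit 5) (nat_lit 179) (nat_lit 5) (nat_lit 316) (nat_lit 304) (nat_lit 160)) (XT.lf (nat_lit 76) (nat_lit 6928481132) (nat_lit 0) (nat_lit 9760325524) (nat_lit 1140) (nat_lit 1904096063) (nat_lit 165) (nat_lit 5) (nat_lit 164) (nat_lit 5) (nat_lit 179) (nat_lit 5) (nat_lit 317) (nat_lit 304) (nat_lit 159))) (XT.nd (nat_lit 78) (nat_lit 1064) (nat_lit 0) (XT.lf (nat_lit 76) (nat_lit 15441125447) (nat_lit 0) (nat_lit 2563149179) (nat_lit 1140) (nat_lit 889511234) (nat_lit 165)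 (nat_lit 5) (nat_lit 164) (nat_lit 5) (nat_lit 179) (nat_lit 5) (nat_lit 318) (nat_lit 304) (nat_lit 158)) (XT.nd (nat_lit 78) (nat_lit 0) (nat_lit 0) (XT.lf (nat_lit 0) (nat_lit 241462070) (nat_lit 1140) (nat_lit 14151628896) (nat_lit 1216) (nat_lit 4807904938) (nat_lit 150) (nat_lit 5) (nat_lit 165) (nat_lit 5) (nat_lit 166) (nat_lit 5) (nat_lit 319) (nat_lit 304) (nat_lit 157)) (XT.lf (nat_lit 0) (nat_lit 1442089781) (nat_lit 1140) (nat_lit 5679379873) (nat_lit 1216) (nat_lit 12394094670) (nat_lit 150) (nat_lit 5) (nat_lit 165) (nat_lit 5) (nat_lit 166) (nat_lit 5) (nat_lit 320) (nat_lit 304) (nat_lit 156))))) (XT.nd (nat_lit 234) (nat_lit 532) (nat_lit 0) (XT.nd (nat_lit 78) (nat_lit 836) (nat_lit 0) (XT.lf (nat_lit 0) (nat_lit 2705621352) (nat_lit 1140) (nat_lit 16740710615) (nat_lit 76) (nat_lit 392445249) (nat_lit 151) (nat_lit 5) (nat_lit 166) (nat_lit 5) (nat_lit 152) (nat_lit 5) (nat_lit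 321) (nat_lit 304) (nat_lit 155)) (XT.nd (nat_lit 78) (nat_lit 836) (nat_lit 0) (XT.lf (nat_lit 0) (nat_lit 4128861677) (nat_lit 1140) (nat_lit 7991493498) (nat_lit 76) (nat_lit 8047690800) (nat_lit 151) (nat_lit 5) (nat_lit 166) (nat_lit 5) (nat_lit 152) (nat_lit 5) (nat_lit 322) (nat_lit 304) (nat_lit 154)) (XT.lf (nat_lit 0) (nat_lit 1034851797) (nat_lit 836) (nat_lit 4563462788) (nat_lit 912) (nat_lit 14908785919) (nat_lit 140) (nat_lit 5) (nat_lit 151) (nat_lit 5) (nat_lit 152) (nat_lit 5) (nat_lit 323) (nat_lit 304) (nat_lit 153)))) (XT.nd (nat_lit 78) (nat_lit 532) (nat_lit 0) (XT.lf (nat_lit 0) (nat_lit 7218012538) (nat_lit 912) (nat_lit 10395550587) (nat_lit 76) (nat_lit 3239591485) (nat_lit 140) (nat_lit 5) (nat_lit 152) (nat_lit 5) (nat_lit 141) (nat_lit 5) (nat_lit 324) (nat_lit 304) (nat_lit 152)) (XT.nd (nat_lit 78) (nat_lit 532) (nat_lit 0) (XT.lf (nat_lit 0) (nat_lit 8925377558)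 (nat_lit 912) (nat_lit 1097265574) (nat_lit 76) (nat_lit 11185787337) (nat_lit 140) (nat_lit 5) (nat_lit 152) (nat_lit 5) (nat_lit 141) (nat_lit 5) (nat_lit 325) (nat_lit 304) (nat_lit 151)) (XT.lf (nat_lit 0) (nat_lit 8643258956) (nat_lit 532) (nat_lit 2117860057) (nat_lit 608) (nat_lit 10810942977) (nat_lit 133) (nat_lit 5) (nat_lit 140) (nat_lit 5) (nat_lit 141) (nat_lit 5) (nat_lit 326) (nat_lit 304) (nat_lit 150)))))) (XT.nd (nat_lit 468) (nat_lit 912) (nat_lit 0) (XT.nd (nat_lit 234) (nat_lit 1064) (nat_lit 0) (XT.nd (nat_lit 78) (nat_lit 532) (nat_lit 0) (XT.lf (nat_lit 0) (nat_lit 12715227128) (nat_lit 608) (nat_lit 3311302800) (nat_lit 76) (nat_lit 5918185395) (nat_lit 133) (nat_lit 5) (nat_lit 141) (nat_lit 5) (nat_lit 134) (nat_lit 5) (nat_lit 327) (nat_lit 304) (nat_lit 149)) (XT.nd (nat_lit 78) (nat_lit 0) (nat_lit 0) (XT.lf (nat_lit 0) (nat_lit 6699129991) (nat_lit 532) (nat_lit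 8108560017) (nat_lit 608) (nat_lit 7518477664) (nat_lit 126) (nat_lit 5) (nat_lit 133) (nat_lit 5) (nat_lit 134) (nat_lit 5) (nat_lit 328) (nat_lit 304) (nat_lit 148)) (XT.lf (nat_lit 0) (nat_lit 16991628629) (nat_lit 608) (nat_lit 5646562669) (nat_lit 76) (nat_lit 80022266) (nat_lit 126) (nat_lit 5) (nat_lit 134) (nat_lit 5) (nat_lit 127) (nat_lit 5) (nat_lit 329) (nat_lit 304) (nat_lit 147)))) (XT.nd (nat_lit 78) (nat_lit 608) (nat_lit 0) (XT.lf (nat_lit 0) (nat_lit 4638237922) (nat_lit 456) (nat_lit 14722358382) (nat_lit 532) (nat_lit 3757849909) (nat_lit 120) (nat_lit 5) (nat_lit 126) (nat_lit 5) (nat_lit 127) (nat_lit 5) (nat_lit 330) (nat_lit 304) (nat_lit 146)) (XT.nd (nat_lit 78) (nat_lit 608) (nat_lit 0) (XT.lf (nat_lit 0) (nat_lit 15342069006) (nat_lit 456) (nat_lit 6510331215) (nat_lit 532) (nat_lit 1676743001) (nat_lit 120) (nat_lit 5) (nat_lit 126) (nat_lit 5) (nat_lit 127) (nat_lit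 5) (nat_lit 331) (nat_lit 304) (nat_lit 145)) (XT.lf (nat_lit 0) (nat_lit 495111869) (nat_lit 608) (nat_lit 21517474800) (nat_lit 76) (nat_lit 1938326946) (nat_lit 112) (nat_lit 5) (nat_lit 120) (nat_lit 5) (nat_lit 113) (nat_lit 5) (nat_lit 332) (nat_lit 304) (nat_lit 144))))) (XT.nd (nat_lit 234) (nat_lit 456) (nat_lit 0) (XT.nd (nat_lit 78) (nat_lit 456) (nat_lit 0) (XT.lf (nat_lit 0) (nat_lit 2841312268) (nat_lit 608) (nat_lit 10929672113) (nat_lit 76) (nat_lit 10609577487) (nat_lit 112) (nat_lit 5) (nat_lit 120) (nat_lit 5) (nat_lit 113) (nat_lit 5) (nat_lit 333) (nat_lit 304) (nat_lit 143)) (XT.nd (nat_lit 78) (nat_lit 456) (nat_lit 0) (XT.lf (nat_lit 0) (nat_lit 5252986142) (nat_lit 608) (nat_lit 29410821) (nat_lit 76) (nat_lit 19540859218) (nat_lit 112) (nat_lit 5) (nat_lit 120) (nat_lit 5) (nat_lit 113) (nat_lit 5) (nat_lit 334) (nat_lit 304) (nat_lit 142)) (XT.lf (nat_lit 0) (nat_lit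 7876326248) (nat_lit 532) (nat_lit 13894850261) (nat_lit 76) (nat_lit 3503884301) (nat_lit 106) (nat_lit 5) (nat_lit 113) (nat_lit 5) (nat_lit 107) (nat_lit 5) (nat_lit 335) (nat_lit 304) (nat_lit 141)))) (XT.nd (nat_lit 78) (nat_lit 456) (nat_lit 0) (XT.lf (nat_lit 0) (nat_lit 10626286230) (nat_lit 532) (nat_lit 2665112787) (nat_lit 76) (nat_lit 12447591678) (nat_lit 106) (nat_lit 5) (nat_lit 113) (nat_lit 5) (nat_lit 107) (nat_lit 5) (nat_lit 336) (nat_lit 304) (nat_lit 140)) (XT.nd (nat_lit 78) (nat_lit 0) (nat_lit 0) (XT.lf (nat_lit 0) (nat_lit 9073602991) (nat_lit 456) (nat_lit 4467818168) (nat_lit 532) (nat_lit 12672945485) (nat_lit 100) (nat_lit 5) (nat_lit 106) (nat_lit 5) (nat_lit 107) (nat_lit 5) (nat_lit 337) (nat_lit 304) (nat_lit 139)) (XT.lf (nat_lit 0) (nat_lit 16611139506) (nat_lit 532) (nat_lit 5533826591) (nat_lit 76) (nat_lit 4557032099) (nat_lit 100) (nat_lit 5) (nat_lit 107)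 (nat_lit 5) (nat_lit 101) (nat_lit 5) (nat_lit 338) (nat_lit 304) (nat_lit 138))))))) (XT.nd (nat_lit 858) (nat_lit 1596) (nat_lit 0) (XT.nd (nat_lit 390) (nat_lit 684) (nat_lit 0) (XT.nd (nat_lit 156) (nat_lit 836) (nat_lit 0) (XT.nd (nat_lit 78) (nat_lit 0) (nat_lit 0) (XT.lf (nat_lit 0) (nat_lit 6498987541) (nat_lit 380) (nat_lit 13376335668) (nat_lit 456) (nat_lit 7325872239) (nat_lit 95) (nat_lit 5) (nat_lit 100) (nat_lit 5) (nat_lit 101) (nat_lit 5) (nat_lit 339) (nat_lit 304) (nat_lit 137)) (XT.lf (nat_lit 0) (nat_lit 19001358422) (nat_lit 380) (nat_lit 4287700008) (nat_lit 456) (nat_lit 4424769144) (nat_lit 95) (nat_lit 5) (nat_lit 100) (nat_lit 5) (nat_lit 101) (nat_lit 5) (nat_lit 340) (nat_lit 304) (nat_lit 136))) (XT.nd (nat_lit 78) (nat_lit 456) (nat_lit 0) (XT.lf (nat_lit 0) (nat_lit 3654657078) (nat_lit 380) (nat_lit 23230313357) (nat_lit 456) (nat_lit 1354482796) (nat_lit 90)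 (nat_lit 5) (nat_lit 95) (nat_lit 5) (nat_lit 96) (nat_lit 5) (nat_lit 341) (nat_lit 304) (nat_lit 135)) (XT.nd (nat_lit 78) (nat_lit 380) (nat_lit 0) (XT.lf (nat_lit 0) (nat_lit 1899826057) (nat_lit 456) (nat_lit 12272407464) (nat_lit 76) (nat_lit 14604284068) (nat_lit 89) (nat_lit 5) (nat_lit 95) (nat_lit 5) (nat_lit 90) (nat_lit 5) (nat_lit 342) (nat_lit 304) (nat_lit 134)) (XT.lf (nat_lit 0) (nat_lit 398979105) (nat_lit 380) (nat_lit 4825406620) (nat_lit 456) (nat_lit 24104917345) (nat_lit 84) (nat_lit 5) (nat_lit 89) (nat_lit 5) (nat_lit 90) (nat_lit 5) (nat_lit 343) (nat_lit 304) (nat_lit 133))))) (XT.nd (nat_lit 234) (nat_lit 304) (nat_lit 0) (XT.nd (nat_lit 78) (nat_lit 380) (nat_lit 0) (XT.lf (nat_lit 0) (nat_lit 8816068086) (nat_lit 456) (nat_lit 16245078523) (nat_lit 76) (nat_lit 4832510603) (nat_lit 84) (nat_lit 5) (nat_lit 90) (nat_lit 5) (nat_lit 85) (nat_lit 5) (nat_lit 344) (nat_lit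 304) (nat_lit 132)) (XT.nd (nat_lit 78) (nat_lit 380) (nat_lit 0) (XT.lf (nat_lit 0) (nat_lit 12559465149) (nat_lit 456) (nat_lit 3231730403) (nat_lit 76) (nat_lit 14682433977) (nat_lit 84) (nat_lit 5) (nat_lit 90) (nat_lit 5) (nat_lit 85) (nat_lit 5) (nat_lit 345) (nat_lit 304) (nat_lit 131)) (XT.lf (nat_lit 0) (nat_lit 10369828750) (nat_lit 380) (nat_lit 6141315471) (nat_lit 456) (nat_lit 14556983681) (nat_lit 79) (nat_lit 5) (nat_lit 84) (nat_lit 5) (nat_lit 85) (nat_lit 5) (nat_lit 346) (nat_lit 304) (nat_lit 130)))) (XT.nd (nat_lit 78) (nat_lit 304) (nat_lit 0) (XT.lf (nat_lit 0) (nat_lit 20647195449) (nat_lit 456) (nat_lit 7275237127) (nat_lit 76) (nat_lit 3756060103) (nat_lit 79) (nat_lit 5) (nat_lit 85) (nat_lit 5) (nat_lit 80) (nat_lit 5) (nat_lit 347) (nat_lit 304) (nat_lit 129)) (XT.nd (nat_lit 78) (nat_lit 0) (nat_lit 0) (XT.lf (nat_lit 0) (nat_lit 6614310272) (nat_lit 304) (nat_lit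 18413865245) (nat_lit 380) (nat_lit 7275373392) (nat_lit 75) (nat_lit 5) (nat_lit 79) (nat_lit 5) (nat_lit 80) (nat_lit 5) (nat_lit 348) (nat_lit 304) (nat_lit 128)) (XT.lf (nat_lit 0) (nat_lit 21065252750) (nat_lit 304) (nat_lit 8545319786) (nat_lit 380) (nat_lit 3334690419) (nat_lit 75) (nat_lit 5) (nat_lit 79) (nat_lit 5) (nat_lit 80) (nat_lit 5) (nat_lit 349) (nat_lit 304) (nat_lit 127)))))) (XT.nd (nat_lit 468) (nat_lit 608) (nat_lit 0) (XT.nd (nat_lit 234) (nat_lit 608) (nat_lit 0) (XT.nd (nat_lit 78) (nat_lit 0) (nat_lit 0) (XT.lf (nat_lit 0) (nat_lit 745381337) (nat_lit 380) (nat_lit 31242716134) (nat_lit 76) (nat_lit 1616868519) (nat_lit 70) (nat_lit 5) (nat_lit 75) (nat_lit 5) (nat_lit 71) (nat_lit 5) (nat_lit 350) (nat_lit 304) (nat_lit 126)) (XT.nd (nat_lit 78) (nat_lit 0) (nat_lit 0) (XT.lf (nat_lit 0) (nat_lit 5083223840) (nat_lit 380) (nat_lit 17128791392) (nat_lit 76) (nat_lit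 12065387874) (nat_lit 70) (nat_lit 5) (nat_lit 75) (nat_lit 5) (nat_lit 71) (nat_lit 5) (nat_lit 351) (nat_lit 304) (nat_lit 125)) (XT.lf (nat_lit 0) (nat_lit 9547932552) (nat_lit 380) (nat_lit 2595744896) (nat_lit 76) (nat_lit 22826439072) (nat_lit 70) (nat_lit 5) (nat_lit 75) (nat_lit 5) (nat_lit 71) (nat_lit 5) (nat_lit 352) (nat_lit 304) (nat_lit 124)))) (XT.nd (nat_lit 78) (nat_lit 304) (nat_lit 0) (XT.lf (nat_lit 0) (nat_lit 12615291916) (nat_lit 304) (nat_lit 1649382663) (nat_lit 380) (nat_lit 21415398962) (nat_lit 66) (nat_lit 5) (nat_lit 70) (nat_lit 5) (nat_lit 71) (nat_lit 5) (nat_lit 353) (nat_lit 304) (nat_lit 123)) (XT.nd (nat_lit 78) (nat_lit 304) (nat_lit 0) (XT.lf (nat_lit 0) (nat_lit 19234308553) (nat_lit 380) (nat_lit 8167200141) (nat_lit 76) (nat_lit 9006483707) (nat_lit 66) (nat_lit 5) (nat_lit 71) (nat_lit 5) (nat_lit 67) (nat_lit 5) (nat_lit 354) (nat_lit 304) (nat_lit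 122)) (XT.lf (nat_lit 0) (nat_lit 7299318407) (nat_lit 304) (nat_lit 17137169558) (nat_lit 380) (nat_lit 12718761851) (nat_lit 62) (nat_lit 5) (nat_lit 66) (nat_lit 5) (nat_lit 67) (nat_lit 5) (nat_lit 355) (nat_lit 304) (nat_lit 121))))) (XT.nd (nat_lit 234) (nat_lit 304) (nat_lit 0) (XT.nd (nat_lit 78) (nat_lit 304) (nat_lit 0) (XT.lf (nat_lit 0) (nat_lit 23393196412) (nat_lit 304) (nat_lit 6481018984) (nat_lit 380) (nat_lit 8048329621) (nat_lit 62) (nat_lit 5) (nat_lit 66) (nat_lit 5) (nat_lit 67) (nat_lit 5) (nat_lit 356) (nat_lit 304) (nat_lit 120)) (XT.nd (nat_lit 78) (nat_lit 76) (nat_lit 0) (XT.lf (nat_lit 0) (nat_lit 1233883140) (nat_lit 228) (nat_lit 34293346347) (nat_lit 304) (nat_lit 3184069354) (nat_lit 59) (nat_lit 5) (nat_lit 62) (nat_lit 5) (nat_lit 63) (nat_lit 5) (nat_lit 357) (nat_lit 304) (nat_lit 119)) (XT.lf (nat_lit 0) (nat_lit 1999924738) (nat_lit 304) (nat_lit 21838681003)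 (nat_lit 76) (nat_lit 15678303877) (nat_lit 58) (nat_lit 5) (nat_lit 62) (nat_lit 5) (nat_lit 59) (nat_lit 5) (nat_lit 358) (nat_lit 304) (nat_lit 118)))) (XT.nd (nat_lit 78) (nat_lit 304) (nat_lit 0) (XT.lf (nat_lit 0) (nat_lit 7272627530) (nat_lit 304) (nat_lit 5766233562) (nat_lit 76) (nat_lit 27306970336) (nat_lit 58) (nat_lit 5) (nat_lit 62) (nat_lit 5) (nat_lit 59) (nat_lit 5) (nat_lit 359) (nat_lit 304) (nat_lit 117)) (XT.nd (nat_lit 78) (nat_lit 0) (nat_lit 0) (XT.lf (nat_lit 0) (nat_lit 10999211974) (nat_lit 304) (nat_lit 1807298076) (nat_lit 380) (nat_lit 28390024801) (nat_lit 54) (nat_lit 5) (nat_lit 58) (nat_lit 5) (nat_lit 59) (nat_lit 5) (nat_lit 360) (nat_lit 304) (nat_lit 116)) (XT.lf (nat_lit 0) (nat_lit 18656344360) (nat_lit 380) (nat_lit 13783443079) (nat_lit 76) (nat_lit 9628477685) (nat_lit 54) (nat_lit 5) (nat_lit 59) (nat_lit 5) (nat_lit 55) (nat_lit 5) (nat_lit 361) (nat_lit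 304) (nat_lit 115))))))))
noncomputable def xc215 : XT := (XT.nd (nat_lit 36348) (nat_lit 0) (nat_lit 7296) (XT.nd (nat_lit 858) (nat_lit 836) (nat_lit 0) (XT.nd (nat_lit 390) (nat_lit 456) (nat_lit 0) (XT.nd (nat_lit 156) (nat_lit 304) (nat_lit 0) (XT.nd (nat_lit 78) (nat_lit 0) (nat_lit 0) (XT.lf (nat_lit 0) (nat_lit 3162945261) (nat_lit 228) (nat_lit 21564405677) (nat_lit 304) (nat_lit 18237429743) (nat_lit 51) (nat_lit 5) (nat_lit 54) (nat_lit 5) (nat_lit 55) (nat_lit 5) (nat_lit 362) (nat_lit 304) (nat_lit 114)) (XT.lf (nat_lit 0) (nat_lit 20896574670) (nat_lit 228) (nat_lit 10220518626) (nat_lit 304) (nat_lit 12767003829) (nat_lit 51) (nat_lit 5) (nat_lit 54) (nat_lit 5) (nat_lit 55) (nat_lit 5) (nat_lit 363) (nat_lit 304) (nat_lit 113))) (XT.nd (nat_lit 78) (nat_lit 304) (nat_lit 0) (XT.lf (nat_lit 0) (nat_lit 37710082314) (nat_lit 304) (nat_lit 5686508097) (nat_lit 76) (nat_lit 1434059502)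 (nat_lit 51) (nat_lit 5) (nat_lit 55) (nat_lit 5) (nat_lit 52) (nat_lit 5) (nat_lit 364) (nat_lit 304) (nat_lit 112)) (XT.nd (nat_lit 78) (nat_lit 76) (nat_lit 0) (XT.lf (nat_lit 0) (nat_lit 12268188370) (nat_lit 228) (nat_lit 32449353035) (nat_lit 304) (nat_lit 1081560849) (nat_lit 48) (nat_lit 5) (nat_lit 51) (nat_lit 5) (nat_lit 52) (nat_lit 5) (nat_lit 365) (nat_lit 304) (nat_lit 111)) (XT.lf (nat_lit 0) (nat_lit 5093902432) (nat_lit 304) (nat_lit 15970324353) (nat_lit 76) (nat_lit 25729235923) (nat_lit 47) (nat_lit 5) (nat_lit 51) (nat_lit 5) (nat_lit 48) (nat_lit 5) (nat_lit 366) (nat_lit 304) (nat_lit 110))))) (XT.nd (nat_lit 234) (nat_lit 228) (nat_lit 0) (XT.nd (nat_lit 78) (nat_lit 0) (nat_lit 0) (XT.lf (nat_lit 0) (nat_lit 2144761927) (nat_lit 228) (nat_lit 9306385094) (nat_lit 304) (nat_lit 36365641122) (nat_lit 44) (nat_lit 5) (nat_lit 47) (nat_lit 5) (nat_lit 48) (nat_lit 5) (nat_lit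 367) (nat_lit 304) (nat_lit 109)) (XT.nd (nat_lit 78) (nat_lit 0) (nat_lit 0) (XT.lf (nat_lit 0) (nat_lit 18186594356) (nat_lit 304) (nat_lit 27767343431) (nat_lit 76) (nat_lit 2911253996) (nat_lit 44) (nat_lit 5) (nat_lit 48) (nat_lit 5) (nat_lit 45) (nat_lit 5) (nat_lit 368) (nat_lit 304) (nat_lit 108)) (XT.lf (nat_lit 0) (nat_lit 25213979689) (nat_lit 304) (nat_lit 9421053478) (nat_lit 76) (nat_lit 15307321045) (nat_lit 44) (nat_lit 5) (nat_lit 48) (nat_lit 5) (nat_lit 45) (nat_lit 5) (nat_lit 369) (nat_lit 304) (nat_lit 107)))) (XT.nd (nat_lit 78) (nat_lit 0) (nat_lit 0) (XT.lf (nat_lit 0) (nat_lit 9660851048) (nat_lit 228) (nat_lit 22881999747) (nat_lit 304) (nat_lit 18506263621) (nat_lit 41) (nat_lit 5) (nat_lit 44) (nat_lit 5) (nat_lit 45) (nat_lit 5) (nat_lit 370) (nat_lit 304) (nat_lit 106)) (XT.nd (nat_lit 78) (nat_lit 0) (nat_lit 0) (XT.lf (nat_lit 0) (nat_lit 29505075221) (nat_lit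 228) (nat_lit 10679477982) (nat_lit 304) (nat_lit 12001738020) (nat_lit 41) (nat_lit 5) (nat_lit 44) (nat_lit 5) (nat_lit 45) (nat_lit 5) (nat_lit 371) (nat_lit 304) (nat_lit 105)) (XT.lf (nat_lit 0) (nat_lit 48071550049) (nat_lit 304) (nat_lit 3434337153) (nat_lit 76) (nat_lit 1851217500) (nat_lit 41) (nat_lit 5) (nat_lit 45) (nat_lit 5) (nat_lit 42) (nat_lit 5) (nat_lit 372) (nat_lit 304) (nat_lit 104)))))) (XT.nd (nat_lit 468) (nat_lit 228) (nat_lit 0) (XT.nd (nat_lit 234) (nat_lit 152) (nat_lit 0) (XT.nd (nat_lit 78) (nat_lit 228) (nat_lit 0) (XT.lf (nat_lit 0) (nat_lit 1866171692) (nat_lit 228) (nat_lit 37968332546) (nat_lit 76) (nat_lit 14720093018) (nat_lit 38) (nat_lit 5) (nat_lit 41) (nat_lit 5) (nat_lit 39) (nat_lit 5) (nat_lit 373) (nat_lit 304) (nat_lit 103)) (XT.nd (nat_lit 78) (nat_lit 228) (nat_lit 0) (XT.lf (nat_lit 0) (nat_lit 9159192041) (nat_lit 228) (nat_lit 18564903888) (nat_lit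 76) (nat_lit 28061361835) (nat_lit 38) (nat_lit 5) (nat_lit 41) (nat_lit 5) (nat_lit 39) (nat_lit 5) (nat_lit 374) (nat_lit 304) (nat_lit 102)) (XT.lf (nat_lit 0) (nat_lit 1445792394) (nat_lit 228) (nat_lit 15237121253) (nat_lit 304) (nat_lit 40369975493) (nat_lit 35) (nat_lit 5) (nat_lit 38) (nat_lit 5) (nat_lit 39) (nat_lit 5) (nat_lit 375) (nat_lit 304) (nat_lit 101)))) (XT.nd (nat_lit 78) (nat_lit 152) (nat_lit 0) (XT.lf (nat_lit 0) (nat_lit 22434353925) (nat_lit 228) (nat_lit 2183503780) (nat_lit 304) (nat_lit 33734922730) (nat_lit 35) (nat_lit 5) (nat_lit 38) (nat_lit 5) (nat_lit 39) (nat_lit 5) (nat_lit 376) (nat_lit 304) (nat_lit 100)) (XT.nd (nat_lit 78) (nat_lit 152) (nat_lit 0) (XT.lf (nat_lit 0) (nat_lit 32897193472) (nat_lit 304) (nat_lit 15750330183) (nat_lit 76) (nat_lit 11040956747) (nat_lit 35) (nat_lit 5) (nat_lit 39) (nat_lit 5) (nat_lit 36) (nat_lit 5) (nat_lit 377) (nat_lit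 304) (nat_lit 99)) (XT.lf (nat_lit 0) (nat_lit 5097773432) (nat_lit 152) (nat_lit 36395902134) (nat_lit 228) (nat_lit 19568514985) (nat_lit 33) (nat_lit 5) (nat_lit 35) (nat_lit 5) (nat_lit 36) (nat_lit 5) (nat_lit 378) (nat_lit 304) (nat_lit 98))))) (XT.nd (nat_lit 234) (nat_lit 0) (nat_lit 0) (XT.nd (nat_lit 78) (nat_lit 228) (nat_lit 0) (XT.lf (nat_lit 0) (nat_lit 26891322171) (nat_lit 152) (nat_lit 23613948405) (nat_lit 228) (nat_lit 11967126982) (nat_lit 33) (nat_lit 5) (nat_lit 35) (nat_lit 5) (nat_lit 36) (nat_lit 5) (nat_lit 379) (nat_lit 304) (nat_lit 97)) (XT.nd (nat_lit 78) (nat_lit 228) (nat_lit 0) (XT.lf (nat_lit 0) (nat_lit 49335896486) (nat_lit 152) (nat_lit 10449541221) (nat_lit 228) (nat_lit 4139528384) (nat_lit 33) (nat_lit 5) (nat_lit 35) (nat_lit 5) (nat_lit 36) (nat_lit 5) (nat_lit 380) (nat_lit 304) (nat_lit 96)) (XT.lf (nat_lit 0) (nat_lit 3944092568) (nat_lit 228) (nat_lit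 58317503858) (nat_lit 76) (nat_lit 3155453576) (nat_lit 30) (nat_lit 5) (nat_lit 33) (nat_lit 5) (nat_lit 31) (nat_lit 5) (nat_lit 381) (nat_lit 304) (nat_lit 95)))) (XT.nd (nat_lit 34632) (nat_lit 0) (nat_lit 9804) (XT.lf (nat_lit 0) (nat_lit 12437534320) (nat_lit 228) (nat_lit 37360253235) (nat_lit 76) (nat_lit 17147365807) (nat_lit 30) (nat_lit 5) (nat_lit 33) (nat_lit 5) (nat_lit 31) (nat_lit 5) (nat_lit 382) (nat_lit 304) (nat_lit 94)) (XT.nd (nat_lit 78) (nat_lit 0) (nat_lit 0) (XT.lf (nat_lit 0) (nat_lit 3639531748) (nat_lit 1140) (nat_lit 2110271517) (nat_lit 1140) (nat_lit 2110271517) (nat_lit 159) (nat_lit 3) (nat_lit 174) (nat_lit 3) (nat_lit 174) (nat_lit 5) (nat_lit 305) (nat_lit 305) (nat_lit 170)) (XT.lf (nat_lit 76) (nat_lit 2483513110) (nat_lit 0) (nat_lit 5174722669) (nat_lit 1140) (nat_lit 8289074971) (nat_lit 160) (nat_lit 5) (nat_lit 159) (nat_lit 3) (nat_lit 174) (nat_lit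 5) (nat_lit 306) (nat_lit 305) (nat_lit 169))))))) (XT.nd (nat_lit 936) (nat_lit 2584) (nat_lit 0) (XT.nd (nat_lit 468) (nat_lit 0) (nat_lit 152) (XT.nd (nat_lit 234) (nat_lit 0) (nat_lit 76) (XT.nd (nat_lit 78) (nat_lit 0) (nat_lit 0) (XT.lf (nat_lit 0) (nat_lit 8095094909) (nat_lit 1064) (nat_lit 6723513044) (nat_lit 1140) (nat_lit 1361310599) (nat_lit 160) (nat_lit 5) (nat_lit 174) (nat_lit 5) (nat_lit 175) (nat_lit 5) (nat_lit 307) (nat_lit 305) (nat_lit 168)) (XT.nd (nat_lit 78) (nat_lit 0) (nat_lit 0) (XT.lf (nat_lit 76) (nat_lit 165725920) (nat_lit 0) (nat_lit 8422832202) (nat_lit 1140) (nat_lit 7829662033) (nat_lit 161) (nat_lit 5) (nat_lit 160) (nat_lit 5) (nat_lit 175) (nat_lit 5) (nat_lit 308) (nat_lit 305) (nat_lit 167)) (XT.lf (nat_lit 76) (nat_lit 7394265780) (nat_lit 0) (nat_lit 1761345858) (nat_lit 1140) (nat_lit 7506315495) (nat_lit 161) (nat_lit 5) (nat_lit 160) (nat_lit 5)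 (nat_lit 175) (nat_lit 5) (nat_lit 309) (nat_lit 305) (nat_lit 166)))) (XT.nd (nat_lit 78) (nat_lit 0) (nat_lit 0) (XT.lf (nat_lit 0) (nat_lit 9779894778) (nat_lit 1064) (nat_lit 2127678929) (nat_lit 1140) (nat_lit 5004184412) (nat_lit 161) (nat_lit 5) (nat_lit 175) (nat_lit 5) (nat_lit 176) (nat_lit 5) (nat_lit 310) (nat_lit 305) (nat_lit 165)) (XT.nd (nat_lit 78) (nat_lit 0) (nat_lit 76) (XT.lf (nat_lit 76) (nat_lit 5307415879) (nat_lit 0) (nat_lit 5175398059) (nat_lit 1140) (nat_lit 6684491645) (nat_lit 162) (nat_lit 5) (nat_lit 161) (nat_lit 5) (nat_lit 176) (nat_lit 5) (nat_lit 311) (nat_lit 305) (nat_lit 164)) (XT.lf (nat_lit 0) (nat_lit 11237105244) (nat_lit 1064) (nat_lit 4443277951) (nat_lit 1140) (nat_lit 1749245969) (nat_lit 162) (nat_lit 5) (nat_lit 176) (nat_lit 5) (nat_lit 177) (nat_lit 5) (nat_lit 312) (nat_lit 305) (nat_lit 163))))) (XT.nd (nat_lit 234) (nat_lit 0) (nat_lit 76)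 (XT.nd (nat_lit 78) (nat_lit 0) (nat_lit 0) (XT.lf (nat_lit 76) (nat_lit 3201764603) (nat_lit 0) (nat_lit 8886202236) (nat_lit 1140) (nat_lit 5609655064) (nat_lit 163) (nat_lit 5) (nat_lit 162) (nat_lit 5) (nat_lit 177) (nat_lit 5) (nat_lit 313) (nat_lit 305) (nat_lit 162)) (XT.nd (nat_lit 78) (nat_lit 0) (nat_lit 76) (XT.lf (nat_lit 76) (nat_lit 11161989329) (nat_lit 0) (nat_lit 1839340791) (nat_lit 1140) (nat_lit 4971232211) (nat_lit 163) (nat_lit 5) (nat_lit 162) (nat_lit 5) (nat_lit 177) (nat_lit 5) (nat_lit 314) (nat_lit 305) (nat_lit 161)) (XT.lf (nat_lit 76) (nat_lit 1068663069) (nat_lit 0) (nat_lit 12928155877) (nat_lit 1140) (nat_lit 4257306969) (nat_lit 164) (nat_lit 5) (nat_lit 163) (nat_lit 5) (nat_lit 178) (nat_lit 5) (nat_lit 315) (nat_lit 305) (nat_lit 160)))) (XT.nd (nat_lit 78) (nat_lit 0) (nat_lit 76) (XT.lf (nat_lit 76) (nat_lit 9299995023) (nat_lit 0) (nat_lit 5801516918)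 (nat_lit 1140) (nat_lit 3440260475) (nat_lit 164) (nat_lit 5) (nat_lit 163) (nat_lit 5) (nat_lit 178) (nat_lit 5) (nat_lit 316) (nat_lit 305) (nat_lit 159)) (XT.nd (nat_lit 78) (nat_lit 0) (nat_lit 0) (XT.lf (nat_lit 0) (nat_lit 16246909631) (nat_lit 1064) (nat_lit 1079990343) (nat_lit 1140) (nat_lit 1510937146) (nat_lit 164) (nat_lit 5) (nat_lit 178) (nat_lit 5) (nat_lit 179) (nat_lit 5) (nat_lit 317) (nat_lit 305) (nat_lit 158)) (XT.lf (nat_lit 76) (nat_lit 7408518265) (nat_lit 0) (nat_lit 10139788366) (nat_lit 1140) (nat_lit 1590843278) (nat_lit 165) (nat_lit 5) (nat_lit 164) (nat_lit 5) (nat_lit 179) (nat_lit 5) (nat_lit 318) (nat_lit 305) (nat_lit 157)))))) (XT.nd (nat_lit 468) (nat_lit 1064) (nat_lit 0) (XT.nd (nat_lit 234) (nat_lit 760) (nat_lit 0) (XT.nd (nat_lit 78) (nat_lit 1064) (nat_lit 0) (XT.lf (nat_lit 76) (nat_lit 16168614259) (nat_lit 0) (nat_lit 2724172854) (nat_lit 1140) (nat_lit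 556608545) (nat_lit 165) (nat_lit 5) (nat_lit 164) (nat_lit 5) (nat_lit 179) (nat_lit 5) (nat_lit 319) (nat_lit 305) (nat_lit 156)) (XT.nd (nat_lit 78) (nat_lit 0) (nat_lit 0) (XT.lf (nat_lit 0) (nat_lit 592870769) (nat_lit 1140) (nat_lit 14295060119) (nat_lit 1216) (nat_lit 4878060881) (nat_lit 150) (nat_lit 5) (nat_lit 165) (nat_lit 5) (nat_lit 166) (nat_lit 5) (nat_lit 320) (nat_lit 305) (nat_lit 155)) (XT.lf (nat_lit 0) (nat_lit 1819493093) (nat_lit 1140) (nat_lit 5576831517) (nat_lit 1216) (nat_lit 12693994010) (nat_lit 150) (nat_lit 5) (nat_lit 165) (nat_lit 5) (nat_lit 166) (nat_lit 5) (nat_lit 321) (nat_lit 305) (nat_lit 154)))) (XT.nd (nat_lit 78) (nat_lit 836) (nat_lit 0) (XT.lf (nat_lit 0) (nat_lit 3113250669) (nat_lit 1140) (nat_lit 16961653876) (nat_lit 76) (nat_lit 348573803) (nat_lit 151) (nat_lit 5) (nat_lit 166) (nat_lit 5) (nat_lit 152) (nat_lit 5) (nat_lit 322) (nat_lit 305)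 (nat_lit 153)) (XT.nd (nat_lit 78) (nat_lit 836) (nat_lit 0) (XT.lf (nat_lit 0) (nat_lit 4569679640) (nat_lit 1140) (nat_lit 7958152810) (nat_lit 76) (nat_lit 8235097444) (nat_lit 151) (nat_lit 5) (nat_lit 166) (nat_lit 5) (nat_lit 152) (nat_lit 5) (nat_lit 323) (nat_lit 305) (nat_lit 152)) (XT.lf (nat_lit 0) (nat_lit 1336305535) (nat_lit 836) (nat_lit 4740278315) (nat_lit 912) (nat_lit 15035790078) (nat_lit 140) (nat_lit 5) (nat_lit 151) (nat_lit 5) (nat_lit 152) (nat_lit 5) (nat_lit 324) (nat_lit 305) (nat_lit 151))))) (XT.nd (nat_lit 234) (nat_lit 532) (nat_lit 0) (XT.nd (nat_lit 78) (nat_lit 532) (nat_lit 0) (XT.lf (nat_lit 0) (nat_lit 7735461819) (nat_lit 912) (nat_lit 10434862317) (nat_lit 76) (nat_lit 3298786197) (nat_lit 140) (nat_lit 5) (nat_lit 152) (nat_lit 5) (nat_lit 141) (nat_lit 5) (nat_lit 325) (nat_lit 305) (nat_lit 150)) (XT.nd (nat_lit 78) (nat_lit 532) (nat_lit 0) (XT.lf (nat_lit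 0) (nat_lit 9485283452) (nat_lit 912) (nat_lit 865567243) (nat_lit 76) (nat_lit 11484474518) (nat_lit 140) (nat_lit 5) (nat_lit 152) (nat_lit 5) (nat_lit 141) (nat_lit 5) (nat_lit 326) (nat_lit 305) (nat_lit 149)) (XT.lf (nat_lit 0) (nat_lit 9164578746) (nat_lit 532) (nat_lit 2205528056) (nat_lit 608) (nat_lit 10839955885) (nat_lit 133) (nat_lit 5) (nat_lit 140) (nat_lit 5) (nat_lit 141) (nat_lit 5) (nat_lit 327) (nat_lit 305) (nat_lit 148)))) (XT.nd (nat_lit 78) (nat_lit 532) (nat_lit 0) (XT.lf (nat_lit 0) (nat_lit 13374278355) (nat_lit 608) (nat_lit 3147132022) (nat_lit 76) (nat_lit 6072758830) (nat_lit 133) (nat_lit 5) (nat_lit 141) (nat_lit 5) (nat_lit 134) (nat_lit 5) (nat_lit 328) (nat_lit 305) (nat_lit 147)) (XT.nd (nat_lit 78) (nat_lit 0) (nat_lit 0) (XT.lf (nat_lit 0) (nat_lit 7161030323) (nat_lit 532) (nat_lit 8362907709) (nat_lit 608) (nat_lit 7463310710) (nat_lit 126) (nat_lit 5)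 (nat_lit 133) (nat_lit 5) (nat_lit 134) (nat_lit 5) (nat_lit 329) (nat_lit 305) (nat_lit 146)) (XT.lf (nat_lit 0) (nat_lit 17765368469) (nat_lit 608) (nat_lit 5554078961) (nat_lit 76) (nat_lit 71865199) (nat_lit 126) (nat_lit 5) (nat_lit 134) (nat_lit 5) (nat_lit 127) (nat_lit 5) (nat_lit 330) (nat_lit 305) (nat_lit 145))))))))
noncomputable def xc216 : XT := (XT.nd (nat_lit 1794) (nat_lit 2660) (nat_lit 0) (XT.nd (nat_lit 858) (nat_lit 1900) (nat_lit 0) (XT.nd (nat_lit 390) (nat_lit 836) (nat_lit 0) (XT.nd (nat_lit 156) (nat_lit 1064) (nat_lit 0) (XT.nd (nat_lit 78) (nat_lit 0) (nat_lit 0) (XT.lf (nat_lit 0) (nat_lit 5036698191) (nat_lit 456) (nat_lit 15163510603) (nat_lit 532) (nat_lit 3603514723) (nat_lit 120) (nat_lit 5) (nat_lit 126) (nat_lit 5) (nat_lit 127) (nat_lit 5) (nat_lit 331) (nat_lit 305) (nat_lit 144)) (XT.lf (nat_lit 0) (nat_lit 16054091398) (nat_lit 456) (nat_lit 6705137723)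 (nat_lit 532) (nat_lit 1467753365) (nat_lit 120) (nat_lit 5) (nat_lit 126) (nat_lit 5) (nat_lit 127) (nat_lit 5) (nat_lit 332) (nat_lit 305) (nat_lit 143))) (XT.nd (nat_lit 78) (nat_lit 456) (nat_lit 0) (XT.lf (nat_lit 0) (nat_lit 759294620) (nat_lit 608) (nat_lit 21900324574) (nat_lit 76) (nat_lit 2001873170) (nat_lit 112) (nat_lit 5) (nat_lit 120) (nat_lit 5) (nat_lit 113) (nat_lit 5) (nat_lit 333) (nat_lit 305) (nat_lit 142)) (XT.nd (nat_lit 78) (nat_lit 456) (nat_lit 0) (XT.lf (nat_lit 0) (nat_lit 3168619009) (nat_lit 608) (nat_lit 11002538520) (nat_lit 76) (nat_lit 10933104050) (nat_lit 112) (nat_lit 5) (nat_lit 120) (nat_lit 5) (nat_lit 113) (nat_lit 5) (nat_lit 334) (nat_lit 305) (nat_lit 141)) (XT.lf (nat_lit 0) (nat_lit 221627484) (nat_lit 456) (nat_lit 5426095528) (nat_lit 532) (nat_lit 19912674568) (nat_lit 106) (nat_lit 5) (nat_lit 112) (nat_lit 5) (nat_lit 113) (nat_lit 5) (nat_lit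 335) (nat_lit 305) (nat_lit 140))))) (XT.nd (nat_lit 234) (nat_lit 380) (nat_lit 0) (XT.nd (nat_lit 78) (nat_lit 456) (nat_lit 0) (XT.lf (nat_lit 0) (nat_lit 8343285190) (nat_lit 532) (nat_lit 14059323178) (nat_lit 76) (nat_lit 3623355194) (nat_lit 106) (nat_lit 5) (nat_lit 113) (nat_lit 5) (nat_lit 107) (nat_lit 5) (nat_lit 336) (nat_lit 305) (nat_lit 139)) (XT.nd (nat_lit 78) (nat_lit 456) (nat_lit 0) (XT.lf (nat_lit 0) (nat_lit 11169025452) (nat_lit 532) (nat_lit 2500044237) (nat_lit 76) (nat_lit 12834955705) (nat_lit 106) (nat_lit 5) (nat_lit 113) (nat_lit 5) (nat_lit 107) (nat_lit 5) (nat_lit 337) (nat_lit 305) (nat_lit 138)) (XT.lf (nat_lit 0) (nat_lit 9588430838) (nat_lit 456) (nat_lit 4578992967) (nat_lit 532) (nat_lit 12826376667) (nat_lit 100) (nat_lit 5) (nat_lit 106) (nat_lit 5) (nat_lit 107) (nat_lit 5) (nat_lit 338) (nat_lit 305) (nat_lit 137)))) (XT.nd (nat_lit 78) (nat_lit 380)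 (nat_lit 0) (XT.lf (nat_lit 0) (nat_lit 17323046267) (nat_lit 532) (nat_lit 5457708197) (nat_lit 76) (nat_lit 4715503907) (nat_lit 100) (nat_lit 5) (nat_lit 107) (nat_lit 5) (nat_lit 101) (nat_lit 5) (nat_lit 339) (nat_lit 305) (nat_lit 136)) (XT.nd (nat_lit 78) (nat_lit 0) (nat_lit 0) (XT.lf (nat_lit 0) (nat_lit 6933716504) (nat_lit 380) (nat_lit 13747523130) (nat_lit 456) (nat_lit 7329320817) (nat_lit 95) (nat_lit 5) (nat_lit 100) (nat_lit 5) (nat_lit 101) (nat_lit 5) (nat_lit 340) (nat_lit 305) (nat_lit 135)) (XT.lf (nat_lit 0) (nat_lit 19804175229) (nat_lit 380) (nat_lit 4387105175) (nat_lit 456) (nat_lit 4347485433) (nat_lit 95) (nat_lit 5) (nat_lit 100) (nat_lit 5) (nat_lit 101) (nat_lit 5) (nat_lit 341) (nat_lit 305) (nat_lit 134)))))) (XT.nd (nat_lit 468) (nat_lit 684) (nat_lit 0) (XT.nd (nat_lit 234) (nat_lit 380) (nat_lit 0) (XT.nd (nat_lit 78) (nat_lit 456) (nat_lit 0) (XT.lf (nat_lit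 0) (nat_lit 4000925613) (nat_lit 380) (nat_lit 23890762885) (nat_lit 456) (nat_lit 1188583983) (nat_lit 90) (nat_lit 5) (nat_lit 95) (nat_lit 5) (nat_lit 96) (nat_lit 5) (nat_lit 342) (nat_lit 305) (nat_lit 133)) (XT.nd (nat_lit 78) (nat_lit 380) (nat_lit 0) (XT.lf (nat_lit 0) (nat_lit 2153425779) (nat_lit 456) (nat_lit 12406591489) (nat_lit 76) (nat_lit 15073559047) (nat_lit 89) (nat_lit 5) (nat_lit 95) (nat_lit 5) (nat_lit 90) (nat_lit 5) (nat_lit 343) (nat_lit 305) (nat_lit 132)) (XT.lf (nat_lit 0) (nat_lit 642642676) (nat_lit 380) (nat_lit 4931580391) (nat_lit 456) (nat_lit 24628837133) (nat_lit 84) (nat_lit 5) (nat_lit 89) (nat_lit 5) (nat_lit 90) (nat_lit 5) (nat_lit 344) (nat_lit 305) (nat_lit 131)))) (XT.nd (nat_lit 78) (nat_lit 380) (nat_lit 0) (XT.lf (nat_lit 0) (nat_lit 9268391590) (nat_lit 456) (nat_lit 16501901533) (nat_lit 76) (nat_lit 5014219347) (nat_lit 84) (nat_lit 5) (nat_lit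 90) (nat_lit 5) (nat_lit 85) (nat_lit 5) (nat_lit 345) (nat_lit 305) (nat_lit 130)) (XT.nd (nat_lit 78) (nat_lit 380) (nat_lit 0) (XT.lf (nat_lit 0) (nat_lit 13118619454) (nat_lit 456) (nat_lit 3104867416) (nat_lit 76) (nat_lit 15158570517) (nat_lit 84) (nat_lit 5) (nat_lit 90) (nat_lit 5) (nat_lit 85) (nat_lit 5) (nat_lit 346) (nat_lit 305) (nat_lit 129)) (XT.lf (nat_lit 0) (nat_lit 10902544247) (nat_lit 380) (nat_lit 6283123246) (nat_lit 456) (nat_lit 14808827687) (nat_lit 79) (nat_lit 5) (nat_lit 84) (nat_lit 5) (nat_lit 85) (nat_lit 5) (nat_lit 347) (nat_lit 305) (nat_lit 128))))) (XT.nd (nat_lit 234) (nat_lit 380) (nat_lit 0) (XT.nd (nat_lit 78) (nat_lit 304) (nat_lit 0) (XT.lf (nat_lit 0) (nat_lit 21440977162) (nat_lit 456) (nat_lit 7273213354) (nat_lit 76) (nat_lit 3909133842) (nat_lit 79) (nat_lit 5) (nat_lit 85) (nat_lit 5) (nat_lit 80) (nat_lit 5) (nat_lit 348) (nat_lit 305) (nat_lit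 127)) (XT.nd (nat_lit 78) (nat_lit 0) (nat_lit 0) (XT.lf (nat_lit 0) (nat_lit 7030860851) (nat_lit 304) (nat_lit 18919543879) (nat_lit 380) (nat_lit 7316825510) (nat_lit 75) (nat_lit 5) (nat_lit 79) (nat_lit 5) (nat_lit 80) (nat_lit 5) (nat_lit 349) (nat_lit 305) (nat_lit 126)) (XT.lf (nat_lit 0) (nat_lit 21908978556) (nat_lit 304) (nat_lit 8756303338) (nat_lit 380) (nat_lit 3263071827) (nat_lit 75) (nat_lit 5) (nat_lit 79) (nat_lit 5) (nat_lit 80) (nat_lit 5) (nat_lit 350) (nat_lit 305) (nat_lit 125)))) (XT.nd (nat_lit 78) (nat_lit 0) (nat_lit 0) (XT.lf (nat_lit 0) (nat_lit 933659924) (nat_lit 380) (nat_lit 31961960348) (nat_lit 76) (nat_lit 1712257633) (nat_lit 70) (nat_lit 5) (nat_lit 75) (nat_lit 5) (nat_lit 71) (nat_lit 5) (nat_lit 351) (nat_lit 305) (nat_lit 124)) (XT.nd (nat_lit 78) (nat_lit 0) (nat_lit 0) (XT.lf (nat_lit 0) (nat_lit 5396805163) (nat_lit 380) (nat_lit 17430968464) (nat_lit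 76) (nat_lit 12472867043) (nat_lit 70) (nat_lit 5) (nat_lit 75) (nat_lit 5) (nat_lit 71) (nat_lit 5) (nat_lit 352) (nat_lit 305) (nat_lit 123)) (XT.lf (nat_lit 0) (nat_lit 9990763352) (nat_lit 380) (nat_lit 2468096204) (nat_lit 76) (nat_lit 23555424024) (nat_lit 70) (nat_lit 5) (nat_lit 75) (nat_lit 5) (nat_lit 71) (nat_lit 5) (nat_lit 353) (nat_lit 305) (nat_lit 122))))))) (XT.nd (nat_lit 858) (nat_lit 1216) (nat_lit 0) (XT.nd (nat_lit 390) (nat_lit 608) (nat_lit 0) (XT.nd (nat_lit 156) (nat_lit 532) (nat_lit 0) (XT.nd (nat_lit 78) (nat_lit 0) (nat_lit 0) (XT.lf (nat_lit 0) (nat_lit 13197256800) (nat_lit 304) (nat_lit 1649151934) (nat_lit 380) (nat_lit 21899215670) (nat_lit 66) (nat_lit 5) (nat_lit 70) (nat_lit 5) (nat_lit 71) (nat_lit 5) (nat_lit 354) (nat_lit 305) (nat_lit 121)) (XT.lf (nat_lit 0) (nat_lit 19961116239) (nat_lit 380) (nat_lit 8210391285) (nat_lit 76) (nat_lit 9324000689) (nat_lit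 66) (nat_lit 5) (nat_lit 71) (nat_lit 5) (nat_lit 67) (nat_lit 5) (nat_lit 355) (nat_lit 305) (nat_lit 120))) (XT.nd (nat_lit 78) (nat_lit 228) (nat_lit 0) (XT.lf (nat_lit 0) (nat_lit 7718144144) (nat_lit 304) (nat_lit 17598775454) (nat_lit 380) (nat_lit 12948343712) (nat_lit 62) (nat_lit 5) (nat_lit 66) (nat_lit 5) (nat_lit 67) (nat_lit 5) (nat_lit 356) (nat_lit 305) (nat_lit 119)) (XT.nd (nat_lit 78) (nat_lit 228) (nat_lit 0) (XT.lf (nat_lit 0) (nat_lit 24289017727) (nat_lit 304) (nat_lit 6624469757) (nat_lit 380) (nat_lit 8142225146) (nat_lit 62) (nat_lit 5) (nat_lit 66) (nat_lit 5) (nat_lit 67) (nat_lit 5) (nat_lit 357) (nat_lit 305) (nat_lit 118)) (XT.lf (nat_lit 0) (nat_lit 1467002136) (nat_lit 228) (nat_lit 35267284316) (nat_lit 304) (nat_lit 3133903113) (nat_lit 59) (nat_lit 5) (nat_lit 62) (nat_lit 5) (nat_lit 63) (nat_lit 5) (nat_lit 358) (nat_lit 305) (nat_lit 117))))) (XT.nd (nat_lit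 234) (nat_lit 228) (nat_lit 0) (XT.nd (nat_lit 78) (nat_lit 304) (nat_lit 0) (XT.lf (nat_lit 0) (nat_lit 2198607352) (nat_lit 304) (nat_lit 22300491629) (nat_lit 76) (nat_lit 16198958455) (nat_lit 58) (nat_lit 5) (nat_lit 62) (nat_lit 5) (nat_lit 59) (nat_lit 5) (nat_lit 359) (nat_lit 305) (nat_lit 116)) (XT.nd (nat_lit 78) (nat_lit 304) (nat_lit 0) (XT.lf (nat_lit 0) (nat_lit 7625451862) (nat_lit 304) (nat_lit 5751502312) (nat_lit 76) (nat_lit 28175019701) (nat_lit 58) (nat_lit 5) (nat_lit 62) (nat_lit 5) (nat_lit 59) (nat_lit 5) (nat_lit 360) (nat_lit 305) (nat_lit 115)) (XT.lf (nat_lit 0) (nat_lit 11515066215) (nat_lit 304) (nat_lit 1808149702) (nat_lit 380) (nat_lit 29105052158) (nat_lit 54) (nat_lit 5) (nat_lit 58) (nat_lit 5) (nat_lit 59) (nat_lit 5) (nat_lit 361) (nat_lit 305) (nat_lit 114)))) (XT.nd (nat_lit 78) (nat_lit 228) (nat_lit 0) (XT.lf (nat_lit 0) (nat_lit 19345183782) (nat_lit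 380) (nat_lit 14012938893) (nat_lit 76) (nat_lit 9968133887) (nat_lit 54) (nat_lit 5) (nat_lit 59) (nat_lit 5) (nat_lit 55) (nat_lit 5) (nat_lit 362) (nat_lit 305) (nat_lit 113)) (XT.nd (nat_lit 78) (nat_lit 0) (nat_lit 0) (XT.lf (nat_lit 0) (nat_lit 3440037104) (nat_lit 228) (nat_lit 22156273282) (nat_lit 304) (nat_lit 18653422808) (nat_lit 51) (nat_lit 5) (nat_lit 54) (nat_lit 5) (nat_lit 55) (nat_lit 5) (nat_lit 363) (nat_lit 305) (nat_lit 112)) (XT.lf (nat_lit 0) (nat_lit 21700368497) (nat_lit 228) (nat_lit 10473673442) (nat_lit 304) (nat_lit 13022703432) (nat_lit 51) (nat_lit 5) (nat_lit 54) (nat_lit 5) (nat_lit 55) (nat_lit 5) (nat_lit 364) (nat_lit 305) (nat_lit 111)))))) (XT.nd (nat_lit 468) (nat_lit 684) (nat_lit 0) (XT.nd (nat_lit 234) (nat_lit 228) (nat_lit 0) (XT.nd (nat_lit 78) (nat_lit 304) (nat_lit 0) (XT.lf (nat_lit 0) (nat_lit 38961724337) (nat_lit 304) (nat_lit 5682096197) (nat_lit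 76) (nat_lit 1527972095) (nat_lit 51) (nat_lit 5) (nat_lit 55) (nat_lit 5) (nat_lit 52) (nat_lit 5) (nat_lit 365) (nat_lit 305) (nat_lit 110)) (XT.nd (nat_lit 78) (nat_lit 76) (nat_lit 0) (XT.lf (nat_lit 0) (nat_lit 12809525408) (nat_lit 228) (nat_lit 33368042540) (nat_lit 304) (nat_lit 991790621) (nat_lit 48) (nat_lit 5) (nat_lit 51) (nat_lit 5) (nat_lit 52) (nat_lit 5) (nat_lit 366) (nat_lit 305) (nat_lit 109)) (XT.lf (nat_lit 0) (nat_lit 5363061407) (nat_lit 304) (nat_lit 16278722127) (nat_lit 76) (nat_lit 26551840339) (nat_lit 47) (nat_lit 5) (nat_lit 51) (nat_lit 5) (nat_lit 48) (nat_lit 5) (nat_lit 367) (nat_lit 305) (nat_lit 108)))) (XT.nd (nat_lit 78) (nat_lit 0) (nat_lit 0) (XT.lf (nat_lit 0) (nat_lit 2378143094) (nat_lit 228) (nat_lit 9531116540) (nat_lit 304) (nat_lit 37338446789) (nat_lit 44) (nat_lit 5) (nat_lit 47) (nat_lit 5) (nat_lit 48) (nat_lit 5) (nat_lit 368) (nat_lit 305)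 (nat_lit 107)) (XT.nd (nat_lit 78) (nat_lit 0) (nat_lit 0) (XT.lf (nat_lit 0) (nat_lit 18843941416) (nat_lit 304) (nat_lit 28433276190) (nat_lit 76) (nat_lit 3050433746) (nat_lit 44) (nat_lit 5) (nat_lit 48) (nat_lit 5) (nat_lit 45) (nat_lit 5) (nat_lit 369) (nat_lit 305) (nat_lit 106)) (XT.lf (nat_lit 0) (nat_lit 26078893477) (nat_lit 304) (nat_lit 9541464166) (nat_lit 76) (nat_lit 15816872842) (nat_lit 44) (nat_lit 5) (nat_lit 48) (nat_lit 5) (nat_lit 45) (nat_lit 5) (nat_lit 370) (nat_lit 305) (nat_lit 105))))) (XT.nd (nat_lit 234) (nat_lit 456) (nat_lit 0) (XT.nd (nat_lit 78) (nat_lit 0) (nat_lit 0) (XT.lf (nat_lit 0) (nat_lit 10111307094) (nat_lit 228) (nat_lit 23514707670) (nat_lit 304) (nat_lit 18951231274) (nat_lit 41) (nat_lit 5) (nat_lit 44) (nat_lit 5) (nat_lit 45) (nat_lit 5) (nat_lit 371) (nat_lit 305) (nat_lit 104)) (XT.nd (nat_lit 78) (nat_lit 0) (nat_lit 0) (XT.lf (nat_lit 0)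 (nat_lit 30546179434) (nat_lit 228) (nat_lit 10947675846) (nat_lit 304) (nat_lit 12254780203) (nat_lit 41) (nat_lit 5) (nat_lit 44) (nat_lit 5) (nat_lit 45) (nat_lit 5) (nat_lit 372) (nat_lit 305) (nat_lit 103)) (XT.lf (nat_lit 0) (nat_lit 49614926773) (nat_lit 304) (nat_lit 3383294662) (nat_lit 76) (nat_lit 1956431820) (nat_lit 41) (nat_lit 5) (nat_lit 45) (nat_lit 5) (nat_lit 42) (nat_lit 5) (nat_lit 373) (nat_lit 305) (nat_lit 102)))) (XT.nd (nat_lit 78) (nat_lit 228) (nat_lit 0) (XT.lf (nat_lit 0) (nat_lit 2023014282) (nat_lit 228) (nat_lit 38952692819) (nat_lit 76) (nat_lit 15212381997) (nat_lit 38) (nat_lit 5) (nat_lit 41) (nat_lit 5) (nat_lit 39) (nat_lit 5) (nat_lit 374) (nat_lit 305) (nat_lit 101)) (XT.nd (nat_lit 78) (nat_lit 228) (nat_lit 0) (XT.lf (nat_lit 0) (nat_lit 9531887647) (nat_lit 228) (nat_lit 18971666827) (nat_lit 76) (nat_lit 28952412581) (nat_lit 38) (nat_lit 5) (nat_lit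 41) (nat_lit 5) (nat_lit 39) (nat_lit 5) (nat_lit 375) (nat_lit 305) (nat_lit 100)) (XT.lf (nat_lit 0) (nat_lit 1637877950) (nat_lit 228) (nat_lit 15642020426) (nat_lit 304) (nat_lit 41481569075) (nat_lit 35) (nat_lit 5) (nat_lit 38) (nat_lit 5) (nat_lit 39) (nat_lit 5) (nat_lit 376) (nat_lit 305) (nat_lit 99))))))))
noncomputable def xc217 : XT := (XT.nd (nat_lit 36504) (nat_lit 0) (nat_lit 3876) (XT.nd (nat_lit 35568) (nat_lit 0) (nat_lit 8892) (XT.nd (nat_lit 35100) (nat_lit 0) (nat_lit 9576) (XT.nd (nat_lit 156) (nat_lit 152) (nat_lit 0) (XT.nd (nat_lit 78) (nat_lit 0) (nat_lit 0) (XT.lf (nat_lit 0) (nat_lit 23251764916) (nat_lit 228) (nat_lit 2198315238) (nat_lit 304) (nat_lit 34650362954) (nat_lit 35) (nat_lit 5) (nat_lit 38) (nat_lit 5) (nat_lit 39) (nat_lit 5) (nat_lit 377) (nat_lit 305) (nat_lit 98)) (XT.lf (nat_lit 0) (nat_lit 33975540359) (nat_lit 304) (nat_lit 16080302404) (nat_lit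 76) (nat_lit 11420442187) (nat_lit 35) (nat_lit 5) (nat_lit 39) (nat_lit 5) (nat_lit 36) (nat_lit 5) (nat_lit 378) (nat_lit 305) (nat_lit 97))) (XT.nd (nat_lit 78) (nat_lit 0) (nat_lit 0) (XT.lf (nat_lit 0) (nat_lit 5391846892) (nat_lit 152) (nat_lit 37436763710) (nat_lit 228) (nat_lit 20062638106) (nat_lit 33) (nat_lit 5) (nat_lit 35) (nat_lit 5) (nat_lit 36) (nat_lit 5) (nat_lit 379) (nat_lit 305) (nat_lit 96)) (XT.nd (nat_lit 78) (nat_lit 0) (nat_lit 0) (XT.lf (nat_lit 0) (nat_lit 27835091211) (nat_lit 152) (nat_lit 24272837257) (nat_lit 228) (nat_lit 12235915229) (nat_lit 33) (nat_lit 5) (nat_lit 35) (nat_lit 5) (nat_lit 36) (nat_lit 5) (nat_lit 380) (nat_lit 305) (nat_lit 95)) (XT.lf (nat_lit 0) (nat_lit 50949011609) (nat_lit 152) (nat_lit 10714940468) (nat_lit 228) (nat_lit 4176116603) (nat_lit 33) (nat_lit 5) (nat_lit 35) (nat_lit 5) (nat_lit 36) (nat_lit 5) (nat_lit 381) (nat_lit 305)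 (nat_lit 94))))) (XT.nd (nat_lit 234) (nat_lit 0) (nat_lit 76) (XT.nd (nat_lit 78) (nat_lit 0) (nat_lit 0) (XT.lf (nat_lit 0) (nat_lit 3992465192) (nat_lit 1140) (nat_lit 2047781572) (nat_lit 1140) (nat_lit 2047781572) (nat_lit 159) (nat_lit 3) (nat_lit 174) (nat_lit 3) (nat_lit 174) (nat_lit 5) (nat_lit 306) (nat_lit 306) (nat_lit 168)) (XT.nd (nat_lit 78) (nat_lit 0) (nat_lit 76) (XT.lf (nat_lit 76) (nat_lit 2807148055) (nat_lit 0) (nat_lit 5556525684) (nat_lit 1140) (nat_lit 8046744318) (nat_lit 160) (nat_lit 5) (nat_lit 159) (nat_lit 3) (nat_lit 174) (nat_lit 5) (nat_lit 307) (nat_lit 306) (nat_lit 167)) (XT.lf (nat_lit 0) (nat_lit 8797669155) (nat_lit 1064) (nat_lit 6666364635) (nat_lit 1140) (nat_lit 1186479716) (nat_lit 160) (nat_lit 5) (nat_lit 174) (nat_lit 5) (nat_lit 175) (nat_lit 5) (nat_lit 308) (nat_lit 306) (nat_lit 166)))) (XT.nd (nat_lit 78) (nat_lit 0) (nat_lit 0) (XT.lf (nat_lit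 76) (nat_lit 427013715) (nat_lit 0) (nat_lit 8867996471) (nat_lit 1140) (nat_lit 7601311198) (nat_lit 161) (nat_lit 5) (nat_lit 160) (nat_lit 5) (nat_lit 175) (nat_lit 5) (nat_lit 309) (nat_lit 306) (nat_lit 165)) (XT.nd (nat_lit 78) (nat_lit 0) (nat_lit 76) (XT.lf (nat_lit 76) (nat_lit 7864944256) (nat_lit 0) (nat_lit 2001059344) (nat_lit 1140) (nat_lit 7281756711) (nat_lit 161) (nat_lit 5) (nat_lit 160) (nat_lit 5) (nat_lit 175) (nat_lit 5) (nat_lit 310) (nat_lit 306) (nat_lit 164)) (XT.lf (nat_lit 0) (nat_lit 10494580237) (nat_lit 1064) (nat_lit 1934546698) (nat_lit 1140) (nat_lit 4976420097) (nat_lit 161) (nat_lit 5) (nat_lit 175) (nat_lit 5) (nat_lit 176) (nat_lit 5) (nat_lit 311) (nat_lit 306) (nat_lit 163)))))) (XT.nd (nat_lit 468) (nat_lit 836) (nat_lit 0) (XT.nd (nat_lit 234) (nat_lit 0) (nat_lit 76) (XT.nd (nat_lit 78) (nat_lit 0) (nat_lit 76) (XT.lf (nat_lit 76) (nat_lit 5721081713)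 (nat_lit 0) (nat_lit 5487680582) (nat_lit 1140) (nat_lit 6460320313) (nat_lit 162) (nat_lit 5) (nat_lit 161) (nat_lit 5) (nat_lit 176) (nat_lit 5) (nat_lit 312) (nat_lit 306) (nat_lit 162)) (XT.nd (nat_lit 78) (nat_lit 0) (nat_lit 0) (XT.lf (nat_lit 0) (nat_lit 11972232538) (nat_lit 1064) (nat_lit 4315222038) (nat_lit 1140) (nat_lit 1652250975) (nat_lit 162) (nat_lit 5) (nat_lit 176) (nat_lit 5) (nat_lit 177) (nat_lit 5) (nat_lit 313) (nat_lit 306) (nat_lit 161)) (XT.lf (nat_lit 76) (nat_lit 3556609496) (nat_lit 0) (nat_lit 9282905506) (nat_lit 1140) (nat_lit 5376521619) (nat_lit 163) (nat_lit 5) (nat_lit 162) (nat_lit 5) (nat_lit 177) (nat_lit 5) (nat_lit 314) (nat_lit 306) (nat_lit 160)))) (XT.nd (nat_lit 78) (nat_lit 0) (nat_lit 76) (XT.lf (nat_lit 76) (nat_lit 11748103334) (nat_lit 0) (nat_lit 2020848396) (nat_lit 1140) (nat_lit 4730638016) (nat_lit 163) (nat_lit 5) (nat_lit 162) (nat_lit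 5) (nat_lit 177) (nat_lit 5) (nat_lit 315) (nat_lit 306) (nat_lit 159)) (XT.nd (nat_lit 78) (nat_lit 0) (nat_lit 0) (XT.lf (nat_lit 76) (nat_lit 1362746782) (nat_lit 0) (nat_lit 13421900680) (nat_lit 1140) (nat_lit 4005266450) (nat_lit 164) (nat_lit 5) (nat_lit 163) (nat_lit 5) (nat_lit 178) (nat_lit 5) (nat_lit 316) (nat_lit 306) (nat_lit 158)) (XT.lf (nat_lit 76) (nat_lit 9833386933) (nat_lit 0) (nat_lit 6078378083) (nat_lit 1140) (nat_lit 3174769524) (nat_lit 164) (nat_lit 5) (nat_lit 163) (nat_lit 5) (nat_lit 178) (nat_lit 5) (nat_lit 317) (nat_lit 306) (nat_lit 157))))) (XT.nd (nat_lit 234) (nat_lit 1064) (nat_lit 0) (XT.nd (nat_lit 78) (nat_lit 0) (nat_lit 0) (XT.lf (nat_lit 0) (nat_lit 17080160987) (nat_lit 1064) (nat_lit 853291573) (nat_lit 1140) (nat_lit 1458392102) (nat_lit 164) (nat_lit 5) (nat_lit 178) (nat_lit 5) (nat_lit 179) (nat_lit 5) (nat_lit 318) (nat_lit 306) (nat_lit 156))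 (XT.nd (nat_lit 78) (nat_lit 0) (nat_lit 0) (XT.lf (nat_lit 76) (nat_lit 7887332112) (nat_lit 0) (nat_lit 10525660853) (nat_lit 1140) (nat_lit 1289453989) (nat_lit 165) (nat_lit 5) (nat_lit 164) (nat_lit 5) (nat_lit 179) (nat_lit 5) (nat_lit 319) (nat_lit 306) (nat_lit 155)) (XT.lf (nat_lit 76) (nat_lit 16902758414) (nat_lit 0) (nat_lit 2885197880) (nat_lit 1140) (nat_lit 234360599) (nat_lit 165) (nat_lit 5) (nat_lit 164) (nat_lit 5) (nat_lit 179) (nat_lit 5) (nat_lit 320) (nat_lit 306) (nat_lit 154)))) (XT.nd (nat_lit 78) (nat_lit 0) (nat_lit 0) (XT.lf (nat_lit 0) (nat_lit 935065259) (nat_lit 1140) (nat_lit 14458931581) (nat_lit 1216) (nat_lit 4954574066) (nat_lit 150) (nat_lit 5) (nat_lit 165) (nat_lit 5) (nat_lit 166) (nat_lit 5) (nat_lit 321) (nat_lit 306) (nat_lit 153)) (XT.nd (nat_lit 78) (nat_lit 0) (nat_lit 76) (XT.lf (nat_lit 0) (nat_lit 2189037465) (nat_lit 1140) (nat_lit 5486873995)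 (nat_lit 1216) (nat_lit 13007019033) (nat_lit 150) (nat_lit 5) (nat_lit 165) (nat_lit 5) (nat_lit 166) (nat_lit 5) (nat_lit 322) (nat_lit 306) (nat_lit 152)) (XT.lf (nat_lit 0) (nat_lit 3514368687) (nat_lit 1140) (nat_lit 17205371946) (nat_lit 76) (nat_lit 306580453) (nat_lit 151) (nat_lit 5) (nat_lit 166) (nat_lit 5) (nat_lit 152) (nat_lit 5) (nat_lit 323) (nat_lit 306) (nat_lit 151))))))) (XT.nd (nat_lit 936) (nat_lit 2128) (nat_lit 0) (XT.nd (nat_lit 468) (nat_lit 1596) (nat_lit 0) (XT.nd (nat_lit 234) (nat_lit 532) (nat_lit 0) (XT.nd (nat_lit 78) (nat_lit 836) (nat_lit 0) (XT.lf (nat_lit 0) (nat_lit 5005527794) (nat_lit 1140) (nat_lit 7939488126) (nat_lit 76) (nat_lit 8431227489) (nat_lit 151) (nat_lit 5) (nat_lit 166) (nat_lit 5) (nat_lit 152) (nat_lit 5) (nat_lit 324) (nat_lit 306) (nat_lit 150)) (XT.nd (nat_lit 78) (nat_lit 0) (nat_lit 0) (XT.lf (nat_lit 0) (nat_lit 1631280349) (nat_lit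 836) (nat_lit 4920107215) (nat_lit 912) (nat_lit 15184988562) (nat_lit 140) (nat_lit 5) (nat_lit 151) (nat_lit 5) (nat_lit 152) (nat_lit 5) (nat_lit 325) (nat_lit 306) (nat_lit 149)) (XT.lf (nat_lit 0) (nat_lit 8251161176) (nat_lit 912) (nat_lit 10490999159) (nat_lit 76) (nat_lit 3361937706) (nat_lit 140) (nat_lit 5) (nat_lit 152) (nat_lit 5) (nat_lit 141) (nat_lit 5) (nat_lit 326) (nat_lit 306) (nat_lit 148)))) (XT.nd (nat_lit 78) (nat_lit 532) (nat_lit 0) (XT.lf (nat_lit 0) (nat_lit 10045216230) (nat_lit 912) (nat_lit 642108019) (nat_lit 76) (nat_lit 11794239747) (nat_lit 140) (nat_lit 5) (nat_lit 152) (nat_lit 5) (nat_lit 141) (nat_lit 5) (nat_lit 327) (nat_lit 306) (nat_lit 147)) (XT.nd (nat_lit 78) (nat_lit 0) (nat_lit 0) (XT.lf (nat_lit 0) (nat_lit 9686496993) (nat_lit 532) (nat_lit 2294440808) (nat_lit 608) (nat_lit 10886791491) (nat_lit 133) (nat_lit 5) (nat_lit 140) (nat_lit 5) (nat_lit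 141) (nat_lit 5) (nat_lit 328) (nat_lit 306) (nat_lit 146)) (XT.lf (nat_lit 0) (nat_lit 14037166063) (nat_lit 608) (nat_lit 2993162665) (nat_lit 76) (nat_lit 6233288161) (nat_lit 133) (nat_lit 5) (nat_lit 141) (nat_lit 5) (nat_lit 134) (nat_lit 5) (nat_lit 329) (nat_lit 306) (nat_lit 145))))) (XT.nd (nat_lit 234) (nat_lit 608) (nat_lit 0) (XT.nd (nat_lit 78) (nat_lit 456) (nat_lit 0) (XT.lf (nat_lit 0) (nat_lit 7621809420) (nat_lit 532) (nat_lit 8624249168) (nat_lit 608) (nat_lit 7422603298) (nat_lit 126) (nat_lit 5) (nat_lit 133) (nat_lit 5) (nat_lit 134) (nat_lit 5) (nat_lit 330) (nat_lit 306) (nat_lit 144)) (XT.nd (nat_lit 78) (nat_lit 456) (nat_lit 0) (XT.lf (nat_lit 0) (nat_lit 18547166342) (nat_lit 608) (nat_lit 5473853759) (nat_lit 76) (nat_lit 64069476) (nat_lit 126) (nat_lit 5) (nat_lit 134) (nat_lit 5) (nat_lit 127) (nat_lit 5) (nat_lit 331) (nat_lit 306) (nat_lit 143)) (XT.lf (nat_lit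 0) (nat_lit 5432226633) (nat_lit 456) (nat_lit 15617927156) (nat_lit 532) (nat_lit 3459880431) (nat_lit 120) (nat_lit 5) (nat_lit 126) (nat_lit 5) (nat_lit 127) (nat_lit 5) (nat_lit 332) (nat_lit 306) (nat_lit 142)))) (XT.nd (nat_lit 78) (nat_lit 608) (nat_lit 0) (XT.lf (nat_lit 0) (nat_lit 16773022389) (nat_lit 456) (nat_lit 6905817325) (nat_lit 532) (nat_lit 1267378458) (nat_lit 120) (nat_lit 5) (nat_lit 126) (nat_lit 5) (nat_lit 127) (nat_lit 5) (nat_lit 333) (nat_lit 306) (nat_lit 141)) (XT.nd (nat_lit 78) (nat_lit 0) (nat_lit 0) (XT.lf (nat_lit 0) (nat_lit 1017090326) (nat_lit 608) (nat_lit 22309738430) (nat_lit 76) (nat_lit 2067016005) (nat_lit 112) (nat_lit 5) (nat_lit 120) (nat_lit 5) (nat_lit 113) (nat_lit 5) (nat_lit 334) (nat_lit 306) (nat_lit 140)) (XT.lf (nat_lit 0) (nat_lit 3491849296) (nat_lit 608) (nat_lit 11092230325) (nat_lit 76) (nat_lit 11266035657) (nat_lit 112) (nat_lit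 5) (nat_lit 120) (nat_lit 5) (nat_lit 113) (nat_lit 5) (nat_lit 335) (nat_lit 306) (nat_lit 139)))))) (XT.nd (nat_lit 468) (nat_lit 836) (nat_lit 0) (XT.nd (nat_lit 234) (nat_lit 836) (nat_lit 0) (XT.nd (nat_lit 78) (nat_lit 0) (nat_lit 0) (XT.lf (nat_lit 0) (nat_lit 466303950) (nat_lit 456) (nat_lit 5574664758) (nat_lit 532) (nat_lit 20279109877) (nat_lit 106) (nat_lit 5) (nat_lit 112) (nat_lit 5) (nat_lit 113) (nat_lit 5) (nat_lit 336) (nat_lit 306) (nat_lit 138)) (XT.nd (nat_lit 78) (nat_lit 0) (nat_lit 0) (XT.lf (nat_lit 0) (nat_lit 8811011547) (nat_lit 532) (nat_lit 14243217501) (nat_lit 76) (nat_lit 3745586216) (nat_lit 106) (nat_lit 5) (nat_lit 113) (nat_lit 5) (nat_lit 107) (nat_lit 5) (nat_lit 337) (nat_lit 306) (nat_lit 137)) (XT.lf (nat_lit 0) (nat_lit 11715191168) (nat_lit 532) (nat_lit 2344088892) (nat_lit 76) (nat_lit 13233140653) (nat_lit 106) (nat_lit 5) (nat_lit 113) (nat_lit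 5) (nat_lit 107) (nat_lit 5) (nat_lit 338) (nat_lit 306) (nat_lit 136)))) (XT.nd (nat_lit 78) (nat_lit 380) (nat_lit 0) (XT.lf (nat_lit 0) (nat_lit 10104776154) (nat_lit 456) (nat_lit 4694815252) (nat_lit 532) (nat_lit 12997427574) (nat_lit 100) (nat_lit 5) (nat_lit 106) (nat_lit 5) (nat_lit 107) (nat_lit 5) (nat_lit 339) (nat_lit 306) (nat_lit 135)) (XT.nd (nat_lit 78) (nat_lit 380) (nat_lit 0) (XT.lf (nat_lit 0) (nat_lit 18044050291) (nat_lit 532) (nat_lit 5393205688) (nat_lit 76) (nat_lit 4877480708) (nat_lit 100) (nat_lit 5) (nat_lit 107) (nat_lit 5) (nat_lit 101) (nat_lit 5) (nat_lit 340) (nat_lit 306) (nat_lit 134)) (XT.lf (nat_lit 0) (nat_lit 7367724169) (nat_lit 380) (nat_lit 14131574228) (nat_lit 456) (nat_lit 7345290942) (nat_lit 95) (nat_lit 5) (nat_lit 100) (nat_lit 5) (nat_lit 101) (nat_lit 5) (nat_lit 341) (nat_lit 306) (nat_lit 133))))) (XT.nd (nat_lit 234) (nat_lit 380) (nat_lit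 0) (XT.nd (nat_lit 78) (nat_lit 456) (nat_lit 0) (XT.lf (nat_lit 0) (nat_lit 20617714243) (nat_lit 380) (nat_lit 4491170180) (nat_lit 456) (nat_lit 4279939607) (nat_lit 95) (nat_lit 5) (nat_lit 100) (nat_lit 5) (nat_lit 101) (nat_lit 5) (nat_lit 342) (nat_lit 306) (nat_lit 132)) (XT.nd (nat_lit 78) (nat_lit 76) (nat_lit 0) (XT.lf (nat_lit 0) (nat_lit 4343998741) (nat_lit 380) (nat_lit 24573118844) (nat_lit 456) (nat_lit 1029564062) (nat_lit 90) (nat_lit 5) (nat_lit 95) (nat_lit 5) (nat_lit 96) (nat_lit 5) (nat_lit 343) (nat_lit 306) (nat_lit 131)) (XT.lf (nat_lit 0) (nat_lit 2403347564) (nat_lit 456) (nat_lit 12558232914) (nat_lit 76) (nat_lit 15555124341) (nat_lit 89) (nat_lit 5) (nat_lit 95) (nat_lit 5) (nat_lit 90) (nat_lit 5) (nat_lit 344) (nat_lit 306) (nat_lit 130)))) (XT.nd (nat_lit 78) (nat_lit 0) (nat_lit 0) (XT.lf (nat_lit 0) (nat_lit 880315958) (nat_lit 380) (nat_lit 5043154508) (nat_lit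 456) (nat_lit 25179911001) (nat_lit 84) (nat_lit 5) (nat_lit 89) (nat_lit 5) (nat_lit 90) (nat_lit 5) (nat_lit 345) (nat_lit 306) (nat_lit 129)) (XT.nd (nat_lit 78) (nat_lit 0) (nat_lit 0) (XT.lf (nat_lit 0) (nat_lit 9723501930) (nat_lit 456) (nat_lit 16779662562) (nat_lit 76) (nat_lit 5199270705) (nat_lit 84) (nat_lit 5) (nat_lit 90) (nat_lit 5) (nat_lit 85) (nat_lit 5) (nat_lit 346) (nat_lit 306) (nat_lit 128)) (XT.lf (nat_lit 0) (nat_lit 13684079584) (nat_lit 456) (nat_lit 2987046431) (nat_lit 76) (nat_lit 15646943921) (nat_lit 84) (nat_lit 5) (nat_lit 90) (nat_lit 5) (nat_lit 85) (nat_lit 5) (nat_lit 347) (nat_lit 306) (nat_lit 127))))))))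
noncomputable def xc218 : XT := (XT.nd (nat_lit 1794) (nat_lit 836) (nat_lit 0) (XT.nd (nat_lit 858) (nat_lit 1368) (nat_lit 0) (XT.nd (nat_lit 390) (nat_lit 608) (nat_lit 0) (XT.nd (nat_lit 156) (nat_lit 684) (nat_lit 0) (XT.nd (nat_lit 78) (nat_lit 0) (nat_lit 0) (XT.lf (nat_lit 0) (nat_lit 11438519278) (nat_lit 380) (nat_lit 6431621007) (nat_lit 456) (nat_lit 15078839050) (nat_lit 79) (nat_lit 5) (nat_lit 84) (nat_lit 5) (nat_lit 85) (nat_lit 5) (nat_lit 348) (nat_lit 306) (nat_lit 126)) (XT.lf (nat_lit 0) (nat_lit 22248563013) (nat_lit 456) (nat_lit 7283773891) (nat_lit 76) (nat_lit 4064481131) (nat_lit 79) (nat_lit 5) (nat_lit 85) (nat_lit 5) (nat_lit 80) (nat_lit 5) (nat_lit 349) (nat_lit 306) (nat_lit 125))) (XT.nd (nat_lit 78) (nat_lit 380) (nat_lit 0) (XT.lf (nat_lit 0) (nat_lit 7447386894) (nat_lit 304) (nat_lit 19443075786) (nat_lit 380) (nat_lit 7369670756) (nat_lit 75) (nat_lit 5)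 (nat_lit 79) (nat_lit 5) (nat_lit 80) (nat_lit 5) (nat_lit 350) (nat_lit 306) (nat_lit 124)) (XT.nd (nat_lit 78) (nat_lit 380) (nat_lit 0) (XT.lf (nat_lit 0) (nat_lit 22765859774) (nat_lit 304) (nat_lit 8976221166) (nat_lit 380) (nat_lit 3199158623) (nat_lit 75) (nat_lit 5) (nat_lit 79) (nat_lit 5) (nat_lit 80) (nat_lit 5) (nat_lit 351) (nat_lit 306) (nat_lit 123)) (XT.lf (nat_lit 0) (nat_lit 1118062544) (nat_lit 380) (nat_lit 32715298120) (nat_lit 76) (nat_lit 1807817142) (nat_lit 70) (nat_lit 5) (nat_lit 75) (nat_lit 5) (nat_lit 71) (nat_lit 5) (nat_lit 352) (nat_lit 306) (nat_lit 122))))) (XT.nd (nat_lit 234) (nat_lit 304) (nat_lit 0) (XT.nd (nat_lit 78) (nat_lit 304) (nat_lit 0) (XT.lf (nat_lit 0) (nat_lit 5710547010) (nat_lit 380) (nat_lit 17754362528) (nat_lit 76) (nat_lit 12889957695) (nat_lit 70) (nat_lit 5) (nat_lit 75) (nat_lit 5) (nat_lit 71) (nat_lit 5) (nat_lit 353) (nat_lit 306)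 (nat_lit 121)) (XT.nd (nat_lit 78) (nat_lit 304) (nat_lit 0) (XT.lf (nat_lit 0) (nat_lit 10437901488) (nat_lit 380) (nat_lit 2348415799) (nat_lit 76) (nat_lit 24303741736) (nat_lit 70) (nat_lit 5) (nat_lit 75) (nat_lit 5) (nat_lit 71) (nat_lit 5) (nat_lit 354) (nat_lit 306) (nat_lit 120)) (XT.lf (nat_lit 0) (nat_lit 13784998547) (nat_lit 304) (nat_lit 1651767967) (nat_lit 380) (nat_lit 22406653766) (nat_lit 66) (nat_lit 5) (nat_lit 70) (nat_lit 5) (nat_lit 71) (nat_lit 5) (nat_lit 355) (nat_lit 306) (nat_lit 119)))) (XT.nd (nat_lit 78) (nat_lit 304) (nat_lit 0) (XT.lf (nat_lit 0) (nat_lit 20701130261) (nat_lit 380) (nat_lit 8266463737) (nat_lit 76) (nat_lit 9648326677) (nat_lit 66) (nat_lit 5) (nat_lit 71) (nat_lit 5) (nat_lit 67) (nat_lit 5) (nat_lit 356) (nat_lit 306) (nat_lit 118)) (XT.nd (nat_lit 78) (nat_lit 0) (nat_lit 0) (XT.lf (nat_lit 0) (nat_lit 8138062665) (nat_lit 304) (nat_lit 18077243769)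 (nat_lit 380) (nat_lit 13193537359) (nat_lit 62) (nat_lit 5) (nat_lit 66) (nat_lit 5) (nat_lit 67) (nat_lit 5) (nat_lit 357) (nat_lit 306) (nat_lit 117)) (XT.lf (nat_lit 0) (nat_lit 25200575828) (nat_lit 304) (nat_lit 6775150502) (nat_lit 380) (nat_lit 8247407760) (nat_lit 62) (nat_lit 5) (nat_lit 66) (nat_lit 5) (nat_lit 67) (nat_lit 5) (nat_lit 358) (nat_lit 306) (nat_lit 116)))))) (XT.nd (nat_lit 468) (nat_lit 532) (nat_lit 0) (XT.nd (nat_lit 234) (nat_lit 532) (nat_lit 0) (XT.nd (nat_lit 78) (nat_lit 76) (nat_lit 0) (XT.lf (nat_lit 0) (nat_lit 1695857617) (nat_lit 228) (nat_lit 36273589751) (nat_lit 304) (nat_lit 3090594990) (nat_lit 59) (nat_lit 5) (nat_lit 62) (nat_lit 5) (nat_lit 63) (nat_lit 5) (nat_lit 359) (nat_lit 306) (nat_lit 115)) (XT.nd (nat_lit 78) (nat_lit 0) (nat_lit 0) (XT.lf (nat_lit 0) (nat_lit 2395289366) (nat_lit 304) (nat_lit 22787255644) (nat_lit 76) (nat_lit 16732344931)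 (nat_lit 58) (nat_lit 5) (nat_lit 62) (nat_lit 5) (nat_lit 59) (nat_lit 5) (nat_lit 360) (nat_lit 306) (nat_lit 114)) (XT.lf (nat_lit 0) (nat_lit 7981131722) (nat_lit 304) (nat_lit 5747104921) (nat_lit 76) (nat_lit 29066306916) (nat_lit 58) (nat_lit 5) (nat_lit 62) (nat_lit 5) (nat_lit 59) (nat_lit 5) (nat_lit 361) (nat_lit 306) (nat_lit 113)))) (XT.nd (nat_lit 78) (nat_lit 228) (nat_lit 0) (XT.lf (nat_lit 0) (nat_lit 12035725931) (nat_lit 304) (nat_lit 1812090379) (nat_lit 380) (nat_lit 29849375948) (nat_lit 54) (nat_lit 5) (nat_lit 58) (nat_lit 5) (nat_lit 59) (nat_lit 5) (nat_lit 362) (nat_lit 306) (nat_lit 112)) (XT.nd (nat_lit 78) (nat_lit 228) (nat_lit 0) (XT.lf (nat_lit 0) (nat_lit 20047274700) (nat_lit 380) (nat_lit 14259882362) (nat_lit 76) (nat_lit 10315063540) (nat_lit 54) (nat_lit 5) (nat_lit 59) (nat_lit 5) (nat_lit 55) (nat_lit 5) (nat_lit 363) (nat_lit 306) (nat_lit 111)) (XT.lf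 (nat_lit 0) (nat_lit 3714982476) (nat_lit 228) (nat_lit 22769057846) (nat_lit 304) (nat_lit 19089423053) (nat_lit 51) (nat_lit 5) (nat_lit 54) (nat_lit 5) (nat_lit 55) (nat_lit 5) (nat_lit 364) (nat_lit 306) (nat_lit 110))))) (XT.nd (nat_lit 234) (nat_lit 304) (nat_lit 0) (XT.nd (nat_lit 78) (nat_lit 228) (nat_lit 0) (XT.lf (nat_lit 0) (nat_lit 22518121550) (nat_lit 228) (nat_lit 10737491767) (nat_lit 304) (nat_lit 13293382167) (nat_lit 51) (nat_lit 5) (nat_lit 54) (nat_lit 5) (nat_lit 55) (nat_lit 5) (nat_lit 365) (nat_lit 306) (nat_lit 109)) (XT.nd (nat_lit 78) (nat_lit 228) (nat_lit 0) (XT.lf (nat_lit 0) (nat_lit 40244007639) (nat_lit 304) (nat_lit 5687598065) (nat_lit 76) (nat_lit 1621780724) (nat_lit 51) (nat_lit 5) (nat_lit 55) (nat_lit 5) (nat_lit 52) (nat_lit 5) (nat_lit 366) (nat_lit 306) (nat_lit 108)) (XT.lf (nat_lit 0) (nat_lit 13357154923) (nat_lit 228) (nat_lit 34317437962) (nat_lit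 304) (nat_lit 906343045) (nat_lit 48) (nat_lit 5) (nat_lit 51) (nat_lit 5) (nat_lit 52) (nat_lit 5) (nat_lit 367) (nat_lit 306) (nat_lit 107)))) (XT.nd (nat_lit 78) (nat_lit 228) (nat_lit 0) (XT.lf (nat_lit 0) (nat_lit 5633616650) (nat_lit 304) (nat_lit 16606171400) (nat_lit 76) (nat_lit 27396210931) (nat_lit 47) (nat_lit 5) (nat_lit 51) (nat_lit 5) (nat_lit 48) (nat_lit 5) (nat_lit 368) (nat_lit 306) (nat_lit 106)) (XT.nd (nat_lit 78) (nat_lit 0) (nat_lit 0) (XT.lf (nat_lit 0) (nat_lit 2608822206) (nat_lit 228) (nat_lit 9765716162) (nat_lit 304) (nat_lit 38347219698) (nat_lit 44) (nat_lit 5) (nat_lit 47) (nat_lit 5) (nat_lit 48) (nat_lit 5) (nat_lit 369) (nat_lit 306) (nat_lit 105)) (XT.lf (nat_lit 0) (nat_lit 19514594025) (nat_lit 304) (nat_lit 29128778441) (nat_lit 76) (nat_lit 3190812939) (nat_lit 44) (nat_lit 5) (nat_lit 48) (nat_lit 5) (nat_lit 45) (nat_lit 5) (nat_lit 370) (nat_lit 306)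 (nat_lit 104))))))) (XT.nd (nat_lit 35646) (nat_lit 0) (nat_lit 9576) (XT.nd (nat_lit 390) (nat_lit 380) (nat_lit 0) (XT.nd (nat_lit 156) (nat_lit 228) (nat_lit 0) (XT.nd (nat_lit 78) (nat_lit 228) (nat_lit 0) (XT.lf (nat_lit 0) (nat_lit 26963526656) (nat_lit 304) (nat_lit 9674799320) (nat_lit 76) (nat_lit 16338821920) (nat_lit 44) (nat_lit 5) (nat_lit 48) (nat_lit 5) (nat_lit 45) (nat_lit 5) (nat_lit 371) (nat_lit 306) (nat_lit 103)) (XT.lf (nat_lit 0) (nat_lit 10566055973) (nat_lit 228) (nat_lit 24169482419) (nat_lit 304) (nat_lit 19415875050) (nat_lit 41) (nat_lit 5) (nat_lit 44) (nat_lit 5) (nat_lit 45) (nat_lit 5) (nat_lit 372) (nat_lit 306) (nat_lit 102))) (XT.nd (nat_lit 78) (nat_lit 228) (nat_lit 0) (XT.lf (nat_lit 0) (nat_lit 31609564492) (nat_lit 228) (nat_lit 11226915364) (nat_lit 304) (nat_lit 12521556462) (nat_lit 41) (nat_lit 5) (nat_lit 44) (nat_lit 5) (nat_lit 45) (nat_lit 5)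 (nat_lit 373) (nat_lit 306) (nat_lit 101)) (XT.nd (nat_lit 78) (nat_lit 228) (nat_lit 0) (XT.lf (nat_lit 0) (nat_lit 51198793769) (nat_lit 304) (nat_lit 3339565293) (nat_lit 76) (nat_lit 2061950862) (nat_lit 41) (nat_lit 5) (nat_lit 45) (nat_lit 5) (nat_lit 42) (nat_lit 5) (nat_lit 374) (nat_lit 306) (nat_lit 100)) (XT.lf (nat_lit 0) (nat_lit 2178772521) (nat_lit 228) (nat_lit 39975463722) (nat_lit 76) (nat_lit 15716530050) (nat_lit 38) (nat_lit 5) (nat_lit 41) (nat_lit 5) (nat_lit 39) (nat_lit 5) (nat_lit 375) (nat_lit 306) (nat_lit 99))))) (XT.nd (nat_lit 234) (nat_lit 152) (nat_lit 0) (XT.nd (nat_lit 78) (nat_lit 228) (nat_lit 0) (XT.lf (nat_lit 0) (nat_lit 9910143122) (nat_lit 228) (nat_lit 19399253840) (nat_lit 76) (nat_lit 29867370001) (nat_lit 38) (nat_lit 5) (nat_lit 41) (nat_lit 5) (nat_lit 39) (nat_lit 5) (nat_lit 376) (nat_lit 306) (nat_lit 98)) (XT.nd (nat_lit 78) (nat_lit 0) (nat_lit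 0) (XT.lf (nat_lit 0) (nat_lit 1827189408) (nat_lit 228) (nat_lit 16062063897) (nat_lit 304) (nat_lit 42632222499) (nat_lit 35) (nat_lit 5) (nat_lit 38) (nat_lit 5) (nat_lit 39) (nat_lit 5) (nat_lit 377) (nat_lit 306) (nat_lit 97)) (XT.lf (nat_lit 0) (nat_lit 24085410212) (nat_lit 228) (nat_lit 2216481062) (nat_lit 304) (nat_lit 35598812047) (nat_lit 35) (nat_lit 5) (nat_lit 38) (nat_lit 5) (nat_lit 39) (nat_lit 5) (nat_lit 378) (nat_lit 306) (nat_lit 96)))) (XT.nd (nat_lit 78) (nat_lit 152) (nat_lit 0) (XT.lf (nat_lit 0) (nat_lit 35080989135) (nat_lit 304) (nat_lit 16428356037) (nat_lit 76) (nat_lit 11808542056) (nat_lit 35) (nat_lit 5) (nat_lit 39) (nat_lit 5) (nat_lit 36) (nat_lit 5) (nat_lit 379) (nat_lit 306) (nat_lit 95)) (XT.nd (nat_lit 78) (nat_lit 0) (nat_lit 0) (XT.lf (nat_lit 0) (nat_lit 5686640527) (nat_lit 152) (nat_lit 38511779631) (nat_lit 228) (nat_lit 20576919616) (nat_lit 33)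 (nat_lit 5) (nat_lit 35) (nat_lit 5) (nat_lit 36) (nat_lit 5) (nat_lit 380) (nat_lit 306) (nat_lit 94)) (XT.lf (nat_lit 0) (nat_lit 28799307276) (nat_lit 152) (nat_lit 24954335976) (nat_lit 228) (nat_lit 12517946441) (nat_lit 33) (nat_lit 5) (nat_lit 35) (nat_lit 5) (nat_lit 36) (nat_lit 5) (nat_lit 381) (nat_lit 306) (nat_lit 93)))))) (XT.nd (nat_lit 468) (nat_lit 0) (nat_lit 152) (XT.nd (nat_lit 234) (nat_lit 0) (nat_lit 76) (XT.nd (nat_lit 78) (nat_lit 0) (nat_lit 0) (XT.lf (nat_lit 0) (nat_lit 4341994537) (nat_lit 1140) (nat_lit 1990638254) (nat_lit 1140) (nat_lit 1990638254) (nat_lit 159) (nat_lit 3) (nat_lit 174) (nat_lit 3) (nat_lit 174) (nat_lit 5) (nat_lit 307) (nat_lit 307) (nat_lit 166)) (XT.nd (nat_lit 78) (nat_lit 0) (nat_lit 76) (XT.lf (nat_lit 76) (nat_lit 3126190992) (nat_lit 0) (nat_lit 5936777242) (nat_lit 1140) (nat_lit 7825329321) (nat_lit 160) (nat_lit 5) (nat_lit 159) (nat_lit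 3) (nat_lit 174) (nat_lit 5) (nat_lit 308) (nat_lit 307) (nat_lit 165)) (XT.lf (nat_lit 0) (nat_lit 9494930739) (nat_lit 1064) (nat_lit 6622361042) (nat_lit 1140) (nat_lit 1018784258) (nat_lit 160) (nat_lit 5) (nat_lit 174) (nat_lit 5) (nat_lit 175) (nat_lit 5) (nat_lit 309) (nat_lit 307) (nat_lit 164)))) (XT.nd (nat_lit 78) (nat_lit 0) (nat_lit 0) (XT.lf (nat_lit 76) (nat_lit 681426556) (nat_lit 0) (nat_lit 9315466570) (nat_lit 1140) (nat_lit 7392701749) (nat_lit 161) (nat_lit 5) (nat_lit 160) (nat_lit 5) (nat_lit 175) (nat_lit 5) (nat_lit 310) (nat_lit 307) (nat_lit 163)) (XT.nd (nat_lit 78) (nat_lit 0) (nat_lit 76) (XT.lf (nat_lit 76) (nat_lit 8335458049) (nat_lit 0) (nat_lit 2237236954) (nat_lit 1140) (nat_lit 7076278554) (nat_lit 161) (nat_lit 5) (nat_lit 160) (nat_lit 5) (nat_lit 175) (nat_lit 5) (nat_lit 311) (nat_lit 307) (nat_lit 162)) (XT.lf (nat_lit 0) (nat_lit 11206522569) (nat_lit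 1064) (nat_lit 1750371204) (nat_lit 1140) (nat_lit 4958034458) (nat_lit 161) (nat_lit 5) (nat_lit 175) (nat_lit 5) (nat_lit 176) (nat_lit 5) (nat_lit 312) (nat_lit 307) (nat_lit 161))))) (XT.nd (nat_lit 234) (nat_lit 0) (nat_lit 76) (XT.nd (nat_lit 78) (nat_lit 0) (nat_lit 76) (XT.lf (nat_lit 76) (nat_lit 6132551432) (nat_lit 0) (nat_lit 5800317956) (nat_lit 1140) (nat_lit 6253803706) (nat_lit 162) (nat_lit 5) (nat_lit 161) (nat_lit 5) (nat_lit 176) (nat_lit 5) (nat_lit 313) (nat_lit 307) (nat_lit 160)) (XT.nd (nat_lit 78) (nat_lit 0) (nat_lit 0) (XT.lf (nat_lit 0) (nat_lit 12706566011) (nat_lit 1064) (nat_lit 4198327251) (nat_lit 1140) (nat_lit 1560926458) (nat_lit 162) (nat_lit 5) (nat_lit 176) (nat_lit 5) (nat_lit 177) (nat_lit 5) (nat_lit 314) (nat_lit 307) (nat_lit 159)) (XT.lf (nat_lit 76) (nat_lit 3907244019) (nat_lit 0) (nat_lit 9684040615) (nat_lit 1140) (nat_lit 5159437499) (nat_lit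 163) (nat_lit 5) (nat_lit 162) (nat_lit 5) (nat_lit 177) (nat_lit 5) (nat_lit 315) (nat_lit 307) (nat_lit 158)))) (XT.nd (nat_lit 78) (nat_lit 0) (nat_lit 76) (XT.lf (nat_lit 76) (nat_lit 12337377733) (nat_lit 0) (nat_lit 2200549521) (nat_lit 1140) (nat_lit 4505198158) (nat_lit 163) (nat_lit 5) (nat_lit 162) (nat_lit 5) (nat_lit 177) (nat_lit 5) (nat_lit 316) (nat_lit 307) (nat_lit 157)) (XT.nd (nat_lit 78) (nat_lit 0) (nat_lit 0) (XT.lf (nat_lit 76) (nat_lit 1650611767) (nat_lit 0) (nat_lit 13924378727) (nat_lit 1140) (nat_lit 3767464477) (nat_lit 164) (nat_lit 5) (nat_lit 163) (nat_lit 5) (nat_lit 178) (nat_lit 5) (nat_lit 317) (nat_lit 307) (nat_lit 156)) (XT.lf (nat_lit 76) (nat_lit 10368177455) (nat_lit 0) (nat_lit 6357643043) (nat_lit 1140) (nat_lit 2922478663) (nat_lit 164) (nat_lit 5) (nat_lit 163) (nat_lit 5) (nat_lit 178) (nat_lit 5) (nat_lit 318) (nat_lit 307) (nat_lit 155))))))))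
noncomputable def xc219 : XT := (XT.nd (nat_lit 1794) (nat_lit 3724) (nat_lit 0) (XT.nd (nat_lit 858) (nat_lit 2508) (nat_lit 0) (XT.nd (nat_lit 390) (nat_lit 1216) (nat_lit 0) (XT.nd (nat_lit 156) (nat_lit 1140) (nat_lit 0) (XT.nd (nat_lit 78) (nat_lit 0) (nat_lit 0) (XT.lf (nat_lit 0) (nat_lit 17918557020) (nat_lit 1064) (nat_lit 634665152) (nat_lit 1140) (nat_lit 1409889026) (nat_lit 164) (nat_lit 5) (nat_lit 178) (nat_lit 5) (nat_lit 179) (nat_lit 5) (nat_lit 319) (nat_lit 307) (nat_lit 154)) (XT.lf (nat_lit 76) (nat_lit 8365782879) (nat_lit 0) (nat_lit 10918420814) (nat_lit 1140) (nat_lit 999063626) (nat_lit 165) (nat_lit 5) (nat_lit 164) (nat_lit 5) (nat_lit 179) (nat_lit 5) (nat_lit 320) (nat_lit 307) (nat_lit 153))) (XT.nd (nat_lit 78) (nat_lit 0) (nat_lit 76) (XT.lf (nat_lit 0) (nat_lit 76573914) (nat_lit 1140) (nat_lit 2969154360) (nat_lit 1216) (nat_lit 17567281193) (nat_lit 149) (nat_lit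 5) (nat_lit 164) (nat_lit 5) (nat_lit 165) (nat_lit 5) (nat_lit 321) (nat_lit 307) (nat_lit 152)) (XT.nd (nat_lit 78) (nat_lit 0) (nat_lit 0) (XT.lf (nat_lit 0) (nat_lit 1268903217) (nat_lit 1140) (nat_lit 14642930143) (nat_lit 1216) (nat_lit 5037391097) (nat_lit 150) (nat_lit 5) (nat_lit 165) (nat_lit 5) (nat_lit 166) (nat_lit 5) (nat_lit 322) (nat_lit 307) (nat_lit 151)) (XT.lf (nat_lit 0) (nat_lit 2551588201) (nat_lit 1140) (nat_lit 5408985666) (nat_lit 1216) (nat_lit 13333326506) (nat_lit 150) (nat_lit 5) (nat_lit 165) (nat_lit 5) (nat_lit 166) (nat_lit 5) (nat_lit 323) (nat_lit 307) (nat_lit 150))))) (XT.nd (nat_lit 234) (nat_lit 532) (nat_lit 0) (XT.nd (nat_lit 78) (nat_lit 836) (nat_lit 0) (XT.lf (nat_lit 0) (nat_lit 3909855830) (nat_lit 1140) (nat_lit 17471621194) (nat_lit 76) (nat_lit 266338180) (nat_lit 151) (nat_lit 5) (nat_lit 166) (nat_lit 5) (nat_lit 152) (nat_lit 5) (nat_lit 324)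 (nat_lit 307) (nat_lit 149)) (XT.nd (nat_lit 78) (nat_lit 836) (nat_lit 0) (XT.lf (nat_lit 0) (nat_lit 5437301475) (nat_lit 1140) (nat_lit 7935039847) (nat_lit 76) (nat_lit 8636164618) (nat_lit 151) (nat_lit 5) (nat_lit 166) (nat_lit 5) (nat_lit 152) (nat_lit 5) (nat_lit 325) (nat_lit 307) (nat_lit 148)) (XT.lf (nat_lit 0) (nat_lit 1920472928) (nat_lit 836) (nat_lit 5103171410) (nat_lit 912) (nat_lit 15355991873) (nat_lit 140) (nat_lit 5) (nat_lit 151) (nat_lit 5) (nat_lit 152) (nat_lit 5) (nat_lit 326) (nat_lit 307) (nat_lit 147)))) (XT.nd (nat_lit 78) (nat_lit 532) (nat_lit 0) (XT.lf (nat_lit 0) (nat_lit 8766049676) (nat_lit 912) (nat_lit 10563567735) (nat_lit 76) (nat_lit 3429039521) (nat_lit 140) (nat_lit 5) (nat_lit 152) (nat_lit 5) (nat_lit 141) (nat_lit 5) (nat_lit 327) (nat_lit 307) (nat_lit 146)) (XT.nd (nat_lit 78) (nat_lit 532) (nat_lit 0) (XT.lf (nat_lit 0) (nat_lit 10606139382) (nat_lit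 912) (nat_lit 426263106) (nat_lit 76) (nat_lit 12115293816) (nat_lit 140) (nat_lit 5) (nat_lit 152) (nat_lit 5) (nat_lit 141) (nat_lit 5) (nat_lit 328) (nat_lit 307) (nat_lit 145)) (XT.lf (nat_lit 0) (nat_lit 10209895075) (nat_lit 532) (nat_lit 2384715177) (nat_lit 608) (nat_lit 10951011343) (nat_lit 133) (nat_lit 5) (nat_lit 140) (nat_lit 5) (nat_lit 141) (nat_lit 5) (nat_lit 329) (nat_lit 307) (nat_lit 144)))))) (XT.nd (nat_lit 468) (nat_lit 912) (nat_lit 0) (XT.nd (nat_lit 234) (nat_lit 1064) (nat_lit 0) (XT.nd (nat_lit 78) (nat_lit 532) (nat_lit 0) (XT.lf (nat_lit 0) (nat_lit 14704920086) (nat_lit 608) (nat_lit 2848832445) (nat_lit 76) (nat_lit 6399876369) (nat_lit 133) (nat_lit 5) (nat_lit 141) (nat_lit 5) (nat_lit 134) (nat_lit 5) (nat_lit 330) (nat_lit 307) (nat_lit 143)) (XT.nd (nat_lit 78) (nat_lit 0) (nat_lit 0) (XT.lf (nat_lit 0) (nat_lit 8082293458) (nat_lit 532) (nat_lit 8892830756)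 (nat_lit 608) (nat_lit 7395864172) (nat_lit 126) (nat_lit 5) (nat_lit 133) (nat_lit 5) (nat_lit 134) (nat_lit 5) (nat_lit 331) (nat_lit 307) (nat_lit 142)) (XT.lf (nat_lit 0) (nat_lit 19338133900) (nat_lit 608) (nat_lit 5405391861) (nat_lit 76) (nat_lit 56611149) (nat_lit 126) (nat_lit 5) (nat_lit 134) (nat_lit 5) (nat_lit 127) (nat_lit 5) (nat_lit 332) (nat_lit 307) (nat_lit 141)))) (XT.nd (nat_lit 78) (nat_lit 608) (nat_lit 0) (XT.lf (nat_lit 0) (nat_lit 5825589790) (nat_lit 456) (nat_lit 16086004262) (nat_lit 532) (nat_lit 3326388001) (nat_lit 120) (nat_lit 5) (nat_lit 126) (nat_lit 5) (nat_lit 127) (nat_lit 5) (nat_lit 333) (nat_lit 307) (nat_lit 140)) (XT.nd (nat_lit 78) (nat_lit 608) (nat_lit 0) (XT.lf (nat_lit 0) (nat_lit 17499898845) (nat_lit 456) (nat_lit 7112544555) (nat_lit 532) (nat_lit 1075022294) (nat_lit 120) (nat_lit 5) (nat_lit 126) (nat_lit 5) (nat_lit 127) (nat_lit 5) (nat_lit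 334) (nat_lit 307) (nat_lit 139)) (XT.lf (nat_lit 0) (nat_lit 1269128974) (nat_lit 608) (nat_lit 22745647719) (nat_lit 76) (nat_lit 2133821131) (nat_lit 112) (nat_lit 5) (nat_lit 120) (nat_lit 5) (nat_lit 113) (nat_lit 5) (nat_lit 335) (nat_lit 307) (nat_lit 138))))) (XT.nd (nat_lit 234) (nat_lit 456) (nat_lit 0) (XT.nd (nat_lit 78) (nat_lit 456) (nat_lit 0) (XT.lf (nat_lit 0) (nat_lit 3811678501) (nat_lit 608) (nat_lit 11198411930) (nat_lit 76) (nat_lit 11608671722) (nat_lit 112) (nat_lit 5) (nat_lit 120) (nat_lit 5) (nat_lit 113) (nat_lit 5) (nat_lit 336) (nat_lit 307) (nat_lit 137)) (XT.nd (nat_lit 78) (nat_lit 0) (nat_lit 0) (XT.lf (nat_lit 0) (nat_lit 704656949) (nat_lit 456) (nat_lit 5728506986) (nat_lit 532) (nat_lit 20669795430) (nat_lit 106) (nat_lit 5) (nat_lit 112) (nat_lit 5) (nat_lit 113) (nat_lit 5) (nat_lit 337) (nat_lit 307) (nat_lit 136)) (XT.lf (nat_lit 0) (nat_lit 9280288450)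 (nat_lit 532) (nat_lit 14446284248) (nat_lit 76) (nat_lit 3870707469) (nat_lit 106) (nat_lit 5) (nat_lit 113) (nat_lit 5) (nat_lit 107) (nat_lit 5) (nat_lit 338) (nat_lit 307) (nat_lit 135)))) (XT.nd (nat_lit 78) (nat_lit 456) (nat_lit 0) (XT.lf (nat_lit 0) (nat_lit 12265624142) (nat_lit 532) (nat_lit 2196712745) (nat_lit 76) (nat_lit 13642517074) (nat_lit 106) (nat_lit 5) (nat_lit 113) (nat_lit 5) (nat_lit 107) (nat_lit 5) (nat_lit 339) (nat_lit 307) (nat_lit 134)) (XT.nd (nat_lit 78) (nat_lit 0) (nat_lit 0) (XT.lf (nat_lit 0) (nat_lit 10623483950) (nat_lit 456) (nat_lit 4815349121) (nat_lit 532) (nat_lit 13185879582) (nat_lit 100) (nat_lit 5) (nat_lit 106) (nat_lit 5) (nat_lit 107) (nat_lit 5) (nat_lit 340) (nat_lit 307) (nat_lit 133)) (XT.lf (nat_lit 0) (nat_lit 18775128267) (nat_lit 532) (nat_lit 5339869654) (nat_lit 76) (nat_lit 5043139359) (nat_lit 100) (nat_lit 5) (nat_lit 107) (nat_lit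 5) (nat_lit 101) (nat_lit 5) (nat_lit 341) (nat_lit 307) (nat_lit 132))))))) (XT.nd (nat_lit 936) (nat_lit 1444) (nat_lit 0) (XT.nd (nat_lit 468) (nat_lit 1064) (nat_lit 0) (XT.nd (nat_lit 234) (nat_lit 456) (nat_lit 0) (XT.nd (nat_lit 78) (nat_lit 380) (nat_lit 0) (XT.lf (nat_lit 0) (nat_lit 7801778960) (nat_lit 380) (nat_lit 14528775678) (nat_lit 456) (nat_lit 7373445409) (nat_lit 95) (nat_lit 5) (nat_lit 100) (nat_lit 5) (nat_lit 101) (nat_lit 5) (nat_lit 342) (nat_lit 307) (nat_lit 131)) (XT.nd (nat_lit 78) (nat_lit 380) (nat_lit 0) (XT.lf (nat_lit 0) (nat_lit 21443064180) (nat_lit 380) (nat_lit 4599938511) (nat_lit 456) (nat_lit 4221731716) (nat_lit 95) (nat_lit 5) (nat_lit 100) (nat_lit 5) (nat_lit 101) (nat_lit 5) (nat_lit 343) (nat_lit 307) (nat_lit 130)) (XT.lf (nat_lit 0) (nat_lit 4684560348) (nat_lit 380) (nat_lit 25277918285) (nat_lit 456) (nat_lit 876948824) (nat_lit 90) (nat_lit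 5) (nat_lit 95) (nat_lit 5) (nat_lit 96) (nat_lit 5) (nat_lit 344) (nat_lit 307) (nat_lit 129)))) (XT.nd (nat_lit 78) (nat_lit 380) (nat_lit 0) (XT.lf (nat_lit 0) (nat_lit 2650128934) (nat_lit 456) (nat_lit 12727084418) (nat_lit 76) (nat_lit 16049451294) (nat_lit 89) (nat_lit 5) (nat_lit 95) (nat_lit 5) (nat_lit 90) (nat_lit 5) (nat_lit 345) (nat_lit 307) (nat_lit 128)) (XT.nd (nat_lit 78) (nat_lit 0) (nat_lit 0) (XT.lf (nat_lit 0) (nat_lit 1112582731) (nat_lit 380) (nat_lit 5160163824) (nat_lit 456) (nat_lit 25758297071) (nat_lit 84) (nat_lit 5) (nat_lit 89) (nat_lit 5) (nat_lit 90) (nat_lit 5) (nat_lit 346) (nat_lit 307) (nat_lit 127)) (XT.lf (nat_lit 0) (nat_lit 10182101693) (nat_lit 456) (nat_lit 17078230101) (nat_lit 76) (nat_lit 5387886000) (nat_lit 84) (nat_lit 5) (nat_lit 90) (nat_lit 5) (nat_lit 85) (nat_lit 5) (nat_lit 347) (nat_lit 307) (nat_lit 126))))) (XT.nd (nat_lit 234) (nat_lit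 684) (nat_lit 0) (XT.nd (nat_lit 78) (nat_lit 380) (nat_lit 0) (XT.lf (nat_lit 0) (nat_lit 14256635665) (nat_lit 456) (nat_lit 2877801186) (nat_lit 76) (nat_lit 16148038815) (nat_lit 84) (nat_lit 5) (nat_lit 90) (nat_lit 5) (nat_lit 85) (nat_lit 5) (nat_lit 348) (nat_lit 307) (nat_lit 125)) (XT.nd (nat_lit 78) (nat_lit 0) (nat_lit 0) (XT.lf (nat_lit 0) (nat_lit 11978581920) (nat_lit 380) (nat_lit 6586869631) (nat_lit 456) (nat_lit 15366953616) (nat_lit 79) (nat_lit 5) (nat_lit 84) (nat_lit 5) (nat_lit 85) (nat_lit 5) (nat_lit 349) (nat_lit 307) (nat_lit 124)) (XT.lf (nat_lit 0) (nat_lit 23070941702) (nat_lit 456) (nat_lit 7306570393) (nat_lit 76) (nat_lit 4222303277) (nat_lit 79) (nat_lit 5) (nat_lit 85) (nat_lit 5) (nat_lit 80) (nat_lit 5) (nat_lit 350) (nat_lit 307) (nat_lit 123)))) (XT.nd (nat_lit 78) (nat_lit 380) (nat_lit 0) (XT.lf (nat_lit 0) (nat_lit 7864606424) (nat_lit 304) (nat_lit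 19984842553) (nat_lit 380) (nat_lit 7433668298) (nat_lit 75) (nat_lit 5) (nat_lit 79) (nat_lit 5) (nat_lit 80) (nat_lit 5) (nat_lit 351) (nat_lit 307) (nat_lit 122)) (XT.nd (nat_lit 78) (nat_lit 380) (nat_lit 0) (XT.lf (nat_lit 0) (nat_lit 23636988892) (nat_lit 304) (nat_lit 9205191776) (nat_lit 380) (nat_lit 3142616313) (nat_lit 75) (nat_lit 5) (nat_lit 79) (nat_lit 5) (nat_lit 80) (nat_lit 5) (nat_lit 352) (nat_lit 307) (nat_lit 121)) (XT.lf (nat_lit 0) (nat_lit 1299019656) (nat_lit 380) (nat_lit 33503033773) (nat_lit 76) (nat_lit 1903706647) (nat_lit 70) (nat_lit 5) (nat_lit 75) (nat_lit 5) (nat_lit 71) (nat_lit 5) (nat_lit 353) (nat_lit 307) (nat_lit 120)))))) (XT.nd (nat_lit 468) (nat_lit 836) (nat_lit 0) (XT.nd (nat_lit 234) (nat_lit 304) (nat_lit 0) (XT.nd (nat_lit 78) (nat_lit 304) (nat_lit 0) (XT.lf (nat_lit 0) (nat_lit 6024985008) (nat_lit 380) (nat_lit 18098912540) (nat_lit 76) (nat_lit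 13317098164) (nat_lit 70) (nat_lit 5) (nat_lit 75) (nat_lit 5) (nat_lit 71) (nat_lit 5) (nat_lit 354) (nat_lit 307) (nat_lit 119)) (XT.nd (nat_lit 78) (nat_lit 304) (nat_lit 0) (XT.lf (nat_lit 0) (nat_lit 10889991530) (nat_lit 380) (nat_lit 2236265492) (nat_lit 76) (nat_lit 25072117812) (nat_lit 70) (nat_lit 5) (nat_lit 75) (nat_lit 5) (nat_lit 71) (nat_lit 5) (nat_lit 355) (nat_lit 307) (nat_lit 118)) (XT.lf (nat_lit 0) (nat_lit 14379361061) (nat_lit 304) (nat_lit 1657152352) (nat_lit 380) (nat_lit 22937899120) (nat_lit 66) (nat_lit 5) (nat_lit 70) (nat_lit 5) (nat_lit 71) (nat_lit 5) (nat_lit 356) (nat_lit 307) (nat_lit 117)))) (XT.nd (nat_lit 78) (nat_lit 304) (nat_lit 0) (XT.lf (nat_lit 0) (nat_lit 21455240363) (nat_lit 380) (nat_lit 8335138875) (nat_lit 76) (nat_lit 9979821880) (nat_lit 66) (nat_lit 5) (nat_lit 71) (nat_lit 5) (nat_lit 67) (nat_lit 5) (nat_lit 357) (nat_lit 307) (nat_lit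 116)) (XT.nd (nat_lit 78) (nat_lit 0) (nat_lit 0) (XT.lf (nat_lit 0) (nat_lit 8559765291) (nat_lit 304) (nat_lit 18572907347) (nat_lit 380) (nat_lit 13454310335) (nat_lit 62) (nat_lit 5) (nat_lit 66) (nat_lit 5) (nat_lit 67) (nat_lit 5) (nat_lit 358) (nat_lit 307) (nat_lit 115)) (XT.lf (nat_lit 0) (nat_lit 26128982177) (nat_lit 304) (nat_lit 6933110128) (nat_lit 380) (nat_lit 8363729852) (nat_lit 62) (nat_lit 5) (nat_lit 66) (nat_lit 5) (nat_lit 67) (nat_lit 5) (nat_lit 359) (nat_lit 307) (nat_lit 114))))) (XT.nd (nat_lit 234) (nat_lit 532) (nat_lit 0) (XT.nd (nat_lit 78) (nat_lit 76) (nat_lit 0) (XT.lf (nat_lit 0) (nat_lit 1920967879) (nat_lit 228) (nat_lit 37313052893) (nat_lit 304) (nat_lit 3053870653) (nat_lit 59) (nat_lit 5) (nat_lit 62) (nat_lit 5) (nat_lit 63) (nat_lit 5) (nat_lit 360) (nat_lit 307) (nat_lit 113)) (XT.nd (nat_lit 78) (nat_lit 0) (nat_lit 0) (XT.lf (nat_lit 0) (nat_lit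 2590367759) (nat_lit 304) (nat_lit 23299084517) (nat_lit 76) (nat_lit 17279011031) (nat_lit 58) (nat_lit 5) (nat_lit 62) (nat_lit 5) (nat_lit 59) (nat_lit 5) (nat_lit 361) (nat_lit 307) (nat_lit 112)) (XT.lf (nat_lit 0) (nat_lit 8340196462) (nat_lit 304) (nat_lit 5752732830) (nat_lit 76) (nat_lit 29981690057) (nat_lit 58) (nat_lit 5) (nat_lit 62) (nat_lit 5) (nat_lit 59) (nat_lit 5) (nat_lit 362) (nat_lit 307) (nat_lit 111)))) (XT.nd (nat_lit 78) (nat_lit 228) (nat_lit 0) (XT.lf (nat_lit 0) (nat_lit 12561947799) (nat_lit 304) (nat_lit 1819036921) (nat_lit 380) (nat_lit 30623424693) (nat_lit 54) (nat_lit 5) (nat_lit 58) (nat_lit 5) (nat_lit 59) (nat_lit 5) (nat_lit 363) (nat_lit 307) (nat_lit 110)) (XT.nd (nat_lit 78) (nat_lit 228) (nat_lit 0) (XT.lf (nat_lit 0) (nat_lit 20763440236) (nat_lit 380) (nat_lit 14524190571) (nat_lit 76) (nat_lit 10669652251) (nat_lit 54) (nat_lit 5) (nat_lit 59) (nat_lit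 5) (nat_lit 55) (nat_lit 5) (nat_lit 364) (nat_lit 307) (nat_lit 109)) (XT.lf (nat_lit 0) (nat_lit 3988317386) (nat_lit 228) (nat_lit 23403205428) (nat_lit 304) (nat_lit 19545598591) (nat_lit 51) (nat_lit 5) (nat_lit 54) (nat_lit 5) (nat_lit 55) (nat_lit 5) (nat_lit 365) (nat_lit 307) (nat_lit 108))))))))
noncomputable def xc220 : XT := (XT.nd (nat_lit 36738) (nat_lit 0) (nat_lit 5396) (XT.nd (nat_lit 858) (nat_lit 228) (nat_lit 0) (XT.nd (nat_lit 390) (nat_lit 456) (nat_lit 0) (XT.nd (nat_lit 156) (nat_lit 532) (nat_lit 0) (XT.nd (nat_lit 78) (nat_lit 0) (nat_lit 0) (XT.lf (nat_lit 0) (nat_lit 23350835523) (nat_lit 228) (nat_lit 11012117342) (nat_lit 304) (nat_lit 13579069891) (nat_lit 51) (nat_lit 5) (nat_lit 54) (nat_lit 5) (nat_lit 55) (nat_lit 5) (nat_lit 366) (nat_lit 307) (nat_lit 107)) (XT.lf (nat_lit 0) (nat_lit 41558248003) (nat_lit 304) (nat_lit 5702734426) (nat_lit 76) (nat_lit 1715649969)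 (nat_lit 51) (nat_lit 5) (nat_lit 55) (nat_lit 5) (nat_lit 52) (nat_lit 5) (nat_lit 367) (nat_lit 307) (nat_lit 106))) (XT.nd (nat_lit 78) (nat_lit 304) (nat_lit 0) (XT.lf (nat_lit 0) (nat_lit 13911836724) (nat_lit 228) (nat_lit 35298279931) (nat_lit 304) (nat_lit 824945067) (nat_lit 48) (nat_lit 5) (nat_lit 51) (nat_lit 5) (nat_lit 52) (nat_lit 5) (nat_lit 368) (nat_lit 307) (nat_lit 105)) (XT.nd (nat_lit 78) (nat_lit 228) (nat_lit 0) (XT.lf (nat_lit 0) (nat_lit 5905993422) (nat_lit 304) (nat_lit 16952681180) (nat_lit 76) (nat_lit 28263167843) (nat_lit 47) (nat_lit 5) (nat_lit 51) (nat_lit 5) (nat_lit 48) (nat_lit 5) (nat_lit 369) (nat_lit 307) (nat_lit 104)) (XT.lf (nat_lit 0) (nat_lit 2837275221) (nat_lit 228) (nat_lit 10010300547) (nat_lit 304) (nat_lit 39392649491) (nat_lit 44) (nat_lit 5) (nat_lit 47) (nat_lit 5) (nat_lit 48) (nat_lit 5) (nat_lit 370) (nat_lit 307) (nat_lit 103))))) (XT.nd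 (nat_lit 234) (nat_lit 228) (nat_lit 0) (XT.nd (nat_lit 78) (nat_lit 228) (nat_lit 0) (XT.lf (nat_lit 0) (nat_lit 20199319589) (nat_lit 304) (nat_lit 29854186677) (nat_lit 76) (nat_lit 3332598388) (nat_lit 44) (nat_lit 5) (nat_lit 48) (nat_lit 5) (nat_lit 45) (nat_lit 5) (nat_lit 371) (nat_lit 307) (nat_lit 102)) (XT.nd (nat_lit 78) (nat_lit 228) (nat_lit 0) (XT.lf (nat_lit 0) (nat_lit 27868828322) (nat_lit 304) (nat_lit 9820912116) (nat_lit 76) (nat_lit 16873706055) (nat_lit 44) (nat_lit 5) (nat_lit 48) (nat_lit 5) (nat_lit 45) (nat_lit 5) (nat_lit 372) (nat_lit 307) (nat_lit 101)) (XT.lf (nat_lit 0) (nat_lit 11025755784) (nat_lit 228) (nat_lit 24846808874) (nat_lit 304) (nat_lit 19900422032) (nat_lit 41) (nat_lit 5) (nat_lit 44) (nat_lit 5) (nat_lit 45) (nat_lit 5) (nat_lit 373) (nat_lit 307) (nat_lit 100)))) (XT.nd (nat_lit 78) (nat_lit 228) (nat_lit 0) (XT.lf (nat_lit 0) (nat_lit 32696412720)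 (nat_lit 228) (nat_lit 11517355817) (nat_lit 304) (nat_lit 12802126195) (nat_lit 41) (nat_lit 5) (nat_lit 44) (nat_lit 5) (nat_lit 45) (nat_lit 5) (nat_lit 374) (nat_lit 307) (nat_lit 99)) (XT.nd (nat_lit 78) (nat_lit 228) (nat_lit 0) (XT.lf (nat_lit 0) (nat_lit 52824699324) (nat_lit 304) (nat_lit 3302860737) (nat_lit 76) (nat_lit 2167947465) (nat_lit 41) (nat_lit 5) (nat_lit 45) (nat_lit 5) (nat_lit 42) (nat_lit 5) (nat_lit 375) (nat_lit 307) (nat_lit 98)) (XT.lf (nat_lit 0) (nat_lit 2333746226) (nat_lit 228) (nat_lit 41037287836) (nat_lit 76) (nat_lit 16233059973) (nat_lit 38) (nat_lit 5) (nat_lit 41) (nat_lit 5) (nat_lit 39) (nat_lit 5) (nat_lit 376) (nat_lit 307) (nat_lit 97)))))) (XT.nd (nat_lit 35412) (nat_lit 0) (nat_lit 9500) (XT.nd (nat_lit 234) (nat_lit 0) (nat_lit 0) (XT.nd (nat_lit 78) (nat_lit 228) (nat_lit 0) (XT.lf (nat_lit 0) (nat_lit 10294447929) (nat_lit 228) (nat_lit 19847794758)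 (nat_lit 76) (nat_lit 30807113452) (nat_lit 38) (nat_lit 5) (nat_lit 41) (nat_lit 5) (nat_lit 39) (nat_lit 5) (nat_lit 377) (nat_lit 307) (nat_lit 96)) (XT.nd (nat_lit 78) (nat_lit 0) (nat_lit 0) (XT.lf (nat_lit 0) (nat_lit 2014133584) (nat_lit 228) (nat_lit 16497533938) (nat_lit 304) (nat_lit 43822779664) (nat_lit 35) (nat_lit 5) (nat_lit 38) (nat_lit 5) (nat_lit 39) (nat_lit 5) (nat_lit 378) (nat_lit 307) (nat_lit 95)) (XT.lf (nat_lit 0) (nat_lit 24936252610) (nat_lit 228) (nat_lit 2237934838) (nat_lit 304) (nat_lit 36580941933) (nat_lit 35) (nat_lit 5) (nat_lit 38) (nat_lit 5) (nat_lit 39) (nat_lit 5) (nat_lit 379) (nat_lit 307) (nat_lit 94)))) (XT.nd (nat_lit 35022) (nat_lit 0) (nat_lit 9424) (XT.lf (nat_lit 0) (nat_lit 36214654143) (nat_lit 304) (nat_lit 16794563832) (nat_lit 76) (nat_lit 12205673804) (nat_lit 35) (nat_lit 5) (nat_lit 39) (nat_lit 5) (nat_lit 36) (nat_lit 5) (nat_lit 380)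 (nat_lit 307) (nat_lit 93)) (XT.nd (nat_lit 78) (nat_lit 0) (nat_lit 0) (XT.lf (nat_lit 0) (nat_lit 4688820862) (nat_lit 1140) (nat_lit 1938587428) (nat_lit 1140) (nat_lit 1938587428) (nat_lit 159) (nat_lit 3) (nat_lit 174) (nat_lit 3) (nat_lit 174) (nat_lit 5) (nat_lit 308) (nat_lit 308) (nat_lit 164)) (XT.lf (nat_lit 76) (nat_lit 3441325102) (nat_lit 0) (nat_lit 6316177371) (nat_lit 1140) (nat_lit 7623839481) (nat_lit 160) (nat_lit 5) (nat_lit 159) (nat_lit 3) (nat_lit 174) (nat_lit 5) (nat_lit 309) (nat_lit 308) (nat_lit 163))))) (XT.nd (nat_lit 234) (nat_lit 0) (nat_lit 76) (XT.nd (nat_lit 78) (nat_lit 0) (nat_lit 0) (XT.lf (nat_lit 0) (nat_lit 10188235169) (nat_lit 1064) (nat_lit 6591043624) (nat_lit 1140) (nat_lit 857727606) (nat_lit 160) (nat_lit 5) (nat_lit 174) (nat_lit 5) (nat_lit 175) (nat_lit 5) (nat_lit 310) (nat_lit 308) (nat_lit 162)) (XT.nd (nat_lit 78) (nat_lit 0) (nat_lit 0)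 (XT.lf (nat_lit 76) (nat_lit 929602815) (nat_lit 0) (nat_lit 9765945935) (nat_lit 1140) (nat_lit 7202899444) (nat_lit 161) (nat_lit 5) (nat_lit 160) (nat_lit 5) (nat_lit 175) (nat_lit 5) (nat_lit 311) (nat_lit 308) (nat_lit 161)) (XT.lf (nat_lit 76) (nat_lit 8806622239) (nat_lit 0) (nat_lit 2470388400) (nat_lit 1140) (nat_lit 6888971417) (nat_lit 161) (nat_lit 5) (nat_lit 160) (nat_lit 5) (nat_lit 175) (nat_lit 5) (nat_lit 312) (nat_lit 308) (nat_lit 160)))) (XT.nd (nat_lit 78) (nat_lit 0) (nat_lit 0) (XT.lf (nat_lit 0) (nat_lit 11917027725) (nat_lit 1064) (nat_lit 1574574399) (nat_lit 1140) (nat_lit 4948722666) (nat_lit 161) (nat_lit 5) (nat_lit 175) (nat_lit 5) (nat_lit 176) (nat_lit 5) (nat_lit 313) (nat_lit 308) (nat_lit 159)) (XT.nd (nat_lit 78) (nat_lit 0) (nat_lit 76) (XT.lf (nat_lit 76) (nat_lit 6542597603) (nat_lit 0) (nat_lit 6113838247) (nat_lit 1140) (nat_lit 6064071964) (nat_lit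 162) (nat_lit 5) (nat_lit 161) (nat_lit 5) (nat_lit 176) (nat_lit 5) (nat_lit 314) (nat_lit 308) (nat_lit 158)) (XT.lf (nat_lit 0) (nat_lit 13441393396) (nat_lit 1064) (nat_lit 4092067201) (nat_lit 1140) (nat_lit 1474949984) (nat_lit 162) (nat_lit 5) (nat_lit 176) (nat_lit 5) (nat_lit 177) (nat_lit 5) (nat_lit 315) (nat_lit 308) (nat_lit 157))))))) (XT.nd (nat_lit 858) (nat_lit 3268) (nat_lit 0) (XT.nd (nat_lit 390) (nat_lit 988) (nat_lit 0) (XT.nd (nat_lit 156) (nat_lit 0) (nat_lit 76) (XT.nd (nat_lit 78) (nat_lit 0) (nat_lit 0) (XT.lf (nat_lit 76) (nat_lit 4254394640) (nat_lit 0) (nat_lit 10090169283) (nat_lit 1140) (nat_lit 4957561402) (nat_lit 163) (nat_lit 5) (nat_lit 162) (nat_lit 5) (nat_lit 177) (nat_lit 5) (nat_lit 316) (nat_lit 308) (nat_lit 156)) (XT.lf (nat_lit 76) (nat_lit 12930735279) (nat_lit 0) (nat_lit 2378806250) (nat_lit 1140) (nat_lit 4294083013) (nat_lit 163) (nat_lit 5)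 (nat_lit 162) (nat_lit 5) (nat_lit 177) (nat_lit 5) (nat_lit 317) (nat_lit 308) (nat_lit 155))) (XT.nd (nat_lit 78) (nat_lit 0) (nat_lit 0) (XT.lf (nat_lit 76) (nat_lit 1932934891) (nat_lit 0) (nat_lit 14436200980) (nat_lit 1140) (nat_lit 3543076812) (nat_lit 164) (nat_lit 5) (nat_lit 163) (nat_lit 5) (nat_lit 178) (nat_lit 5) (nat_lit 318) (nat_lit 308) (nat_lit 154)) (XT.nd (nat_lit 78) (nat_lit 0) (nat_lit 76) (XT.lf (nat_lit 76) (nat_lit 10905246828) (nat_lit 0) (nat_lit 6639722714) (nat_lit 1140) (nat_lit 2682568945) (nat_lit 164) (nat_lit 5) (nat_lit 163) (nat_lit 5) (nat_lit 178) (nat_lit 5) (nat_lit 319) (nat_lit 308) (nat_lit 153)) (XT.lf (nat_lit 0) (nat_lit 18763391705) (nat_lit 1064) (nat_lit 423499463) (nat_lit 1140) (nat_lit 1365226663) (nat_lit 164) (nat_lit 5) (nat_lit 178) (nat_lit 5) (nat_lit 179) (nat_lit 5) (nat_lit 320) (nat_lit 308) (nat_lit 152))))) (XT.nd (nat_lit 234)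 (nat_lit 0) (nat_lit 76) (XT.nd (nat_lit 78) (nat_lit 1140) (nat_lit 0) (XT.lf (nat_lit 76) (nat_lit 8844705091) (nat_lit 0) (nat_lit 11318544026) (nat_lit 1140) (nat_lit 718851745) (nat_lit 165) (nat_lit 5) (nat_lit 164) (nat_lit 5) (nat_lit 179) (nat_lit 5) (nat_lit 321) (nat_lit 308) (nat_lit 151)) (XT.nd (nat_lit 78) (nat_lit 0) (nat_lit 76) (XT.lf (nat_lit 0) (nat_lit 374143934) (nat_lit 1140) (nat_lit 2830431393) (nat_lit 1216) (nat_lit 18017354593) (nat_lit 149) (nat_lit 5) (nat_lit 164) (nat_lit 5) (nat_lit 165) (nat_lit 5) (nat_lit 322) (nat_lit 308) (nat_lit 150)) (XT.lf (nat_lit 0) (nat_lit 1595202946) (nat_lit 1140) (nat_lit 14846786446) (nat_lit 1216) (nat_lit 5126470987) (nat_lit 150) (nat_lit 5) (nat_lit 165) (nat_lit 5) (nat_lit 166) (nat_lit 5) (nat_lit 323) (nat_lit 308) (nat_lit 149)))) (XT.nd (nat_lit 78) (nat_lit 0) (nat_lit 76) (XT.lf (nat_lit 0) (nat_lit 2907973354) (nat_lit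 1140) (nat_lit 5342680866) (nat_lit 1216) (nat_lit 13673091502) (nat_lit 150) (nat_lit 5) (nat_lit 165) (nat_lit 5) (nat_lit 166) (nat_lit 5) (nat_lit 324) (nat_lit 308) (nat_lit 148)) (XT.nd (nat_lit 78) (nat_lit 0) (nat_lit 0) (XT.lf (nat_lit 0) (nat_lit 4300557182) (nat_lit 1140) (nat_lit 17760203885) (nat_lit 76) (nat_lit 227726679) (nat_lit 151) (nat_lit 5) (nat_lit 166) (nat_lit 5) (nat_lit 152) (nat_lit 5) (nat_lit 325) (nat_lit 308) (nat_lit 147)) (XT.lf (nat_lit 0) (nat_lit 5865862924) (nat_lit 1140) (nat_lit 7944386241) (nat_lit 76) (nat_lit 8850005239) (nat_lit 151) (nat_lit 5) (nat_lit 166) (nat_lit 5) (nat_lit 152) (nat_lit 5) (nat_lit 326) (nat_lit 308) (nat_lit 146)))))) (XT.nd (nat_lit 468) (nat_lit 1520) (nat_lit 0) (XT.nd (nat_lit 234) (nat_lit 1064) (nat_lit 0) (XT.nd (nat_lit 78) (nat_lit 0) (nat_lit 0) (XT.lf (nat_lit 0) (nat_lit 2204549713) (nat_lit 836) (nat_lit 5289691925)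 (nat_lit 912) (nat_lit 15548459407) (nat_lit 140) (nat_lit 5) (nat_lit 151) (nat_lit 5) (nat_lit 152) (nat_lit 5) (nat_lit 327) (nat_lit 308) (nat_lit 145)) (XT.nd (nat_lit 78) (nat_lit 0) (nat_lit 0) (XT.lf (nat_lit 0) (nat_lit 9281037637) (nat_lit 912) (nat_lit 10652214423) (nat_lit 76) (nat_lit 3500092140) (nat_lit 140) (nat_lit 5) (nat_lit 152) (nat_lit 5) (nat_lit 141) (nat_lit 5) (nat_lit 328) (nat_lit 308) (nat_lit 144)) (XT.lf (nat_lit 0) (nat_lit 11168990039) (nat_lit 912) (nat_lit 217439015) (nat_lit 76) (nat_lit 12447860819) (nat_lit 140) (nat_lit 5) (nat_lit 152) (nat_lit 5) (nat_lit 141) (nat_lit 5) (nat_lit 329) (nat_lit 308) (nat_lit 143)))) (XT.nd (nat_lit 78) (nat_lit 532) (nat_lit 0) (XT.lf (nat_lit 0) (nat_lit 10735631245) (nat_lit 532) (nat_lit 2476466968) (nat_lit 608) (nat_lit 11032219701) (nat_lit 133) (nat_lit 5) (nat_lit 140) (nat_lit 5) (nat_lit 141) (nat_lit 5) (nat_lit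 330) (nat_lit 308) (nat_lit 142)) (XT.nd (nat_lit 78) (nat_lit 532) (nat_lit 0) (XT.lf (nat_lit 0) (nat_lit 15378548639) (nat_lit 608) (nat_lit 2713612058) (nat_lit 76) (nat_lit 6572633865) (nat_lit 133) (nat_lit 5) (nat_lit 141) (nat_lit 5) (nat_lit 134) (nat_lit 5) (nat_lit 331) (nat_lit 308) (nat_lit 141)) (XT.lf (nat_lit 0) (nat_lit 8543284041) (nat_lit 532) (nat_lit 9168904126) (nat_lit 608) (nat_lit 7382640441) (nat_lit 126) (nat_lit 5) (nat_lit 133) (nat_lit 5) (nat_lit 134) (nat_lit 5) (nat_lit 332) (nat_lit 308) (nat_lit 140))))) (XT.nd (nat_lit 234) (nat_lit 1064) (nat_lit 0) (XT.nd (nat_lit 78) (nat_lit 456) (nat_lit 0) (XT.lf (nat_lit 0) (nat_lit 20139366208) (nat_lit 608) (nat_lit 5348232748) (nat_lit 76) (nat_lit 49467546) (nat_lit 126) (nat_lit 5) (nat_lit 134) (nat_lit 5) (nat_lit 127) (nat_lit 5) (nat_lit 333) (nat_lit 308) (nat_lit 139)) (XT.nd (nat_lit 78) (nat_lit 0) (nat_lit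 0) (XT.lf (nat_lit 0) (nat_lit 6217528149) (nat_lit 456) (nat_lit 16568150128) (nat_lit 532) (nat_lit 3202512148) (nat_lit 120) (nat_lit 5) (nat_lit 126) (nat_lit 5) (nat_lit 127) (nat_lit 5) (nat_lit 334) (nat_lit 308) (nat_lit 138)) (XT.lf (nat_lit 0) (nat_lit 18235741116) (nat_lit 456) (nat_lit 7325499279) (nat_lit 532) (nat_lit 890120057) (nat_lit 120) (nat_lit 5) (nat_lit 126) (nat_lit 5) (nat_lit 127) (nat_lit 5) (nat_lit 335) (nat_lit 308) (nat_lit 137)))) (XT.nd (nat_lit 78) (nat_lit 456) (nat_lit 0) (XT.lf (nat_lit 0) (nat_lit 1516012286) (nat_lit 608) (nat_lit 23208031418) (nat_lit 76) (nat_lit 2202355178) (nat_lit 112) (nat_lit 5) (nat_lit 120) (nat_lit 5) (nat_lit 113) (nat_lit 5) (nat_lit 336) (nat_lit 308) (nat_lit 136)) (XT.nd (nat_lit 78) (nat_lit 456) (nat_lit 0) (XT.lf (nat_lit 0) (nat_lit 4128756470) (nat_lit 608) (nat_lit 11320785906) (nat_lit 76) (nat_lit 11961319654) (nat_lit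 112) (nat_lit 5) (nat_lit 120) (nat_lit 5) (nat_lit 113) (nat_lit 5) (nat_lit 337) (nat_lit 308) (nat_lit 135)) (XT.lf (nat_lit 0) (nat_lit 937281133) (nat_lit 456) (nat_lit 5887733565) (nat_lit 532) (nat_lit 21084697715) (nat_lit 106) (nat_lit 5) (nat_lit 112) (nat_lit 5) (nat_lit 113) (nat_lit 5) (nat_lit 338) (nat_lit 308) (nat_lit 134))))))))
noncomputable def xc221 : XT := (XT.nd (nat_lit 1794) (nat_lit 1824) (nat_lit 0) (XT.nd (nat_lit 858) (nat_lit 1900) (nat_lit 0) (XT.nd (nat_lit 390) (nat_lit 836) (nat_lit 0) (XT.nd (nat_lit 156) (nat_lit 836) (nat_lit 0) (XT.nd (nat_lit 78) (nat_lit 0) (nat_lit 0) (XT.lf (nat_lit 0) (nat_lit 9751878889) (nat_lit 532) (nat_lit 14668314703) (nat_lit 76) (nat_lit 3998850247) (nat_lit 106) (nat_lit 5) (nat_lit 113) (nat_lit 5) (nat_lit 107) (nat_lit 5) (nat_lit 339) (nat_lit 308) (nat_lit 133)) (XT.lf (nat_lit 0) (nat_lit 12821147998) (nat_lit 532) (nat_lit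 2057412115) (nat_lit 76) (nat_lit 14063463998) (nat_lit 106) (nat_lit 5) (nat_lit 113) (nat_lit 5) (nat_lit 107) (nat_lit 5) (nat_lit 340) (nat_lit 308) (nat_lit 132))) (XT.nd (nat_lit 78) (nat_lit 380) (nat_lit 0) (XT.lf (nat_lit 0) (nat_lit 11145378696) (nat_lit 456) (nat_lit 4940664917) (nat_lit 532) (nat_lit 13391550399) (nat_lit 100) (nat_lit 5) (nat_lit 106) (nat_lit 5) (nat_lit 107) (nat_lit 5) (nat_lit 341) (nat_lit 308) (nat_lit 131)) (XT.nd (nat_lit 78) (nat_lit 380) (nat_lit 0) (XT.lf (nat_lit 0) (nat_lit 19517245784) (nat_lit 532) (nat_lit 5297283008) (nat_lit 76) (nat_lit 5212657905) (nat_lit 100) (nat_lit 5) (nat_lit 107) (nat_lit 5) (nat_lit 101) (nat_lit 5) (nat_lit 342) (nat_lit 308) (nat_lit 130)) (XT.lf (nat_lit 0) (nat_lit 8236626998) (nat_lit 380) (nat_lit 14939428488) (nat_lit 456) (nat_lit 7413477821) (nat_lit 95) (nat_lit 5) (nat_lit 100) (nat_lit 5) (nat_lit 101) (nat_lit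 5) (nat_lit 343) (nat_lit 308) (nat_lit 129))))) (XT.nd (nat_lit 234) (nat_lit 380) (nat_lit 0) (XT.nd (nat_lit 78) (nat_lit 456) (nat_lit 0) (XT.lf (nat_lit 0) (nat_lit 22281302387) (nat_lit 380) (nat_lit 4713460491) (nat_lit 456) (nat_lit 4172489542) (nat_lit 95) (nat_lit 5) (nat_lit 100) (nat_lit 5) (nat_lit 101) (nat_lit 5) (nat_lit 344) (nat_lit 308) (nat_lit 128)) (XT.nd (nat_lit 78) (nat_lit 76) (nat_lit 0) (XT.lf (nat_lit 0) (nat_lit 5023270071) (nat_lit 380) (nat_lit 26005721264) (nat_lit 456) (nat_lit 730288905) (nat_lit 90) (nat_lit 5) (nat_lit 95) (nat_lit 5) (nat_lit 96) (nat_lit 5) (nat_lit 345) (nat_lit 308) (nat_lit 127)) (XT.lf (nat_lit 0) (nat_lit 2894286344) (nat_lit 456) (nat_lit 12912935517) (nat_lit 76) (nat_lit 16557019500) (nat_lit 89) (nat_lit 5) (nat_lit 95) (nat_lit 5) (nat_lit 90) (nat_lit 5) (nat_lit 346) (nat_lit 308) (nat_lit 126)))) (XT.nd (nat_lit 78) (nat_lit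 0) (nat_lit 0) (XT.lf (nat_lit 0) (nat_lit 1340000455) (nat_lit 380) (nat_lit 5282651538) (nat_lit 456) (nat_lit 26364195893) (nat_lit 84) (nat_lit 5) (nat_lit 89) (nat_lit 5) (nat_lit 90) (nat_lit 5) (nat_lit 347) (nat_lit 308) (nat_lit 125)) (XT.nd (nat_lit 78) (nat_lit 0) (nat_lit 0) (XT.lf (nat_lit 0) (nat_lit 10644879009) (nat_lit 456) (nat_lit 17397512307) (nat_lit 76) (nat_lit 5580286246) (nat_lit 84) (nat_lit 5) (nat_lit 90) (nat_lit 5) (nat_lit 85) (nat_lit 5) (nat_lit 348) (nat_lit 308) (nat_lit 124)) (XT.lf (nat_lit 0) (nat_lit 14837067032) (nat_lit 456) (nat_lit 2776693768) (nat_lit 76) (nat_lit 16662347617) (nat_lit 84) (nat_lit 5) (nat_lit 90) (nat_lit 5) (nat_lit 85) (nat_lit 5) (nat_lit 349) (nat_lit 308) (nat_lit 123)))))) (XT.nd (nat_lit 468) (nat_lit 836) (nat_lit 0) (XT.nd (nat_lit 234) (nat_lit 380) (nat_lit 0) (XT.nd (nat_lit 78) (nat_lit 304) (nat_lit 0) (XT.lf (nat_lit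 0) (nat_lit 12523543170) (nat_lit 380) (nat_lit 6748939848) (nat_lit 456) (nat_lit 15673140275) (nat_lit 79) (nat_lit 5) (nat_lit 84) (nat_lit 5) (nat_lit 85) (nat_lit 5) (nat_lit 350) (nat_lit 308) (nat_lit 122)) (XT.nd (nat_lit 78) (nat_lit 304) (nat_lit 0) (XT.lf (nat_lit 0) (nat_lit 23909098607) (nat_lit 456) (nat_lit 7341285729) (nat_lit 76) (nat_lit 4382799986) (nat_lit 79) (nat_lit 5) (nat_lit 85) (nat_lit 5) (nat_lit 80) (nat_lit 5) (nat_lit 351) (nat_lit 308) (nat_lit 121)) (XT.lf (nat_lit 0) (nat_lit 8283217747) (nat_lit 304) (nat_lit 20545246057) (nat_lit 380) (nat_lit 7508603523) (nat_lit 75) (nat_lit 5) (nat_lit 79) (nat_lit 5) (nat_lit 80) (nat_lit 5) (nat_lit 352) (nat_lit 308) (nat_lit 120)))) (XT.nd (nat_lit 78) (nat_lit 380) (nat_lit 0) (XT.lf (nat_lit 0) (nat_lit 24523451112) (nat_lit 304) (nat_lit 9443345808) (nat_lit 380) (nat_lit 3093132837) (nat_lit 75) (nat_lit 5) (nat_lit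 79) (nat_lit 5) (nat_lit 80) (nat_lit 5) (nat_lit 353) (nat_lit 308) (nat_lit 119)) (XT.nd (nat_lit 78) (nat_lit 0) (nat_lit 0) (XT.lf (nat_lit 0) (nat_lit 1476943243) (nat_lit 380) (nat_lit 34325522005) (nat_lit 76) (nat_lit 2000081671) (nat_lit 70) (nat_lit 5) (nat_lit 75) (nat_lit 5) (nat_lit 71) (nat_lit 5) (nat_lit 354) (nat_lit 308) (nat_lit 118)) (XT.lf (nat_lit 0) (nat_lit 6340640382) (nat_lit 380) (nat_lit 18464595662) (nat_lit 76) (nat_lit 13754731327) (nat_lit 70) (nat_lit 5) (nat_lit 75) (nat_lit 5) (nat_lit 71) (nat_lit 5) (nat_lit 355) (nat_lit 308) (nat_lit 117))))) (XT.nd (nat_lit 234) (nat_lit 532) (nat_lit 0) (XT.nd (nat_lit 78) (nat_lit 304) (nat_lit 0) (XT.lf (nat_lit 0) (nat_lit 11347667803) (nat_lit 380) (nat_lit 2131232822) (nat_lit 76) (nat_lit 25861291266) (nat_lit 70) (nat_lit 5) (nat_lit 75) (nat_lit 5) (nat_lit 71) (nat_lit 5) (nat_lit 356) (nat_lit 308) (nat_lit 116))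 (XT.nd (nat_lit 78) (nat_lit 0) (nat_lit 0) (XT.lf (nat_lit 0) (nat_lit 14981175070) (nat_lit 304) (nat_lit 1665233730) (nat_lit 380) (nat_lit 23493173185) (nat_lit 66) (nat_lit 5) (nat_lit 70) (nat_lit 5) (nat_lit 71) (nat_lit 5) (nat_lit 357) (nat_lit 308) (nat_lit 115)) (XT.lf (nat_lit 0) (nat_lit 22224334650) (nat_lit 380) (nat_lit 8416167898) (nat_lit 76) (nat_lit 10318848360) (nat_lit 66) (nat_lit 5) (nat_lit 71) (nat_lit 5) (nat_lit 67) (nat_lit 5) (nat_lit 358) (nat_lit 308) (nat_lit 114)))) (XT.nd (nat_lit 78) (nat_lit 228) (nat_lit 0) (XT.lf (nat_lit 0) (nat_lit 8983926284) (nat_lit 304) (nat_lit 19086118947) (nat_lit 380) (nat_lit 13730657954) (nat_lit 62) (nat_lit 5) (nat_lit 66) (nat_lit 5) (nat_lit 67) (nat_lit 5) (nat_lit 359) (nat_lit 308) (nat_lit 113)) (XT.nd (nat_lit 78) (nat_lit 228) (nat_lit 0) (XT.lf (nat_lit 0) (nat_lit 27075344879) (nat_lit 304) (nat_lit 7098408655) (nat_lit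 380) (nat_lit 8491067291) (nat_lit 62) (nat_lit 5) (nat_lit 66) (nat_lit 5) (nat_lit 67) (nat_lit 5) (nat_lit 360) (nat_lit 308) (nat_lit 112)) (XT.lf (nat_lit 0) (nat_lit 2142829674) (nat_lit 228) (nat_lit 38386498066) (nat_lit 304) (nat_lit 3023475096) (nat_lit 59) (nat_lit 5) (nat_lit 62) (nat_lit 5) (nat_lit 63) (nat_lit 5) (nat_lit 361) (nat_lit 308) (nat_lit 111))))))) (XT.nd (nat_lit 936) (nat_lit 684) (nat_lit 0) (XT.nd (nat_lit 468) (nat_lit 532) (nat_lit 0) (XT.nd (nat_lit 234) (nat_lit 228) (nat_lit 0) (XT.nd (nat_lit 78) (nat_lit 304) (nat_lit 0) (XT.lf (nat_lit 0) (nat_lit 2784225188) (nat_lit 304) (nat_lit 23836129636) (nat_lit 76) (nat_lit 17839511394) (nat_lit 58) (nat_lit 5) (nat_lit 62) (nat_lit 5) (nat_lit 59) (nat_lit 5) (nat_lit 362) (nat_lit 308) (nat_lit 110)) (XT.nd (nat_lit 78) (nat_lit 304) (nat_lit 0) (XT.lf (nat_lit 0) (nat_lit 8703165848) (nat_lit 304) (nat_lit 5768103731)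 (nat_lit 76) (nat_lit 30922043703) (nat_lit 58) (nat_lit 5) (nat_lit 62) (nat_lit 5) (nat_lit 59) (nat_lit 5) (nat_lit 363) (nat_lit 308) (nat_lit 109)) (XT.lf (nat_lit 0) (nat_lit 13094476032) (nat_lit 304) (nat_lit 1828913741) (nat_lit 380) (nat_lit 31427665624) (nat_lit 54) (nat_lit 5) (nat_lit 58) (nat_lit 5) (nat_lit 59) (nat_lit 5) (nat_lit 364) (nat_lit 308) (nat_lit 108)))) (XT.nd (nat_lit 78) (nat_lit 228) (nat_lit 0) (XT.lf (nat_lit 0) (nat_lit 21494503774) (nat_lit 380) (nat_lit 14805812922) (nat_lit 76) (nat_lit 11032287586) (nat_lit 54) (nat_lit 5) (nat_lit 59) (nat_lit 5) (nat_lit 55) (nat_lit 5) (nat_lit 365) (nat_lit 308) (nat_lit 107)) (XT.nd (nat_lit 78) (nat_lit 0) (nat_lit 0) (XT.lf (nat_lit 0) (nat_lit 4260559457) (nat_lit 228) (nat_lit 24059185884) (nat_lit 304) (nat_lit 20022147383) (nat_lit 51) (nat_lit 5) (nat_lit 54) (nat_lit 5) (nat_lit 55) (nat_lit 5) (nat_lit 366)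 (nat_lit 308) (nat_lit 106)) (XT.lf (nat_lit 0) (nat_lit 24199508695) (nat_lit 228) (nat_lit 11297708331) (nat_lit 304) (nat_lit 13879821438) (nat_lit 51) (nat_lit 5) (nat_lit 54) (nat_lit 5) (nat_lit 55) (nat_lit 5) (nat_lit 367) (nat_lit 308) (nat_lit 105))))) (XT.nd (nat_lit 234) (nat_lit 228) (nat_lit 0) (XT.nd (nat_lit 78) (nat_lit 304) (nat_lit 0) (XT.lf (nat_lit 0) (nat_lit 42905777925) (nat_lit 304) (nat_lit 5727250731) (nat_lit 76) (nat_lit 1809739719) (nat_lit 51) (nat_lit 5) (nat_lit 55) (nat_lit 5) (nat_lit 52) (nat_lit 5) (nat_lit 368) (nat_lit 308) (nat_lit 104)) (XT.nd (nat_lit 78) (nat_lit 76) (nat_lit 0) (XT.lf (nat_lit 0) (nat_lit 14474320635) (nat_lit 228) (nat_lit 36311341656) (nat_lit 304) (nat_lit 747338561) (nat_lit 48) (nat_lit 5) (nat_lit 51) (nat_lit 5) (nat_lit 52) (nat_lit 5) (nat_lit 369) (nat_lit 308) (nat_lit 103)) (XT.lf (nat_lit 0) (nat_lit 6180607736) (nat_lit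 304) (nat_lit 17318293040) (nat_lit 76) (nat_lit 29153546226) (nat_lit 47) (nat_lit 5) (nat_lit 51) (nat_lit 5) (nat_lit 48) (nat_lit 5) (nat_lit 370) (nat_lit 308) (nat_lit 102)))) (XT.nd (nat_lit 78) (nat_lit 0) (nat_lit 0) (XT.lf (nat_lit 0) (nat_lit 3063960400) (nat_lit 228) (nat_lit 10265000081) (nat_lit 304) (nat_lit 40475468849) (nat_lit 44) (nat_lit 5) (nat_lit 47) (nat_lit 5) (nat_lit 48) (nat_lit 5) (nat_lit 371) (nat_lit 308) (nat_lit 101)) (XT.nd (nat_lit 78) (nat_lit 0) (nat_lit 0) (XT.lf (nat_lit 0) (nat_lit 20898887396) (nat_lit 304) (nat_lit 30609879090) (nat_lit 76) (nat_lit 3475993308) (nat_lit 44) (nat_lit 5) (nat_lit 48) (nat_lit 5) (nat_lit 45) (nat_lit 5) (nat_lit 372) (nat_lit 308) (nat_lit 100)) (XT.lf (nat_lit 0) (nat_lit 28795755522) (nat_lit 304) (nat_lit 9979682017) (nat_lit 76) (nat_lit 17422069633) (nat_lit 44) (nat_lit 5) (nat_lit 48) (nat_lit 5) (nat_lit 45) (nat_lit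 5) (nat_lit 373) (nat_lit 308) (nat_lit 99)))))) (XT.nd (nat_lit 468) (nat_lit 0) (nat_lit 0) (XT.nd (nat_lit 234) (nat_lit 456) (nat_lit 0) (XT.nd (nat_lit 78) (nat_lit 0) (nat_lit 0) (XT.lf (nat_lit 0) (nat_lit 11491053985) (nat_lit 228) (nat_lit 25547196628) (nat_lit 304) (nat_lit 20405126964) (nat_lit 41) (nat_lit 5) (nat_lit 44) (nat_lit 5) (nat_lit 45) (nat_lit 5) (nat_lit 374) (nat_lit 308) (nat_lit 98)) (XT.nd (nat_lit 78) (nat_lit 0) (nat_lit 0) (XT.lf (nat_lit 0) (nat_lit 33807912410) (nat_lit 228) (nat_lit 11819171140) (nat_lit 304) (nat_lit 13096570826) (nat_lit 41) (nat_lit 5) (nat_lit 44) (nat_lit 5) (nat_lit 45) (nat_lit 5) (nat_lit 375) (nat_lit 308) (nat_lit 97)) (XT.lf (nat_lit 0) (nat_lit 54494219021) (nat_lit 304) (nat_lit 3272913177) (nat_lit 76) (nat_lit 2274590261) (nat_lit 41) (nat_lit 5) (nat_lit 45) (nat_lit 5) (nat_lit 42) (nat_lit 5) (nat_lit 376) (nat_lit 308) (nat_lit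 96)))) (XT.nd (nat_lit 78) (nat_lit 228) (nat_lit 0) (XT.lf (nat_lit 0) (nat_lit 2488225131) (nat_lit 228) (nat_lit 42138856280) (nat_lit 76) (nat_lit 16762500657) (nat_lit 38) (nat_lit 5) (nat_lit 41) (nat_lit 5) (nat_lit 39) (nat_lit 5) (nat_lit 377) (nat_lit 308) (nat_lit 95)) (XT.nd (nat_lit 78) (nat_lit 228) (nat_lit 0) (XT.lf (nat_lit 0) (nat_lit 10685287695) (nat_lit 228) (nat_lit 20317451716) (nat_lit 76) (nat_lit 31772539365) (nat_lit 38) (nat_lit 5) (nat_lit 41) (nat_lit 5) (nat_lit 39) (nat_lit 5) (nat_lit 378) (nat_lit 308) (nat_lit 94)) (XT.lf (nat_lit 0) (nat_lit 2199101370) (nat_lit 228) (nat_lit 16948731164) (nat_lit 304) (nat_lit 45054128612) (nat_lit 35) (nat_lit 5) (nat_lit 38) (nat_lit 5) (nat_lit 39) (nat_lit 5) (nat_lit 379) (nat_lit 308) (nat_lit 93))))) (XT.nd (nat_lit 35256) (nat_lit 0) (nat_lit 9500) (XT.nd (nat_lit 35100) (nat_lit 0) (nat_lit 9424) (XT.lf (nat_lit 0)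 (nat_lit 25805256478) (nat_lit 228) (nat_lit 2262617745) (nat_lit 304) (nat_lit 37597462966) (nat_lit 35) (nat_lit 5) (nat_lit 38) (nat_lit 5) (nat_lit 39) (nat_lit 5) (nat_lit 380) (nat_lit 308) (nat_lit 92)) (XT.nd (nat_lit 78) (nat_lit 0) (nat_lit 0) (XT.lf (nat_lit 0) (nat_lit 5033620175) (nat_lit 1140) (nat_lit 1891391130) (nat_lit 1140) (nat_lit 1891391130) (nat_lit 159) (nat_lit 3) (nat_lit 174) (nat_lit 3) (nat_lit 174) (nat_lit 5) (nat_lit 309) (nat_lit 309) (nat_lit 162)) (XT.lf (nat_lit 76) (nat_lit 3753206932) (nat_lit 0) (nat_lit 6695404243) (nat_lit 1140) (nat_lit 7441347465) (nat_lit 160) (nat_lit 5) (nat_lit 159) (nat_lit 3) (nat_lit 174) (nat_lit 5) (nat_lit 310) (nat_lit 309) (nat_lit 161)))) (XT.nd (nat_lit 78) (nat_lit 0) (nat_lit 0) (XT.lf (nat_lit 0) (nat_lit 10878891658) (nat_lit 1064) (nat_lit 6571988951) (nat_lit 1140) (nat_lit 702839036) (nat_lit 160) (nat_lit 5) (nat_lit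 174) (nat_lit 5) (nat_lit 175) (nat_lit 5) (nat_lit 311) (nat_lit 309) (nat_lit 160)) (XT.nd (nat_lit 78) (nat_lit 0) (nat_lit 0) (XT.lf (nat_lit 76) (nat_lit 1172151529) (nat_lit 0) (nat_lit 10220122700) (nat_lit 1140) (nat_lit 7031029637) (nat_lit 161) (nat_lit 5) (nat_lit 160) (nat_lit 5) (nat_lit 175) (nat_lit 5) (nat_lit 312) (nat_lit 309) (nat_lit 159)) (XT.lf (nat_lit 76) (nat_lit 9279229284) (nat_lit 0) (nat_lit 2701003340) (nat_lit 1140) (nat_lit 6718983482) (nat_lit 161) (nat_lit 5) (nat_lit 160) (nat_lit 5) (nat_lit 175) (nat_lit 5) (nat_lit 313) (nat_lit 309) (nat_lit 158))))))))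
noncomputable def xc222 : XT := (XT.nd (nat_lit 1794) (nat_lit 4408) (nat_lit 0) (XT.nd (nat_lit 858) (nat_lit 2204) (nat_lit 0) (XT.nd (nat_lit 390) (nat_lit 912) (nat_lit 0) (XT.nd (nat_lit 156) (nat_lit 0) (nat_lit 76) (XT.nd (nat_lit 78) (nat_lit 0) (nat_lit 0) (XT.lf (nat_lit 0) (nat_lit 12627361139) (nat_lit 1064) (nat_lit 1406609500) (nat_lit 1140) (nat_lit 4948204400) (nat_lit 161) (nat_lit 5) (nat_lit 175) (nat_lit 5) (nat_lit 176) (nat_lit 5) (nat_lit 314) (nat_lit 309) (nat_lit 157)) (XT.lf (nat_lit 76) (nat_lit 6951967838) (nat_lit 0) (nat_lit 6428755659) (nat_lit 1140) (nat_lit 5890309466) (nat_lit 162) (nat_lit 5) (nat_lit 161) (nat_lit 5) (nat_lit 176) (nat_lit 5) (nat_lit 315) (nat_lit 309) (nat_lit 156))) (XT.nd (nat_lit 78) (nat_lit 0) (nat_lit 0) (XT.lf (nat_lit 0) (nat_lit 14177965772) (nat_lit 1064) (nat_lit 3995949146) (nat_lit 1140) (nat_lit 1394017725) (nat_lit 162) (nat_lit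 5) (nat_lit 176) (nat_lit 5) (nat_lit 177) (nat_lit 5) (nat_lit 316) (nat_lit 309) (nat_lit 155)) (XT.nd (nat_lit 78) (nat_lit 0) (nat_lit 0) (XT.lf (nat_lit 76) (nat_lit 4598760667) (nat_lit 0) (nat_lit 10501845471) (nat_lit 1140) (nat_lit 4770102720) (nat_lit 163) (nat_lit 5) (nat_lit 162) (nat_lit 5) (nat_lit 177) (nat_lit 5) (nat_lit 317) (nat_lit 309) (nat_lit 154)) (XT.lf (nat_lit 76) (nat_lit 13529078879) (nat_lit 0) (nat_lit 2555967630) (nat_lit 1140) (nat_lit 4096511791) (nat_lit 163) (nat_lit 5) (nat_lit 162) (nat_lit 5) (nat_lit 177) (nat_lit 5) (nat_lit 318) (nat_lit 309) (nat_lit 153))))) (XT.nd (nat_lit 234) (nat_lit 1064) (nat_lit 0) (XT.nd (nat_lit 78) (nat_lit 0) (nat_lit 0) (XT.lf (nat_lit 76) (nat_lit 2210363763) (nat_lit 0) (nat_lit 14957976698) (nat_lit 1140) (nat_lit 3331326323) (nat_lit 164) (nat_lit 5) (nat_lit 163) (nat_lit 5) (nat_lit 178) (nat_lit 5) (nat_lit 319) (nat_lit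 309) (nat_lit 152)) (XT.nd (nat_lit 78) (nat_lit 0) (nat_lit 76) (XT.lf (nat_lit 76) (nat_lit 11445453578) (nat_lit 0) (nat_lit 6925020890) (nat_lit 1140) (nat_lit 2454266602) (nat_lit 164) (nat_lit 5) (nat_lit 163) (nat_lit 5) (nat_lit 178) (nat_lit 5) (nat_lit 320) (nat_lit 309) (nat_lit 151)) (XT.lf (nat_lit 0) (nat_lit 19615932418) (nat_lit 1064) (nat_lit 219213548) (nat_lit 1140) (nat_lit 1324216234) (nat_lit 164) (nat_lit 5) (nat_lit 178) (nat_lit 5) (nat_lit 179) (nat_lit 5) (nat_lit 321) (nat_lit 309) (nat_lit 150)))) (XT.nd (nat_lit 78) (nat_lit 1140) (nat_lit 0) (XT.lf (nat_lit 76) (nat_lit 9324909781) (nat_lit 0) (nat_lit 11726505085) (nat_lit 1140) (nat_lit 448039326) (nat_lit 165) (nat_lit 5) (nat_lit 164) (nat_lit 5) (nat_lit 179) (nat_lit 5) (nat_lit 322) (nat_lit 309) (nat_lit 149)) (XT.nd (nat_lit 78) (nat_lit 0) (nat_lit 76) (XT.lf (nat_lit 0) (nat_lit 663691188) (nat_lit 1140)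 (nat_lit 2700623251) (nat_lit 1216) (nat_lit 18485347154) (nat_lit 149) (nat_lit 5) (nat_lit 164) (nat_lit 5) (nat_lit 165) (nat_lit 5) (nat_lit 323) (nat_lit 309) (nat_lit 148)) (XT.lf (nat_lit 0) (nat_lit 1914745935) (nat_lit 1140) (nat_lit 15070273175) (nat_lit 1216) (nat_lit 5221784729) (nat_lit 150) (nat_lit 5) (nat_lit 165) (nat_lit 5) (nat_lit 166) (nat_lit 5) (nat_lit 324) (nat_lit 309) (nat_lit 147)))))) (XT.nd (nat_lit 468) (nat_lit 1520) (nat_lit 0) (XT.nd (nat_lit 234) (nat_lit 760) (nat_lit 0) (XT.nd (nat_lit 78) (nat_lit 0) (nat_lit 76) (XT.lf (nat_lit 0) (nat_lit 3258986245) (nat_lit 1140) (nat_lit 5287508026) (nat_lit 1216) (nat_lit 14026507172) (nat_lit 150) (nat_lit 5) (nat_lit 165) (nat_lit 5) (nat_lit 166) (nat_lit 5) (nat_lit 325) (nat_lit 309) (nat_lit 146)) (XT.nd (nat_lit 78) (nat_lit 0) (nat_lit 0) (XT.lf (nat_lit 0) (nat_lit 4687284970) (nat_lit 1140) (nat_lit 18070966505)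 (nat_lit 76) (nat_lit 190631957) (nat_lit 151) (nat_lit 5) (nat_lit 166) (nat_lit 5) (nat_lit 152) (nat_lit 5) (nat_lit 326) (nat_lit 309) (nat_lit 145)) (XT.lf (nat_lit 0) (nat_lit 6292043737) (nat_lit 1140) (nat_lit 7967141619) (nat_lit 76) (nat_lit 9072858288) (nat_lit 151) (nat_lit 5) (nat_lit 166) (nat_lit 5) (nat_lit 152) (nat_lit 5) (nat_lit 327) (nat_lit 309) (nat_lit 144)))) (XT.nd (nat_lit 78) (nat_lit 0) (nat_lit 0) (XT.lf (nat_lit 0) (nat_lit 2484148922) (nat_lit 836) (nat_lit 5479889302) (nat_lit 912) (nat_lit 15762097447) (nat_lit 140) (nat_lit 5) (nat_lit 151) (nat_lit 5) (nat_lit 152) (nat_lit 5) (nat_lit 328) (nat_lit 309) (nat_lit 143)) (XT.nd (nat_lit 78) (nat_lit 0) (nat_lit 0) (XT.lf (nat_lit 0) (nat_lit 9797009034) (nat_lit 912) (nat_lit 10756623590) (nat_lit 76) (nat_lit 3575102854) (nat_lit 140) (nat_lit 5) (nat_lit 152) (nat_lit 5) (nat_lit 141) (nat_lit 5) (nat_lit 329)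 (nat_lit 309) (nat_lit 142)) (XT.lf (nat_lit 0) (nat_lit 11734681360) (nat_lit 912) (nat_lit 15071636) (nat_lit 76) (nat_lit 12792178148) (nat_lit 140) (nat_lit 5) (nat_lit 152) (nat_lit 5) (nat_lit 141) (nat_lit 5) (nat_lit 330) (nat_lit 309) (nat_lit 141))))) (XT.nd (nat_lit 234) (nat_lit 456) (nat_lit 0) (XT.nd (nat_lit 78) (nat_lit 532) (nat_lit 0) (XT.lf (nat_lit 0) (nat_lit 11264542786) (nat_lit 532) (nat_lit 2569811156) (nat_lit 608) (nat_lit 11130061602) (nat_lit 133) (nat_lit 5) (nat_lit 140) (nat_lit 5) (nat_lit 141) (nat_lit 5) (nat_lit 331) (nat_lit 309) (nat_lit 140)) (XT.nd (nat_lit 78) (nat_lit 532) (nat_lit 0) (XT.lf (nat_lit 0) (nat_lit 16059040691) (nat_lit 608) (nat_lit 2587003301) (nat_lit 76) (nat_lit 6751678471) (nat_lit 133) (nat_lit 5) (nat_lit 141) (nat_lit 5) (nat_lit 134) (nat_lit 5) (nat_lit 332) (nat_lit 309) (nat_lit 139)) (XT.lf (nat_lit 0) (nat_lit 9005560297)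 (nat_lit 532) (nat_lit 9452726501) (nat_lit 608) (nat_lit 7382515680) (nat_lit 126) (nat_lit 5) (nat_lit 133) (nat_lit 5) (nat_lit 134) (nat_lit 5) (nat_lit 333) (nat_lit 309) (nat_lit 138)))) (XT.nd (nat_lit 78) (nat_lit 456) (nat_lit 0) (XT.lf (nat_lit 0) (nat_lit 20951944113) (nat_lit 608) (nat_lit 5301948776) (nat_lit 76) (nat_lit 42617199) (nat_lit 126) (nat_lit 5) (nat_lit 134) (nat_lit 5) (nat_lit 127) (nat_lit 5) (nat_lit 334) (nat_lit 309) (nat_lit 137)) (XT.nd (nat_lit 78) (nat_lit 0) (nat_lit 0) (XT.lf (nat_lit 0) (nat_lit 6608758173) (nat_lit 456) (nat_lit 17064785299) (nat_lit 532) (nat_lit 3087759449) (nat_lit 120) (nat_lit 5) (nat_lit 126) (nat_lit 5) (nat_lit 127) (nat_lit 5) (nat_lit 335) (nat_lit 309) (nat_lit 136)) (XT.lf (nat_lit 0) (nat_lit 18981555272) (nat_lit 456) (nat_lit 7544866846) (nat_lit 532) (nat_lit 712136218) (nat_lit 120) (nat_lit 5) (nat_lit 126) (nat_lit 5)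 (nat_lit 127) (nat_lit 5) (nat_lit 336) (nat_lit 309) (nat_lit 135))))))) (XT.nd (nat_lit 936) (nat_lit 1672) (nat_lit 0) (XT.nd (nat_lit 468) (nat_lit 1216) (nat_lit 0) (XT.nd (nat_lit 234) (nat_lit 456) (nat_lit 0) (XT.nd (nat_lit 78) (nat_lit 456) (nat_lit 0) (XT.lf (nat_lit 0) (nat_lit 1758315581) (nat_lit 608) (nat_lit 23696914708) (nat_lit 76) (nat_lit 2272685814) (nat_lit 112) (nat_lit 5) (nat_lit 120) (nat_lit 5) (nat_lit 113) (nat_lit 5) (nat_lit 337) (nat_lit 309) (nat_lit 134)) (XT.nd (nat_lit 78) (nat_lit 456) (nat_lit 0) (XT.lf (nat_lit 0) (nat_lit 4443709385) (nat_lit 608) (nat_lit 11459091375) (nat_lit 76) (nat_lit 12324295147) (nat_lit 112) (nat_lit 5) (nat_lit 120) (nat_lit 5) (nat_lit 113) (nat_lit 5) (nat_lit 338) (nat_lit 309) (nat_lit 133)) (XT.lf (nat_lit 0) (nat_lit 1164743969) (nat_lit 456) (nat_lit 6052461876) (nat_lit 532) (nat_lit 21523825905) (nat_lit 106) (nat_lit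 5) (nat_lit 112) (nat_lit 5) (nat_lit 113) (nat_lit 5) (nat_lit 339) (nat_lit 309) (nat_lit 132)))) (XT.nd (nat_lit 78) (nat_lit 456) (nat_lit 0) (XT.lf (nat_lit 0) (nat_lit 10226527616) (nat_lit 532) (nat_lit 14909138890) (nat_lit 76) (nat_lit 4130147223) (nat_lit 106) (nat_lit 5) (nat_lit 113) (nat_lit 5) (nat_lit 107) (nat_lit 5) (nat_lit 340) (nat_lit 309) (nat_lit 131)) (XT.nd (nat_lit 78) (nat_lit 456) (nat_lit 0) (XT.lf (nat_lit 0) (nat_lit 13382571138) (nat_lit 532) (nat_lit 1925711902) (nat_lit 76) (nat_lit 14496369343) (nat_lit 106) (nat_lit 5) (nat_lit 113) (nat_lit 5) (nat_lit 107) (nat_lit 5) (nat_lit 341) (nat_lit 309) (nat_lit 130)) (XT.lf (nat_lit 0) (nat_lit 11671266334) (nat_lit 456) (nat_lit 5070839169) (nat_lit 532) (nat_lit 13614292697) (nat_lit 100) (nat_lit 5) (nat_lit 106) (nat_lit 5) (nat_lit 107) (nat_lit 5) (nat_lit 342) (nat_lit 309) (nat_lit 129))))) (XT.nd (nat_lit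 234) (nat_lit 836) (nat_lit 0) (XT.nd (nat_lit 78) (nat_lit 380) (nat_lit 0) (XT.lf (nat_lit 0) (nat_lit 20271359321) (nat_lit 532) (nat_lit 5265059321) (nat_lit 76) (nat_lit 5386215854) (nat_lit 100) (nat_lit 5) (nat_lit 107) (nat_lit 5) (nat_lit 101) (nat_lit 5) (nat_lit 343) (nat_lit 309) (nat_lit 128)) (XT.nd (nat_lit 78) (nat_lit 0) (nat_lit 0) (XT.lf (nat_lit 0) (nat_lit 8672994043) (nat_lit 380) (nat_lit 15363848066) (nat_lit 456) (nat_lit 7465111159) (nat_lit 95) (nat_lit 5) (nat_lit 100) (nat_lit 5) (nat_lit 101) (nat_lit 5) (nat_lit 344) (nat_lit 309) (nat_lit 127)) (XT.lf (nat_lit 0) (nat_lit 23133497026) (nat_lit 380) (nat_lit 4831793164) (nat_lit 456) (nat_lit 4131867144) (nat_lit 95) (nat_lit 5) (nat_lit 100) (nat_lit 5) (nat_lit 101) (nat_lit 5) (nat_lit 345) (nat_lit 309) (nat_lit 126)))) (XT.nd (nat_lit 78) (nat_lit 456) (nat_lit 0) (XT.lf (nat_lit 0) (nat_lit 5360765151) (nat_lit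 380) (nat_lit 26757111142) (nat_lit 456) (nat_lit 589158280) (nat_lit 90) (nat_lit 5) (nat_lit 95) (nat_lit 5) (nat_lit 96) (nat_lit 5) (nat_lit 346) (nat_lit 309) (nat_lit 125)) (XT.nd (nat_lit 78) (nat_lit 380) (nat_lit 0) (XT.lf (nat_lit 0) (nat_lit 3136316689) (nat_lit 456) (nat_lit 13115611137) (nat_lit 76) (nat_lit 17078317385) (nat_lit 89) (nat_lit 5) (nat_lit 95) (nat_lit 5) (nat_lit 90) (nat_lit 5) (nat_lit 347) (nat_lit 309) (nat_lit 124)) (XT.lf (nat_lit 0) (nat_lit 1563102008) (nat_lit 380) (nat_lit 5410669022) (nat_lit 456) (nat_lit 26997849558) (nat_lit 84) (nat_lit 5) (nat_lit 89) (nat_lit 5) (nat_lit 90) (nat_lit 5) (nat_lit 348) (nat_lit 309) (nat_lit 123)))))) (XT.nd (nat_lit 468) (nat_lit 988) (nat_lit 0) (XT.nd (nat_lit 234) (nat_lit 304) (nat_lit 0) (XT.nd (nat_lit 78) (nat_lit 380) (nat_lit 0) (XT.lf (nat_lit 0) (nat_lit 11112509163) (nat_lit 456) (nat_lit 17737455682) (nat_lit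 76) (nat_lit 5776692540) (nat_lit 84) (nat_lit 5) (nat_lit 90) (nat_lit 5) (nat_lit 85) (nat_lit 5) (nat_lit 349) (nat_lit 309) (nat_lit 122)) (XT.nd (nat_lit 78) (nat_lit 380) (nat_lit 0) (XT.lf (nat_lit 0) (nat_lit 15426143882) (nat_lit 456) (nat_lit 2683313034) (nat_lit 76) (nat_lit 17190371158) (nat_lit 84) (nat_lit 5) (nat_lit 90) (nat_lit 5) (nat_lit 85) (nat_lit 5) (nat_lit 350) (nat_lit 309) (nat_lit 121)) (XT.lf (nat_lit 0) (nat_lit 13074198841) (nat_lit 380) (nat_lit 6917912077) (nat_lit 456) (nat_lit 15997399947) (nat_lit 79) (nat_lit 5) (nat_lit 84) (nat_lit 5) (nat_lit 85) (nat_lit 5) (nat_lit 351) (nat_lit 309) (nat_lit 120)))) (XT.nd (nat_lit 78) (nat_lit 304) (nat_lit 0) (XT.lf (nat_lit 0) (nat_lit 24764017577) (nat_lit 456) (nat_lit 7387632535) (nat_lit 76) (nat_lit 4546169752) (nat_lit 79) (nat_lit 5) (nat_lit 85) (nat_lit 5) (nat_lit 80) (nat_lit 5) (nat_lit 352) (nat_lit 309)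 (nat_lit 119)) (XT.nd (nat_lit 78) (nat_lit 0) (nat_lit 0) (XT.lf (nat_lit 0) (nat_lit 8703901225) (nat_lit 304) (nat_lit 21124708565) (nat_lit 380) (nat_lit 7594286905) (nat_lit 75) (nat_lit 5) (nat_lit 79) (nat_lit 5) (nat_lit 80) (nat_lit 5) (nat_lit 353) (nat_lit 309) (nat_lit 118)) (XT.lf (nat_lit 0) (nat_lit 25426326437) (nat_lit 304) (nat_lit 9690825916) (nat_lit 380) (nat_lit 3050417382) (nat_lit 75) (nat_lit 5) (nat_lit 79) (nat_lit 5) (nat_lit 80) (nat_lit 5) (nat_lit 354) (nat_lit 309) (nat_lit 117))))) (XT.nd (nat_lit 234) (nat_lit 608) (nat_lit 0) (XT.nd (nat_lit 78) (nat_lit 0) (nat_lit 0) (XT.lf (nat_lit 0) (nat_lit 1652228068) (nat_lit 380) (nat_lit 35183167031) (nat_lit 76) (nat_lit 2097094041) (nat_lit 70) (nat_lit 5) (nat_lit 75) (nat_lit 5) (nat_lit 71) (nat_lit 5) (nat_lit 355) (nat_lit 309) (nat_lit 116)) (XT.nd (nat_lit 78) (nat_lit 0) (nat_lit 0) (XT.lf (nat_lit 0) (nat_lit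 6658021270) (nat_lit 380) (nat_lit 18851426120) (nat_lit 76) (nat_lit 14203305228) (nat_lit 70) (nat_lit 5) (nat_lit 75) (nat_lit 5) (nat_lit 71) (nat_lit 5) (nat_lit 356) (nat_lit 309) (nat_lit 115)) (XT.lf (nat_lit 0) (nat_lit 11811555776) (nat_lit 380) (nat_lit 2032929601) (nat_lit 76) (nat_lit 26672015403) (nat_lit 70) (nat_lit 5) (nat_lit 75) (nat_lit 5) (nat_lit 71) (nat_lit 5) (nat_lit 357) (nat_lit 309) (nat_lit 114)))) (XT.nd (nat_lit 78) (nat_lit 304) (nat_lit 0) (XT.lf (nat_lit 0) (nat_lit 15591259938) (nat_lit 304) (nat_lit 1675947466) (nat_lit 380) (nat_lit 24072732347) (nat_lit 66) (nat_lit 5) (nat_lit 70) (nat_lit 5) (nat_lit 71) (nat_lit 5) (nat_lit 358) (nat_lit 309) (nat_lit 113)) (XT.nd (nat_lit 78) (nat_lit 304) (nat_lit 0) (XT.lf (nat_lit 0) (nat_lit 23009301165) (nat_lit 380) (nat_lit 8509330527) (nat_lit 76) (nat_lit 10665770606) (nat_lit 66) (nat_lit 5) (nat_lit 71) (nat_lit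 5) (nat_lit 67) (nat_lit 5) (nat_lit 359) (nat_lit 309) (nat_lit 112)) (XT.lf (nat_lit 0) (nat_lit 9411204496) (nat_lit 304) (nat_lit 19617251276) (nat_lit 380) (nat_lit 14022602492) (nat_lit 62) (nat_lit 5) (nat_lit 66) (nat_lit 5) (nat_lit 67) (nat_lit 5) (nat_lit 360) (nat_lit 309) (nat_lit 111))))))))
noncomputable def xc223 : XT := (XT.nd (nat_lit 36972) (nat_lit 0) (nat_lit 6232) (XT.nd (nat_lit 858) (nat_lit 684) (nat_lit 0) (XT.nd (nat_lit 390) (nat_lit 532) (nat_lit 0) (XT.nd (nat_lit 156) (nat_lit 380) (nat_lit 0) (XT.nd (nat_lit 78) (nat_lit 228) (nat_lit 0) (XT.lf (nat_lit 0) (nat_lit 28040770685) (nat_lit 304) (nat_lit 7271116992) (nat_lit 380) (nat_lit 8629318532) (nat_lit 62) (nat_lit 5) (nat_lit 66) (nat_lit 5) (nat_lit 67) (nat_lit 5) (nat_lit 361) (nat_lit 309) (nat_lit 110)) (XT.lf (nat_lit 0) (nat_lit 2361919690) (nat_lit 228) (nat_lit 39494784106) (nat_lit 304) (nat_lit 2999171643)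 (nat_lit 59) (nat_lit 5) (nat_lit 62) (nat_lit 5) (nat_lit 63) (nat_lit 5) (nat_lit 362) (nat_lit 309) (nat_lit 109))) (XT.nd (nat_lit 78) (nat_lit 304) (nat_lit 0) (XT.lf (nat_lit 0) (nat_lit 2977231062) (nat_lit 304) (nat_lit 24398581405) (nat_lit 76) (nat_lit 18414408332) (nat_lit 58) (nat_lit 5) (nat_lit 62) (nat_lit 5) (nat_lit 59) (nat_lit 5) (nat_lit 363) (nat_lit 309) (nat_lit 108)) (XT.nd (nat_lit 78) (nat_lit 304) (nat_lit 0) (XT.lf (nat_lit 0) (nat_lit 9070551229) (nat_lit 304) (nat_lit 5792960318) (nat_lit 76) (nat_lit 31888259962) (nat_lit 58) (nat_lit 5) (nat_lit 62) (nat_lit 5) (nat_lit 59) (nat_lit 5) (nat_lit 364) (nat_lit 309) (nat_lit 107)) (XT.lf (nat_lit 0) (nat_lit 13634044029) (nat_lit 304) (nat_lit 1841652501) (nat_lit 380) (nat_lit 32262604360) (nat_lit 54) (nat_lit 5) (nat_lit 58) (nat_lit 5) (nat_lit 59) (nat_lit 5) (nat_lit 365) (nat_lit 309) (nat_lit 106))))) (XT.nd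 (nat_lit 234) (nat_lit 304) (nat_lit 0) (XT.nd (nat_lit 78) (nat_lit 228) (nat_lit 0) (XT.lf (nat_lit 0) (nat_lit 22241290372) (nat_lit 380) (nat_lit 15104730106) (nat_lit 76) (nat_lit 11403359681) (nat_lit 54) (nat_lit 5) (nat_lit 59) (nat_lit 5) (nat_lit 55) (nat_lit 5) (nat_lit 366) (nat_lit 309) (nat_lit 105)) (XT.nd (nat_lit 78) (nat_lit 0) (nat_lit 0) (XT.lf (nat_lit 0) (nat_lit 4532209354) (nat_lit 228) (nat_lit 24737492984) (nat_lit 304) (nat_lit 20519296708) (nat_lit 51) (nat_lit 5) (nat_lit 54) (nat_lit 5) (nat_lit 55) (nat_lit 5) (nat_lit 367) (nat_lit 309) (nat_lit 104)) (XT.lf (nat_lit 0) (nat_lit 25065137755) (nat_lit 228) (nat_lit 11594437177) (nat_lit 304) (nat_lit 14195715988) (nat_lit 51) (nat_lit 5) (nat_lit 54) (nat_lit 5) (nat_lit 55) (nat_lit 5) (nat_lit 368) (nat_lit 309) (nat_lit 103)))) (XT.nd (nat_lit 78) (nat_lit 304) (nat_lit 0) (XT.lf (nat_lit 0) (nat_lit 44287948418)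 (nat_lit 304) (nat_lit 5760915998) (nat_lit 76) (nat_lit 1904205584) (nat_lit 51) (nat_lit 5) (nat_lit 55) (nat_lit 5) (nat_lit 52) (nat_lit 5) (nat_lit 369) (nat_lit 309) (nat_lit 102)) (XT.nd (nat_lit 78) (nat_lit 76) (nat_lit 0) (XT.lf (nat_lit 0) (nat_lit 15045348076) (nat_lit 228) (nat_lit 37357429317) (nat_lit 304) (nat_lit 673279447) (nat_lit 48) (nat_lit 5) (nat_lit 51) (nat_lit 5) (nat_lit 52) (nat_lit 5) (nat_lit 370) (nat_lit 309) (nat_lit 101)) (XT.lf (nat_lit 0) (nat_lit 6457867339) (nat_lit 304) (nat_lit 17703080236) (nat_lit 76) (nat_lit 30068197242) (nat_lit 47) (nat_lit 5) (nat_lit 51) (nat_lit 5) (nat_lit 48) (nat_lit 5) (nat_lit 371) (nat_lit 309) (nat_lit 100)))))) (XT.nd (nat_lit 468) (nat_lit 228) (nat_lit 0) (XT.nd (nat_lit 234) (nat_lit 228) (nat_lit 0) (XT.nd (nat_lit 78) (nat_lit 0) (nat_lit 0) (XT.lf (nat_lit 0) (nat_lit 3289319615) (nat_lit 228) (nat_lit 10529958772)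 (nat_lit 304) (nat_lit 41596453505) (nat_lit 44) (nat_lit 5) (nat_lit 47) (nat_lit 5) (nat_lit 48) (nat_lit 5) (nat_lit 372) (nat_lit 309) (nat_lit 99)) (XT.nd (nat_lit 78) (nat_lit 0) (nat_lit 0) (XT.lf (nat_lit 0) (nat_lit 21614069892) (nat_lit 304) (nat_lit 31396275013) (nat_lit 76) (nat_lit 3621197764) (nat_lit 44) (nat_lit 5) (nat_lit 48) (nat_lit 5) (nat_lit 45) (nat_lit 5) (nat_lit 373) (nat_lit 309) (nat_lit 98)) (XT.lf (nat_lit 0) (nat_lit 29745274666) (nat_lit 304) (nat_lit 10151013788) (nat_lit 76) (nat_lit 17984464398) (nat_lit 44) (nat_lit 5) (nat_lit 48) (nat_lit 5) (nat_lit 45) (nat_lit 5) (nat_lit 374) (nat_lit 309) (nat_lit 97)))) (XT.nd (nat_lit 78) (nat_lit 0) (nat_lit 0) (XT.lf (nat_lit 0) (nat_lit 11962588816) (nat_lit 228) (nat_lit 26271180147) (nat_lit 304) (nat_lit 20930271885) (nat_lit 41) (nat_lit 5) (nat_lit 44) (nat_lit 5) (nat_lit 45) (nat_lit 5) (nat_lit 375) (nat_lit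 309) (nat_lit 96)) (XT.nd (nat_lit 78) (nat_lit 0) (nat_lit 0) (XT.lf (nat_lit 0) (nat_lit 34945259696) (nat_lit 228) (nat_lit 12132549789) (nat_lit 304) (nat_lit 13404993302) (nat_lit 41) (nat_lit 5) (nat_lit 44) (nat_lit 5) (nat_lit 45) (nat_lit 5) (nat_lit 376) (nat_lit 309) (nat_lit 95)) (XT.lf (nat_lit 0) (nat_lit 56208957664) (nat_lit 304) (nat_lit 3249474235) (nat_lit 76) (nat_lit 2382044079) (nat_lit 41) (nat_lit 5) (nat_lit 45) (nat_lit 5) (nat_lit 42) (nat_lit 5) (nat_lit 377) (nat_lit 309) (nat_lit 94))))) (XT.nd (nat_lit 35412) (nat_lit 0) (nat_lit 9196) (XT.nd (nat_lit 78) (nat_lit 0) (nat_lit 0) (XT.lf (nat_lit 0) (nat_lit 2642489680) (nat_lit 228) (nat_lit 43280908488) (nat_lit 76) (nat_lit 17305387821) (nat_lit 38) (nat_lit 5) (nat_lit 41) (nat_lit 5) (nat_lit 39) (nat_lit 5) (nat_lit 378) (nat_lit 309) (nat_lit 93)) (XT.nd (nat_lit 35256) (nat_lit 0) (nat_lit 9196) (XT.lf (nat_lit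 0) (nat_lit 11083145156) (nat_lit 228) (nat_lit 20808418491) (nat_lit 76) (nat_lit 32764562288) (nat_lit 38) (nat_lit 5) (nat_lit 41) (nat_lit 5) (nat_lit 39) (nat_lit 5) (nat_lit 379) (nat_lit 309) (nat_lit 92)) (XT.lf (nat_lit 0) (nat_lit 5377045301) (nat_lit 1140) (nat_lit 1848826690) (nat_lit 1140) (nat_lit 1848826690) (nat_lit 159) (nat_lit 3) (nat_lit 174) (nat_lit 3) (nat_lit 174) (nat_lit 5) (nat_lit 310) (nat_lit 310) (nat_lit 160)))) (XT.nd (nat_lit 78) (nat_lit 0) (nat_lit 76) (XT.lf (nat_lit 76) (nat_lit 4062468309) (nat_lit 0) (nat_lit 7075115980) (nat_lit 1140) (nat_lit 7276985663) (nat_lit 160) (nat_lit 5) (nat_lit 159) (nat_lit 3) (nat_lit 174) (nat_lit 5) (nat_lit 311) (nat_lit 310) (nat_lit 159)) (XT.nd (nat_lit 78) (nat_lit 0) (nat_lit 0) (XT.lf (nat_lit 0) (nat_lit 11568166724) (nat_lit 1064) (nat_lit 6564807040) (nat_lit 1140) (nat_lit 553672159) (nat_lit 160) (nat_lit 5)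 (nat_lit 174) (nat_lit 5) (nat_lit 175) (nat_lit 5) (nat_lit 312) (nat_lit 310) (nat_lit 158)) (XT.lf (nat_lit 76) (nat_lit 1409654305) (nat_lit 0) (nat_lit 10678671320) (nat_lit 1140) (nat_lit 6876274043) (nat_lit 161) (nat_lit 5) (nat_lit 160) (nat_lit 5) (nat_lit 175) (nat_lit 5) (nat_lit 313) (nat_lit 310) (nat_lit 157))))))) (XT.nd (nat_lit 936) (nat_lit 2204) (nat_lit 0) (XT.nd (nat_lit 468) (nat_lit 836) (nat_lit 0) (XT.nd (nat_lit 234) (nat_lit 0) (nat_lit 152) (XT.nd (nat_lit 78) (nat_lit 0) (nat_lit 76) (XT.lf (nat_lit 76) (nat_lit 9754051047) (nat_lit 0) (nat_lit 2929552799) (nat_lit 1140) (nat_lit 6565517566) (nat_lit 161) (nat_lit 5) (nat_lit 160) (nat_lit 5) (nat_lit 175) (nat_lit 5) (nat_lit 314) (nat_lit 310) (nat_lit 156)) (XT.nd (nat_lit 78) (nat_lit 0) (nat_lit 0) (XT.lf (nat_lit 0) (nat_lit 13338751097) (nat_lit 1064) (nat_lit 1245959137) (nat_lit 1140) (nat_lit 4956222644)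 (nat_lit 161) (nat_lit 5) (nat_lit 175) (nat_lit 5) (nat_lit 176) (nat_lit 5) (nat_lit 315) (nat_lit 310) (nat_lit 155)) (XT.lf (nat_lit 76) (nat_lit 7361386809) (nat_lit 0) (nat_lit 6745571826) (nat_lit 1140) (nat_lit 5731751847) (nat_lit 162) (nat_lit 5) (nat_lit 161) (nat_lit 5) (nat_lit 176) (nat_lit 5) (nat_lit 316) (nat_lit 310) (nat_lit 154)))) (XT.nd (nat_lit 78) (nat_lit 0) (nat_lit 0) (XT.lf (nat_lit 0) (nat_lit 14917500779) (nat_lit 1064) (nat_lit 3909512160) (nat_lit 1140) (nat_lit 1317843386) (nat_lit 162) (nat_lit 5) (nat_lit 176) (nat_lit 5) (nat_lit 177) (nat_lit 5) (nat_lit 317) (nat_lit 310) (nat_lit 153)) (XT.nd (nat_lit 78) (nat_lit 0) (nat_lit 0) (XT.lf (nat_lit 76) (nat_lit 4941016246) (nat_lit 0) (nat_lit 10919616557) (nat_lit 1140) (nat_lit 4596318702) (nat_lit 163) (nat_lit 5) (nat_lit 162) (nat_lit 5) (nat_lit 177) (nat_lit 5) (nat_lit 318) (nat_lit 310) (nat_lit 152))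 (XT.lf (nat_lit 76) (nat_lit 14133293730) (nat_lit 0) (nat_lit 2732370661) (nat_lit 1140) (nat_lit 3911749766) (nat_lit 163) (nat_lit 5) (nat_lit 162) (nat_lit 5) (nat_lit 177) (nat_lit 5) (nat_lit 319) (nat_lit 310) (nat_lit 151))))) (XT.nd (nat_lit 234) (nat_lit 1064) (nat_lit 0) (XT.nd (nat_lit 78) (nat_lit 0) (nat_lit 0) (XT.lf (nat_lit 76) (nat_lit 2483518700) (nat_lit 0) (nat_lit 15490314537) (nat_lit 1140) (nat_lit 3131480277) (nat_lit 164) (nat_lit 5) (nat_lit 163) (nat_lit 5) (nat_lit 178) (nat_lit 5) (nat_lit 320) (nat_lit 310) (nat_lit 150)) (XT.nd (nat_lit 78) (nat_lit 0) (nat_lit 76) (XT.lf (nat_lit 76) (nat_lit 11989636626) (nat_lit 0) (nat_lit 7213935146) (nat_lit 1140) (nat_lit 2236840391) (nat_lit 164) (nat_lit 5) (nat_lit 163) (nat_lit 5) (nat_lit 178) (nat_lit 5) (nat_lit 321) (nat_lit 310) (nat_lit 149)) (XT.lf (nat_lit 0) (nat_lit 20477422891) (nat_lit 1064) (nat_lit 21255222)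 (nat_lit 1140) (nat_lit 1286680745) (nat_lit 164) (nat_lit 5) (nat_lit 178) (nat_lit 5) (nat_lit 179) (nat_lit 5) (nat_lit 322) (nat_lit 310) (nat_lit 148)))) (XT.nd (nat_lit 78) (nat_lit 1140) (nat_lit 0) (XT.lf (nat_lit 76) (nat_lit 9807186565) (nat_lit 0) (nat_lit 12142778265) (nat_lit 1140) (nat_lit 185886226) (nat_lit 165) (nat_lit 5) (nat_lit 164) (nat_lit 5) (nat_lit 179) (nat_lit 5) (nat_lit 323) (nat_lit 310) (nat_lit 147)) (XT.nd (nat_lit 78) (nat_lit 0) (nat_lit 76) (XT.lf (nat_lit 0) (nat_lit 945947984) (nat_lit 1140) (nat_lit 2579246733) (nat_lit 1216) (nat_lit 18971542900) (nat_lit 149) (nat_lit 5) (nat_lit 164) (nat_lit 5) (nat_lit 165) (nat_lit 5) (nat_lit 324) (nat_lit 310) (nat_lit 146)) (XT.lf (nat_lit 0) (nat_lit 2228279274) (nat_lit 1140) (nat_lit 15313203442) (nat_lit 1216) (nat_lit 5323314897) (nat_lit 150) (nat_lit 5) (nat_lit 165) (nat_lit 5) (nat_lit 166) (nat_lit 5)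 (nat_lit 325) (nat_lit 310) (nat_lit 145)))))) (XT.nd (nat_lit 468) (nat_lit 988) (nat_lit 0) (XT.nd (nat_lit 234) (nat_lit 1292) (nat_lit 0) (XT.nd (nat_lit 78) (nat_lit 0) (nat_lit 76) (XT.lf (nat_lit 0) (nat_lit 3605387833) (nat_lit 1140) (nat_lit 5243047899) (nat_lit 1216) (nat_lit 14393784548) (nat_lit 150) (nat_lit 5) (nat_lit 165) (nat_lit 5) (nat_lit 166) (nat_lit 5) (nat_lit 326) (nat_lit 310) (nat_lit 144)) (XT.nd (nat_lit 78) (nat_lit 0) (nat_lit 0) (XT.lf (nat_lit 0) (nat_lit 5070820922) (nat_lit 1140) (nat_lit 18403798209) (nat_lit 76) (nat_lit 154945957) (nat_lit 151) (nat_lit 5) (nat_lit 166) (nat_lit 5) (nat_lit 152) (nat_lit 5) (nat_lit 327) (nat_lit 310) (nat_lit 143)) (XT.lf (nat_lit 0) (nat_lit 6716647188) (nat_lit 1140) (nat_lit 8002954614) (nat_lit 76) (nat_lit 9304845047) (nat_lit 151) (nat_lit 5) (nat_lit 166) (nat_lit 5) (nat_lit 152) (nat_lit 5) (nat_lit 328) (nat_lit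 310) (nat_lit 142)))) (XT.nd (nat_lit 78) (nat_lit 532) (nat_lit 0) (XT.lf (nat_lit 0) (nat_lit 2759882474) (nat_lit 836) (nat_lit 5673983992) (nat_lit 912) (nat_lit 15996657285) (nat_lit 140) (nat_lit 5) (nat_lit 151) (nat_lit 5) (nat_lit 152) (nat_lit 5) (nat_lit 329) (nat_lit 310) (nat_lit 141)) (XT.nd (nat_lit 78) (nat_lit 532) (nat_lit 0) (XT.lf (nat_lit 0) (nat_lit 10314823790) (nat_lit 912) (nat_lit 10876515939) (nat_lit 76) (nat_lit 3654085556) (nat_lit 140) (nat_lit 5) (nat_lit 152) (nat_lit 5) (nat_lit 141) (nat_lit 5) (nat_lit 330) (nat_lit 310) (nat_lit 140)) (XT.lf (nat_lit 0) (nat_lit 184985322) (nat_lit 532) (nat_lit 12120897666) (nat_lit 608) (nat_lit 12965289387) (nat_lit 133) (nat_lit 5) (nat_lit 140) (nat_lit 5) (nat_lit 141) (nat_lit 5) (nat_lit 331) (nat_lit 310) (nat_lit 139))))) (XT.nd (nat_lit 234) (nat_lit 456) (nat_lit 0) (XT.nd (nat_lit 78) (nat_lit 532) (nat_lit 0)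 (XT.lf (nat_lit 0) (nat_lit 11797448061) (nat_lit 532) (nat_lit 2664862112) (nat_lit 608) (nat_lit 11244221072) (nat_lit 133) (nat_lit 5) (nat_lit 140) (nat_lit 5) (nat_lit 141) (nat_lit 5) (nat_lit 332) (nat_lit 310) (nat_lit 138)) (XT.nd (nat_lit 78) (nat_lit 532) (nat_lit 0) (XT.lf (nat_lit 0) (nat_lit 16747368225) (nat_lit 608) (nat_lit 2468537315) (nat_lit 76) (nat_lit 6937135405) (nat_lit 133) (nat_lit 5) (nat_lit 141) (nat_lit 5) (nat_lit 134) (nat_lit 5) (nat_lit 333) (nat_lit 310) (nat_lit 137)) (XT.lf (nat_lit 0) (nat_lit 9469880876) (nat_lit 532) (nat_lit 9744560961) (nat_lit 608) (nat_lit 7395108152) (nat_lit 126) (nat_lit 5) (nat_lit 133) (nat_lit 5) (nat_lit 134) (nat_lit 5) (nat_lit 334) (nat_lit 310) (nat_lit 136)))) (XT.nd (nat_lit 78) (nat_lit 456) (nat_lit 0) (XT.lf (nat_lit 0) (nat_lit 21776936519) (nat_lit 608) (nat_lit 5266143487) (nat_lit 76) (nat_lit 36039768) (nat_lit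 126) (nat_lit 5) (nat_lit 134) (nat_lit 5) (nat_lit 127) (nat_lit 5) (nat_lit 335) (nat_lit 310) (nat_lit 135)) (XT.nd (nat_lit 78) (nat_lit 0) (nat_lit 0) (XT.lf (nat_lit 0) (nat_lit 6999974241) (nat_lit 456) (nat_lit 17576343022) (nat_lit 532) (nat_lit 2981666562) (nat_lit 120) (nat_lit 5) (nat_lit 126) (nat_lit 5) (nat_lit 127) (nat_lit 5) (nat_lit 336) (nat_lit 310) (nat_lit 134)) (XT.lf (nat_lit 0) (nat_lit 19738335253) (nat_lit 456) (nat_lit 7770838254) (nat_lit 532) (nat_lit 540562761) (nat_lit 120) (nat_lit 5) (nat_lit 126) (nat_lit 5) (nat_lit 127) (nat_lit 5) (nat_lit 337) (nat_lit 310) (nat_lit 133))))))))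
noncomputable def xc224 : XT := (XT.nd (nat_lit 1794) (nat_lit 1900) (nat_lit 0) (XT.nd (nat_lit 858) (nat_lit 1748) (nat_lit 0) (XT.nd (nat_lit 390) (nat_lit 1292) (nat_lit 0) (XT.nd (nat_lit 156) (nat_lit 456) (nat_lit 0) (XT.nd (nat_lit 78) (nat_lit 0) (nat_lit 0) (XT.lf (nat_lit 0) (nat_lit 1996589534) (nat_lit 608) (nat_lit 24212367675) (nat_lit 76) (nat_lit 2344881829) (nat_lit 112) (nat_lit 5) (nat_lit 120) (nat_lit 5) (nat_lit 113) (nat_lit 5) (nat_lit 338) (nat_lit 310) (nat_lit 132)) (XT.lf (nat_lit 0) (nat_lit 4757141526) (nat_lit 608) (nat_lit 11613102490) (nat_lit 76) (nat_lit 12697922487) (nat_lit 112) (nat_lit 5) (nat_lit 120) (nat_lit 5) (nat_lit 113) (nat_lit 5) (nat_lit 339) (nat_lit 310) (nat_lit 131))) (XT.nd (nat_lit 78) (nat_lit 0) (nat_lit 0) (XT.lf (nat_lit 0) (nat_lit 1387587506) (nat_lit 456) (nat_lit 6222815357) (nat_lit 532) (nat_lit 21987230624) (nat_lit 106) (nat_lit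 5) (nat_lit 112) (nat_lit 5) (nat_lit 113) (nat_lit 5) (nat_lit 340) (nat_lit 310) (nat_lit 130)) (XT.nd (nat_lit 78) (nat_lit 0) (nat_lit 0) (XT.lf (nat_lit 0) (nat_lit 10704962959) (nat_lit 532) (nat_lit 15168624148) (nat_lit 76) (nat_lit 4264732635) (nat_lit 106) (nat_lit 5) (nat_lit 113) (nat_lit 5) (nat_lit 107) (nat_lit 5) (nat_lit 341) (nat_lit 310) (nat_lit 129)) (XT.lf (nat_lit 0) (nat_lit 13950688577) (nat_lit 532) (nat_lit 1801163930) (nat_lit 76) (nat_lit 14941630322) (nat_lit 106) (nat_lit 5) (nat_lit 113) (nat_lit 5) (nat_lit 107) (nat_lit 5) (nat_lit 342) (nat_lit 310) (nat_lit 128))))) (XT.nd (nat_lit 234) (nat_lit 456) (nat_lit 0) (XT.nd (nat_lit 78) (nat_lit 380) (nat_lit 0) (XT.lf (nat_lit 0) (nat_lit 12201936209) (nat_lit 456) (nat_lit 5205954546) (nat_lit 532) (nat_lit 13853992838) (nat_lit 100) (nat_lit 5) (nat_lit 106) (nat_lit 5) (nat_lit 107) (nat_lit 5) (nat_lit 343)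 (nat_lit 310) (nat_lit 127)) (XT.nd (nat_lit 78) (nat_lit 380) (nat_lit 0) (XT.lf (nat_lit 0) (nat_lit 21038418155) (nat_lit 532) (nat_lit 5242841266) (nat_lit 76) (nat_lit 5563994442) (nat_lit 100) (nat_lit 5) (nat_lit 107) (nat_lit 5) (nat_lit 101) (nat_lit 5) (nat_lit 344) (nat_lit 310) (nat_lit 126)) (XT.lf (nat_lit 0) (nat_lit 9111587327) (nat_lit 380) (nat_lit 15802364340) (nat_lit 456) (nat_lit 7528096451) (nat_lit 95) (nat_lit 5) (nat_lit 100) (nat_lit 5) (nat_lit 101) (nat_lit 5) (nat_lit 345) (nat_lit 310) (nat_lit 125)))) (XT.nd (nat_lit 78) (nat_lit 456) (nat_lit 0) (XT.lf (nat_lit 0) (nat_lit 24000709183) (nat_lit 380) (nat_lit 4955000194) (nat_lit 456) (nat_lit 4099543505) (nat_lit 95) (nat_lit 5) (nat_lit 100) (nat_lit 5) (nat_lit 101) (nat_lit 5) (nat_lit 346) (nat_lit 310) (nat_lit 124)) (XT.nd (nat_lit 78) (nat_lit 76) (nat_lit 0) (XT.lf (nat_lit 0) (nat_lit 5697662173) (nat_lit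 380) (nat_lit 27532694906) (nat_lit 456) (nat_lit 453152859) (nat_lit 90) (nat_lit 5) (nat_lit 95) (nat_lit 5) (nat_lit 96) (nat_lit 5) (nat_lit 347) (nat_lit 310) (nat_lit 123)) (XT.lf (nat_lit 0) (nat_lit 3376698730) (nat_lit 456) (nat_lit 13334970276) (nat_lit 76) (nat_lit 17613842795) (nat_lit 89) (nat_lit 5) (nat_lit 95) (nat_lit 5) (nat_lit 90) (nat_lit 5) (nat_lit 348) (nat_lit 310) (nat_lit 122)))))) (XT.nd (nat_lit 468) (nat_lit 684) (nat_lit 0) (XT.nd (nat_lit 234) (nat_lit 684) (nat_lit 0) (XT.nd (nat_lit 78) (nat_lit 0) (nat_lit 0) (XT.lf (nat_lit 0) (nat_lit 1782397310) (nat_lit 380) (nat_lit 5544275678) (nat_lit 456) (nat_lit 27659540901) (nat_lit 84) (nat_lit 5) (nat_lit 89) (nat_lit 5) (nat_lit 90) (nat_lit 5) (nat_lit 349) (nat_lit 310) (nat_lit 121)) (XT.nd (nat_lit 78) (nat_lit 0) (nat_lit 0) (XT.lf (nat_lit 0) (nat_lit 11585656126) (nat_lit 456) (nat_lit 18098043870) (nat_lit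 76) (nat_lit 5977326435) (nat_lit 84) (nat_lit 5) (nat_lit 90) (nat_lit 5) (nat_lit 85) (nat_lit 5) (nat_lit 350) (nat_lit 310) (nat_lit 120)) (XT.lf (nat_lit 0) (nat_lit 16024628866) (nat_lit 456) (nat_lit 2597273121) (nat_lit 76) (nat_lit 17732619302) (nat_lit 84) (nat_lit 5) (nat_lit 90) (nat_lit 5) (nat_lit 85) (nat_lit 5) (nat_lit 351) (nat_lit 310) (nat_lit 119)))) (XT.nd (nat_lit 78) (nat_lit 304) (nat_lit 0) (XT.lf (nat_lit 0) (nat_lit 13631331371) (nat_lit 380) (nat_lit 7093876277) (nat_lit 456) (nat_lit 16339764649) (nat_lit 79) (nat_lit 5) (nat_lit 84) (nat_lit 5) (nat_lit 85) (nat_lit 5) (nat_lit 352) (nat_lit 310) (nat_lit 118)) (XT.nd (nat_lit 78) (nat_lit 304) (nat_lit 0) (XT.lf (nat_lit 0) (nat_lit 25636682672) (nat_lit 456) (nat_lit 7445351843) (nat_lit 76) (nat_lit 4712610239) (nat_lit 79) (nat_lit 5) (nat_lit 85) (nat_lit 5) (nat_lit 80) (nat_lit 5) (nat_lit 353) (nat_lit 310)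 (nat_lit 117)) (XT.lf (nat_lit 0) (nat_lit 9127320972) (nat_lit 304) (nat_lit 21723672864) (nat_lit 380) (nat_lit 7690552949) (nat_lit 75) (nat_lit 5) (nat_lit 79) (nat_lit 5) (nat_lit 80) (nat_lit 5) (nat_lit 354) (nat_lit 310) (nat_lit 116))))) (XT.nd (nat_lit 234) (nat_lit 304) (nat_lit 0) (XT.nd (nat_lit 78) (nat_lit 380) (nat_lit 0) (XT.lf (nat_lit 0) (nat_lit 26346691677) (nat_lit 304) (nat_lit 9947786657) (nat_lit 380) (nat_lit 3014199260) (nat_lit 75) (nat_lit 5) (nat_lit 79) (nat_lit 5) (nat_lit 80) (nat_lit 5) (nat_lit 355) (nat_lit 310) (nat_lit 115)) (XT.nd (nat_lit 78) (nat_lit 0) (nat_lit 0) (XT.lf (nat_lit 0) (nat_lit 1825252849) (nat_lit 380) (nat_lit 36076421836) (nat_lit 76) (nat_lit 2194892261) (nat_lit 70) (nat_lit 5) (nat_lit 75) (nat_lit 5) (nat_lit 71) (nat_lit 5) (nat_lit 356) (nat_lit 310) (nat_lit 114)) (XT.lf (nat_lit 0) (nat_lit 6977623984) (nat_lit 380) (nat_lit 19259454141)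 (nat_lit 76) (nat_lit 14663273704) (nat_lit 70) (nat_lit 5) (nat_lit 75) (nat_lit 5) (nat_lit 71) (nat_lit 5) (nat_lit 357) (nat_lit 310) (nat_lit 113)))) (XT.nd (nat_lit 78) (nat_lit 304) (nat_lit 0) (XT.lf (nat_lit 0) (nat_lit 12282273398) (nat_lit 380) (nat_lit 1940990535) (nat_lit 76) (nat_lit 27505058700) (nat_lit 70) (nat_lit 5) (nat_lit 75) (nat_lit 5) (nat_lit 71) (nat_lit 5) (nat_lit 358) (nat_lit 310) (nat_lit 112)) (XT.nd (nat_lit 78) (nat_lit 0) (nat_lit 0) (XT.lf (nat_lit 0) (nat_lit 16210425407) (nat_lit 304) (nat_lit 1689235337) (nat_lit 380) (nat_lit 24676867344) (nat_lit 66) (nat_lit 5) (nat_lit 70) (nat_lit 5) (nat_lit 71) (nat_lit 5) (nat_lit 359) (nat_lit 310) (nat_lit 111)) (XT.lf (nat_lit 0) (nat_lit 23811029417) (nat_lit 380) (nat_lit 8614433793) (nat_lit 76) (nat_lit 11020956087) (nat_lit 66) (nat_lit 5) (nat_lit 71) (nat_lit 5) (nat_lit 67) (nat_lit 5) (nat_lit 360) (nat_lit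 310) (nat_lit 110))))))) (XT.nd (nat_lit 858) (nat_lit 532) (nat_lit 0) (XT.nd (nat_lit 390) (nat_lit 760) (nat_lit 0) (XT.nd (nat_lit 156) (nat_lit 304) (nat_lit 0) (XT.nd (nat_lit 78) (nat_lit 0) (nat_lit 0) (XT.lf (nat_lit 0) (nat_lit 9842244961) (nat_lit 304) (nat_lit 20166697045) (nat_lit 380) (nat_lit 14330192434) (nat_lit 62) (nat_lit 5) (nat_lit 66) (nat_lit 5) (nat_lit 67) (nat_lit 5) (nat_lit 361) (nat_lit 310) (nat_lit 109)) (XT.lf (nat_lit 0) (nat_lit 29026366941) (nat_lit 304) (nat_lit 7451316746) (nat_lit 380) (nat_lit 8778403784) (nat_lit 62) (nat_lit 5) (nat_lit 66) (nat_lit 5) (nat_lit 67) (nat_lit 5) (nat_lit 362) (nat_lit 310) (nat_lit 108))) (XT.nd (nat_lit 78) (nat_lit 76) (nat_lit 0) (XT.lf (nat_lit 0) (nat_lit 2578695959) (nat_lit 228) (nat_lit 40638804835) (nat_lit 304) (nat_lit 2980740998) (nat_lit 59) (nat_lit 5) (nat_lit 62) (nat_lit 5) (nat_lit 63) (nat_lit 5) (nat_lit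 363) (nat_lit 310) (nat_lit 107)) (XT.nd (nat_lit 78) (nat_lit 0) (nat_lit 0) (XT.lf (nat_lit 0) (nat_lit 3169742563) (nat_lit 304) (nat_lit 24986668434) (nat_lit 76) (nat_lit 19004272570) (nat_lit 58) (nat_lit 5) (nat_lit 62) (nat_lit 5) (nat_lit 59) (nat_lit 5) (nat_lit 364) (nat_lit 310) (nat_lit 106)) (XT.lf (nat_lit 0) (nat_lit 9442856668) (nat_lit 304) (nat_lit 5827069115) (nat_lit 76) (nat_lit 32881249496) (nat_lit 58) (nat_lit 5) (nat_lit 62) (nat_lit 5) (nat_lit 59) (nat_lit 5) (nat_lit 365) (nat_lit 310) (nat_lit 105))))) (XT.nd (nat_lit 234) (nat_lit 228) (nat_lit 0) (XT.nd (nat_lit 78) (nat_lit 228) (nat_lit 0) (XT.lf (nat_lit 0) (nat_lit 14181375950) (nat_lit 304) (nat_lit 1857191781) (nat_lit 380) (nat_lit 33128784655) (nat_lit 54) (nat_lit 5) (nat_lit 58) (nat_lit 5) (nat_lit 59) (nat_lit 5) (nat_lit 366) (nat_lit 310) (nat_lit 104)) (XT.nd (nat_lit 78) (nat_lit 228) (nat_lit 0)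 (XT.lf (nat_lit 0) (nat_lit 23004628136) (nat_lit 380) (nat_lit 15420953164) (nat_lit 76) (nat_lit 11783261835) (nat_lit 54) (nat_lit 5) (nat_lit 59) (nat_lit 5) (nat_lit 55) (nat_lit 5) (nat_lit 367) (nat_lit 310) (nat_lit 103)) (XT.lf (nat_lit 0) (nat_lit 4803752138) (nat_lit 228) (nat_lit 25438644565) (nat_lit 304) (nat_lit 21037302702) (nat_lit 51) (nat_lit 5) (nat_lit 54) (nat_lit 5) (nat_lit 55) (nat_lit 5) (nat_lit 368) (nat_lit 310) (nat_lit 102)))) (XT.nd (nat_lit 78) (nat_lit 228) (nat_lit 0) (XT.lf (nat_lit 0) (nat_lit 25948719561) (nat_lit 228) (nat_lit 11902490478) (nat_lit 304) (nat_lit 14526856490) (nat_lit 51) (nat_lit 5) (nat_lit 54) (nat_lit 5) (nat_lit 55) (nat_lit 5) (nat_lit 369) (nat_lit 310) (nat_lit 101)) (XT.nd (nat_lit 78) (nat_lit 228) (nat_lit 0) (XT.lf (nat_lit 0) (nat_lit 45706130800) (nat_lit 304) (nat_lit 5803521727) (nat_lit 76) (nat_lit 1999199291) (nat_lit 51)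 (nat_lit 5) (nat_lit 55) (nat_lit 5) (nat_lit 52) (nat_lit 5) (nat_lit 370) (nat_lit 310) (nat_lit 100)) (XT.lf (nat_lit 0) (nat_lit 15625653585) (nat_lit 228) (nat_lit 38437382482) (nat_lit 304) (nat_lit 602536864) (nat_lit 48) (nat_lit 5) (nat_lit 51) (nat_lit 5) (nat_lit 52) (nat_lit 5) (nat_lit 371) (nat_lit 310) (nat_lit 99)))))) (XT.nd (nat_lit 468) (nat_lit 0) (nat_lit 0) (XT.nd (nat_lit 234) (nat_lit 228) (nat_lit 0) (XT.nd (nat_lit 78) (nat_lit 228) (nat_lit 0) (XT.lf (nat_lit 0) (nat_lit 6738172661) (nat_lit 304) (nat_lit 18107146916) (nat_lit 76) (nat_lit 31007989063) (nat_lit 47) (nat_lit 5) (nat_lit 51) (nat_lit 5) (nat_lit 48) (nat_lit 5) (nat_lit 372) (nat_lit 310) (nat_lit 98)) (XT.nd (nat_lit 78) (nat_lit 0) (nat_lit 0) (XT.lf (nat_lit 0) (nat_lit 3513779580) (nat_lit 228) (nat_lit 10805334101) (nat_lit 304) (nat_lit 42756422319) (nat_lit 44) (nat_lit 5) (nat_lit 47) (nat_lit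 5) (nat_lit 48) (nat_lit 5) (nat_lit 373) (nat_lit 310) (nat_lit 97)) (XT.lf (nat_lit 0) (nat_lit 22345643910) (nat_lit 304) (nat_lit 32213834439) (nat_lit 76) (nat_lit 3768409110) (nat_lit 44) (nat_lit 5) (nat_lit 48) (nat_lit 5) (nat_lit 45) (nat_lit 5) (nat_lit 374) (nat_lit 310) (nat_lit 96)))) (XT.nd (nat_lit 78) (nat_lit 228) (nat_lit 0) (XT.lf (nat_lit 0) (nat_lit 30718362927) (nat_lit 304) (nat_lit 10334836606) (nat_lit 76) (nat_lit 18561450188) (nat_lit 44) (nat_lit 5) (nat_lit 48) (nat_lit 5) (nat_lit 45) (nat_lit 5) (nat_lit 375) (nat_lit 310) (nat_lit 95)) (XT.nd (nat_lit 78) (nat_lit 0) (nat_lit 0) (XT.lf (nat_lit 0) (nat_lit 12440990669) (nat_lit 228) (nat_lit 27019318964) (nat_lit 304) (nat_lit 21476165820) (nat_lit 41) (nat_lit 5) (nat_lit 44) (nat_lit 5) (nat_lit 45) (nat_lit 5) (nat_lit 376) (nat_lit 310) (nat_lit 94)) (XT.lf (nat_lit 0) (nat_lit 36109660389) (nat_lit 228) (nat_lit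 12457694644) (nat_lit 304) (nat_lit 13727517644) (nat_lit 41) (nat_lit 5) (nat_lit 44) (nat_lit 5) (nat_lit 45) (nat_lit 5) (nat_lit 377) (nat_lit 310) (nat_lit 93))))) (XT.nd (nat_lit 35568) (nat_lit 0) (nat_lit 9044) (XT.nd (nat_lit 35412) (nat_lit 0) (nat_lit 8968) (XT.lf (nat_lit 0) (nat_lit 57970551186) (nat_lit 304) (nat_lit 3232313973) (nat_lit 76) (nat_lit 2490470347) (nat_lit 41) (nat_lit 5) (nat_lit 45) (nat_lit 5) (nat_lit 42) (nat_lit 5) (nat_lit 378) (nat_lit 310) (nat_lit 92)) (XT.nd (nat_lit 78) (nat_lit 0) (nat_lit 0) (XT.lf (nat_lit 0) (nat_lit 5719727686) (nat_lit 1140) (nat_lit 1810685897) (nat_lit 1140) (nat_lit 1810685897) (nat_lit 159) (nat_lit 3) (nat_lit 174) (nat_lit 3) (nat_lit 174) (nat_lit 5) (nat_lit 311) (nat_lit 311) (nat_lit 158)) (XT.lf (nat_lit 76) (nat_lit 4369718141) (nat_lit 0) (nat_lit 7455952370) (nat_lit 1140) (nat_lit 7129942961) (nat_lit 160) (nat_lit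 5) (nat_lit 159) (nat_lit 3) (nat_lit 174) (nat_lit 5) (nat_lit 312) (nat_lit 311) (nat_lit 157)))) (XT.nd (nat_lit 78) (nat_lit 0) (nat_lit 0) (XT.lf (nat_lit 0) (nat_lit 12257287621) (nat_lit 1064) (nat_lit 6569139714) (nat_lit 1140) (nat_lit 409803439) (nat_lit 160) (nat_lit 5) (nat_lit 174) (nat_lit 5) (nat_lit 175) (nat_lit 5) (nat_lit 313) (nat_lit 311) (nat_lit 156)) (XT.nd (nat_lit 78) (nat_lit 0) (nat_lit 0) (XT.lf (nat_lit 76) (nat_lit 1642667123) (nat_lit 0) (nat_lit 11142254138) (nat_lit 1140) (nat_lit 6737867682) (nat_lit 161) (nat_lit 5) (nat_lit 160) (nat_lit 5) (nat_lit 175) (nat_lit 5) (nat_lit 314) (nat_lit 311) (nat_lit 155)) (XT.lf (nat_lit 76) (nat_lit 10231840723) (nat_lit 0) (nat_lit 3156490528) (nat_lit 1140) (nat_lit 6427828158) (nat_lit 161) (nat_lit 5) (nat_lit 160) (nat_lit 5) (nat_lit 175) (nat_lit 5) (nat_lit 315) (nat_lit 311) (nat_lit 154))))))))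
noncomputable def xc225 : XT := (XT.nd (nat_lit 1794) (nat_lit 4408) (nat_lit 0) (XT.nd (nat_lit 858) (nat_lit 2204) (nat_lit 0) (XT.nd (nat_lit 390) (nat_lit 912) (nat_lit 0) (XT.nd (nat_lit 156) (nat_lit 0) (nat_lit 76) (XT.nd (nat_lit 78) (nat_lit 0) (nat_lit 0) (XT.lf (nat_lit 0) (nat_lit 14052391925) (nat_lit 1064) (nat_lit 1092133605) (nat_lit 1140) (nat_lit 4972542570) (nat_lit 161) (nat_lit 5) (nat_lit 175) (nat_lit 5) (nat_lit 176) (nat_lit 5) (nat_lit 316) (nat_lit 311) (nat_lit 153)) (XT.lf (nat_lit 76) (nat_lit 7771558167) (nat_lit 0) (nat_lit 7064777039) (nat_lit 1140) (nat_lit 5587683191) (nat_lit 162) (nat_lit 5) (nat_lit 161) (nat_lit 5) (nat_lit 176) (nat_lit 5) (nat_lit 317) (nat_lit 311) (nat_lit 152))) (XT.nd (nat_lit 78) (nat_lit 0) (nat_lit 0) (XT.lf (nat_lit 0) (nat_lit 15661185700) (nat_lit 1064) (nat_lit 3832325417) (nat_lit 1140) (nat_lit 1246157204) (nat_lit 162) (nat_lit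 5) (nat_lit 176) (nat_lit 5) (nat_lit 177) (nat_lit 5) (nat_lit 318) (nat_lit 311) (nat_lit 151)) (XT.nd (nat_lit 78) (nat_lit 0) (nat_lit 0) (XT.lf (nat_lit 76) (nat_lit 5281812252) (nat_lit 0) (nat_lit 11344024473) (nat_lit 1140) (nat_lit 4435511780) (nat_lit 163) (nat_lit 5) (nat_lit 162) (nat_lit 5) (nat_lit 177) (nat_lit 5) (nat_lit 319) (nat_lit 311) (nat_lit 150)) (XT.lf (nat_lit 76) (nat_lit 14744249357) (nat_lit 0) (nat_lit 2908341217) (nat_lit 1140) (nat_lit 3739105673) (nat_lit 163) (nat_lit 5) (nat_lit 162) (nat_lit 5) (nat_lit 177) (nat_lit 5) (nat_lit 320) (nat_lit 311) (nat_lit 149))))) (XT.nd (nat_lit 234) (nat_lit 1064) (nat_lit 0) (XT.nd (nat_lit 78) (nat_lit 0) (nat_lit 0) (XT.lf (nat_lit 76) (nat_lit 2752994591) (nat_lit 0) (nat_lit 16033823614) (nat_lit 1140) (nat_lit 2942847782) (nat_lit 164) (nat_lit 5) (nat_lit 163) (nat_lit 5) (nat_lit 178) (nat_lit 5) (nat_lit 321) (nat_lit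 311) (nat_lit 148)) (XT.nd (nat_lit 78) (nat_lit 0) (nat_lit 76) (XT.lf (nat_lit 76) (nat_lit 12538617308) (nat_lit 0) (nat_lit 7506857705) (nat_lit 1140) (nat_lit 2029599095) (nat_lit 164) (nat_lit 5) (nat_lit 163) (nat_lit 5) (nat_lit 178) (nat_lit 5) (nat_lit 322) (nat_lit 311) (nat_lit 147)) (XT.lf (nat_lit 76) (nat_lit 174301983) (nat_lit 0) (nat_lit 21176459558) (nat_lit 1140) (nat_lit 1079827860) (nat_lit 165) (nat_lit 5) (nat_lit 164) (nat_lit 5) (nat_lit 179) (nat_lit 5) (nat_lit 323) (nat_lit 311) (nat_lit 146)))) (XT.nd (nat_lit 78) (nat_lit 0) (nat_lit 0) (XT.lf (nat_lit 0) (nat_lit 66978229) (nat_lit 1140) (nat_lit 12500183759) (nat_lit 1216) (nat_lit 10224651053) (nat_lit 149) (nat_lit 5) (nat_lit 164) (nat_lit 5) (nat_lit 165) (nat_lit 5) (nat_lit 324) (nat_lit 311) (nat_lit 145)) (XT.nd (nat_lit 78) (nat_lit 0) (nat_lit 76) (XT.lf (nat_lit 0) (nat_lit 1221612748) (nat_lit 1140)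 (nat_lit 2465847232) (nat_lit 1216) (nat_lit 19476248931) (nat_lit 149) (nat_lit 5) (nat_lit 164) (nat_lit 5) (nat_lit 165) (nat_lit 5) (nat_lit 325) (nat_lit 311) (nat_lit 144)) (XT.lf (nat_lit 0) (nat_lit 2536517944) (nat_lit 1140) (nat_lit 15575429286) (nat_lit 1216) (nat_lit 5431055277) (nat_lit 150) (nat_lit 5) (nat_lit 165) (nat_lit 5) (nat_lit 166) (nat_lit 5) (nat_lit 326) (nat_lit 311) (nat_lit 143)))))) (XT.nd (nat_lit 468) (nat_lit 988) (nat_lit 0) (XT.nd (nat_lit 234) (nat_lit 1292) (nat_lit 0) (XT.nd (nat_lit 78) (nat_lit 0) (nat_lit 76) (XT.lf (nat_lit 0) (nat_lit 3947908974) (nat_lit 1140) (nat_lit 5208911900) (nat_lit 1216) (nat_lit 14775152389) (nat_lit 150) (nat_lit 5) (nat_lit 165) (nat_lit 5) (nat_lit 166) (nat_lit 5) (nat_lit 327) (nat_lit 311) (nat_lit 142)) (XT.nd (nat_lit 78) (nat_lit 0) (nat_lit 0) (XT.lf (nat_lit 0) (nat_lit 5451918500) (nat_lit 1140) (nat_lit 18758629385)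 (nat_lit 76) (nat_lit 120566190) (nat_lit 151) (nat_lit 5) (nat_lit 166) (nat_lit 5) (nat_lit 152) (nat_lit 5) (nat_lit 328) (nat_lit 311) (nat_lit 141)) (XT.lf (nat_lit 0) (nat_lit 7140450439) (nat_lit 1140) (nat_lit 8051506582) (nat_lit 76) (nat_lit 9546098995) (nat_lit 151) (nat_lit 5) (nat_lit 166) (nat_lit 5) (nat_lit 152) (nat_lit 5) (nat_lit 329) (nat_lit 311) (nat_lit 140)))) (XT.nd (nat_lit 78) (nat_lit 532) (nat_lit 0) (XT.lf (nat_lit 0) (nat_lit 3032337808) (nat_lit 836) (nat_lit 5872196735) (nat_lit 912) (nat_lit 16251933491) (nat_lit 140) (nat_lit 5) (nat_lit 151) (nat_lit 5) (nat_lit 152) (nat_lit 5) (nat_lit 330) (nat_lit 311) (nat_lit 139)) (XT.nd (nat_lit 78) (nat_lit 532) (nat_lit 0) (XT.lf (nat_lit 0) (nat_lit 10835319955) (nat_lit 912) (nat_lit 11011646973) (nat_lit 76) (nat_lit 3737060574) (nat_lit 140) (nat_lit 5) (nat_lit 152) (nat_lit 5) (nat_lit 141) (nat_lit 5) (nat_lit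 331) (nat_lit 311) (nat_lit 138)) (XT.lf (nat_lit 0) (nat_lit 379825165) (nat_lit 532) (nat_lit 12501958209) (nat_lit 608) (nat_lit 13140905954) (nat_lit 133) (nat_lit 5) (nat_lit 140) (nat_lit 5) (nat_lit 141) (nat_lit 5) (nat_lit 332) (nat_lit 311) (nat_lit 137))))) (XT.nd (nat_lit 234) (nat_lit 456) (nat_lit 0) (XT.nd (nat_lit 78) (nat_lit 532) (nat_lit 0) (XT.lf (nat_lit 0) (nat_lit 12335148476) (nat_lit 532) (nat_lit 2761733813) (nat_lit 608) (nat_lit 11374419437) (nat_lit 133) (nat_lit 5) (nat_lit 140) (nat_lit 5) (nat_lit 141) (nat_lit 5) (nat_lit 333) (nat_lit 311) (nat_lit 136)) (XT.nd (nat_lit 78) (nat_lit 532) (nat_lit 0) (XT.lf (nat_lit 0) (nat_lit 17444488407) (nat_lit 608) (nat_lit 2357772919) (nat_lit 76) (nat_lit 7129137279) (nat_lit 133) (nat_lit 5) (nat_lit 141) (nat_lit 5) (nat_lit 134) (nat_lit 5) (nat_lit 334) (nat_lit 311) (nat_lit 135)) (XT.lf (nat_lit 0) (nat_lit 9936985852)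 (nat_lit 532) (nat_lit 10044676717) (nat_lit 608) (nat_lit 7420069136) (nat_lit 126) (nat_lit 5) (nat_lit 133) (nat_lit 5) (nat_lit 134) (nat_lit 5) (nat_lit 335) (nat_lit 311) (nat_lit 134)))) (XT.nd (nat_lit 78) (nat_lit 456) (nat_lit 0) (XT.lf (nat_lit 0) (nat_lit 22615402577) (nat_lit 608) (nat_lit 5240450017) (nat_lit 76) (nat_lit 29715977) (nat_lit 126) (nat_lit 5) (nat_lit 134) (nat_lit 5) (nat_lit 127) (nat_lit 5) (nat_lit 336) (nat_lit 311) (nat_lit 133)) (XT.nd (nat_lit 78) (nat_lit 0) (nat_lit 0) (XT.lf (nat_lit 0) (nat_lit 7391850481) (nat_lit 456) (nat_lit 18103269626) (nat_lit 532) (nat_lit 2883798555) (nat_lit 120) (nat_lit 5) (nat_lit 126) (nat_lit 5) (nat_lit 127) (nat_lit 5) (nat_lit 337) (nat_lit 311) (nat_lit 132)) (XT.lf (nat_lit 0) (nat_lit 20507064935) (nat_lit 456) (nat_lit 8003610307) (nat_lit 532) (nat_lit 374917504) (nat_lit 120) (nat_lit 5) (nat_lit 126) (nat_lit 5)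 (nat_lit 127) (nat_lit 5) (nat_lit 338) (nat_lit 311) (nat_lit 131))))))) (XT.nd (nat_lit 936) (nat_lit 1672) (nat_lit 0) (XT.nd (nat_lit 468) (nat_lit 1216) (nat_lit 0) (XT.nd (nat_lit 234) (nat_lit 456) (nat_lit 0) (XT.nd (nat_lit 78) (nat_lit 456) (nat_lit 0) (XT.lf (nat_lit 0) (nat_lit 2231361841) (nat_lit 608) (nat_lit 24754504117) (nat_lit 76) (nat_lit 2419013221) (nat_lit 112) (nat_lit 5) (nat_lit 120) (nat_lit 5) (nat_lit 113) (nat_lit 5) (nat_lit 339) (nat_lit 311) (nat_lit 130)) (XT.nd (nat_lit 78) (nat_lit 456) (nat_lit 0) (XT.lf (nat_lit 0) (nat_lit 5069636957) (nat_lit 608) (nat_lit 11782627033) (nat_lit 76) (nat_lit 13082534858) (nat_lit 112) (nat_lit 5) (nat_lit 120) (nat_lit 5) (nat_lit 113) (nat_lit 5) (nat_lit 340) (nat_lit 311) (nat_lit 129)) (XT.lf (nat_lit 0) (nat_lit 1606330050) (nat_lit 456) (nat_lit 6398923538) (nat_lit 532) (nat_lit 22475002827) (nat_lit 106) (nat_lit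 5) (nat_lit 112) (nat_lit 5) (nat_lit 113) (nat_lit 5) (nat_lit 341) (nat_lit 311) (nat_lit 128)))) (XT.nd (nat_lit 78) (nat_lit 456) (nat_lit 0) (XT.lf (nat_lit 0) (nat_lit 11187898552) (nat_lit 532) (nat_lit 15446673814) (nat_lit 76) (nat_lit 4402742476) (nat_lit 106) (nat_lit 5) (nat_lit 113) (nat_lit 5) (nat_lit 107) (nat_lit 5) (nat_lit 342) (nat_lit 311) (nat_lit 127)) (XT.nd (nat_lit 78) (nat_lit 456) (nat_lit 0) (XT.lf (nat_lit 0) (nat_lit 14526283704) (nat_lit 532) (nat_lit 1683345394) (nat_lit 76) (nat_lit 15399653855) (nat_lit 106) (nat_lit 5) (nat_lit 113) (nat_lit 5) (nat_lit 107) (nat_lit 5) (nat_lit 343) (nat_lit 311) (nat_lit 126)) (XT.lf (nat_lit 0) (nat_lit 12738162912) (nat_lit 456) (nat_lit 5346099816) (nat_lit 532) (nat_lit 14110569698) (nat_lit 100) (nat_lit 5) (nat_lit 106) (nat_lit 5) (nat_lit 107) (nat_lit 5) (nat_lit 344) (nat_lit 311) (nat_lit 125))))) (XT.nd (nat_lit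 234) (nat_lit 836) (nat_lit 0) (XT.nd (nat_lit 78) (nat_lit 380) (nat_lit 0) (XT.lf (nat_lit 0) (nat_lit 21819366207) (nat_lit 532) (nat_lit 5230299155) (nat_lit 76) (nat_lit 5746176894) (nat_lit 100) (nat_lit 5) (nat_lit 107) (nat_lit 5) (nat_lit 101) (nat_lit 5) (nat_lit 345) (nat_lit 311) (nat_lit 124)) (XT.nd (nat_lit 78) (nat_lit 0) (nat_lit 0) (XT.lf (nat_lit 0) (nat_lit 9553097322) (nat_lit 380) (nat_lit 16255321907) (nat_lit 456) (nat_lit 7602211526) (nat_lit 95) (nat_lit 5) (nat_lit 100) (nat_lit 5) (nat_lit 101) (nat_lit 5) (nat_lit 346) (nat_lit 311) (nat_lit 123)) (XT.lf (nat_lit 0) (nat_lit 24883994900) (nat_lit 380) (nat_lit 5083151789) (nat_lit 456) (nat_lit 4075221249) (nat_lit 95) (nat_lit 5) (nat_lit 100) (nat_lit 5) (nat_lit 101) (nat_lit 5) (nat_lit 347) (nat_lit 311) (nat_lit 122)))) (XT.nd (nat_lit 78) (nat_lit 456) (nat_lit 0) (XT.lf (nat_lit 0) (nat_lit 6034558733) (nat_lit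 380) (nat_lit 28333103532) (nat_lit 456) (nat_lit 321889146) (nat_lit 90) (nat_lit 5) (nat_lit 95) (nat_lit 5) (nat_lit 96) (nat_lit 5) (nat_lit 348) (nat_lit 311) (nat_lit 121)) (XT.nd (nat_lit 78) (nat_lit 380) (nat_lit 0) (XT.lf (nat_lit 0) (nat_lit 3615894441) (nat_lit 456) (nat_lit 13570904769) (nat_lit 76) (nat_lit 18164103577) (nat_lit 89) (nat_lit 5) (nat_lit 95) (nat_lit 5) (nat_lit 90) (nat_lit 5) (nat_lit 349) (nat_lit 311) (nat_lit 120)) (XT.lf (nat_lit 0) (nat_lit 1998374878) (nat_lit 380) (nat_lit 5683538801) (nat_lit 456) (nat_lit 28349592805) (nat_lit 84) (nat_lit 5) (nat_lit 89) (nat_lit 5) (nat_lit 90) (nat_lit 5) (nat_lit 350) (nat_lit 311) (nat_lit 119)))))) (XT.nd (nat_lit 468) (nat_lit 988) (nat_lit 0) (XT.nd (nat_lit 234) (nat_lit 304) (nat_lit 0) (XT.nd (nat_lit 78) (nat_lit 380) (nat_lit 0) (XT.lf (nat_lit 0) (nat_lit 12064974031) (nat_lit 456) (nat_lit 18479296541) (nat_lit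 76) (nat_lit 6182410314) (nat_lit 84) (nat_lit 5) (nat_lit 90) (nat_lit 5) (nat_lit 85) (nat_lit 5) (nat_lit 351) (nat_lit 311) (nat_lit 118)) (XT.nd (nat_lit 78) (nat_lit 380) (nat_lit 0) (XT.lf (nat_lit 0) (nat_lit 16633278626) (nat_lit 456) (nat_lit 2518212048) (nat_lit 76) (nat_lit 18289611557) (nat_lit 84) (nat_lit 5) (nat_lit 90) (nat_lit 5) (nat_lit 85) (nat_lit 5) (nat_lit 352) (nat_lit 311) (nat_lit 117)) (XT.lf (nat_lit 0) (nat_lit 14195711567) (nat_lit 380) (nat_lit 7276931833) (nat_lit 456) (nat_lit 16700296643) (nat_lit 79) (nat_lit 5) (nat_lit 84) (nat_lit 5) (nat_lit 85) (nat_lit 5) (nat_lit 353) (nat_lit 311) (nat_lit 116)))) (XT.nd (nat_lit 78) (nat_lit 304) (nat_lit 0) (XT.lf (nat_lit 0) (nat_lit 26528079850) (nat_lit 456) (nat_lit 7514211816) (nat_lit 76) (nat_lit 4882318637) (nat_lit 79) (nat_lit 5) (nat_lit 85) (nat_lit 5) (nat_lit 80) (nat_lit 5) (nat_lit 354) (nat_lit 311)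 (nat_lit 115)) (XT.nd (nat_lit 78) (nat_lit 0) (nat_lit 0) (XT.lf (nat_lit 0) (nat_lit 9554126472) (nat_lit 304) (nat_lit 22342602432) (nat_lit 380) (nat_lit 7797259203) (nat_lit 75) (nat_lit 5) (nat_lit 79) (nat_lit 5) (nat_lit 80) (nat_lit 5) (nat_lit 355) (nat_lit 311) (nat_lit 114)) (XT.lf (nat_lit 0) (nat_lit 27285622399) (nat_lit 304) (nat_lit 10214394414) (nat_lit 380) (nat_lit 2984226855) (nat_lit 75) (nat_lit 5) (nat_lit 79) (nat_lit 5) (nat_lit 80) (nat_lit 5) (nat_lit 356) (nat_lit 311) (nat_lit 113))))) (XT.nd (nat_lit 234) (nat_lit 608) (nat_lit 0) (XT.nd (nat_lit 78) (nat_lit 0) (nat_lit 0) (XT.lf (nat_lit 0) (nat_lit 1996381382) (nat_lit 380) (nat_lit 37005787536) (nat_lit 76) (nat_lit 2293621863) (nat_lit 70) (nat_lit 5) (nat_lit 75) (nat_lit 5) (nat_lit 71) (nat_lit 5) (nat_lit 357) (nat_lit 311) (nat_lit 112)) (XT.nd (nat_lit 78) (nat_lit 0) (nat_lit 0) (XT.lf (nat_lit 0) (nat_lit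 7299934207) (nat_lit 380) (nat_lit 19688764994) (nat_lit 76) (nat_lit 15135096997) (nat_lit 70) (nat_lit 5) (nat_lit 75) (nat_lit 5) (nat_lit 71) (nat_lit 5) (nat_lit 358) (nat_lit 311) (nat_lit 111)) (XT.lf (nat_lit 0) (nat_lit 12760432379) (nat_lit 380) (nat_lit 1855071929) (nat_lit 76) (nat_lit 28361205686) (nat_lit 70) (nat_lit 5) (nat_lit 75) (nat_lit 5) (nat_lit 71) (nat_lit 5) (nat_lit 359) (nat_lit 311) (nat_lit 110)))) (XT.nd (nat_lit 78) (nat_lit 304) (nat_lit 0) (XT.lf (nat_lit 0) (nat_lit 16839473272) (nat_lit 304) (nat_lit 1705045254) (nat_lit 380) (nat_lit 25305902770) (nat_lit 66) (nat_lit 5) (nat_lit 70) (nat_lit 5) (nat_lit 71) (nat_lit 5) (nat_lit 360) (nat_lit 311) (nat_lit 109)) (XT.nd (nat_lit 78) (nat_lit 304) (nat_lit 0) (XT.lf (nat_lit 0) (nat_lit 24630411876) (nat_lit 380) (nat_lit 8731310911) (nat_lit 76) (nat_lit 11384775798) (nat_lit 66) (nat_lit 5) (nat_lit 71) (nat_lit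 5) (nat_lit 67) (nat_lit 5) (nat_lit 361) (nat_lit 311) (nat_lit 108)) (XT.lf (nat_lit 0) (nat_lit 10277680403) (nat_lit 304) (nat_lit 20734869066) (nat_lit 380) (nat_lit 14653501795) (nat_lit 62) (nat_lit 5) (nat_lit 66) (nat_lit 5) (nat_lit 67) (nat_lit 5) (nat_lit 362) (nat_lit 311) (nat_lit 107))))))))
noncomputable def xc226 : XT := (XT.nd (nat_lit 37206) (nat_lit 0) (nat_lit 5396) (XT.nd (nat_lit 858) (nat_lit 456) (nat_lit 0) (XT.nd (nat_lit 390) (nat_lit 532) (nat_lit 0) (XT.nd (nat_lit 156) (nat_lit 380) (nat_lit 0) (XT.nd (nat_lit 78) (nat_lit 228) (nat_lit 0) (XT.lf (nat_lit 0) (nat_lit 30033243477) (nat_lit 304) (nat_lit 7639100045) (nat_lit 380) (nat_lit 8938264236) (nat_lit 62) (nat_lit 5) (nat_lit 66) (nat_lit 5) (nat_lit 67) (nat_lit 5) (nat_lit 363) (nat_lit 311) (nat_lit 106)) (XT.lf (nat_lit 0) (nat_lit 2793599188) (nat_lit 228) (nat_lit 41819489581) (nat_lit 304) (nat_lit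 2967980371) (nat_lit 59) (nat_lit 5) (nat_lit 62) (nat_lit 5) (nat_lit 63) (nat_lit 5) (nat_lit 364) (nat_lit 311) (nat_lit 105))) (XT.nd (nat_lit 78) (nat_lit 304) (nat_lit 0) (XT.lf (nat_lit 0) (nat_lit 3362105619) (nat_lit 304) (nat_lit 25600656825) (nat_lit 76) (nat_lit 19609683986) (nat_lit 58) (nat_lit 5) (nat_lit 62) (nat_lit 5) (nat_lit 59) (nat_lit 5) (nat_lit 365) (nat_lit 311) (nat_lit 104)) (XT.nd (nat_lit 78) (nat_lit 304) (nat_lit 0) (XT.lf (nat_lit 0) (nat_lit 9820580018) (nat_lit 304) (nat_lit 5870219381) (nat_lit 76) (nat_lit 33901942553) (nat_lit 58) (nat_lit 5) (nat_lit 62) (nat_lit 5) (nat_lit 59) (nat_lit 5) (nat_lit 366) (nat_lit 311) (nat_lit 103)) (XT.lf (nat_lit 0) (nat_lit 14737188234) (nat_lit 304) (nat_lit 1875476772) (nat_lit 380) (nat_lit 34026788232) (nat_lit 54) (nat_lit 5) (nat_lit 58) (nat_lit 5) (nat_lit 59) (nat_lit 5) (nat_lit 367) (nat_lit 311) (nat_lit 102)))))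 (XT.nd (nat_lit 234) (nat_lit 304) (nat_lit 0) (XT.nd (nat_lit 78) (nat_lit 228) (nat_lit 0) (XT.lf (nat_lit 0) (nat_lit 23785349554) (nat_lit 380) (nat_lit 15754522615) (nat_lit 76) (nat_lit 12172391100) (nat_lit 54) (nat_lit 5) (nat_lit 59) (nat_lit 5) (nat_lit 55) (nat_lit 5) (nat_lit 368) (nat_lit 311) (nat_lit 101)) (XT.nd (nat_lit 78) (nat_lit 0) (nat_lit 0) (XT.lf (nat_lit 0) (nat_lit 5075658560) (nat_lit 228) (nat_lit 26163182724) (nat_lit 304) (nat_lit 21576449961) (nat_lit 51) (nat_lit 5) (nat_lit 54) (nat_lit 5) (nat_lit 55) (nat_lit 5) (nat_lit 369) (nat_lit 311) (nat_lit 100)) (XT.lf (nat_lit 0) (nat_lit 26851252855) (nat_lit 228) (nat_lit 12222068903) (nat_lit 304) (nat_lit 14873369153) (nat_lit 51) (nat_lit 5) (nat_lit 54) (nat_lit 5) (nat_lit 55) (nat_lit 5) (nat_lit 370) (nat_lit 311) (nat_lit 99)))) (XT.nd (nat_lit 78) (nat_lit 304) (nat_lit 0) (XT.lf (nat_lit 0) (nat_lit 47161718466)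 (nat_lit 304) (nat_lit 5854880890) (nat_lit 76) (nat_lit 2094869059) (nat_lit 51) (nat_lit 5) (nat_lit 55) (nat_lit 5) (nat_lit 52) (nat_lit 5) (nat_lit 371) (nat_lit 311) (nat_lit 98)) (XT.nd (nat_lit 78) (nat_lit 76) (nat_lit 0) (XT.lf (nat_lit 0) (nat_lit 16215966285) (nat_lit 228) (nat_lit 39552074591) (nat_lit 304) (nat_lit 534892388) (nat_lit 48) (nat_lit 5) (nat_lit 51) (nat_lit 5) (nat_lit 52) (nat_lit 5) (nat_lit 372) (nat_lit 311) (nat_lit 97)) (XT.lf (nat_lit 0) (nat_lit 7021917710) (nat_lit 304) (nat_lit 18530627392) (nat_lit 76) (nat_lit 31973807870) (nat_lit 47) (nat_lit 5) (nat_lit 51) (nat_lit 5) (nat_lit 48) (nat_lit 5) (nat_lit 373) (nat_lit 311) (nat_lit 96)))))) (XT.nd (nat_lit 35880) (nat_lit 0) (nat_lit 8968) (XT.nd (nat_lit 234) (nat_lit 228) (nat_lit 0) (XT.nd (nat_lit 78) (nat_lit 0) (nat_lit 0) (XT.lf (nat_lit 0) (nat_lit 3737753037) (nat_lit 228) (nat_lit 11091296901)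 (nat_lit 304) (nat_lit 43956237441) (nat_lit 44) (nat_lit 5) (nat_lit 47) (nat_lit 5) (nat_lit 48) (nat_lit 5) (nat_lit 374) (nat_lit 311) (nat_lit 95)) (XT.nd (nat_lit 78) (nat_lit 0) (nat_lit 0) (XT.lf (nat_lit 0) (nat_lit 23094391888) (nat_lit 304) (nat_lit 33063057631) (nat_lit 76) (nat_lit 3917822411) (nat_lit 44) (nat_lit 5) (nat_lit 48) (nat_lit 5) (nat_lit 45) (nat_lit 5) (nat_lit 375) (nat_lit 311) (nat_lit 94)) (XT.lf (nat_lit 0) (nat_lit 31716009603) (nat_lit 304) (nat_lit 10531103217) (nat_lit 76) (nat_lit 19153595662) (nat_lit 44) (nat_lit 5) (nat_lit 48) (nat_lit 5) (nat_lit 45) (nat_lit 5) (nat_lit 376) (nat_lit 311) (nat_lit 93)))) (XT.nd (nat_lit 78) (nat_lit 0) (nat_lit 0) (XT.lf (nat_lit 0) (nat_lit 12926883401) (nat_lit 228) (nat_lit 27792197912) (nat_lit 304) (nat_lit 22043144524) (nat_lit 41) (nat_lit 5) (nat_lit 44) (nat_lit 5) (nat_lit 45) (nat_lit 5) (nat_lit 377) (nat_lit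 311) (nat_lit 92)) (XT.nd (nat_lit 35490) (nat_lit 0) (nat_lit 8968) (XT.lf (nat_lit 0) (nat_lit 37302331765) (nat_lit 228) (nat_lit 12794822939) (nat_lit 304) (nat_lit 14064288542) (nat_lit 41) (nat_lit 5) (nat_lit 44) (nat_lit 5) (nat_lit 45) (nat_lit 5) (nat_lit 378) (nat_lit 311) (nat_lit 91)) (XT.lf (nat_lit 0) (nat_lit 6062279103) (nat_lit 1140) (nat_lit 1776774225) (nat_lit 1140) (nat_lit 1776774225) (nat_lit 159) (nat_lit 3) (nat_lit 174) (nat_lit 3) (nat_lit 174) (nat_lit 5) (nat_lit 312) (nat_lit 312) (nat_lit 156))))) (XT.nd (nat_lit 234) (nat_lit 0) (nat_lit 76) (XT.nd (nat_lit 78) (nat_lit 0) (nat_lit 76) (XT.lf (nat_lit 76) (nat_lit 4675544141) (nat_lit 0) (nat_lit 7838536503) (nat_lit 1140) (nat_lit 6999461693) (nat_lit 160) (nat_lit 5) (nat_lit 159) (nat_lit 3) (nat_lit 174) (nat_lit 5) (nat_lit 313) (nat_lit 312) (nat_lit 155)) (XT.nd (nat_lit 78) (nat_lit 0) (nat_lit 0) (XT.lf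 (nat_lit 0) (nat_lit 12947445589) (nat_lit 1064) (nat_lit 6584659058) (nat_lit 1140) (nat_lit 270830803) (nat_lit 160) (nat_lit 5) (nat_lit 174) (nat_lit 5) (nat_lit 175) (nat_lit 5) (nat_lit 314) (nat_lit 312) (nat_lit 154)) (XT.lf (nat_lit 76) (nat_lit 1871722035) (nat_lit 0) (nat_lit 11611522873) (nat_lit 1140) (nat_lit 6615096008) (nat_lit 161) (nat_lit 5) (nat_lit 160) (nat_lit 5) (nat_lit 175) (nat_lit 5) (nat_lit 315) (nat_lit 312) (nat_lit 153)))) (XT.nd (nat_lit 78) (nat_lit 0) (nat_lit 76) (XT.lf (nat_lit 76) (nat_lit 10713334680) (nat_lit 0) (nat_lit 3382254283) (nat_lit 1140) (nat_lit 6305218630) (nat_lit 161) (nat_lit 5) (nat_lit 160) (nat_lit 5) (nat_lit 175) (nat_lit 5) (nat_lit 316) (nat_lit 312) (nat_lit 152)) (XT.nd (nat_lit 78) (nat_lit 0) (nat_lit 0) (XT.lf (nat_lit 0) (nat_lit 14769447042) (nat_lit 1064) (nat_lit 944669216) (nat_lit 1140) (nat_lit 4996950487) (nat_lit 161)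 (nat_lit 5) (nat_lit 175) (nat_lit 5) (nat_lit 176) (nat_lit 5) (nat_lit 317) (nat_lit 312) (nat_lit 151)) (XT.lf (nat_lit 76) (nat_lit 8183166364) (nat_lit 0) (nat_lit 7386851426) (nat_lit 1140) (nat_lit 5457433386) (nat_lit 162) (nat_lit 5) (nat_lit 161) (nat_lit 5) (nat_lit 176) (nat_lit 5) (nat_lit 318) (nat_lit 312) (nat_lit 150))))))) (XT.nd (nat_lit 858) (nat_lit 2812) (nat_lit 0) (XT.nd (nat_lit 390) (nat_lit 988) (nat_lit 0) (XT.nd (nat_lit 156) (nat_lit 0) (nat_lit 0) (XT.nd (nat_lit 78) (nat_lit 0) (nat_lit 0) (XT.lf (nat_lit 0) (nat_lit 16410180378) (nat_lit 1064) (nat_lit 3763986566) (nat_lit 1140) (nat_lit 1178705006) (nat_lit 162) (nat_lit 5) (nat_lit 176) (nat_lit 5) (nat_lit 177) (nat_lit 5) (nat_lit 319) (nat_lit 312) (nat_lit 149)) (XT.lf (nat_lit 76) (nat_lit 5621778091) (nat_lit 0) (nat_lit 11775606796) (nat_lit 1140) (nat_lit 4287027050) (nat_lit 163) (nat_lit 5) (nat_lit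 162) (nat_lit 5) (nat_lit 177) (nat_lit 5) (nat_lit 320) (nat_lit 312) (nat_lit 148))) (XT.nd (nat_lit 78) (nat_lit 0) (nat_lit 76) (XT.lf (nat_lit 76) (nat_lit 15362801566) (nat_lit 0) (nat_lit 3084194938) (nat_lit 1140) (nat_lit 3577929248) (nat_lit 163) (nat_lit 5) (nat_lit 162) (nat_lit 5) (nat_lit 177) (nat_lit 5) (nat_lit 321) (nat_lit 312) (nat_lit 147)) (XT.nd (nat_lit 78) (nat_lit 0) (nat_lit 0) (XT.lf (nat_lit 76) (nat_lit 3019362665) (nat_lit 0) (nat_lit 16589114540) (nat_lit 1140) (nat_lit 2764777383) (nat_lit 164) (nat_lit 5) (nat_lit 163) (nat_lit 5) (nat_lit 178) (nat_lit 5) (nat_lit 322) (nat_lit 312) (nat_lit 146)) (XT.lf (nat_lit 76) (nat_lit 13093201299) (nat_lit 0) (nat_lit 7804176270) (nat_lit 1140) (nat_lit 1831889172) (nat_lit 164) (nat_lit 5) (nat_lit 163) (nat_lit 5) (nat_lit 178) (nat_lit 5) (nat_lit 323) (nat_lit 312) (nat_lit 145))))) (XT.nd (nat_lit 234) (nat_lit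 0) (nat_lit 76) (XT.nd (nat_lit 78) (nat_lit 1140) (nat_lit 0) (XT.lf (nat_lit 76) (nat_lit 364874216) (nat_lit 0) (nat_lit 21870759873) (nat_lit 1140) (nat_lit 860014890) (nat_lit 165) (nat_lit 5) (nat_lit 164) (nat_lit 5) (nat_lit 179) (nat_lit 5) (nat_lit 324) (nat_lit 312) (nat_lit 144)) (XT.nd (nat_lit 78) (nat_lit 0) (nat_lit 0) (XT.lf (nat_lit 0) (nat_lit 309071385) (nat_lit 1140) (nat_lit 12689968979) (nat_lit 1216) (nat_lit 10468827229) (nat_lit 149) (nat_lit 5) (nat_lit 164) (nat_lit 5) (nat_lit 165) (nat_lit 5) (nat_lit 325) (nat_lit 312) (nat_lit 143)) (XT.lf (nat_lit 0) (nat_lit 1491352207) (nat_lit 1140) (nat_lit 2359997122) (nat_lit 1216) (nat_lit 19999795276) (nat_lit 149) (nat_lit 5) (nat_lit 164) (nat_lit 5) (nat_lit 165) (nat_lit 5) (nat_lit 326) (nat_lit 312) (nat_lit 142)))) (XT.nd (nat_lit 78) (nat_lit 0) (nat_lit 0) (XT.lf (nat_lit 0) (nat_lit 2840146984) (nat_lit 1140)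 (nat_lit 15856840284) (nat_lit 1216) (nat_lit 5545010531) (nat_lit 150) (nat_lit 5) (nat_lit 165) (nat_lit 5) (nat_lit 166) (nat_lit 5) (nat_lit 327) (nat_lit 312) (nat_lit 141)) (XT.nd (nat_lit 78) (nat_lit 0) (nat_lit 76) (XT.lf (nat_lit 0) (nat_lit 4287252556) (nat_lit 1140) (nat_lit 5184740538) (nat_lit 1216) (nat_lit 15170857054) (nat_lit 150) (nat_lit 5) (nat_lit 165) (nat_lit 5) (nat_lit 166) (nat_lit 5) (nat_lit 328) (nat_lit 312) (nat_lit 140)) (XT.lf (nat_lit 0) (nat_lit 5831305021) (nat_lit 1140) (nat_lit 19135430335) (nat_lit 76) (nat_lit 87395405) (nat_lit 151) (nat_lit 5) (nat_lit 166) (nat_lit 5) (nat_lit 152) (nat_lit 5) (nat_lit 329) (nat_lit 312) (nat_lit 139)))))) (XT.nd (nat_lit 468) (nat_lit 1596) (nat_lit 0) (XT.nd (nat_lit 234) (nat_lit 532) (nat_lit 0) (XT.nd (nat_lit 78) (nat_lit 836) (nat_lit 0) (XT.lf (nat_lit 0) (nat_lit 7564206637) (nat_lit 1140) (nat_lit 8112510098)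 (nat_lit 76) (nat_lit 9796765683) (nat_lit 151) (nat_lit 5) (nat_lit 166) (nat_lit 5) (nat_lit 152) (nat_lit 5) (nat_lit 330) (nat_lit 312) (nat_lit 138)) (XT.nd (nat_lit 78) (nat_lit 0) (nat_lit 0) (XT.lf (nat_lit 0) (nat_lit 3302079608) (nat_lit 836) (nat_lit 6074748935) (nat_lit 912) (nat_lit 16527762291) (nat_lit 140) (nat_lit 5) (nat_lit 151) (nat_lit 5) (nat_lit 152) (nat_lit 5) (nat_lit 331) (nat_lit 312) (nat_lit 137)) (XT.lf (nat_lit 0) (nat_lit 11359315789) (nat_lit 912) (nat_lit 11161805559) (nat_lit 76) (nat_lit 3824054521) (nat_lit 140) (nat_lit 5) (nat_lit 152) (nat_lit 5) (nat_lit 141) (nat_lit 5) (nat_lit 332) (nat_lit 312) (nat_lit 136)))) (XT.nd (nat_lit 78) (nat_lit 0) (nat_lit 0) (XT.lf (nat_lit 0) (nat_lit 569644166) (nat_lit 532) (nat_lit 12893449807) (nat_lit 608) (nat_lit 13334037727) (nat_lit 133) (nat_lit 5) (nat_lit 140) (nat_lit 5) (nat_lit 141) (nat_lit 5) (nat_lit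 333) (nat_lit 312) (nat_lit 135)) (XT.nd (nat_lit 78) (nat_lit 0) (nat_lit 0) (XT.lf (nat_lit 0) (nat_lit 12878430354) (nat_lit 532) (nat_lit 2860540053) (nat_lit 608) (nat_lit 11520413762) (nat_lit 133) (nat_lit 5) (nat_lit 140) (nat_lit 5) (nat_lit 141) (nat_lit 5) (nat_lit 334) (nat_lit 312) (nat_lit 134)) (XT.lf (nat_lit 0) (nat_lit 18151345669) (nat_lit 608) (nat_lit 2254295045) (nat_lit 76) (nat_lit 7327824115) (nat_lit 133) (nat_lit 5) (nat_lit 141) (nat_lit 5) (nat_lit 134) (nat_lit 5) (nat_lit 335) (nat_lit 312) (nat_lit 133))))) (XT.nd (nat_lit 234) (nat_lit 608) (nat_lit 0) (XT.nd (nat_lit 78) (nat_lit 456) (nat_lit 0) (XT.lf (nat_lit 0) (nat_lit 10407598538) (nat_lit 532) (nat_lit 10353349404) (nat_lit 608) (nat_lit 7457081371) (nat_lit 126) (nat_lit 5) (nat_lit 133) (nat_lit 5) (nat_lit 134) (nat_lit 5) (nat_lit 336) (nat_lit 312) (nat_lit 132)) (XT.nd (nat_lit 78) (nat_lit 456)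 (nat_lit 0) (XT.lf (nat_lit 0) (nat_lit 23468393793) (nat_lit 608) (nat_lit 5224529598) (nat_lit 76) (nat_lit 23627550) (nat_lit 126) (nat_lit 5) (nat_lit 134) (nat_lit 5) (nat_lit 127) (nat_lit 5) (nat_lit 337) (nat_lit 312) (nat_lit 131)) (XT.lf (nat_lit 0) (nat_lit 7785042524) (nat_lit 456) (nat_lit 18646024904) (nat_lit 532) (nat_lit 2793747328) (nat_lit 120) (nat_lit 5) (nat_lit 126) (nat_lit 5) (nat_lit 127) (nat_lit 5) (nat_lit 338) (nat_lit 312) (nat_lit 130)))) (XT.nd (nat_lit 78) (nat_lit 608) (nat_lit 0) (XT.lf (nat_lit 0) (nat_lit 21288720114) (nat_lit 456) (nat_lit 8243385791) (nat_lit 532) (nat_lit 214742520) (nat_lit 120) (nat_lit 5) (nat_lit 126) (nat_lit 5) (nat_lit 127) (nat_lit 5) (nat_lit 339) (nat_lit 312) (nat_lit 129)) (XT.nd (nat_lit 78) (nat_lit 0) (nat_lit 0) (XT.lf (nat_lit 0) (nat_lit 2463138799) (nat_lit 608) (nat_lit 25323480471) (nat_lit 76) (nat_lit 2495151285)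 (nat_lit 112) (nat_lit 5) (nat_lit 120) (nat_lit 5) (nat_lit 113) (nat_lit 5) (nat_lit 340) (nat_lit 312) (nat_lit 128)) (XT.lf (nat_lit 0) (nat_lit 5381761117) (nat_lit 608) (nat_lit 11967505097) (nat_lit 76) (nat_lit 13478474658) (nat_lit 112) (nat_lit 5) (nat_lit 120) (nat_lit 5) (nat_lit 113) (nat_lit 5) (nat_lit 341) (nat_lit 312) (nat_lit 127))))))))
noncomputable def xc227 : XT := (XT.nd (nat_lit 1794) (nat_lit 1368) (nat_lit 0) (XT.nd (nat_lit 858) (nat_lit 1672) (nat_lit 0) (XT.nd (nat_lit 390) (nat_lit 1216) (nat_lit 0) (XT.nd (nat_lit 156) (nat_lit 456) (nat_lit 0) (XT.nd (nat_lit 78) (nat_lit 0) (nat_lit 0) (XT.lf (nat_lit 0) (nat_lit 1821467750) (nat_lit 456) (nat_lit 6580922086) (nat_lit 532) (nat_lit 22987272786) (nat_lit 106) (nat_lit 5) (nat_lit 112) (nat_lit 5) (nat_lit 113) (nat_lit 5) (nat_lit 342) (nat_lit 312) (nat_lit 126)) (XT.lf (nat_lit 0) (nat_lit 11676034994) (nat_lit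 532) (nat_lit 15743226015) (nat_lit 76) (nat_lit 4544314677) (nat_lit 106) (nat_lit 5) (nat_lit 113) (nat_lit 5) (nat_lit 107) (nat_lit 5) (nat_lit 343) (nat_lit 312) (nat_lit 125))) (XT.nd (nat_lit 78) (nat_lit 456) (nat_lit 0) (XT.lf (nat_lit 0) (nat_lit 15110129968) (nat_lit 532) (nat_lit 1571857392) (nat_lit 76) (nat_lit 15870856992) (nat_lit 106) (nat_lit 5) (nat_lit 113) (nat_lit 5) (nat_lit 107) (nat_lit 5) (nat_lit 344) (nat_lit 312) (nat_lit 124)) (XT.nd (nat_lit 78) (nat_lit 0) (nat_lit 0) (XT.lf (nat_lit 0) (nat_lit 13280708041) (nat_lit 456) (nat_lit 5491369825) (nat_lit 532) (nat_lit 14383973578) (nat_lit 100) (nat_lit 5) (nat_lit 106) (nat_lit 5) (nat_lit 107) (nat_lit 5) (nat_lit 345) (nat_lit 312) (nat_lit 123)) (XT.lf (nat_lit 0) (nat_lit 22615143826) (nat_lit 532) (nat_lit 5227129565) (nat_lit 76) (nat_lit 5932948683) (nat_lit 100) (nat_lit 5) (nat_lit 107) (nat_lit 5) (nat_lit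 101) (nat_lit 5) (nat_lit 346) (nat_lit 312) (nat_lit 122))))) (XT.nd (nat_lit 234) (nat_lit 456) (nat_lit 0) (XT.nd (nat_lit 78) (nat_lit 380) (nat_lit 0) (XT.lf (nat_lit 0) (nat_lit 9998199408) (nat_lit 380) (nat_lit 16723080194) (nat_lit 456) (nat_lit 7687259851) (nat_lit 95) (nat_lit 5) (nat_lit 100) (nat_lit 5) (nat_lit 101) (nat_lit 5) (nat_lit 347) (nat_lit 312) (nat_lit 121)) (XT.nd (nat_lit 78) (nat_lit 380) (nat_lit 0) (XT.lf (nat_lit 0) (nat_lit 25784407142) (nat_lit 380) (nat_lit 5216324624) (nat_lit 456) (nat_lit 4058625439) (nat_lit 95) (nat_lit 5) (nat_lit 100) (nat_lit 5) (nat_lit 101) (nat_lit 5) (nat_lit 348) (nat_lit 312) (nat_lit 120)) (XT.lf (nat_lit 0) (nat_lit 6372035023) (nat_lit 380) (nat_lit 29158992367) (nat_lit 456) (nat_lit 195002981) (nat_lit 90) (nat_lit 5) (nat_lit 95) (nat_lit 5) (nat_lit 96) (nat_lit 5) (nat_lit 349) (nat_lit 312) (nat_lit 119)))) (XT.nd (nat_lit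 78) (nat_lit 380) (nat_lit 0) (XT.lf (nat_lit 0) (nat_lit 3854350301) (nat_lit 456) (nat_lit 13823338148) (nat_lit 76) (nat_lit 18729618161) (nat_lit 89) (nat_lit 5) (nat_lit 95) (nat_lit 5) (nat_lit 90) (nat_lit 5) (nat_lit 350) (nat_lit 312) (nat_lit 118)) (XT.nd (nat_lit 78) (nat_lit 0) (nat_lit 0) (XT.lf (nat_lit 0) (nat_lit 2211503283) (nat_lit 380) (nat_lit 5828533468) (nat_lit 456) (nat_lit 29068367587) (nat_lit 84) (nat_lit 5) (nat_lit 89) (nat_lit 5) (nat_lit 90) (nat_lit 5) (nat_lit 351) (nat_lit 312) (nat_lit 117)) (XT.lf (nat_lit 0) (nat_lit 12551108586) (nat_lit 456) (nat_lit 18881268383) (nat_lit 76) (nat_lit 6392167746) (nat_lit 84) (nat_lit 5) (nat_lit 90) (nat_lit 5) (nat_lit 85) (nat_lit 5) (nat_lit 352) (nat_lit 312) (nat_lit 116)))))) (XT.nd (nat_lit 468) (nat_lit 608) (nat_lit 0) (XT.nd (nat_lit 234) (nat_lit 684) (nat_lit 0) (XT.nd (nat_lit 78) (nat_lit 380) (nat_lit 0)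 (XT.lf (nat_lit 0) (nat_lit 17252845271) (nat_lit 456) (nat_lit 2445790395) (nat_lit 76) (nat_lit 18861877692) (nat_lit 84) (nat_lit 5) (nat_lit 90) (nat_lit 5) (nat_lit 85) (nat_lit 5) (nat_lit 353) (nat_lit 312) (nat_lit 115)) (XT.nd (nat_lit 78) (nat_lit 0) (nat_lit 0) (XT.lf (nat_lit 0) (nat_lit 14768100261) (nat_lit 380) (nat_lit 7467187442) (nat_lit 456) (nat_lit 17079087666) (nat_lit 79) (nat_lit 5) (nat_lit 84) (nat_lit 5) (nat_lit 85) (nat_lit 5) (nat_lit 354) (nat_lit 312) (nat_lit 114)) (XT.lf (nat_lit 0) (nat_lit 27439198614) (nat_lit 456) (nat_lit 7594006554) (nat_lit 76) (nat_lit 5055492024) (nat_lit 79) (nat_lit 5) (nat_lit 85) (nat_lit 5) (nat_lit 80) (nat_lit 5) (nat_lit 355) (nat_lit 312) (nat_lit 113)))) (XT.nd (nat_lit 78) (nat_lit 380) (nat_lit 0) (XT.lf (nat_lit 0) (nat_lit 9984954122) (nat_lit 304) (nat_lit 22981981628) (nat_lit 380) (nat_lit 7914285346) (nat_lit 75) (nat_lit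 5) (nat_lit 79) (nat_lit 5) (nat_lit 80) (nat_lit 5) (nat_lit 356) (nat_lit 312) (nat_lit 112)) (XT.nd (nat_lit 78) (nat_lit 380) (nat_lit 0) (XT.lf (nat_lit 0) (nat_lit 28244194814) (nat_lit 304) (nat_lit 10490827337) (nat_lit 380) (nat_lit 2960266638) (nat_lit 75) (nat_lit 5) (nat_lit 79) (nat_lit 5) (nat_lit 80) (nat_lit 5) (nat_lit 357) (nat_lit 312) (nat_lit 111)) (XT.lf (nat_lit 0) (nat_lit 2165963603) (nat_lit 380) (nat_lit 37971812841) (nat_lit 76) (nat_lit 2393425744) (nat_lit 70) (nat_lit 5) (nat_lit 75) (nat_lit 5) (nat_lit 71) (nat_lit 5) (nat_lit 358) (nat_lit 312) (nat_lit 110))))) (XT.nd (nat_lit 234) (nat_lit 304) (nat_lit 0) (XT.nd (nat_lit 78) (nat_lit 304) (nat_lit 0) (XT.lf (nat_lit 0) (nat_lit 7625428136) (nat_lit 380) (nat_lit 20139478117) (nat_lit 76) (nat_lit 15619242359) (nat_lit 70) (nat_lit 5) (nat_lit 75) (nat_lit 5) (nat_lit 71) (nat_lit 5) (nat_lit 359) (nat_lit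 312) (nat_lit 109)) (XT.nd (nat_lit 78) (nat_lit 304) (nat_lit 0) (XT.lf (nat_lit 0) (nat_lit 13246639431) (nat_lit 380) (nat_lit 1774850469) (nat_lit 76) (nat_lit 29241257829) (nat_lit 70) (nat_lit 5) (nat_lit 75) (nat_lit 5) (nat_lit 71) (nat_lit 5) (nat_lit 360) (nat_lit 312) (nat_lit 108)) (XT.lf (nat_lit 0) (nat_lit 17479198994) (nat_lit 304) (nat_lit 1723330985) (nat_lit 380) (nat_lit 25960196647) (nat_lit 66) (nat_lit 5) (nat_lit 70) (nat_lit 5) (nat_lit 71) (nat_lit 5) (nat_lit 361) (nat_lit 312) (nat_lit 107)))) (XT.nd (nat_lit 78) (nat_lit 304) (nat_lit 0) (XT.lf (nat_lit 0) (nat_lit 25468345419) (nat_lit 380) (nat_lit 8859820230) (nat_lit 76) (nat_lit 11757604800) (nat_lit 66) (nat_lit 5) (nat_lit 71) (nat_lit 5) (nat_lit 67) (nat_lit 5) (nat_lit 362) (nat_lit 312) (nat_lit 106)) (XT.nd (nat_lit 78) (nat_lit 0) (nat_lit 0) (XT.lf (nat_lit 0) (nat_lit 10718132686) (nat_lit 304) (nat_lit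 21322200378) (nat_lit 380) (nat_lit 14992629507) (nat_lit 62) (nat_lit 5) (nat_lit 66) (nat_lit 5) (nat_lit 67) (nat_lit 5) (nat_lit 363) (nat_lit 312) (nat_lit 105)) (XT.lf (nat_lit 0) (nat_lit 31062514443) (nat_lit 304) (nat_lit 7834569395) (nat_lit 380) (nat_lit 9108861346) (nat_lit 62) (nat_lit 5) (nat_lit 66) (nat_lit 5) (nat_lit 67) (nat_lit 5) (nat_lit 364) (nat_lit 312) (nat_lit 104))))))) (XT.nd (nat_lit 936) (nat_lit 0) (nat_lit 0) (XT.nd (nat_lit 468) (nat_lit 532) (nat_lit 0) (XT.nd (nat_lit 234) (nat_lit 532) (nat_lit 0) (XT.nd (nat_lit 78) (nat_lit 76) (nat_lit 0) (XT.lf (nat_lit 0) (nat_lit 3007054020) (nat_lit 228) (nat_lit 43037803745) (nat_lit 304) (nat_lit 2960702638) (nat_lit 59) (nat_lit 5) (nat_lit 62) (nat_lit 5) (nat_lit 63) (nat_lit 5) (nat_lit 365) (nat_lit 312) (nat_lit 103)) (XT.nd (nat_lit 78) (nat_lit 0) (nat_lit 0) (XT.lf (nat_lit 0) (nat_lit 3554655826) (nat_lit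 304) (nat_lit 26240849532) (nat_lit 76) (nat_lit 20231232343) (nat_lit 58) (nat_lit 5) (nat_lit 62) (nat_lit 5) (nat_lit 59) (nat_lit 5) (nat_lit 366) (nat_lit 312) (nat_lit 102)) (XT.lf (nat_lit 0) (nat_lit 10204213960) (nat_lit 304) (nat_lit 5922222081) (nat_lit 76) (nat_lit 34951289992) (nat_lit 58) (nat_lit 5) (nat_lit 62) (nat_lit 5) (nat_lit 59) (nat_lit 5) (nat_lit 367) (nat_lit 312) (nat_lit 101)))) (XT.nd (nat_lit 78) (nat_lit 228) (nat_lit 0) (XT.lf (nat_lit 0) (nat_lit 15302191058) (nat_lit 304) (nat_lit 1896458993) (nat_lit 380) (nat_lit 34957234669) (nat_lit 54) (nat_lit 5) (nat_lit 58) (nat_lit 5) (nat_lit 59) (nat_lit 5) (nat_lit 368) (nat_lit 312) (nat_lit 100)) (XT.nd (nat_lit 78) (nat_lit 228) (nat_lit 0) (XT.lf (nat_lit 0) (nat_lit 24584292805) (nat_lit 380) (nat_lit 16105507673) (nat_lit 76) (nat_lit 12571148855) (nat_lit 54) (nat_lit 5) (nat_lit 59) (nat_lit 5) (nat_lit 55)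 (nat_lit 5) (nat_lit 369) (nat_lit 312) (nat_lit 99)) (XT.lf (nat_lit 0) (nat_lit 5348386285) (nat_lit 228) (nat_lit 26911674041) (nat_lit 304) (nat_lit 22137051196) (nat_lit 51) (nat_lit 5) (nat_lit 54) (nat_lit 5) (nat_lit 55) (nat_lit 5) (nat_lit 370) (nat_lit 312) (nat_lit 98))))) (XT.nd (nat_lit 234) (nat_lit 304) (nat_lit 0) (XT.nd (nat_lit 78) (nat_lit 228) (nat_lit 0) (XT.lf (nat_lit 0) (nat_lit 27773739924) (nat_lit 228) (nat_lit 12553387121) (nat_lit 304) (nat_lit 15235402981) (nat_lit 51) (nat_lit 5) (nat_lit 54) (nat_lit 5) (nat_lit 55) (nat_lit 5) (nat_lit 371) (nat_lit 312) (nat_lit 97)) (XT.nd (nat_lit 78) (nat_lit 228) (nat_lit 0) (XT.lf (nat_lit 0) (nat_lit 48656128642) (nat_lit 304) (nat_lit 5914826977) (nat_lit 76) (nat_lit 2191359949) (nat_lit 51) (nat_lit 5) (nat_lit 55) (nat_lit 5) (nat_lit 52) (nat_lit 5) (nat_lit 372) (nat_lit 312) (nat_lit 96)) (XT.lf (nat_lit 0) (nat_lit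 16817011295) (nat_lit 228) (nat_lit 40702413467) (nat_lit 304) (nat_lit 470139289) (nat_lit 48) (nat_lit 5) (nat_lit 51) (nat_lit 5) (nat_lit 52) (nat_lit 5) (nat_lit 373) (nat_lit 312) (nat_lit 95)))) (XT.nd (nat_lit 78) (nat_lit 228) (nat_lit 0) (XT.lf (nat_lit 0) (nat_lit 7309490944) (nat_lit 304) (nat_lit 18973685500) (nat_lit 76) (nat_lit 32966558853) (nat_lit 47) (nat_lit 5) (nat_lit 51) (nat_lit 5) (nat_lit 48) (nat_lit 5) (nat_lit 374) (nat_lit 312) (nat_lit 94)) (XT.nd (nat_lit 78) (nat_lit 0) (nat_lit 0) (XT.lf (nat_lit 0) (nat_lit 3961639864) (nat_lit 228) (nat_lit 11388031261) (nat_lit 304) (nat_lit 45196804526) (nat_lit 44) (nat_lit 5) (nat_lit 47) (nat_lit 5) (nat_lit 48) (nat_lit 5) (nat_lit 375) (nat_lit 312) (nat_lit 93)) (XT.lf (nat_lit 0) (nat_lit 23861103050) (nat_lit 304) (nat_lit 33944484810) (nat_lit 76) (nat_lit 4069630839) (nat_lit 44) (nat_lit 5) (nat_lit 48) (nat_lit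 5) (nat_lit 45) (nat_lit 5) (nat_lit 376) (nat_lit 312) (nat_lit 92)))))) (XT.nd (nat_lit 36036) (nat_lit 0) (nat_lit 8892) (XT.nd (nat_lit 35802) (nat_lit 0) (nat_lit 8816) (XT.nd (nat_lit 35646) (nat_lit 0) (nat_lit 8740) (XT.lf (nat_lit 0) (nat_lit 32739217468) (nat_lit 304) (nat_lit 10739789178) (nat_lit 76) (nat_lit 19761479022) (nat_lit 44) (nat_lit 5) (nat_lit 48) (nat_lit 5) (nat_lit 45) (nat_lit 5) (nat_lit 377) (nat_lit 312) (nat_lit 91)) (XT.nd (nat_lit 78) (nat_lit 0) (nat_lit 0) (XT.lf (nat_lit 0) (nat_lit 6405293283) (nat_lit 1140) (nat_lit 1746910094) (nat_lit 1140) (nat_lit 1746910094) (nat_lit 159) (nat_lit 3) (nat_lit 174) (nat_lit 3) (nat_lit 174) (nat_lit 5) (nat_lit 313) (nat_lit 313) (nat_lit 154)) (XT.lf (nat_lit 76) (nat_lit 4980514447) (nat_lit 0) (nat_lit 8223476331) (nat_lit 1140) (nat_lit 6884834782) (nat_lit 160) (nat_lit 5) (nat_lit 159) (nat_lit 3) (nat_lit 174)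 (nat_lit 5) (nat_lit 314) (nat_lit 313) (nat_lit 153)))) (XT.nd (nat_lit 78) (nat_lit 0) (nat_lit 0) (XT.lf (nat_lit 0) (nat_lit 13639798959) (nat_lit 1064) (nat_lit 6611065974) (nat_lit 1140) (nat_lit 136372317) (nat_lit 160) (nat_lit 5) (nat_lit 174) (nat_lit 5) (nat_lit 175) (nat_lit 5) (nat_lit 315) (nat_lit 313) (nat_lit 152)) (XT.nd (nat_lit 78) (nat_lit 0) (nat_lit 0) (XT.lf (nat_lit 76) (nat_lit 2097328779) (nat_lit 0) (nat_lit 12087120054) (nat_lit 1140) (nat_lit 6507292216) (nat_lit 161) (nat_lit 5) (nat_lit 160) (nat_lit 5) (nat_lit 175) (nat_lit 5) (nat_lit 316) (nat_lit 313) (nat_lit 151)) (XT.lf (nat_lit 76) (nat_lit 11199254219) (nat_lit 0) (nat_lit 3607267052) (nat_lit 1140) (nat_lit 6197038614) (nat_lit 161) (nat_lit 5) (nat_lit 160) (nat_lit 5) (nat_lit 175) (nat_lit 5) (nat_lit 317) (nat_lit 313) (nat_lit 150))))) (XT.nd (nat_lit 234) (nat_lit 0) (nat_lit 76) (XT.nd (nat_lit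 78) (nat_lit 0) (nat_lit 0) (XT.lf (nat_lit 0) (nat_lit 15491051858) (nat_lit 1064) (nat_lit 803126743) (nat_lit 1140) (nat_lit 5029252856) (nat_lit 161) (nat_lit 5) (nat_lit 175) (nat_lit 5) (nat_lit 176) (nat_lit 5) (nat_lit 318) (nat_lit 313) (nat_lit 149)) (XT.nd (nat_lit 78) (nat_lit 0) (nat_lit 76) (XT.lf (nat_lit 76) (nat_lit 8596878389) (nat_lit 0) (nat_lit 7712266071) (nat_lit 1140) (nat_lit 5340375634) (nat_lit 162) (nat_lit 5) (nat_lit 161) (nat_lit 5) (nat_lit 176) (nat_lit 5) (nat_lit 319) (nat_lit 313) (nat_lit 148)) (XT.lf (nat_lit 0) (nat_lit 17165620022) (nat_lit 1064) (nat_lit 3704120213) (nat_lit 1140) (nat_lit 1115247309) (nat_lit 162) (nat_lit 5) (nat_lit 176) (nat_lit 5) (nat_lit 177) (nat_lit 5) (nat_lit 320) (nat_lit 313) (nat_lit 147)))) (XT.nd (nat_lit 78) (nat_lit 0) (nat_lit 0) (XT.lf (nat_lit 76) (nat_lit 5961523403) (nat_lit 0) (nat_lit 12214897799) (nat_lit 1140)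 (nat_lit 4150249904) (nat_lit 163) (nat_lit 5) (nat_lit 162) (nat_lit 5) (nat_lit 177) (nat_lit 5) (nat_lit 321) (nat_lit 313) (nat_lit 146)) (XT.nd (nat_lit 78) (nat_lit 0) (nat_lit 76) (XT.lf (nat_lit 76) (nat_lit 15989794321) (nat_lit 0) (nat_lit 3260238067) (nat_lit 1140) (nat_lit 3427608915) (nat_lit 163) (nat_lit 5) (nat_lit 162) (nat_lit 5) (nat_lit 177) (nat_lit 5) (nat_lit 322) (nat_lit 313) (nat_lit 145)) (XT.lf (nat_lit 76) (nat_lit 3283172159) (nat_lit 0) (nat_lit 17156800436) (nat_lit 1140) (nat_lit 2596654786) (nat_lit 164) (nat_lit 5) (nat_lit 163) (nat_lit 5) (nat_lit 178) (nat_lit 5) (nat_lit 323) (nat_lit 313) (nat_lit 144))))))))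
noncomputable def xc228 : XT := (XT.nd (nat_lit 1794) (nat_lit 3496) (nat_lit 0) (XT.nd (nat_lit 858) (nat_lit 2508) (nat_lit 0) (XT.nd (nat_lit 390) (nat_lit 1216) (nat_lit 0) (XT.nd (nat_lit 156) (nat_lit 1064) (nat_lit 0) (XT.nd (nat_lit 78) (nat_lit 0) (nat_lit 76) (XT.lf (nat_lit 76) (nat_lit 13654180458) (nat_lit 0) (nat_lit 8106274820) (nat_lit 1140) (nat_lit 1643092529) (nat_lit 164) (nat_lit 5) (nat_lit 163) (nat_lit 5) (nat_lit 178) (nat_lit 5) (nat_lit 324) (nat_lit 313) (nat_lit 143)) (XT.lf (nat_lit 76) (nat_lit 550524160) (nat_lit 0) (nat_lit 22582501982) (nat_lit 1140) (nat_lit 648085290) (nat_lit 165) (nat_lit 5) (nat_lit 164) (nat_lit 5) (nat_lit 179) (nat_lit 5) (nat_lit 325) (nat_lit 313) (nat_lit 142))) (XT.nd (nat_lit 78) (nat_lit 0) (nat_lit 0) (XT.lf (nat_lit 0) (nat_lit 544645543) (nat_lit 1140) (nat_lit 12896080157) (nat_lit 1216) (nat_lit 10723920082) (nat_lit 149) (nat_lit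 5) (nat_lit 164) (nat_lit 5) (nat_lit 165) (nat_lit 5) (nat_lit 326) (nat_lit 313) (nat_lit 141)) (XT.nd (nat_lit 78) (nat_lit 0) (nat_lit 76) (XT.lf (nat_lit 0) (nat_lit 1755803469) (nat_lit 1140) (nat_lit 2261294229) (nat_lit 1216) (nat_lit 20542534801) (nat_lit 149) (nat_lit 5) (nat_lit 164) (nat_lit 5) (nat_lit 165) (nat_lit 5) (nat_lit 327) (nat_lit 313) (nat_lit 140)) (XT.lf (nat_lit 0) (nat_lit 3139823541) (nat_lit 1140) (nat_lit 16157362271) (nat_lit 1216) (nat_lit 5665195889) (nat_lit 150) (nat_lit 5) (nat_lit 165) (nat_lit 5) (nat_lit 166) (nat_lit 5) (nat_lit 328) (nat_lit 313) (nat_lit 139))))) (XT.nd (nat_lit 234) (nat_lit 1292) (nat_lit 0) (XT.nd (nat_lit 78) (nat_lit 0) (nat_lit 76) (XT.lf (nat_lit 0) (nat_lit 4624095519) (nat_lit 1140) (nat_lit 5170201956) (nat_lit 1216) (nat_lit 15581162418) (nat_lit 150) (nat_lit 5) (nat_lit 165) (nat_lit 5) (nat_lit 166) (nat_lit 5) (nat_lit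 329) (nat_lit 313) (nat_lit 138)) (XT.nd (nat_lit 78) (nat_lit 0) (nat_lit 0) (XT.lf (nat_lit 0) (nat_lit 6209683672) (nat_lit 1140) (nat_lit 19534210058) (nat_lit 76) (nat_lit 55341266) (nat_lit 151) (nat_lit 5) (nat_lit 166) (nat_lit 5) (nat_lit 152) (nat_lit 5) (nat_lit 330) (nat_lit 313) (nat_lit 137)) (XT.lf (nat_lit 0) (nat_lit 7988646915) (nat_lit 1140) (nat_lit 8185707550) (nat_lit 76) (nat_lit 10057002632) (nat_lit 151) (nat_lit 5) (nat_lit 166) (nat_lit 5) (nat_lit 152) (nat_lit 5) (nat_lit 331) (nat_lit 313) (nat_lit 136)))) (XT.nd (nat_lit 78) (nat_lit 532) (nat_lit 0) (XT.lf (nat_lit 0) (nat_lit 3569651436) (nat_lit 836) (nat_lit 6281863019) (nat_lit 912) (nat_lit 16824020078) (nat_lit 140) (nat_lit 5) (nat_lit 151) (nat_lit 5) (nat_lit 152) (nat_lit 5) (nat_lit 332) (nat_lit 313) (nat_lit 135)) (XT.nd (nat_lit 78) (nat_lit 532) (nat_lit 0) (XT.lf (nat_lit 0) (nat_lit 11887611744)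 (nat_lit 912) (nat_lit 11326812593) (nat_lit 76) (nat_lit 3915100155) (nat_lit 140) (nat_lit 5) (nat_lit 152) (nat_lit 5) (nat_lit 141) (nat_lit 5) (nat_lit 333) (nat_lit 313) (nat_lit 134)) (XT.lf (nat_lit 0) (nat_lit 754915456) (nat_lit 532) (nat_lit 13295742840) (nat_lit 608) (nat_lit 13544507153) (nat_lit 133) (nat_lit 5) (nat_lit 140) (nat_lit 5) (nat_lit 141) (nat_lit 5) (nat_lit 334) (nat_lit 313) (nat_lit 133)))))) (XT.nd (nat_lit 468) (nat_lit 1520) (nat_lit 0) (XT.nd (nat_lit 234) (nat_lit 456) (nat_lit 0) (XT.nd (nat_lit 78) (nat_lit 532) (nat_lit 0) (XT.lf (nat_lit 0) (nat_lit 13428066726) (nat_lit 532) (nat_lit 2961394642) (nat_lit 608) (nat_lit 11681995393) (nat_lit 133) (nat_lit 5) (nat_lit 140) (nat_lit 5) (nat_lit 141) (nat_lit 5) (nat_lit 335) (nat_lit 313) (nat_lit 132)) (XT.nd (nat_lit 78) (nat_lit 532) (nat_lit 0) (XT.lf (nat_lit 0) (nat_lit 18868873699) (nat_lit 608) (nat_lit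 2157713262) (nat_lit 76) (nat_lit 7533343368) (nat_lit 133) (nat_lit 5) (nat_lit 141) (nat_lit 5) (nat_lit 134) (nat_lit 5) (nat_lit 336) (nat_lit 313) (nat_lit 131)) (XT.lf (nat_lit 0) (nat_lit 10882427221) (nat_lit 532) (nat_lit 10670861363) (nat_lit 608) (nat_lit 7505857588) (nat_lit 126) (nat_lit 5) (nat_lit 133) (nat_lit 5) (nat_lit 134) (nat_lit 5) (nat_lit 337) (nat_lit 313) (nat_lit 130)))) (XT.nd (nat_lit 78) (nat_lit 456) (nat_lit 0) (XT.lf (nat_lit 0) (nat_lit 24336956058) (nat_lit 608) (nat_lit 5218070161) (nat_lit 76) (nat_lit 17757144) (nat_lit 126) (nat_lit 5) (nat_lit 134) (nat_lit 5) (nat_lit 127) (nat_lit 5) (nat_lit 338) (nat_lit 313) (nat_lit 129)) (XT.nd (nat_lit 78) (nat_lit 0) (nat_lit 0) (XT.lf (nat_lit 0) (nat_lit 8180189170) (nat_lit 456) (nat_lit 19205082520) (nat_lit 532) (nat_lit 2711130127) (nat_lit 120) (nat_lit 5) (nat_lit 126) (nat_lit 5) (nat_lit 127) (nat_lit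 5) (nat_lit 339) (nat_lit 313) (nat_lit 128)) (XT.lf (nat_lit 0) (nat_lit 22084270427) (nat_lit 456) (nat_lit 8490373645) (nat_lit 532) (nat_lit 59602640) (nat_lit 120) (nat_lit 5) (nat_lit 126) (nat_lit 5) (nat_lit 127) (nat_lit 5) (nat_lit 340) (nat_lit 313) (nat_lit 127))))) (XT.nd (nat_lit 234) (nat_lit 456) (nat_lit 0) (XT.nd (nat_lit 78) (nat_lit 456) (nat_lit 0) (XT.lf (nat_lit 0) (nat_lit 2692406799) (nat_lit 608) (nat_lit 25919494840) (nat_lit 76) (nat_lit 2573368691) (nat_lit 112) (nat_lit 5) (nat_lit 120) (nat_lit 5) (nat_lit 113) (nat_lit 5) (nat_lit 341) (nat_lit 313) (nat_lit 126)) (XT.nd (nat_lit 78) (nat_lit 456) (nat_lit 0) (XT.lf (nat_lit 0) (nat_lit 5694062335) (nat_lit 608) (nat_lit 12167607876) (nat_lit 76) (nat_lit 13886093818) (nat_lit 112) (nat_lit 5) (nat_lit 120) (nat_lit 5) (nat_lit 113) (nat_lit 5) (nat_lit 342) (nat_lit 313) (nat_lit 125)) (XT.lf (nat_lit 0) (nat_lit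 2033476094) (nat_lit 456) (nat_lit 6768952861) (nat_lit 532) (nat_lit 23524209166) (nat_lit 106) (nat_lit 5) (nat_lit 112) (nat_lit 5) (nat_lit 113) (nat_lit 5) (nat_lit 343) (nat_lit 313) (nat_lit 124)))) (XT.nd (nat_lit 78) (nat_lit 456) (nat_lit 0) (XT.lf (nat_lit 0) (nat_lit 12170061434) (nat_lit 532) (nat_lit 16058252540) (nat_lit 76) (nat_lit 4689589283) (nat_lit 106) (nat_lit 5) (nat_lit 113) (nat_lit 5) (nat_lit 107) (nat_lit 5) (nat_lit 344) (nat_lit 313) (nat_lit 123)) (XT.nd (nat_lit 78) (nat_lit 456) (nat_lit 0) (XT.lf (nat_lit 0) (nat_lit 15702992499) (nat_lit 532) (nat_lit 1466323546) (nat_lit 76) (nat_lit 16355667328) (nat_lit 106) (nat_lit 5) (nat_lit 113) (nat_lit 5) (nat_lit 107) (nat_lit 5) (nat_lit 345) (nat_lit 313) (nat_lit 122)) (XT.lf (nat_lit 0) (nat_lit 13830321894) (nat_lit 456) (nat_lit 5641865482) (nat_lit 532) (nat_lit 14674185206) (nat_lit 100) (nat_lit 5) (nat_lit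 106) (nat_lit 5) (nat_lit 107) (nat_lit 5) (nat_lit 346) (nat_lit 313) (nat_lit 121))))))) (XT.nd (nat_lit 858) (nat_lit 1596) (nat_lit 0) (XT.nd (nat_lit 390) (nat_lit 1064) (nat_lit 0) (XT.nd (nat_lit 156) (nat_lit 456) (nat_lit 0) (XT.nd (nat_lit 78) (nat_lit 380) (nat_lit 0) (XT.lf (nat_lit 0) (nat_lit 23426689509) (nat_lit 532) (nat_lit 5233054053) (nat_lit 76) (nat_lit 6124497783) (nat_lit 100) (nat_lit 5) (nat_lit 107) (nat_lit 5) (nat_lit 101) (nat_lit 5) (nat_lit 347) (nat_lit 313) (nat_lit 120)) (XT.lf (nat_lit 0) (nat_lit 10447555482) (nat_lit 380) (nat_lit 17206013649) (nat_lit 456) (nat_lit 7783069445) (nat_lit 95) (nat_lit 5) (nat_lit 100) (nat_lit 5) (nat_lit 101) (nat_lit 5) (nat_lit 348) (nat_lit 313) (nat_lit 119))) (XT.nd (nat_lit 78) (nat_lit 456) (nat_lit 0) (XT.lf (nat_lit 0) (nat_lit 26702997698) (nat_lit 380) (nat_lit 5354601789) (nat_lit 456) (nat_lit 4049502453) (nat_lit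 95) (nat_lit 5) (nat_lit 100) (nat_lit 5) (nat_lit 101) (nat_lit 5) (nat_lit 349) (nat_lit 313) (nat_lit 118)) (XT.nd (nat_lit 78) (nat_lit 76) (nat_lit 0) (XT.lf (nat_lit 0) (nat_lit 6710655332) (nat_lit 380) (nat_lit 30011041551) (nat_lit 456) (nat_lit 72148348) (nat_lit 90) (nat_lit 5) (nat_lit 95) (nat_lit 5) (nat_lit 96) (nat_lit 5) (nat_lit 350) (nat_lit 313) (nat_lit 117)) (XT.lf (nat_lit 0) (nat_lit 4092498508) (nat_lit 456) (nat_lit 14092224582) (nat_lit 76) (nat_lit 19310916148) (nat_lit 89) (nat_lit 5) (nat_lit 95) (nat_lit 5) (nat_lit 90) (nat_lit 5) (nat_lit 351) (nat_lit 313) (nat_lit 116))))) (XT.nd (nat_lit 234) (nat_lit 684) (nat_lit 0) (XT.nd (nat_lit 78) (nat_lit 0) (nat_lit 0) (XT.lf (nat_lit 0) (nat_lit 2422232546) (nat_lit 380) (nat_lit 5979342439) (nat_lit 456) (nat_lit 29816266479) (nat_lit 84) (nat_lit 5) (nat_lit 89) (nat_lit 5) (nat_lit 90) (nat_lit 5) (nat_lit 352)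 (nat_lit 313) (nat_lit 115)) (XT.nd (nat_lit 78) (nat_lit 0) (nat_lit 0) (XT.lf (nat_lit 0) (nat_lit 13044698432) (nat_lit 456) (nat_lit 19304048168) (nat_lit 76) (nat_lit 6606823835) (nat_lit 84) (nat_lit 5) (nat_lit 90) (nat_lit 5) (nat_lit 85) (nat_lit 5) (nat_lit 353) (nat_lit 313) (nat_lit 114)) (XT.lf (nat_lit 0) (nat_lit 17884077802) (nat_lit 456) (nat_lit 2379690062) (nat_lit 76) (nat_lit 19449958350) (nat_lit 84) (nat_lit 5) (nat_lit 90) (nat_lit 5) (nat_lit 85) (nat_lit 5) (nat_lit 354) (nat_lit 313) (nat_lit 113)))) (XT.nd (nat_lit 78) (nat_lit 304) (nat_lit 0) (XT.lf (nat_lit 0) (nat_lit 15349249922) (nat_lit 380) (nat_lit 7664761040) (nat_lit 456) (nat_lit 17476258226) (nat_lit 79) (nat_lit 5) (nat_lit 84) (nat_lit 5) (nat_lit 85) (nat_lit 5) (nat_lit 355) (nat_lit 313) (nat_lit 112)) (XT.nd (nat_lit 78) (nat_lit 304) (nat_lit 0) (XT.lf (nat_lit 0) (nat_lit 28371033605) (nat_lit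 456) (nat_lit 7684554984) (nat_lit 76) (nat_lit 5232327704) (nat_lit 79) (nat_lit 5) (nat_lit 85) (nat_lit 5) (nat_lit 80) (nat_lit 5) (nat_lit 356) (nat_lit 313) (nat_lit 111)) (XT.lf (nat_lit 0) (nat_lit 10420428710) (nat_lit 304) (nat_lit 23642315922) (nat_lit 380) (nat_lit 8041532331) (nat_lit 75) (nat_lit 5) (nat_lit 79) (nat_lit 5) (nat_lit 80) (nat_lit 5) (nat_lit 357) (nat_lit 313) (nat_lit 110)))))) (XT.nd (nat_lit 468) (nat_lit 912) (nat_lit 0) (XT.nd (nat_lit 234) (nat_lit 304) (nat_lit 0) (XT.nd (nat_lit 78) (nat_lit 380) (nat_lit 0) (XT.lf (nat_lit 0) (nat_lit 29223487614) (nat_lit 304) (nat_lit 10777275308) (nat_lit 380) (nat_lit 2942102233) (nat_lit 75) (nat_lit 5) (nat_lit 79) (nat_lit 5) (nat_lit 80) (nat_lit 5) (nat_lit 358) (nat_lit 313) (nat_lit 109)) (XT.nd (nat_lit 78) (nat_lit 0) (nat_lit 0) (XT.lf (nat_lit 0) (nat_lit 2334336591) (nat_lit 380) (nat_lit 38975093608) (nat_lit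 76) (nat_lit 2494444489) (nat_lit 70) (nat_lit 5) (nat_lit 75) (nat_lit 5) (nat_lit 71) (nat_lit 5) (nat_lit 359) (nat_lit 313) (nat_lit 108)) (XT.lf (nat_lit 0) (nat_lit 7954573582) (nat_lit 380) (nat_lit 20611746326) (nat_lit 76) (nat_lit 16116184651) (nat_lit 70) (nat_lit 5) (nat_lit 75) (nat_lit 5) (nat_lit 71) (nat_lit 5) (nat_lit 360) (nat_lit 313) (nat_lit 107)))) (XT.nd (nat_lit 78) (nat_lit 304) (nat_lit 0) (XT.lf (nat_lit 0) (nat_lit 13741497450) (nat_lit 380) (nat_lit 1700022066) (nat_lit 76) (nat_lit 30146034420) (nat_lit 70) (nat_lit 5) (nat_lit 75) (nat_lit 5) (nat_lit 71) (nat_lit 5) (nat_lit 361) (nat_lit 313) (nat_lit 106)) (XT.nd (nat_lit 78) (nat_lit 0) (nat_lit 0) (XT.lf (nat_lit 0) (nat_lit 18130393254) (nat_lit 304) (nat_lit 1744051910) (nat_lit 380) (nat_lit 26640140065) (nat_lit 66) (nat_lit 5) (nat_lit 70) (nat_lit 5) (nat_lit 71) (nat_lit 5) (nat_lit 362) (nat_lit 313)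 (nat_lit 105)) (XT.lf (nat_lit 0) (nat_lit 26325732747) (nat_lit 380) (nat_lit 8999844256) (nat_lit 76) (nat_lit 12139822744) (nat_lit 66) (nat_lit 5) (nat_lit 71) (nat_lit 5) (nat_lit 67) (nat_lit 5) (nat_lit 363) (nat_lit 313) (nat_lit 104))))) (XT.nd (nat_lit 234) (nat_lit 380) (nat_lit 0) (XT.nd (nat_lit 78) (nat_lit 228) (nat_lit 0) (XT.lf (nat_lit 0) (nat_lit 11164214202) (nat_lit 304) (nat_lit 21929144398) (nat_lit 380) (nat_lit 15347698861) (nat_lit 62) (nat_lit 5) (nat_lit 66) (nat_lit 5) (nat_lit 67) (nat_lit 5) (nat_lit 364) (nat_lit 313) (nat_lit 103)) (XT.nd (nat_lit 78) (nat_lit 228) (nat_lit 0) (XT.lf (nat_lit 0) (nat_lit 32115300104) (nat_lit 304) (nat_lit 8037837553) (nat_lit 380) (nat_lit 9290176185) (nat_lit 62) (nat_lit 5) (nat_lit 66) (nat_lit 5) (nat_lit 67) (nat_lit 5) (nat_lit 365) (nat_lit 313) (nat_lit 102)) (XT.lf (nat_lit 0) (nat_lit 3219470236) (nat_lit 228) (nat_lit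 44294749410) (nat_lit 304) (nat_lit 2958735572) (nat_lit 59) (nat_lit 5) (nat_lit 62) (nat_lit 5) (nat_lit 63) (nat_lit 5) (nat_lit 366) (nat_lit 313) (nat_lit 101)))) (XT.nd (nat_lit 78) (nat_lit 304) (nat_lit 0) (XT.lf (nat_lit 0) (nat_lit 3747719328) (nat_lit 304) (nat_lit 26907585813) (nat_lit 76) (nat_lit 20869518014) (nat_lit 58) (nat_lit 5) (nat_lit 62) (nat_lit 5) (nat_lit 59) (nat_lit 5) (nat_lit 367) (nat_lit 313) (nat_lit 100)) (XT.nd (nat_lit 78) (nat_lit 304) (nat_lit 0) (XT.lf (nat_lit 0) (nat_lit 10594247007) (nat_lit 304) (nat_lit 5982908932) (nat_lit 76) (nat_lit 36030264323) (nat_lit 58) (nat_lit 5) (nat_lit 62) (nat_lit 5) (nat_lit 59) (nat_lit 5) (nat_lit 368) (nat_lit 313) (nat_lit 99)) (XT.lf (nat_lit 0) (nat_lit 15877089740) (nat_lit 304) (nat_lit 1920096015) (nat_lit 380) (nat_lit 35920781374) (nat_lit 54) (nat_lit 5) (nat_lit 58) (nat_lit 5) (nat_lit 59) (nat_lit 5) (nat_lit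 369) (nat_lit 313) (nat_lit 98))))))))
noncomputable def xc229 : XT := (XT.nd (nat_lit 37440) (nat_lit 0) (nat_lit 3420) (XT.nd (nat_lit 36504) (nat_lit 0) (nat_lit 7980) (XT.nd (nat_lit 390) (nat_lit 304) (nat_lit 0) (XT.nd (nat_lit 156) (nat_lit 228) (nat_lit 0) (XT.nd (nat_lit 78) (nat_lit 228) (nat_lit 0) (XT.lf (nat_lit 0) (nat_lit 25402303033) (nat_lit 380) (nat_lit 16474005525) (nat_lit 76) (nat_lit 12979941368) (nat_lit 54) (nat_lit 5) (nat_lit 59) (nat_lit 5) (nat_lit 55) (nat_lit 5) (nat_lit 370) (nat_lit 313) (nat_lit 97)) (XT.lf (nat_lit 0) (nat_lit 5622381061) (nat_lit 228) (nat_lit 27684709845) (nat_lit 304) (nat_lit 22719446959) (nat_lit 51) (nat_lit 5) (nat_lit 54) (nat_lit 5) (nat_lit 55) (nat_lit 5) (nat_lit 371) (nat_lit 313) (nat_lit 96))) (XT.nd (nat_lit 78) (nat_lit 228) (nat_lit 0) (XT.lf (nat_lit 0) (nat_lit 28717188226) (nat_lit 228) (nat_lit 12896673766) (nat_lit 304)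 (nat_lit 15613129369) (nat_lit 51) (nat_lit 5) (nat_lit 54) (nat_lit 5) (nat_lit 55) (nat_lit 5) (nat_lit 372) (nat_lit 313) (nat_lit 95)) (XT.nd (nat_lit 78) (nat_lit 228) (nat_lit 0) (XT.lf (nat_lit 0) (nat_lit 50190804133) (nat_lit 304) (nat_lit 5983213121) (nat_lit 76) (nat_lit 2288814217) (nat_lit 51) (nat_lit 5) (nat_lit 55) (nat_lit 5) (nat_lit 52) (nat_lit 5) (nat_lit 373) (nat_lit 313) (nat_lit 94)) (XT.lf (nat_lit 0) (nat_lit 17429511098) (nat_lit 228) (nat_lit 41889341877) (nat_lit 304) (nat_lit 408081841) (nat_lit 48) (nat_lit 5) (nat_lit 51) (nat_lit 5) (nat_lit 52) (nat_lit 5) (nat_lit 374) (nat_lit 313) (nat_lit 93))))) (XT.nd (nat_lit 35880) (nat_lit 0) (nat_lit 8740) (XT.nd (nat_lit 78) (nat_lit 228) (nat_lit 0) (XT.lf (nat_lit 0) (nat_lit 7601276099) (nat_lit 304) (nat_lit 19436514018) (nat_lit 76) (nat_lit 33987167219) (nat_lit 47) (nat_lit 5) (nat_lit 51) (nat_lit 5) (nat_lit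 48) (nat_lit 5) (nat_lit 375) (nat_lit 313) (nat_lit 92)) (XT.nd (nat_lit 78) (nat_lit 0) (nat_lit 0) (XT.lf (nat_lit 0) (nat_lit 4185828146) (nat_lit 228) (nat_lit 11695734461) (nat_lit 304) (nat_lit 46479073034) (nat_lit 44) (nat_lit 5) (nat_lit 47) (nat_lit 5) (nat_lit 48) (nat_lit 5) (nat_lit 376) (nat_lit 313) (nat_lit 91)) (XT.lf (nat_lit 0) (nat_lit 24646574567) (nat_lit 304) (nat_lit 34858695921) (nat_lit 76) (nat_lit 4224026066) (nat_lit 44) (nat_lit 5) (nat_lit 48) (nat_lit 5) (nat_lit 45) (nat_lit 5) (nat_lit 377) (nat_lit 313) (nat_lit 90)))) (XT.nd (nat_lit 78) (nat_lit 0) (nat_lit 0) (XT.lf (nat_lit 0) (nat_lit 6749347460) (nat_lit 1140) (nat_lit 1720924186) (nat_lit 1140) (nat_lit 1720924186) (nat_lit 159) (nat_lit 3) (nat_lit 174) (nat_lit 3) (nat_lit 174) (nat_lit 5) (nat_lit 314) (nat_lit 314) (nat_lit 152)) (XT.nd (nat_lit 78) (nat_lit 0) (nat_lit 76) (XT.lf (nat_lit 76) (nat_lit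 5285179181) (nat_lit 0) (nat_lit 8611366155) (nat_lit 1140) (nat_lit 6785403050) (nat_lit 160) (nat_lit 5) (nat_lit 159) (nat_lit 3) (nat_lit 174) (nat_lit 5) (nat_lit 315) (nat_lit 314) (nat_lit 151)) (XT.lf (nat_lit 0) (nat_lit 14335476104) (nat_lit 1064) (nat_lit 6648088823) (nat_lit 1140) (nat_lit 6064947) (nat_lit 160) (nat_lit 5) (nat_lit 174) (nat_lit 5) (nat_lit 175) (nat_lit 5) (nat_lit 316) (nat_lit 314) (nat_lit 150)))))) (XT.nd (nat_lit 468) (nat_lit 836) (nat_lit 0) (XT.nd (nat_lit 234) (nat_lit 0) (nat_lit 76) (XT.nd (nat_lit 78) (nat_lit 0) (nat_lit 0) (XT.lf (nat_lit 76) (nat_lit 2319976310) (nat_lit 0) (nat_lit 12569680394) (nat_lit 1140) (nat_lit 6413834696) (nat_lit 161) (nat_lit 5) (nat_lit 160) (nat_lit 5) (nat_lit 175) (nat_lit 5) (nat_lit 317) (nat_lit 314) (nat_lit 149)) (XT.nd (nat_lit 78) (nat_lit 0) (nat_lit 76) (XT.lf (nat_lit 76) (nat_lit 11690307251) (nat_lit 0)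 (nat_lit 3831938208) (nat_lit 1140) (nat_lit 6102681533) (nat_lit 161) (nat_lit 5) (nat_lit 160) (nat_lit 5) (nat_lit 175) (nat_lit 5) (nat_lit 318) (nat_lit 314) (nat_lit 148)) (XT.lf (nat_lit 0) (nat_lit 16218316551) (nat_lit 1064) (nat_lit 667089949) (nat_lit 1140) (nat_lit 5069275370) (nat_lit 161) (nat_lit 5) (nat_lit 175) (nat_lit 5) (nat_lit 176) (nat_lit 5) (nat_lit 319) (nat_lit 314) (nat_lit 147)))) (XT.nd (nat_lit 78) (nat_lit 0) (nat_lit 76) (XT.lf (nat_lit 76) (nat_lit 9013345429) (nat_lit 0) (nat_lit 8041484088) (nat_lit 1140) (nat_lit 5235924114) (nat_lit 162) (nat_lit 5) (nat_lit 161) (nat_lit 5) (nat_lit 176) (nat_lit 5) (nat_lit 320) (nat_lit 314) (nat_lit 146)) (XT.nd (nat_lit 78) (nat_lit 0) (nat_lit 0) (XT.lf (nat_lit 0) (nat_lit 17928617874) (nat_lit 1064) (nat_lit 3652376491) (nat_lit 1140) (nat_lit 1055558488) (nat_lit 162) (nat_lit 5) (nat_lit 176) (nat_lit 5) (nat_lit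 177) (nat_lit 5) (nat_lit 321) (nat_lit 314) (nat_lit 145)) (XT.lf (nat_lit 76) (nat_lit 6301639695) (nat_lit 0) (nat_lit 12662429473) (nat_lit 1140) (nat_lit 4024603799) (nat_lit 163) (nat_lit 5) (nat_lit 162) (nat_lit 5) (nat_lit 177) (nat_lit 5) (nat_lit 322) (nat_lit 314) (nat_lit 144))))) (XT.nd (nat_lit 234) (nat_lit 988) (nat_lit 0) (XT.nd (nat_lit 78) (nat_lit 0) (nat_lit 76) (XT.lf (nat_lit 76) (nat_lit 16626061540) (nat_lit 0) (nat_lit 3436768257) (nat_lit 1140) (nat_lit 3287569607) (nat_lit 163) (nat_lit 5) (nat_lit 162) (nat_lit 5) (nat_lit 177) (nat_lit 5) (nat_lit 323) (nat_lit 314) (nat_lit 143)) (XT.nd (nat_lit 78) (nat_lit 0) (nat_lit 0) (XT.lf (nat_lit 76) (nat_lit 3544951906) (nat_lit 0) (nat_lit 17737497907) (nat_lit 1140) (nat_lit 2437900723) (nat_lit 164) (nat_lit 5) (nat_lit 163) (nat_lit 5) (nat_lit 178) (nat_lit 5) (nat_lit 324) (nat_lit 314) (nat_lit 142)) (XT.lf (nat_lit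 76) (nat_lit 14222334593) (nat_lit 0) (nat_lit 8413534383) (nat_lit 1140) (nat_lit 1462624423) (nat_lit 164) (nat_lit 5) (nat_lit 163) (nat_lit 5) (nat_lit 178) (nat_lit 5) (nat_lit 325) (nat_lit 314) (nat_lit 141)))) (XT.nd (nat_lit 78) (nat_lit 1140) (nat_lit 0) (XT.lf (nat_lit 76) (nat_lit 731714895) (nat_lit 0) (nat_lit 23312403577) (nat_lit 1140) (nat_lit 443444479) (nat_lit 165) (nat_lit 5) (nat_lit 164) (nat_lit 5) (nat_lit 179) (nat_lit 5) (nat_lit 326) (nat_lit 314) (nat_lit 140)) (XT.nd (nat_lit 78) (nat_lit 0) (nat_lit 0) (XT.lf (nat_lit 0) (nat_lit 774296264) (nat_lit 1140) (nat_lit 13118396730) (nat_lit 1216) (nat_lit 10990050953) (nat_lit 149) (nat_lit 5) (nat_lit 164) (nat_lit 5) (nat_lit 165) (nat_lit 5) (nat_lit 327) (nat_lit 314) (nat_lit 139)) (XT.lf (nat_lit 0) (nat_lit 2015575976) (nat_lit 1140) (nat_lit 2169360403) (nat_lit 1216) (nat_lit 21104843145) (nat_lit 149) (nat_lit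 5) (nat_lit 164) (nat_lit 5) (nat_lit 165) (nat_lit 5) (nat_lit 328) (nat_lit 314) (nat_lit 138))))))) (XT.nd (nat_lit 936) (nat_lit 2356) (nat_lit 0) (XT.nd (nat_lit 468) (nat_lit 1520) (nat_lit 0) (XT.nd (nat_lit 234) (nat_lit 760) (nat_lit 0) (XT.nd (nat_lit 78) (nat_lit 0) (nat_lit 0) (XT.lf (nat_lit 0) (nat_lit 3436178817) (nat_lit 1140) (nat_lit 16476956151) (nat_lit 1216) (nat_lit 5791636865) (nat_lit 150) (nat_lit 5) (nat_lit 165) (nat_lit 5) (nat_lit 166) (nat_lit 5) (nat_lit 329) (nat_lit 314) (nat_lit 137)) (XT.nd (nat_lit 78) (nat_lit 0) (nat_lit 76) (XT.lf (nat_lit 0) (nat_lit 4959090782) (nat_lit 1140) (nat_lit 5164990551) (nat_lit 1216) (nat_lit 16006349814) (nat_lit 150) (nat_lit 5) (nat_lit 165) (nat_lit 5) (nat_lit 166) (nat_lit 5) (nat_lit 330) (nat_lit 314) (nat_lit 136)) (XT.lf (nat_lit 0) (nat_lit 6587735423) (nat_lit 1140) (nat_lit 19955015146) (nat_lit 76) (nat_lit 24316046)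 (nat_lit 151) (nat_lit 5) (nat_lit 166) (nat_lit 5) (nat_lit 152) (nat_lit 5) (nat_lit 331) (nat_lit 314) (nat_lit 135)))) (XT.nd (nat_lit 78) (nat_lit 836) (nat_lit 0) (XT.lf (nat_lit 0) (nat_lit 8414482284) (nat_lit 1140) (nat_lit 8270869831) (nat_lit 76) (nat_lit 10326979258) (nat_lit 151) (nat_lit 5) (nat_lit 166) (nat_lit 5) (nat_lit 152) (nat_lit 5) (nat_lit 332) (nat_lit 314) (nat_lit 134)) (XT.nd (nat_lit 78) (nat_lit 0) (nat_lit 0) (XT.lf (nat_lit 0) (nat_lit 3835577288) (nat_lit 836) (nat_lit 6493762794) (nat_lit 912) (nat_lit 17140622025) (nat_lit 140) (nat_lit 5) (nat_lit 151) (nat_lit 5) (nat_lit 152) (nat_lit 5) (nat_lit 333) (nat_lit 314) (nat_lit 133)) (XT.lf (nat_lit 0) (nat_lit 12420992364) (nat_lit 912) (nat_lit 11506519758) (nat_lit 76) (nat_lit 4010236258) (nat_lit 140) (nat_lit 5) (nat_lit 152) (nat_lit 5) (nat_lit 141) (nat_lit 5) (nat_lit 334) (nat_lit 314) (nat_lit 132)))))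 (XT.nd (nat_lit 234) (nat_lit 988) (nat_lit 0) (XT.nd (nat_lit 78) (nat_lit 0) (nat_lit 0) (XT.lf (nat_lit 0) (nat_lit 936090551) (nat_lit 532) (nat_lit 13709215502) (nat_lit 608) (nat_lit 13772171705) (nat_lit 133) (nat_lit 5) (nat_lit 140) (nat_lit 5) (nat_lit 141) (nat_lit 5) (nat_lit 335) (nat_lit 314) (nat_lit 131)) (XT.nd (nat_lit 78) (nat_lit 0) (nat_lit 0) (XT.lf (nat_lit 0) (nat_lit 13984819050) (nat_lit 532) (nat_lit 3064411604) (nat_lit 608) (nat_lit 11858988592) (nat_lit 133) (nat_lit 5) (nat_lit 140) (nat_lit 5) (nat_lit 141) (nat_lit 5) (nat_lit 336) (nat_lit 314) (nat_lit 130)) (XT.lf (nat_lit 0) (nat_lit 19597997371) (nat_lit 608) (nat_lit 2067660388) (nat_lit 76) (nat_lit 7745849965) (nat_lit 133) (nat_lit 5) (nat_lit 141) (nat_lit 5) (nat_lit 134) (nat_lit 5) (nat_lit 337) (nat_lit 314) (nat_lit 129)))) (XT.nd (nat_lit 78) (nat_lit 456) (nat_lit 0) (XT.lf (nat_lit 0) (nat_lit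 11362166816) (nat_lit 532) (nat_lit 10997501934) (nat_lit 608) (nat_lit 7566139148) (nat_lit 126) (nat_lit 5) (nat_lit 133) (nat_lit 5) (nat_lit 134) (nat_lit 5) (nat_lit 338) (nat_lit 314) (nat_lit 128)) (XT.nd (nat_lit 78) (nat_lit 456) (nat_lit 0) (XT.lf (nat_lit 0) (nat_lit 25222131619) (nat_lit 608) (nat_lit 5220785021) (nat_lit 76) (nat_lit 12088302) (nat_lit 126) (nat_lit 5) (nat_lit 134) (nat_lit 5) (nat_lit 127) (nat_lit 5) (nat_lit 339) (nat_lit 314) (nat_lit 127)) (XT.lf (nat_lit 0) (nat_lit 8577913980) (nat_lit 456) (nat_lit 19780930413) (nat_lit 532) (nat_lit 2635588152) (nat_lit 120) (nat_lit 5) (nat_lit 126) (nat_lit 5) (nat_lit 127) (nat_lit 5) (nat_lit 340) (nat_lit 314) (nat_lit 126)))))) (XT.nd (nat_lit 468) (nat_lit 1292) (nat_lit 0) (XT.nd (nat_lit 234) (nat_lit 456) (nat_lit 0) (XT.nd (nat_lit 78) (nat_lit 532) (nat_lit 0) (XT.lf (nat_lit 0) (nat_lit 89141861) (nat_lit 532)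 (nat_lit 8654747124) (nat_lit 76) (nat_lit 22804639175) (nat_lit 119) (nat_lit 5) (nat_lit 126) (nat_lit 5) (nat_lit 120) (nat_lit 5) (nat_lit 341) (nat_lit 314) (nat_lit 125)) (XT.nd (nat_lit 78) (nat_lit 0) (nat_lit 0) (XT.lf (nat_lit 0) (nat_lit 2919633745) (nat_lit 608) (nat_lit 26542786118) (nat_lit 76) (nat_lit 2653739577) (nat_lit 112) (nat_lit 5) (nat_lit 120) (nat_lit 5) (nat_lit 113) (nat_lit 5) (nat_lit 342) (nat_lit 314) (nat_lit 124)) (XT.lf (nat_lit 0) (nat_lit 6007073275) (nat_lit 608) (nat_lit 12382836532) (nat_lit 76) (nat_lit 14305754133) (nat_lit 112) (nat_lit 5) (nat_lit 120) (nat_lit 5) (nat_lit 113) (nat_lit 5) (nat_lit 343) (nat_lit 314) (nat_lit 123)))) (XT.nd (nat_lit 78) (nat_lit 0) (nat_lit 0) (XT.lf (nat_lit 0) (nat_lit 2242811333) (nat_lit 456) (nat_lit 6963163979) (nat_lit 532) (nat_lit 24086018197) (nat_lit 106) (nat_lit 5) (nat_lit 112) (nat_lit 5) (nat_lit 113)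 (nat_lit 5) (nat_lit 344) (nat_lit 314) (nat_lit 122)) (XT.nd (nat_lit 78) (nat_lit 0) (nat_lit 0) (XT.lf (nat_lit 0) (nat_lit 12670657095) (nat_lit 532) (nat_lit 16391757817) (nat_lit 76) (nat_lit 4838708637) (nat_lit 106) (nat_lit 5) (nat_lit 113) (nat_lit 5) (nat_lit 107) (nat_lit 5) (nat_lit 345) (nat_lit 314) (nat_lit 121)) (XT.lf (nat_lit 0) (nat_lit 16305629670) (nat_lit 532) (nat_lit 1366388690) (nat_lit 76) (nat_lit 16854523441) (nat_lit 106) (nat_lit 5) (nat_lit 113) (nat_lit 5) (nat_lit 107) (nat_lit 5) (nat_lit 346) (nat_lit 314) (nat_lit 120))))) (XT.nd (nat_lit 234) (nat_lit 456) (nat_lit 0) (XT.nd (nat_lit 78) (nat_lit 380) (nat_lit 0) (XT.lf (nat_lit 0) (nat_lit 14387745088) (nat_lit 456) (nat_lit 5797693755) (nat_lit 532) (nat_lit 14981214816) (nat_lit 100) (nat_lit 5) (nat_lit 106) (nat_lit 5) (nat_lit 107) (nat_lit 5) (nat_lit 347) (nat_lit 314) (nat_lit 119)) (XT.nd (nat_lit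 78) (nat_lit 380) (nat_lit 0) (XT.lf (nat_lit 0) (nat_lit 24254941573) (nat_lit 532) (nat_lit 5247817943) (nat_lit 76) (nat_lit 6321014919) (nat_lit 100) (nat_lit 5) (nat_lit 107) (nat_lit 5) (nat_lit 101) (nat_lit 5) (nat_lit 348) (nat_lit 314) (nat_lit 118)) (XT.lf (nat_lit 0) (nat_lit 10901815488) (nat_lit 380) (nat_lit 17704511949) (nat_lit 456) (nat_lit 7889491869) (nat_lit 95) (nat_lit 5) (nat_lit 100) (nat_lit 5) (nat_lit 101) (nat_lit 5) (nat_lit 349) (nat_lit 314) (nat_lit 117)))) (XT.nd (nat_lit 78) (nat_lit 456) (nat_lit 0) (XT.lf (nat_lit 0) (nat_lit 27640819028) (nat_lit 380) (nat_lit 5498072746) (nat_lit 456) (nat_lit 4047618925) (nat_lit 95) (nat_lit 5) (nat_lit 100) (nat_lit 5) (nat_lit 101) (nat_lit 5) (nat_lit 350) (nat_lit 314) (nat_lit 116)) (XT.nd (nat_lit 78) (nat_lit 0) (nat_lit 0) (XT.lf (nat_lit 0) (nat_lit 46086533) (nat_lit 456) (nat_lit 30843404547) (nat_lit 76) (nat_lit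 7004417569) (nat_lit 89) (nat_lit 5) (nat_lit 95) (nat_lit 5) (nat_lit 90) (nat_lit 5) (nat_lit 351) (nat_lit 314) (nat_lit 115)) (XT.lf (nat_lit 0) (nat_lit 4330758145) (nat_lit 456) (nat_lit 14377547913) (nat_lit 76) (nat_lit 19908538893) (nat_lit 89) (nat_lit 5) (nat_lit 95) (nat_lit 5) (nat_lit 90) (nat_lit 5) (nat_lit 352) (nat_lit 314) (nat_lit 114))))))))
noncomputable def xc230 : XT := (XT.nd (nat_lit 1794) (nat_lit 76) (nat_lit 0) (XT.nd (nat_lit 858) (nat_lit 1368) (nat_lit 0) (XT.nd (nat_lit 390) (nat_lit 988) (nat_lit 0) (XT.nd (nat_lit 156) (nat_lit 380) (nat_lit 0) (XT.nd (nat_lit 78) (nat_lit 0) (nat_lit 0) (XT.lf (nat_lit 0) (nat_lit 2630995444) (nat_lit 380) (nat_lit 6136056078) (nat_lit 456) (nat_lit 30593729177) (nat_lit 84) (nat_lit 5) (nat_lit 89) (nat_lit 5) (nat_lit 90) (nat_lit 5) (nat_lit 353) (nat_lit 314) (nat_lit 113)) (XT.lf (nat_lit 0) (nat_lit 13546376446) (nat_lit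 456) (nat_lit 19747757918) (nat_lit 76) (nat_lit 6826605566) (nat_lit 84) (nat_lit 5) (nat_lit 90) (nat_lit 5) (nat_lit 85) (nat_lit 5) (nat_lit 354) (nat_lit 314) (nat_lit 112))) (XT.nd (nat_lit 78) (nat_lit 380) (nat_lit 0) (XT.lf (nat_lit 0) (nat_lit 18527723496) (nat_lit 456) (nat_lit 2319613099) (nat_lit 76) (nat_lit 20054405660) (nat_lit 84) (nat_lit 5) (nat_lit 90) (nat_lit 5) (nat_lit 85) (nat_lit 5) (nat_lit 355) (nat_lit 314) (nat_lit 111)) (XT.nd (nat_lit 78) (nat_lit 0) (nat_lit 0) (XT.lf (nat_lit 0) (nat_lit 15939906185) (nat_lit 380) (nat_lit 7869779726) (nat_lit 456) (nat_lit 17891956972) (nat_lit 79) (nat_lit 5) (nat_lit 84) (nat_lit 5) (nat_lit 85) (nat_lit 5) (nat_lit 356) (nat_lit 314) (nat_lit 110)) (XT.lf (nat_lit 0) (nat_lit 29324586172) (nat_lit 456) (nat_lit 7785699828) (nat_lit 76) (nat_lit 5413023541) (nat_lit 79) (nat_lit 5) (nat_lit 85) (nat_lit 5) (nat_lit 80) (nat_lit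 5) (nat_lit 357) (nat_lit 314) (nat_lit 109))))) (XT.nd (nat_lit 234) (nat_lit 304) (nat_lit 0) (XT.nd (nat_lit 78) (nat_lit 380) (nat_lit 0) (XT.lf (nat_lit 0) (nat_lit 10861164829) (nat_lit 304) (nat_lit 24324132148) (nat_lit 380) (nat_lit 8178921598) (nat_lit 75) (nat_lit 5) (nat_lit 79) (nat_lit 5) (nat_lit 80) (nat_lit 5) (nat_lit 358) (nat_lit 314) (nat_lit 108)) (XT.nd (nat_lit 78) (nat_lit 380) (nat_lit 0) (XT.lf (nat_lit 0) (nat_lit 30224583756) (nat_lit 304) (nat_lit 11073939925) (nat_lit 380) (nat_lit 2929533550) (nat_lit 75) (nat_lit 5) (nat_lit 79) (nat_lit 5) (nat_lit 80) (nat_lit 5) (nat_lit 359) (nat_lit 314) (nat_lit 107)) (XT.lf (nat_lit 0) (nat_lit 2501825526) (nat_lit 380) (nat_lit 40016272499) (nat_lit 76) (nat_lit 2596816680) (nat_lit 70) (nat_lit 5) (nat_lit 75) (nat_lit 5) (nat_lit 71) (nat_lit 5) (nat_lit 360) (nat_lit 314) (nat_lit 106)))) (XT.nd (nat_lit 78) (nat_lit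 304) (nat_lit 0) (XT.lf (nat_lit 0) (nat_lit 8287831019) (nat_lit 380) (nat_lit 21105755107) (nat_lit 76) (nat_lit 16626406944) (nat_lit 70) (nat_lit 5) (nat_lit 75) (nat_lit 5) (nat_lit 71) (nat_lit 5) (nat_lit 361) (nat_lit 314) (nat_lit 105)) (XT.nd (nat_lit 78) (nat_lit 304) (nat_lit 0) (XT.lf (nat_lit 0) (nat_lit 14245606675) (nat_lit 380) (nat_lit 1630300778) (nat_lit 76) (nat_lit 31076373466) (nat_lit 70) (nat_lit 5) (nat_lit 75) (nat_lit 5) (nat_lit 71) (nat_lit 5) (nat_lit 362) (nat_lit 314) (nat_lit 104)) (XT.lf (nat_lit 0) (nat_lit 18793843453) (nat_lit 304) (nat_lit 1767172784) (nat_lit 380) (nat_lit 27346156896) (nat_lit 66) (nat_lit 5) (nat_lit 70) (nat_lit 5) (nat_lit 71) (nat_lit 5) (nat_lit 363) (nat_lit 314) (nat_lit 103)))))) (XT.nd (nat_lit 468) (nat_lit 760) (nat_lit 0) (XT.nd (nat_lit 234) (nat_lit 304) (nat_lit 0) (XT.nd (nat_lit 78) (nat_lit 304) (nat_lit 0) (XT.lf (nat_lit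 0) (nat_lit 27203483771) (nat_lit 380) (nat_lit 9151288750) (nat_lit 76) (nat_lit 12531814390) (nat_lit 66) (nat_lit 5) (nat_lit 71) (nat_lit 5) (nat_lit 67) (nat_lit 5) (nat_lit 364) (nat_lit 314) (nat_lit 102)) (XT.nd (nat_lit 78) (nat_lit 0) (nat_lit 0) (XT.lf (nat_lit 0) (nat_lit 11616529199) (nat_lit 304) (nat_lit 22556175114) (nat_lit 380) (nat_lit 15718857010) (nat_lit 62) (nat_lit 5) (nat_lit 66) (nat_lit 5) (nat_lit 67) (nat_lit 5) (nat_lit 365) (nat_lit 314) (nat_lit 101)) (XT.lf (nat_lit 0) (nat_lit 33192728594) (nat_lit 304) (nat_lit 8249027422) (nat_lit 380) (nat_lit 9482208833) (nat_lit 62) (nat_lit 5) (nat_lit 66) (nat_lit 5) (nat_lit 67) (nat_lit 5) (nat_lit 366) (nat_lit 314) (nat_lit 100)))) (XT.nd (nat_lit 78) (nat_lit 76) (nat_lit 0) (XT.lf (nat_lit 0) (nat_lit 3431243896) (nat_lit 228) (nat_lit 45591366002) (nat_lit 304) (nat_lit 2961921104) (nat_lit 59) (nat_lit 5) (nat_lit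 62) (nat_lit 5) (nat_lit 63) (nat_lit 5) (nat_lit 367) (nat_lit 314) (nat_lit 99)) (XT.nd (nat_lit 78) (nat_lit 0) (nat_lit 0) (XT.lf (nat_lit 0) (nat_lit 3941613653) (nat_lit 304) (nat_lit 27601240755) (nat_lit 76) (nat_lit 21525152711) (nat_lit 58) (nat_lit 5) (nat_lit 62) (nat_lit 5) (nat_lit 59) (nat_lit 5) (nat_lit 368) (nat_lit 314) (nat_lit 98)) (XT.lf (nat_lit 0) (nat_lit 10991164462) (nat_lit 304) (nat_lit 6052131509) (nat_lit 76) (nat_lit 37139860755) (nat_lit 58) (nat_lit 5) (nat_lit 62) (nat_lit 5) (nat_lit 59) (nat_lit 5) (nat_lit 369) (nat_lit 314) (nat_lit 97))))) (XT.nd (nat_lit 234) (nat_lit 228) (nat_lit 0) (XT.nd (nat_lit 78) (nat_lit 228) (nat_lit 0) (XT.lf (nat_lit 0) (nat_lit 16462586098) (nat_lit 304) (nat_lit 1946351222) (nat_lit 380) (nat_lit 36918123605) (nat_lit 54) (nat_lit 5) (nat_lit 58) (nat_lit 5) (nat_lit 59) (nat_lit 5) (nat_lit 370) (nat_lit 314) (nat_lit 96))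 (XT.nd (nat_lit 78) (nat_lit 228) (nat_lit 0) (XT.lf (nat_lit 0) (nat_lit 26240233604) (nat_lit 380) (nat_lit 16860140690) (nat_lit 76) (nat_lit 13399180354) (nat_lit 54) (nat_lit 5) (nat_lit 59) (nat_lit 5) (nat_lit 55) (nat_lit 5) (nat_lit 371) (nat_lit 314) (nat_lit 95)) (XT.lf (nat_lit 0) (nat_lit 5898077837) (nat_lit 228) (nat_lit 28482906511) (nat_lit 304) (nat_lit 23324005414) (nat_lit 51) (nat_lit 5) (nat_lit 54) (nat_lit 5) (nat_lit 55) (nat_lit 5) (nat_lit 372) (nat_lit 314) (nat_lit 94)))) (XT.nd (nat_lit 78) (nat_lit 228) (nat_lit 0) (XT.lf (nat_lit 0) (nat_lit 29682611974) (nat_lit 228) (nat_lit 13252171427) (nat_lit 304) (nat_lit 16006741741) (nat_lit 51) (nat_lit 5) (nat_lit 54) (nat_lit 5) (nat_lit 55) (nat_lit 5) (nat_lit 373) (nat_lit 314) (nat_lit 93)) (XT.nd (nat_lit 78) (nat_lit 228) (nat_lit 0) (XT.lf (nat_lit 0) (nat_lit 51767215062) (nat_lit 304) (nat_lit 6059911262) (nat_lit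 76) (nat_lit 2387371629) (nat_lit 51) (nat_lit 5) (nat_lit 55) (nat_lit 5) (nat_lit 52) (nat_lit 5) (nat_lit 374) (nat_lit 314) (nat_lit 92)) (XT.lf (nat_lit 0) (nat_lit 18054186857) (nat_lit 228) (nat_lit 43113838145) (nat_lit 304) (nat_lit 348534658) (nat_lit 48) (nat_lit 5) (nat_lit 51) (nat_lit 5) (nat_lit 52) (nat_lit 5) (nat_lit 375) (nat_lit 314) (nat_lit 91))))))) (XT.nd (nat_lit 36660) (nat_lit 0) (nat_lit 6536) (XT.nd (nat_lit 36192) (nat_lit 0) (nat_lit 8588) (XT.nd (nat_lit 35958) (nat_lit 0) (nat_lit 8512) (XT.nd (nat_lit 35880) (nat_lit 0) (nat_lit 8512) (XT.lf (nat_lit 0) (nat_lit 7897652987) (nat_lit 304) (nat_lit 19919334156) (nat_lit 76) (nat_lit 35036579201) (nat_lit 47) (nat_lit 5) (nat_lit 51) (nat_lit 5) (nat_lit 48) (nat_lit 5) (nat_lit 376) (nat_lit 314) (nat_lit 90)) (XT.lf (nat_lit 0) (nat_lit 7095003846) (nat_lit 1140) (nat_lit 1698658792) (nat_lit 1140) (nat_lit 1698658792)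 (nat_lit 159) (nat_lit 3) (nat_lit 174) (nat_lit 3) (nat_lit 174) (nat_lit 5) (nat_lit 315) (nat_lit 315) (nat_lit 150))) (XT.nd (nat_lit 78) (nat_lit 0) (nat_lit 0) (XT.lf (nat_lit 76) (nat_lit 5590071911) (nat_lit 0) (nat_lit 9002788046) (nat_lit 1140) (nat_lit 6700552684) (nat_lit 160) (nat_lit 5) (nat_lit 159) (nat_lit 3) (nat_lit 174) (nat_lit 5) (nat_lit 316) (nat_lit 315) (nat_lit 149)) (XT.nd (nat_lit 78) (nat_lit 0) (nat_lit 76) (XT.lf (nat_lit 76) (nat_lit 14913925466) (nat_lit 0) (nat_lit 122833542) (nat_lit 1140) (nat_lit 6573829370) (nat_lit 160) (nat_lit 5) (nat_lit 159) (nat_lit 3) (nat_lit 174) (nat_lit 5) (nat_lit 317) (nat_lit 315) (nat_lit 148)) (XT.lf (nat_lit 76) (nat_lit 2540134246) (nat_lit 0) (nat_lit 13059832111) (nat_lit 1140) (nat_lit 6334144650) (nat_lit 161) (nat_lit 5) (nat_lit 160) (nat_lit 5) (nat_lit 175) (nat_lit 5) (nat_lit 318) (nat_lit 315) (nat_lit 147)))))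 (XT.nd (nat_lit 234) (nat_lit 0) (nat_lit 152) (XT.nd (nat_lit 78) (nat_lit 0) (nat_lit 76) (XT.lf (nat_lit 76) (nat_lit 12187189912) (nat_lit 0) (nat_lit 4056664611) (nat_lit 1140) (nat_lit 6021582283) (nat_lit 161) (nat_lit 5) (nat_lit 160) (nat_lit 5) (nat_lit 175) (nat_lit 5) (nat_lit 319) (nat_lit 315) (nat_lit 146)) (XT.nd (nat_lit 78) (nat_lit 0) (nat_lit 0) (XT.lf (nat_lit 0) (nat_lit 16952328708) (nat_lit 1064) (nat_lit 536164203) (nat_lit 1140) (nat_lit 5116862094) (nat_lit 161) (nat_lit 5) (nat_lit 175) (nat_lit 5) (nat_lit 176) (nat_lit 5) (nat_lit 320) (nat_lit 315) (nat_lit 145)) (XT.lf (nat_lit 76) (nat_lit 9433204449) (nat_lit 0) (nat_lit 8374961653) (nat_lit 1140) (nat_lit 5143531775) (nat_lit 162) (nat_lit 5) (nat_lit 161) (nat_lit 5) (nat_lit 176) (nat_lit 5) (nat_lit 321) (nat_lit 315) (nat_lit 144)))) (XT.nd (nat_lit 78) (nat_lit 0) (nat_lit 0) (XT.lf (nat_lit 0) (nat_lit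 18700267768) (nat_lit 1064) (nat_lit 3608429707) (nat_lit 1140) (nat_lit 999425977) (nat_lit 162) (nat_lit 5) (nat_lit 176) (nat_lit 5) (nat_lit 177) (nat_lit 5) (nat_lit 322) (nat_lit 315) (nat_lit 143)) (XT.nd (nat_lit 78) (nat_lit 0) (nat_lit 0) (XT.lf (nat_lit 76) (nat_lit 6642701885) (nat_lit 0) (nat_lit 13118732501) (nat_lit 1140) (nat_lit 3909548150) (nat_lit 163) (nat_lit 5) (nat_lit 162) (nat_lit 5) (nat_lit 177) (nat_lit 5) (nat_lit 323) (nat_lit 315) (nat_lit 142)) (XT.lf (nat_lit 76) (nat_lit 17272428822) (nat_lit 0) (nat_lit 3614075328) (nat_lit 1140) (nat_lit 3157270712) (nat_lit 163) (nat_lit 5) (nat_lit 162) (nat_lit 5) (nat_lit 177) (nat_lit 5) (nat_lit 324) (nat_lit 315) (nat_lit 141)))))) (XT.nd (nat_lit 468) (nat_lit 1216) (nat_lit 0) (XT.nd (nat_lit 234) (nat_lit 1064) (nat_lit 0) (XT.nd (nat_lit 78) (nat_lit 0) (nat_lit 0) (XT.lf (nat_lit 76) (nat_lit 3805211843) (nat_lit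 0) (nat_lit 18331828008) (nat_lit 1140) (nat_lit 2287968928) (nat_lit 164) (nat_lit 5) (nat_lit 163) (nat_lit 5) (nat_lit 178) (nat_lit 5) (nat_lit 325) (nat_lit 315) (nat_lit 140)) (XT.nd (nat_lit 78) (nat_lit 0) (nat_lit 76) (XT.lf (nat_lit 76) (nat_lit 14798433154) (nat_lit 0) (nat_lit 8726333777) (nat_lit 1140) (nat_lit 1289931490) (nat_lit 164) (nat_lit 5) (nat_lit 163) (nat_lit 5) (nat_lit 178) (nat_lit 5) (nat_lit 326) (nat_lit 315) (nat_lit 139)) (XT.lf (nat_lit 76) (nat_lit 908888332) (nat_lit 0) (nat_lit 24061192723) (nat_lit 1140) (nat_lit 245527746) (nat_lit 165) (nat_lit 5) (nat_lit 164) (nat_lit 5) (nat_lit 179) (nat_lit 5) (nat_lit 327) (nat_lit 315) (nat_lit 138)))) (XT.nd (nat_lit 78) (nat_lit 0) (nat_lit 0) (XT.lf (nat_lit 0) (nat_lit 998591563) (nat_lit 1140) (nat_lit 13356829552) (nat_lit 1216) (nat_lit 11267356656) (nat_lit 149) (nat_lit 5) (nat_lit 164) (nat_lit 5) (nat_lit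 165) (nat_lit 5) (nat_lit 328) (nat_lit 315) (nat_lit 137)) (XT.nd (nat_lit 78) (nat_lit 0) (nat_lit 76) (XT.lf (nat_lit 0) (nat_lit 2271253363) (nat_lit 1140) (nat_lit 2083840167) (nat_lit 1216) (nat_lit 21687118706) (nat_lit 149) (nat_lit 5) (nat_lit 164) (nat_lit 5) (nat_lit 165) (nat_lit 5) (nat_lit 329) (nat_lit 315) (nat_lit 136)) (XT.lf (nat_lit 0) (nat_lit 3729819907) (nat_lit 1140) (nat_lit 16815616812) (nat_lit 1216) (nat_lit 5924369004) (nat_lit 150) (nat_lit 5) (nat_lit 165) (nat_lit 5) (nat_lit 166) (nat_lit 5) (nat_lit 330) (nat_lit 315) (nat_lit 135))))) (XT.nd (nat_lit 234) (nat_lit 1292) (nat_lit 0) (XT.nd (nat_lit 78) (nat_lit 0) (nat_lit 0) (XT.lf (nat_lit 0) (nat_lit 5292869064) (nat_lit 1140) (nat_lit 5168825681) (nat_lit 1216) (nat_lit 16446718010) (nat_lit 150) (nat_lit 5) (nat_lit 165) (nat_lit 5) (nat_lit 166) (nat_lit 5) (nat_lit 331) (nat_lit 315) (nat_lit 134)) (XT.nd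 (nat_lit 78) (nat_lit 0) (nat_lit 76) (XT.lf (nat_lit 76) (nat_lit 6960298996) (nat_lit 0) (nat_lit 5878358) (nat_lit 1216) (nat_lit 20392106908) (nat_lit 151) (nat_lit 5) (nat_lit 150) (nat_lit 5) (nat_lit 166) (nat_lit 5) (nat_lit 332) (nat_lit 315) (nat_lit 133)) (XT.lf (nat_lit 0) (nat_lit 8842405453) (nat_lit 1140) (nat_lit 8367795109) (nat_lit 76) (nat_lit 10606876812) (nat_lit 151) (nat_lit 5) (nat_lit 166) (nat_lit 5) (nat_lit 152) (nat_lit 5) (nat_lit 333) (nat_lit 315) (nat_lit 132)))) (XT.nd (nat_lit 78) (nat_lit 532) (nat_lit 0) (XT.lf (nat_lit 0) (nat_lit 4100363062) (nat_lit 836) (nat_lit 6710673786) (nat_lit 912) (nat_lit 17477520810) (nat_lit 140) (nat_lit 5) (nat_lit 151) (nat_lit 5) (nat_lit 152) (nat_lit 5) (nat_lit 334) (nat_lit 315) (nat_lit 131)) (XT.nd (nat_lit 78) (nat_lit 532) (nat_lit 0) (XT.lf (nat_lit 0) (nat_lit 12960228100) (nat_lit 912) (nat_lit 11700808373) (nat_lit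 76) (nat_lit 4109507525) (nat_lit 140) (nat_lit 5) (nat_lit 152) (nat_lit 5) (nat_lit 141) (nat_lit 5) (nat_lit 335) (nat_lit 315) (nat_lit 130)) (XT.lf (nat_lit 0) (nat_lit 1113600765) (nat_lit 532) (nat_lit 14134254222) (nat_lit 608) (nat_lit 14016922620) (nat_lit 133) (nat_lit 5) (nat_lit 140) (nat_lit 5) (nat_lit 141) (nat_lit 5) (nat_lit 336) (nat_lit 315) (nat_lit 129))))))))
noncomputable def xc231 : XT := (XT.nd (nat_lit 1794) (nat_lit 1824) (nat_lit 0) (XT.nd (nat_lit 858) (nat_lit 2356) (nat_lit 0) (XT.nd (nat_lit 390) (nat_lit 1064) (nat_lit 0) (XT.nd (nat_lit 156) (nat_lit 988) (nat_lit 0) (XT.nd (nat_lit 78) (nat_lit 0) (nat_lit 0) (XT.lf (nat_lit 0) (nat_lit 14549438862) (nat_lit 532) (nat_lit 3169705365) (nat_lit 608) (nat_lit 12051249283) (nat_lit 133) (nat_lit 5) (nat_lit 140) (nat_lit 5) (nat_lit 141) (nat_lit 5) (nat_lit 337) (nat_lit 315) (nat_lit 128)) (XT.lf (nat_lit 0)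 (nat_lit 20339634588) (nat_lit 608) (nat_lit 1983791178) (nat_lit 76) (nat_lit 7965506354) (nat_lit 133) (nat_lit 5) (nat_lit 141) (nat_lit 5) (nat_lit 134) (nat_lit 5) (nat_lit 338) (nat_lit 315) (nat_lit 127))) (XT.nd (nat_lit 78) (nat_lit 456) (nat_lit 0) (XT.lf (nat_lit 0) (nat_lit 11847500460) (nat_lit 532) (nat_lit 11333567749) (nat_lit 608) (nat_lit 7637694753) (nat_lit 126) (nat_lit 5) (nat_lit 133) (nat_lit 5) (nat_lit 134) (nat_lit 5) (nat_lit 339) (nat_lit 315) (nat_lit 126)) (XT.nd (nat_lit 78) (nat_lit 456) (nat_lit 0) (XT.lf (nat_lit 0) (nat_lit 26124960973) (nat_lit 608) (nat_lit 5232411640) (nat_lit 76) (nat_lit 6605389) (nat_lit 126) (nat_lit 5) (nat_lit 134) (nat_lit 5) (nat_lit 127) (nat_lit 5) (nat_lit 340) (nat_lit 315) (nat_lit 125)) (XT.lf (nat_lit 0) (nat_lit 8978826793) (nat_lit 456) (nat_lit 20374071228) (nat_lit 532) (nat_lit 2566785234) (nat_lit 120) (nat_lit 5) (nat_lit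 126) (nat_lit 5) (nat_lit 127) (nat_lit 5) (nat_lit 341) (nat_lit 315) (nat_lit 124))))) (XT.nd (nat_lit 234) (nat_lit 456) (nat_lit 0) (XT.nd (nat_lit 78) (nat_lit 532) (nat_lit 0) (XT.lf (nat_lit 0) (nat_lit 232578325) (nat_lit 532) (nat_lit 8771927171) (nat_lit 76) (nat_lit 23485988306) (nat_lit 119) (nat_lit 5) (nat_lit 126) (nat_lit 5) (nat_lit 120) (nat_lit 5) (nat_lit 342) (nat_lit 315) (nat_lit 123)) (XT.nd (nat_lit 78) (nat_lit 0) (nat_lit 0) (XT.lf (nat_lit 0) (nat_lit 3145270398) (nat_lit 608) (nat_lit 27193633217) (nat_lit 76) (nat_lit 2736339629) (nat_lit 112) (nat_lit 5) (nat_lit 120) (nat_lit 5) (nat_lit 113) (nat_lit 5) (nat_lit 343) (nat_lit 315) (nat_lit 122)) (XT.lf (nat_lit 0) (nat_lit 6321312309) (nat_lit 608) (nat_lit 12613121157) (nat_lit 76) (nat_lit 14737827597) (nat_lit 112) (nat_lit 5) (nat_lit 120) (nat_lit 5) (nat_lit 113) (nat_lit 5) (nat_lit 344) (nat_lit 315) (nat_lit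 121)))) (XT.nd (nat_lit 78) (nat_lit 0) (nat_lit 0) (XT.lf (nat_lit 0) (nat_lit 2449911826) (nat_lit 456) (nat_lit 7163709886) (nat_lit 532) (nat_lit 24672942937) (nat_lit 106) (nat_lit 5) (nat_lit 112) (nat_lit 5) (nat_lit 113) (nat_lit 5) (nat_lit 345) (nat_lit 315) (nat_lit 120)) (XT.nd (nat_lit 78) (nat_lit 0) (nat_lit 0) (XT.lf (nat_lit 0) (nat_lit 13178492726) (nat_lit 532) (nat_lit 16743777967) (nat_lit 76) (nat_lit 4991817560) (nat_lit 106) (nat_lit 5) (nat_lit 113) (nat_lit 5) (nat_lit 107) (nat_lit 5) (nat_lit 346) (nat_lit 315) (nat_lit 119)) (XT.lf (nat_lit 0) (nat_lit 16918794597) (nat_lit 532) (nat_lit 1271717647) (nat_lit 76) (nat_lit 17367875323) (nat_lit 106) (nat_lit 5) (nat_lit 113) (nat_lit 5) (nat_lit 107) (nat_lit 5) (nat_lit 347) (nat_lit 315) (nat_lit 118)))))) (XT.nd (nat_lit 468) (nat_lit 1064) (nat_lit 0) (XT.nd (nat_lit 234) (nat_lit 456) (nat_lit 0) (XT.nd (nat_lit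 78) (nat_lit 380) (nat_lit 0) (XT.lf (nat_lit 0) (nat_lit 14953710118) (nat_lit 456) (nat_lit 5958967680) (nat_lit 532) (nat_lit 15305101306) (nat_lit 100) (nat_lit 5) (nat_lit 106) (nat_lit 5) (nat_lit 107) (nat_lit 5) (nat_lit 348) (nat_lit 315) (nat_lit 117)) (XT.nd (nat_lit 78) (nat_lit 380) (nat_lit 0) (XT.lf (nat_lit 0) (nat_lit 25100839777) (nat_lit 532) (nat_lit 5271189204) (nat_lit 76) (nat_lit 6522693819) (nat_lit 100) (nat_lit 5) (nat_lit 107) (nat_lit 5) (nat_lit 101) (nat_lit 5) (nat_lit 349) (nat_lit 315) (nat_lit 116)) (XT.lf (nat_lit 0) (nat_lit 11361618884) (nat_lit 380) (nat_lit 18218980223) (nat_lit 456) (nat_lit 8006401284) (nat_lit 95) (nat_lit 5) (nat_lit 100) (nat_lit 5) (nat_lit 101) (nat_lit 5) (nat_lit 350) (nat_lit 315) (nat_lit 115)))) (XT.nd (nat_lit 78) (nat_lit 456) (nat_lit 0) (XT.lf (nat_lit 0) (nat_lit 28598926057) (nat_lit 380) (nat_lit 5646833293) (nat_lit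 456) (nat_lit 4052760754) (nat_lit 95) (nat_lit 5) (nat_lit 100) (nat_lit 5) (nat_lit 101) (nat_lit 5) (nat_lit 351) (nat_lit 315) (nat_lit 114)) (XT.nd (nat_lit 78) (nat_lit 0) (nat_lit 0) (XT.lf (nat_lit 0) (nat_lit 159590179) (nat_lit 456) (nat_lit 31635266483) (nat_lit 76) (nat_lit 7232312485) (nat_lit 89) (nat_lit 5) (nat_lit 95) (nat_lit 5) (nat_lit 90) (nat_lit 5) (nat_lit 352) (nat_lit 315) (nat_lit 113)) (XT.lf (nat_lit 0) (nat_lit 4569536278) (nat_lit 456) (nat_lit 14679320758) (nat_lit 76) (nat_lit 20523040097) (nat_lit 89) (nat_lit 5) (nat_lit 95) (nat_lit 5) (nat_lit 90) (nat_lit 5) (nat_lit 353) (nat_lit 315) (nat_lit 112))))) (XT.nd (nat_lit 234) (nat_lit 684) (nat_lit 0) (XT.nd (nat_lit 78) (nat_lit 0) (nat_lit 0) (XT.lf (nat_lit 0) (nat_lit 2838208767) (nat_lit 380) (nat_lit 6298772283) (nat_lit 456) (nat_lit 31401233487) (nat_lit 84) (nat_lit 5) (nat_lit 89) (nat_lit 5) (nat_lit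 90) (nat_lit 5) (nat_lit 354) (nat_lit 315) (nat_lit 111)) (XT.nd (nat_lit 78) (nat_lit 0) (nat_lit 0) (XT.lf (nat_lit 0) (nat_lit 14056771002) (nat_lit 456) (nat_lit 20212552147) (nat_lit 76) (nat_lit 7051742141) (nat_lit 84) (nat_lit 5) (nat_lit 90) (nat_lit 5) (nat_lit 85) (nat_lit 5) (nat_lit 355) (nat_lit 315) (nat_lit 110)) (XT.lf (nat_lit 0) (nat_lit 19184529242) (nat_lit 456) (nat_lit 2265280609) (nat_lit 76) (nat_lit 20675783856) (nat_lit 84) (nat_lit 5) (nat_lit 90) (nat_lit 5) (nat_lit 85) (nat_lit 5) (nat_lit 356) (nat_lit 315) (nat_lit 109)))) (XT.nd (nat_lit 78) (nat_lit 304) (nat_lit 0) (XT.lf (nat_lit 0) (nat_lit 16540809343) (nat_lit 380) (nat_lit 8082379720) (nat_lit 456) (nat_lit 18326360134) (nat_lit 79) (nat_lit 5) (nat_lit 84) (nat_lit 5) (nat_lit 85) (nat_lit 5) (nat_lit 357) (nat_lit 315) (nat_lit 108)) (XT.nd (nat_lit 78) (nat_lit 304) (nat_lit 0) (XT.lf (nat_lit 0) (nat_lit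 30300865901) (nat_lit 456) (nat_lit 7897306637) (nat_lit 76) (nat_lit 5597778282) (nat_lit 79) (nat_lit 5) (nat_lit 85) (nat_lit 5) (nat_lit 80) (nat_lit 5) (nat_lit 358) (nat_lit 315) (nat_lit 107)) (XT.lf (nat_lit 0) (nat_lit 11307768233) (nat_lit 304) (nat_lit 25027978790) (nat_lit 380) (nat_lit 8326394343) (nat_lit 75) (nat_lit 5) (nat_lit 79) (nat_lit 5) (nat_lit 80) (nat_lit 5) (nat_lit 359) (nat_lit 315) (nat_lit 106))))))) (XT.nd (nat_lit 936) (nat_lit 228) (nat_lit 0) (XT.nd (nat_lit 468) (nat_lit 912) (nat_lit 0) (XT.nd (nat_lit 234) (nat_lit 304) (nat_lit 0) (XT.nd (nat_lit 78) (nat_lit 380) (nat_lit 0) (XT.lf (nat_lit 0) (nat_lit 31248572199) (nat_lit 304) (nat_lit 11381034508) (nat_lit 380) (nat_lit 2922375962) (nat_lit 75) (nat_lit 5) (nat_lit 79) (nat_lit 5) (nat_lit 80) (nat_lit 5) (nat_lit 360) (nat_lit 315) (nat_lit 105)) (XT.nd (nat_lit 78) (nat_lit 0) (nat_lit 0) (XT.lf (nat_lit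 0) (nat_lit 2668744593) (nat_lit 380) (nat_lit 41096038724) (nat_lit 76) (nat_lit 2700679194) (nat_lit 70) (nat_lit 5) (nat_lit 75) (nat_lit 5) (nat_lit 71) (nat_lit 5) (nat_lit 361) (nat_lit 315) (nat_lit 104)) (XT.lf (nat_lit 0) (nat_lit 8625654591) (nat_lit 380) (nat_lit 21621721984) (nat_lit 76) (nat_lit 17150401107) (nat_lit 70) (nat_lit 5) (nat_lit 75) (nat_lit 5) (nat_lit 71) (nat_lit 5) (nat_lit 362) (nat_lit 315) (nat_lit 103)))) (XT.nd (nat_lit 78) (nat_lit 304) (nat_lit 0) (XT.lf (nat_lit 0) (nat_lit 14759565789) (nat_lit 380) (nat_lit 1565417785) (nat_lit 76) (nat_lit 32033132587) (nat_lit 70) (nat_lit 5) (nat_lit 75) (nat_lit 5) (nat_lit 71) (nat_lit 5) (nat_lit 363) (nat_lit 315) (nat_lit 102)) (XT.nd (nat_lit 78) (nat_lit 0) (nat_lit 0) (XT.lf (nat_lit 0) (nat_lit 19470335164) (nat_lit 304) (nat_lit 1792663522) (nat_lit 380) (nat_lit 28078703568) (nat_lit 66) (nat_lit 5) (nat_lit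 70) (nat_lit 5) (nat_lit 71) (nat_lit 5) (nat_lit 364) (nat_lit 315) (nat_lit 101)) (XT.lf (nat_lit 0) (nat_lit 28102516968) (nat_lit 380) (nat_lit 9314081881) (nat_lit 76) (nat_lit 12933970126) (nat_lit 66) (nat_lit 5) (nat_lit 71) (nat_lit 5) (nat_lit 67) (nat_lit 5) (nat_lit 365) (nat_lit 315) (nat_lit 100))))) (XT.nd (nat_lit 234) (nat_lit 380) (nat_lit 0) (XT.nd (nat_lit 78) (nat_lit 228) (nat_lit 0) (XT.lf (nat_lit 0) (nat_lit 12075675062) (nat_lit 304) (nat_lit 23203787302) (nat_lit 380) (nat_lit 16106274529) (nat_lit 62) (nat_lit 5) (nat_lit 66) (nat_lit 5) (nat_lit 67) (nat_lit 5) (nat_lit 366) (nat_lit 315) (nat_lit 99)) (XT.nd (nat_lit 78) (nat_lit 228) (nat_lit 0) (XT.lf (nat_lit 0) (nat_lit 34295937624) (nat_lit 304) (nat_lit 8468271967) (nat_lit 380) (nat_lit 9684977824) (nat_lit 62) (nat_lit 5) (nat_lit 66) (nat_lit 5) (nat_lit 67) (nat_lit 5) (nat_lit 367) (nat_lit 315) (nat_lit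 98)) (XT.lf (nat_lit 0) (nat_lit 3642758414) (nat_lit 228) (nat_lit 46928730990) (nat_lit 304) (nat_lit 2970114646) (nat_lit 59) (nat_lit 5) (nat_lit 62) (nat_lit 5) (nat_lit 63) (nat_lit 5) (nat_lit 368) (nat_lit 315) (nat_lit 97)))) (XT.nd (nat_lit 78) (nat_lit 304) (nat_lit 0) (XT.lf (nat_lit 0) (nat_lit 4136648514) (nat_lit 304) (nat_lit 28322224879) (nat_lit 76) (nat_lit 22198760207) (nat_lit 58) (nat_lit 5) (nat_lit 62) (nat_lit 5) (nat_lit 59) (nat_lit 5) (nat_lit 369) (nat_lit 315) (nat_lit 96)) (XT.nd (nat_lit 78) (nat_lit 304) (nat_lit 0) (XT.lf (nat_lit 0) (nat_lit 11395449348) (nat_lit 304) (nat_lit 6129760407) (nat_lit 76) (nat_lit 38281098242) (nat_lit 58) (nat_lit 5) (nat_lit 62) (nat_lit 5) (nat_lit 59) (nat_lit 5) (nat_lit 370) (nat_lit 315) (nat_lit 95)) (XT.lf (nat_lit 0) (nat_lit 17059379756) (nat_lit 304) (nat_lit 1975193569) (nat_lit 380) (nat_lit 37949994572) (nat_lit 54)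 (nat_lit 5) (nat_lit 58) (nat_lit 5) (nat_lit 59) (nat_lit 5) (nat_lit 371) (nat_lit 315) (nat_lit 94)))))) (XT.nd (nat_lit 36426) (nat_lit 0) (nat_lit 8208) (XT.nd (nat_lit 234) (nat_lit 0) (nat_lit 0) (XT.nd (nat_lit 78) (nat_lit 228) (nat_lit 0) (XT.lf (nat_lit 0) (nat_lit 27098947332) (nat_lit 380) (nat_lit 17264064431) (nat_lit 76) (nat_lit 13829283530) (nat_lit 54) (nat_lit 5) (nat_lit 59) (nat_lit 5) (nat_lit 55) (nat_lit 5) (nat_lit 372) (nat_lit 315) (nat_lit 93)) (XT.nd (nat_lit 78) (nat_lit 0) (nat_lit 0) (XT.lf (nat_lit 0) (nat_lit 6175901823) (nat_lit 228) (nat_lit 29306905792) (nat_lit 304) (nat_lit 23951122170) (nat_lit 51) (nat_lit 5) (nat_lit 54) (nat_lit 5) (nat_lit 55) (nat_lit 5) (nat_lit 373) (nat_lit 315) (nat_lit 92)) (XT.lf (nat_lit 0) (nat_lit 30671033684) (nat_lit 228) (nat_lit 13620136652) (nat_lit 304) (nat_lit 16416455250) (nat_lit 51) (nat_lit 5) (nat_lit 54) (nat_lit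 5) (nat_lit 55) (nat_lit 5) (nat_lit 374) (nat_lit 315) (nat_lit 91)))) (XT.nd (nat_lit 36036) (nat_lit 0) (nat_lit 8208) (XT.lf (nat_lit 0) (nat_lit 53386860607) (nat_lit 304) (nat_lit 6144811387) (nat_lit 76) (nat_lit 2487169784) (nat_lit 51) (nat_lit 5) (nat_lit 55) (nat_lit 5) (nat_lit 52) (nat_lit 5) (nat_lit 375) (nat_lit 315) (nat_lit 90)) (XT.nd (nat_lit 78) (nat_lit 0) (nat_lit 0) (XT.lf (nat_lit 0) (nat_lit 7442811038) (nat_lit 1140) (nat_lit 1679967203) (nat_lit 1140) (nat_lit 1679967203) (nat_lit 159) (nat_lit 3) (nat_lit 174) (nat_lit 3) (nat_lit 174) (nat_lit 5) (nat_lit 316) (nat_lit 316) (nat_lit 148)) (XT.lf (nat_lit 76) (nat_lit 5895711061) (nat_lit 0) (nat_lit 9398313205) (nat_lit 1140) (nat_lit 6629712863) (nat_lit 160) (nat_lit 5) (nat_lit 159) (nat_lit 3) (nat_lit 174) (nat_lit 5) (nat_lit 317) (nat_lit 316) (nat_lit 147))))) (XT.nd (nat_lit 234) (nat_lit 0) (nat_lit 152)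 (XT.nd (nat_lit 78) (nat_lit 0) (nat_lit 76) (XT.lf (nat_lit 76) (nat_lit 15495262640) (nat_lit 0) (nat_lit 248306429) (nat_lit 1140) (nat_lit 6507105997) (nat_lit 160) (nat_lit 5) (nat_lit 159) (nat_lit 3) (nat_lit 174) (nat_lit 5) (nat_lit 318) (nat_lit 316) (nat_lit 146)) (XT.nd (nat_lit 78) (nat_lit 0) (nat_lit 0) (XT.lf (nat_lit 76) (nat_lit 2758254238) (nat_lit 0) (nat_lit 13558198198) (nat_lit 1140) (nat_lit 6267683848) (nat_lit 161) (nat_lit 5) (nat_lit 160) (nat_lit 5) (nat_lit 175) (nat_lit 5) (nat_lit 319) (nat_lit 316) (nat_lit 145)) (XT.lf (nat_lit 76) (nat_lit 12690588099) (nat_lit 0) (nat_lit 4281831660) (nat_lit 1140) (nat_lit 5953215051) (nat_lit 161) (nat_lit 5) (nat_lit 160) (nat_lit 5) (nat_lit 175) (nat_lit 5) (nat_lit 320) (nat_lit 316) (nat_lit 144)))) (XT.nd (nat_lit 78) (nat_lit 0) (nat_lit 0) (XT.lf (nat_lit 0) (nat_lit 17694155861) (nat_lit 1064) (nat_lit 409975168)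 (nat_lit 1140) (nat_lit 5171874662) (nat_lit 161) (nat_lit 5) (nat_lit 175) (nat_lit 5) (nat_lit 176) (nat_lit 5) (nat_lit 321) (nat_lit 316) (nat_lit 143)) (XT.nd (nat_lit 78) (nat_lit 0) (nat_lit 76) (XT.lf (nat_lit 76) (nat_lit 9857079700) (nat_lit 0) (nat_lit 8713148991) (nat_lit 1140) (nat_lit 5062688268) (nat_lit 162) (nat_lit 5) (nat_lit 161) (nat_lit 5) (nat_lit 176) (nat_lit 5) (nat_lit 322) (nat_lit 316) (nat_lit 142)) (XT.lf (nat_lit 0) (nat_lit 19481646578) (nat_lit 1064) (nat_lit 3571977086) (nat_lit 1140) (nat_lit 946649527) (nat_lit 162) (nat_lit 5) (nat_lit 176) (nat_lit 5) (nat_lit 177) (nat_lit 5) (nat_lit 323) (nat_lit 316) (nat_lit 141))))))))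
noncomputable def xc232 : XT := (XT.nd (nat_lit 1794) (nat_lit 3572) (nat_lit 0) (XT.nd (nat_lit 858) (nat_lit 3268) (nat_lit 0) (XT.nd (nat_lit 390) (nat_lit 988) (nat_lit 0) (XT.nd (nat_lit 156) (nat_lit 0) (nat_lit 76) (XT.nd (nat_lit 78) (nat_lit 0) (nat_lit 0) (XT.lf (nat_lit 76) (nat_lit 6985269773) (nat_lit 0) (nat_lit 13584337216) (nat_lit 1140) (nat_lit 3804576359) (nat_lit 163) (nat_lit 5) (nat_lit 162) (nat_lit 5) (nat_lit 177) (nat_lit 5) (nat_lit 324) (nat_lit 316) (nat_lit 140)) (XT.lf (nat_lit 76) (nat_lit 17929715115) (nat_lit 0) (nat_lit 3792441996) (nat_lit 1140) (nat_lit 3036204139) (nat_lit 163) (nat_lit 5) (nat_lit 162) (nat_lit 5) (nat_lit 177) (nat_lit 5) (nat_lit 325) (nat_lit 316) (nat_lit 139))) (XT.nd (nat_lit 78) (nat_lit 0) (nat_lit 0) (XT.lf (nat_lit 76) (nat_lit 4064444435) (nat_lit 0) (nat_lit 18940417181) (nat_lit 1140) (nat_lit 2146344242) (nat_lit 164) (nat_lit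 5) (nat_lit 163) (nat_lit 5) (nat_lit 178) (nat_lit 5) (nat_lit 326) (nat_lit 316) (nat_lit 138)) (XT.nd (nat_lit 78) (nat_lit 0) (nat_lit 76) (XT.lf (nat_lit 76) (nat_lit 15383236864) (nat_lit 0) (nat_lit 9045050327) (nat_lit 1140) (nat_lit 1124489868) (nat_lit 164) (nat_lit 5) (nat_lit 163) (nat_lit 5) (nat_lit 178) (nat_lit 5) (nat_lit 327) (nat_lit 316) (nat_lit 137)) (XT.lf (nat_lit 76) (nat_lit 1082466595) (nat_lit 0) (nat_lit 24829608804) (nat_lit 1140) (nat_lit 53798407) (nat_lit 165) (nat_lit 5) (nat_lit 164) (nat_lit 5) (nat_lit 179) (nat_lit 5) (nat_lit 328) (nat_lit 316) (nat_lit 136))))) (XT.nd (nat_lit 234) (nat_lit 0) (nat_lit 76) (XT.nd (nat_lit 78) (nat_lit 0) (nat_lit 0) (XT.lf (nat_lit 0) (nat_lit 1218073686) (nat_lit 1140) (nat_lit 13611319829) (nat_lit 1216) (nat_lit 11555989265) (nat_lit 149) (nat_lit 5) (nat_lit 164) (nat_lit 5) (nat_lit 165) (nat_lit 5) (nat_lit 329) (nat_lit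 316) (nat_lit 135)) (XT.nd (nat_lit 78) (nat_lit 0) (nat_lit 76) (XT.lf (nat_lit 0) (nat_lit 2523395213) (nat_lit 1140) (nat_lit 2004399440) (nat_lit 1216) (nat_lit 22289782664) (nat_lit 149) (nat_lit 5) (nat_lit 164) (nat_lit 5) (nat_lit 165) (nat_lit 5) (nat_lit 330) (nat_lit 316) (nat_lit 134)) (XT.lf (nat_lit 0) (nat_lit 4021331552) (nat_lit 1140) (nat_lit 17173372126) (nat_lit 1216) (nat_lit 6063437649) (nat_lit 150) (nat_lit 5) (nat_lit 165) (nat_lit 5) (nat_lit 166) (nat_lit 5) (nat_lit 331) (nat_lit 316) (nat_lit 133)))) (XT.nd (nat_lit 78) (nat_lit 0) (nat_lit 0) (XT.lf (nat_lit 0) (nat_lit 5626040619) (nat_lit 1140) (nat_lit 5181450461) (nat_lit 1216) (nat_lit 16902583215) (nat_lit 150) (nat_lit 5) (nat_lit 165) (nat_lit 5) (nat_lit 166) (nat_lit 5) (nat_lit 332) (nat_lit 316) (nat_lit 132)) (XT.nd (nat_lit 78) (nat_lit 0) (nat_lit 76) (XT.lf (nat_lit 76) (nat_lit 7310151486) (nat_lit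 0) (nat_lit 35673279) (nat_lit 1216) (nat_lit 20827739348) (nat_lit 151) (nat_lit 5) (nat_lit 150) (nat_lit 5) (nat_lit 166) (nat_lit 5) (nat_lit 333) (nat_lit 316) (nat_lit 131)) (XT.lf (nat_lit 0) (nat_lit 9273092547) (nat_lit 1140) (nat_lit 8476307692) (nat_lit 76) (nat_lit 10896888353) (nat_lit 151) (nat_lit 5) (nat_lit 166) (nat_lit 5) (nat_lit 152) (nat_lit 5) (nat_lit 334) (nat_lit 316) (nat_lit 130)))))) (XT.nd (nat_lit 468) (nat_lit 1520) (nat_lit 0) (XT.nd (nat_lit 234) (nat_lit 532) (nat_lit 0) (XT.nd (nat_lit 78) (nat_lit 532) (nat_lit 0) (XT.lf (nat_lit 0) (nat_lit 4364497958) (nat_lit 836) (nat_lit 6932823587) (nat_lit 912) (nat_lit 17834705445) (nat_lit 140) (nat_lit 5) (nat_lit 151) (nat_lit 5) (nat_lit 152) (nat_lit 5) (nat_lit 335) (nat_lit 316) (nat_lit 129)) (XT.nd (nat_lit 78) (nat_lit 532) (nat_lit 0) (XT.lf (nat_lit 0) (nat_lit 13506077044) (nat_lit 912) (nat_lit 11909588325)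 (nat_lit 76) (nat_lit 4212964472) (nat_lit 140) (nat_lit 5) (nat_lit 152) (nat_lit 5) (nat_lit 141) (nat_lit 5) (nat_lit 336) (nat_lit 316) (nat_lit 128)) (XT.lf (nat_lit 0) (nat_lit 1287858536) (nat_lit 532) (nat_lit 14571254094) (nat_lit 608) (nat_lit 14278683729) (nat_lit 133) (nat_lit 5) (nat_lit 140) (nat_lit 5) (nat_lit 141) (nat_lit 5) (nat_lit 337) (nat_lit 316) (nat_lit 127)))) (XT.nd (nat_lit 78) (nat_lit 532) (nat_lit 0) (XT.lf (nat_lit 0) (nat_lit 15122669356) (nat_lit 532) (nat_lit 3277390938) (nat_lit 608) (nat_lit 12258663878) (nat_lit 133) (nat_lit 5) (nat_lit 140) (nat_lit 5) (nat_lit 141) (nat_lit 5) (nat_lit 338) (nat_lit 316) (nat_lit 126)) (XT.nd (nat_lit 78) (nat_lit 532) (nat_lit 0) (XT.lf (nat_lit 0) (nat_lit 21094698068) (nat_lit 608) (nat_lit 1905781092) (nat_lit 76) (nat_lit 8192482564) (nat_lit 133) (nat_lit 5) (nat_lit 141) (nat_lit 5) (nat_lit 134) (nat_lit 5) (nat_lit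 339) (nat_lit 316) (nat_lit 125)) (XT.lf (nat_lit 0) (nat_lit 12339101022) (nat_lit 532) (nat_lit 11679363034) (nat_lit 608) (nat_lit 7720319263) (nat_lit 126) (nat_lit 5) (nat_lit 133) (nat_lit 5) (nat_lit 134) (nat_lit 5) (nat_lit 340) (nat_lit 316) (nat_lit 124))))) (XT.nd (nat_lit 234) (nat_lit 988) (nat_lit 0) (XT.nd (nat_lit 78) (nat_lit 532) (nat_lit 0) (XT.lf (nat_lit 0) (nat_lit 27046484715) (nat_lit 608) (nat_lit 5252710474) (nat_lit 76) (nat_lit 1293547) (nat_lit 126) (nat_lit 5) (nat_lit 134) (nat_lit 5) (nat_lit 127) (nat_lit 5) (nat_lit 341) (nat_lit 316) (nat_lit 123)) (XT.nd (nat_lit 78) (nat_lit 76) (nat_lit 0) (XT.lf (nat_lit 0) (nat_lit 9383525175) (nat_lit 456) (nat_lit 20985022747) (nat_lit 532) (nat_lit 2504406604) (nat_lit 120) (nat_lit 5) (nat_lit 126) (nat_lit 5) (nat_lit 127) (nat_lit 5) (nat_lit 342) (nat_lit 316) (nat_lit 122)) (XT.lf (nat_lit 0) (nat_lit 372237557)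 (nat_lit 532) (nat_lit 8900800542) (nat_lit 76) (nat_lit 24187938070) (nat_lit 119) (nat_lit 5) (nat_lit 126) (nat_lit 5) (nat_lit 120) (nat_lit 5) (nat_lit 343) (nat_lit 316) (nat_lit 121)))) (XT.nd (nat_lit 78) (nat_lit 456) (nat_lit 0) (XT.lf (nat_lit 0) (nat_lit 3369751651) (nat_lit 608) (nat_lit 27872354377) (nat_lit 76) (nat_lit 2821246167) (nat_lit 112) (nat_lit 5) (nat_lit 120) (nat_lit 5) (nat_lit 113) (nat_lit 5) (nat_lit 344) (nat_lit 316) (nat_lit 120)) (XT.nd (nat_lit 78) (nat_lit 456) (nat_lit 0) (XT.lf (nat_lit 0) (nat_lit 6637284825) (nat_lit 608) (nat_lit 12858419806) (nat_lit 76) (nat_lit 15182696744) (nat_lit 112) (nat_lit 5) (nat_lit 120) (nat_lit 5) (nat_lit 113) (nat_lit 5) (nat_lit 345) (nat_lit 316) (nat_lit 119)) (XT.lf (nat_lit 0) (nat_lit 2655199314) (nat_lit 456) (nat_lit 7370751437) (nat_lit 532) (nat_lit 25285262618) (nat_lit 106) (nat_lit 5) (nat_lit 112) (nat_lit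 5) (nat_lit 113) (nat_lit 5) (nat_lit 346) (nat_lit 316) (nat_lit 118))))))) (XT.nd (nat_lit 858) (nat_lit 1900) (nat_lit 0) (XT.nd (nat_lit 390) (nat_lit 836) (nat_lit 0) (XT.nd (nat_lit 156) (nat_lit 836) (nat_lit 0) (XT.nd (nat_lit 78) (nat_lit 0) (nat_lit 0) (XT.lf (nat_lit 0) (nat_lit 13694232010) (nat_lit 532) (nat_lit 17114379943) (nat_lit 76) (nat_lit 5149063522) (nat_lit 106) (nat_lit 5) (nat_lit 113) (nat_lit 5) (nat_lit 107) (nat_lit 5) (nat_lit 347) (nat_lit 316) (nat_lit 117)) (XT.lf (nat_lit 0) (nat_lit 17543236592) (nat_lit 532) (nat_lit 1181994067) (nat_lit 76) (nat_lit 17896184821) (nat_lit 106) (nat_lit 5) (nat_lit 113) (nat_lit 5) (nat_lit 107) (nat_lit 5) (nat_lit 348) (nat_lit 316) (nat_lit 116))) (XT.nd (nat_lit 78) (nat_lit 380) (nat_lit 0) (XT.lf (nat_lit 0) (nat_lit 15528942853) (nat_lit 456) (nat_lit 6125806380) (nat_lit 532) (nat_lit 15645911472) (nat_lit 100) (nat_lit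 5) (nat_lit 106) (nat_lit 5) (nat_lit 107) (nat_lit 5) (nat_lit 349) (nat_lit 316) (nat_lit 115)) (XT.nd (nat_lit 78) (nat_lit 380) (nat_lit 0) (XT.lf (nat_lit 0) (nat_lit 25965326896) (nat_lit 532) (nat_lit 5302957384) (nat_lit 76) (nat_lit 6729731456) (nat_lit 100) (nat_lit 5) (nat_lit 107) (nat_lit 5) (nat_lit 101) (nat_lit 5) (nat_lit 350) (nat_lit 316) (nat_lit 114)) (XT.lf (nat_lit 0) (nat_lit 11827596051) (nat_lit 380) (nat_lit 18749839305) (nat_lit 456) (nat_lit 8133693576) (nat_lit 95) (nat_lit 5) (nat_lit 100) (nat_lit 5) (nat_lit 101) (nat_lit 5) (nat_lit 351) (nat_lit 316) (nat_lit 113))))) (XT.nd (nat_lit 234) (nat_lit 380) (nat_lit 0) (XT.nd (nat_lit 78) (nat_lit 456) (nat_lit 0) (XT.lf (nat_lit 0) (nat_lit 29578377916) (nat_lit 380) (nat_lit 5800985549) (nat_lit 456) (nat_lit 4064732172) (nat_lit 95) (nat_lit 5) (nat_lit 100) (nat_lit 5) (nat_lit 101) (nat_lit 5) (nat_lit 352)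 (nat_lit 316) (nat_lit 112)) (XT.nd (nat_lit 78) (nat_lit 0) (nat_lit 0) (XT.lf (nat_lit 0) (nat_lit 270062728) (nat_lit 456) (nat_lit 32458544291) (nat_lit 76) (nat_lit 7466024615) (nat_lit 89) (nat_lit 5) (nat_lit 95) (nat_lit 5) (nat_lit 90) (nat_lit 5) (nat_lit 353) (nat_lit 316) (nat_lit 111)) (XT.lf (nat_lit 0) (nat_lit 4809229010) (nat_lit 456) (nat_lit 14997583694) (nat_lit 76) (nat_lit 21154986402) (nat_lit 89) (nat_lit 5) (nat_lit 95) (nat_lit 5) (nat_lit 90) (nat_lit 5) (nat_lit 354) (nat_lit 316) (nat_lit 110)))) (XT.nd (nat_lit 78) (nat_lit 0) (nat_lit 0) (XT.lf (nat_lit 0) (nat_lit 3044274494) (nat_lit 380) (nat_lit 6467596440) (nat_lit 456) (nat_lit 32239295032) (nat_lit 84) (nat_lit 5) (nat_lit 89) (nat_lit 5) (nat_lit 90) (nat_lit 5) (nat_lit 355) (nat_lit 316) (nat_lit 109)) (XT.nd (nat_lit 78) (nat_lit 0) (nat_lit 0) (XT.lf (nat_lit 0) (nat_lit 14576507182) (nat_lit 456) (nat_lit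 20698617175) (nat_lit 76) (nat_lit 7282465305) (nat_lit 84) (nat_lit 5) (nat_lit 90) (nat_lit 5) (nat_lit 85) (nat_lit 5) (nat_lit 356) (nat_lit 316) (nat_lit 108)) (XT.lf (nat_lit 0) (nat_lit 19855242838) (nat_lit 456) (nat_lit 2216431711) (nat_lit 76) (nat_lit 21314669896) (nat_lit 84) (nat_lit 5) (nat_lit 90) (nat_lit 5) (nat_lit 85) (nat_lit 5) (nat_lit 357) (nat_lit 316) (nat_lit 107)))))) (XT.nd (nat_lit 468) (nat_lit 836) (nat_lit 0) (XT.nd (nat_lit 234) (nat_lit 380) (nat_lit 0) (XT.nd (nat_lit 78) (nat_lit 304) (nat_lit 0) (XT.lf (nat_lit 0) (nat_lit 17152695770) (nat_lit 380) (nat_lit 8302706331) (nat_lit 456) (nat_lit 18779671018) (nat_lit 79) (nat_lit 5) (nat_lit 84) (nat_lit 5) (nat_lit 85) (nat_lit 5) (nat_lit 358) (nat_lit 316) (nat_lit 106)) (XT.nd (nat_lit 78) (nat_lit 304) (nat_lit 0) (XT.lf (nat_lit 0) (nat_lit 31300892107) (nat_lit 456) (nat_lit 8019262893) (nat_lit 76) (nat_lit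 5786791879) (nat_lit 79) (nat_lit 5) (nat_lit 85) (nat_lit 5) (nat_lit 80) (nat_lit 5) (nat_lit 359) (nat_lit 316) (nat_lit 105)) (XT.lf (nat_lit 0) (nat_lit 11760837136) (nat_lit 304) (nat_lit 25754426295) (nat_lit 380) (nat_lit 8483910839) (nat_lit 75) (nat_lit 5) (nat_lit 79) (nat_lit 5) (nat_lit 80) (nat_lit 5) (nat_lit 360) (nat_lit 316) (nat_lit 104)))) (XT.nd (nat_lit 78) (nat_lit 380) (nat_lit 0) (XT.lf (nat_lit 0) (nat_lit 32296549613) (nat_lit 304) (nat_lit 11698784128) (nat_lit 380) (nat_lit 2920459537) (nat_lit 75) (nat_lit 5) (nat_lit 79) (nat_lit 5) (nat_lit 80) (nat_lit 5) (nat_lit 361) (nat_lit 316) (nat_lit 103)) (XT.nd (nat_lit 78) (nat_lit 0) (nat_lit 0) (XT.lf (nat_lit 0) (nat_lit 2835397845) (nat_lit 380) (nat_lit 42215127870) (nat_lit 76) (nat_lit 2806167487) (nat_lit 70) (nat_lit 5) (nat_lit 75) (nat_lit 5) (nat_lit 71) (nat_lit 5) (nat_lit 362) (nat_lit 316) (nat_lit 102))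 (XT.lf (nat_lit 0) (nat_lit 8968493078) (nat_lit 380) (nat_lit 22159895958) (nat_lit 76) (nat_lit 17688668400) (nat_lit 70) (nat_lit 5) (nat_lit 75) (nat_lit 5) (nat_lit 71) (nat_lit 5) (nat_lit 363) (nat_lit 316) (nat_lit 101))))) (XT.nd (nat_lit 234) (nat_lit 532) (nat_lit 0) (XT.nd (nat_lit 78) (nat_lit 304) (nat_lit 0) (XT.lf (nat_lit 0) (nat_lit 15283973005) (nat_lit 380) (nat_lit 1505120430) (nat_lit 76) (nat_lit 33017189923) (nat_lit 70) (nat_lit 5) (nat_lit 75) (nat_lit 5) (nat_lit 71) (nat_lit 5) (nat_lit 364) (nat_lit 316) (nat_lit 100)) (XT.nd (nat_lit 78) (nat_lit 0) (nat_lit 0) (XT.lf (nat_lit 0) (nat_lit 20160653541) (nat_lit 304) (nat_lit 1820498999) (nat_lit 380) (nat_lit 28838268904) (nat_lit 66) (nat_lit 5) (nat_lit 70) (nat_lit 5) (nat_lit 71) (nat_lit 5) (nat_lit 365) (nat_lit 316) (nat_lit 99)) (XT.lf (nat_lit 0) (nat_lit 29023760716) (nat_lit 380) (nat_lit 9488173456) (nat_lit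 76) (nat_lit 13346686473) (nat_lit 66) (nat_lit 5) (nat_lit 71) (nat_lit 5) (nat_lit 67) (nat_lit 5) (nat_lit 366) (nat_lit 316) (nat_lit 98)))) (XT.nd (nat_lit 78) (nat_lit 228) (nat_lit 0) (XT.lf (nat_lit 0) (nat_lit 12542243539) (nat_lit 304) (nat_lit 23872496768) (nat_lit 380) (nat_lit 16510145023) (nat_lit 62) (nat_lit 5) (nat_lit 66) (nat_lit 5) (nat_lit 67) (nat_lit 5) (nat_lit 367) (nat_lit 316) (nat_lit 97)) (XT.nd (nat_lit 78) (nat_lit 228) (nat_lit 0) (XT.lf (nat_lit 0) (nat_lit 35426076165) (nat_lit 304) (nat_lit 8695714153) (nat_lit 380) (nat_lit 9898519643) (nat_lit 62) (nat_lit 5) (nat_lit 66) (nat_lit 5) (nat_lit 67) (nat_lit 5) (nat_lit 368) (nat_lit 316) (nat_lit 96)) (XT.lf (nat_lit 0) (nat_lit 3854385592) (nat_lit 228) (nat_lit 48307960633) (nat_lit 304) (nat_lit 2983184443) (nat_lit 59) (nat_lit 5) (nat_lit 62) (nat_lit 5) (nat_lit 63) (nat_lit 5) (nat_lit 369) (nat_lit 316)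 (nat_lit 95))))))))
noncomputable def xc233 : XT := (XT.nd (nat_lit 37830) (nat_lit 0) (nat_lit 2508) (XT.nd (nat_lit 36894) (nat_lit 0) (nat_lit 7448) (XT.nd (nat_lit 390) (nat_lit 0) (nat_lit 0) (XT.nd (nat_lit 156) (nat_lit 532) (nat_lit 0) (XT.nd (nat_lit 78) (nat_lit 0) (nat_lit 0) (XT.lf (nat_lit 0) (nat_lit 4333126564) (nat_lit 304) (nat_lit 29070983813) (nat_lit 76) (nat_lit 22890977057) (nat_lit 58) (nat_lit 5) (nat_lit 62) (nat_lit 5) (nat_lit 59) (nat_lit 5) (nat_lit 370) (nat_lit 316) (nat_lit 94)) (XT.lf (nat_lit 0) (nat_lit 11807583309) (nat_lit 304) (nat_lit 6215684469) (nat_lit 76) (nat_lit 39455020552) (nat_lit 58) (nat_lit 5) (nat_lit 62) (nat_lit 5) (nat_lit 59) (nat_lit 5) (nat_lit 371) (nat_lit 316) (nat_lit 93))) (XT.nd (nat_lit 78) (nat_lit 228) (nat_lit 0) (XT.lf (nat_lit 0) (nat_lit 17668169421) (nat_lit 304) (nat_lit 2006597374) (nat_lit 380) (nat_lit 39017165594) (nat_lit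 54) (nat_lit 5) (nat_lit 58) (nat_lit 5) (nat_lit 59) (nat_lit 5) (nat_lit 372) (nat_lit 316) (nat_lit 92)) (XT.nd (nat_lit 78) (nat_lit 228) (nat_lit 0) (XT.lf (nat_lit 0) (nat_lit 27979317694) (nat_lit 380) (nat_lit 17685954240) (nat_lit 76) (nat_lit 14270675151) (nat_lit 54) (nat_lit 5) (nat_lit 59) (nat_lit 5) (nat_lit 55) (nat_lit 5) (nat_lit 373) (nat_lit 316) (nat_lit 91)) (XT.lf (nat_lit 0) (nat_lit 6456269510) (nat_lit 228) (nat_lit 30157375182) (nat_lit 304) (nat_lit 24601220162) (nat_lit 51) (nat_lit 5) (nat_lit 54) (nat_lit 5) (nat_lit 55) (nat_lit 5) (nat_lit 374) (nat_lit 316) (nat_lit 90))))) (XT.nd (nat_lit 36270) (nat_lit 0) (nat_lit 8208) (XT.nd (nat_lit 36114) (nat_lit 0) (nat_lit 8208) (XT.lf (nat_lit 0) (nat_lit 31683485697) (nat_lit 228) (nat_lit 14000839991) (nat_lit 304) (nat_lit 16842506506) (nat_lit 51) (nat_lit 5) (nat_lit 54) (nat_lit 5) (nat_lit 55) (nat_lit 5) (nat_lit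 375) (nat_lit 316) (nat_lit 89)) (XT.nd (nat_lit 78) (nat_lit 0) (nat_lit 0) (XT.lf (nat_lit 0) (nat_lit 7793305357) (nat_lit 1140) (nat_lit 1664713139) (nat_lit 1140) (nat_lit 1664713139) (nat_lit 159) (nat_lit 3) (nat_lit 174) (nat_lit 3) (nat_lit 174) (nat_lit 5) (nat_lit 317) (nat_lit 317) (nat_lit 146)) (XT.lf (nat_lit 76) (nat_lit 6202601237) (nat_lit 0) (nat_lit 9798503263) (nat_lit 1140) (nat_lit 6572353516) (nat_lit 160) (nat_lit 5) (nat_lit 159) (nat_lit 3) (nat_lit 174) (nat_lit 5) (nat_lit 318) (nat_lit 317) (nat_lit 145)))) (XT.nd (nat_lit 78) (nat_lit 0) (nat_lit 76) (XT.lf (nat_lit 76) (nat_lit 16086352408) (nat_lit 0) (nat_lit 370552381) (nat_lit 1140) (nat_lit 6453532058) (nat_lit 160) (nat_lit 5) (nat_lit 159) (nat_lit 3) (nat_lit 174) (nat_lit 5) (nat_lit 319) (nat_lit 317) (nat_lit 144)) (XT.nd (nat_lit 78) (nat_lit 0) (nat_lit 0) (XT.lf (nat_lit 76) (nat_lit 2974771272) (nat_lit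 0) (nat_lit 14065397649) (nat_lit 1140) (nat_lit 6213952518) (nat_lit 161) (nat_lit 5) (nat_lit 160) (nat_lit 5) (nat_lit 175) (nat_lit 5) (nat_lit 320) (nat_lit 317) (nat_lit 143)) (XT.lf (nat_lit 76) (nat_lit 13201178953) (nat_lit 0) (nat_lit 4507814285) (nat_lit 1140) (nat_lit 5897091265) (nat_lit 161) (nat_lit 5) (nat_lit 160) (nat_lit 5) (nat_lit 175) (nat_lit 5) (nat_lit 321) (nat_lit 317) (nat_lit 142)))))) (XT.nd (nat_lit 468) (nat_lit 912) (nat_lit 0) (XT.nd (nat_lit 234) (nat_lit 0) (nat_lit 76) (XT.nd (nat_lit 78) (nat_lit 0) (nat_lit 0) (XT.lf (nat_lit 0) (nat_lit 18444847906) (nat_lit 1064) (nat_lit 288167570) (nat_lit 1140) (nat_lit 5234191524) (nat_lit 161) (nat_lit 5) (nat_lit 175) (nat_lit 5) (nat_lit 176) (nat_lit 5) (nat_lit 322) (nat_lit 317) (nat_lit 141)) (XT.nd (nat_lit 78) (nat_lit 0) (nat_lit 76) (XT.lf (nat_lit 76) (nat_lit 10285584171) (nat_lit 0) (nat_lit 9056491324)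 (nat_lit 1140) (nat_lit 4992917997) (nat_lit 162) (nat_lit 5) (nat_lit 161) (nat_lit 5) (nat_lit 176) (nat_lit 5) (nat_lit 323) (nat_lit 317) (nat_lit 140)) (XT.lf (nat_lit 0) (nat_lit 20273816569) (nat_lit 1064) (nat_lit 3542737575) (nat_lit 1140) (nat_lit 897040503) (nat_lit 162) (nat_lit 5) (nat_lit 176) (nat_lit 5) (nat_lit 177) (nat_lit 5) (nat_lit 324) (nat_lit 317) (nat_lit 139)))) (XT.nd (nat_lit 78) (nat_lit 0) (nat_lit 0) (XT.lf (nat_lit 76) (nat_lit 7329889446) (nat_lit 0) (nat_lit 14059774525) (nat_lit 1140) (nat_lit 3709213946) (nat_lit 163) (nat_lit 5) (nat_lit 162) (nat_lit 5) (nat_lit 177) (nat_lit 5) (nat_lit 325) (nat_lit 317) (nat_lit 138)) (XT.nd (nat_lit 78) (nat_lit 0) (nat_lit 76) (XT.lf (nat_lit 76) (nat_lit 18598734316) (nat_lit 0) (nat_lit 3972144569) (nat_lit 1140) (nat_lit 2923892492) (nat_lit 163) (nat_lit 5) (nat_lit 162) (nat_lit 5) (nat_lit 177) (nat_lit 5) (nat_lit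 326) (nat_lit 317) (nat_lit 137)) (XT.lf (nat_lit 76) (nat_lit 4323126035) (nat_lit 0) (nat_lit 19563898178) (nat_lit 1140) (nat_lit 2012540815) (nat_lit 164) (nat_lit 5) (nat_lit 163) (nat_lit 5) (nat_lit 178) (nat_lit 5) (nat_lit 327) (nat_lit 317) (nat_lit 136))))) (XT.nd (nat_lit 234) (nat_lit 0) (nat_lit 0) (XT.nd (nat_lit 78) (nat_lit 1064) (nat_lit 0) (XT.lf (nat_lit 76) (nat_lit 15977499278) (nat_lit 0) (nat_lit 9370060557) (nat_lit 1140) (nat_lit 965803443) (nat_lit 164) (nat_lit 5) (nat_lit 163) (nat_lit 5) (nat_lit 178) (nat_lit 5) (nat_lit 328) (nat_lit 317) (nat_lit 135)) (XT.nd (nat_lit 78) (nat_lit 0) (nat_lit 0) (XT.lf (nat_lit 0) (nat_lit 129673183) (nat_lit 1140) (nat_lit 25487420838) (nat_lit 1216) (nat_lit 1121870692) (nat_lit 149) (nat_lit 5) (nat_lit 164) (nat_lit 5) (nat_lit 165) (nat_lit 5) (nat_lit 329) (nat_lit 317) (nat_lit 134)) (XT.lf (nat_lit 0) (nat_lit 1433260798)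 (nat_lit 1140) (nat_lit 13881838131) (nat_lit 1216) (nat_lit 11856115931) (nat_lit 149) (nat_lit 5) (nat_lit 164) (nat_lit 5) (nat_lit 165) (nat_lit 5) (nat_lit 330) (nat_lit 317) (nat_lit 133)))) (XT.nd (nat_lit 78) (nat_lit 0) (nat_lit 76) (XT.lf (nat_lit 0) (nat_lit 2772538721) (nat_lit 1140) (nat_lit 1930724343) (nat_lit 1216) (nat_lit 22913279045) (nat_lit 149) (nat_lit 5) (nat_lit 164) (nat_lit 5) (nat_lit 165) (nat_lit 5) (nat_lit 331) (nat_lit 317) (nat_lit 132)) (XT.nd (nat_lit 78) (nat_lit 0) (nat_lit 0) (XT.lf (nat_lit 0) (nat_lit 4311277792) (nat_lit 1140) (nat_lit 17550282036) (nat_lit 1216) (nat_lit 6208897734) (nat_lit 150) (nat_lit 5) (nat_lit 165) (nat_lit 5) (nat_lit 166) (nat_lit 5) (nat_lit 332) (nat_lit 317) (nat_lit 131)) (XT.lf (nat_lit 0) (nat_lit 5959196881) (nat_lit 1140) (nat_lit 5202630622) (nat_lit 1216) (nat_lit 17374279115) (nat_lit 150) (nat_lit 5) (nat_lit 165)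 (nat_lit 5) (nat_lit 166) (nat_lit 5) (nat_lit 333) (nat_lit 317) (nat_lit 130))))))) (XT.nd (nat_lit 936) (nat_lit 2128) (nat_lit 0) (XT.nd (nat_lit 468) (nat_lit 1596) (nat_lit 0) (XT.nd (nat_lit 234) (nat_lit 532) (nat_lit 0) (XT.nd (nat_lit 78) (nat_lit 760) (nat_lit 0) (XT.lf (nat_lit 76) (nat_lit 7662403075) (nat_lit 0) (nat_lit 64661821) (nat_lit 1216) (nat_lit 21286551387) (nat_lit 151) (nat_lit 5) (nat_lit 150) (nat_lit 5) (nat_lit 166) (nat_lit 5) (nat_lit 334) (nat_lit 317) (nat_lit 129)) (XT.nd (nat_lit 78) (nat_lit 836) (nat_lit 0) (XT.lf (nat_lit 0) (nat_lit 9707204761) (nat_lit 1140) (nat_lit 8596256956) (nat_lit 76) (nat_lit 11197218736) (nat_lit 151) (nat_lit 5) (nat_lit 166) (nat_lit 5) (nat_lit 152) (nat_lit 5) (nat_lit 335) (nat_lit 317) (nat_lit 128)) (XT.lf (nat_lit 0) (nat_lit 4628455805) (nat_lit 836) (nat_lit 7160442179) (nat_lit 912) (nat_lit 18212200196) (nat_lit 140)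 (nat_lit 5) (nat_lit 151) (nat_lit 5) (nat_lit 152) (nat_lit 5) (nat_lit 336) (nat_lit 317) (nat_lit 127)))) (XT.nd (nat_lit 78) (nat_lit 532) (nat_lit 0) (XT.lf (nat_lit 0) (nat_lit 14059286597) (nat_lit 912) (nat_lit 12132797079) (nat_lit 76) (nat_lit 4320663352) (nat_lit 140) (nat_lit 5) (nat_lit 152) (nat_lit 5) (nat_lit 141) (nat_lit 5) (nat_lit 337) (nat_lit 317) (nat_lit 126)) (XT.nd (nat_lit 78) (nat_lit 0) (nat_lit 0) (XT.lf (nat_lit 0) (nat_lit 1459258688) (nat_lit 532) (nat_lit 15020619302) (nat_lit 608) (nat_lit 14557410374) (nat_lit 133) (nat_lit 5) (nat_lit 140) (nat_lit 5) (nat_lit 141) (nat_lit 5) (nat_lit 338) (nat_lit 317) (nat_lit 125)) (XT.lf (nat_lit 0) (nat_lit 15705246908) (nat_lit 532) (nat_lit 3387584109) (nat_lit 608) (nat_lit 12481148195) (nat_lit 133) (nat_lit 5) (nat_lit 140) (nat_lit 5) (nat_lit 141) (nat_lit 5) (nat_lit 339) (nat_lit 317) (nat_lit 124))))) (XT.nd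 (nat_lit 234) (nat_lit 1064) (nat_lit 0) (XT.nd (nat_lit 78) (nat_lit 532) (nat_lit 0) (XT.lf (nat_lit 0) (nat_lit 21864097067) (nat_lit 608) (nat_lit 1833325134) (nat_lit 76) (nat_lit 8426956276) (nat_lit 133) (nat_lit 5) (nat_lit 141) (nat_lit 5) (nat_lit 134) (nat_lit 5) (nat_lit 340) (nat_lit 317) (nat_lit 123)) (XT.nd (nat_lit 78) (nat_lit 0) (nat_lit 0) (XT.lf (nat_lit 0) (nat_lit 12837632567) (nat_lit 532) (nat_lit 12035199909) (nat_lit 608) (nat_lit 7813832571) (nat_lit 126) (nat_lit 5) (nat_lit 133) (nat_lit 5) (nat_lit 134) (nat_lit 5) (nat_lit 341) (nat_lit 317) (nat_lit 122)) (XT.lf (nat_lit 0) (nat_lit 27983844982) (nat_lit 532) (nat_lit 3938200) (nat_lit 608) (nat_lit 5277563548) (nat_lit 126) (nat_lit 5) (nat_lit 133) (nat_lit 5) (nat_lit 134) (nat_lit 5) (nat_lit 342) (nat_lit 317) (nat_lit 121)))) (XT.nd (nat_lit 78) (nat_lit 608) (nat_lit 0) (XT.lf (nat_lit 0) (nat_lit 9792595808)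 (nat_lit 456) (nat_lit 21614318346) (nat_lit 532) (nat_lit 2448157723) (nat_lit 120) (nat_lit 5) (nat_lit 126) (nat_lit 5) (nat_lit 127) (nat_lit 5) (nat_lit 343) (nat_lit 317) (nat_lit 120)) (XT.nd (nat_lit 78) (nat_lit 532) (nat_lit 0) (XT.lf (nat_lit 0) (nat_lit 508470083) (nat_lit 532) (nat_lit 9041248590) (nat_lit 76) (nat_lit 24911097293) (nat_lit 119) (nat_lit 5) (nat_lit 126) (nat_lit 5) (nat_lit 120) (nat_lit 5) (nat_lit 344) (nat_lit 317) (nat_lit 119)) (XT.lf (nat_lit 0) (nat_lit 3593497742) (nat_lit 608) (nat_lit 28579306575) (nat_lit 76) (nat_lit 2908538231) (nat_lit 112) (nat_lit 5) (nat_lit 120) (nat_lit 5) (nat_lit 113) (nat_lit 5) (nat_lit 345) (nat_lit 317) (nat_lit 118)))))) (XT.nd (nat_lit 468) (nat_lit 1216) (nat_lit 0) (XT.nd (nat_lit 234) (nat_lit 456) (nat_lit 0) (XT.nd (nat_lit 78) (nat_lit 456) (nat_lit 0) (XT.lf (nat_lit 0) (nat_lit 6955484477) (nat_lit 608) (nat_lit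 13118717610) (nat_lit 76) (nat_lit 15640755005) (nat_lit 112) (nat_lit 5) (nat_lit 120) (nat_lit 5) (nat_lit 113) (nat_lit 5) (nat_lit 346) (nat_lit 317) (nat_lit 117)) (XT.nd (nat_lit 78) (nat_lit 0) (nat_lit 0) (XT.lf (nat_lit 0) (nat_lit 2859080134) (nat_lit 456) (nat_lit 7584455990) (nat_lit 532) (nat_lit 25923292071) (nat_lit 106) (nat_lit 5) (nat_lit 112) (nat_lit 5) (nat_lit 113) (nat_lit 5) (nat_lit 347) (nat_lit 317) (nat_lit 116)) (XT.lf (nat_lit 0) (nat_lit 14218532909) (nat_lit 532) (nat_lit 17503660750) (nat_lit 76) (nat_lit 5310596824) (nat_lit 106) (nat_lit 5) (nat_lit 113) (nat_lit 5) (nat_lit 107) (nat_lit 5) (nat_lit 348) (nat_lit 317) (nat_lit 115)))) (XT.nd (nat_lit 78) (nat_lit 456) (nat_lit 0) (XT.lf (nat_lit 0) (nat_lit 18179702563) (nat_lit 532) (nat_lit 1096919334) (nat_lit 76) (nat_lit 18439926090) (nat_lit 106) (nat_lit 5) (nat_lit 113) (nat_lit 5) (nat_lit 107) (nat_lit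 5) (nat_lit 349) (nat_lit 317) (nat_lit 114)) (XT.nd (nat_lit 78) (nat_lit 0) (nat_lit 0) (XT.lf (nat_lit 0) (nat_lit 16114163983) (nat_lit 456) (nat_lit 6298335091) (nat_lit 532) (nat_lit 16003739308) (nat_lit 100) (nat_lit 5) (nat_lit 106) (nat_lit 5) (nat_lit 107) (nat_lit 5) (nat_lit 350) (nat_lit 317) (nat_lit 113)) (XT.lf (nat_lit 0) (nat_lit 26849350258) (nat_lit 532) (nat_lit 5342932619) (nat_lit 76) (nat_lit 6942328293) (nat_lit 100) (nat_lit 5) (nat_lit 107) (nat_lit 5) (nat_lit 101) (nat_lit 5) (nat_lit 351) (nat_lit 317) (nat_lit 112))))) (XT.nd (nat_lit 234) (nat_lit 380) (nat_lit 0) (XT.nd (nat_lit 78) (nat_lit 456) (nat_lit 0) (XT.lf (nat_lit 0) (nat_lit 12300369639) (nat_lit 380) (nat_lit 19297525995) (nat_lit 456) (nat_lit 8271285544) (nat_lit 95) (nat_lit 5) (nat_lit 100) (nat_lit 5) (nat_lit 101) (nat_lit 5) (nat_lit 352) (nat_lit 317) (nat_lit 111)) (XT.nd (nat_lit 78) (nat_lit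 456) (nat_lit 0) (XT.lf (nat_lit 0) (nat_lit 30580239648) (nat_lit 380) (nat_lit 5960637942) (nat_lit 456) (nat_lit 4083354876) (nat_lit 95) (nat_lit 5) (nat_lit 100) (nat_lit 5) (nat_lit 101) (nat_lit 5) (nat_lit 353) (nat_lit 317) (nat_lit 110)) (XT.lf (nat_lit 0) (nat_lit 377782711) (nat_lit 456) (nat_lit 33313740730) (nat_lit 76) (nat_lit 7705787006) (nat_lit 89) (nat_lit 5) (nat_lit 95) (nat_lit 5) (nat_lit 90) (nat_lit 5) (nat_lit 354) (nat_lit 317) (nat_lit 109)))) (XT.nd (nat_lit 78) (nat_lit 380) (nat_lit 0) (XT.lf (nat_lit 0) (nat_lit 5050222483) (nat_lit 456) (nat_lit 15332404516) (nat_lit 76) (nat_lit 21804957987) (nat_lit 89) (nat_lit 5) (nat_lit 95) (nat_lit 5) (nat_lit 90) (nat_lit 5) (nat_lit 355) (nat_lit 317) (nat_lit 108)) (XT.nd (nat_lit 78) (nat_lit 0) (nat_lit 0) (XT.lf (nat_lit 0) (nat_lit 3249580921) (nat_lit 380) (nat_lit 6642641384) (nat_lit 456) (nat_lit 33108467040)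 (nat_lit 84) (nat_lit 5) (nat_lit 89) (nat_lit 5) (nat_lit 90) (nat_lit 5) (nat_lit 356) (nat_lit 317) (nat_lit 107)) (XT.lf (nat_lit 0) (nat_lit 15106207949) (nat_lit 456) (nat_lit 21206170528) (nat_lit 76) (nat_lit 7519009676) (nat_lit 84) (nat_lit 5) (nat_lit 90) (nat_lit 5) (nat_lit 85) (nat_lit 5) (nat_lit 357) (nat_lit 317) (nat_lit 106))))))))
noncomputable def xc234 : XT := (XT.nd (nat_lit 37986) (nat_lit 0) (nat_lit 4408) (XT.nd (nat_lit 858) (nat_lit 608) (nat_lit 0) (XT.nd (nat_lit 390) (nat_lit 988) (nat_lit 0) (XT.nd (nat_lit 156) (nat_lit 304) (nat_lit 0) (XT.nd (nat_lit 78) (nat_lit 380) (nat_lit 0) (XT.lf (nat_lit 0) (nat_lit 20540614251) (nat_lit 456) (nat_lit 2172822563) (nat_lit 76) (nat_lit 21971654082) (nat_lit 84) (nat_lit 5) (nat_lit 90) (nat_lit 5) (nat_lit 85) (nat_lit 5) (nat_lit 358) (nat_lit 317) (nat_lit 105)) (XT.lf (nat_lit 0) (nat_lit 17776299310) (nat_lit 380)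 (nat_lit 8530913942) (nat_lit 456) (nat_lit 19252119570) (nat_lit 79) (nat_lit 5) (nat_lit 84) (nat_lit 5) (nat_lit 85) (nat_lit 5) (nat_lit 359) (nat_lit 317) (nat_lit 104))) (XT.nd (nat_lit 78) (nat_lit 304) (nat_lit 0) (XT.lf (nat_lit 0) (nat_lit 32325695314) (nat_lit 456) (nat_lit 8151477180) (nat_lit 76) (nat_lit 5980265792) (nat_lit 79) (nat_lit 5) (nat_lit 85) (nat_lit 5) (nat_lit 80) (nat_lit 5) (nat_lit 360) (nat_lit 317) (nat_lit 103)) (XT.nd (nat_lit 78) (nat_lit 0) (nat_lit 0) (XT.lf (nat_lit 0) (nat_lit 12220963462) (nat_lit 304) (nat_lit 26504067418) (nat_lit 380) (nat_lit 8651449811) (nat_lit 75) (nat_lit 5) (nat_lit 79) (nat_lit 5) (nat_lit 80) (nat_lit 5) (nat_lit 361) (nat_lit 317) (nat_lit 102)) (XT.lf (nat_lit 0) (nat_lit 33369622036) (nat_lit 304) (nat_lit 12027425646) (nat_lit 380) (nat_lit 2923628320) (nat_lit 75) (nat_lit 5) (nat_lit 79) (nat_lit 5) (nat_lit 80) (nat_lit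 5) (nat_lit 362) (nat_lit 317) (nat_lit 101))))) (XT.nd (nat_lit 234) (nat_lit 608) (nat_lit 0) (XT.nd (nat_lit 78) (nat_lit 0) (nat_lit 0) (XT.lf (nat_lit 0) (nat_lit 3002080022) (nat_lit 380) (nat_lit 43374321817) (nat_lit 76) (nat_lit 2913415870) (nat_lit 70) (nat_lit 5) (nat_lit 75) (nat_lit 5) (nat_lit 71) (nat_lit 5) (nat_lit 363) (nat_lit 317) (nat_lit 100)) (XT.nd (nat_lit 78) (nat_lit 0) (nat_lit 0) (XT.lf (nat_lit 0) (nat_lit 9316790823) (nat_lit 380) (nat_lit 22720557022) (nat_lit 76) (nat_lit 18241720062) (nat_lit 70) (nat_lit 5) (nat_lit 75) (nat_lit 5) (nat_lit 71) (nat_lit 5) (nat_lit 364) (nat_lit 317) (nat_lit 99)) (XT.lf (nat_lit 0) (nat_lit 15819427101) (nat_lit 380) (nat_lit 1449171310) (nat_lit 76) (nat_lit 34029445048) (nat_lit 70) (nat_lit 5) (nat_lit 75) (nat_lit 5) (nat_lit 71) (nat_lit 5) (nat_lit 365) (nat_lit 317) (nat_lit 98)))) (XT.nd (nat_lit 78) (nat_lit 304) (nat_lit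 0) (XT.lf (nat_lit 0) (nat_lit 20865584676) (nat_lit 304) (nat_lit 1850658856) (nat_lit 380) (nat_lit 29625374015) (nat_lit 66) (nat_lit 5) (nat_lit 70) (nat_lit 5) (nat_lit 71) (nat_lit 5) (nat_lit 366) (nat_lit 317) (nat_lit 97)) (XT.nd (nat_lit 78) (nat_lit 304) (nat_lit 0) (XT.lf (nat_lit 0) (nat_lit 29968154600) (nat_lit 380) (nat_lit 9673534203) (nat_lit 76) (nat_lit 13770366587) (nat_lit 66) (nat_lit 5) (nat_lit 71) (nat_lit 5) (nat_lit 67) (nat_lit 5) (nat_lit 367) (nat_lit 317) (nat_lit 96)) (XT.lf (nat_lit 0) (nat_lit 13016821925) (nat_lit 304) (nat_lit 24562840629) (nat_lit 380) (nat_lit 16930684795) (nat_lit 62) (nat_lit 5) (nat_lit 66) (nat_lit 5) (nat_lit 67) (nat_lit 5) (nat_lit 368) (nat_lit 317) (nat_lit 95)))))) (XT.nd (nat_lit 36660) (nat_lit 0) (nat_lit 7980) (XT.nd (nat_lit 234) (nat_lit 304) (nat_lit 0) (XT.nd (nat_lit 78) (nat_lit 304) (nat_lit 0) (XT.lf (nat_lit 0) (nat_lit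 36584306101) (nat_lit 304) (nat_lit 8931506895) (nat_lit 380) (nat_lit 10122888263) (nat_lit 62) (nat_lit 5) (nat_lit 66) (nat_lit 5) (nat_lit 67) (nat_lit 5) (nat_lit 369) (nat_lit 317) (nat_lit 94)) (XT.nd (nat_lit 78) (nat_lit 76) (nat_lit 0) (XT.lf (nat_lit 0) (nat_lit 4066486596) (nat_lit 228) (nat_lit 49730210776) (nat_lit 304) (nat_lit 3001010976) (nat_lit 59) (nat_lit 5) (nat_lit 62) (nat_lit 5) (nat_lit 63) (nat_lit 5) (nat_lit 370) (nat_lit 317) (nat_lit 93)) (XT.lf (nat_lit 0) (nat_lit 4531344128) (nat_lit 304) (nat_lit 29847998036) (nat_lit 76) (nat_lit 23602453322) (nat_lit 58) (nat_lit 5) (nat_lit 62) (nat_lit 5) (nat_lit 59) (nat_lit 5) (nat_lit 371) (nat_lit 317) (nat_lit 92)))) (XT.nd (nat_lit 78) (nat_lit 304) (nat_lit 0) (XT.lf (nat_lit 0) (nat_lit 12228047475) (nat_lit 304) (nat_lit 6309810060) (nat_lit 76) (nat_lit 40662697337) (nat_lit 58) (nat_lit 5) (nat_lit 62) (nat_lit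 5) (nat_lit 59) (nat_lit 5) (nat_lit 372) (nat_lit 317) (nat_lit 91)) (XT.nd (nat_lit 78) (nat_lit 0) (nat_lit 0) (XT.lf (nat_lit 0) (nat_lit 18289654104) (nat_lit 304) (nat_lit 2040542112) (nat_lit 380) (nat_lit 40120446312) (nat_lit 54) (nat_lit 5) (nat_lit 58) (nat_lit 5) (nat_lit 59) (nat_lit 5) (nat_lit 373) (nat_lit 317) (nat_lit 90)) (XT.lf (nat_lit 0) (nat_lit 28882230020) (nat_lit 380) (nat_lit 18126013381) (nat_lit 76) (nat_lit 14723786561) (nat_lit 54) (nat_lit 5) (nat_lit 59) (nat_lit 5) (nat_lit 55) (nat_lit 5) (nat_lit 374) (nat_lit 317) (nat_lit 89))))) (XT.nd (nat_lit 234) (nat_lit 0) (nat_lit 76) (XT.nd (nat_lit 78) (nat_lit 0) (nat_lit 0) (XT.lf (nat_lit 0) (nat_lit 8147012133) (nat_lit 1140) (nat_lit 1652770209) (nat_lit 1140) (nat_lit 1652770209) (nat_lit 159) (nat_lit 3) (nat_lit 174) (nat_lit 3) (nat_lit 174) (nat_lit 5) (nat_lit 318) (nat_lit 318) (nat_lit 144)) (XT.nd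 (nat_lit 78) (nat_lit 0) (nat_lit 0) (XT.lf (nat_lit 76) (nat_lit 6511234506) (nat_lit 0) (nat_lit 10203911525) (nat_lit 1140) (nat_lit 6527983229) (nat_lit 160) (nat_lit 5) (nat_lit 159) (nat_lit 3) (nat_lit 174) (nat_lit 5) (nat_lit 319) (nat_lit 318) (nat_lit 143)) (XT.lf (nat_lit 76) (nat_lit 16687928641) (nat_lit 0) (nat_lit 489875908) (nat_lit 1140) (nat_lit 6412632299) (nat_lit 160) (nat_lit 5) (nat_lit 159) (nat_lit 3) (nat_lit 174) (nat_lit 5) (nat_lit 320) (nat_lit 318) (nat_lit 142)))) (XT.nd (nat_lit 78) (nat_lit 0) (nat_lit 0) (XT.lf (nat_lit 76) (nat_lit 3190104907) (nat_lit 0) (nat_lit 14582046642) (nat_lit 1140) (nat_lit 6172487368) (nat_lit 161) (nat_lit 5) (nat_lit 160) (nat_lit 5) (nat_lit 175) (nat_lit 5) (nat_lit 321) (nat_lit 318) (nat_lit 141)) (XT.nd (nat_lit 78) (nat_lit 0) (nat_lit 76) (XT.lf (nat_lit 76) (nat_lit 13719632279) (nat_lit 0) (nat_lit 4734977901) (nat_lit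 1140) (nat_lit 5852757666) (nat_lit 161) (nat_lit 5) (nat_lit 160) (nat_lit 5) (nat_lit 175) (nat_lit 5) (nat_lit 322) (nat_lit 318) (nat_lit 140)) (XT.lf (nat_lit 0) (nat_lit 19205439426) (nat_lit 1064) (nat_lit 170404026) (nat_lit 1140) (nat_lit 5303707253) (nat_lit 161) (nat_lit 5) (nat_lit 175) (nat_lit 5) (nat_lit 176) (nat_lit 5) (nat_lit 323) (nat_lit 318) (nat_lit 139))))))) (XT.nd (nat_lit 858) (nat_lit 2812) (nat_lit 0) (XT.nd (nat_lit 390) (nat_lit 912) (nat_lit 0) (XT.nd (nat_lit 156) (nat_lit 0) (nat_lit 76) (XT.nd (nat_lit 78) (nat_lit 0) (nat_lit 76) (XT.lf (nat_lit 76) (nat_lit 10719320968) (nat_lit 0) (nat_lit 9405429785) (nat_lit 1140) (nat_lit 4933778287) (nat_lit 162) (nat_lit 5) (nat_lit 161) (nat_lit 5) (nat_lit 176) (nat_lit 5) (nat_lit 324) (nat_lit 318) (nat_lit 138)) (XT.lf (nat_lit 0) (nat_lit 21077827647) (nat_lit 1064) (nat_lit 3520450728) (nat_lit 1140) (nat_lit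 850421215) (nat_lit 162) (nat_lit 5) (nat_lit 176) (nat_lit 5) (nat_lit 177) (nat_lit 5) (nat_lit 325) (nat_lit 318) (nat_lit 137))) (XT.nd (nat_lit 78) (nat_lit 0) (nat_lit 0) (XT.lf (nat_lit 76) (nat_lit 7677094623) (nat_lit 0) (nat_lit 14545576803) (nat_lit 1140) (nat_lit 3623016801) (nat_lit 163) (nat_lit 5) (nat_lit 162) (nat_lit 5) (nat_lit 177) (nat_lit 5) (nat_lit 326) (nat_lit 318) (nat_lit 136)) (XT.nd (nat_lit 78) (nat_lit 0) (nat_lit 76) (XT.lf (nat_lit 76) (nat_lit 19280296825) (nat_lit 0) (nat_lit 4153453607) (nat_lit 1140) (nat_lit 2819887360) (nat_lit 163) (nat_lit 5) (nat_lit 162) (nat_lit 5) (nat_lit 177) (nat_lit 5) (nat_lit 327) (nat_lit 318) (nat_lit 135)) (XT.lf (nat_lit 76) (nat_lit 4581718173) (nat_lit 0) (nat_lit 20202910969) (nat_lit 1140) (nat_lit 1886100418) (nat_lit 164) (nat_lit 5) (nat_lit 163) (nat_lit 5) (nat_lit 178) (nat_lit 5) (nat_lit 328) (nat_lit 318) (nat_lit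 134))))) (XT.nd (nat_lit 234) (nat_lit 0) (nat_lit 0) (XT.nd (nat_lit 78) (nat_lit 1064) (nat_lit 0) (XT.lf (nat_lit 76) (nat_lit 16581968292) (nat_lit 0) (nat_lit 9701740864) (nat_lit 1140) (nat_lit 813402185) (nat_lit 164) (nat_lit 5) (nat_lit 163) (nat_lit 5) (nat_lit 178) (nat_lit 5) (nat_lit 329) (nat_lit 318) (nat_lit 133)) (XT.nd (nat_lit 78) (nat_lit 0) (nat_lit 0) (XT.lf (nat_lit 0) (nat_lit 307005031) (nat_lit 1140) (nat_lit 26118236382) (nat_lit 1216) (nat_lit 1110329714) (nat_lit 149) (nat_lit 5) (nat_lit 164) (nat_lit 5) (nat_lit 165) (nat_lit 5) (nat_lit 330) (nat_lit 318) (nat_lit 132)) (XT.lf (nat_lit 0) (nat_lit 1644648576) (nat_lit 1140) (nat_lit 14168383487) (nat_lit 1216) (nat_lit 12167918730) (nat_lit 149) (nat_lit 5) (nat_lit 164) (nat_lit 5) (nat_lit 165) (nat_lit 5) (nat_lit 331) (nat_lit 318) (nat_lit 131)))) (XT.nd (nat_lit 78) (nat_lit 0) (nat_lit 76) (XT.lf (nat_lit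 0) (nat_lit 3019200274) (nat_lit 1140) (nat_lit 1862520066) (nat_lit 1216) (nat_lit 23558074815) (nat_lit 149) (nat_lit 5) (nat_lit 164) (nat_lit 5) (nat_lit 165) (nat_lit 5) (nat_lit 332) (nat_lit 318) (nat_lit 130)) (XT.nd (nat_lit 78) (nat_lit 0) (nat_lit 0) (XT.lf (nat_lit 0) (nat_lit 4600203546) (nat_lit 1140) (nat_lit 17946437728) (nat_lit 1216) (nat_lit 6360813602) (nat_lit 150) (nat_lit 5) (nat_lit 165) (nat_lit 5) (nat_lit 166) (nat_lit 5) (nat_lit 333) (nat_lit 318) (nat_lit 129)) (XT.lf (nat_lit 0) (nat_lit 6292912030) (nat_lit 1140) (nat_lit 5232153454) (nat_lit 1216) (nat_lit 17862156941) (nat_lit 150) (nat_lit 5) (nat_lit 165) (nat_lit 5) (nat_lit 166) (nat_lit 5) (nat_lit 334) (nat_lit 318) (nat_lit 128)))))) (XT.nd (nat_lit 468) (nat_lit 1596) (nat_lit 0) (XT.nd (nat_lit 234) (nat_lit 532) (nat_lit 0) (XT.nd (nat_lit 78) (nat_lit 760) (nat_lit 0) (XT.lf (nat_lit 76) (nat_lit 8017590508)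 (nat_lit 0) (nat_lit 92917392) (nat_lit 1216) (nat_lit 21768658023) (nat_lit 151) (nat_lit 5) (nat_lit 150) (nat_lit 5) (nat_lit 166) (nat_lit 5) (nat_lit 335) (nat_lit 318) (nat_lit 127)) (XT.nd (nat_lit 78) (nat_lit 836) (nat_lit 0) (XT.lf (nat_lit 0) (nat_lit 10145389928) (nat_lit 1140) (nat_lit 8727516361) (nat_lit 76) (nat_lit 11508084617) (nat_lit 151) (nat_lit 5) (nat_lit 166) (nat_lit 5) (nat_lit 152) (nat_lit 5) (nat_lit 336) (nat_lit 318) (nat_lit 126)) (XT.lf (nat_lit 0) (nat_lit 4892696328) (nat_lit 836) (nat_lit 7393762262) (nat_lit 912) (nat_lit 18610063598) (nat_lit 140) (nat_lit 5) (nat_lit 151) (nat_lit 5) (nat_lit 152) (nat_lit 5) (nat_lit 337) (nat_lit 318) (nat_lit 125)))) (XT.nd (nat_lit 78) (nat_lit 532) (nat_lit 0) (XT.lf (nat_lit 0) (nat_lit 14620595067) (nat_lit 912) (nat_lit 12370398774) (nat_lit 76) (nat_lit 4432666084) (nat_lit 140) (nat_lit 5) (nat_lit 152) (nat_lit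 5) (nat_lit 141) (nat_lit 5) (nat_lit 338) (nat_lit 318) (nat_lit 124)) (XT.nd (nat_lit 78) (nat_lit 0) (nat_lit 0) (XT.lf (nat_lit 0) (nat_lit 1628179626) (nat_lit 532) (nat_lit 15482763553) (nat_lit 608) (nat_lit 14853088414) (nat_lit 133) (nat_lit 5) (nat_lit 140) (nat_lit 5) (nat_lit 141) (nat_lit 5) (nat_lit 339) (nat_lit 318) (nat_lit 123)) (XT.lf (nat_lit 0) (nat_lit 16297902545) (nat_lit 532) (nat_lit 3500401605) (nat_lit 608) (nat_lit 12718646455) (nat_lit 133) (nat_lit 5) (nat_lit 140) (nat_lit 5) (nat_lit 141) (nat_lit 5) (nat_lit 340) (nat_lit 318) (nat_lit 122))))) (XT.nd (nat_lit 234) (nat_lit 1064) (nat_lit 0) (XT.nd (nat_lit 78) (nat_lit 532) (nat_lit 0) (XT.lf (nat_lit 0) (nat_lit 22648739045) (nat_lit 608) (nat_lit 1766136754) (nat_lit 76) (nat_lit 8669112910) (nat_lit 133) (nat_lit 5) (nat_lit 141) (nat_lit 5) (nat_lit 134) (nat_lit 5) (nat_lit 341) (nat_lit 318) (nat_lit 121))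 (XT.nd (nat_lit 78) (nat_lit 0) (nat_lit 0) (XT.lf (nat_lit 0) (nat_lit 13343751755) (nat_lit 532) (nat_lit 12401398694) (nat_lit 608) (nat_lit 7918078569) (nat_lit 126) (nat_lit 5) (nat_lit 133) (nat_lit 5) (nat_lit 134) (nat_lit 5) (nat_lit 342) (nat_lit 318) (nat_lit 120)) (XT.lf (nat_lit 0) (nat_lit 28940826556) (nat_lit 532) (nat_lit 9049344) (nat_lit 608) (nat_lit 5309512805) (nat_lit 126) (nat_lit 5) (nat_lit 133) (nat_lit 5) (nat_lit 134) (nat_lit 5) (nat_lit 343) (nat_lit 318) (nat_lit 119)))) (XT.nd (nat_lit 78) (nat_lit 608) (nat_lit 0) (XT.lf (nat_lit 0) (nat_lit 10206615814) (nat_lit 456) (nat_lit 22262507457) (nat_lit 532) (nat_lit 2397763187) (nat_lit 120) (nat_lit 5) (nat_lit 126) (nat_lit 5) (nat_lit 127) (nat_lit 5) (nat_lit 344) (nat_lit 318) (nat_lit 118)) (XT.nd (nat_lit 78) (nat_lit 532) (nat_lit 0) (XT.lf (nat_lit 0) (nat_lit 641610319) (nat_lit 532) (nat_lit 9193176058)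 (nat_lit 76) (nat_lit 25656093593) (nat_lit 119) (nat_lit 5) (nat_lit 126) (nat_lit 5) (nat_lit 120) (nat_lit 5) (nat_lit 345) (nat_lit 318) (nat_lit 117)) (XT.lf (nat_lit 0) (nat_lit 3816915400) (nat_lit 608) (nat_lit 29314885006) (nat_lit 76) (nat_lit 2998296668) (nat_lit 112) (nat_lit 5) (nat_lit 120) (nat_lit 5) (nat_lit 113) (nat_lit 5) (nat_lit 346) (nat_lit 318) (nat_lit 116))))))))
noncomputable def xc235 : XT := (XT.nd (nat_lit 1794) (nat_lit 608) (nat_lit 0) (XT.nd (nat_lit 858) (nat_lit 1672) (nat_lit 0) (XT.nd (nat_lit 390) (nat_lit 1216) (nat_lit 0) (XT.nd (nat_lit 156) (nat_lit 456) (nat_lit 0) (XT.nd (nat_lit 78) (nat_lit 456) (nat_lit 0) (XT.lf (nat_lit 0) (nat_lit 7276394376) (nat_lit 608) (nat_lit 13394025967) (nat_lit 76) (nat_lit 16112407062) (nat_lit 112) (nat_lit 5) (nat_lit 120) (nat_lit 5) (nat_lit 113) (nat_lit 5) (nat_lit 347) (nat_lit 318) (nat_lit 115)) (XT.lf (nat_lit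 0) (nat_lit 3061946365) (nat_lit 456) (nat_lit 7804997503) (nat_lit 532) (nat_lit 26587381232) (nat_lit 106) (nat_lit 5) (nat_lit 112) (nat_lit 5) (nat_lit 113) (nat_lit 5) (nat_lit 348) (nat_lit 318) (nat_lit 114))) (XT.nd (nat_lit 78) (nat_lit 456) (nat_lit 0) (XT.lf (nat_lit 0) (nat_lit 14752048967) (nat_lit 532) (nat_lit 17911746732) (nat_lit 76) (nat_lit 5476570772) (nat_lit 106) (nat_lit 5) (nat_lit 113) (nat_lit 5) (nat_lit 107) (nat_lit 5) (nat_lit 349) (nat_lit 318) (nat_lit 113)) (XT.nd (nat_lit 78) (nat_lit 456) (nat_lit 0) (XT.lf (nat_lit 0) (nat_lit 18828938369) (nat_lit 532) (nat_lit 1016211535) (nat_lit 76) (nat_lit 18999586050) (nat_lit 106) (nat_lit 5) (nat_lit 113) (nat_lit 5) (nat_lit 107) (nat_lit 5) (nat_lit 350) (nat_lit 318) (nat_lit 112)) (XT.lf (nat_lit 0) (nat_lit 16710090404) (nat_lit 456) (nat_lit 6476685200) (nat_lit 532) (nat_lit 16378705378) (nat_lit 100) (nat_lit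 5) (nat_lit 106) (nat_lit 5) (nat_lit 107) (nat_lit 5) (nat_lit 351) (nat_lit 318) (nat_lit 111))))) (XT.nd (nat_lit 234) (nat_lit 836) (nat_lit 0) (XT.nd (nat_lit 78) (nat_lit 380) (nat_lit 0) (XT.lf (nat_lit 0) (nat_lit 27753863243) (nat_lit 532) (nat_lit 5390944714) (nat_lit 76) (nat_lit 7160688531) (nat_lit 100) (nat_lit 5) (nat_lit 107) (nat_lit 5) (nat_lit 101) (nat_lit 5) (nat_lit 352) (nat_lit 318) (nat_lit 110)) (XT.nd (nat_lit 78) (nat_lit 0) (nat_lit 0) (XT.lf (nat_lit 0) (nat_lit 12780555868) (nat_lit 380) (nat_lit 19862493355) (nat_lit 456) (nat_lit 8419114148) (nat_lit 95) (nat_lit 5) (nat_lit 100) (nat_lit 5) (nat_lit 101) (nat_lit 5) (nat_lit 353) (nat_lit 318) (nat_lit 109)) (XT.lf (nat_lit 0) (nat_lit 31605583867) (nat_lit 380) (nat_lit 6125905216) (nat_lit 456) (nat_lit 4108467209) (nat_lit 95) (nat_lit 5) (nat_lit 100) (nat_lit 5) (nat_lit 101) (nat_lit 5) (nat_lit 354) (nat_lit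 318) (nat_lit 108)))) (XT.nd (nat_lit 78) (nat_lit 380) (nat_lit 0) (XT.lf (nat_lit 0) (nat_lit 483015806) (nat_lit 456) (nat_lit 34201398884) (nat_lit 76) (nat_lit 7951836337) (nat_lit 89) (nat_lit 5) (nat_lit 95) (nat_lit 5) (nat_lit 90) (nat_lit 5) (nat_lit 355) (nat_lit 318) (nat_lit 107)) (XT.nd (nat_lit 78) (nat_lit 380) (nat_lit 0) (XT.lf (nat_lit 0) (nat_lit 5292893832) (nat_lit 456) (nat_lit 15683877557) (nat_lit 76) (nat_lit 22473549174) (nat_lit 89) (nat_lit 5) (nat_lit 95) (nat_lit 5) (nat_lit 90) (nat_lit 5) (nat_lit 356) (nat_lit 318) (nat_lit 106)) (XT.lf (nat_lit 0) (nat_lit 3454503726) (nat_lit 380) (nat_lit 6824027374) (nat_lit 456) (nat_lit 34009340202) (nat_lit 84) (nat_lit 5) (nat_lit 89) (nat_lit 5) (nat_lit 90) (nat_lit 5) (nat_lit 357) (nat_lit 318) (nat_lit 105)))))) (XT.nd (nat_lit 468) (nat_lit 988) (nat_lit 0) (XT.nd (nat_lit 234) (nat_lit 304) (nat_lit 0) (XT.nd (nat_lit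 78) (nat_lit 380) (nat_lit 0) (XT.lf (nat_lit 0) (nat_lit 15646495282) (nat_lit 456) (nat_lit 21735460402) (nat_lit 76) (nat_lit 7761613062) (nat_lit 84) (nat_lit 5) (nat_lit 90) (nat_lit 5) (nat_lit 85) (nat_lit 5) (nat_lit 358) (nat_lit 318) (nat_lit 104)) (XT.nd (nat_lit 78) (nat_lit 380) (nat_lit 0) (XT.lf (nat_lit 0) (nat_lit 21241396848) (nat_lit 456) (nat_lit 2134225452) (nat_lit 76) (nat_lit 22647340691) (nat_lit 84) (nat_lit 5) (nat_lit 90) (nat_lit 5) (nat_lit 85) (nat_lit 5) (nat_lit 359) (nat_lit 318) (nat_lit 103)) (XT.lf (nat_lit 0) (nat_lit 18412352609) (nat_lit 380) (nat_lit 8767166010) (nat_lit 456) (nat_lit 19743961998) (nat_lit 79) (nat_lit 5) (nat_lit 84) (nat_lit 5) (nat_lit 85) (nat_lit 5) (nat_lit 360) (nat_lit 318) (nat_lit 102)))) (XT.nd (nat_lit 78) (nat_lit 304) (nat_lit 0) (XT.lf (nat_lit 0) (nat_lit 33376318698) (nat_lit 456) (nat_lit 8293878409) (nat_lit 76) (nat_lit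 6178403293) (nat_lit 79) (nat_lit 5) (nat_lit 85) (nat_lit 5) (nat_lit 80) (nat_lit 5) (nat_lit 361) (nat_lit 318) (nat_lit 101)) (XT.nd (nat_lit 78) (nat_lit 0) (nat_lit 0) (XT.lf (nat_lit 0) (nat_lit 12688734049) (nat_lit 304) (nat_lit 27277517590) (nat_lit 380) (nat_lit 8829007865) (nat_lit 75) (nat_lit 5) (nat_lit 79) (nat_lit 5) (nat_lit 80) (nat_lit 5) (nat_lit 362) (nat_lit 318) (nat_lit 100)) (XT.lf (nat_lit 0) (nat_lit 34468906505) (nat_lit 304) (nat_lit 12367207784) (nat_lit 380) (nat_lit 2931739655) (nat_lit 75) (nat_lit 5) (nat_lit 79) (nat_lit 5) (nat_lit 80) (nat_lit 5) (nat_lit 363) (nat_lit 318) (nat_lit 99))))) (XT.nd (nat_lit 234) (nat_lit 608) (nat_lit 0) (XT.nd (nat_lit 78) (nat_lit 0) (nat_lit 0) (XT.lf (nat_lit 0) (nat_lit 3169077328) (nat_lit 380) (nat_lit 44574448739) (nat_lit 76) (nat_lit 3022557773) (nat_lit 70) (nat_lit 5) (nat_lit 75) (nat_lit 5) (nat_lit 71) (nat_lit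 5) (nat_lit 364) (nat_lit 318) (nat_lit 98)) (XT.nd (nat_lit 78) (nat_lit 0) (nat_lit 0) (XT.lf (nat_lit 0) (nat_lit 9670988631) (nat_lit 380) (nat_lit 23304015740) (nat_lit 76) (nat_lit 18810077904) (nat_lit 70) (nat_lit 5) (nat_lit 75) (nat_lit 5) (nat_lit 71) (nat_lit 5) (nat_lit 365) (nat_lit 318) (nat_lit 97)) (XT.lf (nat_lit 0) (nat_lit 16366528441) (nat_lit 380) (nat_lit 1397347428) (nat_lit 76) (nat_lit 35070819895) (nat_lit 70) (nat_lit 5) (nat_lit 75) (nat_lit 5) (nat_lit 71) (nat_lit 5) (nat_lit 366) (nat_lit 318) (nat_lit 96)))) (XT.nd (nat_lit 78) (nat_lit 304) (nat_lit 0) (XT.lf (nat_lit 0) (nat_lit 21585916935) (nat_lit 304) (nat_lit 1883127333) (nat_lit 380) (nat_lit 30440572264) (nat_lit 66) (nat_lit 5) (nat_lit 70) (nat_lit 5) (nat_lit 71) (nat_lit 5) (nat_lit 367) (nat_lit 318) (nat_lit 95)) (XT.nd (nat_lit 78) (nat_lit 304) (nat_lit 0) (XT.lf (nat_lit 0) (nat_lit 30936650706)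 (nat_lit 380) (nat_lit 9870155106) (nat_lit 76) (nat_lit 14205420764) (nat_lit 66) (nat_lit 5) (nat_lit 71) (nat_lit 5) (nat_lit 67) (nat_lit 5) (nat_lit 368) (nat_lit 318) (nat_lit 94)) (XT.lf (nat_lit 0) (nat_lit 13499994205) (nat_lit 304) (nat_lit 25275377613) (nat_lit 380) (nat_lit 17368132553) (nat_lit 62) (nat_lit 5) (nat_lit 66) (nat_lit 5) (nat_lit 67) (nat_lit 5) (nat_lit 369) (nat_lit 318) (nat_lit 93))))))) (XT.nd (nat_lit 37206) (nat_lit 0) (nat_lit 7220) (XT.nd (nat_lit 36738) (nat_lit 0) (nat_lit 7980) (XT.nd (nat_lit 234) (nat_lit 304) (nat_lit 0) (XT.nd (nat_lit 78) (nat_lit 304) (nat_lit 0) (XT.lf (nat_lit 0) (nat_lit 37771803849) (nat_lit 304) (nat_lit 9175813039) (nat_lit 380) (nat_lit 10358154730) (nat_lit 62) (nat_lit 5) (nat_lit 66) (nat_lit 5) (nat_lit 67) (nat_lit 5) (nat_lit 370) (nat_lit 318) (nat_lit 92)) (XT.nd (nat_lit 78) (nat_lit 76) (nat_lit 0) (XT.lf (nat_lit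 0) (nat_lit 4279412890) (nat_lit 228) (nat_lit 51196677684) (nat_lit 304) (nat_lit 3023486398) (nat_lit 59) (nat_lit 5) (nat_lit 62) (nat_lit 5) (nat_lit 63) (nat_lit 5) (nat_lit 371) (nat_lit 318) (nat_lit 91)) (XT.lf (nat_lit 0) (nat_lit 4731591895) (nat_lit 304) (nat_lit 30653782692) (nat_lit 76) (nat_lit 24333853300) (nat_lit 58) (nat_lit 5) (nat_lit 62) (nat_lit 5) (nat_lit 59) (nat_lit 5) (nat_lit 372) (nat_lit 318) (nat_lit 90)))) (XT.nd (nat_lit 78) (nat_lit 304) (nat_lit 0) (XT.lf (nat_lit 0) (nat_lit 12657323311) (nat_lit 304) (nat_lit 6412060396) (nat_lit 76) (nat_lit 41905225226) (nat_lit 58) (nat_lit 5) (nat_lit 62) (nat_lit 5) (nat_lit 59) (nat_lit 5) (nat_lit 373) (nat_lit 318) (nat_lit 89)) (XT.nd (nat_lit 36348) (nat_lit 0) (nat_lit 7980) (XT.lf (nat_lit 0) (nat_lit 18924534321) (nat_lit 304) (nat_lit 2077012232) (nat_lit 380) (nat_lit 41260684973) (nat_lit 54) (nat_lit 5) (nat_lit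 58) (nat_lit 5) (nat_lit 59) (nat_lit 5) (nat_lit 374) (nat_lit 318) (nat_lit 88)) (XT.lf (nat_lit 0) (nat_lit 8504446923) (nat_lit 1140) (nat_lit 1644021404) (nat_lit 1140) (nat_lit 1644021404) (nat_lit 159) (nat_lit 3) (nat_lit 174) (nat_lit 3) (nat_lit 174) (nat_lit 5) (nat_lit 319) (nat_lit 319) (nat_lit 142))))) (XT.nd (nat_lit 234) (nat_lit 0) (nat_lit 76) (XT.nd (nat_lit 78) (nat_lit 0) (nat_lit 0) (XT.lf (nat_lit 76) (nat_lit 6822091600) (nat_lit 0) (nat_lit 10615084167) (nat_lit 1140) (nat_lit 6496147269) (nat_lit 160) (nat_lit 5) (nat_lit 159) (nat_lit 3) (nat_lit 174) (nat_lit 5) (nat_lit 320) (nat_lit 319) (nat_lit 141)) (XT.nd (nat_lit 78) (nat_lit 0) (nat_lit 76) (XT.lf (nat_lit 76) (nat_lit 17300721898) (nat_lit 0) (nat_lit 606567619) (nat_lit 1140) (nat_lit 6383967135) (nat_lit 160) (nat_lit 5) (nat_lit 159) (nat_lit 3) (nat_lit 174) (nat_lit 5) (nat_lit 321) (nat_lit 319) (nat_lit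 140)) (XT.lf (nat_lit 76) (nat_lit 3404660440) (nat_lit 0) (nat_lit 15108759679) (nat_lit 1140) (nat_lit 6142859721) (nat_lit 161) (nat_lit 5) (nat_lit 160) (nat_lit 5) (nat_lit 175) (nat_lit 5) (nat_lit 322) (nat_lit 319) (nat_lit 139)))) (XT.nd (nat_lit 78) (nat_lit 0) (nat_lit 76) (XT.lf (nat_lit 76) (nat_lit 14246611913) (nat_lit 0) (nat_lit 4963679314) (nat_lit 1140) (nat_lit 5819794505) (nat_lit 161) (nat_lit 5) (nat_lit 160) (nat_lit 5) (nat_lit 175) (nat_lit 5) (nat_lit 323) (nat_lit 319) (nat_lit 138)) (XT.nd (nat_lit 78) (nat_lit 0) (nat_lit 0) (XT.lf (nat_lit 0) (nat_lit 19976951919) (nat_lit 1064) (nat_lit 56363944) (nat_lit 1140) (nat_lit 5380331886) (nat_lit 161) (nat_lit 5) (nat_lit 175) (nat_lit 5) (nat_lit 176) (nat_lit 5) (nat_lit 324) (nat_lit 319) (nat_lit 137)) (XT.lf (nat_lit 76) (nat_lit 11158884640) (nat_lit 0) (nat_lit 9760402294) (nat_lit 1140) (nat_lit 4884857664) (nat_lit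 162) (nat_lit 5) (nat_lit 161) (nat_lit 5) (nat_lit 176) (nat_lit 5) (nat_lit 325) (nat_lit 319) (nat_lit 136)))))) (XT.nd (nat_lit 468) (nat_lit 0) (nat_lit 0) (XT.nd (nat_lit 234) (nat_lit 988) (nat_lit 0) (XT.nd (nat_lit 78) (nat_lit 0) (nat_lit 0) (XT.lf (nat_lit 0) (nat_lit 21894719533) (nat_lit 1064) (nat_lit 3504875662) (nat_lit 1140) (nat_lit 806624301) (nat_lit 162) (nat_lit 5) (nat_lit 176) (nat_lit 5) (nat_lit 177) (nat_lit 5) (nat_lit 326) (nat_lit 319) (nat_lit 135)) (XT.nd (nat_lit 78) (nat_lit 0) (nat_lit 0) (XT.lf (nat_lit 76) (nat_lit 8027407927) (nat_lit 0) (nat_lit 15042278768) (nat_lit 1140) (nat_lit 3545569531) (nat_lit 163) (nat_lit 5) (nat_lit 162) (nat_lit 5) (nat_lit 177) (nat_lit 5) (nat_lit 327) (nat_lit 319) (nat_lit 134)) (XT.lf (nat_lit 76) (nat_lit 19975211036) (nat_lit 0) (nat_lit 4336634556) (nat_lit 1140) (nat_lit 2723767696) (nat_lit 163) (nat_lit 5) (nat_lit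 162) (nat_lit 5) (nat_lit 177) (nat_lit 5) (nat_lit 328) (nat_lit 319) (nat_lit 133)))) (XT.nd (nat_lit 78) (nat_lit 1064) (nat_lit 0) (XT.lf (nat_lit 76) (nat_lit 4840668783) (nat_lit 0) (nat_lit 20858103628) (nat_lit 1140) (nat_lit 1766590847) (nat_lit 164) (nat_lit 5) (nat_lit 163) (nat_lit 5) (nat_lit 178) (nat_lit 5) (nat_lit 329) (nat_lit 319) (nat_lit 132)) (XT.nd (nat_lit 78) (nat_lit 1064) (nat_lit 0) (XT.lf (nat_lit 76) (nat_lit 17197387598) (nat_lit 0) (nat_lit 10040468168) (nat_lit 1140) (nat_lit 666840578) (nat_lit 164) (nat_lit 5) (nat_lit 163) (nat_lit 5) (nat_lit 178) (nat_lit 5) (nat_lit 330) (nat_lit 319) (nat_lit 131)) (XT.lf (nat_lit 0) (nat_lit 479700573) (nat_lit 1140) (nat_lit 26775657467) (nat_lit 1216) (nat_lit 1101037004) (nat_lit 149) (nat_lit 5) (nat_lit 164) (nat_lit 5) (nat_lit 165) (nat_lit 5) (nat_lit 331) (nat_lit 319) (nat_lit 130))))) (XT.nd (nat_lit 234) (nat_lit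 0) (nat_lit 76) (XT.nd (nat_lit 78) (nat_lit 0) (nat_lit 0) (XT.lf (nat_lit 0) (nat_lit 1852711714) (nat_lit 1140) (nat_lit 14470982558) (nat_lit 1216) (nat_lit 12491594543) (nat_lit 149) (nat_lit 5) (nat_lit 164) (nat_lit 5) (nat_lit 165) (nat_lit 5) (nat_lit 332) (nat_lit 319) (nat_lit 129)) (XT.nd (nat_lit 78) (nat_lit 0) (nat_lit 76) (XT.lf (nat_lit 0) (nat_lit 3263876944) (nat_lit 1140) (nat_lit 1799509810) (nat_lit 1216) (nat_lit 24224660022) (nat_lit 149) (nat_lit 5) (nat_lit 164) (nat_lit 5) (nat_lit 165) (nat_lit 5) (nat_lit 333) (nat_lit 319) (nat_lit 128)) (XT.lf (nat_lit 0) (nat_lit 4888636102) (nat_lit 1140) (nat_lit 18361960873) (nat_lit 1216) (nat_lit 6519258837) (nat_lit 150) (nat_lit 5) (nat_lit 165) (nat_lit 5) (nat_lit 166) (nat_lit 5) (nat_lit 334) (nat_lit 319) (nat_lit 127)))) (XT.nd (nat_lit 78) (nat_lit 0) (nat_lit 0) (XT.lf (nat_lit 0) (nat_lit 6627744487) (nat_lit 1140)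 (nat_lit 5269826808) (nat_lit 1216) (nat_lit 18366585559) (nat_lit 150) (nat_lit 5) (nat_lit 165) (nat_lit 5) (nat_lit 166) (nat_lit 5) (nat_lit 335) (nat_lit 319) (nat_lit 126)) (XT.nd (nat_lit 78) (nat_lit 0) (nat_lit 76) (XT.lf (nat_lit 76) (nat_lit 8376239951) (nat_lit 0) (nat_lit 120510000) (nat_lit 1216) (nat_lit 22274211019) (nat_lit 151) (nat_lit 5) (nat_lit 150) (nat_lit 5) (nat_lit 166) (nat_lit 5) (nat_lit 336) (nat_lit 319) (nat_lit 125)) (XT.lf (nat_lit 0) (nat_lit 10588284026) (nat_lit 1140) (nat_lit 8869982532) (nat_lit 76) (nat_lit 11829714485) (nat_lit 151) (nat_lit 5) (nat_lit 166) (nat_lit 5) (nat_lit 152) (nat_lit 5) (nat_lit 337) (nat_lit 319) (nat_lit 124))))))))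
noncomputable def xc236 : XT := (XT.nd (nat_lit 1794) (nat_lit 1976) (nat_lit 0) (XT.nd (nat_lit 858) (nat_lit 2128) (nat_lit 0) (XT.nd (nat_lit 390) (nat_lit 1596) (nat_lit 0) (XT.nd (nat_lit 156) (nat_lit 532) (nat_lit 0) (XT.nd (nat_lit 78) (nat_lit 0) (nat_lit 0) (XT.lf (nat_lit 0) (nat_lit 5157666349) (nat_lit 836) (nat_lit 7633019582) (nat_lit 912) (nat_lit 19028387559) (nat_lit 140) (nat_lit 5) (nat_lit 151) (nat_lit 5) (nat_lit 152) (nat_lit 5) (nat_lit 338) (nat_lit 319) (nat_lit 123)) (XT.lf (nat_lit 0) (nat_lit 15190733206) (nat_lit 912) (nat_lit 12622383375) (nat_lit 76) (nat_lit 4549040195) (nat_lit 140) (nat_lit 5) (nat_lit 152) (nat_lit 5) (nat_lit 141) (nat_lit 5) (nat_lit 339) (nat_lit 319) (nat_lit 122))) (XT.nd (nat_lit 78) (nat_lit 0) (nat_lit 0) (XT.lf (nat_lit 0) (nat_lit 1794984461) (nat_lit 532) (nat_lit 15958110511) (nat_lit 608) (nat_lit 15165733314) (nat_lit 133) (nat_lit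 5) (nat_lit 140) (nat_lit 5) (nat_lit 141) (nat_lit 5) (nat_lit 340) (nat_lit 319) (nat_lit 121)) (XT.nd (nat_lit 78) (nat_lit 0) (nat_lit 0) (XT.lf (nat_lit 0) (nat_lit 16901363356) (nat_lit 532) (nat_lit 3615961275) (nat_lit 608) (nat_lit 12971130361) (nat_lit 133) (nat_lit 5) (nat_lit 140) (nat_lit 5) (nat_lit 141) (nat_lit 5) (nat_lit 341) (nat_lit 319) (nat_lit 120)) (XT.lf (nat_lit 0) (nat_lit 23449531281) (nat_lit 608) (nat_lit 1703946822) (nat_lit 76) (nat_lit 8919145715) (nat_lit 133) (nat_lit 5) (nat_lit 141) (nat_lit 5) (nat_lit 134) (nat_lit 5) (nat_lit 342) (nat_lit 319) (nat_lit 119))))) (XT.nd (nat_lit 234) (nat_lit 608) (nat_lit 0) (XT.nd (nat_lit 78) (nat_lit 456) (nat_lit 0) (XT.lf (nat_lit 0) (nat_lit 13858109186) (nat_lit 532) (nat_lit 12778288225) (nat_lit 608) (nat_lit 8032924179) (nat_lit 126) (nat_lit 5) (nat_lit 133) (nat_lit 5) (nat_lit 134) (nat_lit 5) (nat_lit 343)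 (nat_lit 319) (nat_lit 118)) (XT.nd (nat_lit 78) (nat_lit 456) (nat_lit 0) (XT.lf (nat_lit 0) (nat_lit 29919774535) (nat_lit 532) (nat_lit 14027204) (nat_lit 608) (nat_lit 5349675133) (nat_lit 126) (nat_lit 5) (nat_lit 133) (nat_lit 5) (nat_lit 134) (nat_lit 5) (nat_lit 344) (nat_lit 319) (nat_lit 117)) (XT.lf (nat_lit 0) (nat_lit 10626154029) (nat_lit 456) (nat_lit 22930156042) (nat_lit 532) (nat_lit 2352965696) (nat_lit 120) (nat_lit 5) (nat_lit 126) (nat_lit 5) (nat_lit 127) (nat_lit 5) (nat_lit 345) (nat_lit 319) (nat_lit 116)))) (XT.nd (nat_lit 78) (nat_lit 532) (nat_lit 0) (XT.lf (nat_lit 0) (nat_lit 771977616) (nat_lit 532) (nat_lit 9356510232) (nat_lit 76) (nat_lit 26423573914) (nat_lit 119) (nat_lit 5) (nat_lit 126) (nat_lit 5) (nat_lit 120) (nat_lit 5) (nat_lit 346) (nat_lit 319) (nat_lit 115)) (XT.nd (nat_lit 78) (nat_lit 0) (nat_lit 0) (XT.lf (nat_lit 0) (nat_lit 4040398944) (nat_lit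 608) (nat_lit 30079522652) (nat_lit 76) (nat_lit 3090604216) (nat_lit 112) (nat_lit 5) (nat_lit 120) (nat_lit 5) (nat_lit 113) (nat_lit 5) (nat_lit 347) (nat_lit 319) (nat_lit 114)) (XT.lf (nat_lit 0) (nat_lit 7600488230) (nat_lit 608) (nat_lit 13684381790) (nat_lit 76) (nat_lit 16598069223) (nat_lit 112) (nat_lit 5) (nat_lit 120) (nat_lit 5) (nat_lit 113) (nat_lit 5) (nat_lit 348) (nat_lit 319) (nat_lit 113)))))) (XT.nd (nat_lit 468) (nat_lit 836) (nat_lit 0) (XT.nd (nat_lit 234) (nat_lit 836) (nat_lit 0) (XT.nd (nat_lit 78) (nat_lit 0) (nat_lit 0) (XT.lf (nat_lit 0) (nat_lit 3264176918) (nat_lit 456) (nat_lit 8032556641) (nat_lit 532) (nat_lit 27277914724) (nat_lit 106) (nat_lit 5) (nat_lit 112) (nat_lit 5) (nat_lit 113) (nat_lit 5) (nat_lit 349) (nat_lit 319) (nat_lit 112)) (XT.nd (nat_lit 78) (nat_lit 0) (nat_lit 0) (XT.lf (nat_lit 0) (nat_lit 15295430561) (nat_lit 532) (nat_lit 18338792942)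 (nat_lit 76) (nat_lit 5647141854) (nat_lit 106) (nat_lit 5) (nat_lit 113) (nat_lit 5) (nat_lit 107) (nat_lit 5) (nat_lit 350) (nat_lit 319) (nat_lit 111)) (XT.lf (nat_lit 0) (nat_lit 19491690136) (nat_lit 532) (nat_lit 939604491) (nat_lit 76) (nat_lit 19575664854) (nat_lit 106) (nat_lit 5) (nat_lit 113) (nat_lit 5) (nat_lit 107) (nat_lit 5) (nat_lit 351) (nat_lit 319) (nat_lit 110)))) (XT.nd (nat_lit 78) (nat_lit 380) (nat_lit 0) (XT.lf (nat_lit 0) (nat_lit 17317436572) (nat_lit 456) (nat_lit 6660994292) (nat_lit 532) (nat_lit 16770956246) (nat_lit 100) (nat_lit 5) (nat_lit 106) (nat_lit 5) (nat_lit 107) (nat_lit 5) (nat_lit 352) (nat_lit 319) (nat_lit 109)) (XT.nd (nat_lit 78) (nat_lit 380) (nat_lit 0) (XT.lf (nat_lit 0) (nat_lit 28679826748) (nat_lit 532) (nat_lit 5446842266) (nat_lit 76) (nat_lit 7385020347) (nat_lit 100) (nat_lit 5) (nat_lit 107) (nat_lit 5) (nat_lit 101) (nat_lit 5) (nat_lit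 353) (nat_lit 319) (nat_lit 108)) (XT.lf (nat_lit 0) (nat_lit 13268765777) (nat_lit 380) (nat_lit 20445211005) (nat_lit 456) (nat_lit 8577135812) (nat_lit 95) (nat_lit 5) (nat_lit 100) (nat_lit 5) (nat_lit 101) (nat_lit 5) (nat_lit 354) (nat_lit 319) (nat_lit 107))))) (XT.nd (nat_lit 234) (nat_lit 380) (nat_lit 0) (XT.nd (nat_lit 78) (nat_lit 456) (nat_lit 0) (XT.lf (nat_lit 0) (nat_lit 32655492385) (nat_lit 380) (nat_lit 6296908440) (nat_lit 456) (nat_lit 4139923400) (nat_lit 95) (nat_lit 5) (nat_lit 100) (nat_lit 5) (nat_lit 101) (nat_lit 5) (nat_lit 355) (nat_lit 319) (nat_lit 106)) (XT.nd (nat_lit 78) (nat_lit 0) (nat_lit 0) (XT.lf (nat_lit 0) (nat_lit 586015673) (nat_lit 456) (nat_lit 35122101925) (nat_lit 76) (nat_lit 8204413221) (nat_lit 89) (nat_lit 5) (nat_lit 95) (nat_lit 5) (nat_lit 90) (nat_lit 5) (nat_lit 356) (nat_lit 319) (nat_lit 105)) (XT.lf (nat_lit 0) (nat_lit 5537612096) (nat_lit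 456) (nat_lit 16052123082) (nat_lit 76) (nat_lit 23161369042) (nat_lit 89) (nat_lit 5) (nat_lit 95) (nat_lit 5) (nat_lit 90) (nat_lit 5) (nat_lit 357) (nat_lit 319) (nat_lit 104)))) (XT.nd (nat_lit 78) (nat_lit 0) (nat_lit 0) (XT.lf (nat_lit 0) (nat_lit 3659406985) (nat_lit 380) (nat_lit 7011882091) (nat_lit 456) (nat_lit 34942542598) (nat_lit 84) (nat_lit 5) (nat_lit 89) (nat_lit 5) (nat_lit 90) (nat_lit 5) (nat_lit 358) (nat_lit 319) (nat_lit 103)) (XT.nd (nat_lit 78) (nat_lit 0) (nat_lit 0) (XT.lf (nat_lit 0) (nat_lit 16197991276) (nat_lit 456) (nat_lit 22286765196) (nat_lit 76) (nat_lit 8010516781) (nat_lit 84) (nat_lit 5) (nat_lit 90) (nat_lit 5) (nat_lit 85) (nat_lit 5) (nat_lit 359) (nat_lit 319) (nat_lit 102)) (XT.lf (nat_lit 0) (nat_lit 21958348594) (nat_lit 456) (nat_lit 2100427926) (nat_lit 76) (nat_lit 23342348608) (nat_lit 84) (nat_lit 5) (nat_lit 90) (nat_lit 5) (nat_lit 85) (nat_lit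 5) (nat_lit 360) (nat_lit 319) (nat_lit 101))))))) (XT.nd (nat_lit 858) (nat_lit 304) (nat_lit 0) (XT.nd (nat_lit 390) (nat_lit 608) (nat_lit 0) (XT.nd (nat_lit 156) (nat_lit 684) (nat_lit 0) (XT.nd (nat_lit 78) (nat_lit 0) (nat_lit 0) (XT.lf (nat_lit 0) (nat_lit 19061588415) (nat_lit 380) (nat_lit 9011635085) (nat_lit 456) (nat_lit 20255480443) (nat_lit 79) (nat_lit 5) (nat_lit 84) (nat_lit 5) (nat_lit 85) (nat_lit 5) (nat_lit 361) (nat_lit 319) (nat_lit 100)) (XT.lf (nat_lit 0) (nat_lit 34453819519) (nat_lit 456) (nat_lit 8446415107) (nat_lit 76) (nat_lit 6381409768) (nat_lit 79) (nat_lit 5) (nat_lit 85) (nat_lit 5) (nat_lit 80) (nat_lit 5) (nat_lit 362) (nat_lit 319) (nat_lit 99))) (XT.nd (nat_lit 78) (nat_lit 380) (nat_lit 0) (XT.lf (nat_lit 0) (nat_lit 13164731807) (nat_lit 304) (nat_lit 28075415321) (nat_lit 380) (nat_lit 9016598961) (nat_lit 75) (nat_lit 5) (nat_lit 79) (nat_lit 5) (nat_lit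 80) (nat_lit 5) (nat_lit 363) (nat_lit 319) (nat_lit 98)) (XT.nd (nat_lit 78) (nat_lit 380) (nat_lit 0) (XT.lf (nat_lit 0) (nat_lit 35595532668) (nat_lit 304) (nat_lit 12718391204) (nat_lit 380) (nat_lit 2944663553) (nat_lit 75) (nat_lit 5) (nat_lit 79) (nat_lit 5) (nat_lit 80) (nat_lit 5) (nat_lit 364) (nat_lit 319) (nat_lit 97)) (XT.lf (nat_lit 0) (nat_lit 3336668176) (nat_lit 380) (nat_lit 45816383179) (nat_lit 76) (nat_lit 3133726002) (nat_lit 70) (nat_lit 5) (nat_lit 75) (nat_lit 5) (nat_lit 71) (nat_lit 5) (nat_lit 365) (nat_lit 319) (nat_lit 96))))) (XT.nd (nat_lit 234) (nat_lit 304) (nat_lit 0) (XT.nd (nat_lit 78) (nat_lit 304) (nat_lit 0) (XT.lf (nat_lit 0) (nat_lit 10031524628) (nat_lit 380) (nat_lit 23910612890) (nat_lit 76) (nat_lit 19394274897) (nat_lit 70) (nat_lit 5) (nat_lit 75) (nat_lit 5) (nat_lit 71) (nat_lit 5) (nat_lit 366) (nat_lit 319) (nat_lit 95)) (XT.nd (nat_lit 78)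 (nat_lit 304) (nat_lit 0) (XT.lf (nat_lit 0) (nat_lit 16925879962) (nat_lit 380) (nat_lit 1349439382) (nat_lit 76) (nat_lit 36142259691) (nat_lit 70) (nat_lit 5) (nat_lit 75) (nat_lit 5) (nat_lit 71) (nat_lit 5) (nat_lit 367) (nat_lit 319) (nat_lit 94)) (XT.lf (nat_lit 0) (nat_lit 22322442240) (nat_lit 304) (nat_lit 1917893102) (nat_lit 380) (nat_lit 31284449277) (nat_lit 66) (nat_lit 5) (nat_lit 70) (nat_lit 5) (nat_lit 71) (nat_lit 5) (nat_lit 368) (nat_lit 319) (nat_lit 93)))) (XT.nd (nat_lit 78) (nat_lit 304) (nat_lit 0) (XT.lf (nat_lit 0) (nat_lit 31930214897) (nat_lit 380) (nat_lit 10078046804) (nat_lit 76) (nat_lit 14652266939) (nat_lit 66) (nat_lit 5) (nat_lit 71) (nat_lit 5) (nat_lit 67) (nat_lit 5) (nat_lit 369) (nat_lit 319) (nat_lit 92)) (XT.nd (nat_lit 78) (nat_lit 0) (nat_lit 0) (XT.lf (nat_lit 0) (nat_lit 13992342153) (nat_lit 304) (nat_lit 26010688395) (nat_lit 380) (nat_lit 17822749170)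 (nat_lit 62) (nat_lit 5) (nat_lit 66) (nat_lit 5) (nat_lit 67) (nat_lit 5) (nat_lit 370) (nat_lit 319) (nat_lit 91)) (XT.lf (nat_lit 0) (nat_lit 38989761966) (nat_lit 304) (nat_lit 9428805347) (nat_lit 380) (nat_lit 10604406790) (nat_lit 62) (nat_lit 5) (nat_lit 66) (nat_lit 5) (nat_lit 67) (nat_lit 5) (nat_lit 371) (nat_lit 319) (nat_lit 90)))))) (XT.nd (nat_lit 36894) (nat_lit 0) (nat_lit 7752) (XT.nd (nat_lit 36660) (nat_lit 0) (nat_lit 7676) (XT.nd (nat_lit 78) (nat_lit 76) (nat_lit 0) (XT.lf (nat_lit 0) (nat_lit 4493507122) (nat_lit 228) (nat_lit 52708598926) (nat_lit 304) (nat_lit 3050514012) (nat_lit 59) (nat_lit 5) (nat_lit 62) (nat_lit 5) (nat_lit 63) (nat_lit 5) (nat_lit 372) (nat_lit 319) (nat_lit 89)) (XT.nd (nat_lit 36504) (nat_lit 0) (nat_lit 7676) (XT.lf (nat_lit 0) (nat_lit 4934155586) (nat_lit 304) (nat_lit 31488887469) (nat_lit 76) (nat_lit 25085856247) (nat_lit 58) (nat_lit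 5) (nat_lit 62) (nat_lit 5) (nat_lit 59) (nat_lit 5) (nat_lit 373) (nat_lit 319) (nat_lit 88)) (XT.lf (nat_lit 0) (nat_lit 8866116693) (nat_lit 1140) (nat_lit 1638358625) (nat_lit 1140) (nat_lit 1638358625) (nat_lit 159) (nat_lit 3) (nat_lit 174) (nat_lit 3) (nat_lit 174) (nat_lit 5) (nat_lit 320) (nat_lit 320) (nat_lit 140)))) (XT.nd (nat_lit 78) (nat_lit 0) (nat_lit 0) (XT.lf (nat_lit 76) (nat_lit 7135643084) (nat_lit 0) (nat_lit 11032561384) (nat_lit 1140) (nat_lit 6476425732) (nat_lit 160) (nat_lit 5) (nat_lit 159) (nat_lit 3) (nat_lit 174) (nat_lit 5) (nat_lit 321) (nat_lit 320) (nat_lit 139)) (XT.nd (nat_lit 78) (nat_lit 0) (nat_lit 76) (XT.lf (nat_lit 76) (nat_lit 17925460774) (nat_lit 0) (nat_lit 720905125) (nat_lit 1140) (nat_lit 6367130853) (nat_lit 160) (nat_lit 5) (nat_lit 159) (nat_lit 3) (nat_lit 174) (nat_lit 5) (nat_lit 322) (nat_lit 320) (nat_lit 138)) (XT.lf (nat_lit 76) (nat_lit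 3618830025) (nat_lit 0) (nat_lit 15646150699) (nat_lit 1140) (nat_lit 6124673773) (nat_lit 161) (nat_lit 5) (nat_lit 160) (nat_lit 5) (nat_lit 175) (nat_lit 5) (nat_lit 323) (nat_lit 320) (nat_lit 137))))) (XT.nd (nat_lit 234) (nat_lit 0) (nat_lit 152) (XT.nd (nat_lit 78) (nat_lit 0) (nat_lit 76) (XT.lf (nat_lit 76) (nat_lit 14782777040) (nat_lit 0) (nat_lit 5194267585) (nat_lit 1140) (nat_lit 5797813836) (nat_lit 161) (nat_lit 5) (nat_lit 160) (nat_lit 5) (nat_lit 175) (nat_lit 5) (nat_lit 324) (nat_lit 320) (nat_lit 136)) (XT.nd (nat_lit 78) (nat_lit 0) (nat_lit 0) (XT.lf (nat_lit 76) (nat_lit 55337346) (nat_lit 0) (nat_lit 20705590527) (nat_lit 1140) (nat_lit 5409184916) (nat_lit 162) (nat_lit 5) (nat_lit 161) (nat_lit 5) (nat_lit 176) (nat_lit 5) (nat_lit 325) (nat_lit 320) (nat_lit 135)) (XT.lf (nat_lit 76) (nat_lit 11604862456) (nat_lit 0) (nat_lit 10121844409) (nat_lit 1140) (nat_lit 4845774239)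 (nat_lit 162) (nat_lit 5) (nat_lit 161) (nat_lit 5) (nat_lit 176) (nat_lit 5) (nat_lit 326) (nat_lit 320) (nat_lit 134)))) (XT.nd (nat_lit 78) (nat_lit 0) (nat_lit 0) (XT.lf (nat_lit 0) (nat_lit 22725523845) (nat_lit 1064) (nat_lit 3495790064) (nat_lit 1140) (nat_lit 765492130) (nat_lit 162) (nat_lit 5) (nat_lit 176) (nat_lit 5) (nat_lit 177) (nat_lit 5) (nat_lit 327) (nat_lit 320) (nat_lit 133)) (XT.nd (nat_lit 78) (nat_lit 0) (nat_lit 0) (XT.lf (nat_lit 76) (nat_lit 8381342112) (nat_lit 0) (nat_lit 15550418336) (nat_lit 1140) (nat_lit 3476483913) (nat_lit 163) (nat_lit 5) (nat_lit 162) (nat_lit 5) (nat_lit 177) (nat_lit 5) (nat_lit 328) (nat_lit 320) (nat_lit 132)) (XT.lf (nat_lit 76) (nat_lit 20684284791) (nat_lit 0) (nat_lit 4521948355) (nat_lit 1140) (nat_lit 2635138296) (nat_lit 163) (nat_lit 5) (nat_lit 162) (nat_lit 5) (nat_lit 177) (nat_lit 5) (nat_lit 329) (nat_lit 320) (nat_lit 131))))))))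
noncomputable def xc237 : XT := (XT.nd (nat_lit 1794) (nat_lit 3344) (nat_lit 0) (XT.nd (nat_lit 858) (nat_lit 2584) (nat_lit 0) (XT.nd (nat_lit 390) (nat_lit 684) (nat_lit 0) (XT.nd (nat_lit 156) (nat_lit 1064) (nat_lit 0) (XT.nd (nat_lit 78) (nat_lit 0) (nat_lit 0) (XT.lf (nat_lit 76) (nat_lit 5100413367) (nat_lit 0) (nat_lit 21530133221) (nat_lit 1140) (nat_lit 1653604423) (nat_lit 164) (nat_lit 5) (nat_lit 163) (nat_lit 5) (nat_lit 178) (nat_lit 5) (nat_lit 330) (nat_lit 320) (nat_lit 130)) (XT.lf (nat_lit 76) (nat_lit 17824498081) (nat_lit 0) (nat_lit 10386620547) (nat_lit 1140) (nat_lit 525696136) (nat_lit 164) (nat_lit 5) (nat_lit 163) (nat_lit 5) (nat_lit 178) (nat_lit 5) (nat_lit 331) (nat_lit 320) (nat_lit 129))) (XT.nd (nat_lit 78) (nat_lit 0) (nat_lit 0) (XT.lf (nat_lit 0) (nat_lit 648192252) (nat_lit 1140) (nat_lit 27460041333) (nat_lit 1216) (nat_lit 1093911077) (nat_lit 149) (nat_lit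 5) (nat_lit 164) (nat_lit 5) (nat_lit 165) (nat_lit 5) (nat_lit 332) (nat_lit 320) (nat_lit 128)) (XT.nd (nat_lit 78) (nat_lit 0) (nat_lit 0) (XT.lf (nat_lit 0) (nat_lit 2057905358) (nat_lit 1140) (nat_lit 14789688871) (nat_lit 1216) (nat_lit 12827354964) (nat_lit 149) (nat_lit 5) (nat_lit 164) (nat_lit 5) (nat_lit 165) (nat_lit 5) (nat_lit 333) (nat_lit 320) (nat_lit 127)) (XT.lf (nat_lit 0) (nat_lit 3507047905) (nat_lit 1140) (nat_lit 1741433780) (nat_lit 1216) (nat_lit 24913547963) (nat_lit 149) (nat_lit 5) (nat_lit 164) (nat_lit 5) (nat_lit 165) (nat_lit 5) (nat_lit 334) (nat_lit 320) (nat_lit 126))))) (XT.nd (nat_lit 234) (nat_lit 760) (nat_lit 0) (XT.nd (nat_lit 78) (nat_lit 0) (nat_lit 0) (XT.lf (nat_lit 0) (nat_lit 5177086541) (nat_lit 1140) (nat_lit 18797002952) (nat_lit 1216) (nat_lit 6684316127) (nat_lit 150) (nat_lit 5) (nat_lit 165) (nat_lit 5) (nat_lit 166) (nat_lit 5) (nat_lit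 335) (nat_lit 320) (nat_lit 125)) (XT.nd (nat_lit 78) (nat_lit 0) (nat_lit 0) (XT.lf (nat_lit 0) (nat_lit 6964238333) (nat_lit 1140) (nat_lit 5315478169) (nat_lit 1216) (nat_lit 18887951596) (nat_lit 150) (nat_lit 5) (nat_lit 165) (nat_lit 5) (nat_lit 166) (nat_lit 5) (nat_lit 336) (nat_lit 320) (nat_lit 124)) (XT.lf (nat_lit 76) (nat_lit 8738868207) (nat_lit 0) (nat_lit 147506473) (nat_lit 1216) (nat_lit 22803398095) (nat_lit 151) (nat_lit 5) (nat_lit 150) (nat_lit 5) (nat_lit 166) (nat_lit 5) (nat_lit 337) (nat_lit 320) (nat_lit 123)))) (XT.nd (nat_lit 78) (nat_lit 836) (nat_lit 0) (XT.lf (nat_lit 0) (nat_lit 11036512621) (nat_lit 1140) (nat_lit 9023574401) (nat_lit 76) (nat_lit 12162348714) (nat_lit 151) (nat_lit 5) (nat_lit 166) (nat_lit 5) (nat_lit 152) (nat_lit 5) (nat_lit 338) (nat_lit 320) (nat_lit 122)) (XT.nd (nat_lit 78) (nat_lit 0) (nat_lit 0) (XT.lf (nat_lit 0) (nat_lit 5423800931)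 (nat_lit 836) (nat_lit 7878453237) (nat_lit 912) (nat_lit 19467296545) (nat_lit 140) (nat_lit 5) (nat_lit 151) (nat_lit 5) (nat_lit 152) (nat_lit 5) (nat_lit 339) (nat_lit 320) (nat_lit 121)) (XT.lf (nat_lit 0) (nat_lit 15770425687) (nat_lit 912) (nat_lit 12888765913) (nat_lit 76) (nat_lit 4669858775) (nat_lit 140) (nat_lit 5) (nat_lit 152) (nat_lit 5) (nat_lit 141) (nat_lit 5) (nat_lit 340) (nat_lit 320) (nat_lit 120)))))) (XT.nd (nat_lit 468) (nat_lit 1064) (nat_lit 0) (XT.nd (nat_lit 234) (nat_lit 988) (nat_lit 0) (XT.nd (nat_lit 78) (nat_lit 0) (nat_lit 0) (XT.lf (nat_lit 0) (nat_lit 1960022086) (nat_lit 532) (nat_lit 16447094236) (nat_lit 608) (nat_lit 15495389305) (nat_lit 133) (nat_lit 5) (nat_lit 140) (nat_lit 5) (nat_lit 141) (nat_lit 5) (nat_lit 341) (nat_lit 320) (nat_lit 119)) (XT.nd (nat_lit 78) (nat_lit 0) (nat_lit 0) (XT.lf (nat_lit 0) (nat_lit 17516353860) (nat_lit 532) (nat_lit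 3734382259) (nat_lit 608) (nat_lit 13238598244) (nat_lit 133) (nat_lit 5) (nat_lit 140) (nat_lit 5) (nat_lit 141) (nat_lit 5) (nat_lit 342) (nat_lit 320) (nat_lit 118)) (XT.lf (nat_lit 0) (nat_lit 24267382442) (nat_lit 608) (nat_lit 1646502652) (nat_lit 76) (nat_lit 9177255874) (nat_lit 133) (nat_lit 5) (nat_lit 141) (nat_lit 5) (nat_lit 134) (nat_lit 5) (nat_lit 343) (nat_lit 320) (nat_lit 117)))) (XT.nd (nat_lit 78) (nat_lit 456) (nat_lit 0) (XT.lf (nat_lit 0) (nat_lit 14381350696) (nat_lit 532) (nat_lit 13166206172) (nat_lit 608) (nat_lit 8158258452) (nat_lit 126) (nat_lit 5) (nat_lit 133) (nat_lit 5) (nat_lit 134) (nat_lit 5) (nat_lit 344) (nat_lit 320) (nat_lit 116)) (XT.nd (nat_lit 78) (nat_lit 456) (nat_lit 0) (XT.lf (nat_lit 0) (nat_lit 30921734990) (nat_lit 532) (nat_lit 18884234) (nat_lit 608) (nat_lit 5397880482) (nat_lit 126) (nat_lit 5) (nat_lit 133) (nat_lit 5) (nat_lit 134) (nat_lit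 5) (nat_lit 345) (nat_lit 320) (nat_lit 115)) (XT.lf (nat_lit 0) (nat_lit 11051772227) (nat_lit 456) (nat_lit 23617847096) (nat_lit 532) (nat_lit 2313525081) (nat_lit 120) (nat_lit 5) (nat_lit 126) (nat_lit 5) (nat_lit 127) (nat_lit 5) (nat_lit 346) (nat_lit 320) (nat_lit 114))))) (XT.nd (nat_lit 234) (nat_lit 456) (nat_lit 0) (XT.nd (nat_lit 78) (nat_lit 532) (nat_lit 0) (XT.lf (nat_lit 0) (nat_lit 899877247) (nat_lit 532) (nat_lit 9531200159) (nat_lit 76) (nat_lit 27214205076) (nat_lit 119) (nat_lit 5) (nat_lit 126) (nat_lit 5) (nat_lit 120) (nat_lit 5) (nat_lit 347) (nat_lit 320) (nat_lit 113)) (XT.nd (nat_lit 78) (nat_lit 0) (nat_lit 0) (XT.lf (nat_lit 0) (nat_lit 4264331322) (nat_lit 608) (nat_lit 30873689928) (nat_lit 76) (nat_lit 3185545594) (nat_lit 112) (nat_lit 5) (nat_lit 120) (nat_lit 5) (nat_lit 113) (nat_lit 5) (nat_lit 348) (nat_lit 320) (nat_lit 112)) (XT.lf (nat_lit 0) (nat_lit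 7928231429) (nat_lit 608) (nat_lit 13989846833) (nat_lit 76) (nat_lit 17098169797) (nat_lit 112) (nat_lit 5) (nat_lit 120) (nat_lit 5) (nat_lit 113) (nat_lit 5) (nat_lit 349) (nat_lit 320) (nat_lit 111)))) (XT.nd (nat_lit 78) (nat_lit 0) (nat_lit 0) (XT.lf (nat_lit 0) (nat_lit 3466138574) (nat_lit 456) (nat_lit 8267320890) (nat_lit 532) (nat_lit 27995311506) (nat_lit 106) (nat_lit 5) (nat_lit 112) (nat_lit 5) (nat_lit 113) (nat_lit 5) (nat_lit 350) (nat_lit 320) (nat_lit 110)) (XT.nd (nat_lit 78) (nat_lit 0) (nat_lit 0) (XT.lf (nat_lit 0) (nat_lit 15849326115) (nat_lit 532) (nat_lit 18784982564) (nat_lit 76) (nat_lit 5822469918) (nat_lit 106) (nat_lit 5) (nat_lit 113) (nat_lit 5) (nat_lit 107) (nat_lit 5) (nat_lit 351) (nat_lit 320) (nat_lit 109)) (XT.lf (nat_lit 0) (nat_lit 20168705537) (nat_lit 532) (nat_lit 866846833) (nat_lit 76) (nat_lit 20168676361) (nat_lit 106) (nat_lit 5) (nat_lit 113)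 (nat_lit 5) (nat_lit 107) (nat_lit 5) (nat_lit 352) (nat_lit 320) (nat_lit 108))))))) (XT.nd (nat_lit 936) (nat_lit 988) (nat_lit 0) (XT.nd (nat_lit 468) (nat_lit 1064) (nat_lit 0) (XT.nd (nat_lit 234) (nat_lit 456) (nat_lit 0) (XT.nd (nat_lit 78) (nat_lit 380) (nat_lit 0) (XT.lf (nat_lit 0) (nat_lit 17936915797) (nat_lit 456) (nat_lit 6851406208) (nat_lit 532) (nat_lit 17180663976) (nat_lit 100) (nat_lit 5) (nat_lit 106) (nat_lit 5) (nat_lit 107) (nat_lit 5) (nat_lit 353) (nat_lit 320) (nat_lit 107)) (XT.nd (nat_lit 78) (nat_lit 380) (nat_lit 0) (XT.lf (nat_lit 0) (nat_lit 29628210624) (nat_lit 532) (nat_lit 5510491865) (nat_lit 76) (nat_lit 7615536137) (nat_lit 100) (nat_lit 5) (nat_lit 107) (nat_lit 5) (nat_lit 101) (nat_lit 5) (nat_lit 354) (nat_lit 320) (nat_lit 106)) (XT.lf (nat_lit 0) (nat_lit 13765606422) (nat_lit 380) (nat_lit 21046165459) (nat_lit 456) (nat_lit 8745325784) (nat_lit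 95) (nat_lit 5) (nat_lit 100) (nat_lit 5) (nat_lit 101) (nat_lit 5) (nat_lit 355) (nat_lit 320) (nat_lit 105)))) (XT.nd (nat_lit 78) (nat_lit 456) (nat_lit 0) (XT.lf (nat_lit 0) (nat_lit 33731057809) (nat_lit 380) (nat_lit 6473775037) (nat_lit 456) (nat_lit 4177592847) (nat_lit 95) (nat_lit 5) (nat_lit 100) (nat_lit 5) (nat_lit 101) (nat_lit 5) (nat_lit 356) (nat_lit 320) (nat_lit 104)) (XT.nd (nat_lit 78) (nat_lit 0) (nat_lit 0) (XT.lf (nat_lit 0) (nat_lit 687024734) (nat_lit 456) (nat_lit 36076472941) (nat_lit 76) (nat_lit 8463762503) (nat_lit 89) (nat_lit 5) (nat_lit 95) (nat_lit 5) (nat_lit 90) (nat_lit 5) (nat_lit 357) (nat_lit 320) (nat_lit 103)) (XT.lf (nat_lit 0) (nat_lit 5784739091) (nat_lit 456) (nat_lit 16437286734) (nat_lit 76) (nat_lit 23869042041) (nat_lit 89) (nat_lit 5) (nat_lit 95) (nat_lit 5) (nat_lit 90) (nat_lit 5) (nat_lit 358) (nat_lit 320) (nat_lit 102))))) (XT.nd (nat_lit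 234) (nat_lit 684) (nat_lit 0) (XT.nd (nat_lit 78) (nat_lit 0) (nat_lit 0) (XT.lf (nat_lit 0) (nat_lit 3864644136) (nat_lit 380) (nat_lit 7206340632) (nat_lit 456) (nat_lit 35908739687) (nat_lit 84) (nat_lit 5) (nat_lit 89) (nat_lit 5) (nat_lit 90) (nat_lit 5) (nat_lit 359) (nat_lit 320) (nat_lit 101)) (XT.nd (nat_lit 78) (nat_lit 0) (nat_lit 0) (XT.lf (nat_lit 0) (nat_lit 16761319209) (nat_lit 456) (nat_lit 22860393114) (nat_lit 76) (nat_lit 8265965970) (nat_lit 84) (nat_lit 5) (nat_lit 90) (nat_lit 5) (nat_lit 85) (nat_lit 5) (nat_lit 360) (nat_lit 320) (nat_lit 100)) (XT.lf (nat_lit 0) (nat_lit 22692233221) (nat_lit 456) (nat_lit 2071231989) (nat_lit 76) (nat_lit 24057311964) (nat_lit 84) (nat_lit 5) (nat_lit 90) (nat_lit 5) (nat_lit 85) (nat_lit 5) (nat_lit 361) (nat_lit 320) (nat_lit 99)))) (XT.nd (nat_lit 78) (nat_lit 304) (nat_lit 0) (XT.lf (nat_lit 0) (nat_lit 19724740834) (nat_lit 380)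 (nat_lit 9264502844) (nat_lit 456) (nat_lit 20786982717) (nat_lit 79) (nat_lit 5) (nat_lit 84) (nat_lit 5) (nat_lit 85) (nat_lit 5) (nat_lit 362) (nat_lit 320) (nat_lit 98)) (XT.nd (nat_lit 78) (nat_lit 304) (nat_lit 0) (XT.lf (nat_lit 0) (nat_lit 35559270525) (nat_lit 456) (nat_lit 8609054751) (nat_lit 76) (nat_lit 6589493004) (nat_lit 79) (nat_lit 5) (nat_lit 85) (nat_lit 5) (nat_lit 80) (nat_lit 5) (nat_lit 363) (nat_lit 320) (nat_lit 97)) (XT.lf (nat_lit 0) (nat_lit 13649536836) (nat_lit 304) (nat_lit 28898422622) (nat_lit 380) (nat_lit 9214253928) (nat_lit 75) (nat_lit 5) (nat_lit 79) (nat_lit 5) (nat_lit 80) (nat_lit 5) (nat_lit 364) (nat_lit 320) (nat_lit 96)))))) (XT.nd (nat_lit 468) (nat_lit 304) (nat_lit 0) (XT.nd (nat_lit 234) (nat_lit 304) (nat_lit 0) (XT.nd (nat_lit 78) (nat_lit 380) (nat_lit 0) (XT.lf (nat_lit 0) (nat_lit 36750644353) (nat_lit 304) (nat_lit 13081248612) (nat_lit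 380) (nat_lit 2962282099) (nat_lit 75) (nat_lit 5) (nat_lit 79) (nat_lit 5) (nat_lit 80) (nat_lit 5) (nat_lit 365) (nat_lit 320) (nat_lit 95)) (XT.nd (nat_lit 78) (nat_lit 0) (nat_lit 0) (XT.lf (nat_lit 0) (nat_lit 3505123888) (nat_lit 380) (nat_lit 47101046206) (nat_lit 76) (nat_lit 3247052981) (nat_lit 70) (nat_lit 5) (nat_lit 75) (nat_lit 5) (nat_lit 71) (nat_lit 5) (nat_lit 366) (nat_lit 320) (nat_lit 94)) (XT.lf (nat_lit 0) (nat_lit 10398835092) (nat_lit 380) (nat_lit 24540719171) (nat_lit 76) (nat_lit 19994855765) (nat_lit 70) (nat_lit 5) (nat_lit 75) (nat_lit 5) (nat_lit 71) (nat_lit 5) (nat_lit 367) (nat_lit 320) (nat_lit 93)))) (XT.nd (nat_lit 78) (nat_lit 304) (nat_lit 0) (XT.lf (nat_lit 0) (nat_lit 17498088133) (nat_lit 380) (nat_lit 1305250617) (nat_lit 76) (nat_lit 37244733910) (nat_lit 70) (nat_lit 5) (nat_lit 75) (nat_lit 5) (nat_lit 71) (nat_lit 5) (nat_lit 368) (nat_lit 320)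 (nat_lit 92)) (XT.nd (nat_lit 78) (nat_lit 0) (nat_lit 0) (XT.lf (nat_lit 0) (nat_lit 23075957337) (nat_lit 304) (nat_lit 1954949123) (nat_lit 380) (nat_lit 32157623008) (nat_lit 66) (nat_lit 5) (nat_lit 70) (nat_lit 5) (nat_lit 71) (nat_lit 5) (nat_lit 369) (nat_lit 320) (nat_lit 91)) (XT.lf (nat_lit 0) (nat_lit 32949828073) (nat_lit 380) (nat_lit 10297239038) (nat_lit 76) (nat_lit 15111331179) (nat_lit 66) (nat_lit 5) (nat_lit 71) (nat_lit 5) (nat_lit 67) (nat_lit 5) (nat_lit 370) (nat_lit 320) (nat_lit 90))))) (XT.nd (nat_lit 36816) (nat_lit 0) (nat_lit 7372) (XT.nd (nat_lit 78) (nat_lit 0) (nat_lit 0) (XT.lf (nat_lit 0) (nat_lit 14494446400) (nat_lit 304) (nat_lit 26769375956) (nat_lit 380) (nat_lit 18294817488) (nat_lit 62) (nat_lit 5) (nat_lit 66) (nat_lit 5) (nat_lit 67) (nat_lit 5) (nat_lit 371) (nat_lit 320) (nat_lit 89)) (XT.nd (nat_lit 36660) (nat_lit 0) (nat_lit 7372) (XT.lf (nat_lit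 0) (nat_lit 40239390730) (nat_lit 304) (nat_lit 9690666506) (nat_lit 380) (nat_lit 10861748549) (nat_lit 62) (nat_lit 5) (nat_lit 66) (nat_lit 5) (nat_lit 67) (nat_lit 5) (nat_lit 372) (nat_lit 320) (nat_lit 88)) (XT.lf (nat_lit 0) (nat_lit 9232520934) (nat_lit 1140) (nat_lit 1635682236) (nat_lit 1140) (nat_lit 1635682236) (nat_lit 159) (nat_lit 3) (nat_lit 174) (nat_lit 3) (nat_lit 174) (nat_lit 5) (nat_lit 321) (nat_lit 321) (nat_lit 138)))) (XT.nd (nat_lit 78) (nat_lit 0) (nat_lit 0) (XT.lf (nat_lit 76) (nat_lit 7452350453) (nat_lit 0) (nat_lit 11456878496) (nat_lit 1140) (nat_lit 6468431810) (nat_lit 160) (nat_lit 5) (nat_lit 159) (nat_lit 3) (nat_lit 174) (nat_lit 5) (nat_lit 322) (nat_lit 321) (nat_lit 137)) (XT.nd (nat_lit 78) (nat_lit 0) (nat_lit 76) (XT.lf (nat_lit 76) (nat_lit 18562873215) (nat_lit 0) (nat_lit 833153901) (nat_lit 1140) (nat_lit 6361749930) (nat_lit 160) (nat_lit 5)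 (nat_lit 159) (nat_lit 3) (nat_lit 174) (nat_lit 5) (nat_lit 323) (nat_lit 321) (nat_lit 136)) (XT.lf (nat_lit 76) (nat_lit 3832993732) (nat_lit 0) (nat_lit 16194834144) (nat_lit 1140) (nat_lit 6117564953) (nat_lit 161) (nat_lit 5) (nat_lit 160) (nat_lit 5) (nat_lit 175) (nat_lit 5) (nat_lit 324) (nat_lit 321) (nat_lit 135))))))))
noncomputable def xc238 : XT := (XT.nd (nat_lit 1794) (nat_lit 4104) (nat_lit 0) (XT.nd (nat_lit 858) (nat_lit 2204) (nat_lit 0) (XT.nd (nat_lit 390) (nat_lit 836) (nat_lit 0) (XT.nd (nat_lit 156) (nat_lit 0) (nat_lit 76) (XT.nd (nat_lit 78) (nat_lit 0) (nat_lit 76) (XT.lf (nat_lit 76) (nat_lit 15328783463) (nat_lit 0) (nat_lit 5427084860) (nat_lit 1140) (nat_lit 5786457928) (nat_lit 161) (nat_lit 5) (nat_lit 160) (nat_lit 5) (nat_lit 175) (nat_lit 5) (nat_lit 325) (nat_lit 321) (nat_lit 134)) (XT.lf (nat_lit 76) (nat_lit 164969579) (nat_lit 0) (nat_lit 21393389355)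 (nat_lit 1140) (nat_lit 5391237983) (nat_lit 162) (nat_lit 5) (nat_lit 161) (nat_lit 5) (nat_lit 176) (nat_lit 5) (nat_lit 326) (nat_lit 321) (nat_lit 133))) (XT.nd (nat_lit 78) (nat_lit 0) (nat_lit 76) (XT.lf (nat_lit 76) (nat_lit 12057835624) (nat_lit 0) (nat_lit 10490190141) (nat_lit 1140) (nat_lit 4816174183) (nat_lit 162) (nat_lit 5) (nat_lit 161) (nat_lit 5) (nat_lit 176) (nat_lit 5) (nat_lit 327) (nat_lit 321) (nat_lit 132)) (XT.nd (nat_lit 78) (nat_lit 0) (nat_lit 0) (XT.lf (nat_lit 0) (nat_lit 23571266115) (nat_lit 1064) (nat_lit 3492989275) (nat_lit 1140) (nat_lit 726876256) (nat_lit 162) (nat_lit 5) (nat_lit 176) (nat_lit 5) (nat_lit 177) (nat_lit 5) (nat_lit 328) (nat_lit 321) (nat_lit 131)) (XT.lf (nat_lit 76) (nat_lit 8739401235) (nat_lit 0) (nat_lit 16070537451) (nat_lit 1140) (nat_lit 3415397430) (nat_lit 163) (nat_lit 5) (nat_lit 162) (nat_lit 5) (nat_lit 177) (nat_lit 5) (nat_lit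 329) (nat_lit 321) (nat_lit 130))))) (XT.nd (nat_lit 234) (nat_lit 988) (nat_lit 0) (XT.nd (nat_lit 78) (nat_lit 0) (nat_lit 76) (XT.lf (nat_lit 76) (nat_lit 21408326790) (nat_lit 0) (nat_lit 4709652014) (nat_lit 1140) (nat_lit 2553628367) (nat_lit 163) (nat_lit 5) (nat_lit 162) (nat_lit 5) (nat_lit 177) (nat_lit 5) (nat_lit 330) (nat_lit 321) (nat_lit 129)) (XT.nd (nat_lit 78) (nat_lit 0) (nat_lit 0) (XT.lf (nat_lit 76) (nat_lit 5361376113) (nat_lit 0) (nat_lit 22219666668) (nat_lit 1140) (nat_lit 1546756576) (nat_lit 164) (nat_lit 5) (nat_lit 163) (nat_lit 5) (nat_lit 178) (nat_lit 5) (nat_lit 331) (nat_lit 321) (nat_lit 128)) (XT.lf (nat_lit 76) (nat_lit 18464039183) (nat_lit 0) (nat_lit 10740577853) (nat_lit 1140) (nat_lit 389568010) (nat_lit 164) (nat_lit 5) (nat_lit 163) (nat_lit 5) (nat_lit 178) (nat_lit 5) (nat_lit 332) (nat_lit 321) (nat_lit 127)))) (XT.nd (nat_lit 78) (nat_lit 0) (nat_lit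 0) (XT.lf (nat_lit 0) (nat_lit 812892672) (nat_lit 1140) (nat_lit 28171781249) (nat_lit 1216) (nat_lit 1088876550) (nat_lit 149) (nat_lit 5) (nat_lit 164) (nat_lit 5) (nat_lit 165) (nat_lit 5) (nat_lit 333) (nat_lit 321) (nat_lit 126)) (XT.nd (nat_lit 78) (nat_lit 0) (nat_lit 0) (XT.lf (nat_lit 0) (nat_lit 2260666454) (nat_lit 1140) (nat_lit 15124582136) (nat_lit 1216) (nat_lit 13175426235) (nat_lit 149) (nat_lit 5) (nat_lit 164) (nat_lit 5) (nat_lit 165) (nat_lit 5) (nat_lit 334) (nat_lit 321) (nat_lit 125)) (XT.lf (nat_lit 0) (nat_lit 3749175784) (nat_lit 1140) (nat_lit 1688048249) (nat_lit 1216) (nat_lit 25625275395) (nat_lit 149) (nat_lit 5) (nat_lit 164) (nat_lit 5) (nat_lit 165) (nat_lit 5) (nat_lit 335) (nat_lit 321) (nat_lit 124)))))) (XT.nd (nat_lit 468) (nat_lit 1520) (nat_lit 0) (XT.nd (nat_lit 234) (nat_lit 760) (nat_lit 0) (XT.nd (nat_lit 78) (nat_lit 0) (nat_lit 0) (XT.lf (nat_lit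 0) (nat_lit 5466051089) (nat_lit 1140) (nat_lit 19251744648) (nat_lit 1216) (nat_lit 6856077135) (nat_lit 150) (nat_lit 5) (nat_lit 165) (nat_lit 5) (nat_lit 166) (nat_lit 5) (nat_lit 336) (nat_lit 321) (nat_lit 123)) (XT.nd (nat_lit 78) (nat_lit 0) (nat_lit 0) (XT.lf (nat_lit 0) (nat_lit 7302924659) (nat_lit 1140) (nat_lit 5368953783) (nat_lit 1216) (nat_lit 19426659585) (nat_lit 150) (nat_lit 5) (nat_lit 165) (nat_lit 5) (nat_lit 166) (nat_lit 5) (nat_lit 337) (nat_lit 321) (nat_lit 122)) (XT.lf (nat_lit 76) (nat_lit 9105983878) (nat_lit 0) (nat_lit 173970665) (nat_lit 1216) (nat_lit 23356442205) (nat_lit 151) (nat_lit 5) (nat_lit 150) (nat_lit 5) (nat_lit 166) (nat_lit 5) (nat_lit 338) (nat_lit 321) (nat_lit 121)))) (XT.nd (nat_lit 78) (nat_lit 836) (nat_lit 0) (XT.lf (nat_lit 0) (nat_lit 11490692243) (nat_lit 1140) (nat_lit 9188232422) (nat_lit 76) (nat_lit 12506239624) (nat_lit 151) (nat_lit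 5) (nat_lit 166) (nat_lit 5) (nat_lit 152) (nat_lit 5) (nat_lit 339) (nat_lit 321) (nat_lit 120)) (XT.nd (nat_lit 78) (nat_lit 0) (nat_lit 0) (XT.lf (nat_lit 0) (nat_lit 5691524471) (nat_lit 836) (nat_lit 8130306004) (nat_lit 912) (nat_lit 19926946849) (nat_lit 140) (nat_lit 5) (nat_lit 151) (nat_lit 5) (nat_lit 152) (nat_lit 5) (nat_lit 340) (nat_lit 321) (nat_lit 119)) (XT.lf (nat_lit 0) (nat_lit 16360392529) (nat_lit 912) (nat_lit 13169585772) (nat_lit 76) (nat_lit 4795200437) (nat_lit 140) (nat_lit 5) (nat_lit 152) (nat_lit 5) (nat_lit 141) (nat_lit 5) (nat_lit 341) (nat_lit 321) (nat_lit 118))))) (XT.nd (nat_lit 234) (nat_lit 988) (nat_lit 0) (XT.nd (nat_lit 78) (nat_lit 0) (nat_lit 0) (XT.lf (nat_lit 0) (nat_lit 2123628189) (nat_lit 532) (nat_lit 16950159632) (nat_lit 608) (nat_lit 15842128628) (nat_lit 133) (nat_lit 5) (nat_lit 140) (nat_lit 5) (nat_lit 141) (nat_lit 5) (nat_lit 342) (nat_lit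 321) (nat_lit 117)) (XT.nd (nat_lit 78) (nat_lit 0) (nat_lit 0) (XT.lf (nat_lit 0) (nat_lit 18143597330) (nat_lit 532) (nat_lit 3855785153) (nat_lit 608) (nat_lit 13521074292) (nat_lit 133) (nat_lit 5) (nat_lit 140) (nat_lit 5) (nat_lit 141) (nat_lit 5) (nat_lit 343) (nat_lit 321) (nat_lit 116)) (XT.lf (nat_lit 0) (nat_lit 25103204106) (nat_lit 608) (nat_lit 1593567094) (nat_lit 76) (nat_lit 9443652622) (nat_lit 133) (nat_lit 5) (nat_lit 141) (nat_lit 5) (nat_lit 134) (nat_lit 5) (nat_lit 344) (nat_lit 321) (nat_lit 115)))) (XT.nd (nat_lit 78) (nat_lit 456) (nat_lit 0) (XT.lf (nat_lit 0) (nat_lit 14914118614) (nat_lit 532) (nat_lit 13565499361) (nat_lit 608) (nat_lit 8293991735) (nat_lit 126) (nat_lit 5) (nat_lit 133) (nat_lit 5) (nat_lit 134) (nat_lit 5) (nat_lit 345) (nat_lit 321) (nat_lit 114)) (XT.nd (nat_lit 78) (nat_lit 456) (nat_lit 0) (XT.lf (nat_lit 0) (nat_lit 31947763153) (nat_lit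 532) (nat_lit 23632318) (nat_lit 608) (nat_lit 5453977605) (nat_lit 126) (nat_lit 5) (nat_lit 133) (nat_lit 5) (nat_lit 134) (nat_lit 5) (nat_lit 346) (nat_lit 321) (nat_lit 113)) (XT.lf (nat_lit 0) (nat_lit 11484026286) (nat_lit 456) (nat_lit 24326181144) (nat_lit 532) (nat_lit 2279217397) (nat_lit 120) (nat_lit 5) (nat_lit 126) (nat_lit 5) (nat_lit 127) (nat_lit 5) (nat_lit 347) (nat_lit 321) (nat_lit 112))))))) (XT.nd (nat_lit 936) (nat_lit 1748) (nat_lit 0) (XT.nd (nat_lit 468) (nat_lit 1292) (nat_lit 0) (XT.nd (nat_lit 234) (nat_lit 456) (nat_lit 0) (XT.nd (nat_lit 78) (nat_lit 532) (nat_lit 0) (XT.lf (nat_lit 0) (nat_lit 1025601345) (nat_lit 532) (nat_lit 9717215926) (nat_lit 76) (nat_lit 28028674346) (nat_lit 119) (nat_lit 5) (nat_lit 126) (nat_lit 5) (nat_lit 120) (nat_lit 5) (nat_lit 348) (nat_lit 321) (nat_lit 111)) (XT.nd (nat_lit 78) (nat_lit 0) (nat_lit 0) (XT.lf (nat_lit 0) (nat_lit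 4489085099) (nat_lit 608) (nat_lit 31697894401) (nat_lit 76) (nat_lit 3283207590) (nat_lit 112) (nat_lit 5) (nat_lit 120) (nat_lit 5) (nat_lit 113) (nat_lit 5) (nat_lit 349) (nat_lit 321) (nat_lit 110)) (XT.lf (nat_lit 0) (nat_lit 8260082098) (nat_lit 608) (nat_lit 14310507068) (nat_lit 76) (nat_lit 17613149481) (nat_lit 112) (nat_lit 5) (nat_lit 120) (nat_lit 5) (nat_lit 113) (nat_lit 5) (nat_lit 350) (nat_lit 321) (nat_lit 109)))) (XT.nd (nat_lit 78) (nat_lit 0) (nat_lit 0) (XT.lf (nat_lit 0) (nat_lit 3668186967) (nat_lit 456) (nat_lit 8509484687) (nat_lit 532) (nat_lit 28740024599) (nat_lit 106) (nat_lit 5) (nat_lit 112) (nat_lit 5) (nat_lit 113) (nat_lit 5) (nat_lit 351) (nat_lit 321) (nat_lit 108)) (XT.nd (nat_lit 78) (nat_lit 0) (nat_lit 0) (XT.lf (nat_lit 0) (nat_lit 16414383274) (nat_lit 532) (nat_lit 19250526417) (nat_lit 76) (nat_lit 6002718347) (nat_lit 106) (nat_lit 5) (nat_lit 113)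 (nat_lit 5) (nat_lit 107) (nat_lit 5) (nat_lit 352) (nat_lit 321) (nat_lit 107)) (XT.lf (nat_lit 0) (nat_lit 20860735029) (nat_lit 532) (nat_lit 797701147) (nat_lit 76) (nat_lit 20779148624) (nat_lit 106) (nat_lit 5) (nat_lit 113) (nat_lit 5) (nat_lit 107) (nat_lit 5) (nat_lit 353) (nat_lit 321) (nat_lit 106))))) (XT.nd (nat_lit 234) (nat_lit 456) (nat_lit 0) (XT.nd (nat_lit 78) (nat_lit 380) (nat_lit 0) (XT.lf (nat_lit 0) (nat_lit 18569241508) (nat_lit 456) (nat_lit 7048071108) (nat_lit 532) (nat_lit 17608025684) (nat_lit 100) (nat_lit 5) (nat_lit 106) (nat_lit 5) (nat_lit 107) (nat_lit 5) (nat_lit 354) (nat_lit 321) (nat_lit 105)) (XT.nd (nat_lit 78) (nat_lit 380) (nat_lit 0) (XT.lf (nat_lit 0) (nat_lit 30599995083) (nat_lit 532) (nat_lit 5581777336) (nat_lit 76) (nat_lit 7852452764) (nat_lit 100) (nat_lit 5) (nat_lit 107) (nat_lit 5) (nat_lit 101) (nat_lit 5) (nat_lit 355) (nat_lit 321) (nat_lit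 104)) (XT.lf (nat_lit 0) (nat_lit 14271682044) (nat_lit 380) (nat_lit 21665860465) (nat_lit 456) (nat_lit 8923677543) (nat_lit 95) (nat_lit 5) (nat_lit 100) (nat_lit 5) (nat_lit 101) (nat_lit 5) (nat_lit 356) (nat_lit 321) (nat_lit 103)))) (XT.nd (nat_lit 78) (nat_lit 456) (nat_lit 0) (XT.lf (nat_lit 0) (nat_lit 34833385106) (nat_lit 380) (nat_lit 6656638815) (nat_lit 456) (nat_lit 4221359454) (nat_lit 95) (nat_lit 5) (nat_lit 100) (nat_lit 5) (nat_lit 101) (nat_lit 5) (nat_lit 357) (nat_lit 321) (nat_lit 102)) (XT.nd (nat_lit 78) (nat_lit 0) (nat_lit 0) (XT.lf (nat_lit 0) (nat_lit 786274925) (nat_lit 456) (nat_lit 37065174858) (nat_lit 76) (nat_lit 8730133560) (nat_lit 89) (nat_lit 5) (nat_lit 95) (nat_lit 5) (nat_lit 90) (nat_lit 5) (nat_lit 358) (nat_lit 321) (nat_lit 101)) (XT.lf (nat_lit 0) (nat_lit 6034630243) (nat_lit 456) (nat_lit 16839539053) (nat_lit 76) (nat_lit 24597208624) (nat_lit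 89) (nat_lit 5) (nat_lit 95) (nat_lit 5) (nat_lit 90) (nat_lit 5) (nat_lit 359) (nat_lit 321) (nat_lit 100)))))) (XT.nd (nat_lit 468) (nat_lit 684) (nat_lit 0) (XT.nd (nat_lit 234) (nat_lit 684) (nat_lit 0) (XT.nd (nat_lit 78) (nat_lit 0) (nat_lit 0) (XT.lf (nat_lit 0) (nat_lit 4070558898) (nat_lit 380) (nat_lit 7407545535) (nat_lit 456) (nat_lit 36908634371) (nat_lit 84) (nat_lit 5) (nat_lit 89) (nat_lit 5) (nat_lit 90) (nat_lit 5) (nat_lit 360) (nat_lit 321) (nat_lit 99)) (XT.nd (nat_lit 78) (nat_lit 0) (nat_lit 0) (XT.lf (nat_lit 0) (nat_lit 17337104581) (nat_lit 456) (nat_lit 23456681826) (nat_lit 76) (nat_lit 8528209898) (nat_lit 84) (nat_lit 5) (nat_lit 90) (nat_lit 5) (nat_lit 85) (nat_lit 5) (nat_lit 361) (nat_lit 321) (nat_lit 98)) (XT.lf (nat_lit 0) (nat_lit 23443821379) (nat_lit 456) (nat_lit 2046453335) (nat_lit 76) (nat_lit 24792880789) (nat_lit 84) (nat_lit 5) (nat_lit 90) (nat_lit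 5) (nat_lit 85) (nat_lit 5) (nat_lit 362) (nat_lit 321) (nat_lit 97)))) (XT.nd (nat_lit 78) (nat_lit 304) (nat_lit 0) (XT.lf (nat_lit 0) (nat_lit 20402546559) (nat_lit 380) (nat_lit 9525960133) (nat_lit 456) (nat_lit 21338802077) (nat_lit 79) (nat_lit 5) (nat_lit 84) (nat_lit 5) (nat_lit 85) (nat_lit 5) (nat_lit 363) (nat_lit 321) (nat_lit 96)) (XT.nd (nat_lit 78) (nat_lit 304) (nat_lit 0) (XT.lf (nat_lit 0) (nat_lit 36693761358) (nat_lit 456) (nat_lit 8781783167) (nat_lit 76) (nat_lit 6802863479) (nat_lit 79) (nat_lit 5) (nat_lit 85) (nat_lit 5) (nat_lit 80) (nat_lit 5) (nat_lit 364) (nat_lit 321) (nat_lit 95)) (XT.lf (nat_lit 0) (nat_lit 14143727509) (nat_lit 304) (nat_lit 29747225467) (nat_lit 380) (nat_lit 9422020031) (nat_lit 75) (nat_lit 5) (nat_lit 79) (nat_lit 5) (nat_lit 80) (nat_lit 5) (nat_lit 365) (nat_lit 321) (nat_lit 94))))) (XT.nd (nat_lit 234) (nat_lit 304) (nat_lit 0) (XT.nd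 (nat_lit 78) (nat_lit 380) (nat_lit 0) (XT.lf (nat_lit 0) (nat_lit 37935401127) (nat_lit 304) (nat_lit 13456064873) (nat_lit 380) (nat_lit 2984488897) (nat_lit 75) (nat_lit 5) (nat_lit 79) (nat_lit 5) (nat_lit 80) (nat_lit 5) (nat_lit 366) (nat_lit 321) (nat_lit 93)) (XT.nd (nat_lit 78) (nat_lit 0) (nat_lit 0) (XT.lf (nat_lit 0) (nat_lit 3674709377) (nat_lit 380) (nat_lit 48429405645) (nat_lit 76) (nat_lit 3362670999) (nat_lit 70) (nat_lit 5) (nat_lit 75) (nat_lit 5) (nat_lit 71) (nat_lit 5) (nat_lit 367) (nat_lit 321) (nat_lit 92)) (XT.lf (nat_lit 0) (nat_lit 10773355264) (nat_lit 380) (nat_lit 25194734973) (nat_lit 76) (nat_lit 20612377581) (nat_lit 70) (nat_lit 5) (nat_lit 75) (nat_lit 5) (nat_lit 71) (nat_lit 5) (nat_lit 368) (nat_lit 321) (nat_lit 91)))) (XT.nd (nat_lit 78) (nat_lit 304) (nat_lit 0) (XT.lf (nat_lit 0) (nat_lit 18083763902) (nat_lit 380) (nat_lit 1264596705) (nat_lit 76)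 (nat_lit 38379237232) (nat_lit 70) (nat_lit 5) (nat_lit 75) (nat_lit 5) (nat_lit 71) (nat_lit 5) (nat_lit 369) (nat_lit 321) (nat_lit 90)) (XT.nd (nat_lit 78) (nat_lit 0) (nat_lit 0) (XT.lf (nat_lit 0) (nat_lit 23847265023) (nat_lit 304) (nat_lit 1994292505) (nat_lit 380) (nat_lit 33060743869) (nat_lit 66) (nat_lit 5) (nat_lit 70) (nat_lit 5) (nat_lit 71) (nat_lit 5) (nat_lit 370) (nat_lit 321) (nat_lit 89)) (XT.lf (nat_lit 0) (nat_lit 33996487426) (nat_lit 380) (nat_lit 10527780142) (nat_lit 76) (nat_lit 15583048182) (nat_lit 66) (nat_lit 5) (nat_lit 71) (nat_lit 5) (nat_lit 67) (nat_lit 5) (nat_lit 371) (nat_lit 321) (nat_lit 88))))))))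
noncomputable def xc239 : XT := (XT.nd (nat_lit 1794) (nat_lit 4788) (nat_lit 0) (XT.nd (nat_lit 858) (nat_lit 1976) (nat_lit 0) (XT.nd (nat_lit 390) (nat_lit 0) (nat_lit 152) (XT.nd (nat_lit 156) (nat_lit 0) (nat_lit 0) (XT.nd (nat_lit 78) (nat_lit 0) (nat_lit 0) (XT.lf (nat_lit 0) (nat_lit 9604152740) (nat_lit 1140) (nat_lit 1635900646) (nat_lit 1140) (nat_lit 1635900646) (nat_lit 159) (nat_lit 3) (nat_lit 174) (nat_lit 3) (nat_lit 174) (nat_lit 5) (nat_lit 322) (nat_lit 322) (nat_lit 136)) (XT.lf (nat_lit 76) (nat_lit 7772667198) (nat_lit 0) (nat_lit 11888567008) (nat_lit 1140) (nat_lit 6471810153) (nat_lit 160) (nat_lit 5) (nat_lit 159) (nat_lit 3) (nat_lit 174) (nat_lit 5) (nat_lit 323) (nat_lit 322) (nat_lit 135))) (XT.nd (nat_lit 78) (nat_lit 0) (nat_lit 76) (XT.lf (nat_lit 76) (nat_lit 19213687791) (nat_lit 0) (nat_lit 943568087) (nat_lit 1140) (nat_lit 6367481446) (nat_lit 160) (nat_lit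 5) (nat_lit 159) (nat_lit 3) (nat_lit 174) (nat_lit 5) (nat_lit 324) (nat_lit 322) (nat_lit 134)) (XT.nd (nat_lit 78) (nat_lit 0) (nat_lit 0) (XT.lf (nat_lit 76) (nat_lit 4047520546) (nat_lit 0) (nat_lit 16755426010) (nat_lit 1140) (nat_lit 6121198384) (nat_lit 161) (nat_lit 5) (nat_lit 160) (nat_lit 5) (nat_lit 175) (nat_lit 5) (nat_lit 325) (nat_lit 322) (nat_lit 133)) (XT.lf (nat_lit 76) (nat_lit 15885284833) (nat_lit 0) (nat_lit 5662467155) (nat_lit 1140) (nat_lit 5785397765) (nat_lit 161) (nat_lit 5) (nat_lit 160) (nat_lit 5) (nat_lit 175) (nat_lit 5) (nat_lit 326) (nat_lit 322) (nat_lit 132))))) (XT.nd (nat_lit 234) (nat_lit 0) (nat_lit 76) (XT.nd (nat_lit 78) (nat_lit 0) (nat_lit 0) (XT.lf (nat_lit 76) (nat_lit 271692739) (nat_lit 0) (nat_lit 22097997249) (nat_lit 1140) (nat_lit 5383098149) (nat_lit 162) (nat_lit 5) (nat_lit 161) (nat_lit 5) (nat_lit 176) (nat_lit 5) (nat_lit 327) (nat_lit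 322) (nat_lit 131)) (XT.nd (nat_lit 78) (nat_lit 0) (nat_lit 76) (XT.lf (nat_lit 76) (nat_lit 12518380472) (nat_lit 0) (nat_lit 10865872752) (nat_lit 1140) (nat_lit 4795730309) (nat_lit 162) (nat_lit 5) (nat_lit 161) (nat_lit 5) (nat_lit 176) (nat_lit 5) (nat_lit 328) (nat_lit 322) (nat_lit 130)) (XT.lf (nat_lit 0) (nat_lit 24432967728) (nat_lit 1064) (nat_lit 3496285418) (nat_lit 1140) (nat_lit 690636886) (nat_lit 162) (nat_lit 5) (nat_lit 176) (nat_lit 5) (nat_lit 177) (nat_lit 5) (nat_lit 329) (nat_lit 322) (nat_lit 129)))) (XT.nd (nat_lit 78) (nat_lit 0) (nat_lit 0) (XT.lf (nat_lit 76) (nat_lit 9102081772) (nat_lit 0) (nat_lit 16603182903) (nat_lit 1140) (nat_lit 3361971898) (nat_lit 163) (nat_lit 5) (nat_lit 162) (nat_lit 5) (nat_lit 177) (nat_lit 5) (nat_lit 330) (nat_lit 322) (nat_lit 128)) (XT.nd (nat_lit 78) (nat_lit 0) (nat_lit 76) (XT.lf (nat_lit 76) (nat_lit 22148147954) (nat_lit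 0) (nat_lit 4899999175) (nat_lit 1140) (nat_lit 2478890174) (nat_lit 163) (nat_lit 5) (nat_lit 162) (nat_lit 5) (nat_lit 177) (nat_lit 5) (nat_lit 331) (nat_lit 322) (nat_lit 127)) (XT.lf (nat_lit 76) (nat_lit 5623970950) (nat_lit 0) (nat_lit 22927381609) (nat_lit 1140) (nat_lit 1445684507) (nat_lit 164) (nat_lit 5) (nat_lit 163) (nat_lit 5) (nat_lit 178) (nat_lit 5) (nat_lit 332) (nat_lit 322) (nat_lit 126)))))) (XT.nd (nat_lit 468) (nat_lit 1216) (nat_lit 0) (XT.nd (nat_lit 234) (nat_lit 0) (nat_lit 0) (XT.nd (nat_lit 78) (nat_lit 1064) (nat_lit 0) (XT.lf (nat_lit 76) (nat_lit 19116750217) (nat_lit 0) (nat_lit 11102722316) (nat_lit 1140) (nat_lit 258075666) (nat_lit 164) (nat_lit 5) (nat_lit 163) (nat_lit 5) (nat_lit 178) (nat_lit 5) (nat_lit 333) (nat_lit 322) (nat_lit 125)) (XT.nd (nat_lit 78) (nat_lit 0) (nat_lit 0) (XT.lf (nat_lit 0) (nat_lit 974195894) (nat_lit 1140) (nat_lit 28911306141)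 (nat_lit 1216) (nat_lit 1085863839) (nat_lit 149) (nat_lit 5) (nat_lit 164) (nat_lit 5) (nat_lit 165) (nat_lit 5) (nat_lit 334) (nat_lit 322) (nat_lit 124)) (XT.lf (nat_lit 0) (nat_lit 2461415032) (nat_lit 1140) (nat_lit 15475767614) (nat_lit 1216) (nat_lit 13536049209) (nat_lit 149) (nat_lit 5) (nat_lit 164) (nat_lit 5) (nat_lit 165) (nat_lit 5) (nat_lit 335) (nat_lit 322) (nat_lit 123)))) (XT.nd (nat_lit 78) (nat_lit 0) (nat_lit 76) (XT.lf (nat_lit 0) (nat_lit 3990707936) (nat_lit 1140) (nat_lit 1639124661) (nat_lit 1216) (nat_lit 26360402770) (nat_lit 149) (nat_lit 5) (nat_lit 164) (nat_lit 5) (nat_lit 165) (nat_lit 5) (nat_lit 336) (nat_lit 322) (nat_lit 122)) (XT.nd (nat_lit 78) (nat_lit 0) (nat_lit 0) (XT.lf (nat_lit 0) (nat_lit 5756012405) (nat_lit 1140) (nat_lit 19726395308) (nat_lit 1216) (nat_lit 7034642402) (nat_lit 150) (nat_lit 5) (nat_lit 165) (nat_lit 5) (nat_lit 166) (nat_lit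 5) (nat_lit 337) (nat_lit 322) (nat_lit 121)) (XT.lf (nat_lit 0) (nat_lit 7644322868) (nat_lit 1140) (nat_lit 5430117853) (nat_lit 1216) (nat_lit 19983132143) (nat_lit 150) (nat_lit 5) (nat_lit 165) (nat_lit 5) (nat_lit 166) (nat_lit 5) (nat_lit 338) (nat_lit 322) (nat_lit 120))))) (XT.nd (nat_lit 234) (nat_lit 532) (nat_lit 0) (XT.nd (nat_lit 78) (nat_lit 760) (nat_lit 0) (XT.lf (nat_lit 76) (nat_lit 9478088482) (nat_lit 0) (nat_lit 199963655) (nat_lit 1216) (nat_lit 23933600895) (nat_lit 151) (nat_lit 5) (nat_lit 150) (nat_lit 5) (nat_lit 166) (nat_lit 5) (nat_lit 339) (nat_lit 322) (nat_lit 119)) (XT.nd (nat_lit 78) (nat_lit 836) (nat_lit 0) (XT.lf (nat_lit 0) (nat_lit 11951431715) (nat_lit 1140) (nat_lit 9363917843) (nat_lit 76) (nat_lit 12861651573) (nat_lit 151) (nat_lit 5) (nat_lit 166) (nat_lit 5) (nat_lit 152) (nat_lit 5) (nat_lit 340) (nat_lit 322) (nat_lit 118)) (XT.lf (nat_lit 0)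 (nat_lit 5961251742) (nat_lit 836) (nat_lit 8388824637) (nat_lit 912) (nat_lit 20407525927) (nat_lit 140) (nat_lit 5) (nat_lit 151) (nat_lit 5) (nat_lit 152) (nat_lit 5) (nat_lit 341) (nat_lit 322) (nat_lit 117)))) (XT.nd (nat_lit 78) (nat_lit 532) (nat_lit 0) (XT.lf (nat_lit 0) (nat_lit 16961350475) (nat_lit 912) (nat_lit 13464906056) (nat_lit 76) (nat_lit 4925149294) (nat_lit 140) (nat_lit 5) (nat_lit 152) (nat_lit 5) (nat_lit 141) (nat_lit 5) (nat_lit 342) (nat_lit 322) (nat_lit 116)) (XT.nd (nat_lit 78) (nat_lit 0) (nat_lit 0) (XT.lf (nat_lit 0) (nat_lit 2286126214) (nat_lit 532) (nat_lit 17467762893) (nat_lit 608) (nat_lit 16206050836) (nat_lit 133) (nat_lit 5) (nat_lit 140) (nat_lit 5) (nat_lit 141) (nat_lit 5) (nat_lit 343) (nat_lit 322) (nat_lit 115)) (XT.lf (nat_lit 0) (nat_lit 18783817075) (nat_lit 532) (nat_lit 3980292175) (nat_lit 608) (nat_lit 13818607832) (nat_lit 133) (nat_lit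 5) (nat_lit 140) (nat_lit 5) (nat_lit 141) (nat_lit 5) (nat_lit 344) (nat_lit 322) (nat_lit 114))))))) (XT.nd (nat_lit 936) (nat_lit 2280) (nat_lit 0) (XT.nd (nat_lit 468) (nat_lit 912) (nat_lit 0) (XT.nd (nat_lit 234) (nat_lit 1064) (nat_lit 0) (XT.nd (nat_lit 78) (nat_lit 532) (nat_lit 0) (XT.lf (nat_lit 0) (nat_lit 25957912248) (nat_lit 608) (nat_lit 1544917666) (nat_lit 76) (nat_lit 9718553371) (nat_lit 133) (nat_lit 5) (nat_lit 141) (nat_lit 5) (nat_lit 134) (nat_lit 5) (nat_lit 345) (nat_lit 322) (nat_lit 113)) (XT.nd (nat_lit 78) (nat_lit 0) (nat_lit 0) (XT.lf (nat_lit 0) (nat_lit 15457052962) (nat_lit 532) (nat_lit 13976524106) (nat_lit 608) (nat_lit 8440054892) (nat_lit 126) (nat_lit 5) (nat_lit 133) (nat_lit 5) (nat_lit 134) (nat_lit 5) (nat_lit 346) (nat_lit 322) (nat_lit 112)) (XT.lf (nat_lit 0) (nat_lit 32998924969) (nat_lit 532) (nat_lit 28282806) (nat_lit 608) (nat_lit 5517833249)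 (nat_lit 126) (nat_lit 5) (nat_lit 133) (nat_lit 5) (nat_lit 134) (nat_lit 5) (nat_lit 347) (nat_lit 322) (nat_lit 111)))) (XT.nd (nat_lit 78) (nat_lit 608) (nat_lit 0) (XT.lf (nat_lit 0) (nat_lit 11923467323) (nat_lit 456) (nat_lit 25055776773) (nat_lit 532) (nat_lit 2249834057) (nat_lit 120) (nat_lit 5) (nat_lit 126) (nat_lit 5) (nat_lit 127) (nat_lit 5) (nat_lit 348) (nat_lit 322) (nat_lit 110)) (XT.nd (nat_lit 78) (nat_lit 532) (nat_lit 0) (XT.lf (nat_lit 0) (nat_lit 1149429788) (nat_lit 532) (nat_lit 9914547996) (nat_lit 76) (nat_lit 28867690028) (nat_lit 119) (nat_lit 5) (nat_lit 126) (nat_lit 5) (nat_lit 120) (nat_lit 5) (nat_lit 349) (nat_lit 322) (nat_lit 109)) (XT.lf (nat_lit 0) (nat_lit 4715023405) (nat_lit 608) (nat_lit 32552680583) (nat_lit 76) (nat_lit 3383679149) (nat_lit 112) (nat_lit 5) (nat_lit 120) (nat_lit 5) (nat_lit 113) (nat_lit 5) (nat_lit 350) (nat_lit 322) (nat_lit 108)))))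 (XT.nd (nat_lit 234) (nat_lit 456) (nat_lit 0) (XT.nd (nat_lit 78) (nat_lit 456) (nat_lit 0) (XT.lf (nat_lit 0) (nat_lit 8596492089) (nat_lit 608) (nat_lit 14646472135) (nat_lit 76) (nat_lit 18143461763) (nat_lit 112) (nat_lit 5) (nat_lit 120) (nat_lit 5) (nat_lit 113) (nat_lit 5) (nat_lit 351) (nat_lit 322) (nat_lit 107)) (XT.nd (nat_lit 78) (nat_lit 0) (nat_lit 0) (XT.lf (nat_lit 0) (nat_lit 3870667524) (nat_lit 456) (nat_lit 8759249547) (nat_lit 532) (nat_lit 29512540868) (nat_lit 106) (nat_lit 5) (nat_lit 112) (nat_lit 5) (nat_lit 113) (nat_lit 5) (nat_lit 352) (nat_lit 322) (nat_lit 106)) (XT.lf (nat_lit 0) (nat_lit 16991250040) (nat_lit 532) (nat_lit 19735662510) (nat_lit 76) (nat_lit 6188054239) (nat_lit 106) (nat_lit 5) (nat_lit 113) (nat_lit 5) (nat_lit 107) (nat_lit 5) (nat_lit 353) (nat_lit 322) (nat_lit 105)))) (XT.nd (nat_lit 78) (nat_lit 456) (nat_lit 0) (XT.lf (nat_lit 0) (nat_lit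 21568533067) (nat_lit 532) (nat_lit 731943153) (nat_lit 76) (nat_lit 21407624386) (nat_lit 106) (nat_lit 5) (nat_lit 113) (nat_lit 5) (nat_lit 107) (nat_lit 5) (nat_lit 354) (nat_lit 322) (nat_lit 104)) (XT.nd (nat_lit 78) (nat_lit 0) (nat_lit 0) (XT.lf (nat_lit 0) (nat_lit 19215128478) (nat_lit 456) (nat_lit 7251145548) (nat_lit 532) (nat_lit 18053263144) (nat_lit 100) (nat_lit 5) (nat_lit 106) (nat_lit 5) (nat_lit 107) (nat_lit 5) (nat_lit 355) (nat_lit 322) (nat_lit 103)) (XT.lf (nat_lit 0) (nat_lit 31596172088) (nat_lit 532) (nat_lit 5660599036) (nat_lit 76) (nat_lit 8095991793) (nat_lit 100) (nat_lit 5) (nat_lit 107) (nat_lit 5) (nat_lit 101) (nat_lit 5) (nat_lit 356) (nat_lit 322) (nat_lit 102)))))) (XT.nd (nat_lit 468) (nat_lit 1064) (nat_lit 0) (XT.nd (nat_lit 234) (nat_lit 380) (nat_lit 0) (XT.nd (nat_lit 78) (nat_lit 456) (nat_lit 0) (XT.lf (nat_lit 0) (nat_lit 14787595188) (nat_lit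 380) (nat_lit 22304817373) (nat_lit 456) (nat_lit 9112202259) (nat_lit 95) (nat_lit 5) (nat_lit 100) (nat_lit 5) (nat_lit 101) (nat_lit 5) (nat_lit 357) (nat_lit 322) (nat_lit 101)) (XT.nd (nat_lit 78) (nat_lit 456) (nat_lit 0) (XT.lf (nat_lit 0) (nat_lit 35963593147) (nat_lit 380) (nat_lit 6845640012) (nat_lit 456) (nat_lit 4271121004) (nat_lit 95) (nat_lit 5) (nat_lit 100) (nat_lit 5) (nat_lit 101) (nat_lit 5) (nat_lit 358) (nat_lit 322) (nat_lit 100)) (XT.lf (nat_lit 0) (nat_lit 883988395) (nat_lit 456) (nat_lit 38088910411) (nat_lit 76) (nat_lit 9003780599) (nat_lit 89) (nat_lit 5) (nat_lit 95) (nat_lit 5) (nat_lit 90) (nat_lit 5) (nat_lit 359) (nat_lit 322) (nat_lit 99)))) (XT.nd (nat_lit 78) (nat_lit 380) (nat_lit 0) (XT.lf (nat_lit 0) (nat_lit 6287635386) (nat_lit 456) (nat_lit 17259075038) (nat_lit 76) (nat_lit 25346525885) (nat_lit 89) (nat_lit 5) (nat_lit 95) (nat_lit 5) (nat_lit 90)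 (nat_lit 5) (nat_lit 360) (nat_lit 322) (nat_lit 98)) (XT.nd (nat_lit 78) (nat_lit 0) (nat_lit 0) (XT.lf (nat_lit 0) (nat_lit 4277486144) (nat_lit 380) (nat_lit 7615646804) (nat_lit 456) (nat_lit 37942967107) (nat_lit 84) (nat_lit 5) (nat_lit 89) (nat_lit 5) (nat_lit 90) (nat_lit 5) (nat_lit 361) (nat_lit 322) (nat_lit 97)) (XT.lf (nat_lit 0) (nat_lit 17925976127) (nat_lit 456) (nat_lit 24075998189) (nat_lit 76) (nat_lit 8797502279) (nat_lit 84) (nat_lit 5) (nat_lit 90) (nat_lit 5) (nat_lit 85) (nat_lit 5) (nat_lit 362) (nat_lit 322) (nat_lit 96))))) (XT.nd (nat_lit 234) (nat_lit 684) (nat_lit 0) (XT.nd (nat_lit 78) (nat_lit 380) (nat_lit 0) (XT.lf (nat_lit 0) (nat_lit 24213891757) (nat_lit 456) (nat_lit 2025920633) (nat_lit 76) (nat_lit 25549721663) (nat_lit 84) (nat_lit 5) (nat_lit 90) (nat_lit 5) (nat_lit 85) (nat_lit 5) (nat_lit 363) (nat_lit 322) (nat_lit 95)) (XT.nd (nat_lit 78) (nat_lit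 0) (nat_lit 0) (XT.lf (nat_lit 0) (nat_lit 21095746059) (nat_lit 380) (nat_lit 9796207033) (nat_lit 456) (nat_lit 21911297064) (nat_lit 79) (nat_lit 5) (nat_lit 84) (nat_lit 5) (nat_lit 85) (nat_lit 5) (nat_lit 364) (nat_lit 322) (nat_lit 94)) (XT.lf (nat_lit 0) (nat_lit 37858399929) (nat_lit 456) (nat_lit 8964603967) (nat_lit 76) (nat_lit 7021734645) (nat_lit 79) (nat_lit 5) (nat_lit 85) (nat_lit 5) (nat_lit 80) (nat_lit 5) (nat_lit 365) (nat_lit 322) (nat_lit 93)))) (XT.nd (nat_lit 78) (nat_lit 380) (nat_lit 0) (XT.lf (nat_lit 0) (nat_lit 14647881513) (nat_lit 304) (nat_lit 30622534272) (nat_lit 380) (nat_lit 9639960569) (nat_lit 75) (nat_lit 5) (nat_lit 79) (nat_lit 5) (nat_lit 80) (nat_lit 5) (nat_lit 366) (nat_lit 322) (nat_lit 92)) (XT.nd (nat_lit 78) (nat_lit 380) (nat_lit 0) (XT.lf (nat_lit 0) (nat_lit 39150979840) (nat_lit 304) (nat_lit 13843137150) (nat_lit 380) (nat_lit 3011188551)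 (nat_lit 75) (nat_lit 5) (nat_lit 79) (nat_lit 5) (nat_lit 80) (nat_lit 5) (nat_lit 367) (nat_lit 322) (nat_lit 91)) (XT.lf (nat_lit 0) (nat_lit 3845683784) (nat_lit 380) (nat_lit 49802476384) (nat_lit 76) (nat_lit 3480712434) (nat_lit 70) (nat_lit 5) (nat_lit 75) (nat_lit 5) (nat_lit 71) (nat_lit 5) (nat_lit 368) (nat_lit 322) (nat_lit 90))))))))
noncomputable def xc240 : XT := (XT.nd (nat_lit 38610) (nat_lit 0) (nat_lit 988) (XT.nd (nat_lit 37674) (nat_lit 0) (nat_lit 5624) (XT.nd (nat_lit 37206) (nat_lit 0) (nat_lit 7068) (XT.nd (nat_lit 156) (nat_lit 304) (nat_lit 0) (XT.nd (nat_lit 78) (nat_lit 0) (nat_lit 0) (XT.lf (nat_lit 0) (nat_lit 11155520121) (nat_lit 380) (nat_lit 25873090196) (nat_lit 76) (nat_lit 21247410370) (nat_lit 70) (nat_lit 5) (nat_lit 75) (nat_lit 5) (nat_lit 71) (nat_lit 5) (nat_lit 369) (nat_lit 322) (nat_lit 89)) (XT.lf (nat_lit 0) (nat_lit 18683523614) (nat_lit 380)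 (nat_lit 1227304678) (nat_lit 76) (nat_lit 39546790525) (nat_lit 70) (nat_lit 5) (nat_lit 75) (nat_lit 5) (nat_lit 71) (nat_lit 5) (nat_lit 370) (nat_lit 322) (nat_lit 88))) (XT.nd (nat_lit 36894) (nat_lit 0) (nat_lit 7068) (XT.lf (nat_lit 0) (nat_lit 24637175353) (nat_lit 304) (nat_lit 2035924379) (nat_lit 380) (nat_lit 33994494896) (nat_lit 66) (nat_lit 5) (nat_lit 70) (nat_lit 5) (nat_lit 71) (nat_lit 5) (nat_lit 371) (nat_lit 322) (nat_lit 87)) (XT.nd (nat_lit 78) (nat_lit 0) (nat_lit 0) (XT.lf (nat_lit 0) (nat_lit 9981499848) (nat_lit 1140) (nat_lit 1638929916) (nat_lit 1140) (nat_lit 1638929916) (nat_lit 159) (nat_lit 3) (nat_lit 174) (nat_lit 3) (nat_lit 174) (nat_lit 5) (nat_lit 323) (nat_lit 323) (nat_lit 134)) (XT.lf (nat_lit 76) (nat_lit 8097039815) (nat_lit 0) (nat_lit 12328155639) (nat_lit 1140) (nat_lit 6486235350) (nat_lit 160) (nat_lit 5) (nat_lit 159) (nat_lit 3) (nat_lit 174)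 (nat_lit 5) (nat_lit 324) (nat_lit 323) (nat_lit 133))))) (XT.nd (nat_lit 234) (nat_lit 0) (nat_lit 152) (XT.nd (nat_lit 78) (nat_lit 0) (nat_lit 76) (XT.lf (nat_lit 76) (nat_lit 19878634932) (nat_lit 0) (nat_lit 1052391267) (nat_lit 1140) (nat_lit 6384011610) (nat_lit 160) (nat_lit 5) (nat_lit 159) (nat_lit 3) (nat_lit 174) (nat_lit 5) (nat_lit 325) (nat_lit 323) (nat_lit 132)) (XT.nd (nat_lit 78) (nat_lit 0) (nat_lit 0) (XT.lf (nat_lit 76) (nat_lit 4262769333) (nat_lit 0) (nat_lit 17328544858) (nat_lit 1140) (nat_lit 6135267441) (nat_lit 161) (nat_lit 5) (nat_lit 160) (nat_lit 5) (nat_lit 175) (nat_lit 5) (nat_lit 326) (nat_lit 323) (nat_lit 131)) (XT.lf (nat_lit 76) (nat_lit 16452933835) (nat_lit 0) (nat_lit 5900745119) (nat_lit 1140) (nat_lit 5794331645) (nat_lit 161) (nat_lit 5) (nat_lit 160) (nat_lit 5) (nat_lit 175) (nat_lit 5) (nat_lit 327) (nat_lit 323) (nat_lit 130)))) (XT.nd (nat_lit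 78) (nat_lit 0) (nat_lit 0) (XT.lf (nat_lit 76) (nat_lit 375775345) (nat_lit 0) (nat_lit 22820138047) (nat_lit 1140) (nat_lit 5384465753) (nat_lit 162) (nat_lit 5) (nat_lit 161) (nat_lit 5) (nat_lit 176) (nat_lit 5) (nat_lit 328) (nat_lit 323) (nat_lit 129)) (XT.nd (nat_lit 78) (nat_lit 0) (nat_lit 76) (XT.lf (nat_lit 76) (nat_lit 12987069580) (nat_lit 0) (nat_lit 11249325517) (nat_lit 1140) (nat_lit 4784140723) (nat_lit 162) (nat_lit 5) (nat_lit 161) (nat_lit 5) (nat_lit 176) (nat_lit 5) (nat_lit 329) (nat_lit 323) (nat_lit 128)) (XT.lf (nat_lit 0) (nat_lit 25311647804) (nat_lit 1064) (nat_lit 3505506590) (nat_lit 1140) (nat_lit 656642393) (nat_lit 162) (nat_lit 5) (nat_lit 176) (nat_lit 5) (nat_lit 177) (nat_lit 5) (nat_lit 330) (nat_lit 323) (nat_lit 127)))))) (XT.nd (nat_lit 468) (nat_lit 684) (nat_lit 0) (XT.nd (nat_lit 234) (nat_lit 988) (nat_lit 0) (XT.nd (nat_lit 78) (nat_lit 0) (nat_lit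 0) (XT.lf (nat_lit 76) (nat_lit 9469873700) (nat_lit 0) (nat_lit 17148907129) (nat_lit 1140) (nat_lit 3315892178) (nat_lit 163) (nat_lit 5) (nat_lit 162) (nat_lit 5) (nat_lit 177) (nat_lit 5) (nat_lit 331) (nat_lit 323) (nat_lit 126)) (XT.nd (nat_lit 78) (nat_lit 0) (nat_lit 76) (XT.lf (nat_lit 76) (nat_lit 22904562757) (nat_lit 0) (nat_lit 5093240644) (nat_lit 1140) (nat_lit 2410597775) (nat_lit 163) (nat_lit 5) (nat_lit 162) (nat_lit 5) (nat_lit 177) (nat_lit 5) (nat_lit 332) (nat_lit 323) (nat_lit 125)) (XT.lf (nat_lit 76) (nat_lit 5888602562) (nat_lit 0) (nat_lit 23653967259) (nat_lit 1140) (nat_lit 1350045931) (nat_lit 164) (nat_lit 5) (nat_lit 163) (nat_lit 5) (nat_lit 178) (nat_lit 5) (nat_lit 333) (nat_lit 323) (nat_lit 124)))) (XT.nd (nat_lit 78) (nat_lit 1064) (nat_lit 0) (XT.lf (nat_lit 76) (nat_lit 19783371639) (nat_lit 0) (nat_lit 11473439132) (nat_lit 1140) (nat_lit 130857633) (nat_lit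 164) (nat_lit 5) (nat_lit 163) (nat_lit 5) (nat_lit 178) (nat_lit 5) (nat_lit 334) (nat_lit 323) (nat_lit 123)) (XT.nd (nat_lit 78) (nat_lit 0) (nat_lit 0) (XT.lf (nat_lit 0) (nat_lit 1132478649) (nat_lit 1140) (nat_lit 29679080291) (nat_lit 1216) (nat_lit 1084808867) (nat_lit 149) (nat_lit 5) (nat_lit 164) (nat_lit 5) (nat_lit 165) (nat_lit 5) (nat_lit 335) (nat_lit 323) (nat_lit 122)) (XT.lf (nat_lit 0) (nat_lit 2660555422) (nat_lit 1140) (nat_lit 15843375561) (nat_lit 1216) (nat_lit 13909479339) (nat_lit 149) (nat_lit 5) (nat_lit 164) (nat_lit 5) (nat_lit 165) (nat_lit 5) (nat_lit 336) (nat_lit 323) (nat_lit 121))))) (XT.nd (nat_lit 234) (nat_lit 684) (nat_lit 0) (XT.nd (nat_lit 78) (nat_lit 0) (nat_lit 76) (XT.lf (nat_lit 0) (nat_lit 4232077659) (nat_lit 1140) (nat_lit 1594448807) (nat_lit 1216) (nat_lit 27119514517) (nat_lit 149) (nat_lit 5) (nat_lit 164) (nat_lit 5) (nat_lit 165) (nat_lit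 5) (nat_lit 337) (nat_lit 323) (nat_lit 120)) (XT.nd (nat_lit 78) (nat_lit 0) (nat_lit 0) (XT.lf (nat_lit 0) (nat_lit 6047440806) (nat_lit 1140) (nat_lit 20221192464) (nat_lit 1216) (nat_lit 7220121256) (nat_lit 150) (nat_lit 5) (nat_lit 165) (nat_lit 5) (nat_lit 166) (nat_lit 5) (nat_lit 338) (nat_lit 323) (nat_lit 119)) (XT.lf (nat_lit 0) (nat_lit 7988941902) (nat_lit 1140) (nat_lit 5498851775) (nat_lit 1216) (nat_lit 20557810167) (nat_lit 150) (nat_lit 5) (nat_lit 165) (nat_lit 5) (nat_lit 166) (nat_lit 5) (nat_lit 339) (nat_lit 323) (nat_lit 118)))) (XT.nd (nat_lit 78) (nat_lit 760) (nat_lit 0) (XT.lf (nat_lit 76) (nat_lit 9855677519) (nat_lit 0) (nat_lit 225543929) (nat_lit 1216) (nat_lit 24535165735) (nat_lit 151) (nat_lit 5) (nat_lit 150) (nat_lit 5) (nat_lit 166) (nat_lit 5) (nat_lit 340) (nat_lit 323) (nat_lit 117)) (XT.nd (nat_lit 78) (nat_lit 836) (nat_lit 0) (XT.lf (nat_lit 0) (nat_lit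 12419333422) (nat_lit 1140) (nat_lit 9550612029) (nat_lit 76) (nat_lit 13228861061) (nat_lit 151) (nat_lit 5) (nat_lit 166) (nat_lit 5) (nat_lit 152) (nat_lit 5) (nat_lit 341) (nat_lit 323) (nat_lit 116)) (XT.lf (nat_lit 0) (nat_lit 6233388886) (nat_lit 836) (nat_lit 8654260187) (nat_lit 912) (nat_lit 20909251821) (nat_lit 140) (nat_lit 5) (nat_lit 151) (nat_lit 5) (nat_lit 152) (nat_lit 5) (nat_lit 342) (nat_lit 323) (nat_lit 115))))))) (XT.nd (nat_lit 858) (nat_lit 2052) (nat_lit 0) (XT.nd (nat_lit 390) (nat_lit 1520) (nat_lit 0) (XT.nd (nat_lit 156) (nat_lit 532) (nat_lit 0) (XT.nd (nat_lit 78) (nat_lit 532) (nat_lit 0) (XT.lf (nat_lit 0) (nat_lit 17574014318) (nat_lit 912) (nat_lit 13774812998) (nat_lit 76) (nat_lit 5059794945) (nat_lit 140) (nat_lit 5) (nat_lit 152) (nat_lit 5) (nat_lit 141) (nat_lit 5) (nat_lit 343) (nat_lit 323) (nat_lit 114)) (XT.lf (nat_lit 0) (nat_lit 2447828276) (nat_lit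 532) (nat_lit 18000371962) (nat_lit 608) (nat_lit 16587282178) (nat_lit 133) (nat_lit 5) (nat_lit 140) (nat_lit 5) (nat_lit 141) (nat_lit 5) (nat_lit 344) (nat_lit 323) (nat_lit 113))) (XT.nd (nat_lit 78) (nat_lit 532) (nat_lit 0) (XT.lf (nat_lit 0) (nat_lit 19437737681) (nat_lit 532) (nat_lit 4108027331) (nat_lit 608) (nat_lit 14131272684) (nat_lit 133) (nat_lit 5) (nat_lit 140) (nat_lit 5) (nat_lit 141) (nat_lit 5) (nat_lit 345) (nat_lit 323) (nat_lit 112)) (XT.nd (nat_lit 78) (nat_lit 532) (nat_lit 0) (XT.lf (nat_lit 0) (nat_lit 26832428689) (nat_lit 608) (nat_lit 1500345749) (nat_lit 76) (nat_lit 10002183843) (nat_lit 133) (nat_lit 5) (nat_lit 141) (nat_lit 5) (nat_lit 134) (nat_lit 5) (nat_lit 346) (nat_lit 323) (nat_lit 111)) (XT.lf (nat_lit 0) (nat_lit 16010792631) (nat_lit 532) (nat_lit 14399646546) (nat_lit 608) (nat_lit 8596398594) (nat_lit 126) (nat_lit 5) (nat_lit 133) (nat_lit 5)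 (nat_lit 134) (nat_lit 5) (nat_lit 347) (nat_lit 323) (nat_lit 110))))) (XT.nd (nat_lit 234) (nat_lit 988) (nat_lit 0) (XT.nd (nat_lit 78) (nat_lit 532) (nat_lit 0) (XT.lf (nat_lit 0) (nat_lit 34076298621) (nat_lit 532) (nat_lit 32846549) (nat_lit 608) (nat_lit 5589331406) (nat_lit 126) (nat_lit 5) (nat_lit 133) (nat_lit 5) (nat_lit 134) (nat_lit 5) (nat_lit 348) (nat_lit 323) (nat_lit 109)) (XT.nd (nat_lit 78) (nat_lit 76) (nat_lit 0) (XT.lf (nat_lit 0) (nat_lit 12370642782) (nat_lit 456) (nat_lit 25807271166) (nat_lit 532) (nat_lit 2225181033) (nat_lit 120) (nat_lit 5) (nat_lit 126) (nat_lit 5) (nat_lit 127) (nat_lit 5) (nat_lit 349) (nat_lit 323) (nat_lit 108)) (XT.lf (nat_lit 0) (nat_lit 1271631036) (nat_lit 532) (nat_lit 10123206599) (nat_lit 76) (nat_lit 29731982065) (nat_lit 119) (nat_lit 5) (nat_lit 126) (nat_lit 5) (nat_lit 120) (nat_lit 5) (nat_lit 350) (nat_lit 323) (nat_lit 107))))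 (XT.nd (nat_lit 78) (nat_lit 456) (nat_lit 0) (XT.lf (nat_lit 0) (nat_lit 4942500833) (nat_lit 608) (nat_lit 33438629791) (nat_lit 76) (nat_lit 3487051462) (nat_lit 112) (nat_lit 5) (nat_lit 120) (nat_lit 5) (nat_lit 113) (nat_lit 5) (nat_lit 351) (nat_lit 323) (nat_lit 106)) (XT.nd (nat_lit 78) (nat_lit 456) (nat_lit 0) (XT.lf (nat_lit 0) (nat_lit 8937907944) (nat_lit 608) (nat_lit 14997874833) (nat_lit 76) (nat_lit 18689573323) (nat_lit 112) (nat_lit 5) (nat_lit 120) (nat_lit 5) (nat_lit 113) (nat_lit 5) (nat_lit 352) (nat_lit 323) (nat_lit 105)) (XT.lf (nat_lit 0) (nat_lit 4073916354) (nat_lit 456) (nat_lit 9016824205) (nat_lit 532) (nat_lit 30313380881) (nat_lit 106) (nat_lit 5) (nat_lit 112) (nat_lit 5) (nat_lit 113) (nat_lit 5) (nat_lit 353) (nat_lit 323) (nat_lit 104)))))) (XT.nd (nat_lit 468) (nat_lit 1216) (nat_lit 0) (XT.nd (nat_lit 234) (nat_lit 380) (nat_lit 0) (XT.nd (nat_lit 78)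 (nat_lit 456) (nat_lit 0) (XT.lf (nat_lit 0) (nat_lit 17580575879) (nat_lit 532) (nat_lit 20240655658) (nat_lit 76) (nat_lit 6378648588) (nat_lit 106) (nat_lit 5) (nat_lit 113) (nat_lit 5) (nat_lit 107) (nat_lit 5) (nat_lit 354) (nat_lit 323) (nat_lit 103)) (XT.nd (nat_lit 78) (nat_lit 456) (nat_lit 0) (XT.lf (nat_lit 0) (nat_lit 22292859290) (nat_lit 532) (nat_lit 669360935) (nat_lit 76) (nat_lit 22054661585) (nat_lit 106) (nat_lit 5) (nat_lit 113) (nat_lit 5) (nat_lit 107) (nat_lit 5) (nat_lit 355) (nat_lit 323) (nat_lit 102)) (XT.lf (nat_lit 0) (nat_lit 19875294016) (nat_lit 456) (nat_lit 7460792560) (nat_lit 532) (nat_lit 18516622458) (nat_lit 100) (nat_lit 5) (nat_lit 106) (nat_lit 5) (nat_lit 107) (nat_lit 5) (nat_lit 356) (nat_lit 323) (nat_lit 101)))) (XT.nd (nat_lit 78) (nat_lit 380) (nat_lit 0) (XT.lf (nat_lit 0) (nat_lit 32617746714) (nat_lit 532) (nat_lit 5746873205) (nat_lit 76)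 (nat_lit 8346379744) (nat_lit 100) (nat_lit 5) (nat_lit 107) (nat_lit 5) (nat_lit 101) (nat_lit 5) (nat_lit 357) (nat_lit 323) (nat_lit 100)) (XT.nd (nat_lit 78) (nat_lit 0) (nat_lit 0) (XT.lf (nat_lit 0) (nat_lit 15313947789) (nat_lit 380) (nat_lit 22963575519) (nat_lit 456) (nat_lit 9310928294) (nat_lit 95) (nat_lit 5) (nat_lit 100) (nat_lit 5) (nat_lit 101) (nat_lit 5) (nat_lit 358) (nat_lit 323) (nat_lit 99)) (XT.lf (nat_lit 0) (nat_lit 37122816228) (nat_lit 380) (nat_lit 7040925352) (nat_lit 456) (nat_lit 4326788583) (nat_lit 95) (nat_lit 5) (nat_lit 100) (nat_lit 5) (nat_lit 101) (nat_lit 5) (nat_lit 359) (nat_lit 323) (nat_lit 98))))) (XT.nd (nat_lit 234) (nat_lit 380) (nat_lit 0) (XT.nd (nat_lit 78) (nat_lit 380) (nat_lit 0) (XT.lf (nat_lit 0) (nat_lit 980378178) (nat_lit 456) (nat_lit 39148422202) (nat_lit 76) (nat_lit 9284962950) (nat_lit 89) (nat_lit 5) (nat_lit 95) (nat_lit 5) (nat_lit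 90) (nat_lit 5) (nat_lit 360) (nat_lit 323) (nat_lit 97)) (XT.nd (nat_lit 78) (nat_lit 380) (nat_lit 0) (XT.lf (nat_lit 0) (nat_lit 6544099526) (nat_lit 456) (nat_lit 17696113773) (nat_lit 76) (nat_lit 26117668199) (nat_lit 89) (nat_lit 5) (nat_lit 95) (nat_lit 5) (nat_lit 90) (nat_lit 5) (nat_lit 361) (nat_lit 323) (nat_lit 96)) (XT.lf (nat_lit 0) (nat_lit 4485752739) (nat_lit 380) (nat_lit 7830801949) (nat_lit 456) (nat_lit 39012516092) (nat_lit 84) (nat_lit 5) (nat_lit 89) (nat_lit 5) (nat_lit 90) (nat_lit 5) (nat_lit 362) (nat_lit 323) (nat_lit 95)))) (XT.nd (nat_lit 78) (nat_lit 380) (nat_lit 0) (XT.lf (nat_lit 0) (nat_lit 18528566806) (nat_lit 456) (nat_lit 24718738036) (nat_lit 76) (nat_lit 9074101570) (nat_lit 84) (nat_lit 5) (nat_lit 90) (nat_lit 5) (nat_lit 85) (nat_lit 5) (nat_lit 363) (nat_lit 323) (nat_lit 94)) (XT.nd (nat_lit 78) (nat_lit 380) (nat_lit 0) (XT.lf (nat_lit 0) (nat_lit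 25003232194) (nat_lit 456) (nat_lit 2009474855) (nat_lit 76) (nat_lit 26328518383) (nat_lit 84) (nat_lit 5) (nat_lit 90) (nat_lit 5) (nat_lit 85) (nat_lit 5) (nat_lit 364) (nat_lit 323) (nat_lit 93)) (XT.lf (nat_lit 0) (nat_lit 21805084746) (nat_lit 380) (nat_lit 10075452936) (nat_lit 456) (nat_lit 22504851383) (nat_lit 79) (nat_lit 5) (nat_lit 84) (nat_lit 5) (nat_lit 85) (nat_lit 5) (nat_lit 365) (nat_lit 323) (nat_lit 92))))))))
noncomputable def xc241 : XT := (XT.nd (nat_lit 38766) (nat_lit 0) (nat_lit 1064) (XT.nd (nat_lit 37830) (nat_lit 0) (nat_lit 6004) (XT.nd (nat_lit 37362) (nat_lit 0) (nat_lit 6764) (XT.nd (nat_lit 156) (nat_lit 380) (nat_lit 0) (XT.nd (nat_lit 78) (nat_lit 304) (nat_lit 0) (XT.lf (nat_lit 0) (nat_lit 39054313798) (nat_lit 456) (nat_lit 9157538037) (nat_lit 76) (nat_lit 7246323212) (nat_lit 79) (nat_lit 5) (nat_lit 85) (nat_lit 5) (nat_lit 80) (nat_lit 5) (nat_lit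 366) (nat_lit 323) (nat_lit 91)) (XT.lf (nat_lit 0) (nat_lit 15162576869) (nat_lit 304) (nat_lit 31525084409) (nat_lit 380) (nat_lit 9868154519) (nat_lit 75) (nat_lit 5) (nat_lit 79) (nat_lit 5) (nat_lit 80) (nat_lit 5) (nat_lit 367) (nat_lit 323) (nat_lit 90))) (XT.nd (nat_lit 78) (nat_lit 380) (nat_lit 0) (XT.lf (nat_lit 0) (nat_lit 40398576139) (nat_lit 304) (nat_lit 14242775059) (nat_lit 380) (nat_lit 3042296181) (nat_lit 75) (nat_lit 5) (nat_lit 79) (nat_lit 5) (nat_lit 80) (nat_lit 5) (nat_lit 368) (nat_lit 323) (nat_lit 89)) (XT.nd (nat_lit 78) (nat_lit 0) (nat_lit 0) (XT.lf (nat_lit 0) (nat_lit 4018301093) (nat_lit 380) (nat_lit 51221320747) (nat_lit 76) (nat_lit 3601309982) (nat_lit 70) (nat_lit 5) (nat_lit 75) (nat_lit 5) (nat_lit 71) (nat_lit 5) (nat_lit 369) (nat_lit 323) (nat_lit 88)) (XT.lf (nat_lit 0) (nat_lit 11545765137) (nat_lit 380) (nat_lit 26576244137) (nat_lit 76) (nat_lit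 21900537706) (nat_lit 70) (nat_lit 5) (nat_lit 75) (nat_lit 5) (nat_lit 71) (nat_lit 5) (nat_lit 370) (nat_lit 323) (nat_lit 87))))) (XT.nd (nat_lit 234) (nat_lit 0) (nat_lit 76) (XT.nd (nat_lit 78) (nat_lit 0) (nat_lit 0) (XT.lf (nat_lit 0) (nat_lit 10365045632) (nat_lit 1140) (nat_lit 1644693393) (nat_lit 1140) (nat_lit 1644693393) (nat_lit 159) (nat_lit 3) (nat_lit 174) (nat_lit 3) (nat_lit 174) (nat_lit 5) (nat_lit 324) (nat_lit 324) (nat_lit 132)) (XT.nd (nat_lit 78) (nat_lit 0) (nat_lit 0) (XT.lf (nat_lit 76) (nat_lit 8425908783) (nat_lit 0) (nat_lit 12776171315) (nat_lit 1140) (nat_lit 6511410488) (nat_lit 160) (nat_lit 5) (nat_lit 159) (nat_lit 3) (nat_lit 174) (nat_lit 5) (nat_lit 325) (nat_lit 324) (nat_lit 131)) (XT.lf (nat_lit 76) (nat_lit 20558448129) (nat_lit 0) (nat_lit 1159857186) (nat_lit 1140) (nat_lit 6411054364) (nat_lit 160) (nat_lit 5) (nat_lit 159) (nat_lit 3) (nat_lit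 174) (nat_lit 5) (nat_lit 326) (nat_lit 324) (nat_lit 130)))) (XT.nd (nat_lit 78) (nat_lit 0) (nat_lit 0) (XT.lf (nat_lit 76) (nat_lit 4479089750) (nat_lit 0) (nat_lit 17914812805) (nat_lit 1140) (nat_lit 6159492404) (nat_lit 161) (nat_lit 5) (nat_lit 160) (nat_lit 5) (nat_lit 175) (nat_lit 5) (nat_lit 327) (nat_lit 324) (nat_lit 129)) (XT.nd (nat_lit 78) (nat_lit 0) (nat_lit 76) (XT.lf (nat_lit 76) (nat_lit 17032383343) (nat_lit 0) (nat_lit 6142244755) (nat_lit 1140) (nat_lit 5812983866) (nat_lit 161) (nat_lit 5) (nat_lit 160) (nat_lit 5) (nat_lit 175) (nat_lit 5) (nat_lit 328) (nat_lit 324) (nat_lit 128)) (XT.lf (nat_lit 76) (nat_lit 477473551) (nat_lit 0) (nat_lit 23560544696) (nat_lit 1140) (nat_lit 5395066235) (nat_lit 162) (nat_lit 5) (nat_lit 161) (nat_lit 5) (nat_lit 176) (nat_lit 5) (nat_lit 329) (nat_lit 324) (nat_lit 127)))))) (XT.nd (nat_lit 468) (nat_lit 912) (nat_lit 0) (XT.nd (nat_lit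 234) (nat_lit 0) (nat_lit 76) (XT.nd (nat_lit 78) (nat_lit 0) (nat_lit 76) (XT.lf (nat_lit 76) (nat_lit 13464472876) (nat_lit 0) (nat_lit 11640982475) (nat_lit 1140) (nat_lit 4781127575) (nat_lit 162) (nat_lit 5) (nat_lit 161) (nat_lit 5) (nat_lit 176) (nat_lit 5) (nat_lit 330) (nat_lit 324) (nat_lit 126)) (XT.nd (nat_lit 78) (nat_lit 0) (nat_lit 0) (XT.lf (nat_lit 0) (nat_lit 26208325021) (nat_lit 1064) (nat_lit 3520496096) (nat_lit 1140) (nat_lit 624768849) (nat_lit 162) (nat_lit 5) (nat_lit 176) (nat_lit 5) (nat_lit 177) (nat_lit 5) (nat_lit 331) (nat_lit 324) (nat_lit 125)) (XT.lf (nat_lit 76) (nat_lit 9843261527) (nat_lit 0) (nat_lit 17708268997) (nat_lit 1140) (nat_lit 3276864959) (nat_lit 163) (nat_lit 5) (nat_lit 162) (nat_lit 5) (nat_lit 177) (nat_lit 5) (nat_lit 332) (nat_lit 324) (nat_lit 124)))) (XT.nd (nat_lit 78) (nat_lit 0) (nat_lit 76) (XT.lf (nat_lit 76) (nat_lit 23678390529)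 (nat_lit 0) (nat_lit 5289624907) (nat_lit 1140) (nat_lit 2348445821) (nat_lit 163) (nat_lit 5) (nat_lit 162) (nat_lit 5) (nat_lit 177) (nat_lit 5) (nat_lit 333) (nat_lit 324) (nat_lit 123)) (XT.nd (nat_lit 78) (nat_lit 0) (nat_lit 0) (XT.lf (nat_lit 76) (nat_lit 6155667353) (nat_lit 0) (nat_lit 24400125254) (nat_lit 1140) (nat_lit 1259517889) (nat_lit 164) (nat_lit 5) (nat_lit 163) (nat_lit 5) (nat_lit 178) (nat_lit 5) (nat_lit 334) (nat_lit 324) (nat_lit 122)) (XT.lf (nat_lit 76) (nat_lit 20464646297) (nat_lit 0) (nat_lit 11853117042) (nat_lit 1140) (nat_lit 7570333) (nat_lit 164) (nat_lit 5) (nat_lit 163) (nat_lit 5) (nat_lit 178) (nat_lit 5) (nat_lit 335) (nat_lit 324) (nat_lit 121))))) (XT.nd (nat_lit 234) (nat_lit 0) (nat_lit 76) (XT.nd (nat_lit 78) (nat_lit 0) (nat_lit 0) (XT.lf (nat_lit 0) (nat_lit 1288101494) (nat_lit 1140) (nat_lit 30475603105) (nat_lit 1216) (nat_lit 1085652797) (nat_lit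 149) (nat_lit 5) (nat_lit 164) (nat_lit 5) (nat_lit 165) (nat_lit 5) (nat_lit 336) (nat_lit 324) (nat_lit 120)) (XT.nd (nat_lit 78) (nat_lit 0) (nat_lit 0) (XT.lf (nat_lit 0) (nat_lit 2858477411) (nat_lit 1140) (nat_lit 16227560717) (nat_lit 1216) (nat_lit 14295986694) (nat_lit 149) (nat_lit 5) (nat_lit 164) (nat_lit 5) (nat_lit 165) (nat_lit 5) (nat_lit 337) (nat_lit 324) (nat_lit 119)) (XT.lf (nat_lit 0) (nat_lit 4473705353) (nat_lit 1140) (nat_lit 1553820028) (nat_lit 1216) (nat_lit 27903219345) (nat_lit 149) (nat_lit 5) (nat_lit 164) (nat_lit 5) (nat_lit 165) (nat_lit 5) (nat_lit 338) (nat_lit 324) (nat_lit 118)))) (XT.nd (nat_lit 78) (nat_lit 0) (nat_lit 0) (XT.lf (nat_lit 0) (nat_lit 6340795435) (nat_lit 1140) (nat_lit 20736401429) (nat_lit 1216) (nat_lit 7412631748) (nat_lit 150) (nat_lit 5) (nat_lit 165) (nat_lit 5) (nat_lit 166) (nat_lit 5) (nat_lit 339) (nat_lit 324) (nat_lit 117))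 (XT.nd (nat_lit 78) (nat_lit 0) (nat_lit 0) (XT.lf (nat_lit 0) (nat_lit 8337281427) (nat_lit 1140) (nat_lit 5575053435) (nat_lit 1216) (nat_lit 21151153069) (nat_lit 150) (nat_lit 5) (nat_lit 165) (nat_lit 5) (nat_lit 166) (nat_lit 5) (nat_lit 340) (nat_lit 324) (nat_lit 116)) (XT.lf (nat_lit 76) (nat_lit 10239241503) (nat_lit 0) (nat_lit 250767561) (nat_lit 1216) (nat_lit 25161461836) (nat_lit 151) (nat_lit 5) (nat_lit 150) (nat_lit 5) (nat_lit 166) (nat_lit 5) (nat_lit 341) (nat_lit 324) (nat_lit 115))))))) (XT.nd (nat_lit 936) (nat_lit 2128) (nat_lit 0) (XT.nd (nat_lit 468) (nat_lit 1596) (nat_lit 0) (XT.nd (nat_lit 234) (nat_lit 532) (nat_lit 0) (XT.nd (nat_lit 78) (nat_lit 836) (nat_lit 0) (XT.lf (nat_lit 0) (nat_lit 12894994541) (nat_lit 1140) (nat_lit 9748315845) (nat_lit 76) (nat_lit 13608156849) (nat_lit 151) (nat_lit 5) (nat_lit 166) (nat_lit 5) (nat_lit 152) (nat_lit 5) (nat_lit 342)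 (nat_lit 324) (nat_lit 114)) (XT.nd (nat_lit 78) (nat_lit 0) (nat_lit 0) (XT.lf (nat_lit 0) (nat_lit 6508334365) (nat_lit 836) (nat_lit 8926868303) (nat_lit 912) (nat_lit 21432372637) (nat_lit 140) (nat_lit 5) (nat_lit 151) (nat_lit 5) (nat_lit 152) (nat_lit 5) (nat_lit 343) (nat_lit 324) (nat_lit 113)) (XT.lf (nat_lit 0) (nat_lit 18199098193) (nat_lit 912) (nat_lit 14099415443) (nat_lit 76) (nat_lit 5199232466) (nat_lit 140) (nat_lit 5) (nat_lit 152) (nat_lit 5) (nat_lit 141) (nat_lit 5) (nat_lit 344) (nat_lit 324) (nat_lit 112)))) (XT.nd (nat_lit 78) (nat_lit 0) (nat_lit 0) (XT.lf (nat_lit 0) (nat_lit 2609036031) (nat_lit 532) (nat_lit 18548466995) (nat_lit 608) (nat_lit 16985975029) (nat_lit 133) (nat_lit 5) (nat_lit 140) (nat_lit 5) (nat_lit 141) (nat_lit 5) (nat_lit 345) (nat_lit 324) (nat_lit 111)) (XT.nd (nat_lit 78) (nat_lit 0) (nat_lit 0) (XT.lf (nat_lit 0) (nat_lit 20106086225) (nat_lit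 532) (nat_lit 4239116573) (nat_lit 608) (nat_lit 14459166579) (nat_lit 133) (nat_lit 5) (nat_lit 140) (nat_lit 5) (nat_lit 141) (nat_lit 5) (nat_lit 346) (nat_lit 324) (nat_lit 110)) (XT.lf (nat_lit 0) (nat_lit 27727682512) (nat_lit 608) (nat_lit 1459655823) (nat_lit 76) (nat_lit 10294778222) (nat_lit 133) (nat_lit 5) (nat_lit 141) (nat_lit 5) (nat_lit 134) (nat_lit 5) (nat_lit 347) (nat_lit 324) (nat_lit 109))))) (XT.nd (nat_lit 234) (nat_lit 608) (nat_lit 0) (XT.nd (nat_lit 78) (nat_lit 456) (nat_lit 0) (XT.lf (nat_lit 0) (nat_lit 16575976509) (nat_lit 532) (nat_lit 14835242990) (nat_lit 608) (nat_lit 8762992649) (nat_lit 126) (nat_lit 5) (nat_lit 133) (nat_lit 5) (nat_lit 134) (nat_lit 5) (nat_lit 348) (nat_lit 324) (nat_lit 108)) (XT.nd (nat_lit 78) (nat_lit 456) (nat_lit 0) (XT.lf (nat_lit 0) (nat_lit 35180976026) (nat_lit 532) (nat_lit 37333934) (nat_lit 608) (nat_lit 5668372608) (nat_lit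 126) (nat_lit 5) (nat_lit 133) (nat_lit 5) (nat_lit 134) (nat_lit 5) (nat_lit 349) (nat_lit 324) (nat_lit 107)) (XT.lf (nat_lit 0) (nat_lit 12826097477) (nat_lit 456) (nat_lit 26581320661) (nat_lit 532) (nat_lit 2205078093) (nat_lit 120) (nat_lit 5) (nat_lit 126) (nat_lit 5) (nat_lit 127) (nat_lit 5) (nat_lit 350) (nat_lit 324) (nat_lit 106)))) (XT.nd (nat_lit 78) (nat_lit 532) (nat_lit 0) (XT.lf (nat_lit 0) (nat_lit 1392462930) (nat_lit 532) (nat_lit 10343221171) (nat_lit 76) (nat_lit 30622302670) (nat_lit 119) (nat_lit 5) (nat_lit 126) (nat_lit 5) (nat_lit 120) (nat_lit 5) (nat_lit 351) (nat_lit 324) (nat_lit 105)) (XT.nd (nat_lit 78) (nat_lit 0) (nat_lit 0) (XT.lf (nat_lit 0) (nat_lit 5171864298) (nat_lit 608) (nat_lit 34356360078) (nat_lit 76) (nat_lit 3593418061) (nat_lit 112) (nat_lit 5) (nat_lit 120) (nat_lit 5) (nat_lit 113) (nat_lit 5) (nat_lit 352) (nat_lit 324) (nat_lit 104)) (XT.lf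 (nat_lit 0) (nat_lit 9284771823) (nat_lit 608) (nat_lit 15364870683) (nat_lit 76) (nat_lit 19251964460) (nat_lit 112) (nat_lit 5) (nat_lit 120) (nat_lit 5) (nat_lit 113) (nat_lit 5) (nat_lit 353) (nat_lit 324) (nat_lit 103)))))) (XT.nd (nat_lit 468) (nat_lit 836) (nat_lit 0) (XT.nd (nat_lit 234) (nat_lit 836) (nat_lit 0) (XT.nd (nat_lit 78) (nat_lit 0) (nat_lit 0) (XT.lf (nat_lit 0) (nat_lit 4278261099) (nat_lit 456) (nat_lit 9282424766) (nat_lit 532) (nat_lit 31143098819) (nat_lit 106) (nat_lit 5) (nat_lit 112) (nat_lit 5) (nat_lit 113) (nat_lit 5) (nat_lit 354) (nat_lit 324) (nat_lit 102)) (XT.nd (nat_lit 78) (nat_lit 0) (nat_lit 0) (XT.lf (nat_lit 0) (nat_lit 18183012797) (nat_lit 532) (nat_lit 20765797161) (nat_lit 76) (nat_lit 6574676460) (nat_lit 106) (nat_lit 5) (nat_lit 113) (nat_lit 5) (nat_lit 107) (nat_lit 5) (nat_lit 355) (nat_lit 324) (nat_lit 101)) (XT.lf (nat_lit 0) (nat_lit 23034479673)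 (nat_lit 532) (nat_lit 609754223) (nat_lit 76) (nat_lit 22720833874) (nat_lit 106) (nat_lit 5) (nat_lit 113) (nat_lit 5) (nat_lit 107) (nat_lit 5) (nat_lit 356) (nat_lit 324) (nat_lit 100)))) (XT.nd (nat_lit 78) (nat_lit 380) (nat_lit 0) (XT.lf (nat_lit 0) (nat_lit 20550459127) (nat_lit 456) (nat_lit 7677181750) (nat_lit 532) (nat_lit 18998373766) (nat_lit 100) (nat_lit 5) (nat_lit 106) (nat_lit 5) (nat_lit 107) (nat_lit 5) (nat_lit 357) (nat_lit 324) (nat_lit 99)) (XT.nd (nat_lit 78) (nat_lit 380) (nat_lit 0) (XT.lf (nat_lit 0) (nat_lit 33665738502) (nat_lit 532) (nat_lit 5840531355) (nat_lit 76) (nat_lit 8603848332) (nat_lit 100) (nat_lit 5) (nat_lit 107) (nat_lit 5) (nat_lit 101) (nat_lit 5) (nat_lit 358) (nat_lit 324) (nat_lit 98)) (XT.lf (nat_lit 0) (nat_lit 15851342229) (nat_lit 380) (nat_lit 23642692629) (nat_lit 456) (nat_lit 9519900754) (nat_lit 95) (nat_lit 5) (nat_lit 100) (nat_lit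 5) (nat_lit 101) (nat_lit 5) (nat_lit 359) (nat_lit 324) (nat_lit 97))))) (XT.nd (nat_lit 234) (nat_lit 380) (nat_lit 0) (XT.nd (nat_lit 78) (nat_lit 456) (nat_lit 0) (XT.lf (nat_lit 0) (nat_lit 38312205576) (nat_lit 380) (nat_lit 7242648108) (nat_lit 456) (nat_lit 4388286037) (nat_lit 95) (nat_lit 5) (nat_lit 100) (nat_lit 5) (nat_lit 101) (nat_lit 5) (nat_lit 360) (nat_lit 324) (nat_lit 96)) (XT.nd (nat_lit 78) (nat_lit 0) (nat_lit 0) (XT.lf (nat_lit 0) (nat_lit 1075648824) (nat_lit 456) (nat_lit 40244492814) (nat_lit 76) (nat_lit 9573945370) (nat_lit 89) (nat_lit 5) (nat_lit 95) (nat_lit 5) (nat_lit 90) (nat_lit 5) (nat_lit 361) (nat_lit 324) (nat_lit 95)) (XT.lf (nat_lit 0) (nat_lit 6804363580) (nat_lit 456) (nat_lit 18150898105) (nat_lit 76) (nat_lit 26911327887) (nat_lit 89) (nat_lit 5) (nat_lit 95) (nat_lit 5) (nat_lit 90) (nat_lit 5) (nat_lit 362) (nat_lit 324) (nat_lit 94)))) (XT.nd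 (nat_lit 78) (nat_lit 0) (nat_lit 0) (XT.lf (nat_lit 0) (nat_lit 4695678334) (nat_lit 380) (nat_lit 8053176041) (nat_lit 456) (nat_lit 40118097506) (nat_lit 84) (nat_lit 5) (nat_lit 89) (nat_lit 5) (nat_lit 90) (nat_lit 5) (nat_lit 363) (nat_lit 324) (nat_lit 93)) (XT.nd (nat_lit 78) (nat_lit 0) (nat_lit 0) (XT.lf (nat_lit 0) (nat_lit 19145514765) (nat_lit 456) (nat_lit 25385326005) (nat_lit 76) (nat_lit 9358271288) (nat_lit 84) (nat_lit 5) (nat_lit 90) (nat_lit 5) (nat_lit 85) (nat_lit 5) (nat_lit 364) (nat_lit 324) (nat_lit 92)) (XT.lf (nat_lit 0) (nat_lit 25812640767) (nat_lit 456) (nat_lit 1996968643) (nat_lit 76) (nat_lit 27129972645) (nat_lit 84) (nat_lit 5) (nat_lit 90) (nat_lit 5) (nat_lit 85) (nat_lit 5) (nat_lit 365) (nat_lit 324) (nat_lit 91))))))))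
noncomputable def xc242 : XT := (XT.nd (nat_lit 38844) (nat_lit 0) (nat_lit 1064) (XT.nd (nat_lit 37908) (nat_lit 0) (nat_lit 5928) (XT.nd (nat_lit 37440) (nat_lit 0) (nat_lit 6764) (XT.nd (nat_lit 156) (nat_lit 684) (nat_lit 0) (XT.nd (nat_lit 78) (nat_lit 0) (nat_lit 0) (XT.lf (nat_lit 0) (nat_lit 22531314115) (nat_lit 380) (nat_lit 10363916629) (nat_lit 456) (nat_lit 23119873828) (nat_lit 79) (nat_lit 5) (nat_lit 84) (nat_lit 5) (nat_lit 85) (nat_lit 5) (nat_lit 366) (nat_lit 324) (nat_lit 90)) (XT.lf (nat_lit 0) (nat_lit 40282651547) (nat_lit 456) (nat_lit 9360623073) (nat_lit 76) (nat_lit 7476849423) (nat_lit 79) (nat_lit 5) (nat_lit 85) (nat_lit 5) (nat_lit 80) (nat_lit 5) (nat_lit 367) (nat_lit 324) (nat_lit 89))) (XT.nd (nat_lit 78) (nat_lit 380) (nat_lit 0) (XT.lf (nat_lit 0) (nat_lit 15688392917) (nat_lit 304) (nat_lit 32455636741) (nat_lit 380) (nat_lit 10106696216) (nat_lit 75) (nat_lit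 5) (nat_lit 79) (nat_lit 5) (nat_lit 80) (nat_lit 5) (nat_lit 368) (nat_lit 324) (nat_lit 88)) (XT.nd (nat_lit 78) (nat_lit 380) (nat_lit 0) (XT.lf (nat_lit 0) (nat_lit 41679405987) (nat_lit 304) (nat_lit 14655300835) (nat_lit 380) (nat_lit 3077736972) (nat_lit 75) (nat_lit 5) (nat_lit 79) (nat_lit 5) (nat_lit 80) (nat_lit 5) (nat_lit 369) (nat_lit 324) (nat_lit 87)) (XT.lf (nat_lit 0) (nat_lit 4192810720) (nat_lit 380) (nat_lit 52687048947) (nat_lit 76) (nat_lit 3724596879) (nat_lit 70) (nat_lit 5) (nat_lit 75) (nat_lit 5) (nat_lit 71) (nat_lit 5) (nat_lit 370) (nat_lit 324) (nat_lit 86))))) (XT.nd (nat_lit 234) (nat_lit 0) (nat_lit 76) (XT.nd (nat_lit 78) (nat_lit 0) (nat_lit 0) (XT.lf (nat_lit 0) (nat_lit 10755270060) (nat_lit 1140) (nat_lit 1653121366) (nat_lit 1140) (nat_lit 1653121366) (nat_lit 159) (nat_lit 3) (nat_lit 174) (nat_lit 3) (nat_lit 174) (nat_lit 5) (nat_lit 325) (nat_lit 325)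 (nat_lit 130)) (XT.nd (nat_lit 78) (nat_lit 0) (nat_lit 0) (XT.lf (nat_lit 76) (nat_lit 8759709492) (nat_lit 0) (nat_lit 13233140126) (nat_lit 1140) (nat_lit 6547065818) (nat_lit 160) (nat_lit 5) (nat_lit 159) (nat_lit 3) (nat_lit 174) (nat_lit 5) (nat_lit 326) (nat_lit 325) (nat_lit 129)) (XT.lf (nat_lit 76) (nat_lit 21253865112) (nat_lit 0) (nat_lit 1266190447) (nat_lit 1140) (nat_lit 6448350087) (nat_lit 160) (nat_lit 5) (nat_lit 159) (nat_lit 3) (nat_lit 174) (nat_lit 5) (nat_lit 327) (nat_lit 325) (nat_lit 128)))) (XT.nd (nat_lit 78) (nat_lit 0) (nat_lit 0) (XT.lf (nat_lit 76) (nat_lit 4696823115) (nat_lit 0) (nat_lit 18514856492) (nat_lit 1140) (nat_lit 6193619187) (nat_lit 161) (nat_lit 5) (nat_lit 160) (nat_lit 5) (nat_lit 175) (nat_lit 5) (nat_lit 328) (nat_lit 325) (nat_lit 127)) (XT.nd (nat_lit 78) (nat_lit 0) (nat_lit 76) (XT.lf (nat_lit 76) (nat_lit 17624287534) (nat_lit 0) (nat_lit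 6387288120) (nat_lit 1140) (nat_lit 5841103489) (nat_lit 161) (nat_lit 5) (nat_lit 160) (nat_lit 5) (nat_lit 175) (nat_lit 5) (nat_lit 329) (nat_lit 325) (nat_lit 126)) (XT.lf (nat_lit 76) (nat_lit 577031940) (nat_lit 0) (nat_lit 24319960252) (nat_lit 1140) (nat_lit 5414648932) (nat_lit 162) (nat_lit 5) (nat_lit 161) (nat_lit 5) (nat_lit 176) (nat_lit 5) (nat_lit 330) (nat_lit 325) (nat_lit 125)))))) (XT.nd (nat_lit 468) (nat_lit 0) (nat_lit 76) (XT.nd (nat_lit 234) (nat_lit 988) (nat_lit 0) (XT.nd (nat_lit 78) (nat_lit 0) (nat_lit 76) (XT.lf (nat_lit 76) (nat_lit 13951158696) (nat_lit 0) (nat_lit 12041279148) (nat_lit 1140) (nat_lit 4786435877) (nat_lit 162) (nat_lit 5) (nat_lit 161) (nat_lit 5) (nat_lit 176) (nat_lit 5) (nat_lit 331) (nat_lit 325) (nat_lit 124)) (XT.nd (nat_lit 78) (nat_lit 0) (nat_lit 0) (XT.lf (nat_lit 0) (nat_lit 27124019378) (nat_lit 1064) (nat_lit 3541111741) (nat_lit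 1140) (nat_lit 594899590) (nat_lit 162) (nat_lit 5) (nat_lit 176) (nat_lit 5) (nat_lit 177) (nat_lit 5) (nat_lit 332) (nat_lit 325) (nat_lit 123)) (XT.lf (nat_lit 76) (nat_lit 10222725285) (nat_lit 0) (nat_lit 18281834585) (nat_lit 1140) (nat_lit 3244617618) (nat_lit 163) (nat_lit 5) (nat_lit 162) (nat_lit 5) (nat_lit 177) (nat_lit 5) (nat_lit 333) (nat_lit 325) (nat_lit 122)))) (XT.nd (nat_lit 78) (nat_lit 1064) (nat_lit 0) (XT.lf (nat_lit 76) (nat_lit 24470456722) (nat_lit 0) (nat_lit 5489398622) (nat_lit 1140) (nat_lit 2292148429) (nat_lit 163) (nat_lit 5) (nat_lit 162) (nat_lit 5) (nat_lit 177) (nat_lit 5) (nat_lit 334) (nat_lit 325) (nat_lit 121)) (XT.nd (nat_lit 78) (nat_lit 1140) (nat_lit 0) (XT.lf (nat_lit 76) (nat_lit 6425554372) (nat_lit 0) (nat_lit 25166570502) (nat_lit 1140) (nat_lit 1173795630) (nat_lit 164) (nat_lit 5) (nat_lit 163) (nat_lit 5) (nat_lit 178) (nat_lit 5) (nat_lit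 335) (nat_lit 325) (nat_lit 120)) (XT.lf (nat_lit 0) (nat_lit 109925307) (nat_lit 1140) (nat_lit 12131113556) (nat_lit 1216) (nat_lit 21050285299) (nat_lit 148) (nat_lit 5) (nat_lit 163) (nat_lit 5) (nat_lit 164) (nat_lit 5) (nat_lit 336) (nat_lit 325) (nat_lit 119))))) (XT.nd (nat_lit 234) (nat_lit 0) (nat_lit 76) (XT.nd (nat_lit 78) (nat_lit 0) (nat_lit 0) (XT.lf (nat_lit 0) (nat_lit 1441409903) (nat_lit 1140) (nat_lit 31301408955) (nat_lit 1216) (nat_lit 1088341774) (nat_lit 149) (nat_lit 5) (nat_lit 164) (nat_lit 5) (nat_lit 165) (nat_lit 5) (nat_lit 337) (nat_lit 325) (nat_lit 118)) (XT.nd (nat_lit 78) (nat_lit 0) (nat_lit 0) (XT.lf (nat_lit 0) (nat_lit 3055557329) (nat_lit 1140) (nat_lit 16628501865) (nat_lit 1216) (nat_lit 14695855996) (nat_lit 149) (nat_lit 5) (nat_lit 164) (nat_lit 5) (nat_lit 165) (nat_lit 5) (nat_lit 338) (nat_lit 325) (nat_lit 117)) (XT.lf (nat_lit 0) (nat_lit 4715999617)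 (nat_lit 1140) (nat_lit 1517050479) (nat_lit 1216) (nat_lit 28712150587) (nat_lit 149) (nat_lit 5) (nat_lit 164) (nat_lit 5) (nat_lit 165) (nat_lit 5) (nat_lit 339) (nat_lit 325) (nat_lit 116)))) (XT.nd (nat_lit 78) (nat_lit 0) (nat_lit 0) (XT.lf (nat_lit 0) (nat_lit 6636525384) (nat_lit 1140) (nat_lit 21272314935) (nat_lit 1216) (nat_lit 7612300601) (nat_lit 150) (nat_lit 5) (nat_lit 165) (nat_lit 5) (nat_lit 166) (nat_lit 5) (nat_lit 340) (nat_lit 325) (nat_lit 115)) (XT.nd (nat_lit 78) (nat_lit 0) (nat_lit 0) (XT.lf (nat_lit 0) (nat_lit 8689832962) (nat_lit 1140) (nat_lit 5658636556) (nat_lit 1216) (nat_lit 21763639020) (nat_lit 150) (nat_lit 5) (nat_lit 165) (nat_lit 5) (nat_lit 166) (nat_lit 5) (nat_lit 341) (nat_lit 325) (nat_lit 114)) (XT.lf (nat_lit 76) (nat_lit 10629266951) (nat_lit 0) (nat_lit 275688376) (nat_lit 1216) (nat_lit 25812847427) (nat_lit 151) (nat_lit 5) (nat_lit 150) (nat_lit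 5) (nat_lit 166) (nat_lit 5) (nat_lit 342) (nat_lit 325) (nat_lit 113))))))) (XT.nd (nat_lit 858) (nat_lit 2128) (nat_lit 0) (XT.nd (nat_lit 390) (nat_lit 1596) (nat_lit 0) (XT.nd (nat_lit 156) (nat_lit 532) (nat_lit 0) (XT.nd (nat_lit 78) (nat_lit 836) (nat_lit 0) (XT.lf (nat_lit 0) (nat_lit 13379008216) (nat_lit 1140) (nat_lit 9957049095) (nat_lit 76) (nat_lit 13999840103) (nat_lit 151) (nat_lit 5) (nat_lit 166) (nat_lit 5) (nat_lit 152) (nat_lit 5) (nat_lit 343) (nat_lit 325) (nat_lit 112)) (XT.lf (nat_lit 0) (nat_lit 6786479875) (nat_lit 836) (nat_lit 9206909539) (nat_lit 912) (nat_lit 21977166100) (nat_lit 140) (nat_lit 5) (nat_lit 151) (nat_lit 5) (nat_lit 152) (nat_lit 5) (nat_lit 344) (nat_lit 325) (nat_lit 111))) (XT.nd (nat_lit 78) (nat_lit 532) (nat_lit 0) (XT.lf (nat_lit 0) (nat_lit 18837316822) (nat_lit 912) (nat_lit 14438844372) (nat_lit 76) (nat_lit 5343562416) (nat_lit 140) (nat_lit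 5) (nat_lit 152) (nat_lit 5) (nat_lit 141) (nat_lit 5) (nat_lit 345) (nat_lit 325) (nat_lit 110)) (XT.nd (nat_lit 78) (nat_lit 0) (nat_lit 0) (XT.lf (nat_lit 0) (nat_lit 2770041494) (nat_lit 532) (nat_lit 19112540832) (nat_lit 608) (nat_lit 17402307401) (nat_lit 133) (nat_lit 5) (nat_lit 140) (nat_lit 5) (nat_lit 141) (nat_lit 5) (nat_lit 346) (nat_lit 325) (nat_lit 109)) (XT.lf (nat_lit 0) (nat_lit 20789593455) (nat_lit 532) (nat_lit 4373687960) (nat_lit 608) (nat_lit 14802410626) (nat_lit 133) (nat_lit 5) (nat_lit 140) (nat_lit 5) (nat_lit 141) (nat_lit 5) (nat_lit 347) (nat_lit 325) (nat_lit 108))))) (XT.nd (nat_lit 234) (nat_lit 1064) (nat_lit 0) (XT.nd (nat_lit 78) (nat_lit 532) (nat_lit 0) (XT.lf (nat_lit 0) (nat_lit 28644611454) (nat_lit 608) (nat_lit 1422664747) (nat_lit 76) (nat_lit 10596579306) (nat_lit 133) (nat_lit 5) (nat_lit 141) (nat_lit 5) (nat_lit 134) (nat_lit 5) (nat_lit 348)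 (nat_lit 325) (nat_lit 107)) (XT.nd (nat_lit 78) (nat_lit 0) (nat_lit 0) (XT.lf (nat_lit 0) (nat_lit 17153244587) (nat_lit 532) (nat_lit 15283700269) (nat_lit 608) (nat_lit 8939825398) (nat_lit 126) (nat_lit 5) (nat_lit 133) (nat_lit 5) (nat_lit 134) (nat_lit 5) (nat_lit 349) (nat_lit 325) (nat_lit 106)) (XT.lf (nat_lit 0) (nat_lit 36314064319) (nat_lit 532) (nat_lit 41754911) (nat_lit 608) (nat_lit 5754873272) (nat_lit 126) (nat_lit 5) (nat_lit 133) (nat_lit 5) (nat_lit 134) (nat_lit 5) (nat_lit 350) (nat_lit 325) (nat_lit 105)))) (XT.nd (nat_lit 78) (nat_lit 608) (nat_lit 0) (XT.lf (nat_lit 0) (nat_lit 13290374615) (nat_lit 456) (nat_lit 27378601321) (nat_lit 532) (nat_lit 2189358091) (nat_lit 120) (nat_lit 5) (nat_lit 126) (nat_lit 5) (nat_lit 127) (nat_lit 5) (nat_lit 351) (nat_lit 325) (nat_lit 104)) (XT.nd (nat_lit 78) (nat_lit 532) (nat_lit 0) (XT.lf (nat_lit 0) (nat_lit 1512173440) (nat_lit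 532) (nat_lit 10574639848) (nat_lit 76) (nat_lit 31539426970) (nat_lit 119) (nat_lit 5) (nat_lit 126) (nat_lit 5) (nat_lit 120) (nat_lit 5) (nat_lit 352) (nat_lit 325) (nat_lit 103)) (XT.lf (nat_lit 0) (nat_lit 5403453859) (nat_lit 608) (nat_lit 35306526225) (nat_lit 76) (nat_lit 3702874911) (nat_lit 112) (nat_lit 5) (nat_lit 120) (nat_lit 5) (nat_lit 113) (nat_lit 5) (nat_lit 353) (nat_lit 325) (nat_lit 102)))))) (XT.nd (nat_lit 468) (nat_lit 1216) (nat_lit 0) (XT.nd (nat_lit 234) (nat_lit 456) (nat_lit 0) (XT.nd (nat_lit 78) (nat_lit 456) (nat_lit 0) (XT.lf (nat_lit 0) (nat_lit 9637522387) (nat_lit 608) (nat_lit 15747637526) (nat_lit 76) (nat_lit 19831129518) (nat_lit 112) (nat_lit 5) (nat_lit 120) (nat_lit 5) (nat_lit 113) (nat_lit 5) (nat_lit 354) (nat_lit 325) (nat_lit 101)) (XT.nd (nat_lit 78) (nat_lit 0) (nat_lit 0) (XT.lf (nat_lit 0) (nat_lit 4484021746) (nat_lit 456) (nat_lit 9556274863)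 (nat_lit 532) (nat_lit 32002282454) (nat_lit 106) (nat_lit 5) (nat_lit 112) (nat_lit 5) (nat_lit 113) (nat_lit 5) (nat_lit 355) (nat_lit 325) (nat_lit 100)) (XT.lf (nat_lit 0) (nat_lit 18799216388) (nat_lit 532) (nat_lit 21311404531) (nat_lit 76) (nat_lit 6776317183) (nat_lit 106) (nat_lit 5) (nat_lit 113) (nat_lit 5) (nat_lit 107) (nat_lit 5) (nat_lit 356) (nat_lit 325) (nat_lit 99)))) (XT.nd (nat_lit 78) (nat_lit 456) (nat_lit 0) (XT.lf (nat_lit 0) (nat_lit 23794167662) (nat_lit 532) (nat_lit 552933700) (nat_lit 76) (nat_lit 23406731151) (nat_lit 106) (nat_lit 5) (nat_lit 113) (nat_lit 5) (nat_lit 107) (nat_lit 5) (nat_lit 357) (nat_lit 325) (nat_lit 98)) (XT.nd (nat_lit 78) (nat_lit 0) (nat_lit 0) (XT.lf (nat_lit 0) (nat_lit 21241349647) (nat_lit 456) (nat_lit 7900489391) (nat_lit 532) (nat_lit 19498811013) (nat_lit 100) (nat_lit 5) (nat_lit 106) (nat_lit 5) (nat_lit 107) (nat_lit 5) (nat_lit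 358) (nat_lit 325) (nat_lit 97)) (XT.lf (nat_lit 0) (nat_lit 34741182792) (nat_lit 532) (nat_lit 5941519709) (nat_lit 76) (nat_lit 8868634718) (nat_lit 100) (nat_lit 5) (nat_lit 107) (nat_lit 5) (nat_lit 101) (nat_lit 5) (nat_lit 359) (nat_lit 325) (nat_lit 96))))) (XT.nd (nat_lit 234) (nat_lit 380) (nat_lit 0) (XT.nd (nat_lit 78) (nat_lit 456) (nat_lit 0) (XT.lf (nat_lit 0) (nat_lit 16400382361) (nat_lit 380) (nat_lit 24342745247) (nat_lit 456) (nat_lit 9739181074) (nat_lit 95) (nat_lit 5) (nat_lit 100) (nat_lit 5) (nat_lit 101) (nat_lit 5) (nat_lit 360) (nat_lit 325) (nat_lit 95)) (XT.nd (nat_lit 78) (nat_lit 456) (nat_lit 0) (XT.lf (nat_lit 0) (nat_lit 39532930835) (nat_lit 380) (nat_lit 7450968172) (nat_lit 456) (nat_lit 4455549470) (nat_lit 95) (nat_lit 5) (nat_lit 100) (nat_lit 5) (nat_lit 101) (nat_lit 5) (nat_lit 361) (nat_lit 325) (nat_lit 94)) (XT.lf (nat_lit 0) (nat_lit 1169996996)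 (nat_lit 456) (nat_lit 41377944995) (nat_lit 76) (nat_lit 9870998335) (nat_lit 89) (nat_lit 5) (nat_lit 95) (nat_lit 5) (nat_lit 90) (nat_lit 5) (nat_lit 362) (nat_lit 325) (nat_lit 93)))) (XT.nd (nat_lit 78) (nat_lit 380) (nat_lit 0) (XT.lf (nat_lit 0) (nat_lit 7068765077) (nat_lit 456) (nat_lit 18623694365) (nat_lit 76) (nat_lit 27728215883) (nat_lit 89) (nat_lit 5) (nat_lit 95) (nat_lit 5) (nat_lit 90) (nat_lit 5) (nat_lit 363) (nat_lit 325) (nat_lit 92)) (XT.nd (nat_lit 78) (nat_lit 0) (nat_lit 0) (XT.lf (nat_lit 0) (nat_lit 4907576125) (nat_lit 380) (nat_lit 8282941776) (nat_lit 456) (nat_lit 41260565807) (nat_lit 84) (nat_lit 5) (nat_lit 89) (nat_lit 5) (nat_lit 90) (nat_lit 5) (nat_lit 364) (nat_lit 325) (nat_lit 91)) (XT.lf (nat_lit 0) (nat_lit 19777464293) (nat_lit 456) (nat_lit 26076215437) (nat_lit 76) (nat_lit 9650280310) (nat_lit 84) (nat_lit 5) (nat_lit 90) (nat_lit 5) (nat_lit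 85) (nat_lit 5) (nat_lit 365) (nat_lit 325) (nat_lit 90))))))))
noncomputable def xc243 : XT := (XT.nd (nat_lit 39000) (nat_lit 0) (nat_lit 304) (XT.nd (nat_lit 38064) (nat_lit 0) (nat_lit 5548) (XT.nd (nat_lit 37596) (nat_lit 0) (nat_lit 6384) (XT.nd (nat_lit 156) (nat_lit 304) (nat_lit 0) (XT.nd (nat_lit 78) (nat_lit 380) (nat_lit 0) (XT.lf (nat_lit 0) (nat_lit 26642926868) (nat_lit 456) (nat_lit 1988265714) (nat_lit 76) (nat_lit 27954804720) (nat_lit 84) (nat_lit 5) (nat_lit 90) (nat_lit 5) (nat_lit 85) (nat_lit 5) (nat_lit 366) (nat_lit 325) (nat_lit 89)) (XT.lf (nat_lit 0) (nat_lit 23275192860) (nat_lit 380) (nat_lit 10661826403) (nat_lit 456) (nat_lit 23756798258) (nat_lit 79) (nat_lit 5) (nat_lit 84) (nat_lit 5) (nat_lit 85) (nat_lit 5) (nat_lit 367) (nat_lit 325) (nat_lit 88))) (XT.nd (nat_lit 78) (nat_lit 304) (nat_lit 0) (XT.lf (nat_lit 0) (nat_lit 41544584137) (nat_lit 456) (nat_lit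 9573913152) (nat_lit 76) (nat_lit 7713537330) (nat_lit 79) (nat_lit 5) (nat_lit 85) (nat_lit 5) (nat_lit 80) (nat_lit 5) (nat_lit 368) (nat_lit 325) (nat_lit 87)) (XT.nd (nat_lit 37284) (nat_lit 0) (nat_lit 6384) (XT.lf (nat_lit 0) (nat_lit 16225911272) (nat_lit 304) (nat_lit 33414978197) (nat_lit 380) (nat_lit 10355695069) (nat_lit 75) (nat_lit 5) (nat_lit 79) (nat_lit 5) (nat_lit 80) (nat_lit 5) (nat_lit 369) (nat_lit 325) (nat_lit 86)) (XT.lf (nat_lit 0) (nat_lit 11152650622) (nat_lit 1140) (nat_lit 1664150742) (nat_lit 1140) (nat_lit 1664150742) (nat_lit 159) (nat_lit 3) (nat_lit 174) (nat_lit 3) (nat_lit 174) (nat_lit 5) (nat_lit 326) (nat_lit 326) (nat_lit 128))))) (XT.nd (nat_lit 234) (nat_lit 0) (nat_lit 76) (XT.nd (nat_lit 78) (nat_lit 0) (nat_lit 0) (XT.lf (nat_lit 76) (nat_lit 9098873145) (nat_lit 0) (nat_lit 13699588257) (nat_lit 1140) (nat_lit 6592957494) (nat_lit 160) (nat_lit 5)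 (nat_lit 159) (nat_lit 3) (nat_lit 174) (nat_lit 5) (nat_lit 327) (nat_lit 326) (nat_lit 127)) (XT.nd (nat_lit 78) (nat_lit 0) (nat_lit 76) (XT.lf (nat_lit 76) (nat_lit 21965628995) (nat_lit 0) (nat_lit 1371607157) (nat_lit 1140) (nat_lit 6495664377) (nat_lit 160) (nat_lit 5) (nat_lit 159) (nat_lit 3) (nat_lit 174) (nat_lit 5) (nat_lit 328) (nat_lit 326) (nat_lit 126)) (XT.lf (nat_lit 76) (nat_lit 4916303237) (nat_lit 0) (nat_lit 19129308034) (nat_lit 1140) (nat_lit 6237418158) (nat_lit 161) (nat_lit 5) (nat_lit 160) (nat_lit 5) (nat_lit 175) (nat_lit 5) (nat_lit 329) (nat_lit 326) (nat_lit 125)))) (XT.nd (nat_lit 78) (nat_lit 0) (nat_lit 76) (XT.lf (nat_lit 76) (nat_lit 18229302984) (nat_lit 0) (nat_lit 6636193994) (nat_lit 1140) (nat_lit 5878463192) (nat_lit 161) (nat_lit 5) (nat_lit 160) (nat_lit 5) (nat_lit 175) (nat_lit 5) (nat_lit 330) (nat_lit 326) (nat_lit 124)) (XT.nd (nat_lit 78) (nat_lit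 0) (nat_lit 0) (XT.lf (nat_lit 76) (nat_lit 674684291) (nat_lit 0) (nat_lit 25099138865) (nat_lit 1140) (nat_lit 5442985948) (nat_lit 162) (nat_lit 5) (nat_lit 161) (nat_lit 5) (nat_lit 176) (nat_lit 5) (nat_lit 331) (nat_lit 326) (nat_lit 123)) (XT.lf (nat_lit 76) (nat_lit 14447694809) (nat_lit 0) (nat_lit 12450653256) (nat_lit 1140) (nat_lit 4799832399) (nat_lit 162) (nat_lit 5) (nat_lit 161) (nat_lit 5) (nat_lit 176) (nat_lit 5) (nat_lit 332) (nat_lit 326) (nat_lit 122)))))) (XT.nd (nat_lit 468) (nat_lit 0) (nat_lit 76) (XT.nd (nat_lit 234) (nat_lit 1064) (nat_lit 0) (XT.nd (nat_lit 78) (nat_lit 0) (nat_lit 0) (XT.lf (nat_lit 0) (nat_lit 28059753916) (nat_lit 1064) (nat_lit 3567225160) (nat_lit 1140) (nat_lit 566924800) (nat_lit 162) (nat_lit 5) (nat_lit 176) (nat_lit 5) (nat_lit 177) (nat_lit 5) (nat_lit 333) (nat_lit 326) (nat_lit 121)) (XT.nd (nat_lit 78) (nat_lit 0) (nat_lit 0) (XT.lf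 (nat_lit 76) (nat_lit 10608741488) (nat_lit 0) (nat_lit 18870177941) (nat_lit 1140) (nat_lit 3218897150) (nat_lit 163) (nat_lit 5) (nat_lit 162) (nat_lit 5) (nat_lit 177) (nat_lit 5) (nat_lit 334) (nat_lit 326) (nat_lit 120)) (XT.lf (nat_lit 76) (nat_lit 25281594156) (nat_lit 0) (nat_lit 5692807104) (nat_lit 1140) (nat_lit 2241438128) (nat_lit 163) (nat_lit 5) (nat_lit 162) (nat_lit 5) (nat_lit 177) (nat_lit 5) (nat_lit 335) (nat_lit 326) (nat_lit 119)))) (XT.nd (nat_lit 78) (nat_lit 1140) (nat_lit 0) (XT.lf (nat_lit 76) (nat_lit 6698646198) (nat_lit 0) (nat_lit 25954032026) (nat_lit 1140) (nat_lit 1092591557) (nat_lit 164) (nat_lit 5) (nat_lit 163) (nat_lit 5) (nat_lit 178) (nat_lit 5) (nat_lit 336) (nat_lit 326) (nat_lit 118)) (XT.nd (nat_lit 78) (nat_lit 0) (nat_lit 76) (XT.lf (nat_lit 0) (nat_lit 224044629) (nat_lit 1140) (nat_lit 12414625163) (nat_lit 1216) (nat_lit 21647838841) (nat_lit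 148) (nat_lit 5) (nat_lit 163) (nat_lit 5) (nat_lit 164) (nat_lit 5) (nat_lit 337) (nat_lit 326) (nat_lit 117)) (XT.lf (nat_lit 0) (nat_lit 1592735304) (nat_lit 1140) (nat_lit 32157067075) (nat_lit 1216) (nat_lit 1092826689) (nat_lit 149) (nat_lit 5) (nat_lit 164) (nat_lit 5) (nat_lit 165) (nat_lit 5) (nat_lit 338) (nat_lit 326) (nat_lit 116))))) (XT.nd (nat_lit 234) (nat_lit 0) (nat_lit 76) (XT.nd (nat_lit 78) (nat_lit 0) (nat_lit 0) (XT.lf (nat_lit 0) (nat_lit 3252159101) (nat_lit 1140) (nat_lit 17046401436) (nat_lit 1216) (nat_lit 15109386688) (nat_lit 149) (nat_lit 5) (nat_lit 164) (nat_lit 5) (nat_lit 165) (nat_lit 5) (nat_lit 339) (nat_lit 326) (nat_lit 115)) (XT.nd (nat_lit 78) (nat_lit 0) (nat_lit 76) (XT.lf (nat_lit 0) (nat_lit 4959358297) (nat_lit 1140) (nat_lit 1483964436) (nat_lit 1216) (nat_lit 29546966572) (nat_lit 149) (nat_lit 5) (nat_lit 164) (nat_lit 5) (nat_lit 165) (nat_lit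 5) (nat_lit 340) (nat_lit 326) (nat_lit 114)) (XT.lf (nat_lit 0) (nat_lit 6935070749) (nat_lit 1140) (nat_lit 21829252846) (nat_lit 1216) (nat_lit 7819263171) (nat_lit 150) (nat_lit 5) (nat_lit 165) (nat_lit 5) (nat_lit 166) (nat_lit 5) (nat_lit 341) (nat_lit 326) (nat_lit 113)))) (XT.nd (nat_lit 78) (nat_lit 0) (nat_lit 0) (XT.lf (nat_lit 0) (nat_lit 9047080964) (nat_lit 1140) (nat_lit 5749530083) (nat_lit 1216) (nat_lit 22395765232) (nat_lit 150) (nat_lit 5) (nat_lit 165) (nat_lit 5) (nat_lit 166) (nat_lit 5) (nat_lit 342) (nat_lit 326) (nat_lit 112)) (XT.nd (nat_lit 78) (nat_lit 0) (nat_lit 76) (XT.lf (nat_lit 76) (nat_lit 11026237337) (nat_lit 0) (nat_lit 300358112) (nat_lit 1216) (nat_lit 26489713515) (nat_lit 151) (nat_lit 5) (nat_lit 150) (nat_lit 5) (nat_lit 166) (nat_lit 5) (nat_lit 343) (nat_lit 326) (nat_lit 111)) (XT.lf (nat_lit 0) (nat_lit 13871964699) (nat_lit 1140) (nat_lit 10176849996)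 (nat_lit 76) (nat_lit 14404224549) (nat_lit 151) (nat_lit 5) (nat_lit 166) (nat_lit 5) (nat_lit 152) (nat_lit 5) (nat_lit 344) (nat_lit 326) (nat_lit 110))))))) (XT.nd (nat_lit 936) (nat_lit 2052) (nat_lit 0) (XT.nd (nat_lit 468) (nat_lit 1520) (nat_lit 0) (XT.nd (nat_lit 234) (nat_lit 532) (nat_lit 0) (XT.nd (nat_lit 78) (nat_lit 532) (nat_lit 0) (XT.lf (nat_lit 0) (nat_lit 7068211210) (nat_lit 836) (nat_lit 9494649663) (nat_lit 912) (nat_lit 22543939170) (nat_lit 140) (nat_lit 5) (nat_lit 151) (nat_lit 5) (nat_lit 152) (nat_lit 5) (nat_lit 345) (nat_lit 326) (nat_lit 109)) (XT.nd (nat_lit 78) (nat_lit 532) (nat_lit 0) (XT.lf (nat_lit 0) (nat_lit 19489386730) (nat_lit 912) (nat_lit 14793252483) (nat_lit 76) (nat_lit 5492890851) (nat_lit 140) (nat_lit 5) (nat_lit 152) (nat_lit 5) (nat_lit 141) (nat_lit 5) (nat_lit 346) (nat_lit 326) (nat_lit 108)) (XT.lf (nat_lit 0) (nat_lit 2931127829) (nat_lit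 532) (nat_lit 19693099474) (nat_lit 608) (nat_lit 17836482496) (nat_lit 133) (nat_lit 5) (nat_lit 140) (nat_lit 5) (nat_lit 141) (nat_lit 5) (nat_lit 347) (nat_lit 326) (nat_lit 107)))) (XT.nd (nat_lit 78) (nat_lit 532) (nat_lit 0) (XT.lf (nat_lit 0) (nat_lit 21488994938) (nat_lit 532) (nat_lit 4511871820) (nat_lit 608) (nat_lit 15161148841) (nat_lit 133) (nat_lit 5) (nat_lit 140) (nat_lit 5) (nat_lit 141) (nat_lit 5) (nat_lit 348) (nat_lit 326) (nat_lit 106)) (XT.nd (nat_lit 78) (nat_lit 532) (nat_lit 0) (XT.lf (nat_lit 0) (nat_lit 29584163264) (nat_lit 608) (nat_lit 1389201084) (nat_lit 76) (nat_lit 10907838677) (nat_lit 133) (nat_lit 5) (nat_lit 141) (nat_lit 5) (nat_lit 134) (nat_lit 5) (nat_lit 349) (nat_lit 326) (nat_lit 105)) (XT.lf (nat_lit 0) (nat_lit 17743239024) (nat_lit 532) (nat_lit 15745416092) (nat_lit 608) (nat_lit 9126903156) (nat_lit 126) (nat_lit 5) (nat_lit 133) (nat_lit 5)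 (nat_lit 134) (nat_lit 5) (nat_lit 350) (nat_lit 326) (nat_lit 104))))) (XT.nd (nat_lit 234) (nat_lit 988) (nat_lit 0) (XT.nd (nat_lit 78) (nat_lit 532) (nat_lit 0) (XT.lf (nat_lit 0) (nat_lit 37476687316) (nat_lit 532) (nat_lit 46119030) (nat_lit 608) (nat_lit 5848765097) (nat_lit 126) (nat_lit 5) (nat_lit 133) (nat_lit 5) (nat_lit 134) (nat_lit 5) (nat_lit 351) (nat_lit 326) (nat_lit 103)) (XT.nd (nat_lit 78) (nat_lit 76) (nat_lit 0) (XT.lf (nat_lit 0) (nat_lit 13764016775) (nat_lit 456) (nat_lit 28199809527) (nat_lit 532) (nat_lit 2177866296) (nat_lit 120) (nat_lit 5) (nat_lit 126) (nat_lit 5) (nat_lit 127) (nat_lit 5) (nat_lit 352) (nat_lit 326) (nat_lit 102)) (XT.lf (nat_lit 0) (nat_lit 1631001384) (nat_lit 532) (nat_lit 10817529002) (nat_lit 76) (nat_lit 32484153675) (nat_lit 119) (nat_lit 5) (nat_lit 126) (nat_lit 5) (nat_lit 120) (nat_lit 5) (nat_lit 353) (nat_lit 326) (nat_lit 101))))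 (XT.nd (nat_lit 78) (nat_lit 456) (nat_lit 0) (XT.lf (nat_lit 0) (nat_lit 5637603503) (nat_lit 608) (nat_lit 36289819800) (nat_lit 76) (nat_lit 3815520502) (nat_lit 112) (nat_lit 5) (nat_lit 120) (nat_lit 5) (nat_lit 113) (nat_lit 5) (nat_lit 354) (nat_lit 326) (nat_lit 100)) (XT.nd (nat_lit 78) (nat_lit 456) (nat_lit 0) (XT.lf (nat_lit 0) (nat_lit 9996595659) (nat_lit 608) (nat_lit 16146375185) (nat_lit 76) (nat_lit 20427577330) (nat_lit 112) (nat_lit 5) (nat_lit 120) (nat_lit 5) (nat_lit 113) (nat_lit 5) (nat_lit 355) (nat_lit 326) (nat_lit 99)) (XT.lf (nat_lit 0) (nat_lit 4691511400) (nat_lit 456) (nat_lit 9838605821) (nat_lit 532) (nat_lit 32891553180) (nat_lit 106) (nat_lit 5) (nat_lit 112) (nat_lit 5) (nat_lit 113) (nat_lit 5) (nat_lit 356) (nat_lit 326) (nat_lit 98)))))) (XT.nd (nat_lit 468) (nat_lit 1216) (nat_lit 0) (XT.nd (nat_lit 234) (nat_lit 380) (nat_lit 0) (XT.nd (nat_lit 78) (nat_lit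 456) (nat_lit 0) (XT.lf (nat_lit 0) (nat_lit 19429846860) (nat_lit 532) (nat_lit 21877821279) (nat_lit 76) (nat_lit 6983754524) (nat_lit 106) (nat_lit 5) (nat_lit 113) (nat_lit 5) (nat_lit 107) (nat_lit 5) (nat_lit 357) (nat_lit 326) (nat_lit 97)) (XT.nd (nat_lit 78) (nat_lit 456) (nat_lit 0) (XT.lf (nat_lit 0) (nat_lit 24572705294) (nat_lit 532) (nat_lit 498720363) (nat_lit 76) (nat_lit 24112960101) (nat_lit 106) (nat_lit 5) (nat_lit 113) (nat_lit 5) (nat_lit 107) (nat_lit 5) (nat_lit 358) (nat_lit 326) (nat_lit 96)) (XT.lf (nat_lit 0) (nat_lit 21948697353) (nat_lit 456) (nat_lit 8130898538) (nat_lit 532) (nat_lit 20018251764) (nat_lit 100) (nat_lit 5) (nat_lit 106) (nat_lit 5) (nat_lit 107) (nat_lit 5) (nat_lit 359) (nat_lit 326) (nat_lit 95)))) (XT.nd (nat_lit 78) (nat_lit 380) (nat_lit 0) (XT.lf (nat_lit 0) (nat_lit 35845132041) (nat_lit 532) (nat_lit 6049798682) (nat_lit 76) (nat_lit 9140981757)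 (nat_lit 100) (nat_lit 5) (nat_lit 107) (nat_lit 5) (nat_lit 101) (nat_lit 5) (nat_lit 360) (nat_lit 326) (nat_lit 94)) (XT.nd (nat_lit 78) (nat_lit 0) (nat_lit 0) (XT.lf (nat_lit 0) (nat_lit 16961674504) (nat_lit 380) (nat_lit 25064329178) (nat_lit 456) (nat_lit 9968846654) (nat_lit 95) (nat_lit 5) (nat_lit 100) (nat_lit 5) (nat_lit 101) (nat_lit 5) (nat_lit 361) (nat_lit 326) (nat_lit 93)) (XT.lf (nat_lit 0) (nat_lit 40786181549) (nat_lit 380) (nat_lit 7666052143) (nat_lit 456) (nat_lit 4528526777) (nat_lit 95) (nat_lit 5) (nat_lit 100) (nat_lit 5) (nat_lit 101) (nat_lit 5) (nat_lit 362) (nat_lit 326) (nat_lit 92))))) (XT.nd (nat_lit 234) (nat_lit 380) (nat_lit 0) (XT.nd (nat_lit 78) (nat_lit 380) (nat_lit 0) (XT.lf (nat_lit 0) (nat_lit 1263612041) (nat_lit 456) (nat_lit 42549641905) (nat_lit 76) (nat_lit 10176398343) (nat_lit 89) (nat_lit 5) (nat_lit 95) (nat_lit 5) (nat_lit 90) (nat_lit 5)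 (nat_lit 363) (nat_lit 326) (nat_lit 91)) (XT.nd (nat_lit 78) (nat_lit 380) (nat_lit 0) (XT.lf (nat_lit 0) (nat_lit 7337638840) (nat_lit 456) (nat_lit 19114792147) (nat_lit 76) (nat_lit 28569062415) (nat_lit 89) (nat_lit 5) (nat_lit 95) (nat_lit 5) (nat_lit 90) (nat_lit 5) (nat_lit 364) (nat_lit 326) (nat_lit 90)) (XT.lf (nat_lit 0) (nat_lit 5121753584) (nat_lit 380) (nat_lit 8520279547) (nat_lit 456) (nat_lit 42440814090) (nat_lit 84) (nat_lit 5) (nat_lit 89) (nat_lit 5) (nat_lit 90) (nat_lit 5) (nat_lit 365) (nat_lit 326) (nat_lit 89)))) (XT.nd (nat_lit 78) (nat_lit 380) (nat_lit 0) (XT.lf (nat_lit 0) (nat_lit 20425066745) (nat_lit 456) (nat_lit 26791888320) (nat_lit 76) (nat_lit 9950403182) (nat_lit 84) (nat_lit 5) (nat_lit 90) (nat_lit 5) (nat_lit 85) (nat_lit 5) (nat_lit 366) (nat_lit 326) (nat_lit 88)) (XT.nd (nat_lit 78) (nat_lit 380) (nat_lit 0) (XT.lf (nat_lit 0) (nat_lit 27494912269)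 (nat_lit 456) (nat_lit 1983240306) (nat_lit 76) (nat_lit 28803754165) (nat_lit 84) (nat_lit 5) (nat_lit 90) (nat_lit 5) (nat_lit 85) (nat_lit 5) (nat_lit 367) (nat_lit 326) (nat_lit 87)) (XT.lf (nat_lit 0) (nat_lit 24037487972) (nat_lit 380) (nat_lit 10969420167) (nat_lit 456) (nat_lit 24416083613) (nat_lit 79) (nat_lit 5) (nat_lit 84) (nat_lit 5) (nat_lit 85) (nat_lit 5) (nat_lit 368) (nat_lit 326) (nat_lit 86))))))))
noncomputable def xc244 : XT := (XT.nd (nat_lit 39078) (nat_lit 0) (nat_lit 380) (XT.nd (nat_lit 38142) (nat_lit 0) (nat_lit 4104) (XT.nd (nat_lit 37674) (nat_lit 0) (nat_lit 6156) (XT.nd (nat_lit 37440) (nat_lit 0) (nat_lit 6080) (XT.nd (nat_lit 37362) (nat_lit 0) (nat_lit 6080) (XT.lf (nat_lit 0) (nat_lit 42841306282) (nat_lit 456) (nat_lit 9797478353) (nat_lit 76) (nat_lit 7956615072) (nat_lit 79) (nat_lit 5) (nat_lit 85) (nat_lit 5) (nat_lit 80) (nat_lit 5) (nat_lit 369) (nat_lit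 326) (nat_lit 85)) (XT.lf (nat_lit 0) (nat_lit 11557663227) (nat_lit 1140) (nat_lit 1677724746) (nat_lit 1140) (nat_lit 1677724746) (nat_lit 159) (nat_lit 3) (nat_lit 174) (nat_lit 3) (nat_lit 174) (nat_lit 5) (nat_lit 327) (nat_lit 327) (nat_lit 126))) (XT.nd (nat_lit 78) (nat_lit 0) (nat_lit 0) (XT.lf (nat_lit 76) (nat_lit 9443827621) (nat_lit 0) (nat_lit 14176042892) (nat_lit 1140) (nat_lit 6648866401) (nat_lit 160) (nat_lit 5) (nat_lit 159) (nat_lit 3) (nat_lit 174) (nat_lit 5) (nat_lit 328) (nat_lit 327) (nat_lit 125)) (XT.nd (nat_lit 78) (nat_lit 0) (nat_lit 76) (XT.lf (nat_lit 76) (nat_lit 22694489401) (nat_lit 0) (nat_lit 1476315554) (nat_lit 1140) (nat_lit 6552786913) (nat_lit 160) (nat_lit 5) (nat_lit 159) (nat_lit 3) (nat_lit 174) (nat_lit 5) (nat_lit 329) (nat_lit 327) (nat_lit 124)) (XT.lf (nat_lit 76) (nat_lit 5137857211) (nat_lit 0) (nat_lit 19758805945) (nat_lit 1140) (nat_lit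 6290683031) (nat_lit 161) (nat_lit 5) (nat_lit 160) (nat_lit 5) (nat_lit 175) (nat_lit 5) (nat_lit 330) (nat_lit 327) (nat_lit 123))))) (XT.nd (nat_lit 234) (nat_lit 0) (nat_lit 152) (XT.nd (nat_lit 78) (nat_lit 0) (nat_lit 76) (XT.lf (nat_lit 76) (nat_lit 18848089722) (nat_lit 0) (nat_lit 6889278523) (nat_lit 1140) (nat_lit 5924858183) (nat_lit 161) (nat_lit 5) (nat_lit 160) (nat_lit 5) (nat_lit 175) (nat_lit 5) (nat_lit 331) (nat_lit 327) (nat_lit 122)) (XT.nd (nat_lit 78) (nat_lit 0) (nat_lit 0) (XT.lf (nat_lit 76) (nat_lit 770654288) (nat_lit 0) (nat_lit 25898846752) (nat_lit 1140) (nat_lit 5479871105) (nat_lit 162) (nat_lit 5) (nat_lit 161) (nat_lit 5) (nat_lit 176) (nat_lit 5) (nat_lit 332) (nat_lit 327) (nat_lit 121)) (XT.lf (nat_lit 76) (nat_lit 14954649409) (nat_lit 0) (nat_lit 12869545399) (nat_lit 1140) (nat_lit 4821104631) (nat_lit 162) (nat_lit 5) (nat_lit 161) (nat_lit 5) (nat_lit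 176) (nat_lit 5) (nat_lit 333) (nat_lit 327) (nat_lit 120)))) (XT.nd (nat_lit 78) (nat_lit 0) (nat_lit 0) (XT.lf (nat_lit 0) (nat_lit 29016556389) (nat_lit 1064) (nat_lit 3598721193) (nat_lit 1140) (nat_lit 540741123) (nat_lit 162) (nat_lit 5) (nat_lit 176) (nat_lit 5) (nat_lit 177) (nat_lit 5) (nat_lit 334) (nat_lit 327) (nat_lit 119)) (XT.nd (nat_lit 78) (nat_lit 0) (nat_lit 0) (XT.lf (nat_lit 76) (nat_lit 11001784055) (nat_lit 0) (nat_lit 19473881845) (nat_lit 1140) (nat_lit 3199469158) (nat_lit 163) (nat_lit 5) (nat_lit 162) (nat_lit 5) (nat_lit 177) (nat_lit 5) (nat_lit 335) (nat_lit 327) (nat_lit 118)) (XT.lf (nat_lit 76) (nat_lit 26112644235) (nat_lit 0) (nat_lit 5900094779) (nat_lit 1140) (nat_lit 2196064858) (nat_lit 163) (nat_lit 5) (nat_lit 162) (nat_lit 5) (nat_lit 177) (nat_lit 5) (nat_lit 336) (nat_lit 327) (nat_lit 117)))))) (XT.nd (nat_lit 468) (nat_lit 1140) (nat_lit 0) (XT.nd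 (nat_lit 234) (nat_lit 0) (nat_lit 76) (XT.nd (nat_lit 78) (nat_lit 1140) (nat_lit 0) (XT.lf (nat_lit 76) (nat_lit 6975319784) (nat_lit 0) (nat_lit 26763253805) (nat_lit 1140) (nat_lit 1015634227) (nat_lit 164) (nat_lit 5) (nat_lit 163) (nat_lit 5) (nat_lit 178) (nat_lit 5) (nat_lit 337) (nat_lit 327) (nat_lit 116)) (XT.nd (nat_lit 78) (nat_lit 0) (nat_lit 76) (XT.lf (nat_lit 0) (nat_lit 335225919) (nat_lit 1140) (nat_lit 12711258659) (nat_lit 1216) (nat_lit 22265268146) (nat_lit 148) (nat_lit 5) (nat_lit 163) (nat_lit 5) (nat_lit 164) (nat_lit 5) (nat_lit 338) (nat_lit 327) (nat_lit 115)) (XT.lf (nat_lit 0) (nat_lit 1742396054) (nat_lit 1140) (nat_lit 33043181529) (nat_lit 1216) (nat_lit 1099062957) (nat_lit 149) (nat_lit 5) (nat_lit 164) (nat_lit 5) (nat_lit 165) (nat_lit 5) (nat_lit 339) (nat_lit 327) (nat_lit 114)))) (XT.nd (nat_lit 78) (nat_lit 0) (nat_lit 0) (XT.lf (nat_lit 0) (nat_lit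 3448635225) (nat_lit 1140) (nat_lit 17481485171) (nat_lit 1216) (nat_lit 15536893014) (nat_lit 149) (nat_lit 5) (nat_lit 164) (nat_lit 5) (nat_lit 165) (nat_lit 5) (nat_lit 340) (nat_lit 327) (nat_lit 113)) (XT.nd (nat_lit 78) (nat_lit 0) (nat_lit 76) (XT.lf (nat_lit 0) (nat_lit 5204169483) (nat_lit 1140) (nat_lit 1454397633) (nat_lit 1216) (nat_lit 30408351031) (nat_lit 149) (nat_lit 5) (nat_lit 164) (nat_lit 5) (nat_lit 165) (nat_lit 5) (nat_lit 341) (nat_lit 327) (nat_lit 112)) (XT.lf (nat_lit 0) (nat_lit 7236863662) (nat_lit 1140) (nat_lit 22407561918) (nat_lit 1216) (nat_lit 8033663436) (nat_lit 150) (nat_lit 5) (nat_lit 165) (nat_lit 5) (nat_lit 166) (nat_lit 5) (nat_lit 342) (nat_lit 327) (nat_lit 111))))) (XT.nd (nat_lit 234) (nat_lit 1292) (nat_lit 0) (XT.nd (nat_lit 78) (nat_lit 0) (nat_lit 0) (XT.lf (nat_lit 0) (nat_lit 9409503869) (nat_lit 1140) (nat_lit 5847677623) (nat_lit 1216)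 (nat_lit 23048048257) (nat_lit 150) (nat_lit 5) (nat_lit 165) (nat_lit 5) (nat_lit 166) (nat_lit 5) (nat_lit 343) (nat_lit 327) (nat_lit 110)) (XT.nd (nat_lit 78) (nat_lit 0) (nat_lit 76) (XT.lf (nat_lit 76) (nat_lit 11430634013) (nat_lit 0) (nat_lit 324826565) (nat_lit 1216) (nat_lit 27192483593) (nat_lit 151) (nat_lit 5) (nat_lit 150) (nat_lit 5) (nat_lit 166) (nat_lit 5) (nat_lit 344) (nat_lit 327) (nat_lit 109)) (XT.lf (nat_lit 0) (nat_lit 14374452452) (nat_lit 1140) (nat_lit 10407774713) (nat_lit 76) (nat_lit 14821636650) (nat_lit 151) (nat_lit 5) (nat_lit 166) (nat_lit 5) (nat_lit 152) (nat_lit 5) (nat_lit 345) (nat_lit 327) (nat_lit 108)))) (XT.nd (nat_lit 78) (nat_lit 532) (nat_lit 0) (XT.lf (nat_lit 0) (nat_lit 7353909106) (nat_lit 836) (nat_lit 9790359958) (nat_lit 912) (nat_lit 23133027716) (nat_lit 140) (nat_lit 5) (nat_lit 151) (nat_lit 5) (nat_lit 152) (nat_lit 5) (nat_lit 346)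 (nat_lit 327) (nat_lit 107)) (XT.nd (nat_lit 78) (nat_lit 532) (nat_lit 0) (XT.lf (nat_lit 0) (nat_lit 20156027427) (nat_lit 912) (nat_lit 15162813824) (nat_lit 76) (nat_lit 5647329347) (nat_lit 140) (nat_lit 5) (nat_lit 152) (nat_lit 5) (nat_lit 141) (nat_lit 5) (nat_lit 347) (nat_lit 327) (nat_lit 106)) (XT.lf (nat_lit 0) (nat_lit 3092570091) (nat_lit 532) (nat_lit 20290662576) (nat_lit 608) (nat_lit 18288728327) (nat_lit 133) (nat_lit 5) (nat_lit 140) (nat_lit 5) (nat_lit 141) (nat_lit 5) (nat_lit 348) (nat_lit 327) (nat_lit 105))))))) (XT.nd (nat_lit 858) (nat_lit 1672) (nat_lit 0) (XT.nd (nat_lit 390) (nat_lit 1064) (nat_lit 0) (XT.nd (nat_lit 156) (nat_lit 988) (nat_lit 0) (XT.nd (nat_lit 78) (nat_lit 0) (nat_lit 0) (XT.lf (nat_lit 0) (nat_lit 22205032191) (nat_lit 532) (nat_lit 4653800904) (nat_lit 608) (nat_lit 15535547730) (nat_lit 133) (nat_lit 5) (nat_lit 140) (nat_lit 5) (nat_lit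 141) (nat_lit 5) (nat_lit 349) (nat_lit 327) (nat_lit 104)) (XT.lf (nat_lit 0) (nat_lit 30547297047) (nat_lit 608) (nat_lit 1359104465) (nat_lit 76) (nat_lit 11228816878) (nat_lit 133) (nat_lit 5) (nat_lit 141) (nat_lit 5) (nat_lit 134) (nat_lit 5) (nat_lit 350) (nat_lit 327) (nat_lit 103))) (XT.nd (nat_lit 78) (nat_lit 456) (nat_lit 0) (XT.lf (nat_lit 0) (nat_lit 18346605192) (nat_lit 532) (nat_lit 16220799421) (nat_lit 608) (nat_lit 9324249694) (nat_lit 126) (nat_lit 5) (nat_lit 133) (nat_lit 5) (nat_lit 134) (nat_lit 5) (nat_lit 351) (nat_lit 327) (nat_lit 102)) (XT.nd (nat_lit 78) (nat_lit 456) (nat_lit 0) (XT.lf (nat_lit 0) (nat_lit 38669986962) (nat_lit 532) (nat_lit 50435461) (nat_lit 608) (nat_lit 5949994499) (nat_lit 126) (nat_lit 5) (nat_lit 133) (nat_lit 5) (nat_lit 134) (nat_lit 5) (nat_lit 352) (nat_lit 327) (nat_lit 101)) (XT.lf (nat_lit 0) (nat_lit 14247566858) (nat_lit 456) (nat_lit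 29045662579) (nat_lit 532) (nat_lit 2170459767) (nat_lit 120) (nat_lit 5) (nat_lit 126) (nat_lit 5) (nat_lit 127) (nat_lit 5) (nat_lit 353) (nat_lit 327) (nat_lit 100))))) (XT.nd (nat_lit 234) (nat_lit 456) (nat_lit 0) (XT.nd (nat_lit 78) (nat_lit 532) (nat_lit 0) (XT.lf (nat_lit 0) (nat_lit 1749177105) (nat_lit 532) (nat_lit 11071972828) (nat_lit 76) (nat_lit 33457305768) (nat_lit 119) (nat_lit 5) (nat_lit 126) (nat_lit 5) (nat_lit 120) (nat_lit 5) (nat_lit 354) (nat_lit 327) (nat_lit 99)) (XT.nd (nat_lit 78) (nat_lit 0) (nat_lit 0) (XT.lf (nat_lit 0) (nat_lit 5874641900) (nat_lit 608) (nat_lit 37306969281) (nat_lit 76) (nat_lit 3931455949) (nat_lit 112) (nat_lit 5) (nat_lit 120) (nat_lit 5) (nat_lit 113) (nat_lit 5) (nat_lit 355) (nat_lit 327) (nat_lit 98)) (XT.lf (nat_lit 0) (nat_lit 10362425851) (nat_lit 608) (nat_lit 16561305166) (nat_lit 76) (nat_lit 21041831671) (nat_lit 112) (nat_lit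 5) (nat_lit 120) (nat_lit 5) (nat_lit 113) (nat_lit 5) (nat_lit 356) (nat_lit 327) (nat_lit 97)))) (XT.nd (nat_lit 78) (nat_lit 0) (nat_lit 0) (XT.lf (nat_lit 0) (nat_lit 4901037024) (nat_lit 456) (nat_lit 10129656835) (nat_lit 532) (nat_lit 33811566108) (nat_lit 106) (nat_lit 5) (nat_lit 112) (nat_lit 5) (nat_lit 113) (nat_lit 5) (nat_lit 357) (nat_lit 327) (nat_lit 96)) (XT.nd (nat_lit 78) (nat_lit 0) (nat_lit 0) (XT.lf (nat_lit 0) (nat_lit 20075570034) (nat_lit 532) (nat_lit 22465416745) (nat_lit 76) (nat_lit 7197176884) (nat_lit 106) (nat_lit 5) (nat_lit 113) (nat_lit 5) (nat_lit 107) (nat_lit 5) (nat_lit 358) (nat_lit 327) (nat_lit 95)) (XT.lf (nat_lit 0) (nat_lit 25370884286) (nat_lit 532) (nat_lit 446944913) (nat_lit 76) (nat_lit 24840144752) (nat_lit 106) (nat_lit 5) (nat_lit 113) (nat_lit 5) (nat_lit 107) (nat_lit 5) (nat_lit 359) (nat_lit 327) (nat_lit 94)))))) (XT.nd (nat_lit 468)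 (nat_lit 380) (nat_lit 0) (XT.nd (nat_lit 234) (nat_lit 456) (nat_lit 0) (XT.nd (nat_lit 78) (nat_lit 380) (nat_lit 0) (XT.lf (nat_lit 0) (nat_lit 22673241049) (nat_lit 456) (nat_lit 8368599144) (nat_lit 532) (nat_lit 20557037059) (nat_lit 100) (nat_lit 5) (nat_lit 106) (nat_lit 5) (nat_lit 107) (nat_lit 5) (nat_lit 360) (nat_lit 327) (nat_lit 93)) (XT.nd (nat_lit 78) (nat_lit 380) (nat_lit 0) (XT.lf (nat_lit 0) (nat_lit 36978657145) (nat_lit 532) (nat_lit 6165342393) (nat_lit 76) (nat_lit 9421138249) (nat_lit 100) (nat_lit 5) (nat_lit 107) (nat_lit 5) (nat_lit 101) (nat_lit 5) (nat_lit 361) (nat_lit 327) (nat_lit 92)) (XT.lf (nat_lit 0) (nat_lit 17535828417) (nat_lit 380) (nat_lit 25808059953) (nat_lit 456) (nat_lit 10208990523) (nat_lit 95) (nat_lit 5) (nat_lit 100) (nat_lit 5) (nat_lit 101) (nat_lit 5) (nat_lit 362) (nat_lit 327) (nat_lit 91)))) (XT.nd (nat_lit 78) (nat_lit 456) (nat_lit 0)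 (XT.lf (nat_lit 0) (nat_lit 42073168624) (nat_lit 380) (nat_lit 7888073415) (nat_lit 456) (nat_lit 4607177211) (nat_lit 95) (nat_lit 5) (nat_lit 100) (nat_lit 5) (nat_lit 101) (nat_lit 5) (nat_lit 363) (nat_lit 327) (nat_lit 90)) (XT.nd (nat_lit 78) (nat_lit 0) (nat_lit 0) (XT.lf (nat_lit 0) (nat_lit 1356676529) (nat_lit 456) (nat_lit 43760487425) (nat_lit 76) (nat_lit 10490428212) (nat_lit 89) (nat_lit 5) (nat_lit 95) (nat_lit 5) (nat_lit 90) (nat_lit 5) (nat_lit 364) (nat_lit 327) (nat_lit 89)) (XT.lf (nat_lit 0) (nat_lit 7611317643) (nat_lit 456) (nat_lit 19624504129) (nat_lit 76) (nat_lit 29434617703) (nat_lit 89) (nat_lit 5) (nat_lit 95) (nat_lit 5) (nat_lit 90) (nat_lit 5) (nat_lit 365) (nat_lit 327) (nat_lit 88))))) (XT.nd (nat_lit 37674) (nat_lit 0) (nat_lit 5700) (XT.nd (nat_lit 78) (nat_lit 0) (nat_lit 0) (XT.lf (nat_lit 0) (nat_lit 5338513153) (nat_lit 380) (nat_lit 8765377534) (nat_lit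 456) (nat_lit 43659774500) (nat_lit 84) (nat_lit 5) (nat_lit 89) (nat_lit 5) (nat_lit 90) (nat_lit 5) (nat_lit 366) (nat_lit 327) (nat_lit 87)) (XT.nd (nat_lit 78) (nat_lit 0) (nat_lit 0) (XT.lf (nat_lit 0) (nat_lit 21088981460) (nat_lit 456) (nat_lit 27532855281) (nat_lit 76) (nat_lit 10258920426) (nat_lit 84) (nat_lit 5) (nat_lit 90) (nat_lit 5) (nat_lit 85) (nat_lit 5) (nat_lit 367) (nat_lit 327) (nat_lit 86)) (XT.lf (nat_lit 0) (nat_lit 28369432175) (nat_lit 456) (nat_lit 1981776652) (nat_lit 76) (nat_lit 29677580527) (nat_lit 84) (nat_lit 5) (nat_lit 90) (nat_lit 5) (nat_lit 85) (nat_lit 5) (nat_lit 368) (nat_lit 327) (nat_lit 85)))) (XT.nd (nat_lit 78) (nat_lit 0) (nat_lit 0) (XT.lf (nat_lit 0) (nat_lit 11970783063) (nat_lit 1140) (nat_lit 1693792638) (nat_lit 1140) (nat_lit 1693792638) (nat_lit 159) (nat_lit 3) (nat_lit 174) (nat_lit 3) (nat_lit 174) (nat_lit 5) (nat_lit 328) (nat_lit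 328) (nat_lit 124)) (XT.nd (nat_lit 78) (nat_lit 0) (nat_lit 0) (XT.lf (nat_lit 76) (nat_lit 9794998310) (nat_lit 0) (nat_lit 14663033093) (nat_lit 1140) (nat_lit 6714597057) (nat_lit 160) (nat_lit 5) (nat_lit 159) (nat_lit 3) (nat_lit 174) (nat_lit 5) (nat_lit 329) (nat_lit 328) (nat_lit 123)) (XT.lf (nat_lit 76) (nat_lit 23441203559) (nat_lit 0) (nat_lit 1580516589) (nat_lit 1140) (nat_lit 6619530389) (nat_lit 160) (nat_lit 5) (nat_lit 159) (nat_lit 3) (nat_lit 174) (nat_lit 5) (nat_lit 330) (nat_lit 328) (nat_lit 122))))))))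
noncomputable def xc245 : XT := (XT.nd (nat_lit 1794) (nat_lit 3192) (nat_lit 0) (XT.nd (nat_lit 858) (nat_lit 1672) (nat_lit 0) (XT.nd (nat_lit 390) (nat_lit 912) (nat_lit 0) (XT.nd (nat_lit 156) (nat_lit 0) (nat_lit 76) (XT.nd (nat_lit 78) (nat_lit 0) (nat_lit 0) (XT.lf (nat_lit 76) (nat_lit 5361806178) (nat_lit 0) (nat_lit 20403996055) (nat_lit 1140) (nat_lit 6353229828) (nat_lit 161) (nat_lit 5) (nat_lit 160) (nat_lit 5) (nat_lit 175) (nat_lit 5) (nat_lit 331) (nat_lit 328) (nat_lit 121)) (XT.lf (nat_lit 76) (nat_lit 19481312268) (nat_lit 0) (nat_lit 7146855840) (nat_lit 1140) (nat_lit 5980105196) (nat_lit 161) (nat_lit 5) (nat_lit 160) (nat_lit 5) (nat_lit 175) (nat_lit 5) (nat_lit 332) (nat_lit 328) (nat_lit 120))) (XT.nd (nat_lit 78) (nat_lit 0) (nat_lit 0) (XT.lf (nat_lit 76) (nat_lit 865156203) (nat_lit 0) (nat_lit 26719863170) (nat_lit 1140) (nat_lit 5525118947) (nat_lit 162) (nat_lit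 5) (nat_lit 161) (nat_lit 5) (nat_lit 176) (nat_lit 5) (nat_lit 333) (nat_lit 328) (nat_lit 119)) (XT.nd (nat_lit 78) (nat_lit 0) (nat_lit 76) (XT.lf (nat_lit 76) (nat_lit 15472592082) (nat_lit 0) (nat_lit 13298399736) (nat_lit 1140) (nat_lit 4850059817) (nat_lit 162) (nat_lit 5) (nat_lit 161) (nat_lit 5) (nat_lit 176) (nat_lit 5) (nat_lit 334) (nat_lit 328) (nat_lit 118)) (XT.lf (nat_lit 0) (nat_lit 29995460901) (nat_lit 1064) (nat_lit 3635497305) (nat_lit 1140) (nat_lit 516251300) (nat_lit 162) (nat_lit 5) (nat_lit 176) (nat_lit 5) (nat_lit 177) (nat_lit 5) (nat_lit 335) (nat_lit 328) (nat_lit 117))))) (XT.nd (nat_lit 234) (nat_lit 1064) (nat_lit 0) (XT.nd (nat_lit 78) (nat_lit 0) (nat_lit 0) (XT.lf (nat_lit 76) (nat_lit 11402325203) (nat_lit 0) (nat_lit 20093538555) (nat_lit 1140) (nat_lit 3186116909) (nat_lit 163) (nat_lit 5) (nat_lit 162) (nat_lit 5) (nat_lit 177) (nat_lit 5) (nat_lit 336)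 (nat_lit 328) (nat_lit 116)) (XT.nd (nat_lit 78) (nat_lit 0) (nat_lit 76) (XT.lf (nat_lit 76) (nat_lit 26964458151) (nat_lit 0) (nat_lit 6111505637) (nat_lit 1140) (nat_lit 2155795032) (nat_lit 163) (nat_lit 5) (nat_lit 162) (nat_lit 5) (nat_lit 177) (nat_lit 5) (nat_lit 337) (nat_lit 328) (nat_lit 115)) (XT.lf (nat_lit 76) (nat_lit 7255947273) (nat_lit 0) (nat_lit 27594995626) (nat_lit 1140) (nat_lit 942667420) (nat_lit 164) (nat_lit 5) (nat_lit 163) (nat_lit 5) (nat_lit 178) (nat_lit 5) (nat_lit 338) (nat_lit 328) (nat_lit 114)))) (XT.nd (nat_lit 78) (nat_lit 0) (nat_lit 76) (XT.lf (nat_lit 0) (nat_lit 443746219) (nat_lit 1140) (nat_lit 13021142691) (nat_lit 1216) (nat_lit 22903057598) (nat_lit 148) (nat_lit 5) (nat_lit 163) (nat_lit 5) (nat_lit 164) (nat_lit 5) (nat_lit 339) (nat_lit 328) (nat_lit 113)) (XT.nd (nat_lit 78) (nat_lit 0) (nat_lit 0) (XT.lf (nat_lit 0) (nat_lit 1890698373) (nat_lit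 1140) (nat_lit 33960391239) (nat_lit 1216) (nat_lit 1107010308) (nat_lit 149) (nat_lit 5) (nat_lit 164) (nat_lit 5) (nat_lit 165) (nat_lit 5) (nat_lit 340) (nat_lit 328) (nat_lit 112)) (XT.lf (nat_lit 0) (nat_lit 3645327716) (nat_lit 1140) (nat_lit 17934001826) (nat_lit 1216) (nat_lit 15978704136) (nat_lit 149) (nat_lit 5) (nat_lit 164) (nat_lit 5) (nat_lit 165) (nat_lit 5) (nat_lit 341) (nat_lit 328) (nat_lit 111)))))) (XT.nd (nat_lit 468) (nat_lit 1064) (nat_lit 0) (XT.nd (nat_lit 234) (nat_lit 684) (nat_lit 0) (XT.nd (nat_lit 78) (nat_lit 0) (nat_lit 76) (XT.lf (nat_lit 0) (nat_lit 5450812466) (nat_lit 1140) (nat_lit 1428196650) (nat_lit 1216) (nat_lit 31297013535) (nat_lit 149) (nat_lit 5) (nat_lit 164) (nat_lit 5) (nat_lit 165) (nat_lit 5) (nat_lit 342) (nat_lit 328) (nat_lit 110)) (XT.nd (nat_lit 78) (nat_lit 0) (nat_lit 0) (XT.lf (nat_lit 0) (nat_lit 7542329257) (nat_lit 1140) (nat_lit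 23007615608) (nat_lit 1216) (nat_lit 8255653988) (nat_lit 150) (nat_lit 5) (nat_lit 165) (nat_lit 5) (nat_lit 166) (nat_lit 5) (nat_lit 343) (nat_lit 328) (nat_lit 109)) (XT.lf (nat_lit 0) (nat_lit 9777575087) (nat_lit 1140) (nat_lit 5953036915) (nat_lit 1216) (nat_lit 23721024315) (nat_lit 150) (nat_lit 5) (nat_lit 165) (nat_lit 5) (nat_lit 166) (nat_lit 5) (nat_lit 344) (nat_lit 328) (nat_lit 108)))) (XT.nd (nat_lit 78) (nat_lit 760) (nat_lit 0) (XT.lf (nat_lit 76) (nat_lit 11842937099) (nat_lit 0) (nat_lit 349141736) (nat_lit 1216) (nat_lit 27921613435) (nat_lit 151) (nat_lit 5) (nat_lit 150) (nat_lit 5) (nat_lit 166) (nat_lit 5) (nat_lit 345) (nat_lit 328) (nat_lit 107)) (XT.nd (nat_lit 78) (nat_lit 836) (nat_lit 0) (XT.lf (nat_lit 0) (nat_lit 14887059210) (nat_lit 1140) (nat_lit 10649896933) (nat_lit 76) (nat_lit 15252415795) (nat_lit 151) (nat_lit 5) (nat_lit 166) (nat_lit 5) (nat_lit 152)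 (nat_lit 5) (nat_lit 346) (nat_lit 328) (nat_lit 106)) (XT.lf (nat_lit 0) (nat_lit 7643950037) (nat_lit 836) (nat_lit 10094317533) (nat_lit 912) (nat_lit 23744796257) (nat_lit 140) (nat_lit 5) (nat_lit 151) (nat_lit 5) (nat_lit 152) (nat_lit 5) (nat_lit 347) (nat_lit 328) (nat_lit 105))))) (XT.nd (nat_lit 234) (nat_lit 532) (nat_lit 0) (XT.nd (nat_lit 78) (nat_lit 532) (nat_lit 0) (XT.lf (nat_lit 0) (nat_lit 20837962557) (nat_lit 912) (nat_lit 15547723469) (nat_lit 76) (nat_lit 5806995028) (nat_lit 140) (nat_lit 5) (nat_lit 152) (nat_lit 5) (nat_lit 141) (nat_lit 5) (nat_lit 348) (nat_lit 328) (nat_lit 104)) (XT.nd (nat_lit 78) (nat_lit 0) (nat_lit 0) (XT.lf (nat_lit 0) (nat_lit 3254635937) (nat_lit 532) (nat_lit 20905763938) (nat_lit 608) (nat_lit 18759297384) (nat_lit 133) (nat_lit 5) (nat_lit 140) (nat_lit 5) (nat_lit 141) (nat_lit 5) (nat_lit 349) (nat_lit 328) (nat_lit 103)) (XT.lf (nat_lit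 0) (nat_lit 22938453781) (nat_lit 532) (nat_lit 4799610548) (nat_lit 608) (nat_lit 15925795916) (nat_lit 133) (nat_lit 5) (nat_lit 140) (nat_lit 5) (nat_lit 141) (nat_lit 5) (nat_lit 350) (nat_lit 328) (nat_lit 102)))) (XT.nd (nat_lit 78) (nat_lit 532) (nat_lit 0) (XT.lf (nat_lit 0) (nat_lit 31534984584) (nat_lit 608) (nat_lit 1332224992) (nat_lit 76) (nat_lit 11559783600) (nat_lit 133) (nat_lit 5) (nat_lit 141) (nat_lit 5) (nat_lit 134) (nat_lit 5) (nat_lit 351) (nat_lit 328) (nat_lit 101)) (XT.nd (nat_lit 78) (nat_lit 0) (nat_lit 0) (XT.lf (nat_lit 0) (nat_lit 18963992694) (nat_lit 532) (nat_lit 16710270840) (nat_lit 608) (nat_lit 9531905777) (nat_lit 126) (nat_lit 5) (nat_lit 133) (nat_lit 5) (nat_lit 134) (nat_lit 5) (nat_lit 352) (nat_lit 328) (nat_lit 100)) (XT.lf (nat_lit 0) (nat_lit 39895124771) (nat_lit 532) (nat_lit 54713026) (nat_lit 608) (nat_lit 6058522094) (nat_lit 126) (nat_lit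 5) (nat_lit 133) (nat_lit 5) (nat_lit 134) (nat_lit 5) (nat_lit 353) (nat_lit 328) (nat_lit 99))))))) (XT.nd (nat_lit 936) (nat_lit 380) (nat_lit 0) (XT.nd (nat_lit 468) (nat_lit 1292) (nat_lit 0) (XT.nd (nat_lit 234) (nat_lit 456) (nat_lit 0) (XT.nd (nat_lit 78) (nat_lit 608) (nat_lit 0) (XT.lf (nat_lit 0) (nat_lit 14741569017) (nat_lit 456) (nat_lit 29916899331) (nat_lit 532) (nat_lit 2167006760) (nat_lit 120) (nat_lit 5) (nat_lit 126) (nat_lit 5) (nat_lit 127) (nat_lit 5) (nat_lit 354) (nat_lit 328) (nat_lit 98)) (XT.nd (nat_lit 78) (nat_lit 532) (nat_lit 0) (XT.lf (nat_lit 0) (nat_lit 1866923112) (nat_lit 532) (nat_lit 11338072965) (nat_lit 76) (nat_lit 34459731212) (nat_lit 119) (nat_lit 5) (nat_lit 126) (nat_lit 5) (nat_lit 120) (nat_lit 5) (nat_lit 355) (nat_lit 328) (nat_lit 97)) (XT.lf (nat_lit 0) (nat_lit 6114893120) (nat_lit 608) (nat_lit 38358740228) (nat_lit 76) (nat_lit 4050785085)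 (nat_lit 112) (nat_lit 5) (nat_lit 120) (nat_lit 5) (nat_lit 113) (nat_lit 5) (nat_lit 356) (nat_lit 328) (nat_lit 96)))) (XT.nd (nat_lit 78) (nat_lit 456) (nat_lit 0) (XT.lf (nat_lit 0) (nat_lit 10735446164) (nat_lit 608) (nat_lit 16992670407) (nat_lit 76) (nat_lit 21674431725) (nat_lit 112) (nat_lit 5) (nat_lit 120) (nat_lit 5) (nat_lit 113) (nat_lit 5) (nat_lit 357) (nat_lit 328) (nat_lit 95)) (XT.nd (nat_lit 78) (nat_lit 0) (nat_lit 0) (XT.lf (nat_lit 0) (nat_lit 5112900148) (nat_lit 456) (nat_lit 10429675147) (nat_lit 532) (nat_lit 34763010210) (nat_lit 106) (nat_lit 5) (nat_lit 112) (nat_lit 5) (nat_lit 113) (nat_lit 5) (nat_lit 358) (nat_lit 328) (nat_lit 94)) (XT.lf (nat_lit 0) (nat_lit 20737058333) (nat_lit 532) (nat_lit 23074585985) (nat_lit 76) (nat_lit 7416777480) (nat_lit 106) (nat_lit 5) (nat_lit 113) (nat_lit 5) (nat_lit 107) (nat_lit 5) (nat_lit 359) (nat_lit 328) (nat_lit 93)))))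 (XT.nd (nat_lit 234) (nat_lit 836) (nat_lit 0) (XT.nd (nat_lit 78) (nat_lit 456) (nat_lit 0) (XT.lf (nat_lit 0) (nat_lit 26189507123) (nat_lit 532) (nat_lit 397447180) (nat_lit 76) (nat_lit 25588927046) (nat_lit 106) (nat_lit 5) (nat_lit 113) (nat_lit 5) (nat_lit 107) (nat_lit 5) (nat_lit 360) (nat_lit 328) (nat_lit 92)) (XT.nd (nat_lit 78) (nat_lit 0) (nat_lit 0) (XT.lf (nat_lit 0) (nat_lit 23415727635) (nat_lit 456) (nat_lit 8613788186) (nat_lit 532) (nat_lit 21115531319) (nat_lit 100) (nat_lit 5) (nat_lit 106) (nat_lit 5) (nat_lit 107) (nat_lit 5) (nat_lit 361) (nat_lit 328) (nat_lit 91)) (XT.lf (nat_lit 0) (nat_lit 38142848741) (nat_lit 532) (nat_lit 6288138230) (nat_lit 76) (nat_lit 9709359201) (nat_lit 100) (nat_lit 5) (nat_lit 107) (nat_lit 5) (nat_lit 101) (nat_lit 5) (nat_lit 362) (nat_lit 328) (nat_lit 90)))) (XT.nd (nat_lit 78) (nat_lit 456) (nat_lit 0) (XT.lf (nat_lit 0) (nat_lit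 18123458249) (nat_lit 380) (nat_lit 26574573312) (nat_lit 456) (nat_lit 10459721044) (nat_lit 95) (nat_lit 5) (nat_lit 100) (nat_lit 5) (nat_lit 101) (nat_lit 5) (nat_lit 363) (nat_lit 328) (nat_lit 89)) (XT.nd (nat_lit 78) (nat_lit 456) (nat_lit 0) (XT.lf (nat_lit 0) (nat_lit 43395125799) (nat_lit 380) (nat_lit 8117212279) (nat_lit 456) (nat_lit 4691470979) (nat_lit 95) (nat_lit 5) (nat_lit 100) (nat_lit 5) (nat_lit 101) (nat_lit 5) (nat_lit 364) (nat_lit 328) (nat_lit 88)) (XT.lf (nat_lit 0) (nat_lit 1449366765) (nat_lit 456) (nat_lit 45011426531) (nat_lit 76) (nat_lit 10813377384) (nat_lit 89) (nat_lit 5) (nat_lit 95) (nat_lit 5) (nat_lit 90) (nat_lit 5) (nat_lit 365) (nat_lit 328) (nat_lit 87)))))) (XT.nd (nat_lit 37986) (nat_lit 0) (nat_lit 5776) (XT.nd (nat_lit 37752) (nat_lit 0) (nat_lit 5700) (XT.nd (nat_lit 78) (nat_lit 380) (nat_lit 0) (XT.lf (nat_lit 0) (nat_lit 7890132842) (nat_lit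 456) (nat_lit 20153165935) (nat_lit 76) (nat_lit 30325652667) (nat_lit 89) (nat_lit 5) (nat_lit 95) (nat_lit 5) (nat_lit 90) (nat_lit 5) (nat_lit 366) (nat_lit 328) (nat_lit 86)) (XT.nd (nat_lit 78) (nat_lit 0) (nat_lit 0) (XT.lf (nat_lit 0) (nat_lit 5558152911) (nat_lit 380) (nat_lit 9018431801) (nat_lit 456) (nat_lit 44918418699) (nat_lit 84) (nat_lit 5) (nat_lit 89) (nat_lit 5) (nat_lit 90) (nat_lit 5) (nat_lit 367) (nat_lit 328) (nat_lit 85)) (XT.lf (nat_lit 0) (nat_lit 21769876669) (nat_lit 456) (nat_lit 28299655636) (nat_lit 76) (nat_lit 10576118851) (nat_lit 84) (nat_lit 5) (nat_lit 90) (nat_lit 5) (nat_lit 85) (nat_lit 5) (nat_lit 368) (nat_lit 328) (nat_lit 84)))) (XT.nd (nat_lit 78) (nat_lit 0) (nat_lit 0) (XT.lf (nat_lit 0) (nat_lit 12392485440) (nat_lit 1140) (nat_lit 1712309452) (nat_lit 1140) (nat_lit 1712309452) (nat_lit 159) (nat_lit 3) (nat_lit 174) (nat_lit 3) (nat_lit 174)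 (nat_lit 5) (nat_lit 329) (nat_lit 329) (nat_lit 122)) (XT.nd (nat_lit 78) (nat_lit 0) (nat_lit 0) (XT.lf (nat_lit 76) (nat_lit 10152808915) (nat_lit 0) (nat_lit 15161090657) (nat_lit 1140) (nat_lit 6789976589) (nat_lit 160) (nat_lit 5) (nat_lit 159) (nat_lit 3) (nat_lit 174) (nat_lit 5) (nat_lit 330) (nat_lit 329) (nat_lit 121)) (XT.lf (nat_lit 76) (nat_lit 24206537390) (nat_lit 0) (nat_lit 1684404485) (nat_lit 1140) (nat_lit 6695729523) (nat_lit 160) (nat_lit 5) (nat_lit 159) (nat_lit 3) (nat_lit 174) (nat_lit 5) (nat_lit 331) (nat_lit 329) (nat_lit 120))))) (XT.nd (nat_lit 234) (nat_lit 0) (nat_lit 76) (XT.nd (nat_lit 78) (nat_lit 0) (nat_lit 0) (XT.lf (nat_lit 76) (nat_lit 5588466048) (nat_lit 0) (nat_lit 21065532404) (nat_lit 1140) (nat_lit 6424895915) (nat_lit 161) (nat_lit 5) (nat_lit 160) (nat_lit 5) (nat_lit 175) (nat_lit 5) (nat_lit 332) (nat_lit 329) (nat_lit 119)) (XT.nd (nat_lit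 78) (nat_lit 0) (nat_lit 76) (XT.lf (nat_lit 76) (nat_lit 20129640650) (nat_lit 0) (nat_lit 7409238669) (nat_lit 1140) (nat_lit 6044041548) (nat_lit 161) (nat_lit 5) (nat_lit 160) (nat_lit 5) (nat_lit 175) (nat_lit 5) (nat_lit 333) (nat_lit 329) (nat_lit 118)) (XT.lf (nat_lit 76) (nat_lit 958395540) (nat_lit 0) (nat_lit 27562981371) (nat_lit 1140) (nat_lit 5578563823) (nat_lit 162) (nat_lit 5) (nat_lit 161) (nat_lit 5) (nat_lit 176) (nat_lit 5) (nat_lit 334) (nat_lit 329) (nat_lit 117)))) (XT.nd (nat_lit 78) (nat_lit 0) (nat_lit 76) (XT.lf (nat_lit 76) (nat_lit 16002094748) (nat_lit 0) (nat_lit 13737664647) (nat_lit 1140) (nat_lit 4886524047) (nat_lit 162) (nat_lit 5) (nat_lit 161) (nat_lit 5) (nat_lit 176) (nat_lit 5) (nat_lit 335) (nat_lit 329) (nat_lit 116)) (XT.nd (nat_lit 78) (nat_lit 0) (nat_lit 0) (XT.lf (nat_lit 0) (nat_lit 30997509495) (nat_lit 1064) (nat_lit 3677463041) (nat_lit 1140)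 (nat_lit 493363821) (nat_lit 162) (nat_lit 5) (nat_lit 176) (nat_lit 5) (nat_lit 177) (nat_lit 5) (nat_lit 336) (nat_lit 329) (nat_lit 115)) (XT.lf (nat_lit 76) (nat_lit 11810836307) (nat_lit 0) (nat_lit 20729750551) (nat_lit 1140) (nat_lit 3178640444) (nat_lit 163) (nat_lit 5) (nat_lit 162) (nat_lit 5) (nat_lit 177) (nat_lit 5) (nat_lit 337) (nat_lit 329) (nat_lit 114))))))))
noncomputable def xc246 : XT := (XT.nd (nat_lit 1794) (nat_lit 1292) (nat_lit 0) (XT.nd (nat_lit 858) (nat_lit 2584) (nat_lit 0) (XT.nd (nat_lit 390) (nat_lit 608) (nat_lit 0) (XT.nd (nat_lit 156) (nat_lit 1064) (nat_lit 0) (XT.nd (nat_lit 78) (nat_lit 0) (nat_lit 76) (XT.lf (nat_lit 76) (nat_lit 27837898058) (nat_lit 0) (nat_lit 6327283659) (nat_lit 1140) (nat_lit 2120410658) (nat_lit 163) (nat_lit 5) (nat_lit 162) (nat_lit 5) (nat_lit 177) (nat_lit 5) (nat_lit 338) (nat_lit 329) (nat_lit 113)) (XT.lf (nat_lit 76) (nat_lit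 7540896777) (nat_lit 0) (nat_lit 28450033925) (nat_lit 1140) (nat_lit 873449248) (nat_lit 164) (nat_lit 5) (nat_lit 163) (nat_lit 5) (nat_lit 178) (nat_lit 5) (nat_lit 339) (nat_lit 329) (nat_lit 112))) (XT.nd (nat_lit 78) (nat_lit 0) (nat_lit 76) (XT.lf (nat_lit 0) (nat_lit 549869919) (nat_lit 1140) (nat_lit 13344424981) (nat_lit 1216) (nat_lit 23561712534) (nat_lit 148) (nat_lit 5) (nat_lit 163) (nat_lit 5) (nat_lit 164) (nat_lit 5) (nat_lit 340) (nat_lit 329) (nat_lit 111)) (XT.nd (nat_lit 78) (nat_lit 0) (nat_lit 0) (XT.lf (nat_lit 0) (nat_lit 2037937222) (nat_lit 1140) (nat_lit 34909370064) (nat_lit 1216) (nat_lit 1116632590) (nat_lit 149) (nat_lit 5) (nat_lit 164) (nat_lit 5) (nat_lit 165) (nat_lit 5) (nat_lit 341) (nat_lit 329) (nat_lit 110)) (XT.lf (nat_lit 0) (nat_lit 3842569002) (nat_lit 1140) (nat_lit 18404222937) (nat_lit 1216) (nat_lit 16435164263) (nat_lit 149) (nat_lit 5) (nat_lit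 164) (nat_lit 5) (nat_lit 165) (nat_lit 5) (nat_lit 342) (nat_lit 329) (nat_lit 109))))) (XT.nd (nat_lit 234) (nat_lit 684) (nat_lit 0) (XT.nd (nat_lit 78) (nat_lit 0) (nat_lit 76) (XT.lf (nat_lit 0) (nat_lit 5699658639) (nat_lit 1140) (nat_lit 1405218332) (nat_lit 1216) (nat_lit 32213689963) (nat_lit 149) (nat_lit 5) (nat_lit 164) (nat_lit 5) (nat_lit 165) (nat_lit 5) (nat_lit 343) (nat_lit 329) (nat_lit 108)) (XT.nd (nat_lit 78) (nat_lit 0) (nat_lit 0) (XT.lf (nat_lit 0) (nat_lit 7851886612) (nat_lit 1140) (nat_lit 23629813943) (nat_lit 1216) (nat_lit 8485396045) (nat_lit 150) (nat_lit 5) (nat_lit 165) (nat_lit 5) (nat_lit 166) (nat_lit 5) (nat_lit 344) (nat_lit 329) (nat_lit 107)) (XT.lf (nat_lit 0) (nat_lit 10151763969) (nat_lit 1140) (nat_lit 6065579350) (nat_lit 1216) (nat_lit 24415249643) (nat_lit 150) (nat_lit 5) (nat_lit 165) (nat_lit 5) (nat_lit 166) (nat_lit 5) (nat_lit 345) (nat_lit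 329) (nat_lit 106)))) (XT.nd (nat_lit 78) (nat_lit 760) (nat_lit 0) (XT.lf (nat_lit 76) (nat_lit 12263626349) (nat_lit 0) (nat_lit 373349963) (nat_lit 1216) (nat_lit 28677590929) (nat_lit 151) (nat_lit 5) (nat_lit 150) (nat_lit 5) (nat_lit 166) (nat_lit 5) (nat_lit 346) (nat_lit 329) (nat_lit 105)) (XT.nd (nat_lit 78) (nat_lit 836) (nat_lit 0) (XT.lf (nat_lit 0) (nat_lit 15410373018) (nat_lit 1140) (nat_lit 10903307479) (nat_lit 76) (nat_lit 15696914506) (nat_lit 151) (nat_lit 5) (nat_lit 166) (nat_lit 5) (nat_lit 152) (nat_lit 5) (nat_lit 347) (nat_lit 329) (nat_lit 104)) (XT.lf (nat_lit 0) (nat_lit 7938706995) (nat_lit 836) (nat_lit 10406805629) (nat_lit 912) (nat_lit 24379637749) (nat_lit 140) (nat_lit 5) (nat_lit 151) (nat_lit 5) (nat_lit 152) (nat_lit 5) (nat_lit 348) (nat_lit 329) (nat_lit 103)))))) (XT.nd (nat_lit 468) (nat_lit 1520) (nat_lit 0) (XT.nd (nat_lit 234) (nat_lit 532) (nat_lit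 0) (XT.nd (nat_lit 78) (nat_lit 532) (nat_lit 0) (XT.lf (nat_lit 0) (nat_lit 21535921028) (nat_lit 912) (nat_lit 15948197241) (nat_lit 76) (nat_lit 5972010611) (nat_lit 140) (nat_lit 5) (nat_lit 152) (nat_lit 5) (nat_lit 141) (nat_lit 5) (nat_lit 349) (nat_lit 329) (nat_lit 102)) (XT.nd (nat_lit 78) (nat_lit 0) (nat_lit 0) (XT.lf (nat_lit 0) (nat_lit 3417586300) (nat_lit 532) (nat_lit 21538952018) (nat_lit 608) (nat_lit 19248466358) (nat_lit 133) (nat_lit 5) (nat_lit 140) (nat_lit 5) (nat_lit 141) (nat_lit 5) (nat_lit 350) (nat_lit 329) (nat_lit 101)) (XT.lf (nat_lit 0) (nat_lit 23690016409) (nat_lit 532) (nat_lit 4949438827) (nat_lit 608) (nat_lit 16332103825) (nat_lit 133) (nat_lit 5) (nat_lit 140) (nat_lit 5) (nat_lit 141) (nat_lit 5) (nat_lit 351) (nat_lit 329) (nat_lit 100)))) (XT.nd (nat_lit 78) (nat_lit 532) (nat_lit 0) (XT.lf (nat_lit 0) (nat_lit 32548211636) (nat_lit 608) (nat_lit 1308422671)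 (nat_lit 76) (nat_lit 11901017881) (nat_lit 133) (nat_lit 5) (nat_lit 141) (nat_lit 5) (nat_lit 134) (nat_lit 5) (nat_lit 352) (nat_lit 329) (nat_lit 99)) (XT.nd (nat_lit 78) (nat_lit 0) (nat_lit 0) (XT.lf (nat_lit 0) (nat_lit 19596056359) (nat_lit 532) (nat_lit 17214262948) (nat_lit 608) (nat_lit 9749928736) (nat_lit 126) (nat_lit 5) (nat_lit 133) (nat_lit 5) (nat_lit 134) (nat_lit 5) (nat_lit 353) (nat_lit 329) (nat_lit 98)) (XT.lf (nat_lit 0) (nat_lit 41153283256) (nat_lit 532) (nat_lit 58960225) (nat_lit 608) (nat_lit 6174322209) (nat_lit 126) (nat_lit 5) (nat_lit 133) (nat_lit 5) (nat_lit 134) (nat_lit 5) (nat_lit 354) (nat_lit 329) (nat_lit 97))))) (XT.nd (nat_lit 234) (nat_lit 456) (nat_lit 0) (XT.nd (nat_lit 78) (nat_lit 608) (nat_lit 0) (XT.lf (nat_lit 0) (nat_lit 15246569554) (nat_lit 456) (nat_lit 30814280827) (nat_lit 532) (nat_lit 2167386178) (nat_lit 120) (nat_lit 5) (nat_lit 126)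 (nat_lit 5) (nat_lit 127) (nat_lit 5) (nat_lit 355) (nat_lit 329) (nat_lit 96)) (XT.nd (nat_lit 78) (nat_lit 532) (nat_lit 0) (XT.lf (nat_lit 0) (nat_lit 1984454694) (nat_lit 532) (nat_lit 11615948165) (nat_lit 76) (nat_lit 35492303685) (nat_lit 119) (nat_lit 5) (nat_lit 126) (nat_lit 5) (nat_lit 120) (nat_lit 5) (nat_lit 356) (nat_lit 329) (nat_lit 95)) (XT.lf (nat_lit 0) (nat_lit 6358677328) (nat_lit 608) (nat_lit 39445935528) (nat_lit 76) (nat_lit 4173614563) (nat_lit 112) (nat_lit 5) (nat_lit 120) (nat_lit 5) (nat_lit 113) (nat_lit 5) (nat_lit 357) (nat_lit 329) (nat_lit 94)))) (XT.nd (nat_lit 78) (nat_lit 456) (nat_lit 0) (XT.lf (nat_lit 0) (nat_lit 11116089563) (nat_lit 608) (nat_lit 17440735075) (nat_lit 76) (nat_lit 22325932566) (nat_lit 112) (nat_lit 5) (nat_lit 120) (nat_lit 5) (nat_lit 113) (nat_lit 5) (nat_lit 358) (nat_lit 329) (nat_lit 93)) (XT.nd (nat_lit 78) (nat_lit 0) (nat_lit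 0) (XT.lf (nat_lit 0) (nat_lit 5327397542) (nat_lit 456) (nat_lit 10738916242) (nat_lit 532) (nat_lit 35746608517) (nat_lit 106) (nat_lit 5) (nat_lit 112) (nat_lit 5) (nat_lit 113) (nat_lit 5) (nat_lit 359) (nat_lit 329) (nat_lit 92)) (XT.lf (nat_lit 0) (nat_lit 21414991742) (nat_lit 532) (nat_lit 23705749700) (nat_lit 76) (nat_lit 7642754543) (nat_lit 106) (nat_lit 5) (nat_lit 113) (nat_lit 5) (nat_lit 107) (nat_lit 5) (nat_lit 360) (nat_lit 329) (nat_lit 91))))))) (XT.nd (nat_lit 38610) (nat_lit 0) (nat_lit 4484) (XT.nd (nat_lit 468) (nat_lit 0) (nat_lit 0) (XT.nd (nat_lit 234) (nat_lit 836) (nat_lit 0) (XT.nd (nat_lit 78) (nat_lit 456) (nat_lit 0) (XT.lf (nat_lit 0) (nat_lit 27029388122) (nat_lit 532) (nat_lit 350075582) (nat_lit 76) (nat_lit 26359967420) (nat_lit 106) (nat_lit 5) (nat_lit 113) (nat_lit 5) (nat_lit 107) (nat_lit 5) (nat_lit 361) (nat_lit 329) (nat_lit 90)) (XT.nd (nat_lit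 78) (nat_lit 0) (nat_lit 0) (XT.lf (nat_lit 0) (nat_lit 24176913154) (nat_lit 456) (nat_lit 8866669801) (nat_lit 532) (nat_lit 21694122292) (nat_lit 100) (nat_lit 5) (nat_lit 106) (nat_lit 5) (nat_lit 107) (nat_lit 5) (nat_lit 362) (nat_lit 329) (nat_lit 89)) (XT.lf (nat_lit 0) (nat_lit 39338818511) (nat_lit 532) (nat_lit 6418186435) (nat_lit 76) (nat_lit 10005906075) (nat_lit 100) (nat_lit 5) (nat_lit 107) (nat_lit 5) (nat_lit 101) (nat_lit 5) (nat_lit 363) (nat_lit 329) (nat_lit 88)))) (XT.nd (nat_lit 78) (nat_lit 456) (nat_lit 0) (XT.lf (nat_lit 0) (nat_lit 18725183468) (nat_lit 380) (nat_lit 27364525717) (nat_lit 456) (nat_lit 10721161658) (nat_lit 95) (nat_lit 5) (nat_lit 100) (nat_lit 5) (nat_lit 101) (nat_lit 5) (nat_lit 364) (nat_lit 329) (nat_lit 87)) (XT.nd (nat_lit 78) (nat_lit 456) (nat_lit 0) (XT.lf (nat_lit 0) (nat_lit 44753311099) (nat_lit 380) (nat_lit 8353656031) (nat_lit 456)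 (nat_lit 4781388878) (nat_lit 95) (nat_lit 5) (nat_lit 100) (nat_lit 5) (nat_lit 101) (nat_lit 5) (nat_lit 365) (nat_lit 329) (nat_lit 86)) (XT.lf (nat_lit 0) (nat_lit 1541853272) (nat_lit 456) (nat_lit 46303445717) (nat_lit 76) (nat_lit 11145542233) (nat_lit 89) (nat_lit 5) (nat_lit 95) (nat_lit 5) (nat_lit 90) (nat_lit 5) (nat_lit 366) (nat_lit 329) (nat_lit 85))))) (XT.nd (nat_lit 37908) (nat_lit 0) (nat_lit 5320) (XT.nd (nat_lit 37752) (nat_lit 0) (nat_lit 5320) (XT.lf (nat_lit 0) (nat_lit 8174414987) (nat_lit 456) (nat_lit 20701136049) (nat_lit 76) (nat_lit 31242959653) (nat_lit 89) (nat_lit 5) (nat_lit 95) (nat_lit 5) (nat_lit 90) (nat_lit 5) (nat_lit 367) (nat_lit 329) (nat_lit 84)) (XT.nd (nat_lit 78) (nat_lit 0) (nat_lit 0) (XT.lf (nat_lit 0) (nat_lit 12823246603) (nat_lit 1140) (nat_lit 1733235749) (nat_lit 1140) (nat_lit 1733235749) (nat_lit 159) (nat_lit 3) (nat_lit 174) (nat_lit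 3) (nat_lit 174) (nat_lit 5) (nat_lit 330) (nat_lit 330) (nat_lit 120)) (XT.lf (nat_lit 76) (nat_lit 10517682236) (nat_lit 0) (nat_lit 15670750948) (nat_lit 1140) (nat_lit 6874853773) (nat_lit 160) (nat_lit 5) (nat_lit 159) (nat_lit 3) (nat_lit 174) (nat_lit 5) (nat_lit 331) (nat_lit 330) (nat_lit 119)))) (XT.nd (nat_lit 78) (nat_lit 0) (nat_lit 76) (XT.lf (nat_lit 76) (nat_lit 24991266573) (nat_lit 0) (nat_lit 1788167271) (nat_lit 1140) (nat_lit 6781240133) (nat_lit 160) (nat_lit 5) (nat_lit 159) (nat_lit 3) (nat_lit 174) (nat_lit 5) (nat_lit 332) (nat_lit 330) (nat_lit 118)) (XT.nd (nat_lit 78) (nat_lit 0) (nat_lit 0) (XT.lf (nat_lit 76) (nat_lit 5818148198) (nat_lit 0) (nat_lit 21744078137) (nat_lit 1140) (nat_lit 6505539099) (nat_lit 161) (nat_lit 5) (nat_lit 160) (nat_lit 5) (nat_lit 175) (nat_lit 5) (nat_lit 333) (nat_lit 330) (nat_lit 117)) (XT.lf (nat_lit 76) (nat_lit 20793751393) (nat_lit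 0) (nat_lit 7676738898) (nat_lit 1140) (nat_lit 6116524258) (nat_lit 161) (nat_lit 5) (nat_lit 160) (nat_lit 5) (nat_lit 175) (nat_lit 5) (nat_lit 334) (nat_lit 330) (nat_lit 116)))))) (XT.nd (nat_lit 468) (nat_lit 988) (nat_lit 0) (XT.nd (nat_lit 234) (nat_lit 0) (nat_lit 76) (XT.nd (nat_lit 78) (nat_lit 0) (nat_lit 0) (XT.lf (nat_lit 76) (nat_lit 1050569644) (nat_lit 0) (nat_lit 28429009568) (nat_lit 1140) (nat_lit 5640059024) (nat_lit 162) (nat_lit 5) (nat_lit 161) (nat_lit 5) (nat_lit 176) (nat_lit 5) (nat_lit 335) (nat_lit 330) (nat_lit 115)) (XT.nd (nat_lit 78) (nat_lit 0) (nat_lit 76) (XT.lf (nat_lit 76) (nat_lit 16543732578) (nat_lit 0) (nat_lit 14187793379) (nat_lit 1140) (nat_lit 4930341406) (nat_lit 162) (nat_lit 5) (nat_lit 161) (nat_lit 5) (nat_lit 176) (nat_lit 5) (nat_lit 336) (nat_lit 330) (nat_lit 114)) (XT.lf (nat_lit 0) (nat_lit 32023753724) (nat_lit 1064) (nat_lit 3724539517)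 (nat_lit 1140) (nat_lit 471992601) (nat_lit 162) (nat_lit 5) (nat_lit 176) (nat_lit 5) (nat_lit 177) (nat_lit 5) (nat_lit 337) (nat_lit 330) (nat_lit 113)))) (XT.nd (nat_lit 78) (nat_lit 0) (nat_lit 0) (XT.lf (nat_lit 76) (nat_lit 12227788739) (nat_lit 0) (nat_lit 21383131274) (nat_lit 1140) (nat_lit 3176855749) (nat_lit 163) (nat_lit 5) (nat_lit 162) (nat_lit 5) (nat_lit 177) (nat_lit 5) (nat_lit 338) (nat_lit 330) (nat_lit 112)) (XT.nd (nat_lit 78) (nat_lit 0) (nat_lit 76) (XT.lf (nat_lit 76) (nat_lit 28733838246) (nat_lit 0) (nat_lit 6547673244) (nat_lit 1140) (nat_lit 2089708504) (nat_lit 163) (nat_lit 5) (nat_lit 162) (nat_lit 5) (nat_lit 177) (nat_lit 5) (nat_lit 339) (nat_lit 330) (nat_lit 111)) (XT.lf (nat_lit 76) (nat_lit 7830533131) (nat_lit 0) (nat_lit 29329162647) (nat_lit 1140) (nat_lit 807751327) (nat_lit 164) (nat_lit 5) (nat_lit 163) (nat_lit 5) (nat_lit 178) (nat_lit 5) (nat_lit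 340) (nat_lit 330) (nat_lit 110))))) (XT.nd (nat_lit 234) (nat_lit 0) (nat_lit 76) (XT.nd (nat_lit 78) (nat_lit 0) (nat_lit 76) (XT.lf (nat_lit 0) (nat_lit 653849582) (nat_lit 1140) (nat_lit 13681272019) (nat_lit 1216) (nat_lit 24241759507) (nat_lit 148) (nat_lit 5) (nat_lit 163) (nat_lit 5) (nat_lit 164) (nat_lit 5) (nat_lit 341) (nat_lit 330) (nat_lit 109)) (XT.nd (nat_lit 78) (nat_lit 0) (nat_lit 0) (XT.lf (nat_lit 0) (nat_lit 2184397138) (nat_lit 1140) (nat_lit 35890826948) (nat_lit 1216) (nat_lit 1127897589) (nat_lit 149) (nat_lit 5) (nat_lit 164) (nat_lit 5) (nat_lit 165) (nat_lit 5) (nat_lit 342) (nat_lit 330) (nat_lit 108)) (XT.lf (nat_lit 0) (nat_lit 4040682771) (nat_lit 1140) (nat_lit 18892442619) (nat_lit 1216) (nat_lit 16906632805) (nat_lit 149) (nat_lit 5) (nat_lit 164) (nat_lit 5) (nat_lit 165) (nat_lit 5) (nat_lit 343) (nat_lit 330) (nat_lit 107)))) (XT.nd (nat_lit 78) (nat_lit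 0) (nat_lit 76) (XT.lf (nat_lit 0) (nat_lit 5951072378) (nat_lit 1140) (nat_lit 1385329244) (nat_lit 1216) (nat_lit 33159143005) (nat_lit 149) (nat_lit 5) (nat_lit 164) (nat_lit 5) (nat_lit 165) (nat_lit 5) (nat_lit 344) (nat_lit 330) (nat_lit 106)) (XT.nd (nat_lit 78) (nat_lit 0) (nat_lit 0) (XT.lf (nat_lit 0) (nat_lit 8165949647) (nat_lit 1140) (nat_lit 24274583436) (nat_lit 1216) (nat_lit 8723059479) (nat_lit 150) (nat_lit 5) (nat_lit 165) (nat_lit 5) (nat_lit 166) (nat_lit 5) (nat_lit 345) (nat_lit 330) (nat_lit 105)) (XT.lf (nat_lit 0) (nat_lit 10532536729) (nat_lit 1140) (nat_lit 6185289522) (nat_lit 1216) (nat_lit 25131300873) (nat_lit 150) (nat_lit 5) (nat_lit 165) (nat_lit 5) (nat_lit 166) (nat_lit 5) (nat_lit 346) (nat_lit 330) (nat_lit 104))))))))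
noncomputable def xc247 : XT := (XT.nd (nat_lit 39546) (nat_lit 0) (nat_lit 2812) (XT.nd (nat_lit 858) (nat_lit 2280) (nat_lit 0) (XT.nd (nat_lit 390) (nat_lit 1064) (nat_lit 0) (XT.nd (nat_lit 156) (nat_lit 1292) (nat_lit 0) (XT.nd (nat_lit 78) (nat_lit 0) (nat_lit 76) (XT.lf (nat_lit 76) (nat_lit 12693181983) (nat_lit 0) (nat_lit 397496051) (nat_lit 1216) (nat_lit 29460935993) (nat_lit 151) (nat_lit 5) (nat_lit 150) (nat_lit 5) (nat_lit 166) (nat_lit 5) (nat_lit 347) (nat_lit 330) (nat_lit 103)) (XT.lf (nat_lit 0) (nat_lit 15944983230) (nat_lit 1140) (nat_lit 11168113970) (nat_lit 76) (nat_lit 16155498666) (nat_lit 151) (nat_lit 5) (nat_lit 166) (nat_lit 5) (nat_lit 152) (nat_lit 5) (nat_lit 348) (nat_lit 330) (nat_lit 102))) (XT.nd (nat_lit 78) (nat_lit 532) (nat_lit 0) (XT.lf (nat_lit 0) (nat_lit 8238550226) (nat_lit 836) (nat_lit 10728113926) (nat_lit 912) (nat_lit 25037973440) (nat_lit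 140) (nat_lit 5) (nat_lit 151) (nat_lit 5) (nat_lit 152) (nat_lit 5) (nat_lit 349) (nat_lit 330) (nat_lit 101)) (XT.nd (nat_lit 78) (nat_lit 532) (nat_lit 0) (XT.lf (nat_lit 0) (nat_lit 22250638111) (nat_lit 912) (nat_lit 16364471482) (nat_lit 76) (nat_lit 6142504450) (nat_lit 140) (nat_lit 5) (nat_lit 152) (nat_lit 5) (nat_lit 141) (nat_lit 5) (nat_lit 350) (nat_lit 330) (nat_lit 100)) (XT.lf (nat_lit 0) (nat_lit 3581676040) (nat_lit 532) (nat_lit 22190790446) (nat_lit 608) (nat_lit 19756535913) (nat_lit 133) (nat_lit 5) (nat_lit 140) (nat_lit 5) (nat_lit 141) (nat_lit 5) (nat_lit 351) (nat_lit 330) (nat_lit 99))))) (XT.nd (nat_lit 234) (nat_lit 532) (nat_lit 0) (XT.nd (nat_lit 78) (nat_lit 532) (nat_lit 0) (XT.lf (nat_lit 0) (nat_lit 24460485980) (nat_lit 532) (nat_lit 5103426717) (nat_lit 608) (nat_lit 16754703410) (nat_lit 133) (nat_lit 5) (nat_lit 140) (nat_lit 5) (nat_lit 141) (nat_lit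 5) (nat_lit 352) (nat_lit 330) (nat_lit 98)) (XT.nd (nat_lit 78) (nat_lit 532) (nat_lit 0) (XT.lf (nat_lit 0) (nat_lit 33587979236) (nat_lit 608) (nat_lit 1287566886) (nat_lit 76) (nat_lit 12252808312) (nat_lit 133) (nat_lit 5) (nat_lit 141) (nat_lit 5) (nat_lit 134) (nat_lit 5) (nat_lit 353) (nat_lit 330) (nat_lit 97)) (XT.lf (nat_lit 0) (nat_lit 20243457216) (nat_lit 532) (nat_lit 17733220747) (nat_lit 608) (nat_lit 9978392086) (nat_lit 126) (nat_lit 5) (nat_lit 133) (nat_lit 5) (nat_lit 134) (nat_lit 5) (nat_lit 354) (nat_lit 330) (nat_lit 96)))) (XT.nd (nat_lit 78) (nat_lit 532) (nat_lit 0) (XT.lf (nat_lit 0) (nat_lit 42445667352) (nat_lit 532) (nat_lit 63185256) (nat_lit 608) (nat_lit 6297382446) (nat_lit 126) (nat_lit 5) (nat_lit 133) (nat_lit 5) (nat_lit 134) (nat_lit 5) (nat_lit 355) (nat_lit 330) (nat_lit 95)) (XT.nd (nat_lit 78) (nat_lit 76) (nat_lit 0) (XT.lf (nat_lit 0) (nat_lit 15763117802)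 (nat_lit 456) (nat_lit 31738590971) (nat_lit 532) (nat_lit 2171487050) (nat_lit 120) (nat_lit 5) (nat_lit 126) (nat_lit 5) (nat_lit 127) (nat_lit 5) (nat_lit 356) (nat_lit 330) (nat_lit 94)) (XT.lf (nat_lit 0) (nat_lit 2101980501) (nat_lit 532) (nat_lit 11905734001) (nat_lit 76) (nat_lit 36555923334) (nat_lit 119) (nat_lit 5) (nat_lit 126) (nat_lit 5) (nat_lit 120) (nat_lit 5) (nat_lit 357) (nat_lit 330) (nat_lit 93)))))) (XT.nd (nat_lit 468) (nat_lit 836) (nat_lit 0) (XT.nd (nat_lit 234) (nat_lit 456) (nat_lit 0) (XT.nd (nat_lit 78) (nat_lit 456) (nat_lit 0) (XT.lf (nat_lit 0) (nat_lit 6606311448) (nat_lit 608) (nat_lit 40569395688) (nat_lit 76) (nat_lit 4300053961) (nat_lit 112) (nat_lit 5) (nat_lit 120) (nat_lit 5) (nat_lit 113) (nat_lit 5) (nat_lit 358) (nat_lit 330) (nat_lit 92)) (XT.nd (nat_lit 78) (nat_lit 456) (nat_lit 0) (XT.lf (nat_lit 0) (nat_lit 11504789531) (nat_lit 608) (nat_lit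 17905784403) (nat_lit 76) (nat_lit 22996905651) (nat_lit 112) (nat_lit 5) (nat_lit 120) (nat_lit 5) (nat_lit 113) (nat_lit 5) (nat_lit 359) (nat_lit 330) (nat_lit 91)) (XT.lf (nat_lit 0) (nat_lit 5544821872) (nat_lit 456) (nat_lit 11057644046) (nat_lit 532) (nat_lit 36763118377) (nat_lit 106) (nat_lit 5) (nat_lit 112) (nat_lit 5) (nat_lit 113) (nat_lit 5) (nat_lit 360) (nat_lit 330) (nat_lit 90)))) (XT.nd (nat_lit 78) (nat_lit 456) (nat_lit 0) (XT.lf (nat_lit 0) (nat_lit 22110058762) (nat_lit 532) (nat_lit 24359354216) (nat_lit 76) (nat_lit 7875311512) (nat_lit 106) (nat_lit 5) (nat_lit 113) (nat_lit 5) (nat_lit 107) (nat_lit 5) (nat_lit 361) (nat_lit 330) (nat_lit 89)) (XT.nd (nat_lit 78) (nat_lit 456) (nat_lit 0) (XT.lf (nat_lit 0) (nat_lit 27891354492) (nat_lit 532) (nat_lit 304686611) (nat_lit 76) (nat_lit 27153945406) (nat_lit 106) (nat_lit 5) (nat_lit 113) (nat_lit 5) (nat_lit 107) (nat_lit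 5) (nat_lit 362) (nat_lit 330) (nat_lit 88)) (XT.lf (nat_lit 0) (nat_lit 24957563833) (nat_lit 456) (nat_lit 9127455425) (nat_lit 532) (nat_lit 22293221042) (nat_lit 100) (nat_lit 5) (nat_lit 106) (nat_lit 5) (nat_lit 107) (nat_lit 5) (nat_lit 363) (nat_lit 330) (nat_lit 87))))) (XT.nd (nat_lit 234) (nat_lit 456) (nat_lit 0) (XT.nd (nat_lit 78) (nat_lit 380) (nat_lit 0) (XT.lf (nat_lit 0) (nat_lit 40567700483) (nat_lit 532) (nat_lit 6555499733) (nat_lit 76) (nat_lit 10311047060) (nat_lit 100) (nat_lit 5) (nat_lit 107) (nat_lit 5) (nat_lit 101) (nat_lit 5) (nat_lit 364) (nat_lit 330) (nat_lit 86)) (XT.nd (nat_lit 78) (nat_lit 0) (nat_lit 0) (XT.lf (nat_lit 0) (nat_lit 19341629774) (nat_lit 380) (nat_lit 28178594870) (nat_lit 456) (nat_lit 10993450653) (nat_lit 95) (nat_lit 5) (nat_lit 100) (nat_lit 5) (nat_lit 101) (nat_lit 5) (nat_lit 365) (nat_lit 330) (nat_lit 85)) (XT.lf (nat_lit 0) (nat_lit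 46149008298) (nat_lit 380) (nat_lit 8597599092) (nat_lit 456) (nat_lit 4876921948) (nat_lit 95) (nat_lit 5) (nat_lit 100) (nat_lit 5) (nat_lit 101) (nat_lit 5) (nat_lit 366) (nat_lit 330) (nat_lit 84)))) (XT.nd (nat_lit 37830) (nat_lit 0) (nat_lit 5320) (XT.lf (nat_lit 0) (nat_lit 1634301259) (nat_lit 456) (nat_lit 47637573493) (nat_lit 76) (nat_lit 11487226369) (nat_lit 89) (nat_lit 5) (nat_lit 95) (nat_lit 5) (nat_lit 90) (nat_lit 5) (nat_lit 367) (nat_lit 330) (nat_lit 83)) (XT.nd (nat_lit 78) (nat_lit 0) (nat_lit 0) (XT.lf (nat_lit 0) (nat_lit 13263544530) (nat_lit 1140) (nat_lit 1756537386) (nat_lit 1140) (nat_lit 1756537386) (nat_lit 159) (nat_lit 3) (nat_lit 174) (nat_lit 3) (nat_lit 174) (nat_lit 5) (nat_lit 331) (nat_lit 331) (nat_lit 118)) (XT.lf (nat_lit 76) (nat_lit 10890040917) (nat_lit 0) (nat_lit 16192553721) (nat_lit 1140) (nat_lit 6969098148) (nat_lit 160) (nat_lit 5) (nat_lit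 159) (nat_lit 3) (nat_lit 174) (nat_lit 5) (nat_lit 332) (nat_lit 331) (nat_lit 117))))))) (XT.nd (nat_lit 936) (nat_lit 1672) (nat_lit 0) (XT.nd (nat_lit 468) (nat_lit 836) (nat_lit 0) (XT.nd (nat_lit 234) (nat_lit 0) (nat_lit 152) (XT.nd (nat_lit 78) (nat_lit 0) (nat_lit 76) (XT.lf (nat_lit 76) (nat_lit 25796177594) (nat_lit 0) (nat_lit 1891987284) (nat_lit 1140) (nat_lit 6875938271) (nat_lit 160) (nat_lit 5) (nat_lit 159) (nat_lit 3) (nat_lit 174) (nat_lit 5) (nat_lit 333) (nat_lit 331) (nat_lit 116)) (XT.nd (nat_lit 78) (nat_lit 0) (nat_lit 0) (XT.lf (nat_lit 76) (nat_lit 6051160142) (nat_lit 0) (nat_lit 22440306373) (nat_lit 1140) (nat_lit 6595036790) (nat_lit 161) (nat_lit 5) (nat_lit 160) (nat_lit 5) (nat_lit 175) (nat_lit 5) (nat_lit 334) (nat_lit 331) (nat_lit 115)) (XT.lf (nat_lit 76) (nat_lit 21474328496) (nat_lit 0) (nat_lit 7949668144) (nat_lit 1140) (nat_lit 6197429226) (nat_lit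 161) (nat_lit 5) (nat_lit 160) (nat_lit 5) (nat_lit 175) (nat_lit 5) (nat_lit 335) (nat_lit 331) (nat_lit 114)))) (XT.nd (nat_lit 78) (nat_lit 0) (nat_lit 0) (XT.lf (nat_lit 76) (nat_lit 1141868274) (nat_lit 0) (nat_lit 29318771887) (nat_lit 1140) (nat_lit 5709475977) (nat_lit 162) (nat_lit 5) (nat_lit 161) (nat_lit 5) (nat_lit 176) (nat_lit 5) (nat_lit 336) (nat_lit 331) (nat_lit 113)) (XT.nd (nat_lit 78) (nat_lit 0) (nat_lit 76) (XT.lf (nat_lit 76) (nat_lit 17098084887) (nat_lit 0) (nat_lit 14649244686) (nat_lit 1140) (nat_lit 4981373184) (nat_lit 162) (nat_lit 5) (nat_lit 161) (nat_lit 5) (nat_lit 176) (nat_lit 5) (nat_lit 337) (nat_lit 331) (nat_lit 112)) (XT.lf (nat_lit 0) (nat_lit 33075256178) (nat_lit 1064) (nat_lit 3776658948) (nat_lit 1140) (nat_lit 452056673) (nat_lit 162) (nat_lit 5) (nat_lit 176) (nat_lit 5) (nat_lit 177) (nat_lit 5) (nat_lit 338) (nat_lit 331) (nat_lit 111))))) (XT.nd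 (nat_lit 234) (nat_lit 1064) (nat_lit 0) (XT.nd (nat_lit 78) (nat_lit 0) (nat_lit 0) (XT.lf (nat_lit 76) (nat_lit 12653654678) (nat_lit 0) (nat_lit 22054305868) (nat_lit 1140) (nat_lit 3180593971) (nat_lit 163) (nat_lit 5) (nat_lit 162) (nat_lit 5) (nat_lit 177) (nat_lit 5) (nat_lit 339) (nat_lit 331) (nat_lit 110)) (XT.nd (nat_lit 78) (nat_lit 0) (nat_lit 76) (XT.lf (nat_lit 76) (nat_lit 29653166284) (nat_lit 0) (nat_lit 6772919611) (nat_lit 1140) (nat_lit 2063499322) (nat_lit 163) (nat_lit 5) (nat_lit 162) (nat_lit 5) (nat_lit 177) (nat_lit 5) (nat_lit 340) (nat_lit 331) (nat_lit 109)) (XT.lf (nat_lit 76) (nat_lit 8125218614) (nat_lit 0) (nat_lit 30233194095) (nat_lit 1140) (nat_lit 745357984) (nat_lit 164) (nat_lit 5) (nat_lit 163) (nat_lit 5) (nat_lit 178) (nat_lit 5) (nat_lit 341) (nat_lit 331) (nat_lit 108)))) (XT.nd (nat_lit 78) (nat_lit 0) (nat_lit 76) (XT.lf (nat_lit 0) (nat_lit 755926719)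 (nat_lit 1140) (nat_lit 14031868808) (nat_lit 1216) (nat_lit 24943746570) (nat_lit 148) (nat_lit 5) (nat_lit 163) (nat_lit 5) (nat_lit 164) (nat_lit 5) (nat_lit 342) (nat_lit 331) (nat_lit 107)) (XT.nd (nat_lit 78) (nat_lit 0) (nat_lit 0) (XT.lf (nat_lit 0) (nat_lit 2330353032) (nat_lit 1140) (nat_lit 36905506119) (nat_lit 1216) (nat_lit 1140776860) (nat_lit 149) (nat_lit 5) (nat_lit 164) (nat_lit 5) (nat_lit 165) (nat_lit 5) (nat_lit 343) (nat_lit 331) (nat_lit 106)) (XT.lf (nat_lit 0) (nat_lit 4239984787) (nat_lit 1140) (nat_lit 19398977414) (nat_lit 1216) (nat_lit 17393484549) (nat_lit 149) (nat_lit 5) (nat_lit 164) (nat_lit 5) (nat_lit 165) (nat_lit 5) (nat_lit 344) (nat_lit 331) (nat_lit 105)))))) (XT.nd (nat_lit 468) (nat_lit 1064) (nat_lit 0) (XT.nd (nat_lit 234) (nat_lit 684) (nat_lit 0) (XT.nd (nat_lit 78) (nat_lit 0) (nat_lit 76) (XT.lf (nat_lit 0) (nat_lit 6205411864) (nat_lit 1140)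 (nat_lit 1368405157) (nat_lit 1216) (nat_lit 34134162694) (nat_lit 149) (nat_lit 5) (nat_lit 164) (nat_lit 5) (nat_lit 165) (nat_lit 5) (nat_lit 345) (nat_lit 331) (nat_lit 104)) (XT.nd (nat_lit 78) (nat_lit 0) (nat_lit 0) (XT.lf (nat_lit 0) (nat_lit 8484927981) (nat_lit 1140) (nat_lit 24942377048) (nat_lit 1216) (nat_lit 8968822856) (nat_lit 150) (nat_lit 5) (nat_lit 165) (nat_lit 5) (nat_lit 166) (nat_lit 5) (nat_lit 346) (nat_lit 331) (nat_lit 103)) (XT.lf (nat_lit 0) (nat_lit 10920357341) (nat_lit 1140) (nat_lit 6312164817) (nat_lit 1216) (nat_lit 25869775426) (nat_lit 150) (nat_lit 5) (nat_lit 165) (nat_lit 5) (nat_lit 166) (nat_lit 5) (nat_lit 347) (nat_lit 331) (nat_lit 102)))) (XT.nd (nat_lit 78) (nat_lit 760) (nat_lit 0) (XT.lf (nat_lit 76) (nat_lit 13132085506) (nat_lit 0) (nat_lit 421623391) (nat_lit 1216) (nat_lit 30272200529) (nat_lit 151) (nat_lit 5) (nat_lit 150) (nat_lit 5) (nat_lit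 166) (nat_lit 5) (nat_lit 348) (nat_lit 331) (nat_lit 101)) (XT.nd (nat_lit 78) (nat_lit 836) (nat_lit 0) (XT.lf (nat_lit 0) (nat_lit 16491481488) (nat_lit 1140) (nat_lit 11444440512) (nat_lit 76) (nat_lit 16628547757) (nat_lit 151) (nat_lit 5) (nat_lit 166) (nat_lit 5) (nat_lit 152) (nat_lit 5) (nat_lit 349) (nat_lit 331) (nat_lit 100)) (XT.lf (nat_lit 0) (nat_lit 8543847953) (nat_lit 836) (nat_lit 11058538858) (nat_lit 912) (nat_lit 25720252769) (nat_lit 140) (nat_lit 5) (nat_lit 151) (nat_lit 5) (nat_lit 152) (nat_lit 5) (nat_lit 350) (nat_lit 331) (nat_lit 99))))) (XT.nd (nat_lit 234) (nat_lit 532) (nat_lit 0) (XT.nd (nat_lit 78) (nat_lit 532) (nat_lit 0) (XT.lf (nat_lit 0) (nat_lit 22982856520) (nat_lit 912) (nat_lit 16796802858) (nat_lit 76) (nat_lit 6318610595) (nat_lit 140) (nat_lit 5) (nat_lit 152) (nat_lit 5) (nat_lit 141) (nat_lit 5) (nat_lit 351) (nat_lit 331) (nat_lit 98)) (XT.nd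 (nat_lit 78) (nat_lit 0) (nat_lit 0) (XT.lf (nat_lit 0) (nat_lit 3747154552) (nat_lit 532) (nat_lit 22861858552) (nat_lit 608) (nat_lit 20283830506) (nat_lit 133) (nat_lit 5) (nat_lit 140) (nat_lit 5) (nat_lit 141) (nat_lit 5) (nat_lit 352) (nat_lit 331) (nat_lit 97)) (XT.lf (nat_lit 0) (nat_lit 25250638648) (nat_lit 532) (nat_lit 5261718250) (nat_lit 608) (nat_lit 17193847926) (nat_lit 133) (nat_lit 5) (nat_lit 140) (nat_lit 5) (nat_lit 141) (nat_lit 5) (nat_lit 353) (nat_lit 331) (nat_lit 96)))) (XT.nd (nat_lit 78) (nat_lit 532) (nat_lit 0) (XT.lf (nat_lit 0) (nat_lit 34655304965) (nat_lit 608) (nat_lit 1269535900) (nat_lit 76) (nat_lit 12615453260) (nat_lit 133) (nat_lit 5) (nat_lit 141) (nat_lit 5) (nat_lit 134) (nat_lit 5) (nat_lit 354) (nat_lit 331) (nat_lit 95)) (XT.nd (nat_lit 78) (nat_lit 0) (nat_lit 0) (XT.lf (nat_lit 0) (nat_lit 20906863455) (nat_lit 532) (nat_lit 18267602053) (nat_lit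 608) (nat_lit 10217385179) (nat_lit 126) (nat_lit 5) (nat_lit 133) (nat_lit 5) (nat_lit 134) (nat_lit 5) (nat_lit 355) (nat_lit 331) (nat_lit 94)) (XT.lf (nat_lit 0) (nat_lit 43773505841) (nat_lit 532) (nat_lit 67396040) (nat_lit 608) (nat_lit 6427703269) (nat_lit 126) (nat_lit 5) (nat_lit 133) (nat_lit 5) (nat_lit 134) (nat_lit 5) (nat_lit 356) (nat_lit 331) (nat_lit 93))))))))
noncomputable def xc248 : XT := (XT.nd (nat_lit 39702) (nat_lit 0) (nat_lit 380) (XT.nd (nat_lit 38766) (nat_lit 0) (nat_lit 4028) (XT.nd (nat_lit 390) (nat_lit 836) (nat_lit 0) (XT.nd (nat_lit 156) (nat_lit 988) (nat_lit 0) (XT.nd (nat_lit 78) (nat_lit 76) (nat_lit 0) (XT.lf (nat_lit 0) (nat_lit 16291766978) (nat_lit 456) (nat_lit 32690637209) (nat_lit 532) (nat_lit 2179208046) (nat_lit 120) (nat_lit 5) (nat_lit 126) (nat_lit 5) (nat_lit 127) (nat_lit 5) (nat_lit 357) (nat_lit 331) (nat_lit 92)) (XT.lf (nat_lit 0) (nat_lit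 2219703095) (nat_lit 532) (nat_lit 12207582608) (nat_lit 76) (nat_lit 37651517556) (nat_lit 119) (nat_lit 5) (nat_lit 126) (nat_lit 5) (nat_lit 120) (nat_lit 5) (nat_lit 358) (nat_lit 331) (nat_lit 91))) (XT.nd (nat_lit 78) (nat_lit 456) (nat_lit 0) (XT.lf (nat_lit 0) (nat_lit 6858109803) (nat_lit 608) (nat_lit 41729999185) (nat_lit 76) (nat_lit 4430215878) (nat_lit 112) (nat_lit 5) (nat_lit 120) (nat_lit 5) (nat_lit 113) (nat_lit 5) (nat_lit 359) (nat_lit 331) (nat_lit 90)) (XT.nd (nat_lit 78) (nat_lit 456) (nat_lit 0) (XT.lf (nat_lit 0) (nat_lit 11901980801) (nat_lit 608) (nat_lit 18388124563) (nat_lit 76) (nat_lit 23687939324) (nat_lit 112) (nat_lit 5) (nat_lit 120) (nat_lit 5) (nat_lit 113) (nat_lit 5) (nat_lit 360) (nat_lit 331) (nat_lit 89)) (XT.lf (nat_lit 0) (nat_lit 5765462318) (nat_lit 456) (nat_lit 11386131137) (nat_lit 532) (nat_lit 37813331755) (nat_lit 106) (nat_lit 5) (nat_lit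 112) (nat_lit 5) (nat_lit 113) (nat_lit 5) (nat_lit 361) (nat_lit 331) (nat_lit 88))))) (XT.nd (nat_lit 234) (nat_lit 380) (nat_lit 0) (XT.nd (nat_lit 78) (nat_lit 456) (nat_lit 0) (XT.lf (nat_lit 0) (nat_lit 22822957345) (nat_lit 532) (nat_lit 25035871505) (nat_lit 76) (nat_lit 8114657229) (nat_lit 106) (nat_lit 5) (nat_lit 113) (nat_lit 5) (nat_lit 107) (nat_lit 5) (nat_lit 362) (nat_lit 331) (nat_lit 87)) (XT.nd (nat_lit 78) (nat_lit 456) (nat_lit 0) (XT.lf (nat_lit 0) (nat_lit 28776247380) (nat_lit 532) (nat_lit 261144358) (nat_lit 76) (nat_lit 27971560246) (nat_lit 106) (nat_lit 5) (nat_lit 113) (nat_lit 5) (nat_lit 107) (nat_lit 5) (nat_lit 363) (nat_lit 331) (nat_lit 86)) (XT.lf (nat_lit 0) (nat_lit 25758457102) (nat_lit 456) (nat_lit 9396363949) (nat_lit 532) (nat_lit 22913261977) (nat_lit 100) (nat_lit 5) (nat_lit 106) (nat_lit 5) (nat_lit 107) (nat_lit 5) (nat_lit 364) (nat_lit 331)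 (nat_lit 85)))) (XT.nd (nat_lit 78) (nat_lit 380) (nat_lit 0) (XT.lf (nat_lit 0) (nat_lit 41830652335) (nat_lit 532) (nat_lit 6700102989) (nat_lit 76) (nat_lit 10625057332) (nat_lit 100) (nat_lit 5) (nat_lit 107) (nat_lit 5) (nat_lit 101) (nat_lit 5) (nat_lit 365) (nat_lit 331) (nat_lit 84)) (XT.nd (nat_lit 37986) (nat_lit 0) (nat_lit 4864) (XT.lf (nat_lit 0) (nat_lit 19973429994) (nat_lit 380) (nat_lit 29017480270) (nat_lit 456) (nat_lit 11276740972) (nat_lit 95) (nat_lit 5) (nat_lit 100) (nat_lit 5) (nat_lit 101) (nat_lit 5) (nat_lit 366) (nat_lit 331) (nat_lit 83)) (XT.lf (nat_lit 0) (nat_lit 13713859697) (nat_lit 1140) (nat_lit 1782185308) (nat_lit 1140) (nat_lit 1782185308) (nat_lit 159) (nat_lit 3) (nat_lit 174) (nat_lit 3) (nat_lit 174) (nat_lit 5) (nat_lit 332) (nat_lit 332) (nat_lit 116)))))) (XT.nd (nat_lit 468) (nat_lit 836) (nat_lit 0) (XT.nd (nat_lit 234) (nat_lit 0) (nat_lit 76)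 (XT.nd (nat_lit 78) (nat_lit 0) (nat_lit 0) (XT.lf (nat_lit 76) (nat_lit 11270308187) (nat_lit 0) (nat_lit 16727043919) (nat_lit 1140) (nat_lit 7072599183) (nat_lit 160) (nat_lit 5) (nat_lit 159) (nat_lit 3) (nat_lit 174) (nat_lit 5) (nat_lit 333) (nat_lit 332) (nat_lit 115)) (XT.nd (nat_lit 78) (nat_lit 0) (nat_lit 76) (XT.lf (nat_lit 76) (nat_lit 26622068788) (nat_lit 0) (nat_lit 1996041647) (nat_lit 1140) (nat_lit 6979719420) (nat_lit 160) (nat_lit 5) (nat_lit 159) (nat_lit 3) (nat_lit 174) (nat_lit 5) (nat_lit 334) (nat_lit 332) (nat_lit 114)) (XT.lf (nat_lit 76) (nat_lit 6287806171) (nat_lit 0) (nat_lit 23154901078) (nat_lit 1140) (nat_lit 6693285214) (nat_lit 161) (nat_lit 5) (nat_lit 160) (nat_lit 5) (nat_lit 175) (nat_lit 5) (nat_lit 335) (nat_lit 332) (nat_lit 113)))) (XT.nd (nat_lit 78) (nat_lit 0) (nat_lit 76) (XT.lf (nat_lit 76) (nat_lit 22172064395) (nat_lit 0) (nat_lit 8228338299)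 (nat_lit 1140) (nat_lit 6286650473) (nat_lit 161) (nat_lit 5) (nat_lit 160) (nat_lit 5) (nat_lit 175) (nat_lit 5) (nat_lit 336) (nat_lit 332) (nat_lit 112)) (XT.nd (nat_lit 78) (nat_lit 0) (nat_lit 0) (XT.lf (nat_lit 76) (nat_lit 1232474159) (nat_lit 0) (nat_lit 30233109321) (nat_lit 1140) (nat_lit 5786703495) (nat_lit 162) (nat_lit 5) (nat_lit 161) (nat_lit 5) (nat_lit 176) (nat_lit 5) (nat_lit 337) (nat_lit 332) (nat_lit 111)) (XT.lf (nat_lit 76) (nat_lit 17665736012) (nat_lit 0) (nat_lit 15122483462) (nat_lit 1140) (nat_lit 5039497135) (nat_lit 162) (nat_lit 5) (nat_lit 161) (nat_lit 5) (nat_lit 176) (nat_lit 5) (nat_lit 338) (nat_lit 332) (nat_lit 110))))) (XT.nd (nat_lit 234) (nat_lit 1064) (nat_lit 0) (XT.nd (nat_lit 78) (nat_lit 0) (nat_lit 0) (XT.lf (nat_lit 0) (nat_lit 34153091997) (nat_lit 1064) (nat_lit 3833764207) (nat_lit 1140) (nat_lit 433479899) (nat_lit 162) (nat_lit 5) (nat_lit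 176) (nat_lit 5) (nat_lit 177) (nat_lit 5) (nat_lit 339) (nat_lit 332) (nat_lit 109)) (XT.nd (nat_lit 78) (nat_lit 0) (nat_lit 0) (XT.lf (nat_lit 76) (nat_lit 13088907901) (nat_lit 0) (nat_lit 22743911908) (nat_lit 1140) (nat_lit 3189700686) (nat_lit 163) (nat_lit 5) (nat_lit 162) (nat_lit 5) (nat_lit 177) (nat_lit 5) (nat_lit 340) (nat_lit 332) (nat_lit 108)) (XT.lf (nat_lit 76) (nat_lit 30596784168) (nat_lit 0) (nat_lit 7003269204) (nat_lit 1140) (nat_lit 2041607113) (nat_lit 163) (nat_lit 5) (nat_lit 162) (nat_lit 5) (nat_lit 177) (nat_lit 5) (nat_lit 341) (nat_lit 332) (nat_lit 107)))) (XT.nd (nat_lit 78) (nat_lit 1140) (nat_lit 0) (XT.lf (nat_lit 76) (nat_lit 8425313648) (nat_lit 0) (nat_lit 31162959801) (nat_lit 1140) (nat_lit 686065521) (nat_lit 164) (nat_lit 5) (nat_lit 163) (nat_lit 5) (nat_lit 178) (nat_lit 5) (nat_lit 342) (nat_lit 332) (nat_lit 106)) (XT.nd (nat_lit 78) (nat_lit 0)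 (nat_lit 76) (XT.lf (nat_lit 0) (nat_lit 856332535) (nat_lit 1140) (nat_lit 14396418640) (nat_lit 1216) (nat_lit 25668243602) (nat_lit 148) (nat_lit 5) (nat_lit 163) (nat_lit 5) (nat_lit 164) (nat_lit 5) (nat_lit 343) (nat_lit 332) (nat_lit 105)) (XT.lf (nat_lit 0) (nat_lit 2476070937) (nat_lit 1140) (nat_lit 37954187338) (nat_lit 1216) (nat_lit 1155245565) (nat_lit 149) (nat_lit 5) (nat_lit 164) (nat_lit 5) (nat_lit 165) (nat_lit 5) (nat_lit 344) (nat_lit 332) (nat_lit 104))))))) (XT.nd (nat_lit 858) (nat_lit 2508) (nat_lit 0) (XT.nd (nat_lit 390) (nat_lit 1216) (nat_lit 0) (XT.nd (nat_lit 156) (nat_lit 0) (nat_lit 76) (XT.nd (nat_lit 78) (nat_lit 0) (nat_lit 0) (XT.lf (nat_lit 0) (nat_lit 4440783665) (nat_lit 1140) (nat_lit 19924166188) (nat_lit 1216) (nat_lit 17896109861) (nat_lit 149) (nat_lit 5) (nat_lit 164) (nat_lit 5) (nat_lit 165) (nat_lit 5) (nat_lit 345) (nat_lit 332) (nat_lit 103))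 (XT.lf (nat_lit 0) (nat_lit 6463029884) (nat_lit 1140) (nat_lit 1354330566) (nat_lit 1216) (nat_lit 35139566968) (nat_lit 149) (nat_lit 5) (nat_lit 164) (nat_lit 5) (nat_lit 165) (nat_lit 5) (nat_lit 346) (nat_lit 332) (nat_lit 102))) (XT.nd (nat_lit 78) (nat_lit 0) (nat_lit 0) (XT.lf (nat_lit 0) (nat_lit 8809227772) (nat_lit 1140) (nat_lit 25633674194) (nat_lit 1216) (nat_lit 9222873490) (nat_lit 150) (nat_lit 5) (nat_lit 165) (nat_lit 5) (nat_lit 166) (nat_lit 5) (nat_lit 347) (nat_lit 332) (nat_lit 101)) (XT.nd (nat_lit 78) (nat_lit 0) (nat_lit 0) (XT.lf (nat_lit 0) (nat_lit 11315688402) (nat_lit 1140) (nat_lit 6446215038) (nat_lit 1216) (nat_lit 26631291940) (nat_lit 150) (nat_lit 5) (nat_lit 165) (nat_lit 5) (nat_lit 166) (nat_lit 5) (nat_lit 348) (nat_lit 332) (nat_lit 100)) (XT.lf (nat_lit 76) (nat_lit 13580820493) (nat_lit 0) (nat_lit 445774081) (nat_lit 1216) (nat_lit 31111968445) (nat_lit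 151) (nat_lit 5) (nat_lit 150) (nat_lit 5) (nat_lit 166) (nat_lit 5) (nat_lit 349) (nat_lit 332) (nat_lit 99))))) (XT.nd (nat_lit 234) (nat_lit 532) (nat_lit 0) (XT.nd (nat_lit 78) (nat_lit 836) (nat_lit 0) (XT.lf (nat_lit 0) (nat_lit 17050462676) (nat_lit 1140) (nat_lit 11732427440) (nat_lit 76) (nat_lit 17116455119) (nat_lit 151) (nat_lit 5) (nat_lit 166) (nat_lit 5) (nat_lit 152) (nat_lit 5) (nat_lit 350) (nat_lit 332) (nat_lit 98)) (XT.nd (nat_lit 78) (nat_lit 0) (nat_lit 0) (XT.lf (nat_lit 0) (nat_lit 8854967069) (nat_lit 836) (nat_lit 11398383924) (nat_lit 912) (nat_lit 26426953316) (nat_lit 140) (nat_lit 5) (nat_lit 151) (nat_lit 5) (nat_lit 152) (nat_lit 5) (nat_lit 351) (nat_lit 332) (nat_lit 97)) (XT.lf (nat_lit 0) (nat_lit 23733327480) (nat_lit 912) (nat_lit 17245468215) (nat_lit 76) (nat_lit 6500468858) (nat_lit 140) (nat_lit 5) (nat_lit 152) (nat_lit 5) (nat_lit 141) (nat_lit 5)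 (nat_lit 352) (nat_lit 332) (nat_lit 96)))) (XT.nd (nat_lit 78) (nat_lit 0) (nat_lit 0) (XT.lf (nat_lit 0) (nat_lit 3914266362) (nat_lit 532) (nat_lit 23552751912) (nat_lit 608) (nat_lit 20830698249) (nat_lit 133) (nat_lit 5) (nat_lit 140) (nat_lit 5) (nat_lit 141) (nat_lit 5) (nat_lit 353) (nat_lit 332) (nat_lit 95)) (XT.nd (nat_lit 78) (nat_lit 0) (nat_lit 0) (XT.lf (nat_lit 0) (nat_lit 26061261859) (nat_lit 532) (nat_lit 5424460675) (nat_lit 608) (nat_lit 17649811740) (nat_lit 133) (nat_lit 5) (nat_lit 140) (nat_lit 5) (nat_lit 141) (nat_lit 5) (nat_lit 354) (nat_lit 332) (nat_lit 94)) (XT.lf (nat_lit 0) (nat_lit 35751224226) (nat_lit 608) (nat_lit 1254216384) (nat_lit 76) (nat_lit 12989261093) (nat_lit 133) (nat_lit 5) (nat_lit 141) (nat_lit 5) (nat_lit 134) (nat_lit 5) (nat_lit 355) (nat_lit 332) (nat_lit 93)))))) (XT.nd (nat_lit 468) (nat_lit 912) (nat_lit 0) (XT.nd (nat_lit 234) (nat_lit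 608) (nat_lit 0) (XT.nd (nat_lit 78) (nat_lit 456) (nat_lit 0) (XT.lf (nat_lit 0) (nat_lit 21586951367) (nat_lit 532) (nat_lit 18817877907) (nat_lit 608) (nat_lit 10467012900) (nat_lit 126) (nat_lit 5) (nat_lit 133) (nat_lit 5) (nat_lit 134) (nat_lit 5) (nat_lit 356) (nat_lit 332) (nat_lit 92)) (XT.nd (nat_lit 78) (nat_lit 456) (nat_lit 0) (XT.lf (nat_lit 0) (nat_lit 45138052772) (nat_lit 532) (nat_lit 71600245) (nat_lit 608) (nat_lit 6565297635) (nat_lit 126) (nat_lit 5) (nat_lit 133) (nat_lit 5) (nat_lit 134) (nat_lit 5) (nat_lit 357) (nat_lit 332) (nat_lit 91)) (XT.lf (nat_lit 0) (nat_lit 16833075028) (nat_lit 456) (nat_lit 33671251235) (nat_lit 532) (nat_lit 2190457022) (nat_lit 120) (nat_lit 5) (nat_lit 126) (nat_lit 5) (nat_lit 127) (nat_lit 5) (nat_lit 358) (nat_lit 332) (nat_lit 90)))) (XT.nd (nat_lit 78) (nat_lit 532) (nat_lit 0) (XT.lf (nat_lit 0) (nat_lit 2337819476) (nat_lit 532)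 (nat_lit 12521662463) (nat_lit 76) (nat_lit 38780041801) (nat_lit 119) (nat_lit 5) (nat_lit 126) (nat_lit 5) (nat_lit 120) (nat_lit 5) (nat_lit 359) (nat_lit 332) (nat_lit 89)) (XT.nd (nat_lit 78) (nat_lit 0) (nat_lit 0) (XT.lf (nat_lit 0) (nat_lit 7114384732) (nat_lit 608) (nat_lit 42928662877) (nat_lit 76) (nat_lit 4564216047) (nat_lit 112) (nat_lit 5) (nat_lit 120) (nat_lit 5) (nat_lit 113) (nat_lit 5) (nat_lit 360) (nat_lit 332) (nat_lit 88)) (XT.lf (nat_lit 0) (nat_lit 12308100065) (nat_lit 608) (nat_lit 18888082588) (nat_lit 76) (nat_lit 24399639341) (nat_lit 112) (nat_lit 5) (nat_lit 120) (nat_lit 5) (nat_lit 113) (nat_lit 5) (nat_lit 361) (nat_lit 332) (nat_lit 87))))) (XT.nd (nat_lit 234) (nat_lit 456) (nat_lit 0) (XT.nd (nat_lit 78) (nat_lit 0) (nat_lit 0) (XT.lf (nat_lit 0) (nat_lit 5989605177) (nat_lit 456) (nat_lit 11724658957) (nat_lit 532) (nat_lit 38898075592) (nat_lit 106) (nat_lit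 5) (nat_lit 112) (nat_lit 5) (nat_lit 113) (nat_lit 5) (nat_lit 362) (nat_lit 332) (nat_lit 86)) (XT.nd (nat_lit 78) (nat_lit 0) (nat_lit 0) (XT.lf (nat_lit 0) (nat_lit 23554395826) (nat_lit 532) (nat_lit 25735799250) (nat_lit 76) (nat_lit 8361006148) (nat_lit 106) (nat_lit 5) (nat_lit 113) (nat_lit 5) (nat_lit 107) (nat_lit 5) (nat_lit 363) (nat_lit 332) (nat_lit 85)) (XT.lf (nat_lit 0) (nat_lit 29684922918) (nat_lit 532) (nat_lit 219320048) (nat_lit 76) (nat_lit 28813531521) (nat_lit 106) (nat_lit 5) (nat_lit 113) (nat_lit 5) (nat_lit 107) (nat_lit 5) (nat_lit 364) (nat_lit 332) (nat_lit 84)))) (XT.nd (nat_lit 38142) (nat_lit 0) (nat_lit 4484) (XT.lf (nat_lit 0) (nat_lit 26580382606) (nat_lit 456) (nat_lit 9673621879) (nat_lit 532) (nat_lit 23554702916) (nat_lit 100) (nat_lit 5) (nat_lit 106) (nat_lit 5) (nat_lit 107) (nat_lit 5) (nat_lit 365) (nat_lit 332) (nat_lit 83)) (XT.nd (nat_lit 78)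 (nat_lit 0) (nat_lit 0) (XT.lf (nat_lit 0) (nat_lit 14174675837) (nat_lit 1140) (nat_lit 1810155345) (nat_lit 1140) (nat_lit 1810155345) (nat_lit 159) (nat_lit 3) (nat_lit 174) (nat_lit 3) (nat_lit 174) (nat_lit 5) (nat_lit 333) (nat_lit 333) (nat_lit 114)) (XT.lf (nat_lit 76) (nat_lit 11658908565) (nat_lit 0) (nat_lit 17274772465) (nat_lit 1140) (nat_lit 7185265509) (nat_lit 160) (nat_lit 5) (nat_lit 159) (nat_lit 3) (nat_lit 174) (nat_lit 5) (nat_lit 334) (nat_lit 333) (nat_lit 113))))))))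
noncomputable def xc249 : XT := (XT.nd (nat_lit 1794) (nat_lit 1520) (nat_lit 0) (XT.nd (nat_lit 858) (nat_lit 1672) (nat_lit 0) (XT.nd (nat_lit 390) (nat_lit 836) (nat_lit 0) (XT.nd (nat_lit 156) (nat_lit 0) (nat_lit 76) (XT.nd (nat_lit 78) (nat_lit 0) (nat_lit 76) (XT.lf (nat_lit 76) (nat_lit 27469751369) (nat_lit 0) (nat_lit 2100502729) (nat_lit 1140) (nat_lit 7092497751) (nat_lit 160) (nat_lit 5) (nat_lit 159) (nat_lit 3) (nat_lit 174) (nat_lit 5) (nat_lit 335) (nat_lit 333) (nat_lit 112)) (XT.lf (nat_lit 76) (nat_lit 6528387971) (nat_lit 0) (nat_lit 23888557927) (nat_lit 1140) (nat_lit 6800198693) (nat_lit 161) (nat_lit 5) (nat_lit 160) (nat_lit 5) (nat_lit 175) (nat_lit 5) (nat_lit 336) (nat_lit 333) (nat_lit 111))) (XT.nd (nat_lit 78) (nat_lit 0) (nat_lit 76) (XT.lf (nat_lit 76) (nat_lit 22887660904) (nat_lit 0) (nat_lit 8513062056) (nat_lit 1140) (nat_lit 6384099426) (nat_lit 161) (nat_lit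 5) (nat_lit 160) (nat_lit 5) (nat_lit 175) (nat_lit 5) (nat_lit 337) (nat_lit 333) (nat_lit 110)) (XT.nd (nat_lit 78) (nat_lit 0) (nat_lit 0) (XT.lf (nat_lit 76) (nat_lit 1322563509) (nat_lit 0) (nat_lit 31172880693) (nat_lit 1140) (nat_lit 5871647081) (nat_lit 162) (nat_lit 5) (nat_lit 161) (nat_lit 5) (nat_lit 176) (nat_lit 5) (nat_lit 338) (nat_lit 333) (nat_lit 109)) (XT.lf (nat_lit 76) (nat_lit 18247276175) (nat_lit 0) (nat_lit 15607981356) (nat_lit 1140) (nat_lit 5104606789) (nat_lit 162) (nat_lit 5) (nat_lit 161) (nat_lit 5) (nat_lit 176) (nat_lit 5) (nat_lit 339) (nat_lit 333) (nat_lit 108))))) (XT.nd (nat_lit 234) (nat_lit 1064) (nat_lit 0) (XT.nd (nat_lit 78) (nat_lit 0) (nat_lit 0) (XT.lf (nat_lit 0) (nat_lit 35258350356) (nat_lit 1064) (nat_lit 3895808418) (nat_lit 1140) (nat_lit 416190703) (nat_lit 162) (nat_lit 5) (nat_lit 176) (nat_lit 5) (nat_lit 177) (nat_lit 5) (nat_lit 340)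 (nat_lit 333) (nat_lit 107)) (XT.nd (nat_lit 78) (nat_lit 0) (nat_lit 0) (XT.lf (nat_lit 76) (nat_lit 13534024552) (nat_lit 0) (nat_lit 23452600143) (nat_lit 1140) (nat_lit 3204035213) (nat_lit 163) (nat_lit 5) (nat_lit 162) (nat_lit 5) (nat_lit 177) (nat_lit 5) (nat_lit 341) (nat_lit 333) (nat_lit 106)) (XT.lf (nat_lit 76) (nat_lit 31565609454) (nat_lit 0) (nat_lit 7238970074) (nat_lit 1140) (nat_lit 2023868439) (nat_lit 163) (nat_lit 5) (nat_lit 162) (nat_lit 5) (nat_lit 177) (nat_lit 5) (nat_lit 342) (nat_lit 333) (nat_lit 105)))) (XT.nd (nat_lit 78) (nat_lit 1140) (nat_lit 0) (XT.lf (nat_lit 76) (nat_lit 8731177473) (nat_lit 0) (nat_lit 32119311393) (nat_lit 1140) (nat_lit 629681512) (nat_lit 164) (nat_lit 5) (nat_lit 163) (nat_lit 5) (nat_lit 178) (nat_lit 5) (nat_lit 343) (nat_lit 333) (nat_lit 104)) (XT.nd (nat_lit 78) (nat_lit 0) (nat_lit 76) (XT.lf (nat_lit 0) (nat_lit 955288619) (nat_lit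 1140) (nat_lit 14775142915) (nat_lit 1216) (nat_lit 26415842644) (nat_lit 148) (nat_lit 5) (nat_lit 163) (nat_lit 5) (nat_lit 164) (nat_lit 5) (nat_lit 344) (nat_lit 333) (nat_lit 103)) (XT.lf (nat_lit 0) (nat_lit 2621808730) (nat_lit 1140) (nat_lit 39037686213) (nat_lit 1216) (nat_lit 1171282325) (nat_lit 149) (nat_lit 5) (nat_lit 164) (nat_lit 5) (nat_lit 165) (nat_lit 5) (nat_lit 345) (nat_lit 333) (nat_lit 102)))))) (XT.nd (nat_lit 468) (nat_lit 1748) (nat_lit 0) (XT.nd (nat_lit 234) (nat_lit 0) (nat_lit 76) (XT.nd (nat_lit 78) (nat_lit 0) (nat_lit 0) (XT.lf (nat_lit 0) (nat_lit 4643381606) (nat_lit 1140) (nat_lit 20468370062) (nat_lit 1216) (nat_lit 18414914898) (nat_lit 149) (nat_lit 5) (nat_lit 164) (nat_lit 5) (nat_lit 165) (nat_lit 5) (nat_lit 346) (nat_lit 333) (nat_lit 101)) (XT.nd (nat_lit 78) (nat_lit 0) (nat_lit 76) (XT.lf (nat_lit 0) (nat_lit 6724274597) (nat_lit 1140) (nat_lit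 1342998238) (nat_lit 1216) (nat_lit 36176202270) (nat_lit 149) (nat_lit 5) (nat_lit 164) (nat_lit 5) (nat_lit 165) (nat_lit 5) (nat_lit 347) (nat_lit 333) (nat_lit 100)) (XT.lf (nat_lit 0) (nat_lit 9139252510) (nat_lit 1140) (nat_lit 26348980805) (nat_lit 1216) (nat_lit 9485407511) (nat_lit 150) (nat_lit 5) (nat_lit 165) (nat_lit 5) (nat_lit 166) (nat_lit 5) (nat_lit 348) (nat_lit 333) (nat_lit 99)))) (XT.nd (nat_lit 78) (nat_lit 0) (nat_lit 0) (XT.lf (nat_lit 0) (nat_lit 11718991971) (nat_lit 1140) (nat_lit 6587462057) (nat_lit 1216) (nat_lit 27416490714) (nat_lit 150) (nat_lit 5) (nat_lit 165) (nat_lit 5) (nat_lit 166) (nat_lit 5) (nat_lit 349) (nat_lit 333) (nat_lit 98)) (XT.nd (nat_lit 78) (nat_lit 0) (nat_lit 76) (XT.lf (nat_lit 76) (nat_lit 14039873369) (nat_lit 0) (nat_lit 469989030) (nat_lit 1216) (nat_lit 31980855729) (nat_lit 151) (nat_lit 5) (nat_lit 150) (nat_lit 5) (nat_lit 166)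 (nat_lit 5) (nat_lit 350) (nat_lit 333) (nat_lit 97)) (XT.lf (nat_lit 0) (nat_lit 17622525848) (nat_lit 1140) (nat_lit 12032231079) (nat_lit 76) (nat_lit 17619628224) (nat_lit 151) (nat_lit 5) (nat_lit 166) (nat_lit 5) (nat_lit 152) (nat_lit 5) (nat_lit 351) (nat_lit 333) (nat_lit 96))))) (XT.nd (nat_lit 234) (nat_lit 532) (nat_lit 0) (XT.nd (nat_lit 78) (nat_lit 532) (nat_lit 0) (XT.lf (nat_lit 0) (nat_lit 9172273803) (nat_lit 836) (nat_lit 11747960006) (nat_lit 912) (nat_lit 27158580809) (nat_lit 140) (nat_lit 5) (nat_lit 151) (nat_lit 5) (nat_lit 152) (nat_lit 5) (nat_lit 352) (nat_lit 333) (nat_lit 95)) (XT.nd (nat_lit 78) (nat_lit 532) (nat_lit 0) (XT.lf (nat_lit 0) (nat_lit 24502811764) (nat_lit 912) (nat_lit 17710764461) (nat_lit 76) (nat_lit 6688224884) (nat_lit 140) (nat_lit 5) (nat_lit 152) (nat_lit 5) (nat_lit 141) (nat_lit 5) (nat_lit 353) (nat_lit 333) (nat_lit 94)) (XT.lf (nat_lit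 0) (nat_lit 4083251685) (nat_lit 532) (nat_lit 24264082894) (nat_lit 608) (nat_lit 21397510824) (nat_lit 133) (nat_lit 5) (nat_lit 140) (nat_lit 5) (nat_lit 141) (nat_lit 5) (nat_lit 354) (nat_lit 333) (nat_lit 93)))) (XT.nd (nat_lit 78) (nat_lit 532) (nat_lit 0) (XT.lf (nat_lit 0) (nat_lit 26893155377) (nat_lit 532) (nat_lit 5591804615) (nat_lit 608) (nat_lit 18122890197) (nat_lit 133) (nat_lit 5) (nat_lit 140) (nat_lit 5) (nat_lit 141) (nat_lit 5) (nat_lit 355) (nat_lit 333) (nat_lit 92)) (XT.nd (nat_lit 78) (nat_lit 532) (nat_lit 0) (XT.lf (nat_lit 0) (nat_lit 36876791503) (nat_lit 608) (nat_lit 1241502982) (nat_lit 76) (nat_lit 13374550420) (nat_lit 133) (nat_lit 5) (nat_lit 141) (nat_lit 5) (nat_lit 134) (nat_lit 5) (nat_lit 356) (nat_lit 333) (nat_lit 91)) (XT.lf (nat_lit 0) (nat_lit 22284406273) (nat_lit 532) (nat_lit 19384533005) (nat_lit 608) (nat_lit 10727395391) (nat_lit 126) (nat_lit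 5) (nat_lit 133) (nat_lit 5) (nat_lit 134) (nat_lit 5) (nat_lit 357) (nat_lit 333) (nat_lit 90))))))) (XT.nd (nat_lit 39078) (nat_lit 0) (nat_lit 3192) (XT.nd (nat_lit 468) (nat_lit 0) (nat_lit 0) (XT.nd (nat_lit 234) (nat_lit 988) (nat_lit 0) (XT.nd (nat_lit 78) (nat_lit 532) (nat_lit 0) (XT.lf (nat_lit 0) (nat_lit 46540588884) (nat_lit 532) (nat_lit 75805301) (nat_lit 608) (nat_lit 6710190645) (nat_lit 126) (nat_lit 5) (nat_lit 133) (nat_lit 5) (nat_lit 134) (nat_lit 5) (nat_lit 358) (nat_lit 333) (nat_lit 89)) (XT.nd (nat_lit 78) (nat_lit 76) (nat_lit 0) (XT.lf (nat_lit 0) (nat_lit 17387605445) (nat_lit 456) (nat_lit 34681289714) (nat_lit 532) (nat_lit 2205150594) (nat_lit 120) (nat_lit 5) (nat_lit 126) (nat_lit 5) (nat_lit 127) (nat_lit 5) (nat_lit 359) (nat_lit 333) (nat_lit 88)) (XT.lf (nat_lit 0) (nat_lit 2456521586) (nat_lit 532) (nat_lit 12848158201) (nat_lit 76) (nat_lit 39942480399)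 (nat_lit 119) (nat_lit 5) (nat_lit 126) (nat_lit 5) (nat_lit 120) (nat_lit 5) (nat_lit 360) (nat_lit 333) (nat_lit 87)))) (XT.nd (nat_lit 78) (nat_lit 456) (nat_lit 0) (XT.lf (nat_lit 0) (nat_lit 7375447186) (nat_lit 608) (nat_lit 44166342460) (nat_lit 76) (nat_lit 4702173439) (nat_lit 112) (nat_lit 5) (nat_lit 120) (nat_lit 5) (nat_lit 113) (nat_lit 5) (nat_lit 361) (nat_lit 333) (nat_lit 86)) (XT.nd (nat_lit 78) (nat_lit 456) (nat_lit 0) (XT.lf (nat_lit 0) (nat_lit 12723586671) (nat_lit 608) (nat_lit 19406006325) (nat_lit 76) (nat_lit 25132629405) (nat_lit 112) (nat_lit 5) (nat_lit 120) (nat_lit 5) (nat_lit 113) (nat_lit 5) (nat_lit 362) (nat_lit 333) (nat_lit 85)) (XT.lf (nat_lit 0) (nat_lit 6217534439) (nat_lit 456) (nat_lit 12073518046) (nat_lit 532) (nat_lit 40018212208) (nat_lit 106) (nat_lit 5) (nat_lit 112) (nat_lit 5) (nat_lit 113) (nat_lit 5) (nat_lit 363) (nat_lit 333) (nat_lit 84)))))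 (XT.nd (nat_lit 38376) (nat_lit 0) (nat_lit 4028) (XT.nd (nat_lit 78) (nat_lit 0) (nat_lit 0) (XT.lf (nat_lit 0) (nat_lit 24305093834) (nat_lit 532) (nat_lit 26459660955) (nat_lit 76) (nat_lit 8614578534) (nat_lit 106) (nat_lit 5) (nat_lit 113) (nat_lit 5) (nat_lit 107) (nat_lit 5) (nat_lit 364) (nat_lit 333) (nat_lit 83)) (XT.nd (nat_lit 38220) (nat_lit 0) (nat_lit 4028) (XT.lf (nat_lit 0) (nat_lit 30618253259) (nat_lit 532) (nat_lit 179091618) (nat_lit 76) (nat_lit 29680599798) (nat_lit 106) (nat_lit 5) (nat_lit 113) (nat_lit 5) (nat_lit 107) (nat_lit 5) (nat_lit 365) (nat_lit 333) (nat_lit 82)) (XT.lf (nat_lit 0) (nat_lit 14646480680) (nat_lit 1140) (nat_lit 1840428030) (nat_lit 1140) (nat_lit 1840428030) (nat_lit 159) (nat_lit 3) (nat_lit 174) (nat_lit 3) (nat_lit 174) (nat_lit 5) (nat_lit 334) (nat_lit 334) (nat_lit 112)))) (XT.nd (nat_lit 78) (nat_lit 0) (nat_lit 0) (XT.lf (nat_lit 76)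 (nat_lit 12056268557) (nat_lit 0) (nat_lit 17836297030) (nat_lit 1140) (nat_lit 7307024201) (nat_lit 160) (nat_lit 5) (nat_lit 159) (nat_lit 3) (nat_lit 174) (nat_lit 5) (nat_lit 335) (nat_lit 334) (nat_lit 111)) (XT.nd (nat_lit 78) (nat_lit 0) (nat_lit 76) (XT.lf (nat_lit 76) (nat_lit 28340050448) (nat_lit 0) (nat_lit 2205538579) (nat_lit 1140) (nat_lit 7214205427) (nat_lit 160) (nat_lit 5) (nat_lit 159) (nat_lit 3) (nat_lit 174) (nat_lit 5) (nat_lit 336) (nat_lit 334) (nat_lit 110)) (XT.lf (nat_lit 76) (nat_lit 6773205220) (nat_lit 0) (nat_lit 24641985158) (nat_lit 1140) (nat_lit 6915708963) (nat_lit 161) (nat_lit 5) (nat_lit 160) (nat_lit 5) (nat_lit 175) (nat_lit 5) (nat_lit 337) (nat_lit 334) (nat_lit 109)))))) (XT.nd (nat_lit 468) (nat_lit 912) (nat_lit 0) (XT.nd (nat_lit 234) (nat_lit 0) (nat_lit 152) (XT.nd (nat_lit 78) (nat_lit 0) (nat_lit 76) (XT.lf (nat_lit 76) (nat_lit 23621830158)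 (nat_lit 0) (nat_lit 8804153426) (nat_lit 1140) (nat_lit 6489704262) (nat_lit 161) (nat_lit 5) (nat_lit 160) (nat_lit 5) (nat_lit 175) (nat_lit 5) (nat_lit 338) (nat_lit 334) (nat_lit 108)) (XT.nd (nat_lit 78) (nat_lit 0) (nat_lit 0) (XT.lf (nat_lit 76) (nat_lit 1412306514) (nat_lit 0) (nat_lit 32138963609) (nat_lit 1140) (nat_lit 5964228280) (nat_lit 162) (nat_lit 5) (nat_lit 161) (nat_lit 5) (nat_lit 176) (nat_lit 5) (nat_lit 339) (nat_lit 334) (nat_lit 107)) (XT.lf (nat_lit 76) (nat_lit 18843302324) (nat_lit 0) (nat_lit 16106217394) (nat_lit 1140) (nat_lit 5176610804) (nat_lit 162) (nat_lit 5) (nat_lit 161) (nat_lit 5) (nat_lit 176) (nat_lit 5) (nat_lit 340) (nat_lit 334) (nat_lit 106)))) (XT.nd (nat_lit 78) (nat_lit 0) (nat_lit 0) (XT.lf (nat_lit 0) (nat_lit 36392135931) (nat_lit 1064) (nat_lit 3962754577) (nat_lit 1140) (nat_lit 400121807) (nat_lit 162) (nat_lit 5) (nat_lit 176) (nat_lit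 5) (nat_lit 177) (nat_lit 5) (nat_lit 341) (nat_lit 334) (nat_lit 105)) (XT.nd (nat_lit 78) (nat_lit 0) (nat_lit 0) (XT.lf (nat_lit 76) (nat_lit 13989483891) (nat_lit 0) (nat_lit 24181035229) (nat_lit 1140) (nat_lit 3223469972) (nat_lit 163) (nat_lit 5) (nat_lit 162) (nat_lit 5) (nat_lit 177) (nat_lit 5) (nat_lit 342) (nat_lit 334) (nat_lit 104)) (XT.lf (nat_lit 76) (nat_lit 32560576381) (nat_lit 0) (nat_lit 7480272265) (nat_lit 1140) (nat_lit 2010131776) (nat_lit 163) (nat_lit 5) (nat_lit 162) (nat_lit 5) (nat_lit 177) (nat_lit 5) (nat_lit 343) (nat_lit 334) (nat_lit 103))))) (XT.nd (nat_lit 234) (nat_lit 0) (nat_lit 76) (XT.nd (nat_lit 78) (nat_lit 1140) (nat_lit 0) (XT.lf (nat_lit 76) (nat_lit 9043168803) (nat_lit 0) (nat_lit 33103121481) (nat_lit 1140) (nat_lit 576024145) (nat_lit 164) (nat_lit 5) (nat_lit 163) (nat_lit 5) (nat_lit 178) (nat_lit 5) (nat_lit 344) (nat_lit 334) (nat_lit 102))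 (XT.nd (nat_lit 78) (nat_lit 0) (nat_lit 76) (XT.lf (nat_lit 0) (nat_lit 1053007611) (nat_lit 1140) (nat_lit 15168280996) (nat_lit 1216) (nat_lit 27187158279) (nat_lit 148) (nat_lit 5) (nat_lit 163) (nat_lit 5) (nat_lit 164) (nat_lit 5) (nat_lit 345) (nat_lit 334) (nat_lit 101)) (XT.lf (nat_lit 0) (nat_lit 2767816808) (nat_lit 1140) (nat_lit 40156854554) (nat_lit 1216) (nat_lit 1188869087) (nat_lit 149) (nat_lit 5) (nat_lit 164) (nat_lit 5) (nat_lit 165) (nat_lit 5) (nat_lit 346) (nat_lit 334) (nat_lit 100)))) (XT.nd (nat_lit 78) (nat_lit 0) (nat_lit 0) (XT.lf (nat_lit 0) (nat_lit 4848075110) (nat_lit 1140) (nat_lit 21031972382) (nat_lit 1216) (nat_lit 18950321852) (nat_lit 149) (nat_lit 5) (nat_lit 164) (nat_lit 5) (nat_lit 165) (nat_lit 5) (nat_lit 347) (nat_lit 334) (nat_lit 99)) (XT.nd (nat_lit 78) (nat_lit 0) (nat_lit 76) (XT.lf (nat_lit 0) (nat_lit 6989490267) (nat_lit 1140) (nat_lit 1334308786)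 (nat_lit 1216) (nat_lit 37244944170) (nat_lit 149) (nat_lit 5) (nat_lit 164) (nat_lit 5) (nat_lit 165) (nat_lit 5) (nat_lit 348) (nat_lit 334) (nat_lit 98)) (XT.lf (nat_lit 0) (nat_lit 9475403790) (nat_lit 1140) (nat_lit 27088829421) (nat_lit 1216) (nat_lit 9756629946) (nat_lit 150) (nat_lit 5) (nat_lit 165) (nat_lit 5) (nat_lit 166) (nat_lit 5) (nat_lit 349) (nat_lit 334) (nat_lit 97))))))))
noncomputable def xc250 : XT := (XT.nd (nat_lit 40170) (nat_lit 0) (nat_lit 456) (XT.nd (nat_lit 858) (nat_lit 1064) (nat_lit 0) (XT.nd (nat_lit 390) (nat_lit 1520) (nat_lit 0) (XT.nd (nat_lit 156) (nat_lit 760) (nat_lit 0) (XT.nd (nat_lit 78) (nat_lit 0) (nat_lit 0) (XT.lf (nat_lit 0) (nat_lit 12130730376) (nat_lit 1140) (nat_lit 6735939504) (nat_lit 1216) (nat_lit 28226034182) (nat_lit 150) (nat_lit 5) (nat_lit 165) (nat_lit 5) (nat_lit 166) (nat_lit 5) (nat_lit 350) (nat_lit 334) (nat_lit 96)) (XT.lf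 (nat_lit 76) (nat_lit 14509734158) (nat_lit 0) (nat_lit 494308068) (nat_lit 1216) (nat_lit 32879510575) (nat_lit 151) (nat_lit 5) (nat_lit 150) (nat_lit 5) (nat_lit 166) (nat_lit 5) (nat_lit 351) (nat_lit 334) (nat_lit 95))) (XT.nd (nat_lit 78) (nat_lit 836) (nat_lit 0) (XT.lf (nat_lit 0) (nat_lit 18208275138) (nat_lit 1140) (nat_lit 12344023552) (nat_lit 76) (nat_lit 18138488963) (nat_lit 151) (nat_lit 5) (nat_lit 166) (nat_lit 5) (nat_lit 152) (nat_lit 5) (nat_lit 352) (nat_lit 334) (nat_lit 94)) (XT.nd (nat_lit 78) (nat_lit 0) (nat_lit 0) (XT.lf (nat_lit 0) (nat_lit 9496134374) (nat_lit 836) (nat_lit 12107585689) (nat_lit 912) (nat_lit 27915669173) (nat_lit 140) (nat_lit 5) (nat_lit 151) (nat_lit 5) (nat_lit 152) (nat_lit 5) (nat_lit 353) (nat_lit 334) (nat_lit 93)) (XT.lf (nat_lit 0) (nat_lit 25292080734) (nat_lit 912) (nat_lit 18193008499) (nat_lit 76) (nat_lit 6882030231) (nat_lit 140)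 (nat_lit 5) (nat_lit 152) (nat_lit 5) (nat_lit 141) (nat_lit 5) (nat_lit 354) (nat_lit 334) (nat_lit 92))))) (XT.nd (nat_lit 234) (nat_lit 988) (nat_lit 0) (XT.nd (nat_lit 78) (nat_lit 0) (nat_lit 0) (XT.lf (nat_lit 0) (nat_lit 4254346965) (nat_lit 532) (nat_lit 24996481226) (nat_lit 608) (nat_lit 21984663435) (nat_lit 133) (nat_lit 5) (nat_lit 140) (nat_lit 5) (nat_lit 141) (nat_lit 5) (nat_lit 355) (nat_lit 334) (nat_lit 91)) (XT.nd (nat_lit 78) (nat_lit 0) (nat_lit 0) (XT.lf (nat_lit 0) (nat_lit 27747132300) (nat_lit 532) (nat_lit 5763904235) (nat_lit 608) (nat_lit 18613399511) (nat_lit 133) (nat_lit 5) (nat_lit 140) (nat_lit 5) (nat_lit 141) (nat_lit 5) (nat_lit 356) (nat_lit 334) (nat_lit 90)) (XT.lf (nat_lit 0) (nat_lit 38033081628) (nat_lit 608) (nat_lit 1231297894) (nat_lit 76) (nat_lit 13771650345) (nat_lit 133) (nat_lit 5) (nat_lit 141) (nat_lit 5) (nat_lit 134) (nat_lit 5) (nat_lit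 357) (nat_lit 334) (nat_lit 89)))) (XT.nd (nat_lit 78) (nat_lit 456) (nat_lit 0) (XT.lf (nat_lit 0) (nat_lit 22999923441) (nat_lit 532) (nat_lit 19968066130) (nat_lit 608) (nat_lit 10998667817) (nat_lit 126) (nat_lit 5) (nat_lit 133) (nat_lit 5) (nat_lit 134) (nat_lit 5) (nat_lit 358) (nat_lit 334) (nat_lit 88)) (XT.nd (nat_lit 78) (nat_lit 456) (nat_lit 0) (XT.lf (nat_lit 0) (nat_lit 47982423036) (nat_lit 532) (nat_lit 80018426) (nat_lit 608) (nat_lit 6862419243) (nat_lit 126) (nat_lit 5) (nat_lit 133) (nat_lit 5) (nat_lit 134) (nat_lit 5) (nat_lit 359) (nat_lit 334) (nat_lit 87)) (XT.lf (nat_lit 0) (nat_lit 17955928081) (nat_lit 456) (nat_lit 35721635033) (nat_lit 532) (nat_lit 2223213738) (nat_lit 120) (nat_lit 5) (nat_lit 126) (nat_lit 5) (nat_lit 127) (nat_lit 5) (nat_lit 360) (nat_lit 334) (nat_lit 86)))))) (XT.nd (nat_lit 38844) (nat_lit 0) (nat_lit 4104) (XT.nd (nat_lit 38610) (nat_lit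 0) (nat_lit 4028) (XT.nd (nat_lit 78) (nat_lit 988) (nat_lit 0) (XT.lf (nat_lit 0) (nat_lit 2575996786) (nat_lit 532) (nat_lit 13187270460) (nat_lit 76) (nat_lit 41139847415) (nat_lit 119) (nat_lit 5) (nat_lit 126) (nat_lit 5) (nat_lit 120) (nat_lit 5) (nat_lit 361) (nat_lit 334) (nat_lit 85)) (XT.nd (nat_lit 156) (nat_lit 456) (nat_lit 0) (XT.lf (nat_lit 0) (nat_lit 7641607305) (nat_lit 608) (nat_lit 45444032986) (nat_lit 76) (nat_lit 4844210374) (nat_lit 112) (nat_lit 5) (nat_lit 120) (nat_lit 5) (nat_lit 113) (nat_lit 5) (nat_lit 362) (nat_lit 334) (nat_lit 84)) (XT.lf (nat_lit 0) (nat_lit 6449532342) (nat_lit 456) (nat_lit 12433008270) (nat_lit 532) (nat_lit 41174639759) (nat_lit 106) (nat_lit 5) (nat_lit 112) (nat_lit 5) (nat_lit 113) (nat_lit 5) (nat_lit 364) (nat_lit 334) (nat_lit 82)))) (XT.nd (nat_lit 78) (nat_lit 0) (nat_lit 0) (XT.lf (nat_lit 0) (nat_lit 15129766671) (nat_lit 1140)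 (nat_lit 1872988430) (nat_lit 1140) (nat_lit 1872988430) (nat_lit 159) (nat_lit 3) (nat_lit 174) (nat_lit 3) (nat_lit 174) (nat_lit 5) (nat_lit 335) (nat_lit 335) (nat_lit 110)) (XT.nd (nat_lit 78) (nat_lit 0) (nat_lit 0) (XT.lf (nat_lit 76) (nat_lit 12462817331) (nat_lit 0) (nat_lit 18412182803) (nat_lit 1140) (nat_lit 7437820115) (nat_lit 160) (nat_lit 5) (nat_lit 159) (nat_lit 3) (nat_lit 174) (nat_lit 5) (nat_lit 336) (nat_lit 335) (nat_lit 109)) (XT.lf (nat_lit 76) (nat_lit 29233806056) (nat_lit 0) (nat_lit 2311313341) (nat_lit 1140) (nat_lit 7344791967) (nat_lit 160) (nat_lit 5) (nat_lit 159) (nat_lit 3) (nat_lit 174) (nat_lit 5) (nat_lit 337) (nat_lit 335) (nat_lit 108))))) (XT.nd (nat_lit 234) (nat_lit 0) (nat_lit 76) (XT.nd (nat_lit 78) (nat_lit 0) (nat_lit 0) (XT.lf (nat_lit 76) (nat_lit 7022556159) (nat_lit 0) (nat_lit 25415904429) (nat_lit 1140) (nat_lit 7039764556) (nat_lit 161)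 (nat_lit 5) (nat_lit 160) (nat_lit 5) (nat_lit 175) (nat_lit 5) (nat_lit 338) (nat_lit 335) (nat_lit 107)) (XT.nd (nat_lit 78) (nat_lit 0) (nat_lit 76) (XT.lf (nat_lit 76) (nat_lit 24375295531) (nat_lit 0) (nat_lit 9101928239) (nat_lit 1140) (nat_lit 6603409297) (nat_lit 161) (nat_lit 5) (nat_lit 160) (nat_lit 5) (nat_lit 175) (nat_lit 5) (nat_lit 339) (nat_lit 335) (nat_lit 106)) (XT.lf (nat_lit 76) (nat_lit 1501867810) (nat_lit 0) (nat_lit 33132255427) (nat_lit 1140) (nat_lit 6064384071) (nat_lit 162) (nat_lit 5) (nat_lit 161) (nat_lit 5) (nat_lit 176) (nat_lit 5) (nat_lit 340) (nat_lit 335) (nat_lit 105)))) (XT.nd (nat_lit 78) (nat_lit 0) (nat_lit 76) (XT.lf (nat_lit 76) (nat_lit 19454418968) (nat_lit 0) (nat_lit 16617678586) (nat_lit 1140) (nat_lit 5255432374) (nat_lit 162) (nat_lit 5) (nat_lit 161) (nat_lit 5) (nat_lit 176) (nat_lit 5) (nat_lit 341) (nat_lit 335) (nat_lit 104)) (XT.nd (nat_lit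 78) (nat_lit 0) (nat_lit 0) (XT.lf (nat_lit 0) (nat_lit 37555570349) (nat_lit 1064) (nat_lit 4034575197) (nat_lit 1140) (nat_lit 385209995) (nat_lit 162) (nat_lit 5) (nat_lit 176) (nat_lit 5) (nat_lit 177) (nat_lit 5) (nat_lit 342) (nat_lit 335) (nat_lit 103)) (XT.lf (nat_lit 76) (nat_lit 14455769033) (nat_lit 0) (nat_lit 24929896469) (nat_lit 1140) (nat_lit 3247889880) (nat_lit 163) (nat_lit 5) (nat_lit 162) (nat_lit 5) (nat_lit 177) (nat_lit 5) (nat_lit 343) (nat_lit 335) (nat_lit 102))))))) (XT.nd (nat_lit 858) (nat_lit 2128) (nat_lit 0) (XT.nd (nat_lit 390) (nat_lit 608) (nat_lit 0) (XT.nd (nat_lit 156) (nat_lit 1064) (nat_lit 0) (XT.nd (nat_lit 78) (nat_lit 0) (nat_lit 76) (XT.lf (nat_lit 76) (nat_lit 33582636997) (nat_lit 0) (nat_lit 7727428184) (nat_lit 1140) (nat_lit 2000256903) (nat_lit 163) (nat_lit 5) (nat_lit 162) (nat_lit 5) (nat_lit 177) (nat_lit 5) (nat_lit 344) (nat_lit 335) (nat_lit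 101)) (XT.lf (nat_lit 76) (nat_lit 9361646454) (nat_lit 0) (nat_lit 34115284544) (nat_lit 1140) (nat_lit 524921597) (nat_lit 164) (nat_lit 5) (nat_lit 163) (nat_lit 5) (nat_lit 178) (nat_lit 5) (nat_lit 345) (nat_lit 335) (nat_lit 100))) (XT.nd (nat_lit 78) (nat_lit 0) (nat_lit 76) (XT.lf (nat_lit 0) (nat_lit 1149693828) (nat_lit 1140) (nat_lit 15576090094) (nat_lit 1216) (nat_lit 27982828034) (nat_lit 148) (nat_lit 5) (nat_lit 163) (nat_lit 5) (nat_lit 164) (nat_lit 5) (nat_lit 346) (nat_lit 335) (nat_lit 99)) (XT.nd (nat_lit 78) (nat_lit 0) (nat_lit 0) (XT.lf (nat_lit 0) (nat_lit 2914338745) (nat_lit 1140) (nat_lit 41312580791) (nat_lit 1216) (nat_lit 1207990992) (nat_lit 149) (nat_lit 5) (nat_lit 164) (nat_lit 5) (nat_lit 165) (nat_lit 5) (nat_lit 347) (nat_lit 335) (nat_lit 98)) (XT.lf (nat_lit 0) (nat_lit 5055155647) (nat_lit 1140) (nat_lit 21615378738) (nat_lit 1216) (nat_lit 19502769209)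 (nat_lit 149) (nat_lit 5) (nat_lit 164) (nat_lit 5) (nat_lit 165) (nat_lit 5) (nat_lit 348) (nat_lit 335) (nat_lit 97))))) (XT.nd (nat_lit 234) (nat_lit 684) (nat_lit 0) (XT.nd (nat_lit 78) (nat_lit 0) (nat_lit 76) (XT.lf (nat_lit 0) (nat_lit 7259017969) (nat_lit 1140) (nat_lit 1328170268) (nat_lit 1216) (nat_lit 38346698030) (nat_lit 149) (nat_lit 5) (nat_lit 164) (nat_lit 5) (nat_lit 165) (nat_lit 5) (nat_lit 349) (nat_lit 335) (nat_lit 96)) (XT.nd (nat_lit 78) (nat_lit 0) (nat_lit 0) (XT.lf (nat_lit 0) (nat_lit 9818082065) (nat_lit 1140) (nat_lit 27853779337) (nat_lit 1216) (nat_lit 10036754812) (nat_lit 150) (nat_lit 5) (nat_lit 165) (nat_lit 5) (nat_lit 166) (nat_lit 5) (nat_lit 350) (nat_lit 335) (nat_lit 95)) (XT.lf (nat_lit 0) (nat_lit 12551367007) (nat_lit 1140) (nat_lit 6891692479) (nat_lit 1216) (nat_lit 29060607410) (nat_lit 150) (nat_lit 5) (nat_lit 165) (nat_lit 5) (nat_lit 166)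 (nat_lit 5) (nat_lit 351) (nat_lit 335) (nat_lit 94)))) (XT.nd (nat_lit 78) (nat_lit 760) (nat_lit 0) (XT.lf (nat_lit 76) (nat_lit 14990897224) (nat_lit 0) (nat_lit 518770044) (nat_lit 1216) (nat_lit 33808613560) (nat_lit 151) (nat_lit 5) (nat_lit 150) (nat_lit 5) (nat_lit 166) (nat_lit 5) (nat_lit 352) (nat_lit 335) (nat_lit 93)) (XT.nd (nat_lit 78) (nat_lit 836) (nat_lit 0) (XT.lf (nat_lit 0) (nat_lit 18808320654) (nat_lit 1140) (nat_lit 12667992614) (nat_lit 76) (nat_lit 18673473958) (nat_lit 151) (nat_lit 5) (nat_lit 166) (nat_lit 5) (nat_lit 152) (nat_lit 5) (nat_lit 353) (nat_lit 335) (nat_lit 92)) (XT.lf (nat_lit 0) (nat_lit 9826915622) (nat_lit 836) (nat_lit 12477587586) (nat_lit 912) (nat_lit 28698780627) (nat_lit 140) (nat_lit 5) (nat_lit 151) (nat_lit 5) (nat_lit 152) (nat_lit 5) (nat_lit 354) (nat_lit 335) (nat_lit 91)))))) (XT.nd (nat_lit 468) (nat_lit 1064) (nat_lit 0) (XT.nd (nat_lit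 234) (nat_lit 532) (nat_lit 0) (XT.nd (nat_lit 78) (nat_lit 532) (nat_lit 0) (XT.lf (nat_lit 0) (nat_lit 26101917354) (nat_lit 912) (nat_lit 18692537187) (nat_lit 76) (nat_lit 7082042463) (nat_lit 140) (nat_lit 5) (nat_lit 152) (nat_lit 5) (nat_lit 141) (nat_lit 5) (nat_lit 355) (nat_lit 335) (nat_lit 90)) (XT.nd (nat_lit 78) (nat_lit 0) (nat_lit 0) (XT.lf (nat_lit 0) (nat_lit 4427785396) (nat_lit 532) (nat_lit 25750594576) (nat_lit 608) (nat_lit 22592574802) (nat_lit 133) (nat_lit 5) (nat_lit 140) (nat_lit 5) (nat_lit 141) (nat_lit 5) (nat_lit 356) (nat_lit 335) (nat_lit 89)) (XT.lf (nat_lit 0) (nat_lit 28624020076) (nat_lit 532) (nat_lit 5940917394) (nat_lit 608) (nat_lit 19121676704) (nat_lit 133) (nat_lit 5) (nat_lit 140) (nat_lit 5) (nat_lit 141) (nat_lit 5) (nat_lit 357) (nat_lit 335) (nat_lit 88)))) (XT.nd (nat_lit 78) (nat_lit 532) (nat_lit 0) (XT.lf (nat_lit 0) (nat_lit 39221191035)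 (nat_lit 608) (nat_lit 1223510488) (nat_lit 76) (nat_lit 14180900726) (nat_lit 133) (nat_lit 5) (nat_lit 141) (nat_lit 5) (nat_lit 134) (nat_lit 5) (nat_lit 358) (nat_lit 335) (nat_lit 87)) (XT.nd (nat_lit 78) (nat_lit 0) (nat_lit 0) (XT.lf (nat_lit 0) (nat_lit 23734208994) (nat_lit 532) (nat_lit 20568990605) (nat_lit 608) (nat_lit 11280980161) (nat_lit 126) (nat_lit 5) (nat_lit 133) (nat_lit 5) (nat_lit 134) (nat_lit 5) (nat_lit 359) (nat_lit 335) (nat_lit 86)) (XT.lf (nat_lit 0) (nat_lit 49464893639) (nat_lit 532) (nat_lit 84246640) (nat_lit 608) (nat_lit 7022031926) (nat_lit 126) (nat_lit 5) (nat_lit 133) (nat_lit 5) (nat_lit 134) (nat_lit 5) (nat_lit 360) (nat_lit 335) (nat_lit 85))))) (XT.nd (nat_lit 234) (nat_lit 0) (nat_lit 0) (XT.nd (nat_lit 78) (nat_lit 608) (nat_lit 0) (XT.lf (nat_lit 0) (nat_lit 18538619943) (nat_lit 456) (nat_lit 36793196073) (nat_lit 532) (nat_lit 2244579418) (nat_lit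 120) (nat_lit 5) (nat_lit 126) (nat_lit 5) (nat_lit 127) (nat_lit 5) (nat_lit 361) (nat_lit 335) (nat_lit 84)) (XT.nd (nat_lit 78) (nat_lit 532) (nat_lit 0) (XT.lf (nat_lit 0) (nat_lit 2696428307) (nat_lit 532) (nat_lit 13539215761) (nat_lit 76) (nat_lit 42373187531) (nat_lit 119) (nat_lit 5) (nat_lit 126) (nat_lit 5) (nat_lit 120) (nat_lit 5) (nat_lit 362) (nat_lit 335) (nat_lit 83)) (XT.lf (nat_lit 0) (nat_lit 7913174973) (nat_lit 608) (nat_lit 46762769426) (nat_lit 76) (nat_lit 4990452635) (nat_lit 112) (nat_lit 5) (nat_lit 120) (nat_lit 5) (nat_lit 113) (nat_lit 5) (nat_lit 363) (nat_lit 335) (nat_lit 82)))) (XT.nd (nat_lit 38454) (nat_lit 0) (nat_lit 3572) (XT.lf (nat_lit 0) (nat_lit 13584436646) (nat_lit 608) (nat_lit 20497246391) (nat_lit 76) (nat_lit 26665067539) (nat_lit 112) (nat_lit 5) (nat_lit 120) (nat_lit 5) (nat_lit 113) (nat_lit 5) (nat_lit 364) (nat_lit 335) (nat_lit 81)) (XT.nd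 (nat_lit 78) (nat_lit 0) (nat_lit 0) (XT.lf (nat_lit 0) (nat_lit 15625031686) (nat_lit 1140) (nat_lit 1907825984) (nat_lit 1140) (nat_lit 1907825984) (nat_lit 159) (nat_lit 3) (nat_lit 174) (nat_lit 3) (nat_lit 174) (nat_lit 5) (nat_lit 336) (nat_lit 336) (nat_lit 108)) (XT.lf (nat_lit 76) (nat_lit 12878987380) (nat_lit 0) (nat_lit 19003003242) (nat_lit 1140) (nat_lit 7577615278) (nat_lit 160) (nat_lit 5) (nat_lit 159) (nat_lit 3) (nat_lit 174) (nat_lit 5) (nat_lit 337) (nat_lit 336) (nat_lit 107))))))))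
noncomputable def xc251 : XT := (XT.nd (nat_lit 1794) (nat_lit 532) (nat_lit 0) (XT.nd (nat_lit 858) (nat_lit 1672) (nat_lit 0) (XT.nd (nat_lit 390) (nat_lit 836) (nat_lit 0) (XT.nd (nat_lit 156) (nat_lit 0) (nat_lit 76) (XT.nd (nat_lit 78) (nat_lit 0) (nat_lit 76) (XT.lf (nat_lit 76) (nat_lit 30151874149) (nat_lit 0) (nat_lit 2417987649) (nat_lit 1140) (nat_lit 7484223649) (nat_lit 160) (nat_lit 5) (nat_lit 159) (nat_lit 3) (nat_lit 174) (nat_lit 5) (nat_lit 338) (nat_lit 336) (nat_lit 106)) (XT.lf (nat_lit 76) (nat_lit 7276738154) (nat_lit 0) (nat_lit 26211051669) (nat_lit 1140) (nat_lit 7172330218) (nat_lit 161) (nat_lit 5) (nat_lit 160) (nat_lit 5) (nat_lit 175) (nat_lit 5) (nat_lit 339) (nat_lit 336) (nat_lit 105))) (XT.nd (nat_lit 78) (nat_lit 0) (nat_lit 76) (XT.lf (nat_lit 76) (nat_lit 25148792562) (nat_lit 0) (nat_lit 9406704637) (nat_lit 1140) (nat_lit 6725174416) (nat_lit 161) (nat_lit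 5) (nat_lit 160) (nat_lit 5) (nat_lit 175) (nat_lit 5) (nat_lit 340) (nat_lit 336) (nat_lit 104)) (XT.nd (nat_lit 78) (nat_lit 0) (nat_lit 0) (XT.lf (nat_lit 76) (nat_lit 1591406925) (nat_lit 0) (nat_lit 34153674226) (nat_lit 1140) (nat_lit 6172066317) (nat_lit 162) (nat_lit 5) (nat_lit 161) (nat_lit 5) (nat_lit 176) (nat_lit 5) (nat_lit 341) (nat_lit 336) (nat_lit 103)) (XT.lf (nat_lit 76) (nat_lit 20081238994) (nat_lit 0) (nat_lit 17142860532) (nat_lit 1140) (nat_lit 5341008669) (nat_lit 162) (nat_lit 5) (nat_lit 161) (nat_lit 5) (nat_lit 176) (nat_lit 5) (nat_lit 342) (nat_lit 336) (nat_lit 102))))) (XT.nd (nat_lit 234) (nat_lit 1064) (nat_lit 0) (XT.nd (nat_lit 78) (nat_lit 0) (nat_lit 0) (XT.lf (nat_lit 0) (nat_lit 38749793628) (nat_lit 1064) (nat_lit 4111251988) (nat_lit 1140) (nat_lit 371395888) (nat_lit 162) (nat_lit 5) (nat_lit 176) (nat_lit 5) (nat_lit 177) (nat_lit 5) (nat_lit 343)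 (nat_lit 336) (nat_lit 101)) (XT.nd (nat_lit 78) (nat_lit 0) (nat_lit 0) (XT.lf (nat_lit 76) (nat_lit 14933367662) (nat_lit 0) (nat_lit 25699878558) (nat_lit 1140) (nat_lit 3277191794) (nat_lit 163) (nat_lit 5) (nat_lit 162) (nat_lit 5) (nat_lit 177) (nat_lit 5) (nat_lit 344) (nat_lit 336) (nat_lit 100)) (XT.lf (nat_lit 76) (nat_lit 34632762280) (nat_lit 0) (nat_lit 7980692966) (nat_lit 1140) (nat_lit 1994114336) (nat_lit 163) (nat_lit 5) (nat_lit 162) (nat_lit 5) (nat_lit 177) (nat_lit 5) (nat_lit 345) (nat_lit 336) (nat_lit 99)))) (XT.nd (nat_lit 78) (nat_lit 1140) (nat_lit 0) (XT.lf (nat_lit 76) (nat_lit 9686969960) (nat_lit 0) (nat_lit 35156717836) (nat_lit 1140) (nat_lit 476211453) (nat_lit 164) (nat_lit 5) (nat_lit 163) (nat_lit 5) (nat_lit 178) (nat_lit 5) (nat_lit 346) (nat_lit 336) (nat_lit 98)) (XT.nd (nat_lit 78) (nat_lit 0) (nat_lit 76) (XT.lf (nat_lit 0) (nat_lit 1245543854) (nat_lit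 1140) (nat_lit 15998845197) (nat_lit 1216) (nat_lit 28803512806) (nat_lit 148) (nat_lit 5) (nat_lit 163) (nat_lit 5) (nat_lit 164) (nat_lit 5) (nat_lit 347) (nat_lit 336) (nat_lit 97)) (XT.lf (nat_lit 0) (nat_lit 3061611901) (nat_lit 1140) (nat_lit 42505790433) (nat_lit 1216) (nat_lit 1228636257) (nat_lit 149) (nat_lit 5) (nat_lit 164) (nat_lit 5) (nat_lit 165) (nat_lit 5) (nat_lit 348) (nat_lit 336) (nat_lit 96)))))) (XT.nd (nat_lit 468) (nat_lit 1748) (nat_lit 0) (XT.nd (nat_lit 234) (nat_lit 0) (nat_lit 76) (XT.nd (nat_lit 78) (nat_lit 0) (nat_lit 0) (XT.lf (nat_lit 0) (nat_lit 5264910310) (nat_lit 1140) (nat_lit 22219017012) (nat_lit 1216) (nat_lit 20072712028) (nat_lit 149) (nat_lit 5) (nat_lit 164) (nat_lit 5) (nat_lit 165) (nat_lit 5) (nat_lit 349) (nat_lit 336) (nat_lit 95)) (XT.nd (nat_lit 78) (nat_lit 0) (nat_lit 76) (XT.lf (nat_lit 0) (nat_lit 7533196269) (nat_lit 1140) (nat_lit 1324497814)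 (nat_lit 1216) (nat_lit 39482399693) (nat_lit 149) (nat_lit 5) (nat_lit 164) (nat_lit 5) (nat_lit 165) (nat_lit 5) (nat_lit 350) (nat_lit 336) (nat_lit 94)) (XT.lf (nat_lit 0) (nat_lit 10167687362) (nat_lit 1140) (nat_lit 28644416785) (nat_lit 1216) (nat_lit 10326005226) (nat_lit 150) (nat_lit 5) (nat_lit 165) (nat_lit 5) (nat_lit 166) (nat_lit 5) (nat_lit 351) (nat_lit 336) (nat_lit 93)))) (XT.nd (nat_lit 78) (nat_lit 0) (nat_lit 0) (XT.lf (nat_lit 0) (nat_lit 12981367080) (nat_lit 1140) (nat_lit 7054777299) (nat_lit 1216) (nat_lit 29920918612) (nat_lit 150) (nat_lit 5) (nat_lit 165) (nat_lit 5) (nat_lit 166) (nat_lit 5) (nat_lit 352) (nat_lit 336) (nat_lit 92)) (XT.nd (nat_lit 78) (nat_lit 0) (nat_lit 76) (XT.lf (nat_lit 76) (nat_lit 15483861997) (nat_lit 0) (nat_lit 543412921) (nat_lit 1216) (nat_lit 34768877875) (nat_lit 151) (nat_lit 5) (nat_lit 150) (nat_lit 5) (nat_lit 166) (nat_lit 5)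 (nat_lit 353) (nat_lit 336) (nat_lit 91)) (XT.lf (nat_lit 0) (nat_lit 19423279352) (nat_lit 1140) (nat_lit 13004341522) (nat_lit 76) (nat_lit 19225034879) (nat_lit 151) (nat_lit 5) (nat_lit 166) (nat_lit 5) (nat_lit 152) (nat_lit 5) (nat_lit 354) (nat_lit 336) (nat_lit 90))))) (XT.nd (nat_lit 234) (nat_lit 532) (nat_lit 0) (XT.nd (nat_lit 78) (nat_lit 532) (nat_lit 0) (XT.lf (nat_lit 0) (nat_lit 10164985619) (nat_lit 836) (nat_lit 12858300666) (nat_lit 912) (nat_lit 29508505832) (nat_lit 140) (nat_lit 5) (nat_lit 151) (nat_lit 5) (nat_lit 152) (nat_lit 5) (nat_lit 355) (nat_lit 336) (nat_lit 89)) (XT.nd (nat_lit 78) (nat_lit 532) (nat_lit 0) (XT.lf (nat_lit 0) (nat_lit 26933117205) (nat_lit 912) (nat_lit 19209707340) (nat_lit 76) (nat_lit 7288425243) (nat_lit 140) (nat_lit 5) (nat_lit 152) (nat_lit 5) (nat_lit 141) (nat_lit 5) (nat_lit 356) (nat_lit 336) (nat_lit 88)) (XT.lf (nat_lit 0) (nat_lit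 4603797411) (nat_lit 532) (nat_lit 26527089144) (nat_lit 608) (nat_lit 23221687199) (nat_lit 133) (nat_lit 5) (nat_lit 140) (nat_lit 5) (nat_lit 141) (nat_lit 5) (nat_lit 357) (nat_lit 336) (nat_lit 87)))) (XT.nd (nat_lit 78) (nat_lit 532) (nat_lit 0) (XT.lf (nat_lit 0) (nat_lit 29524661508) (nat_lit 532) (nat_lit 6123005819) (nat_lit 608) (nat_lit 19648079581) (nat_lit 133) (nat_lit 5) (nat_lit 140) (nat_lit 5) (nat_lit 141) (nat_lit 5) (nat_lit 358) (nat_lit 336) (nat_lit 86)) (XT.nd (nat_lit 78) (nat_lit 532) (nat_lit 0) (XT.lf (nat_lit 0) (nat_lit 40442239017) (nat_lit 608) (nat_lit 1218056934) (nat_lit 76) (nat_lit 14602652443) (nat_lit 133) (nat_lit 5) (nat_lit 141) (nat_lit 5) (nat_lit 134) (nat_lit 5) (nat_lit 359) (nat_lit 336) (nat_lit 85)) (XT.lf (nat_lit 0) (nat_lit 24487980810) (nat_lit 532) (nat_lit 21187834752) (nat_lit 608) (nat_lit 11574497047) (nat_lit 126) (nat_lit 5) (nat_lit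 133) (nat_lit 5) (nat_lit 134) (nat_lit 5) (nat_lit 360) (nat_lit 336) (nat_lit 84))))))) (XT.nd (nat_lit 39546) (nat_lit 0) (nat_lit 1064) (XT.nd (nat_lit 39078) (nat_lit 0) (nat_lit 3116) (XT.nd (nat_lit 38844) (nat_lit 0) (nat_lit 3040) (XT.nd (nat_lit 156) (nat_lit 532) (nat_lit 0) (XT.lf (nat_lit 0) (nat_lit 50989370105) (nat_lit 532) (nat_lit 88496786) (nat_lit 608) (nat_lit 7189088497) (nat_lit 126) (nat_lit 5) (nat_lit 133) (nat_lit 5) (nat_lit 134) (nat_lit 5) (nat_lit 361) (nat_lit 336) (nat_lit 83)) (XT.nd (nat_lit 38610) (nat_lit 0) (nat_lit 3040) (XT.lf (nat_lit 0) (nat_lit 2817995695) (nat_lit 532) (nat_lit 13904226419) (nat_lit 76) (nat_lit 43643576947) (nat_lit 119) (nat_lit 5) (nat_lit 126) (nat_lit 5) (nat_lit 120) (nat_lit 5) (nat_lit 363) (nat_lit 336) (nat_lit 81)) (XT.lf (nat_lit 0) (nat_lit 16132779729) (nat_lit 1140) (nat_lit 1944934363) (nat_lit 1140) (nat_lit 1944934363)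 (nat_lit 159) (nat_lit 3) (nat_lit 174) (nat_lit 3) (nat_lit 174) (nat_lit 5) (nat_lit 337) (nat_lit 337) (nat_lit 106)))) (XT.nd (nat_lit 78) (nat_lit 0) (nat_lit 0) (XT.lf (nat_lit 76) (nat_lit 13305215168) (nat_lit 0) (nat_lit 19609340823) (nat_lit 1140) (nat_lit 7726388322) (nat_lit 160) (nat_lit 5) (nat_lit 159) (nat_lit 3) (nat_lit 174) (nat_lit 5) (nat_lit 338) (nat_lit 337) (nat_lit 105)) (XT.nd (nat_lit 78) (nat_lit 0) (nat_lit 76) (XT.lf (nat_lit 76) (nat_lit 31095127623) (nat_lit 0) (nat_lit 2525719011) (nat_lit 1140) (nat_lit 7632482965) (nat_lit 160) (nat_lit 5) (nat_lit 159) (nat_lit 3) (nat_lit 174) (nat_lit 5) (nat_lit 339) (nat_lit 337) (nat_lit 104)) (XT.lf (nat_lit 76) (nat_lit 7536048225) (nat_lit 0) (nat_lit 27028177928) (nat_lit 1140) (nat_lit 7313386377) (nat_lit 161) (nat_lit 5) (nat_lit 160) (nat_lit 5) (nat_lit 175) (nat_lit 5) (nat_lit 340) (nat_lit 337) (nat_lit 103)))))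 (XT.nd (nat_lit 234) (nat_lit 0) (nat_lit 152) (XT.nd (nat_lit 78) (nat_lit 0) (nat_lit 76) (XT.lf (nat_lit 76) (nat_lit 25943069860) (nat_lit 0) (nat_lit 9718803552) (nat_lit 1140) (nat_lit 6854974554) (nat_lit 161) (nat_lit 5) (nat_lit 160) (nat_lit 5) (nat_lit 175) (nat_lit 5) (nat_lit 341) (nat_lit 337) (nat_lit 102)) (XT.nd (nat_lit 78) (nat_lit 0) (nat_lit 0) (XT.lf (nat_lit 76) (nat_lit 1681078703) (nat_lit 0) (nat_lit 35204159782) (nat_lit 1140) (nat_lit 6287241243) (nat_lit 162) (nat_lit 5) (nat_lit 161) (nat_lit 5) (nat_lit 176) (nat_lit 5) (nat_lit 342) (nat_lit 337) (nat_lit 101)) (XT.lf (nat_lit 76) (nat_lit 20724384484) (nat_lit 0) (nat_lit 17682268026) (nat_lit 1140) (nat_lit 5433290324) (nat_lit 162) (nat_lit 5) (nat_lit 161) (nat_lit 5) (nat_lit 176) (nat_lit 5) (nat_lit 343) (nat_lit 337) (nat_lit 100)))) (XT.nd (nat_lit 78) (nat_lit 0) (nat_lit 0) (XT.lf (nat_lit 0) (nat_lit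 39975965606) (nat_lit 1064) (nat_lit 4192775555) (nat_lit 1140) (nat_lit 358623722) (nat_lit 162) (nat_lit 5) (nat_lit 176) (nat_lit 5) (nat_lit 177) (nat_lit 5) (nat_lit 344) (nat_lit 337) (nat_lit 99)) (XT.nd (nat_lit 78) (nat_lit 0) (nat_lit 0) (XT.lf (nat_lit 76) (nat_lit 15422772743) (nat_lit 0) (nat_lit 26491692330) (nat_lit 1140) (nat_lit 3311283980) (nat_lit 163) (nat_lit 5) (nat_lit 162) (nat_lit 5) (nat_lit 177) (nat_lit 5) (nat_lit 345) (nat_lit 337) (nat_lit 98)) (XT.lf (nat_lit 76) (nat_lit 35711943257) (nat_lit 0) (nat_lit 8240324837) (nat_lit 1140) (nat_lit 1991584788) (nat_lit 163) (nat_lit 5) (nat_lit 162) (nat_lit 5) (nat_lit 177) (nat_lit 5) (nat_lit 346) (nat_lit 337) (nat_lit 97)))))) (XT.nd (nat_lit 468) (nat_lit 1140) (nat_lit 0) (XT.nd (nat_lit 234) (nat_lit 0) (nat_lit 76) (XT.nd (nat_lit 78) (nat_lit 1140) (nat_lit 0) (XT.lf (nat_lit 76) (nat_lit 10019500176) (nat_lit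 0) (nat_lit 36228362302) (nat_lit 1140) (nat_lit 429740146) (nat_lit 164) (nat_lit 5) (nat_lit 163) (nat_lit 5) (nat_lit 178) (nat_lit 5) (nat_lit 347) (nat_lit 337) (nat_lit 96)) (XT.nd (nat_lit 78) (nat_lit 0) (nat_lit 76) (XT.lf (nat_lit 0) (nat_lit 1340747112) (nat_lit 1140) (nat_lit 16436839018) (nat_lit 1216) (nat_lit 29649897321) (nat_lit 148) (nat_lit 5) (nat_lit 163) (nat_lit 5) (nat_lit 164) (nat_lit 5) (nat_lit 348) (nat_lit 337) (nat_lit 95)) (XT.lf (nat_lit 0) (nat_lit 3209868019) (nat_lit 1140) (nat_lit 43737446584) (nat_lit 1216) (nat_lit 1250796066) (nat_lit 149) (nat_lit 5) (nat_lit 164) (nat_lit 5) (nat_lit 165) (nat_lit 5) (nat_lit 349) (nat_lit 337) (nat_lit 94)))) (XT.nd (nat_lit 78) (nat_lit 0) (nat_lit 0) (XT.lf (nat_lit 0) (nat_lit 5477622436) (nat_lit 1140) (nat_lit 22843337462) (nat_lit 1216) (nat_lit 20660622245) (nat_lit 149) (nat_lit 5) (nat_lit 164) (nat_lit 5) (nat_lit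 165) (nat_lit 5) (nat_lit 350) (nat_lit 337) (nat_lit 93)) (XT.nd (nat_lit 78) (nat_lit 0) (nat_lit 76) (XT.lf (nat_lit 0) (nat_lit 7812361882) (nat_lit 1140) (nat_lit 1323213272) (nat_lit 1216) (nat_lit 40653016203) (nat_lit 149) (nat_lit 5) (nat_lit 164) (nat_lit 5) (nat_lit 165) (nat_lit 5) (nat_lit 351) (nat_lit 337) (nat_lit 92)) (XT.lf (nat_lit 0) (nat_lit 10524619986) (nat_lit 1140) (nat_lit 29461355159) (nat_lit 1216) (nat_lit 10624613518) (nat_lit 150) (nat_lit 5) (nat_lit 165) (nat_lit 5) (nat_lit 166) (nat_lit 5) (nat_lit 352) (nat_lit 337) (nat_lit 91))))) (XT.nd (nat_lit 234) (nat_lit 1292) (nat_lit 0) (XT.nd (nat_lit 78) (nat_lit 0) (nat_lit 0) (XT.lf (nat_lit 0) (nat_lit 13421198386) (nat_lit 1140) (nat_lit 7225261269) (nat_lit 1216) (nat_lit 30807699700) (nat_lit 150) (nat_lit 5) (nat_lit 165) (nat_lit 5) (nat_lit 166) (nat_lit 5) (nat_lit 353) (nat_lit 337) (nat_lit 90)) (XT.nd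 (nat_lit 78) (nat_lit 0) (nat_lit 76) (XT.lf (nat_lit 76) (nat_lit 15989133683) (nat_lit 0) (nat_lit 568273868) (nat_lit 1216) (nat_lit 35761049602) (nat_lit 151) (nat_lit 5) (nat_lit 150) (nat_lit 5) (nat_lit 166) (nat_lit 5) (nat_lit 354) (nat_lit 337) (nat_lit 89)) (XT.lf (nat_lit 0) (nat_lit 20053775903) (nat_lit 1140) (nat_lit 13353288931) (nat_lit 76) (nat_lit 19793638789) (nat_lit 151) (nat_lit 5) (nat_lit 166) (nat_lit 5) (nat_lit 152) (nat_lit 5) (nat_lit 355) (nat_lit 337) (nat_lit 88)))) (XT.nd (nat_lit 78) (nat_lit 532) (nat_lit 0) (XT.lf (nat_lit 0) (nat_lit 10510714270) (nat_lit 836) (nat_lit 13250068588) (nat_lit 912) (nat_lit 30345464077) (nat_lit 140) (nat_lit 5) (nat_lit 151) (nat_lit 5) (nat_lit 152) (nat_lit 5) (nat_lit 356) (nat_lit 337) (nat_lit 87)) (XT.nd (nat_lit 78) (nat_lit 532) (nat_lit 0) (XT.lf (nat_lit 0) (nat_lit 27786489485) (nat_lit 912) (nat_lit 19744895758)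 (nat_lit 76) (nat_lit 7501348436) (nat_lit 140) (nat_lit 5) (nat_lit 152) (nat_lit 5) (nat_lit 141) (nat_lit 5) (nat_lit 357) (nat_lit 337) (nat_lit 86)) (XT.lf (nat_lit 0) (nat_lit 4782611168) (nat_lit 532) (nat_lit 27326650268) (nat_lit 608) (nat_lit 23872466530) (nat_lit 133) (nat_lit 5) (nat_lit 140) (nat_lit 5) (nat_lit 141) (nat_lit 5) (nat_lit 358) (nat_lit 337) (nat_lit 85))))))))
noncomputable def xc252 : XT := (XT.nd (nat_lit 40404) (nat_lit 0) (nat_lit 456) (XT.nd (nat_lit 39468) (nat_lit 0) (nat_lit 2128) (XT.nd (nat_lit 39000) (nat_lit 0) (nat_lit 2964) (XT.nd (nat_lit 156) (nat_lit 988) (nat_lit 0) (XT.nd (nat_lit 78) (nat_lit 0) (nat_lit 0) (XT.lf (nat_lit 0) (nat_lit 30449915755) (nat_lit 532) (nat_lit 6310335266) (nat_lit 608) (nat_lit 20192986739) (nat_lit 133) (nat_lit 5) (nat_lit 140) (nat_lit 5) (nat_lit 141) (nat_lit 5) (nat_lit 359) (nat_lit 337) (nat_lit 84)) (XT.lf (nat_lit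 0) (nat_lit 41697368994) (nat_lit 608) (nat_lit 1214859866) (nat_lit 76) (nat_lit 15037267690) (nat_lit 133) (nat_lit 5) (nat_lit 141) (nat_lit 5) (nat_lit 134) (nat_lit 5) (nat_lit 360) (nat_lit 337) (nat_lit 83))) (XT.nd (nat_lit 78) (nat_lit 456) (nat_lit 0) (XT.lf (nat_lit 0) (nat_lit 25261969415) (nat_lit 532) (nat_lit 21825142363) (nat_lit 608) (nat_lit 11879397602) (nat_lit 126) (nat_lit 5) (nat_lit 133) (nat_lit 5) (nat_lit 134) (nat_lit 5) (nat_lit 361) (nat_lit 337) (nat_lit 82)) (XT.nd (nat_lit 78) (nat_lit 456) (nat_lit 0) (XT.lf (nat_lit 0) (nat_lit 52557254296) (nat_lit 532) (nat_lit 92775543) (nat_lit 608) (nat_lit 7363659835) (nat_lit 126) (nat_lit 5) (nat_lit 133) (nat_lit 5) (nat_lit 134) (nat_lit 5) (nat_lit 362) (nat_lit 337) (nat_lit 81)) (XT.lf (nat_lit 0) (nat_lit 19749459840) (nat_lit 456) (nat_lit 39033738068) (nat_lit 532) (nat_lit 2296988116) (nat_lit 120) (nat_lit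 5) (nat_lit 126) (nat_lit 5) (nat_lit 127) (nat_lit 5) (nat_lit 363) (nat_lit 337) (nat_lit 80))))) (XT.nd (nat_lit 234) (nat_lit 0) (nat_lit 76) (XT.nd (nat_lit 78) (nat_lit 0) (nat_lit 0) (XT.lf (nat_lit 0) (nat_lit 16653521620) (nat_lit 1140) (nat_lit 1984311331) (nat_lit 1140) (nat_lit 1984311331) (nat_lit 159) (nat_lit 3) (nat_lit 174) (nat_lit 3) (nat_lit 174) (nat_lit 5) (nat_lit 338) (nat_lit 338) (nat_lit 104)) (XT.nd (nat_lit 78) (nat_lit 0) (nat_lit 0) (XT.lf (nat_lit 76) (nat_lit 13741941767) (nat_lit 0) (nat_lit 20231787778) (nat_lit 1140) (nat_lit 7884133959) (nat_lit 160) (nat_lit 5) (nat_lit 159) (nat_lit 3) (nat_lit 174) (nat_lit 5) (nat_lit 339) (nat_lit 338) (nat_lit 103)) (XT.lf (nat_lit 76) (nat_lit 32064457320) (nat_lit 0) (nat_lit 2634662163) (nat_lit 1140) (nat_lit 7789568121) (nat_lit 160) (nat_lit 5) (nat_lit 159) (nat_lit 3) (nat_lit 174) (nat_lit 5) (nat_lit 340) (nat_lit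 338) (nat_lit 102)))) (XT.nd (nat_lit 78) (nat_lit 0) (nat_lit 0) (XT.lf (nat_lit 76) (nat_lit 7800783576) (nat_lit 0) (nat_lit 27868050233) (nat_lit 1140) (nat_lit 7462928654) (nat_lit 161) (nat_lit 5) (nat_lit 160) (nat_lit 5) (nat_lit 175) (nat_lit 5) (nat_lit 341) (nat_lit 338) (nat_lit 101)) (XT.nd (nat_lit 78) (nat_lit 0) (nat_lit 76) (XT.lf (nat_lit 76) (nat_lit 26758890018) (nat_lit 0) (nat_lit 10038549179) (nat_lit 1140) (nat_lit 6992799213) (nat_lit 161) (nat_lit 5) (nat_lit 160) (nat_lit 5) (nat_lit 175) (nat_lit 5) (nat_lit 342) (nat_lit 338) (nat_lit 100)) (XT.lf (nat_lit 76) (nat_lit 1771033705) (nat_lit 0) (nat_lit 36284674554) (nat_lit 1140) (nat_lit 6409888960) (nat_lit 162) (nat_lit 5) (nat_lit 161) (nat_lit 5) (nat_lit 176) (nat_lit 5) (nat_lit 343) (nat_lit 338) (nat_lit 99)))))) (XT.nd (nat_lit 468) (nat_lit 0) (nat_lit 76) (XT.nd (nat_lit 234) (nat_lit 988) (nat_lit 0) (XT.nd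 (nat_lit 78) (nat_lit 0) (nat_lit 76) (XT.lf (nat_lit 76) (nat_lit 21384487515) (nat_lit 0) (nat_lit 18236415658) (nat_lit 1140) (nat_lit 5532240956) (nat_lit 162) (nat_lit 5) (nat_lit 161) (nat_lit 5) (nat_lit 176) (nat_lit 5) (nat_lit 344) (nat_lit 338) (nat_lit 98)) (XT.nd (nat_lit 78) (nat_lit 0) (nat_lit 0) (XT.lf (nat_lit 0) (nat_lit 41235267356) (nat_lit 1064) (nat_lit 4279145124) (nat_lit 1140) (nat_lit 346841155) (nat_lit 162) (nat_lit 5) (nat_lit 176) (nat_lit 5) (nat_lit 177) (nat_lit 5) (nat_lit 345) (nat_lit 338) (nat_lit 97)) (XT.lf (nat_lit 76) (nat_lit 15924483215) (nat_lit 0) (nat_lit 27306065509) (nat_lit 1140) (nat_lit 3350085628) (nat_lit 163) (nat_lit 5) (nat_lit 162) (nat_lit 5) (nat_lit 177) (nat_lit 5) (nat_lit 346) (nat_lit 338) (nat_lit 96)))) (XT.nd (nat_lit 78) (nat_lit 1064) (nat_lit 0) (XT.lf (nat_lit 76) (nat_lit 36821192127) (nat_lit 0) (nat_lit 8506585466) (nat_lit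 1140) (nat_lit 1992558670) (nat_lit 163) (nat_lit 5) (nat_lit 162) (nat_lit 5) (nat_lit 177) (nat_lit 5) (nat_lit 347) (nat_lit 338) (nat_lit 95)) (XT.nd (nat_lit 78) (nat_lit 1140) (nat_lit 0) (XT.lf (nat_lit 76) (nat_lit 10359599854) (nat_lit 0) (nat_lit 37331183509) (nat_lit 1140) (nat_lit 385362437) (nat_lit 164) (nat_lit 5) (nat_lit 163) (nat_lit 5) (nat_lit 178) (nat_lit 5) (nat_lit 348) (nat_lit 338) (nat_lit 94)) (XT.lf (nat_lit 0) (nat_lit 1435486391) (nat_lit 1140) (nat_lit 16890381993) (nat_lit 1216) (nat_lit 30522690622) (nat_lit 148) (nat_lit 5) (nat_lit 163) (nat_lit 5) (nat_lit 164) (nat_lit 5) (nat_lit 349) (nat_lit 338) (nat_lit 93))))) (XT.nd (nat_lit 234) (nat_lit 0) (nat_lit 76) (XT.nd (nat_lit 78) (nat_lit 0) (nat_lit 0) (XT.lf (nat_lit 0) (nat_lit 3359333785) (nat_lit 1140) (nat_lit 45008550506) (nat_lit 1216) (nat_lit 1274464468) (nat_lit 149) (nat_lit 5) (nat_lit 164)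 (nat_lit 5) (nat_lit 165) (nat_lit 5) (nat_lit 350) (nat_lit 338) (nat_lit 92)) (XT.nd (nat_lit 78) (nat_lit 0) (nat_lit 0) (XT.lf (nat_lit 0) (nat_lit 5693572201) (nat_lit 1140) (nat_lit 23488812852) (nat_lit 1216) (nat_lit 21266988990) (nat_lit 149) (nat_lit 5) (nat_lit 164) (nat_lit 5) (nat_lit 165) (nat_lit 5) (nat_lit 351) (nat_lit 338) (nat_lit 91)) (XT.lf (nat_lit 0) (nat_lit 8096850304) (nat_lit 1140) (nat_lit 1324244880) (nat_lit 1216) (nat_lit 41859546571) (nat_lit 149) (nat_lit 5) (nat_lit 164) (nat_lit 5) (nat_lit 165) (nat_lit 5) (nat_lit 352) (nat_lit 338) (nat_lit 90)))) (XT.nd (nat_lit 78) (nat_lit 0) (nat_lit 0) (XT.lf (nat_lit 0) (nat_lit 10889281200) (nat_lit 1140) (nat_lit 30305235281) (nat_lit 1216) (nat_lit 10932821370) (nat_lit 150) (nat_lit 5) (nat_lit 165) (nat_lit 5) (nat_lit 166) (nat_lit 5) (nat_lit 353) (nat_lit 338) (nat_lit 89)) (XT.nd (nat_lit 78) (nat_lit 0) (nat_lit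 0) (XT.lf (nat_lit 0) (nat_lit 13871332023) (nat_lit 1140) (nat_lit 7403222473) (nat_lit 1216) (nat_lit 31721706852) (nat_lit 150) (nat_lit 5) (nat_lit 165) (nat_lit 5) (nat_lit 166) (nat_lit 5) (nat_lit 354) (nat_lit 338) (nat_lit 88)) (XT.lf (nat_lit 76) (nat_lit 16507223968) (nat_lit 0) (nat_lit 593389346) (nat_lit 1216) (nat_lit 36785908039) (nat_lit 151) (nat_lit 5) (nat_lit 150) (nat_lit 5) (nat_lit 166) (nat_lit 5) (nat_lit 355) (nat_lit 338) (nat_lit 87))))))) (XT.nd (nat_lit 39702) (nat_lit 0) (nat_lit 1672) (XT.nd (nat_lit 468) (nat_lit 532) (nat_lit 0) (XT.nd (nat_lit 156) (nat_lit 532) (nat_lit 0) (XT.nd (nat_lit 78) (nat_lit 836) (nat_lit 0) (XT.lf (nat_lit 0) (nat_lit 20700443540) (nat_lit 1140) (nat_lit 13715068827) (nat_lit 76) (nat_lit 20379768495) (nat_lit 151) (nat_lit 5) (nat_lit 166) (nat_lit 5) (nat_lit 152) (nat_lit 5) (nat_lit 356) (nat_lit 338) (nat_lit 86)) (XT.lf (nat_lit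 0) (nat_lit 10864473894) (nat_lit 836) (nat_lit 13653244037) (nat_lit 912) (nat_lit 31210303510) (nat_lit 140) (nat_lit 5) (nat_lit 151) (nat_lit 5) (nat_lit 152) (nat_lit 5) (nat_lit 357) (nat_lit 338) (nat_lit 85))) (XT.nd (nat_lit 78) (nat_lit 532) (nat_lit 0) (XT.lf (nat_lit 0) (nat_lit 28662858006) (nat_lit 912) (nat_lit 20298499297) (nat_lit 76) (nat_lit 7720988226) (nat_lit 140) (nat_lit 5) (nat_lit 152) (nat_lit 5) (nat_lit 141) (nat_lit 5) (nat_lit 358) (nat_lit 338) (nat_lit 84)) (XT.nd (nat_lit 78) (nat_lit 0) (nat_lit 0) (XT.lf (nat_lit 0) (nat_lit 4964452999) (nat_lit 532) (nat_lit 28149983050) (nat_lit 608) (nat_lit 24545402439) (nat_lit 133) (nat_lit 5) (nat_lit 140) (nat_lit 5) (nat_lit 141) (nat_lit 5) (nat_lit 359) (nat_lit 338) (nat_lit 83)) (XT.lf (nat_lit 0) (nat_lit 31400659341) (nat_lit 532) (nat_lit 6503075686) (nat_lit 608) (nat_lit 20756797617) (nat_lit 133) (nat_lit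 5) (nat_lit 140) (nat_lit 5) (nat_lit 141) (nat_lit 5) (nat_lit 360) (nat_lit 338) (nat_lit 82))))) (XT.nd (nat_lit 39000) (nat_lit 0) (nat_lit 2508) (XT.nd (nat_lit 38844) (nat_lit 0) (nat_lit 2508) (XT.lf (nat_lit 0) (nat_lit 26056918874) (nat_lit 532) (nat_lit 22481473191) (nat_lit 608) (nat_lit 12195875339) (nat_lit 126) (nat_lit 5) (nat_lit 133) (nat_lit 5) (nat_lit 134) (nat_lit 5) (nat_lit 362) (nat_lit 338) (nat_lit 80)) (XT.nd (nat_lit 78) (nat_lit 0) (nat_lit 0) (XT.lf (nat_lit 0) (nat_lit 17187775680) (nat_lit 1140) (nat_lit 2025958624) (nat_lit 1140) (nat_lit 2025958624) (nat_lit 159) (nat_lit 3) (nat_lit 174) (nat_lit 3) (nat_lit 174) (nat_lit 5) (nat_lit 339) (nat_lit 339) (nat_lit 102)) (XT.lf (nat_lit 76) (nat_lit 14189613485) (nat_lit 0) (nat_lit 20870946831) (nat_lit 1140) (nat_lit 8050862508) (nat_lit 160) (nat_lit 5) (nat_lit 159) (nat_lit 3) (nat_lit 174) (nat_lit 5) (nat_lit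 340) (nat_lit 339) (nat_lit 101)))) (XT.nd (nat_lit 78) (nat_lit 0) (nat_lit 76) (XT.lf (nat_lit 76) (nat_lit 33060773044) (nat_lit 0) (nat_lit 2744969426) (nat_lit 1140) (nat_lit 7955492574) (nat_lit 160) (nat_lit 5) (nat_lit 159) (nat_lit 3) (nat_lit 174) (nat_lit 5) (nat_lit 341) (nat_lit 339) (nat_lit 100)) (XT.nd (nat_lit 78) (nat_lit 0) (nat_lit 0) (XT.lf (nat_lit 76) (nat_lit 8071242096) (nat_lit 0) (nat_lit 28731452440) (nat_lit 1140) (nat_lit 7620967408) (nat_lit 161) (nat_lit 5) (nat_lit 160) (nat_lit 5) (nat_lit 175) (nat_lit 5) (nat_lit 342) (nat_lit 339) (nat_lit 99)) (XT.lf (nat_lit 76) (nat_lit 27597030517) (nat_lit 0) (nat_lit 10366269441) (nat_lit 1140) (nat_lit 7138652020) (nat_lit 161) (nat_lit 5) (nat_lit 160) (nat_lit 5) (nat_lit 175) (nat_lit 5) (nat_lit 343) (nat_lit 339) (nat_lit 98)))))) (XT.nd (nat_lit 468) (nat_lit 988) (nat_lit 0) (XT.nd (nat_lit 234) (nat_lit 0) (nat_lit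 76) (XT.nd (nat_lit 78) (nat_lit 0) (nat_lit 0) (XT.lf (nat_lit 76) (nat_lit 1861418597) (nat_lit 0) (nat_lit 37396204685) (nat_lit 1140) (nat_lit 6540003030) (nat_lit 162) (nat_lit 5) (nat_lit 161) (nat_lit 5) (nat_lit 176) (nat_lit 5) (nat_lit 344) (nat_lit 339) (nat_lit 97)) (XT.nd (nat_lit 78) (nat_lit 0) (nat_lit 76) (XT.lf (nat_lit 76) (nat_lit 22062190957) (nat_lit 0) (nat_lit 18805828413) (nat_lit 1140) (nat_lit 5637836728) (nat_lit 162) (nat_lit 5) (nat_lit 161) (nat_lit 5) (nat_lit 176) (nat_lit 5) (nat_lit 345) (nat_lit 339) (nat_lit 96)) (XT.lf (nat_lit 0) (nat_lit 42528902605) (nat_lit 1064) (nat_lit 4370368286) (nat_lit 1140) (nat_lit 335999072) (nat_lit 162) (nat_lit 5) (nat_lit 176) (nat_lit 5) (nat_lit 177) (nat_lit 5) (nat_lit 346) (nat_lit 339) (nat_lit 95)))) (XT.nd (nat_lit 78) (nat_lit 0) (nat_lit 0) (XT.lf (nat_lit 76) (nat_lit 16439004675) (nat_lit 0) (nat_lit 28143743478)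 (nat_lit 1140) (nat_lit 3393526389) (nat_lit 163) (nat_lit 5) (nat_lit 162) (nat_lit 5) (nat_lit 177) (nat_lit 5) (nat_lit 347) (nat_lit 339) (nat_lit 94)) (XT.nd (nat_lit 78) (nat_lit 0) (nat_lit 76) (XT.lf (nat_lit 76) (nat_lit 37961543389) (nat_lit 0) (nat_lit 8779740314) (nat_lit 1140) (nat_lit 1996935616) (nat_lit 163) (nat_lit 5) (nat_lit 162) (nat_lit 5) (nat_lit 177) (nat_lit 5) (nat_lit 348) (nat_lit 339) (nat_lit 93)) (XT.lf (nat_lit 76) (nat_lit 10707634219) (nat_lit 0) (nat_lit 38466172589) (nat_lit 1140) (nat_lit 342940924) (nat_lit 164) (nat_lit 5) (nat_lit 163) (nat_lit 5) (nat_lit 178) (nat_lit 5) (nat_lit 349) (nat_lit 339) (nat_lit 92))))) (XT.nd (nat_lit 234) (nat_lit 0) (nat_lit 76) (XT.nd (nat_lit 78) (nat_lit 0) (nat_lit 76) (XT.lf (nat_lit 0) (nat_lit 1529938357) (nat_lit 1140) (nat_lit 17359802288) (nat_lit 1216) (nat_lit 31422626579) (nat_lit 148) (nat_lit 5) (nat_lit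 163) (nat_lit 5) (nat_lit 164) (nat_lit 5) (nat_lit 350) (nat_lit 339) (nat_lit 91)) (XT.nd (nat_lit 78) (nat_lit 0) (nat_lit 0) (XT.lf (nat_lit 0) (nat_lit 3510231363) (nat_lit 1140) (nat_lit 46320142231) (nat_lit 1216) (nat_lit 1299638283) (nat_lit 149) (nat_lit 5) (nat_lit 164) (nat_lit 5) (nat_lit 165) (nat_lit 5) (nat_lit 351) (nat_lit 339) (nat_lit 90)) (XT.lf (nat_lit 0) (nat_lit 5913037198) (nat_lit 1140) (nat_lit 24155938606) (nat_lit 1216) (nat_lit 21892318932) (nat_lit 149) (nat_lit 5) (nat_lit 164) (nat_lit 5) (nat_lit 165) (nat_lit 5) (nat_lit 352) (nat_lit 339) (nat_lit 89)))) (XT.nd (nat_lit 78) (nat_lit 0) (nat_lit 76) (XT.lf (nat_lit 0) (nat_lit 8386996425) (nat_lit 1140) (nat_lit 1327526954) (nat_lit 1216) (nat_lit 43103022553) (nat_lit 149) (nat_lit 5) (nat_lit 164) (nat_lit 5) (nat_lit 165) (nat_lit 5) (nat_lit 353) (nat_lit 339) (nat_lit 88)) (XT.nd (nat_lit 78) (nat_lit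 0) (nat_lit 0) (XT.lf (nat_lit 0) (nat_lit 11262073894) (nat_lit 1140) (nat_lit 31176725704) (nat_lit 1216) (nat_lit 11250879954) (nat_lit 150) (nat_lit 5) (nat_lit 165) (nat_lit 5) (nat_lit 166) (nat_lit 5) (nat_lit 354) (nat_lit 339) (nat_lit 87)) (XT.lf (nat_lit 0) (nat_lit 14332243107) (nat_lit 1140) (nat_lit 7588749599) (nat_lit 1216) (nat_lit 32663721109) (nat_lit 150) (nat_lit 5) (nat_lit 165) (nat_lit 5) (nat_lit 166) (nat_lit 5) (nat_lit 355) (nat_lit 339) (nat_lit 86))))))))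
noncomputable def xc253 : XT := (XT.nd (nat_lit 40794) (nat_lit 0) (nat_lit 0) (XT.nd (nat_lit 39858) (nat_lit 0) (nat_lit 1140) (XT.nd (nat_lit 39390) (nat_lit 0) (nat_lit 1976) (XT.nd (nat_lit 156) (nat_lit 1292) (nat_lit 0) (XT.nd (nat_lit 78) (nat_lit 0) (nat_lit 76) (XT.lf (nat_lit 76) (nat_lit 17038651711) (nat_lit 0) (nat_lit 618795196) (nat_lit 1216) (nat_lit 37844266078) (nat_lit 151) (nat_lit 5) (nat_lit 150) (nat_lit 5) (nat_lit 166) (nat_lit 5) (nat_lit 356) (nat_lit 339) (nat_lit 85)) (XT.lf (nat_lit 0) (nat_lit 21363924901) (nat_lit 1140) (nat_lit 14089930475) (nat_lit 76) (nat_lit 20983922924) (nat_lit 151) (nat_lit 5) (nat_lit 166) (nat_lit 5) (nat_lit 152) (nat_lit 5) (nat_lit 357) (nat_lit 339) (nat_lit 84))) (XT.nd (nat_lit 78) (nat_lit 532) (nat_lit 0) (XT.lf (nat_lit 0) (nat_lit 11226639798) (nat_lit 836) (nat_lit 14068189074) (nat_lit 912) (nat_lit 32103701418) (nat_lit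 140) (nat_lit 5) (nat_lit 151) (nat_lit 5) (nat_lit 152) (nat_lit 5) (nat_lit 358) (nat_lit 339) (nat_lit 83)) (XT.nd (nat_lit 156) (nat_lit 532) (nat_lit 0) (XT.lf (nat_lit 0) (nat_lit 29563062190) (nat_lit 912) (nat_lit 20870934968) (nat_lit 76) (nat_lit 7947527229) (nat_lit 140) (nat_lit 5) (nat_lit 152) (nat_lit 5) (nat_lit 141) (nat_lit 5) (nat_lit 359) (nat_lit 339) (nat_lit 82)) (XT.lf (nat_lit 0) (nat_lit 32377787155) (nat_lit 532) (nat_lit 6701401403) (nat_lit 608) (nat_lit 21339932572) (nat_lit 133) (nat_lit 5) (nat_lit 140) (nat_lit 5) (nat_lit 141) (nat_lit 5) (nat_lit 361) (nat_lit 339) (nat_lit 80))))) (XT.nd (nat_lit 234) (nat_lit 0) (nat_lit 76) (XT.nd (nat_lit 78) (nat_lit 0) (nat_lit 0) (XT.lf (nat_lit 0) (nat_lit 17736068401) (nat_lit 1140) (nat_lit 2069881839) (nat_lit 1140) (nat_lit 2069881839) (nat_lit 159) (nat_lit 3) (nat_lit 174) (nat_lit 3) (nat_lit 174) (nat_lit 5)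 (nat_lit 340) (nat_lit 340) (nat_lit 100)) (XT.nd (nat_lit 78) (nat_lit 0) (nat_lit 0) (XT.lf (nat_lit 76) (nat_lit 14648682476) (nat_lit 0) (nat_lit 21527431933) (nat_lit 1140) (nat_lit 8226599460) (nat_lit 160) (nat_lit 5) (nat_lit 159) (nat_lit 3) (nat_lit 174) (nat_lit 5) (nat_lit 341) (nat_lit 340) (nat_lit 99)) (XT.lf (nat_lit 76) (nat_lit 34085004572) (nat_lit 0) (nat_lit 2856791030) (nat_lit 1140) (nat_lit 8130284610) (nat_lit 160) (nat_lit 5) (nat_lit 159) (nat_lit 3) (nat_lit 174) (nat_lit 5) (nat_lit 342) (nat_lit 340) (nat_lit 98)))) (XT.nd (nat_lit 78) (nat_lit 0) (nat_lit 0) (XT.lf (nat_lit 76) (nat_lit 8347722852) (nat_lit 0) (nat_lit 29619186098) (nat_lit 1140) (nat_lit 7787527334) (nat_lit 161) (nat_lit 5) (nat_lit 160) (nat_lit 5) (nat_lit 175) (nat_lit 5) (nat_lit 343) (nat_lit 340) (nat_lit 97)) (XT.nd (nat_lit 78) (nat_lit 0) (nat_lit 76) (XT.lf (nat_lit 76) (nat_lit 28458284629)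 (nat_lit 0) (nat_lit 10702296441) (nat_lit 1140) (nat_lit 7292550321) (nat_lit 161) (nat_lit 5) (nat_lit 160) (nat_lit 5) (nat_lit 175) (nat_lit 5) (nat_lit 344) (nat_lit 340) (nat_lit 96)) (XT.lf (nat_lit 76) (nat_lit 1952376510) (nat_lit 0) (nat_lit 38539761006) (nat_lit 1140) (nat_lit 6677590056) (nat_lit 162) (nat_lit 5) (nat_lit 161) (nat_lit 5) (nat_lit 176) (nat_lit 5) (nat_lit 345) (nat_lit 340) (nat_lit 95)))))) (XT.nd (nat_lit 468) (nat_lit 0) (nat_lit 76) (XT.nd (nat_lit 234) (nat_lit 988) (nat_lit 0) (XT.nd (nat_lit 78) (nat_lit 0) (nat_lit 76) (XT.lf (nat_lit 76) (nat_lit 22758149263) (nat_lit 0) (nat_lit 19391042276) (nat_lit 1140) (nat_lit 5750065943) (nat_lit 162) (nat_lit 5) (nat_lit 161) (nat_lit 5) (nat_lit 176) (nat_lit 5) (nat_lit 346) (nat_lit 340) (nat_lit 94)) (XT.nd (nat_lit 78) (nat_lit 0) (nat_lit 0) (XT.lf (nat_lit 0) (nat_lit 43858099147) (nat_lit 1064) (nat_lit 4466460775)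 (nat_lit 1140) (nat_lit 326051411) (nat_lit 162) (nat_lit 5) (nat_lit 176) (nat_lit 5) (nat_lit 177) (nat_lit 5) (nat_lit 347) (nat_lit 340) (nat_lit 93)) (XT.lf (nat_lit 76) (nat_lit 16966850057) (nat_lit 0) (nat_lit 29005490039) (nat_lit 1140) (nat_lit 3441545954) (nat_lit 163) (nat_lit 5) (nat_lit 162) (nat_lit 5) (nat_lit 177) (nat_lit 5) (nat_lit 348) (nat_lit 340) (nat_lit 92)))) (XT.nd (nat_lit 78) (nat_lit 1064) (nat_lit 0) (XT.lf (nat_lit 76) (nat_lit 39134054974) (nat_lit 0) (nat_lit 9060058986) (nat_lit 1140) (nat_lit 2004624047) (nat_lit 163) (nat_lit 5) (nat_lit 162) (nat_lit 5) (nat_lit 177) (nat_lit 5) (nat_lit 349) (nat_lit 340) (nat_lit 91)) (XT.nd (nat_lit 78) (nat_lit 1140) (nat_lit 0) (XT.lf (nat_lit 76) (nat_lit 11063971521) (nat_lit 0) (nat_lit 39634347205) (nat_lit 1140) (nat_lit 302345575) (nat_lit 164) (nat_lit 5) (nat_lit 163) (nat_lit 5) (nat_lit 178) (nat_lit 5) (nat_lit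 350) (nat_lit 340) (nat_lit 90)) (XT.lf (nat_lit 0) (nat_lit 1624274036) (nat_lit 1140) (nat_lit 17845445857) (nat_lit 1216) (nat_lit 32350464428) (nat_lit 148) (nat_lit 5) (nat_lit 163) (nat_lit 5) (nat_lit 164) (nat_lit 5) (nat_lit 351) (nat_lit 340) (nat_lit 89))))) (XT.nd (nat_lit 234) (nat_lit 0) (nat_lit 76) (XT.nd (nat_lit 78) (nat_lit 0) (nat_lit 0) (XT.lf (nat_lit 0) (nat_lit 3662778916) (nat_lit 1140) (nat_lit 47673301225) (nat_lit 1216) (nat_lit 1326317017) (nat_lit 149) (nat_lit 5) (nat_lit 164) (nat_lit 5) (nat_lit 165) (nat_lit 5) (nat_lit 352) (nat_lit 340) (nat_lit 88)) (XT.nd (nat_lit 78) (nat_lit 0) (nat_lit 0) (XT.lf (nat_lit 0) (nat_lit 6136292985) (nat_lit 1140) (nat_lit 24845233004) (nat_lit 1216) (nat_lit 22537136642) (nat_lit 149) (nat_lit 5) (nat_lit 164) (nat_lit 5) (nat_lit 165) (nat_lit 5) (nat_lit 353) (nat_lit 340) (nat_lit 87)) (XT.lf (nat_lit 0) (nat_lit 8683135125)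 (nat_lit 1140) (nat_lit 1332999597) (nat_lit 1216) (nat_lit 44384509483) (nat_lit 149) (nat_lit 5) (nat_lit 164) (nat_lit 5) (nat_lit 165) (nat_lit 5) (nat_lit 354) (nat_lit 340) (nat_lit 86)))) (XT.nd (nat_lit 78) (nat_lit 0) (nat_lit 0) (XT.lf (nat_lit 0) (nat_lit 11643403221) (nat_lit 1140) (nat_lit 32076523059) (nat_lit 1216) (nat_lit 11579050092) (nat_lit 150) (nat_lit 5) (nat_lit 165) (nat_lit 5) (nat_lit 166) (nat_lit 5) (nat_lit 355) (nat_lit 340) (nat_lit 85)) (XT.nd (nat_lit 78) (nat_lit 0) (nat_lit 0) (XT.lf (nat_lit 0) (nat_lit 14804411478) (nat_lit 1140) (nat_lit 7781941780) (nat_lit 1216) (nat_lit 33634548995) (nat_lit 150) (nat_lit 5) (nat_lit 165) (nat_lit 5) (nat_lit 166) (nat_lit 5) (nat_lit 356) (nat_lit 340) (nat_lit 84)) (XT.lf (nat_lit 76) (nat_lit 17583943625) (nat_lit 0) (nat_lit 644526710) (nat_lit 1216) (nat_lit 38936970626) (nat_lit 151) (nat_lit 5) (nat_lit 150) (nat_lit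 5) (nat_lit 166) (nat_lit 5) (nat_lit 357) (nat_lit 340) (nat_lit 83))))))) (XT.nd (nat_lit 40014) (nat_lit 0) (nat_lit 532) (XT.nd (nat_lit 39546) (nat_lit 0) (nat_lit 2052) (XT.nd (nat_lit 39312) (nat_lit 0) (nat_lit 1976) (XT.nd (nat_lit 78) (nat_lit 1368) (nat_lit 0) (XT.lf (nat_lit 0) (nat_lit 22044872863) (nat_lit 1140) (nat_lit 14478138413) (nat_lit 76) (nat_lit 21606617513) (nat_lit 151) (nat_lit 5) (nat_lit 166) (nat_lit 5) (nat_lit 152) (nat_lit 5) (nat_lit 358) (nat_lit 340) (nat_lit 82)) (XT.nd (nat_lit 156) (nat_lit 532) (nat_lit 0) (XT.lf (nat_lit 0) (nat_lit 11597590832) (nat_lit 836) (nat_lit 14495275482) (nat_lit 912) (nat_lit 33026364542) (nat_lit 140) (nat_lit 5) (nat_lit 151) (nat_lit 5) (nat_lit 152) (nat_lit 5) (nat_lit 359) (nat_lit 340) (nat_lit 81)) (XT.lf (nat_lit 0) (nat_lit 5338119771) (nat_lit 532) (nat_lit 29870886648) (nat_lit 608) (nat_lit 25959822244) (nat_lit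 133) (nat_lit 5) (nat_lit 140) (nat_lit 5) (nat_lit 141) (nat_lit 5) (nat_lit 361) (nat_lit 340) (nat_lit 79)))) (XT.nd (nat_lit 78) (nat_lit 0) (nat_lit 0) (XT.lf (nat_lit 0) (nat_lit 18298935118) (nat_lit 1140) (nat_lit 2116090328) (nat_lit 1140) (nat_lit 2116090328) (nat_lit 159) (nat_lit 3) (nat_lit 174) (nat_lit 3) (nat_lit 174) (nat_lit 5) (nat_lit 341) (nat_lit 341) (nat_lit 98)) (XT.nd (nat_lit 78) (nat_lit 0) (nat_lit 0) (XT.lf (nat_lit 76) (nat_lit 15119607355) (nat_lit 0) (nat_lit 22201868989) (nat_lit 1140) (nat_lit 8411385074) (nat_lit 160) (nat_lit 5) (nat_lit 159) (nat_lit 3) (nat_lit 174) (nat_lit 5) (nat_lit 342) (nat_lit 341) (nat_lit 97)) (XT.lf (nat_lit 76) (nat_lit 35138102674) (nat_lit 0) (nat_lit 2970275439) (nat_lit 1140) (nat_lit 8313986964) (nat_lit 160) (nat_lit 5) (nat_lit 159) (nat_lit 3) (nat_lit 174) (nat_lit 5) (nat_lit 343) (nat_lit 341) (nat_lit 96))))) (XT.nd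 (nat_lit 234) (nat_lit 0) (nat_lit 76) (XT.nd (nat_lit 78) (nat_lit 0) (nat_lit 0) (XT.lf (nat_lit 76) (nat_lit 8630526573) (nat_lit 0) (nat_lit 30532071308) (nat_lit 1140) (nat_lit 7962647077) (nat_lit 161) (nat_lit 5) (nat_lit 160) (nat_lit 5) (nat_lit 175) (nat_lit 5) (nat_lit 344) (nat_lit 341) (nat_lit 95)) (XT.nd (nat_lit 78) (nat_lit 0) (nat_lit 76) (XT.lf (nat_lit 76) (nat_lit 29343462330) (nat_lit 0) (nat_lit 11046966915) (nat_lit 1140) (nat_lit 7454524815) (nat_lit 161) (nat_lit 5) (nat_lit 160) (nat_lit 5) (nat_lit 175) (nat_lit 5) (nat_lit 345) (nat_lit 341) (nat_lit 94)) (XT.lf (nat_lit 76) (nat_lit 2044047395) (nat_lit 0) (nat_lit 39716380059) (nat_lit 1140) (nat_lit 6822669324) (nat_lit 162) (nat_lit 5) (nat_lit 161) (nat_lit 5) (nat_lit 176) (nat_lit 5) (nat_lit 346) (nat_lit 341) (nat_lit 93)))) (XT.nd (nat_lit 78) (nat_lit 0) (nat_lit 76) (XT.lf (nat_lit 76) (nat_lit 23473029265)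 (nat_lit 0) (nat_lit 19992604829) (nat_lit 1140) (nat_lit 5868928664) (nat_lit 162) (nat_lit 5) (nat_lit 161) (nat_lit 5) (nat_lit 176) (nat_lit 5) (nat_lit 347) (nat_lit 341) (nat_lit 92)) (XT.nd (nat_lit 78) (nat_lit 0) (nat_lit 0) (XT.lf (nat_lit 0) (nat_lit 45224110255) (nat_lit 1064) (nat_lit 4567446246) (nat_lit 1140) (nat_lit 316954987) (nat_lit 162) (nat_lit 5) (nat_lit 176) (nat_lit 5) (nat_lit 177) (nat_lit 5) (nat_lit 348) (nat_lit 341) (nat_lit 91)) (XT.lf (nat_lit 76) (nat_lit 17508540299) (nat_lit 0) (nat_lit 29892088199) (nat_lit 1140) (nat_lit 3494093655) (nat_lit 163) (nat_lit 5) (nat_lit 162) (nat_lit 5) (nat_lit 177) (nat_lit 5) (nat_lit 349) (nat_lit 341) (nat_lit 90)))))) (XT.nd (nat_lit 468) (nat_lit 608) (nat_lit 0) (XT.nd (nat_lit 234) (nat_lit 0) (nat_lit 76) (XT.nd (nat_lit 78) (nat_lit 1064) (nat_lit 0) (XT.lf (nat_lit 76) (nat_lit 40339809381) (nat_lit 0) (nat_lit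 9347815571) (nat_lit 1140) (nat_lit 2015540752) (nat_lit 163) (nat_lit 5) (nat_lit 162) (nat_lit 5) (nat_lit 177) (nat_lit 5) (nat_lit 350) (nat_lit 341) (nat_lit 89)) (XT.nd (nat_lit 78) (nat_lit 1140) (nat_lit 0) (XT.lf (nat_lit 76) (nat_lit 11428983583) (nat_lit 0) (nat_lit 40836752528) (nat_lit 1140) (nat_lit 263453292) (nat_lit 164) (nat_lit 5) (nat_lit 163) (nat_lit 5) (nat_lit 178) (nat_lit 5) (nat_lit 351) (nat_lit 341) (nat_lit 88)) (XT.lf (nat_lit 0) (nat_lit 1718659273) (nat_lit 1140) (nat_lit 18347676517) (nat_lit 1216) (nat_lit 33306989343) (nat_lit 148) (nat_lit 5) (nat_lit 163) (nat_lit 5) (nat_lit 164) (nat_lit 5) (nat_lit 352) (nat_lit 341) (nat_lit 87)))) (XT.nd (nat_lit 78) (nat_lit 0) (nat_lit 0) (XT.lf (nat_lit 0) (nat_lit 3817191091) (nat_lit 1140) (nat_lit 49069147096) (nat_lit 1216) (nat_lit 1354502781) (nat_lit 149) (nat_lit 5) (nat_lit 164) (nat_lit 5) (nat_lit 165)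 (nat_lit 5) (nat_lit 353) (nat_lit 341) (nat_lit 86)) (XT.nd (nat_lit 78) (nat_lit 0) (nat_lit 0) (XT.lf (nat_lit 0) (nat_lit 6363613627) (nat_lit 1140) (nat_lit 25557237406) (nat_lit 1216) (nat_lit 23201984968) (nat_lit 149) (nat_lit 5) (nat_lit 164) (nat_lit 5) (nat_lit 165) (nat_lit 5) (nat_lit 354) (nat_lit 341) (nat_lit 85)) (XT.lf (nat_lit 0) (nat_lit 8985601851) (nat_lit 1140) (nat_lit 1340608432) (nat_lit 1216) (nat_lit 45705107124) (nat_lit 149) (nat_lit 5) (nat_lit 164) (nat_lit 5) (nat_lit 165) (nat_lit 5) (nat_lit 355) (nat_lit 341) (nat_lit 84))))) (XT.nd (nat_lit 312) (nat_lit 760) (nat_lit 0) (XT.nd (nat_lit 78) (nat_lit 0) (nat_lit 0) (XT.lf (nat_lit 0) (nat_lit 12033677237) (nat_lit 1140) (nat_lit 33005352434) (nat_lit 1216) (nat_lit 11917602422) (nat_lit 150) (nat_lit 5) (nat_lit 165) (nat_lit 5) (nat_lit 166) (nat_lit 5) (nat_lit 356) (nat_lit 341) (nat_lit 83)) (XT.nd (nat_lit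 78) (nat_lit 0) (nat_lit 0) (XT.lf (nat_lit 0) (nat_lit 15288322385) (nat_lit 1140) (nat_lit 7982908463) (nat_lit 1216) (nat_lit 34635023161) (nat_lit 150) (nat_lit 5) (nat_lit 165) (nat_lit 5) (nat_lit 166) (nat_lit 5) (nat_lit 357) (nat_lit 341) (nat_lit 82)) (XT.lf (nat_lit 76) (nat_lit 18143634959) (nat_lit 0) (nat_lit 670618717) (nat_lit 1216) (nat_lit 40064903070) (nat_lit 151) (nat_lit 5) (nat_lit 150) (nat_lit 5) (nat_lit 166) (nat_lit 5) (nat_lit 358) (nat_lit 341) (nat_lit 81)))) (XT.nd (nat_lit 39234) (nat_lit 0) (nat_lit 1444) (XT.lf (nat_lit 0) (nat_lit 11977709941) (nat_lit 836) (nat_lit 14934885122) (nat_lit 912) (nat_lit 33979029435) (nat_lit 140) (nat_lit 5) (nat_lit 151) (nat_lit 5) (nat_lit 152) (nat_lit 5) (nat_lit 360) (nat_lit 341) (nat_lit 79)) (XT.nd (nat_lit 78) (nat_lit 0) (nat_lit 0) (XT.lf (nat_lit 0) (nat_lit 18876920670) (nat_lit 1140) (nat_lit 2164597105) (nat_lit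 1140) (nat_lit 2164597105) (nat_lit 159) (nat_lit 3) (nat_lit 174) (nat_lit 3) (nat_lit 174) (nat_lit 5) (nat_lit 342) (nat_lit 342) (nat_lit 96)) (XT.lf (nat_lit 76) (nat_lit 15602853794) (nat_lit 0) (nat_lit 22894896591) (nat_lit 1140) (nat_lit 8605274020) (nat_lit 160) (nat_lit 5) (nat_lit 159) (nat_lit 3) (nat_lit 174) (nat_lit 5) (nat_lit 343) (nat_lit 342) (nat_lit 95))))))))
noncomputable def xc254 : XT := (XT.nd (nat_lit 41106) (nat_lit 0) (nat_lit 0) (XT.nd (nat_lit 858) (nat_lit 0) (nat_lit 76) (XT.nd (nat_lit 390) (nat_lit 836) (nat_lit 0) (XT.nd (nat_lit 156) (nat_lit 0) (nat_lit 76) (XT.nd (nat_lit 78) (nat_lit 0) (nat_lit 76) (XT.lf (nat_lit 76) (nat_lit 36221040142) (nat_lit 0) (nat_lit 3085569656) (nat_lit 1140) (nat_lit 8506656469) (nat_lit 160) (nat_lit 5) (nat_lit 159) (nat_lit 3) (nat_lit 174) (nat_lit 5) (nat_lit 344) (nat_lit 342) (nat_lit 94)) (XT.lf (nat_lit 76) (nat_lit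 8919956119) (nat_lit 0) (nat_lit 31470947603) (nat_lit 1140) (nat_lit 8146378901) (nat_lit 161) (nat_lit 5) (nat_lit 160) (nat_lit 5) (nat_lit 175) (nat_lit 5) (nat_lit 345) (nat_lit 342) (nat_lit 93))) (XT.nd (nat_lit 78) (nat_lit 0) (nat_lit 76) (XT.lf (nat_lit 76) (nat_lit 30253391199) (nat_lit 0) (nat_lit 11400622675) (nat_lit 1140) (nat_lit 7624619211) (nat_lit 161) (nat_lit 5) (nat_lit 160) (nat_lit 5) (nat_lit 175) (nat_lit 5) (nat_lit 346) (nat_lit 342) (nat_lit 92)) (XT.nd (nat_lit 78) (nat_lit 0) (nat_lit 0) (XT.lf (nat_lit 76) (nat_lit 2136568355) (nat_lit 0) (nat_lit 40927125135) (nat_lit 1140) (nat_lit 6975272455) (nat_lit 162) (nat_lit 5) (nat_lit 161) (nat_lit 5) (nat_lit 176) (nat_lit 5) (nat_lit 347) (nat_lit 342) (nat_lit 91)) (XT.lf (nat_lit 76) (nat_lit 24207510957) (nat_lit 0) (nat_lit 20611075861) (nat_lit 1140) (nat_lit 5994436380) (nat_lit 162) (nat_lit 5) (nat_lit 161)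 (nat_lit 5) (nat_lit 176) (nat_lit 5) (nat_lit 348) (nat_lit 342) (nat_lit 90))))) (XT.nd (nat_lit 234) (nat_lit 1064) (nat_lit 0) (XT.nd (nat_lit 78) (nat_lit 0) (nat_lit 0) (XT.lf (nat_lit 0) (nat_lit 46628216101) (nat_lit 1064) (nat_lit 4673356096) (nat_lit 1140) (nat_lit 308669343) (nat_lit 162) (nat_lit 5) (nat_lit 176) (nat_lit 5) (nat_lit 177) (nat_lit 5) (nat_lit 349) (nat_lit 342) (nat_lit 89)) (XT.nd (nat_lit 78) (nat_lit 0) (nat_lit 0) (XT.lf (nat_lit 76) (nat_lit 18064605011) (nat_lit 0) (nat_lit 30804340957) (nat_lit 1140) (nat_lit 3551128099) (nat_lit 163) (nat_lit 5) (nat_lit 162) (nat_lit 5) (nat_lit 177) (nat_lit 5) (nat_lit 350) (nat_lit 342) (nat_lit 88)) (XT.lf (nat_lit 76) (nat_lit 41579914830) (nat_lit 0) (nat_lit 9643288981) (nat_lit 1140) (nat_lit 2029610503) (nat_lit 163) (nat_lit 5) (nat_lit 162) (nat_lit 5) (nat_lit 177) (nat_lit 5) (nat_lit 351) (nat_lit 342) (nat_lit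 87)))) (XT.nd (nat_lit 78) (nat_lit 1140) (nat_lit 0) (XT.lf (nat_lit 76) (nat_lit 11803046339) (nat_lit 0) (nat_lit 42074462236) (nat_lit 1140) (nat_lit 226147492) (nat_lit 164) (nat_lit 5) (nat_lit 163) (nat_lit 5) (nat_lit 178) (nat_lit 5) (nat_lit 352) (nat_lit 342) (nat_lit 86)) (XT.nd (nat_lit 78) (nat_lit 0) (nat_lit 76) (XT.lf (nat_lit 0) (nat_lit 1813255168) (nat_lit 1140) (nat_lit 18866876049) (nat_lit 1216) (nat_lit 34293013033) (nat_lit 148) (nat_lit 5) (nat_lit 163) (nat_lit 5) (nat_lit 164) (nat_lit 5) (nat_lit 353) (nat_lit 342) (nat_lit 85)) (XT.lf (nat_lit 0) (nat_lit 3973679496) (nat_lit 1140) (nat_lit 50508840356) (nat_lit 1216) (nat_lit 1384200221) (nat_lit 149) (nat_lit 5) (nat_lit 164) (nat_lit 5) (nat_lit 165) (nat_lit 5) (nat_lit 354) (nat_lit 342) (nat_lit 84)))))) (XT.nd (nat_lit 39780) (nat_lit 0) (nat_lit 760) (XT.nd (nat_lit 312) (nat_lit 0) (nat_lit 76) (XT.nd (nat_lit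 78) (nat_lit 0) (nat_lit 0) (XT.lf (nat_lit 0) (nat_lit 6595272203) (nat_lit 1140) (nat_lit 26292516516) (nat_lit 1216) (nat_lit 23887425445) (nat_lit 149) (nat_lit 5) (nat_lit 164) (nat_lit 5) (nat_lit 165) (nat_lit 5) (nat_lit 355) (nat_lit 342) (nat_lit 83)) (XT.nd (nat_lit 78) (nat_lit 0) (nat_lit 76) (XT.lf (nat_lit 0) (nat_lit 9294733175) (nat_lit 1140) (nat_lit 1350304342) (nat_lit 1216) (nat_lit 47065950559) (nat_lit 149) (nat_lit 5) (nat_lit 164) (nat_lit 5) (nat_lit 165) (nat_lit 5) (nat_lit 356) (nat_lit 342) (nat_lit 82)) (XT.lf (nat_lit 0) (nat_lit 12433307519) (nat_lit 1140) (nat_lit 33963967793) (nat_lit 1216) (nat_lit 12266817578) (nat_lit 150) (nat_lit 5) (nat_lit 165) (nat_lit 5) (nat_lit 166) (nat_lit 5) (nat_lit 357) (nat_lit 342) (nat_lit 81)))) (XT.nd (nat_lit 78) (nat_lit 0) (nat_lit 76) (XT.lf (nat_lit 76) (nat_lit 18718270170) (nat_lit 0) (nat_lit 697105651) (nat_lit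 1216) (nat_lit 41228979792) (nat_lit 151) (nat_lit 5) (nat_lit 150) (nat_lit 5) (nat_lit 166) (nat_lit 5) (nat_lit 359) (nat_lit 342) (nat_lit 79)) (XT.nd (nat_lit 39312) (nat_lit 0) (nat_lit 608) (XT.lf (nat_lit 0) (nat_lit 23461836234) (nat_lit 1140) (nat_lit 15295727731) (nat_lit 76) (nat_lit 22909773917) (nat_lit 151) (nat_lit 5) (nat_lit 166) (nat_lit 5) (nat_lit 152) (nat_lit 5) (nat_lit 360) (nat_lit 342) (nat_lit 78)) (XT.lf (nat_lit 0) (nat_lit 19470580066) (nat_lit 1140) (nat_lit 2215418766) (nat_lit 1140) (nat_lit 2215418766) (nat_lit 159) (nat_lit 3) (nat_lit 174) (nat_lit 3) (nat_lit 174) (nat_lit 5) (nat_lit 343) (nat_lit 343) (nat_lit 94))))) (XT.nd (nat_lit 234) (nat_lit 0) (nat_lit 76) (XT.nd (nat_lit 78) (nat_lit 0) (nat_lit 0) (XT.lf (nat_lit 76) (nat_lit 16098895124) (nat_lit 0) (nat_lit 23607166744) (nat_lit 1140) (nat_lit 8808335053) (nat_lit 160) (nat_lit 5) (nat_lit 159)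 (nat_lit 3) (nat_lit 174) (nat_lit 5) (nat_lit 344) (nat_lit 343) (nat_lit 93)) (XT.nd (nat_lit 78) (nat_lit 0) (nat_lit 76) (XT.lf (nat_lit 76) (nat_lit 37334812818) (nat_lit 0) (nat_lit 3202819518) (nat_lit 1140) (nat_lit 8708363748) (nat_lit 160) (nat_lit 5) (nat_lit 159) (nat_lit 3) (nat_lit 174) (nat_lit 5) (nat_lit 345) (nat_lit 343) (nat_lit 92)) (XT.lf (nat_lit 76) (nat_lit 9216316938) (nat_lit 0) (nat_lit 32436674821) (nat_lit 1140) (nat_lit 8338788377) (nat_lit 161) (nat_lit 5) (nat_lit 160) (nat_lit 5) (nat_lit 175) (nat_lit 5) (nat_lit 346) (nat_lit 343) (nat_lit 91)))) (XT.nd (nat_lit 78) (nat_lit 0) (nat_lit 76) (XT.lf (nat_lit 76) (nat_lit 31188917337) (nat_lit 0) (nat_lit 11763611054) (nat_lit 1140) (nat_lit 7802889932) (nat_lit 161) (nat_lit 5) (nat_lit 160) (nat_lit 5) (nat_lit 175) (nat_lit 5) (nat_lit 347) (nat_lit 343) (nat_lit 90)) (XT.nd (nat_lit 78) (nat_lit 0) (nat_lit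 0) (XT.lf (nat_lit 76) (nat_lit 2230073962) (nat_lit 0) (nat_lit 42173087324) (nat_lit 1140) (nat_lit 7135443111) (nat_lit 162) (nat_lit 5) (nat_lit 161) (nat_lit 5) (nat_lit 176) (nat_lit 5) (nat_lit 348) (nat_lit 343) (nat_lit 89)) (XT.lf (nat_lit 76) (nat_lit 24962288282) (nat_lit 0) (nat_lit 21247027977) (nat_lit 1140) (nat_lit 6126611687) (nat_lit 162) (nat_lit 5) (nat_lit 161) (nat_lit 5) (nat_lit 176) (nat_lit 5) (nat_lit 349) (nat_lit 343) (nat_lit 88))))))) (XT.nd (nat_lit 40404) (nat_lit 0) (nat_lit 0) (XT.nd (nat_lit 468) (nat_lit 0) (nat_lit 76) (XT.nd (nat_lit 234) (nat_lit 1064) (nat_lit 0) (XT.nd (nat_lit 78) (nat_lit 0) (nat_lit 0) (XT.lf (nat_lit 0) (nat_lit 48071725170) (nat_lit 1064) (nat_lit 4784229286) (nat_lit 1140) (nat_lit 301156595) (nat_lit 162) (nat_lit 5) (nat_lit 176) (nat_lit 5) (nat_lit 177) (nat_lit 5) (nat_lit 350) (nat_lit 343) (nat_lit 87)) (XT.nd (nat_lit 78)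 (nat_lit 0) (nat_lit 0) (XT.lf (nat_lit 76) (nat_lit 18635583130) (nat_lit 0) (nat_lit 31743072101) (nat_lit 1140) (nat_lit 3612616824) (nat_lit 163) (nat_lit 5) (nat_lit 162) (nat_lit 5) (nat_lit 177) (nat_lit 5) (nat_lit 351) (nat_lit 343) (nat_lit 86)) (XT.lf (nat_lit 76) (nat_lit 42855506419) (nat_lit 0) (nat_lit 9946763297) (nat_lit 1140) (nat_lit 2046765694) (nat_lit 163) (nat_lit 5) (nat_lit 162) (nat_lit 5) (nat_lit 177) (nat_lit 5) (nat_lit 352) (nat_lit 343) (nat_lit 85)))) (XT.nd (nat_lit 78) (nat_lit 1140) (nat_lit 0) (XT.lf (nat_lit 76) (nat_lit 12186540357) (nat_lit 0) (nat_lit 43348579534) (nat_lit 1140) (nat_lit 190317723) (nat_lit 164) (nat_lit 5) (nat_lit 163) (nat_lit 5) (nat_lit 178) (nat_lit 5) (nat_lit 353) (nat_lit 343) (nat_lit 84)) (XT.nd (nat_lit 78) (nat_lit 0) (nat_lit 76) (XT.lf (nat_lit 0) (nat_lit 1908218491) (nat_lit 1140) (nat_lit 19403444341) (nat_lit 1216) (nat_lit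 35309374364) (nat_lit 148) (nat_lit 5) (nat_lit 163) (nat_lit 5) (nat_lit 164) (nat_lit 5) (nat_lit 354) (nat_lit 343) (nat_lit 83)) (XT.lf (nat_lit 0) (nat_lit 4132453150) (nat_lit 1140) (nat_lit 51993583224) (nat_lit 1216) (nat_lit 1415416449) (nat_lit 149) (nat_lit 5) (nat_lit 164) (nat_lit 5) (nat_lit 165) (nat_lit 5) (nat_lit 355) (nat_lit 343) (nat_lit 82))))) (XT.nd (nat_lit 39702) (nat_lit 0) (nat_lit 760) (XT.nd (nat_lit 78) (nat_lit 0) (nat_lit 0) (XT.lf (nat_lit 0) (nat_lit 6831541309) (nat_lit 1140) (nat_lit 27051658669) (nat_lit 1216) (nat_lit 24594038715) (nat_lit 149) (nat_lit 5) (nat_lit 164) (nat_lit 5) (nat_lit 165) (nat_lit 5) (nat_lit 356) (nat_lit 343) (nat_lit 81)) (XT.nd (nat_lit 156) (nat_lit 0) (nat_lit 76) (XT.lf (nat_lit 0) (nat_lit 9610867346) (nat_lit 1140) (nat_lit 1362043237) (nat_lit 1216) (nat_lit 48468211121) (nat_lit 149) (nat_lit 5) (nat_lit 164) (nat_lit 5)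 (nat_lit 165) (nat_lit 5) (nat_lit 357) (nat_lit 343) (nat_lit 80)) (XT.lf (nat_lit 0) (nat_lit 16293343921) (nat_lit 1140) (nat_lit 8408654035) (nat_lit 1216) (nat_lit 36728375659) (nat_lit 150) (nat_lit 5) (nat_lit 165) (nat_lit 5) (nat_lit 166) (nat_lit 5) (nat_lit 359) (nat_lit 343) (nat_lit 78)))) (XT.nd (nat_lit 78) (nat_lit 0) (nat_lit 0) (XT.lf (nat_lit 0) (nat_lit 20080479140) (nat_lit 1140) (nat_lit 2268575407) (nat_lit 1140) (nat_lit 2268575407) (nat_lit 159) (nat_lit 3) (nat_lit 174) (nat_lit 3) (nat_lit 174) (nat_lit 5) (nat_lit 344) (nat_lit 344) (nat_lit 92)) (XT.nd (nat_lit 78) (nat_lit 0) (nat_lit 0) (XT.lf (nat_lit 76) (nat_lit 16608212921) (nat_lit 0) (nat_lit 24339345604) (nat_lit 1140) (nat_lit 9020650721) (nat_lit 160) (nat_lit 5) (nat_lit 159) (nat_lit 3) (nat_lit 174) (nat_lit 5) (nat_lit 345) (nat_lit 344) (nat_lit 91)) (XT.lf (nat_lit 76) (nat_lit 38480440643) (nat_lit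 0) (nat_lit 3322169984) (nat_lit 1140) (nat_lit 8919192929) (nat_lit 160) (nat_lit 5) (nat_lit 159) (nat_lit 3) (nat_lit 174) (nat_lit 5) (nat_lit 346) (nat_lit 344) (nat_lit 90)))))) (XT.nd (nat_lit 468) (nat_lit 912) (nat_lit 0) (XT.nd (nat_lit 234) (nat_lit 0) (nat_lit 76) (XT.nd (nat_lit 78) (nat_lit 0) (nat_lit 0) (XT.lf (nat_lit 76) (nat_lit 9519917517) (nat_lit 0) (nat_lit 33430133996) (nat_lit 1140) (nat_lit 8539954110) (nat_lit 161) (nat_lit 5) (nat_lit 160) (nat_lit 5) (nat_lit 175) (nat_lit 5) (nat_lit 347) (nat_lit 344) (nat_lit 89)) (XT.nd (nat_lit 78) (nat_lit 0) (nat_lit 76) (XT.lf (nat_lit 76) (nat_lit 32150906285) (nat_lit 0) (nat_lit 12136285338) (nat_lit 1140) (nat_lit 7989405836) (nat_lit 161) (nat_lit 5) (nat_lit 160) (nat_lit 5) (nat_lit 175) (nat_lit 5) (nat_lit 348) (nat_lit 344) (nat_lit 88)) (XT.lf (nat_lit 76) (nat_lit 2324696567) (nat_lit 0) (nat_lit 43455386584) (nat_lit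 1140) (nat_lit 7303236710) (nat_lit 162) (nat_lit 5) (nat_lit 161) (nat_lit 5) (nat_lit 176) (nat_lit 5) (nat_lit 349) (nat_lit 344) (nat_lit 87)))) (XT.nd (nat_lit 78) (nat_lit 0) (nat_lit 76) (XT.lf (nat_lit 76) (nat_lit 25738069926) (nat_lit 0) (nat_lit 21901047205) (nat_lit 1140) (nat_lit 6265488005) (nat_lit 162) (nat_lit 5) (nat_lit 161) (nat_lit 5) (nat_lit 176) (nat_lit 5) (nat_lit 350) (nat_lit 344) (nat_lit 86)) (XT.nd (nat_lit 78) (nat_lit 0) (nat_lit 0) (XT.lf (nat_lit 0) (nat_lit 49555975697) (nat_lit 1064) (nat_lit 4900112189) (nat_lit 1140) (nat_lit 294381294) (nat_lit 162) (nat_lit 5) (nat_lit 176) (nat_lit 5) (nat_lit 177) (nat_lit 5) (nat_lit 351) (nat_lit 344) (nat_lit 85)) (XT.lf (nat_lit 76) (nat_lit 19222023579) (nat_lit 0) (nat_lit 32709127027) (nat_lit 1140) (nat_lit 3678535985) (nat_lit 163) (nat_lit 5) (nat_lit 162) (nat_lit 5) (nat_lit 177) (nat_lit 5) (nat_lit 352)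 (nat_lit 344) (nat_lit 84))))) (XT.nd (nat_lit 234) (nat_lit 0) (nat_lit 76) (XT.nd (nat_lit 78) (nat_lit 1064) (nat_lit 0) (XT.lf (nat_lit 76) (nat_lit 44167747297) (nat_lit 0) (nat_lit 10258528102) (nat_lit 1140) (nat_lit 2066946001) (nat_lit 163) (nat_lit 5) (nat_lit 162) (nat_lit 5) (nat_lit 177) (nat_lit 5) (nat_lit 353) (nat_lit 344) (nat_lit 83)) (XT.nd (nat_lit 78) (nat_lit 1140) (nat_lit 0) (XT.lf (nat_lit 76) (nat_lit 12579851364) (nat_lit 0) (nat_lit 44660238194) (nat_lit 1140) (nat_lit 155859289) (nat_lit 164) (nat_lit 5) (nat_lit 163) (nat_lit 5) (nat_lit 178) (nat_lit 5) (nat_lit 354) (nat_lit 344) (nat_lit 82)) (XT.lf (nat_lit 0) (nat_lit 2003702078) (nat_lit 1140) (nat_lit 19957799542) (nat_lit 1216) (nat_lit 36356940013) (nat_lit 148) (nat_lit 5) (nat_lit 163) (nat_lit 5) (nat_lit 164) (nat_lit 5) (nat_lit 355) (nat_lit 344) (nat_lit 81)))) (XT.nd (nat_lit 156) (nat_lit 0) (nat_lit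 0) (XT.lf (nat_lit 0) (nat_lit 4293718919) (nat_lit 1140) (nat_lit 53524620486) (nat_lit 1216) (nat_lit 1448160988) (nat_lit 149) (nat_lit 5) (nat_lit 164) (nat_lit 5) (nat_lit 165) (nat_lit 5) (nat_lit 356) (nat_lit 344) (nat_lit 80)) (XT.nd (nat_lit 39624) (nat_lit 0) (nat_lit 760) (XT.lf (nat_lit 0) (nat_lit 9934344818) (nat_lit 1140) (nat_lit 1375785828) (nat_lit 1216) (nat_lit 49913097350) (nat_lit 149) (nat_lit 5) (nat_lit 164) (nat_lit 5) (nat_lit 165) (nat_lit 5) (nat_lit 358) (nat_lit 344) (nat_lit 78)) (XT.lf (nat_lit 0) (nat_lit 20707195212) (nat_lit 1140) (nat_lit 2324090561) (nat_lit 1140) (nat_lit 2324090561) (nat_lit 159) (nat_lit 3) (nat_lit 174) (nat_lit 3) (nat_lit 174) (nat_lit 5) (nat_lit 345) (nat_lit 345) (nat_lit 90))))))))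
noncomputable def xc255 : XT := (XT.nd (nat_lit 81510) (nat_lit 0) (nat_lit 836) (XT.nd (nat_lit 40638) (nat_lit 76) (nat_lit 0) (XT.nd (nat_lit 390) (nat_lit 760) (nat_lit 0) (XT.nd (nat_lit 156) (nat_lit 0) (nat_lit 76) (XT.nd (nat_lit 78) (nat_lit 0) (nat_lit 0) (XT.lf (nat_lit 76) (nat_lit 17131297600) (nat_lit 0) (nat_lit 25092114205) (nat_lit 1140) (nat_lit 9242317105) (nat_lit 160) (nat_lit 5) (nat_lit 159) (nat_lit 3) (nat_lit 174) (nat_lit 5) (nat_lit 346) (nat_lit 345) (nat_lit 89)) (XT.lf (nat_lit 76) (nat_lit 39658968708) (nat_lit 0) (nat_lit 3443765407) (nat_lit 1140) (nat_lit 9139241399) (nat_lit 160) (nat_lit 5) (nat_lit 159) (nat_lit 3) (nat_lit 174) (nat_lit 5) (nat_lit 347) (nat_lit 345) (nat_lit 88))) (XT.nd (nat_lit 78) (nat_lit 0) (nat_lit 0) (XT.lf (nat_lit 76) (nat_lit 9831069827) (nat_lit 0) (nat_lit 34452228261) (nat_lit 1140) (nat_lit 8749967496) (nat_lit 161) (nat_lit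 5) (nat_lit 160) (nat_lit 5) (nat_lit 175) (nat_lit 5) (nat_lit 348) (nat_lit 345) (nat_lit 87)) (XT.nd (nat_lit 78) (nat_lit 0) (nat_lit 76) (XT.lf (nat_lit 76) (nat_lit 33140243944) (nat_lit 0) (nat_lit 12519005203) (nat_lit 1140) (nat_lit 8184247974) (nat_lit 161) (nat_lit 5) (nat_lit 160) (nat_lit 5) (nat_lit 175) (nat_lit 5) (nat_lit 349) (nat_lit 345) (nat_lit 86)) (XT.lf (nat_lit 76) (nat_lit 2420566586) (nat_lit 0) (nat_lit 44775172831) (nat_lit 1140) (nat_lit 7478720187) (nat_lit 162) (nat_lit 5) (nat_lit 161) (nat_lit 5) (nat_lit 176) (nat_lit 5) (nat_lit 350) (nat_lit 345) (nat_lit 85))))) (XT.nd (nat_lit 234) (nat_lit 912) (nat_lit 0) (XT.nd (nat_lit 78) (nat_lit 0) (nat_lit 76) (XT.lf (nat_lit 76) (nat_lit 26535580104) (nat_lit 0) (nat_lit 22573733620) (nat_lit 1140) (nat_lit 6411109320) (nat_lit 162) (nat_lit 5) (nat_lit 161) (nat_lit 5) (nat_lit 176) (nat_lit 5) (nat_lit 351) (nat_lit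 345) (nat_lit 84)) (XT.nd (nat_lit 78) (nat_lit 0) (nat_lit 0) (XT.lf (nat_lit 0) (nat_lit 51082337097) (nat_lit 1064) (nat_lit 5021058457) (nat_lit 1140) (nat_lit 288310292) (nat_lit 162) (nat_lit 5) (nat_lit 176) (nat_lit 5) (nat_lit 177) (nat_lit 5) (nat_lit 352) (nat_lit 345) (nat_lit 83)) (XT.lf (nat_lit 76) (nat_lit 19824485923) (nat_lit 0) (nat_lit 33703373563) (nat_lit 1140) (nat_lit 3748870061) (nat_lit 163) (nat_lit 5) (nat_lit 162) (nat_lit 5) (nat_lit 177) (nat_lit 5) (nat_lit 353) (nat_lit 345) (nat_lit 82)))) (XT.nd (nat_lit 78) (nat_lit 988) (nat_lit 0) (XT.lf (nat_lit 76) (nat_lit 45517829848) (nat_lit 0) (nat_lit 10578878823) (nat_lit 1140) (nat_lit 2090098067) (nat_lit 163) (nat_lit 5) (nat_lit 162) (nat_lit 5) (nat_lit 177) (nat_lit 5) (nat_lit 354) (nat_lit 345) (nat_lit 81)) (XT.nd (nat_lit 234) (nat_lit 1064) (nat_lit 0) (XT.lf (nat_lit 76) (nat_lit 12983370759) (nat_lit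 0) (nat_lit 46010603614) (nat_lit 1140) (nat_lit 122672908) (nat_lit 164) (nat_lit 5) (nat_lit 163) (nat_lit 5) (nat_lit 178) (nat_lit 5) (nat_lit 355) (nat_lit 345) (nat_lit 80)) (XT.lf (nat_lit 0) (nat_lit 7319001973) (nat_lit 1140) (nat_lit 28644005606) (nat_lit 1216) (nat_lit 26073204412) (nat_lit 149) (nat_lit 5) (nat_lit 164) (nat_lit 5) (nat_lit 165) (nat_lit 5) (nat_lit 358) (nat_lit 345) (nat_lit 77)))))) (XT.nd (nat_lit 468) (nat_lit 836) (nat_lit 0) (XT.nd (nat_lit 234) (nat_lit 0) (nat_lit 76) (XT.nd (nat_lit 78) (nat_lit 0) (nat_lit 0) (XT.lf (nat_lit 0) (nat_lit 21351317750) (nat_lit 1140) (nat_lit 2381991139) (nat_lit 1140) (nat_lit 2381991139) (nat_lit 159) (nat_lit 3) (nat_lit 174) (nat_lit 3) (nat_lit 174) (nat_lit 5) (nat_lit 346) (nat_lit 346) (nat_lit 88)) (XT.nd (nat_lit 78) (nat_lit 0) (nat_lit 0) (XT.lf (nat_lit 76) (nat_lit 17668649000) (nat_lit 0) (nat_lit 25866169208)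 (nat_lit 1140) (nat_lit 9473443591) (nat_lit 160) (nat_lit 5) (nat_lit 159) (nat_lit 3) (nat_lit 174) (nat_lit 5) (nat_lit 347) (nat_lit 346) (nat_lit 87)) (XT.lf (nat_lit 76) (nat_lit 40871468325) (nat_lit 0) (nat_lit 3567749803) (nat_lit 1140) (nat_lit 9368619585) (nat_lit 160) (nat_lit 5) (nat_lit 159) (nat_lit 3) (nat_lit 174) (nat_lit 5) (nat_lit 348) (nat_lit 346) (nat_lit 86)))) (XT.nd (nat_lit 78) (nat_lit 0) (nat_lit 0) (XT.lf (nat_lit 76) (nat_lit 10150089757) (nat_lit 0) (nat_lit 35503883755) (nat_lit 1140) (nat_lit 8968932505) (nat_lit 161) (nat_lit 5) (nat_lit 160) (nat_lit 5) (nat_lit 175) (nat_lit 5) (nat_lit 349) (nat_lit 346) (nat_lit 85)) (XT.nd (nat_lit 78) (nat_lit 0) (nat_lit 76) (XT.lf (nat_lit 76) (nat_lit 34157837510) (nat_lit 0) (nat_lit 12912137152) (nat_lit 1140) (nat_lit 8387509379) (nat_lit 161) (nat_lit 5) (nat_lit 160) (nat_lit 5) (nat_lit 175) (nat_lit 5) (nat_lit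 350) (nat_lit 346) (nat_lit 84)) (XT.lf (nat_lit 76) (nat_lit 2517812787) (nat_lit 0) (nat_lit 46133627045) (nat_lit 1140) (nat_lit 7661971769) (nat_lit 162) (nat_lit 5) (nat_lit 161) (nat_lit 5) (nat_lit 176) (nat_lit 5) (nat_lit 351) (nat_lit 346) (nat_lit 83))))) (XT.nd (nat_lit 390) (nat_lit 988) (nat_lit 0) (XT.nd (nat_lit 78) (nat_lit 0) (nat_lit 76) (XT.lf (nat_lit 76) (nat_lit 27355559355) (nat_lit 0) (nat_lit 23265701967) (nat_lit 1140) (nat_lit 6563529955) (nat_lit 162) (nat_lit 5) (nat_lit 161) (nat_lit 5) (nat_lit 176) (nat_lit 5) (nat_lit 352) (nat_lit 346) (nat_lit 82)) (XT.nd (nat_lit 78) (nat_lit 0) (nat_lit 0) (XT.lf (nat_lit 0) (nat_lit 52652211423) (nat_lit 1064) (nat_lit 5147128897) (nat_lit 1140) (nat_lit 282912621) (nat_lit 162) (nat_lit 5) (nat_lit 176) (nat_lit 5) (nat_lit 177) (nat_lit 5) (nat_lit 353) (nat_lit 346) (nat_lit 81)) (XT.lf (nat_lit 76) (nat_lit 20443541017)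 (nat_lit 0) (nat_lit 34726702806) (nat_lit 1140) (nat_lit 3823611585) (nat_lit 163) (nat_lit 5) (nat_lit 162) (nat_lit 5) (nat_lit 177) (nat_lit 5) (nat_lit 354) (nat_lit 346) (nat_lit 80)))) (XT.nd (nat_lit 39858) (nat_lit 0) (nat_lit 836) (XT.lf (nat_lit 0) (nat_lit 2196823975) (nat_lit 1140) (nat_lit 21121635751) (nat_lit 1216) (nat_lit 38549294166) (nat_lit 148) (nat_lit 5) (nat_lit 163) (nat_lit 5) (nat_lit 164) (nat_lit 5) (nat_lit 357) (nat_lit 346) (nat_lit 77)) (XT.nd (nat_lit 78) (nat_lit 0) (nat_lit 0) (XT.lf (nat_lit 0) (nat_lit 22013449027) (nat_lit 1140) (nat_lit 2442307373) (nat_lit 1140) (nat_lit 2442307373) (nat_lit 159) (nat_lit 3) (nat_lit 174) (nat_lit 3) (nat_lit 174) (nat_lit 5) (nat_lit 347) (nat_lit 347) (nat_lit 86)) (XT.lf (nat_lit 76) (nat_lit 18220776971) (nat_lit 0) (nat_lit 26662223637) (nat_lit 1140) (nat_lit 9714152670) (nat_lit 160) (nat_lit 5) (nat_lit 159) (nat_lit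 3) (nat_lit 174) (nat_lit 5) (nat_lit 348) (nat_lit 347) (nat_lit 85))))))) (XT.nd (nat_lit 40950) (nat_lit 0) (nat_lit 0) (XT.nd (nat_lit 546) (nat_lit 0) (nat_lit 0) (XT.nd (nat_lit 234) (nat_lit 0) (nat_lit 152) (XT.nd (nat_lit 78) (nat_lit 0) (nat_lit 76) (XT.lf (nat_lit 76) (nat_lit 42119038103) (nat_lit 0) (nat_lit 3694267106) (nat_lit 1140) (nat_lit 9607450766) (nat_lit 160) (nat_lit 5) (nat_lit 159) (nat_lit 3) (nat_lit 174) (nat_lit 5) (nat_lit 349) (nat_lit 347) (nat_lit 84)) (XT.nd (nat_lit 78) (nat_lit 0) (nat_lit 0) (XT.lf (nat_lit 76) (nat_lit 10477297544) (nat_lit 0) (nat_lit 36586050551) (nat_lit 1140) (nat_lit 9196965496) (nat_lit 161) (nat_lit 5) (nat_lit 160) (nat_lit 5) (nat_lit 175) (nat_lit 5) (nat_lit 350) (nat_lit 347) (nat_lit 83)) (XT.lf (nat_lit 76) (nat_lit 35204616417) (nat_lit 0) (nat_lit 13316054940) (nat_lit 1140) (nat_lit 8599294869) (nat_lit 161) (nat_lit 5)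 (nat_lit 160) (nat_lit 5) (nat_lit 175) (nat_lit 5) (nat_lit 351) (nat_lit 347) (nat_lit 82)))) (XT.nd (nat_lit 78) (nat_lit 0) (nat_lit 0) (XT.lf (nat_lit 76) (nat_lit 2616562557) (nat_lit 0) (nat_lit 47531962398) (nat_lit 1140) (nat_lit 7853080781) (nat_lit 162) (nat_lit 5) (nat_lit 161) (nat_lit 5) (nat_lit 176) (nat_lit 5) (nat_lit 352) (nat_lit 347) (nat_lit 81)) (XT.nd (nat_lit 78) (nat_lit 0) (nat_lit 76) (XT.lf (nat_lit 76) (nat_lit 28198765346) (nat_lit 0) (nat_lit 23977582291) (nat_lit 1140) (nat_lit 6722814358) (nat_lit 162) (nat_lit 5) (nat_lit 161) (nat_lit 5) (nat_lit 176) (nat_lit 5) (nat_lit 353) (nat_lit 347) (nat_lit 80)) (XT.lf (nat_lit 0) (nat_lit 54267034824) (nat_lit 1064) (nat_lit 5278391370) (nat_lit 1140) (nat_lit 278159374) (nat_lit 162) (nat_lit 5) (nat_lit 176) (nat_lit 5) (nat_lit 177) (nat_lit 5) (nat_lit 354) (nat_lit 347) (nat_lit 79))))) (XT.nd (nat_lit 40170)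 (nat_lit 0) (nat_lit 0) (XT.nd (nat_lit 40014) (nat_lit 228) (nat_lit 0) (XT.lf (nat_lit 76) (nat_lit 48336442920) (nat_lit 0) (nat_lit 11246550966) (nat_lit 1140) (nat_lit 2145137130) (nat_lit 163) (nat_lit 5) (nat_lit 162) (nat_lit 5) (nat_lit 177) (nat_lit 5) (nat_lit 356) (nat_lit 347) (nat_lit 77)) (XT.nd (nat_lit 78) (nat_lit 0) (nat_lit 0) (XT.lf (nat_lit 0) (nat_lit 22694204788) (nat_lit 1140) (nat_lit 2505072777) (nat_lit 1140) (nat_lit 2505072777) (nat_lit 159) (nat_lit 3) (nat_lit 174) (nat_lit 3) (nat_lit 174) (nat_lit 5) (nat_lit 348) (nat_lit 348) (nat_lit 84)) (XT.lf (nat_lit 76) (nat_lit 18788201958) (nat_lit 0) (nat_lit 27481007636) (nat_lit 1140) (nat_lit 9964579768) (nat_lit 160) (nat_lit 5) (nat_lit 159) (nat_lit 3) (nat_lit 174) (nat_lit 5) (nat_lit 349) (nat_lit 348) (nat_lit 83)))) (XT.nd (nat_lit 78) (nat_lit 0) (nat_lit 76) (XT.lf (nat_lit 76) (nat_lit 43402805050) (nat_lit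 0) (nat_lit 3823461420) (nat_lit 1140) (nat_lit 9855870909) (nat_lit 160) (nat_lit 5) (nat_lit 159) (nat_lit 3) (nat_lit 174) (nat_lit 5) (nat_lit 350) (nat_lit 348) (nat_lit 82)) (XT.nd (nat_lit 78) (nat_lit 0) (nat_lit 0) (XT.lf (nat_lit 76) (nat_lit 10813018200) (nat_lit 0) (nat_lit 37699703595) (nat_lit 1140) (nat_lit 9434195051) (nat_lit 161) (nat_lit 5) (nat_lit 160) (nat_lit 5) (nat_lit 175) (nat_lit 5) (nat_lit 351) (nat_lit 348) (nat_lit 81)) (XT.lf (nat_lit 76) (nat_lit 36281533287) (nat_lit 0) (nat_lit 13731140013) (nat_lit 1140) (nat_lit 8819720891) (nat_lit 161) (nat_lit 5) (nat_lit 160) (nat_lit 5) (nat_lit 175) (nat_lit 5) (nat_lit 352) (nat_lit 348) (nat_lit 80)))))) (XT.nd (nat_lit 40560) (nat_lit 0) (nat_lit 0) (XT.nd (nat_lit 40326) (nat_lit 152) (nat_lit 0) (XT.nd (nat_lit 156) (nat_lit 0) (nat_lit 76) (XT.lf (nat_lit 76) (nat_lit 2716942162) (nat_lit 0) (nat_lit 48971425410)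 (nat_lit 1140) (nat_lit 8052147481) (nat_lit 162) (nat_lit 5) (nat_lit 161) (nat_lit 5) (nat_lit 176) (nat_lit 5) (nat_lit 353) (nat_lit 348) (nat_lit 79)) (XT.nd (nat_lit 78) (nat_lit 0) (nat_lit 0) (XT.lf (nat_lit 0) (nat_lit 55928279027) (nat_lit 1064) (nat_lit 5414920702) (nat_lit 1140) (nat_lit 274023596) (nat_lit 162) (nat_lit 5) (nat_lit 176) (nat_lit 5) (nat_lit 177) (nat_lit 5) (nat_lit 355) (nat_lit 348) (nat_lit 77)) (XT.lf (nat_lit 76) (nat_lit 21733773281) (nat_lit 0) (nat_lit 36864295340) (nat_lit 1140) (nat_lit 3986325930) (nat_lit 163) (nat_lit 5) (nat_lit 162) (nat_lit 5) (nat_lit 177) (nat_lit 5) (nat_lit 356) (nat_lit 348) (nat_lit 76)))) (XT.nd (nat_lit 78) (nat_lit 0) (nat_lit 0) (XT.lf (nat_lit 0) (nat_lit 23394214917) (nat_lit 1140) (nat_lit 2570324104) (nat_lit 1140) (nat_lit 2570324104) (nat_lit 159) (nat_lit 3) (nat_lit 174) (nat_lit 3) (nat_lit 174) (nat_lit 5) (nat_lit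 349) (nat_lit 349) (nat_lit 82)) (XT.nd (nat_lit 78) (nat_lit 0) (nat_lit 0) (XT.lf (nat_lit 76) (nat_lit 19371455593) (nat_lit 0) (nat_lit 28323269225) (nat_lit 1140) (nat_lit 10224873102) (nat_lit 160) (nat_lit 5) (nat_lit 159) (nat_lit 3) (nat_lit 174) (nat_lit 5) (nat_lit 350) (nat_lit 349) (nat_lit 81)) (XT.lf (nat_lit 76) (nat_lit 44723925683) (nat_lit 0) (nat_lit 3955477262) (nat_lit 1140) (nat_lit 10114028532) (nat_lit 160) (nat_lit 5) (nat_lit 159) (nat_lit 3) (nat_lit 174) (nat_lit 5) (nat_lit 351) (nat_lit 349) (nat_lit 80))))) (XT.nd (nat_lit 40560) (nat_lit 76) (nat_lit 0) (XT.nd (nat_lit 156) (nat_lit 0) (nat_lit 76) (XT.lf (nat_lit 76) (nat_lit 11157581929) (nat_lit 0) (nat_lit 38845843660) (nat_lit 1140) (nat_lit 9680761850) (nat_lit 161) (nat_lit 5) (nat_lit 160) (nat_lit 5) (nat_lit 175) (nat_lit 5) (nat_lit 352) (nat_lit 349) (nat_lit 79)) (XT.nd (nat_lit 78) (nat_lit 0) (nat_lit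 0) (XT.lf (nat_lit 76) (nat_lit 2819076997) (nat_lit 0) (nat_lit 50453297119) (nat_lit 1140) (nat_lit 8259282908) (nat_lit 162) (nat_lit 5) (nat_lit 161) (nat_lit 5) (nat_lit 176) (nat_lit 5) (nat_lit 354) (nat_lit 349) (nat_lit 77)) (XT.lf (nat_lit 76) (nat_lit 29957978680) (nat_lit 0) (nat_lit 25463679393) (nat_lit 1140) (nat_lit 7062281818) (nat_lit 162) (nat_lit 5) (nat_lit 161) (nat_lit 5) (nat_lit 176) (nat_lit 5) (nat_lit 355) (nat_lit 349) (nat_lit 76)))) (XT.nd (nat_lit 234) (nat_lit 0) (nat_lit 0) (XT.lf (nat_lit 76) (nat_lit 19971081283) (nat_lit 0) (nat_lit 29189775069) (nat_lit 1140) (nat_lit 10495193564) (nat_lit 160) (nat_lit 5) (nat_lit 159) (nat_lit 3) (nat_lit 174) (nat_lit 5) (nat_lit 351) (nat_lit 350) (nat_lit 79)) (XT.nd (nat_lit 40560) (nat_lit 76) (nat_lit 0) (XT.lf (nat_lit 76) (nat_lit 38529713167) (nat_lit 0) (nat_lit 14596378838) (nat_lit 1140) (nat_lit 9287017643)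 (nat_lit 161) (nat_lit 5) (nat_lit 160) (nat_lit 5) (nat_lit 175) (nat_lit 5) (nat_lit 354) (nat_lit 350) (nat_lit 76)) (XT.lf (nat_lit 76) (nat_lit 47483008447) (nat_lit 0) (nat_lit 4228555083) (nat_lit 1140) (nat_lit 10660212433) (nat_lit 160) (nat_lit 5) (nat_lit 159) (nat_lit 3) (nat_lit 174) (nat_lit 5) (nat_lit 353) (nat_lit 351) (nat_lit 76))))))))

set_option maxRecDepth 10000000 in
noncomputable def Tp : PT := (PT.nd (nat_lit 5455944) (PT.nd (nat_lit 4887792) (PT.nd (nat_lit 4400136) (PT.nd (nat_lit 3993678) (PT.nd (nat_lit 3628482) pc0 pc1) (PT.nd (nat_lit 243516) pc2 pc3)) (PT.nd (nat_lit 284232) (PT.nd (nat_lit 162084) pc4 pc5) (PT.nd (nat_lit 121368) pc6 pc7))) (PT.nd (nat_lit 324948) (PT.nd (nat_lit 201942) (PT.nd (nat_lit 120666) pc8 pc9) (PT.nd (nat_lit 80886) pc10 pc11)) (PT.nd (nat_lit 122070) (PT.nd (nat_lit 80184) pc12 pc13) (PT.nd (nat_lit 79638) pc14 pc15)))) (PT.nd (nat_lit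 364026) (PT.nd (nat_lit 201942) (PT.nd (nat_lit 120042) (PT.nd (nat_lit 41340) pc16 pc17) (PT.nd (nat_lit 40950) pc18 pc19)) (PT.nd (nat_lit 81354) (PT.nd (nat_lit 40716) pc20 pc21) (PT.nd (nat_lit 40404) pc22 pc23))) (PT.nd (nat_lit 161772) (PT.nd (nat_lit 80028) (PT.nd (nat_lit 40092) pc24 pc25) (PT.nd (nat_lit 40404) pc26 pc27)) (PT.nd (nat_lit 161616) (PT.nd (nat_lit 80262) pc28 pc29) (PT.nd (nat_lit 121446) pc30 pc31)))))

set_option maxRecDepth 10000000 in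
noncomputable def Tx : XT := (XT.nd (nat_lit 7712016) (nat_lit 0) (nat_lit 152) XT.nil (XT.nd (nat_lit 6579534) (nat_lit 0) (nat_lit 0) (XT.nd (nat_lit 3123432) (nat_lit 0) (nat_lit 456) (XT.nd (nat_lit 2152956) (nat_lit 0) (nat_lit 152) (XT.nd (nat_lit 1502202) (nat_lit 0) (nat_lit 76) (XT.nd (nat_lit 1053858) (nat_lit 0) (nat_lit 76) (XT.nd (nat_lit 729612) (nat_lit 0) (nat_lit 0) (XT.nd (nat_lit 487188) (nat_lit 0) (nat_lit 0) (XT.nd (nat_lit 324870) (nat_lit 0) (nat_lit 0) (XT.nd (nat_lit 203268) (nat_lit 0) (nat_lit 0) xc0 xc1) (XT.nd (nat_lit 81432) (nat_lit 0) (nat_lit 0) xc2 xc3)) (XT.nd (nat_lit 121914) (nat_lit 0) (nat_lit 0) (XT.nd (nat_lit 80184) (nat_lit 0) (nat_lit 0) xc4 xc5) (XT.nd (nat_lit 79248) (nat_lit 0) (nat_lit 0) xc6 xc7))) (XT.nd (nat_lit 163332) (nat_lit 0) (nat_lit 76) (XT.nd (nat_lit 81978) (nat_lit 0) (nat_lit 0) (XT.nd (nat_lit 41028) (nat_lit 0) (nat_lit 0) xc8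 xc9) (XT.nd (nat_lit 40716) (nat_lit 0) (nat_lit 0) xc10 xc11)) (XT.nd (nat_lit 80730) (nat_lit 0) (nat_lit 0) (XT.nd (nat_lit 40404) (nat_lit 0) (nat_lit 0) xc12 xc13) (XT.nd (nat_lit 40170) (nat_lit 0) (nat_lit 0) xc14 xc15)))) (XT.nd (nat_lit 244140) (nat_lit 0) (nat_lit 0) (XT.nd (nat_lit 122694) (nat_lit 0) (nat_lit 0) (XT.nd (nat_lit 43446) (nat_lit 0) (nat_lit 0) (XT.nd (nat_lit 39780) (nat_lit 0) (nat_lit 0) xc16 xc17) (XT.nd (nat_lit 39624) (nat_lit 0) (nat_lit 0) xc18 xc19)) (XT.nd (nat_lit 78702) (nat_lit 0) (nat_lit 0) (XT.nd (nat_lit 39390) (nat_lit 0) (nat_lit 0) xc20 xc21) (XT.nd (nat_lit 3588) (nat_lit 0) (nat_lit 0) xc22 xc23))) (XT.nd (nat_lit 120042) (nat_lit 0) (nat_lit 0) (XT.nd (nat_lit 42588) (nat_lit 0) (nat_lit 0) (XT.nd (nat_lit 38922) (nat_lit 0) (nat_lit 0) xc24 xc25) (XT.nd (nat_lit 38766) (nat_lit 0) (nat_lit 0) xc26 xc27)) (XT.nd (nat_lit 42120) (nat_lit 0) (nat_lit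 0) (XT.nd (nat_lit 3588) (nat_lit 0) (nat_lit 0) xc28 xc29) (XT.nd (nat_lit 38376) (nat_lit 0) (nat_lit 152) xc30 xc31))))) (XT.nd (nat_lit 363480) (nat_lit 0) (nat_lit 0) (XT.nd (nat_lit 200226) (nat_lit 0) (nat_lit 0) (XT.nd (nat_lit 117702) (nat_lit 0) (nat_lit 0) (XT.nd (nat_lit 41808) (nat_lit 0) (nat_lit 0) (XT.nd (nat_lit 38142) (nat_lit 0) (nat_lit 0) xc32 xc33) (XT.nd (nat_lit 37986) (nat_lit 0) (nat_lit 0) xc34 xc35)) (XT.nd (nat_lit 41340) (nat_lit 0) (nat_lit 0) (XT.nd (nat_lit 3588) (nat_lit 228) (nat_lit 0) xc36 xc37) (XT.nd (nat_lit 3588) (nat_lit 152) (nat_lit 0) xc38 xc39))) (XT.nd (nat_lit 81900) (nat_lit 0) (nat_lit 0) (XT.nd (nat_lit 41028) (nat_lit 0) (nat_lit 0) (XT.nd (nat_lit 3588) (nat_lit 152) (nat_lit 0) xc40 xc41) (XT.nd (nat_lit 3588) (nat_lit 76) (nat_lit 0) xc42 xc43)) (XT.nd (nat_lit 40716) (nat_lit 0) (nat_lit 0) (XT.nd (nat_lit 3588) (nat_lit 0) (nat_lit 0) xc44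 xc45) (XT.nd (nat_lit 3666) (nat_lit 0) (nat_lit 0) xc46 xc47)))) (XT.nd (nat_lit 160836) (nat_lit 0) (nat_lit 76) (XT.nd (nat_lit 80652) (nat_lit 0) (nat_lit 0) (XT.nd (nat_lit 40404) (nat_lit 0) (nat_lit 0) (XT.nd (nat_lit 3588) (nat_lit 0) (nat_lit 0) xc48 xc49) (XT.nd (nat_lit 3588) (nat_lit 76) (nat_lit 0) xc50 xc51)) (XT.nd (nat_lit 40170) (nat_lit 0) (nat_lit 0) (XT.nd (nat_lit 3588) (nat_lit 152) (nat_lit 0) xc52 xc53) (XT.nd (nat_lit 3588) (nat_lit 228) (nat_lit 0) xc54 xc55))) (XT.nd (nat_lit 79560) (nat_lit 0) (nat_lit 0) (XT.nd (nat_lit 39858) (nat_lit 0) (nat_lit 0) (XT.nd (nat_lit 3588) (nat_lit 228) (nat_lit 0) xc56 xc57) (XT.nd (nat_lit 3588) (nat_lit 380) (nat_lit 0) xc58 xc59)) (XT.nd (nat_lit 39546) (nat_lit 0) (nat_lit 152) (XT.nd (nat_lit 3588) (nat_lit 608) (nat_lit 0) xc60 xc61) (XT.nd (nat_lit 3666) (nat_lit 1064) (nat_lit 0) xc62 xc63)))))) (XT.nd (nat_lit 523146) (nat_lit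 0) (nat_lit 152) (XT.nd (nat_lit 280176) (nat_lit 0) (nat_lit 76) (XT.nd (nat_lit 156780) (nat_lit 0) (nat_lit 76) (XT.nd (nat_lit 78624) (nat_lit 0) (nat_lit 76) (XT.nd (nat_lit 39390) (nat_lit 0) (nat_lit 0) (XT.nd (nat_lit 35724) (nat_lit 0) (nat_lit 304) xc64 xc65) (XT.nd (nat_lit 35568) (nat_lit 0) (nat_lit 684) xc66 xc67)) (XT.nd (nat_lit 39156) (nat_lit 0) (nat_lit 0) (XT.nd (nat_lit 35490) (nat_lit 0) (nat_lit 1596) xc68 xc69) (XT.nd (nat_lit 3588) (nat_lit 152) (nat_lit 0) xc70 xc71))) (XT.nd (nat_lit 46098) (nat_lit 0) (nat_lit 0) (XT.nd (nat_lit 38844) (nat_lit 0) (nat_lit 76) (XT.nd (nat_lit 3588) (nat_lit 532) (nat_lit 0) xc72 xc73) (XT.nd (nat_lit 3588) (nat_lit 1368) (nat_lit 0) xc74 xc75)) (XT.nd (nat_lit 38688) (nat_lit 0) (nat_lit 0) (XT.nd (nat_lit 35022) (nat_lit 0) (nat_lit 532) xc76 xc77) (XT.nd (nat_lit 34944) (nat_lit 0) (nat_lit 1748) xc78 xc79)))) (XT.nd (nat_lit 121992)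 (nat_lit 0) (nat_lit 76) (XT.nd (nat_lit 45708) (nat_lit 0) (nat_lit 0) (XT.nd (nat_lit 38376) (nat_lit 0) (nat_lit 0) (XT.nd (nat_lit 3588) (nat_lit 228) (nat_lit 0) xc80 xc81) (XT.nd (nat_lit 3588) (nat_lit 912) (nat_lit 0) xc82 xc83)) (XT.nd (nat_lit 38142) (nat_lit 0) (nat_lit 0) (XT.nd (nat_lit 34476) (nat_lit 0) (nat_lit 532) xc84 xc85) (XT.nd (nat_lit 34476) (nat_lit 0) (nat_lit 1748) xc86 xc87))) (XT.nd (nat_lit 45240) (nat_lit 0) (nat_lit 0) (XT.nd (nat_lit 37986) (nat_lit 0) (nat_lit 0) (XT.nd (nat_lit 3588) (nat_lit 152) (nat_lit 0) xc88 xc89) (XT.nd (nat_lit 3588) (nat_lit 1140) (nat_lit 0) xc90 xc91)) (XT.nd (nat_lit 37908) (nat_lit 0) (nat_lit 0) (XT.nd (nat_lit 34242) (nat_lit 0) (nat_lit 760) xc92 xc93) (XT.nd (nat_lit 34164) (nat_lit 0) (nat_lit 2964) xc94 xc95))))) (XT.nd (nat_lit 208494) (nat_lit 0) (nat_lit 0) (XT.nd (nat_lit 119652) (nat_lit 0) (nat_lit 0) (XT.nd (nat_lit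 44850) (nat_lit 0) (nat_lit 0) (XT.nd (nat_lit 37596) (nat_lit 0) (nat_lit 304) (XT.nd (nat_lit 3588) (nat_lit 456) (nat_lit 0) xc96 xc97) (XT.nd (nat_lit 3588) (nat_lit 1976) (nat_lit 0) xc98 xc99)) (XT.nd (nat_lit 37440) (nat_lit 0) (nat_lit 0) (XT.nd (nat_lit 33774) (nat_lit 0) (nat_lit 1900) xc100 xc101) (XT.nd (nat_lit 3588) (nat_lit 228) (nat_lit 0) xc102 xc103))) (XT.nd (nat_lit 44460) (nat_lit 0) (nat_lit 0) (XT.nd (nat_lit 7254) (nat_lit 152) (nat_lit 0) (XT.nd (nat_lit 3588) (nat_lit 1520) (nat_lit 0) xc104 xc105) (XT.nd (nat_lit 33540) (nat_lit 0) (nat_lit 1520) xc106 xc107)) (XT.nd (nat_lit 37050) (nat_lit 0) (nat_lit 76) (XT.nd (nat_lit 3588) (nat_lit 152) (nat_lit 0) xc108 xc109) (XT.nd (nat_lit 3666) (nat_lit 1444) (nat_lit 0) xc110 xc111)))) (XT.nd (nat_lit 118950) (nat_lit 0) (nat_lit 76) (XT.nd (nat_lit 74334) (nat_lit 0) (nat_lit 76) (XT.nd (nat_lit 37128) (nat_lit 0) (nat_lit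 76) (XT.nd (nat_lit 33462) (nat_lit 0) (nat_lit 1520) xc112 xc113) (XT.nd (nat_lit 3588) (nat_lit 0) (nat_lit 0) xc114 xc115)) (XT.nd (nat_lit 37362) (nat_lit 0) (nat_lit 1064) (XT.nd (nat_lit 3588) (nat_lit 1368) (nat_lit 0) xc116 xc117) (XT.nd (nat_lit 3588) (nat_lit 4940) (nat_lit 0) xc118 xc119))) (XT.nd (nat_lit 74958) (nat_lit 0) (nat_lit 76) (XT.nd (nat_lit 37440) (nat_lit 0) (nat_lit 0) (XT.nd (nat_lit 33774) (nat_lit 0) (nat_lit 5244) xc120 xc121) (XT.nd (nat_lit 3588) (nat_lit 912) (nat_lit 0) xc122 xc123)) (XT.nd (nat_lit 7254) (nat_lit 684) (nat_lit 0) (XT.nd (nat_lit 3588) (nat_lit 3420) (nat_lit 0) xc124 xc125) (XT.nd (nat_lit 34008) (nat_lit 0) (nat_lit 3268) xc126 xc127))))))) (XT.nd (nat_lit 1057524) (nat_lit 0) (nat_lit 836) (XT.nd (nat_lit 488202) (nat_lit 0) (nat_lit 304) (XT.nd (nat_lit 242268) (nat_lit 0) (nat_lit 76) (XT.nd (nat_lit 120666) (nat_lit 0) (nat_lit 76) (XT.nd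 (nat_lit 44928) (nat_lit 0) (nat_lit 76) (XT.nd (nat_lit 37674) (nat_lit 0) (nat_lit 152) (XT.nd (nat_lit 3588) (nat_lit 380) (nat_lit 0) xc128 xc129) (XT.nd (nat_lit 3588) (nat_lit 2356) (nat_lit 0) xc130 xc131)) (XT.nd (nat_lit 37830) (nat_lit 0) (nat_lit 0) (XT.nd (nat_lit 34164) (nat_lit 0) (nat_lit 1596) xc132 xc133) (XT.nd (nat_lit 3588) (nat_lit 0) (nat_lit 0) xc134 xc135))) (XT.nd (nat_lit 45240) (nat_lit 0) (nat_lit 0) (XT.nd (nat_lit 37986) (nat_lit 0) (nat_lit 532) (XT.nd (nat_lit 3588) (nat_lit 1064) (nat_lit 0) xc136 xc137) (XT.nd (nat_lit 3588) (nat_lit 3496) (nat_lit 0) xc138 xc139)) (XT.nd (nat_lit 38064) (nat_lit 0) (nat_lit 0) (XT.nd (nat_lit 34398) (nat_lit 0) (nat_lit 2432) xc140 xc141) (XT.nd (nat_lit 3666) (nat_lit 228) (nat_lit 0) xc142 xc143)))) (XT.nd (nat_lit 122460) (nat_lit 0) (nat_lit 76) (XT.nd (nat_lit 45552) (nat_lit 0) (nat_lit 76) (XT.nd (nat_lit 38298) (nat_lit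 0) (nat_lit 608) (XT.nd (nat_lit 3588) (nat_lit 1444) (nat_lit 0) xc144 xc145) (XT.nd (nat_lit 3588) (nat_lit 3724) (nat_lit 0) xc146 xc147)) (XT.nd (nat_lit 38376) (nat_lit 0) (nat_lit 0) (XT.nd (nat_lit 34710) (nat_lit 0) (nat_lit 2356) xc148 xc149) (XT.nd (nat_lit 3588) (nat_lit 152) (nat_lit 0) xc150 xc151))) (XT.nd (nat_lit 45864) (nat_lit 0) (nat_lit 0) (XT.nd (nat_lit 38610) (nat_lit 0) (nat_lit 228) (XT.nd (nat_lit 3588) (nat_lit 988) (nat_lit 0) xc152 xc153) (XT.nd (nat_lit 3588) (nat_lit 2888) (nat_lit 0) xc154 xc155)) (XT.nd (nat_lit 38688) (nat_lit 0) (nat_lit 152) (XT.nd (nat_lit 35022) (nat_lit 0) (nat_lit 1368) xc156 xc157) (XT.nd (nat_lit 35256) (nat_lit 0) (nat_lit 3192) xc158 xc159))))) (XT.nd (nat_lit 281970) (nat_lit 0) (nat_lit 228) (XT.nd (nat_lit 124332) (nat_lit 0) (nat_lit 0) (XT.nd (nat_lit 77922) (nat_lit 0) (nat_lit 0) (XT.nd (nat_lit 38922) (nat_lit 0) (nat_lit 0)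 (XT.nd (nat_lit 3588) (nat_lit 304) (nat_lit 0) xc160 xc161) (XT.nd (nat_lit 3588) (nat_lit 1216) (nat_lit 0) xc162 xc163)) (XT.nd (nat_lit 7254) (nat_lit 76) (nat_lit 0) (XT.nd (nat_lit 3588) (nat_lit 2888) (nat_lit 0) xc164 xc165) (XT.nd (nat_lit 35490) (nat_lit 0) (nat_lit 988) xc166 xc167))) (XT.nd (nat_lit 78546) (nat_lit 0) (nat_lit 76) (XT.nd (nat_lit 39234) (nat_lit 0) (nat_lit 76) (XT.nd (nat_lit 35568) (nat_lit 0) (nat_lit 2204) xc168 xc169) (XT.nd (nat_lit 35646) (nat_lit 0) (nat_lit 4332) xc170 xc171)) (XT.nd (nat_lit 39468) (nat_lit 0) (nat_lit 0) (XT.nd (nat_lit 3588) (nat_lit 456) (nat_lit 0) xc172 xc173) (XT.nd (nat_lit 3666) (nat_lit 1292) (nat_lit 0) xc174 xc175)))) (XT.nd (nat_lit 126594) (nat_lit 0) (nat_lit 152) (XT.nd (nat_lit 46956) (nat_lit 0) (nat_lit 0) (XT.nd (nat_lit 39702) (nat_lit 0) (nat_lit 152) (XT.nd (nat_lit 3588) (nat_lit 2204) (nat_lit 0) xc176 xc177) (XT.nd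 (nat_lit 3588) (nat_lit 3420) (nat_lit 0) xc178 xc179)) (XT.nd (nat_lit 39780) (nat_lit 0) (nat_lit 76) (XT.nd (nat_lit 36114) (nat_lit 0) (nat_lit 608) xc180 xc181) (XT.nd (nat_lit 36192) (nat_lit 0) (nat_lit 1292) xc182 xc183))) (XT.nd (nat_lit 80106) (nat_lit 0) (nat_lit 0) (XT.nd (nat_lit 40014) (nat_lit 0) (nat_lit 0) (XT.nd (nat_lit 36348) (nat_lit 0) (nat_lit 1824) xc184 xc185) (XT.nd (nat_lit 36426) (nat_lit 0) (nat_lit 2584) xc186 xc187)) (XT.nd (nat_lit 40248) (nat_lit 0) (nat_lit 152) (XT.nd (nat_lit 36582) (nat_lit 0) (nat_lit 3420) xc188 xc189) (XT.nd (nat_lit 36738) (nat_lit 0) (nat_lit 3572) xc190 xc191)))))) (XT.nd (nat_lit 731172) (nat_lit 0) (nat_lit 1672) (XT.nd (nat_lit 326742) (nat_lit 0) (nat_lit 532) (XT.nd (nat_lit 162396) (nat_lit 0) (nat_lit 152) (XT.nd (nat_lit 80964) (nat_lit 0) (nat_lit 152) (XT.nd (nat_lit 40404) (nat_lit 0) (nat_lit 0) (XT.nd (nat_lit 3588) (nat_lit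 0) (nat_lit 0) xc192 xc193) (XT.nd (nat_lit 3588) (nat_lit 152) (nat_lit 0) xc194 xc195)) (XT.nd (nat_lit 40638) (nat_lit 0) (nat_lit 0) (XT.nd (nat_lit 3588) (nat_lit 152) (nat_lit 0) xc196 xc197) (XT.nd (nat_lit 3588) (nat_lit 152) (nat_lit 0) xc198 xc199))) (XT.nd (nat_lit 81900) (nat_lit 0) (nat_lit 152) (XT.nd (nat_lit 40872) (nat_lit 0) (nat_lit 152) (XT.nd (nat_lit 3588) (nat_lit 152) (nat_lit 0) xc200 xc201) (XT.nd (nat_lit 37362) (nat_lit 0) (nat_lit 3268) xc202 xc203)) (XT.nd (nat_lit 41106) (nat_lit 0) (nat_lit 152) (XT.nd (nat_lit 37440) (nat_lit 0) (nat_lit 2660) xc204 xc205) (XT.nd (nat_lit 37674) (nat_lit 0) (nat_lit 1672) xc206 xc207)))) (XT.nd (nat_lit 200694) (nat_lit 0) (nat_lit 532) (XT.nd (nat_lit 82836) (nat_lit 0) (nat_lit 152) (XT.nd (nat_lit 41340) (nat_lit 0) (nat_lit 152) (XT.nd (nat_lit 37674) (nat_lit 0) (nat_lit 912) xc208 xc209) (XT.nd (nat_lit 37830) (nat_lit 0)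 (nat_lit 0) xc210 xc211)) (XT.nd (nat_lit 76050) (nat_lit 0) (nat_lit 152) (XT.nd (nat_lit 37908) (nat_lit 0) (nat_lit 152) xc212 xc213) (XT.nd (nat_lit 3588) (nat_lit 1824) (nat_lit 0) xc214 xc215))) (XT.nd (nat_lit 84006) (nat_lit 0) (nat_lit 152) (XT.nd (nat_lit 41964) (nat_lit 0) (nat_lit 0) (XT.nd (nat_lit 3588) (nat_lit 152) (nat_lit 0) xc216 xc217) (XT.nd (nat_lit 38376) (nat_lit 0) (nat_lit 1368) xc218 xc219)) (XT.nd (nat_lit 77220) (nat_lit 0) (nat_lit 228) (XT.nd (nat_lit 38532) (nat_lit 0) (nat_lit 0) xc220 xc221) (XT.nd (nat_lit 3666) (nat_lit 1824) (nat_lit 0) xc222 xc223))))) (XT.nd (nat_lit 490074) (nat_lit 0) (nat_lit 1900) (XT.nd (nat_lit 242736) (nat_lit 0) (nat_lit 760) (XT.nd (nat_lit 120822) (nat_lit 0) (nat_lit 228) (XT.nd (nat_lit 42588) (nat_lit 0) (nat_lit 0) (XT.nd (nat_lit 38922) (nat_lit 0) (nat_lit 1596) xc224 xc225) (XT.nd (nat_lit 39000) (nat_lit 0) (nat_lit 228)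 xc226 xc227)) (XT.nd (nat_lit 42900) (nat_lit 0) (nat_lit 228) (XT.nd (nat_lit 3588) (nat_lit 760) (nat_lit 0) xc228 xc229) (XT.nd (nat_lit 39390) (nat_lit 0) (nat_lit 304) xc230 xc231))) (XT.nd (nat_lit 123006) (nat_lit 0) (nat_lit 532) (XT.nd (nat_lit 43290) (nat_lit 0) (nat_lit 228) (XT.nd (nat_lit 3588) (nat_lit 608) (nat_lit 0) xc232 xc233) (XT.nd (nat_lit 39780) (nat_lit 0) (nat_lit 0) xc234 xc235)) (XT.nd (nat_lit 80262) (nat_lit 0) (nat_lit 608) (XT.nd (nat_lit 40014) (nat_lit 0) (nat_lit 304) xc236 xc237) (XT.nd (nat_lit 40404) (nat_lit 0) (nat_lit 304) xc238 xc239)))) (XT.nd (nat_lit 364806) (nat_lit 0) (nat_lit 2204) (XT.nd (nat_lit 162552) (nat_lit 0) (nat_lit 988) (XT.nd (nat_lit 81042) (nat_lit 0) (nat_lit 304) (XT.nd (nat_lit 40404) (nat_lit 0) (nat_lit 304) xc240 xc241) (XT.nd (nat_lit 40638) (nat_lit 0) (nat_lit 380) xc242 xc243)) (XT.nd (nat_lit 119496) (nat_lit 0) (nat_lit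 760) (XT.nd (nat_lit 78312) (nat_lit 0) (nat_lit 380) xc244 xc245) (XT.nd (nat_lit 41340) (nat_lit 0) (nat_lit 0) xc246 xc247))) (XT.nd (nat_lit 243984) (nat_lit 0) (nat_lit 1900) (XT.nd (nat_lit 121368) (nat_lit 0) (nat_lit 836) (XT.nd (nat_lit 79560) (nat_lit 0) (nat_lit 836) xc248 xc249) (XT.nd (nat_lit 80340) (nat_lit 0) (nat_lit 988) xc250 xc251)) (XT.nd (nat_lit 202020) (nat_lit 0) (nat_lit 2128) (XT.nd (nat_lit 81042) (nat_lit 0) (nat_lit 988) xc252 xc253) (XT.nd (nat_lit 122070) (nat_lit 0) (nat_lit 0) xc254 xc255)))))))) XT.nil))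

set_option maxRecDepth 10000000 in
noncomputable def Te : XT := XT.nil

set_option maxRecDepth 10000000 in
noncomputable def Tz : ZL := (ZL.cons (nat_lit 76) (nat_lit 6) (nat_lit 178194260612057043540) (ZL.cons (nat_lit 152) (nat_lit 3) (nat_lit 87933626414131828123) (ZL.cons (nat_lit 228) (nat_lit 6) (nat_lit 173620159469923831076) (ZL.cons (nat_lit 304) (nat_lit 6) (nat_lit 171451017057404067214) (ZL.cons (nat_lit 380) (nat_lit 3) (nat_lit 85689704650236453296) (ZL.cons (nat_lit 456) (nat_lit 6) (nat_lit 169216800372508710436) (ZL.cons (nat_lit 532) (nat_lit 6) (nat_lit 167130443027744671946) (ZL.cons (nat_lit 608) (nat_lit 3) (nat_lit 83530460466818374507) (ZL.cons (nat_lit 684) (nat_lit 6) (nat_lit 164981494962637712304) (ZL.cons (nat_lit 760) (nat_lit 6) (nat_lit 162976705485362183670) (ZL.cons (nat_lit 836) (nat_lit 3) (nat_lit 81454604153308313713) (ZL.cons (nat_lit 912) (nat_lit 6) (nat_lit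 160911772323768389178) (ZL.cons (nat_lit 988) (nat_lit 6) (nat_lit 158987441681680800076) (ZL.cons (nat_lit 1064) (nat_lit 3) (nat_lit 79460955220090130015) (ZL.cons (nat_lit 1140) (nat_lit 6) (nat_lit 157134534926394754456) (ZL.cons (nat_lit 1216) (nat_lit 6) (nat_lit 157005381120330583298) (ZL.cons (nat_lit 1292) (nat_lit 6) (nat_lit 155160509726949587420) (ZL.cons (nat_lit 1368) (nat_lit 3) (nat_lit 77548443581192978154) (ZL.cons (nat_lit 1444) (nat_lit 6) (nat_lit 153385684236489657934) (ZL.cons (nat_lit 1520) (nat_lit 6) (nat_lit 153260292191767161666) (ZL.cons (nat_lit 1596) (nat_lit 6) (nat_lit 151493991416752299450) (ZL.cons (nat_lit 1672) (nat_lit 3) (nat_lit 75716110968296717147) (ZL.cons (nat_lit 1748) (nat_lit 6) (nat_lit 149796441467732133376) (ZL.cons (nat_lit 1824) (nat_lit 6) (nat_lit 149674701618486991370) (ZL.cons (nat_lit 1900) (nat_lit 6) (nat_lit 148166159048634704074) (ZL.cons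 (nat_lit 1976) (nat_lit 6) (nat_lit 147986195540082497164) (ZL.cons (nat_lit 2052) (nat_lit 3) (nat_lit 73963112585498110157) (ZL.cons (nat_lit 2128) (nat_lit 6) (nat_lit 146365228307719209886) (ZL.cons (nat_lit 2204) (nat_lit 6) (nat_lit 146247034279325868132) (ZL.cons (nat_lit 2280) (nat_lit 6) (nat_lit 144810383542262054820) (ZL.cons (nat_lit 2356) (nat_lit 6) (nat_lit 144635661689298747140) (ZL.cons (nat_lit 2432) (nat_lit 3) (nat_lit 72288719014995841118) (ZL.cons (nat_lit 2508) (nat_lit 6) (nat_lit 143090699405447843348) (ZL.cons (nat_lit 2584) (nat_lit 6) (nat_lit 142975947921570812518) (ZL.cons (nat_lit 2660) (nat_lit 6) (nat_lit 141610797460729015190) (ZL.cons (nat_lit 2736) (nat_lit 6) (nat_lit 141441164593774347538) (ZL.cons (nat_lit 2812) (nat_lit 3) (nat_lit 70692318384602190806) (ZL.cons (nat_lit 2888) (nat_lit 6) (nat_lit 140194662736938139420) (ZL.cons (nat_lit 2964) (nat_lit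 6) (nat_lit 139971746973791591358) (ZL.cons (nat_lit 3040) (nat_lit 6) (nat_lit 139860337766143988610) (ZL.cons (nat_lit 3116) (nat_lit 6) (nat_lit 138566411104478869722) (ZL.cons (nat_lit 3192) (nat_lit 6) (nat_lit 138401719000639386564) (ZL.cons (nat_lit 3268) (nat_lit 3) (nat_lit 69173418808780874871) (ZL.cons (nat_lit 3344) (nat_lit 6) (nat_lit 137223929022455229766) (ZL.cons (nat_lit 3420) (nat_lit 6) (nat_lit 137007505951439163688) (ZL.cons (nat_lit 3496) (nat_lit 6) (nat_lit 136899341672169646456) (ZL.cons (nat_lit 3572) (nat_lit 6) (nat_lit 135943127685124728506) (ZL.cons (nat_lit 3648) (nat_lit 6) (nat_lit 135676480374131397456) (ZL.cons (nat_lit 3724) (nat_lit 6) (nat_lit 135516585127685297304) (ZL.cons (nat_lit 3800) (nat_lit 3) (nat_lit 67731651115746708447) (ZL.cons (nat_lit 3876) (nat_lit 6) (nat_lit 134407479236658246130) (ZL.cons (nat_lit 3952) (nat_lit 6) (nat_lit 134197359750234881006)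 (ZL.cons (nat_lit 4028) (nat_lit 6) (nat_lit 134092345886866417676) (ZL.cons (nat_lit 4104) (nat_lit 6) (nat_lit 133199393703074344820) (ZL.cons (nat_lit 4180) (nat_lit 6) (nat_lit 132940512818614800112) (ZL.cons (nat_lit 4256) (nat_lit 6) (nat_lit 132785274715269071810) (ZL.cons (nat_lit 4332) (nat_lit 3) (nat_lit 66366771874046244445) (ZL.cons (nat_lit 4408) (nat_lit 6) (nat_lit 132051168164661027984) (ZL.cons (nat_lit 4484) (nat_lit 6) (nat_lit 131744946117059561348) (ZL.cons (nat_lit 4560) (nat_lit 6) (nat_lit 131540946615677653462) (ZL.cons (nat_lit 4636) (nat_lit 6) (nat_lit 131438991408523805570) (ZL.cons (nat_lit 4712) (nat_lit 6) (nat_lit 130609614975635766934) (ZL.cons (nat_lit 4788) (nat_lit 6) (nat_lit 130358274311111937120) (ZL.cons (nat_lit 4864) (nat_lit 6) (nat_lit 130207557705921909644) (ZL.cons (nat_lit 4940) (nat_lit 3) (nat_lit 65078666732972322336) (ZL.cons (nat_lit 5016)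 (nat_lit 6) (nat_lit 129533527357423726176) (ZL.cons (nat_lit 5092) (nat_lit 6) (nat_lit 129236224398587350800) (ZL.cons (nat_lit 5168) (nat_lit 6) (nat_lit 129038166630255401396) (ZL.cons (nat_lit 5244) (nat_lit 6) (nat_lit 128939180992241956840) (ZL.cons (nat_lit 5320) (nat_lit 6) (nat_lit 128515742991689079034) (ZL.cons (nat_lit 5396) (nat_lit 6) (nat_lit 128173816446141494380) (ZL.cons (nat_lit 5472) (nat_lit 6) (nat_lit 127929796383496999414) (ZL.cons (nat_lit 5548) (nat_lit 6) (nat_lit 127783469582341632930) (ZL.cons (nat_lit 5624) (nat_lit 3) (nat_lit 63867354092152726673) (ZL.cons (nat_lit 5700) (nat_lit 6) (nat_lit 127170122136146017106) (ZL.cons (nat_lit 5776) (nat_lit 6) (nat_lit 126881478486790312862) (ZL.cons (nat_lit 5852) (nat_lit 6) (nat_lit 126689189391322400816) (ZL.cons (nat_lit 5928) (nat_lit 6) (nat_lit 126593086830144299304) (ZL.cons (nat_lit 6004) (nat_lit 6) (nat_lit 126224264454155291866)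 (ZL.cons (nat_lit 6080) (nat_lit 6) (nat_lit 125892296934206180550) (ZL.cons (nat_lit 6156) (nat_lit 6) (nat_lit 125655384252027059226) (ZL.cons (nat_lit 6232) (nat_lit 6) (nat_lit 125513319396536412152) (ZL.cons (nat_lit 6308) (nat_lit 3) (nat_lit 62732989116697245112) (ZL.cons (nat_lit 6384) (nat_lit 6) (nat_lit 125335416922583113172) (ZL.cons (nat_lit 6460) (nat_lit 6) (nat_lit 124961387392349140624) (ZL.cons (nat_lit 6536) (nat_lit 6) (nat_lit 124681150839576612228) (ZL.cons (nat_lit 6612) (nat_lit 6) (nat_lit 124494462397374755876) (ZL.cons (nat_lit 6688) (nat_lit 6) (nat_lit 124401158939920288386) (ZL.cons (nat_lit 6764) (nat_lit 6) (nat_lit 124502802878537816010) (ZL.cons (nat_lit 6840) (nat_lit 6) (nat_lit 124087936445114657800) (ZL.cons (nat_lit 6916) (nat_lit 6) (nat_lit 123765637882057268172) (ZL.cons (nat_lit 6992) (nat_lit 6) (nat_lit 123535625569262004748) (ZL.cons (nat_lit 7068)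 (nat_lit 6) (nat_lit 123397698525096327980) (ZL.cons (nat_lit 7144) (nat_lit 3) (nat_lit 61675868115391891209) (ZL.cons (nat_lit 7220) (nat_lit 6) (nat_lit 123271180882937187386) (ZL.cons (nat_lit 7296) (nat_lit 6) (nat_lit 122908045416690612096) (ZL.cons (nat_lit 7372) (nat_lit 6) (nat_lit 122635971093610487440) (ZL.cons (nat_lit 7448) (nat_lit 6) (nat_lit 122454720178851403600) (ZL.cons (nat_lit 7524) (nat_lit 6) (nat_lit 122364134297827648760) (ZL.cons (nat_lit 7600) (nat_lit 6) (nat_lit 122510407035908030626) (ZL.cons (nat_lit 7676) (nat_lit 6) (nat_lit 122107624090837003234) (ZL.cons (nat_lit 7752) (nat_lit 6) (nat_lit 121794712864567692916) (ZL.cons (nat_lit 7828) (nat_lit 6) (nat_lit 121571399939523747844) (ZL.cons (nat_lit 7904) (nat_lit 6) (nat_lit 121437490187906585932) (ZL.cons (nat_lit 7980) (nat_lit 3) (nat_lit 60696433300597688327) (ZL.cons (nat_lit 8056) (nat_lit 6) (nat_lit 121804950150180268830)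 (ZL.cons (nat_lit 8132) (nat_lit 6) (nat_lit 121363674507221423868) (ZL.cons (nat_lit 8208) (nat_lit 6) (nat_lit 121011115802127661448) (ZL.cons (nat_lit 8284) (nat_lit 6) (nat_lit 120746965973894530714) (ZL.cons (nat_lit 8360) (nat_lit 6) (nat_lit 120570994211992507570) (ZL.cons (nat_lit 8436) (nat_lit 6) (nat_lit 120483046754687891220) (ZL.cons (nat_lit 8512) (nat_lit 6) (nat_lit 121154193807115887458) (ZL.cons (nat_lit 8588) (nat_lit 6) (nat_lit 120675546612809646794) (ZL.cons (nat_lit 8664) (nat_lit 6) (nat_lit 120284495209828066804) (ZL.cons (nat_lit 8740) (nat_lit 6) (nat_lit 119980697902770483968) (ZL.cons (nat_lit 8816) (nat_lit 6) (nat_lit 119763889237679275162) (ZL.cons (nat_lit 8892) (nat_lit 6) (nat_lit 119633879770089797580) (ZL.cons (nat_lit 8968) (nat_lit 3) (nat_lit 59795277949748195254) (ZL.cons (nat_lit 9044) (nat_lit 6) (nat_lit 120557569384667548696) (ZL.cons (nat_lit 9120)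 (nat_lit 6) (nat_lit 120042639130800729680) (ZL.cons (nat_lit 9196) (nat_lit 6) (nat_lit 119614216176471753988) (ZL.cons (nat_lit 9272) (nat_lit 6) (nat_lit 119271926171526353582) (ZL.cons (nat_lit 9348) (nat_lit 6) (nat_lit 119015470027610692674) (ZL.cons (nat_lit 9424) (nat_lit 6) (nat_lit 118844623656832029430) (ZL.cons (nat_lit 9500) (nat_lit 6) (nat_lit 118759237775953761126) (ZL.cons (nat_lit 9576) (nat_lit 6) (nat_lit 119464399035239519108) (ZL.cons (nat_lit 9652) (nat_lit 6) (nat_lit 118999693021349965064) (ZL.cons (nat_lit 9728) (nat_lit 6) (nat_lit 118620031465057168956) (ZL.cons (nat_lit 9804) (nat_lit 6) (nat_lit 118325082623253690478) (ZL.cons (nat_lit 9880) (nat_lit 6) (nat_lit 118114588773650575132) (ZL.cons (nat_lit 9956) (nat_lit 6) (nat_lit 117988365989583121166) (ZL.cons (nat_lit 10032) (nat_lit 3) (nat_lit 58973151989649129967) (ZL.cons (nat_lit 10108) (nat_lit 6) (nat_lit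 118940321067790087802) (ZL.cons (nat_lit 10184) (nat_lit 6) (nat_lit 118440388782482496524) (ZL.cons (nat_lit 10260) (nat_lit 6) (nat_lit 118024444166629122064) (ZL.cons (nat_lit 10336) (nat_lit 6) (nat_lit 117692123773478247884) (ZL.cons (nat_lit 10412) (nat_lit 6) (nat_lit 117443137225987314968) (ZL.cons (nat_lit 10488) (nat_lit 6) (nat_lit 117277266963095408900) (ZL.cons (nat_lit 10564) (nat_lit 6) (nat_lit 117194368049621362006) (ZL.cons (nat_lit 10640) (nat_lit 6) (nat_lit 118469947296247868300) (ZL.cons (nat_lit 10716) (nat_lit 6) (nat_lit 117935814747427619514) (ZL.cons (nat_lit 10792) (nat_lit 6) (nat_lit 117484643860156207820) (ZL.cons (nat_lit 10868) (nat_lit 6) (nat_lit 117116040407444755288) (ZL.cons (nat_lit 10944) (nat_lit 6) (nat_lit 116829682308606426670) (ZL.cons (nat_lit 11020) (nat_lit 6) (nat_lit 116625319347826703032) (ZL.cons (nat_lit 11096) (nat_lit 6) (nat_lit 116502772955528204036)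 (ZL.cons (nat_lit 11172) (nat_lit 3) (nat_lit 58230968026169509187) (ZL.cons (nat_lit 11248) (nat_lit 6) (nat_lit 117117970677718393482) (ZL.cons (nat_lit 11324) (nat_lit 6) (nat_lit 117377173610864827030) (ZL.cons (nat_lit 11400) (nat_lit 6) (nat_lit 117688714882917275552) (ZL.cons (nat_lit 11476) (nat_lit 6) (nat_lit 118052866714404716914) (ZL.cons (nat_lit 11552) (nat_lit 6) (nat_lit 117485530026251790934) (ZL.cons (nat_lit 11628) (nat_lit 6) (nat_lit 117000158875467721732) (ZL.cons (nat_lit 11704) (nat_lit 6) (nat_lit 116596329151338231966) (ZL.cons (nat_lit 11780) (nat_lit 6) (nat_lit 116273687992939324996) (ZL.cons (nat_lit 11856) (nat_lit 6) (nat_lit 116031953480812205656) (ZL.cons (nat_lit 11932) (nat_lit 6) (nat_lit 115870914390625889090) (ZL.cons (nat_lit 12008) (nat_lit 6) (nat_lit 115790430008612251326) (ZL.cons (nat_lit 12084) (nat_lit 3) (nat_lit 57900137579438091228) (ZL.cons (nat_lit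 12160) (nat_lit 6) (nat_lit 115826486813082844396) (ZL.cons (nat_lit 12236) (nat_lit 6) (nat_lit 115905144679090001078) (ZL.cons (nat_lit 12312) (nat_lit 6) (nat_lit 116036317487071833516) (ZL.cons (nat_lit 12388) (nat_lit 6) (nat_lit 116220119854045024868) (ZL.cons (nat_lit 12464) (nat_lit 6) (nat_lit 116456712384019551702) (ZL.cons (nat_lit 12540) (nat_lit 6) (nat_lit 116746301808332284968) (ZL.cons (nat_lit 12616) (nat_lit 6) (nat_lit 117089141166286022202) (ZL.cons (nat_lit 12692) (nat_lit 6) (nat_lit 116570565876169275806) (ZL.cons (nat_lit 12768) (nat_lit 6) (nat_lit 116132535888527128532) (ZL.cons (nat_lit 12844) (nat_lit 6) (nat_lit 115774668458710184328) (ZL.cons (nat_lit 12920) (nat_lit 6) (nat_lit 115496650887022486636) (ZL.cons (nat_lit 12996) (nat_lit 6) (nat_lit 115298240245488774368) (ZL.cons (nat_lit 13072) (nat_lit 6) (nat_lit 115179263165587319034) (ZL.cons (nat_lit 13148) (nat_lit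 3) (nat_lit 57569807843381433466) (ZL.cons (nat_lit 13224) (nat_lit 6) (nat_lit 115074828685432256164) (ZL.cons (nat_lit 13300) (nat_lit 6) (nat_lit 115128038343471779898) (ZL.cons (nat_lit 13376) (nat_lit 6) (nat_lit 115234504153426784230) (ZL.cons (nat_lit 13452) (nat_lit 6) (nat_lit 115394319143674899750) (ZL.cons (nat_lit 13528) (nat_lit 6) (nat_lit 115607622958382362672) (ZL.cons (nat_lit 13604) (nat_lit 6) (nat_lit 115874601979523189224) (ZL.cons (nat_lit 13680) (nat_lit 6) (nat_lit 116195489489737211202) (ZL.cons (nat_lit 13756) (nat_lit 6) (nat_lit 115724255362762386734) (ZL.cons (nat_lit 13832) (nat_lit 6) (nat_lit 115332187669432785022) (ZL.cons (nat_lit 13908) (nat_lit 6) (nat_lit 115018943826327050096) (ZL.cons (nat_lit 13984) (nat_lit 6) (nat_lit 114784250125232759476) (ZL.cons (nat_lit 14060) (nat_lit 6) (nat_lit 114627901493983908440) (ZL.cons (nat_lit 14136) (nat_lit 6) (nat_lit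 114549761317271638768) (ZL.cons (nat_lit 14212) (nat_lit 3) (nat_lit 57198361687565125900) (ZL.cons (nat_lit 14288) (nat_lit 6) (nat_lit 114423721378963113594) (ZL.cons (nat_lit 14364) (nat_lit 6) (nat_lit 114504738980950484978) (ZL.cons (nat_lit 14440) (nat_lit 6) (nat_lit 114639846973171772392) (ZL.cons (nat_lit 14516) (nat_lit 6) (nat_lit 114829163411154159482) (ZL.cons (nat_lit 14592) (nat_lit 6) (nat_lit 115072853717027922122) (ZL.cons (nat_lit 14668) (nat_lit 6) (nat_lit 115371130824070037386) (ZL.cons (nat_lit 14744) (nat_lit 6) (nat_lit 114945858991407758480) (ZL.cons (nat_lit 14820) (nat_lit 6) (nat_lit 114598414884789366046) (ZL.cons (nat_lit 14896) (nat_lit 6) (nat_lit 114328494912277038192) (ZL.cons (nat_lit 14972) (nat_lit 6) (nat_lit 114135863221467608804) (ZL.cons (nat_lit 15048) (nat_lit 6) (nat_lit 114020351493407943430) (ZL.cons (nat_lit 15124) (nat_lit 3) (nat_lit 56990929397760062930)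 (ZL.cons (nat_lit 15200) (nat_lit 6) (nat_lit 113791578362973654792) (ZL.cons (nat_lit 15276) (nat_lit 6) (nat_lit 113846384310754364236) (ZL.cons (nat_lit 15352) (nat_lit 6) (nat_lit 113956044095008018702) (ZL.cons (nat_lit 15428) (nat_lit 6) (nat_lit 114120653534963577686) (ZL.cons (nat_lit 15504) (nat_lit 6) (nat_lit 114340356464112264494) (ZL.cons (nat_lit 15580) (nat_lit 6) (nat_lit 114615344855887315846) (ZL.cons (nat_lit 15656) (nat_lit 6) (nat_lit 114234696609936246218) (ZL.cons (nat_lit 15732) (nat_lit 6) (nat_lit 113930576373911260856) (ZL.cons (nat_lit 15808) (nat_lit 6) (nat_lit 113702718411683794234) (ZL.cons (nat_lit 15884) (nat_lit 6) (nat_lit 113550923624063550508) (ZL.cons (nat_lit 15960) (nat_lit 6) (nat_lit 113475059374828337236) (ZL.cons (nat_lit 16036) (nat_lit 3) (nat_lit 56615528468764133531) (ZL.cons (nat_lit 16112) (nat_lit 6) (nat_lit 113258864881476114712) (ZL.cons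 (nat_lit 16188) (nat_lit 6) (nat_lit 113342313011523107238) (ZL.cons (nat_lit 16264) (nat_lit 6) (nat_lit 113481474243511033274) (ZL.cons (nat_lit 16340) (nat_lit 6) (nat_lit 113676470174632891976) (ZL.cons (nat_lit 16416) (nat_lit 6) (nat_lit 113927471189682867496) (ZL.cons (nat_lit 16492) (nat_lit 6) (nat_lit 113590146814325204940) (ZL.cons (nat_lit 16568) (nat_lit 6) (nat_lit 113328088588585080810) (ZL.cons (nat_lit 16644) (nat_lit 6) (nat_lit 113141067529546799850) (ZL.cons (nat_lit 16720) (nat_lit 6) (nat_lit 113028920220751008226) (ZL.cons (nat_lit 16796) (nat_lit 3) (nat_lit 56495774334701806262) (ZL.cons (nat_lit 16872) (nat_lit 6) (nat_lit 112741667326624134054) (ZL.cons (nat_lit 16948) (nat_lit 6) (nat_lit 112798117452838264786) (ZL.cons (nat_lit 17024) (nat_lit 6) (nat_lit 112911067030619528882) (ZL.cons (nat_lit 17100) (nat_lit 6) (nat_lit 113080614753773754636) (ZL.cons (nat_lit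 17176) (nat_lit 6) (nat_lit 113306908770796902050) (ZL.cons (nat_lit 17252) (nat_lit 6) (nat_lit 113011646405724100726) (ZL.cons (nat_lit 17328) (nat_lit 6) (nat_lit 112790425083173162258) (ZL.cons (nat_lit 17404) (nat_lit 6) (nat_lit 112643051502959333400) (ZL.cons (nat_lit 17480) (nat_lit 6) (nat_lit 112569396892051359346) (ZL.cons (nat_lit 17556) (nat_lit 3) (nat_lit 56147169863002431139) (ZL.cons (nat_lit 17632) (nat_lit 6) (nat_lit 112322981908271145360) (ZL.cons (nat_lit 17708) (nat_lit 6) (nat_lit 112408933482219547662) (ZL.cons (nat_lit 17784) (nat_lit 6) (nat_lit 112552269551167111476) (ZL.cons (nat_lit 17860) (nat_lit 6) (nat_lit 112753115360222625942) (ZL.cons (nat_lit 17936) (nat_lit 6) (nat_lit 112498689898339010280) (ZL.cons (nat_lit 18012) (nat_lit 6) (nat_lit 112317116054612523914) (ZL.cons (nat_lit 18088) (nat_lit 6) (nat_lit 112208235172286512626) (ZL.cons (nat_lit 18164) (nat_lit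 3) (nat_lit 56085976056362967137) (ZL.cons (nat_lit 18240) (nat_lit 6) (nat_lit 111916491210841059246) (ZL.cons (nat_lit 18316) (nat_lit 6) (nat_lit 111974634840841613898) (ZL.cons (nat_lit 18392) (nat_lit 6) (nat_lit 112090972905956315918) (ZL.cons (nat_lit 18468) (nat_lit 6) (nat_lit 112265607060805168444) (ZL.cons (nat_lit 18544) (nat_lit 6) (nat_lit 112050829077746004884) (ZL.cons (nat_lit 18620) (nat_lit 6) (nat_lit 111907747931907336088) (ZL.cons (nat_lit 18696) (nat_lit 6) (nat_lit 111836238600928720502) (ZL.cons (nat_lit 18772) (nat_lit 3) (nat_lit 55789145087250854158) (ZL.cons (nat_lit 18848) (nat_lit 6) (nat_lit 111607791622235979886) (ZL.cons (nat_lit 18924) (nat_lit 6) (nat_lit 111696321743402834256) (ZL.cons (nat_lit 19000) (nat_lit 6) (nat_lit 111843957894418824988) (ZL.cons (nat_lit 19076) (nat_lit 6) (nat_lit 111667672609247478998) (ZL.cons (nat_lit 19152) (nat_lit 6) (nat_lit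 111561963014756205904) (ZL.cons (nat_lit 19228) (nat_lit 3) (nat_lit 55763368371669084335) (ZL.cons (nat_lit 19304) (nat_lit 6) (nat_lit 111308083283784446526) (ZL.cons (nat_lit 19380) (nat_lit 6) (nat_lit 111367971222685017814) (ZL.cons (nat_lit 19456) (nat_lit 6) (nat_lit 111487799429753160896) (ZL.cons (nat_lit 19532) (nat_lit 6) (nat_lit 111348885695929210608) (ZL.cons (nat_lit 19608) (nat_lit 6) (nat_lit 111279459160998515866) (ZL.cons (nat_lit 19684) (nat_lit 3) (nat_lit 55537623972207290219) (ZL.cons (nat_lit 19760) (nat_lit 6) (nat_lit 111105634435580880156) (ZL.cons (nat_lit 19836) (nat_lit 6) (nat_lit 111196820460382740156) (ZL.cons (nat_lit 19912) (nat_lit 6) (nat_lit 111094189786119368220) (ZL.cons (nat_lit 19988) (nat_lit 3) (nat_lit 55529994761303355356) (ZL.cons (nat_lit 20064) (nat_lit 6) (nat_lit 110909082155771592420) (ZL.cons (nat_lit 20140) (nat_lit 6) (nat_lit 110970766732839180850)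 (ZL.cons (nat_lit 20216) (nat_lit 6) (nat_lit 110903362329993846148) (ZL.cons (nat_lit 20292) (nat_lit 3) (nat_lit 55389071319273320818) (ZL.cons (nat_lit 20368) (nat_lit 6) (nat_lit 110809440724447930348) (ZL.cons (nat_lit 20444) (nat_lit 3) (nat_lit 55388118292557626577) (ZL.cons (nat_lit 20520) (nat_lit 6) (nat_lit 110712701470735637072) (ZL.cons (nat_lit 20596) (nat_lit 1) (nat_lit 18446744073709551617) ZL.nil)))))))))))))))))))))))))))))))))))))))))))))))))))))))))))))))))))))))))))))))))))))))))))))))))))))))))))))))))))))))))))))))))))))))))))))))))))))))))))))))))))))))))))))))))))))))))))))))))))))))))))))))))))))))))))))))))))))))))))))))))))))))))))))))))))))))))))))))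

noncomputable def vl : XL := ⟨(nat_lit 0), (nat_lit 76), (nat_lit 15049718), (nat_lit 152), (nat_lit 645252000), (nat_lit 76), (nat_lit 15049718), (nat_lit 1), (nat_lit 5), (nat_lit 2), (nat_lit 4), (nat_lit 1), (nat_lit 4), (nat_lit 0), (nat_lit 0), (nat_lit 0)⟩

noncomputable def cp0 : Nat := (nat_lit 2378973191691491536981317620605245520233447870323718406831454998607115183591507627429303325146650163063775735804645289566567955378592203769244310785321454762426730837477702668621289093379850658640448851827074573012156271512209785703691634107634594981545728978235998754217659686891724611480424556913352101800642172149913663903840977379714141026399054999214581794668274141082385076108221495737603463387480941429620592150064887777654716930127318575342379996999772833303840643061966435515075448170651096278738090328516197884688214834422282613126038743673837793196916879467949055129559615240070075372090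58424521141188893236610520082454191807521883991657969013004656424220462153389507056510731712060103906117886606829081950938695029965352772328697700637677214272521374698433468002253811888892859787630874936301241716449940468703150440298247060507031385360704885561527885434198951950675579891028804769107988630293759066589225328116993550188354811043089222106818641158603449055618581980387219772279115511972280083704964006297398596551929828034992750117855167954807480486607537494093661060520076417509293927080625651459513578473057420806694984606052864052446062942537012827830868546680655807417373423708378517486515684216297613084908754224855666085189555124792463944834259995966743278172661120732189280024841581021860530765688664138551897183757442788208402621848407310440703431187720909847079079318570665506270138374138542948777646925869549817986862977584843991946482844629145719439945534144854350514955372957921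59666038613365183952083625590377342813900052675958628298203859777444902060708869215499668813988433454975349152902569336357752854220906846556625072408280185137192557999627772021780235460504497216958619445401779773601056200298864215495461658992002960101746519790250803914932661650099688037204768362402198636441525461081742093305290376809689886766456202614111411401059784844125441164008270489282593700595523015289411864269665255529163665921688098958766880017991333288561862221414367039491887259933312922978208548170668544571528000646132253452205545572485965426310626839243698640286017212684791719575179053653600481716420459248286525190358825204228346034560946730068802621087228059189312831110349168800521878768547003639566415961719889000672674361968110087046181177057095347559279963630017268613585792638042779137464389760444544309255717666336506481159139770918913699328573809384089546333902879959631031725580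54017794917587104958854404008404431728169936124928751181678805957202330484707611740817882882845037155452927149205363163761195888250567017078272815137705314677716292311133682032545365095061908999562265642470187973518197363147789114713929507947576803996405551109752895987008955551651018393569635511973560083159438862378470253785071069114897447282568748276328294823867670964437161319993448582649337232306196464214579537180256661625855105728056053762163677119634454454533092962599074069251513295201334738338270496331643714039216917821834791764680218334753041786237045033413368055769955916187138449745437069055623502045788519060139868157086136349450199844614657016778838481281309144336781108429497067023187682705748205915168607036493381993592001087194542714246752526444192592230886166206744638877953863823463537674821221650778456595842450660195194652511586590852931467327295972634810394345591381950827037355204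45653557275413074245763546381634780107608279384614662434937343408415462243631419858545010742330795522931520782920741740026014485963772540898019885067356274445333027497397102215996097200138219341041225797600460694108615578984019550478961668135363630338537466002352997254605323589903212927748393417965265586642073086513263764090312054258575114334960749169703768633289982636152659603071466991305233818757776722593391156721300663563501415560744953887358943427566771010418092491995495115562293301509464431928480338500035294387257053552120356483677377199598825396947749119249706218245093361841703237960683322782107873134411955627576711169718798311546642373020236379050638161768358619451427064486092253936170832513752652851530771264096116391548935551028162187781142832420497838662413126776051632947584337834090252875827171939823280639255820441413675536841377966965337043175812045371626570870268723360659238097344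18266910024182307465550323014488825117225614393453054772907278631370066664387516125090995026018554910524359955470549521111878070406470001780910147923299129497990501338985706265274857460961103301048524566562804561316771638979673660148095697498907566267127074609084141423473948334711478885522507943959714980295398885389780870567441527858119801519852406797716720292916756069985363552650511734788826077400141752315644954158396427938239797873608680495141458979979935560530017102550402346806827054722055969038277436547014705536382906432042589526768302591340209542159281203912769584021525003782482984889600239996255287634017029180647164795501664824151100649240197256438944290524985493208544489253956301276206225712966856583408419158114051131834725510848835197386873099648407926285183059276844456982701140456245470514735727639276737862881581265827966569265058299777734465318092940934974078769777947478545717090180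6621302140488143259026801680522642184420784648210282027230789877385308055169893111124878609248335484701155199419996822789547940780875361498649553303742372565241250564975054688341912559918324733343495927294091405166052427057009216143632800374172503804154222155911997985205637223571749820704586776636760071744181186820476269110680415562816125942070949276039734299003042492177386142239312830240947873333317009512344163451869025597120606921681322776114812043607208820433025361787036064197746728847927418100626338084741674179444862632386824373905531369806443881359115070711709077218507477886019434326679487308629551657698971127354853094011462098408138745936879018579738699452647185878548441226278917744894611192688209428930117593416421437044759438445481295066405449957793155603621448436101603401175747258919794724686912581620661859124594606830585140645210480585851130094288341414821355397549778259397193390141030183914028649921758272200637975431229736546668912477180636567383830062528878448449709646251668939234512175438631331513653812925427761888254250013936338169108352913083931980469595403173494784)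

noncomputable def cp1 : Nat := (nat_lit 35624562245040518865725716547895468014712727165494594052479637817507113356692427296771329878364196852300475652998521630253953629545579108007125289327991803823596830835724431301564575616121872314300681770306623302679445111823873440407558801912944668565215104661871304388288519938331735847030331033198426677411148129358410937845487832281520507306054281581110843263343116835277310340984967003511984433314910372364233985829581064509054273462605629661864142680287675496531277730248798935666690486375151223099436674259533652989713690847420386736948014500115950376887901350608892751579081289820770414511626742331494989568875470824480563936146778489637975533175386459303151444217615497726820384955513891993144929509397916603496408176284569827231412809717114400665791404730281952166390708044134811400884390215646732814908211261858046168608308610861865056508570101927567232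76968065381727037654809987952840078583520100379925954183271965115890875811793353408165957232168559555173115458658580211377033245185977423460676432272473842678071408398075814633338857119741835951495410985084528344823970574159616610342336522335689175977203171142049602720158986646698879320643915191721666607895141261328872744975957046573886301779679791906112281325527025801169739117670281646682475786839090870062799952484301279817038898771372810020919830680942536910564777120280378185255064813871561408282264309253280754435994732572210477605197214813777135000924874183627572393770722402927147476728855342020395845342661437914677601221394467455846987808759464927463451454449659037321535993315216392258362525139458681839864320054198360695857419023837886039845278190783723245695242090171537078764527819067747880884686205498073017241513791417716510258138421133754530800543269153934243929303876392172426792202766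35368136806969998040018030898297686209462731000982567099349529822532991732267370535490894589299514215288827971580736167228684310121390671842787627412235609964200510843950143731602977930706968188284331331012468014354220263458346475058655332209177886671812872105137728681145051528631284106631597784662622469926118903914281004977194570631606236395422970516462995009182749095954496815201208980745394243948684266967220099600432979789047848553038862223742187987950960731031288133610398652757393241855649920732264227759179801350522570728133817812984091117616873964491218286928908960892090205533678637096196537824555230964011034748147744445885613498184840507531970095204792200543687011175050844311463936205767408502062984247500977659694194815619978515221626044992216459689864956607409970136896734060948095114907304802524396476813143466233977746812964444689036434000379570705340337711976681171985604943296550428025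31268232471220440526708392618038768239609687902934885378211589443077767557450767115278986144289000091572528042213193956895792871547458053165911335165944943625253880724834592726701390151180904133900589513868125938353814070244540251848627538660526448023999764293258745225404730346530504063382257929191846058347500983385642840097461027181191054533421939802374764333095017660688848488656866734373154221178836093989268956088357899213122929565929083319921155073293078241738570118563355860677127160904193839082502898386219891071073647295863850100374529402949677079309970155439945662552762999153311755054291226987047208115709439079568448540081295523985344693505830979843606783856826450573018410433939188746553880957510096069680270925076176152293743067470433431648015969134944532184971725141544647908856743242094073057587591289192887467164367630066571262612568311887079689059218614067089259612250178204043753219374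31650198286732685387265015805498306635071738363449590443713921230943020917181458772708773283545963541558290778954717646472049389372045623768200442322142916512680600143627833082079668444965858118195532913234742214380338861265672505763609097361961369729400043809930934229009803173295073146598815559490301989943144097865316611358772231527523035299414933691936800295488631196255770841264981089141225456384334694847328805089992204954718875205704812949797714648948799330968528178359358982200368145746705931097387282768326043077290398505537347990814807315585455558451644453808198596890037326260449927273217768079791603350565156658028161279897060129271552386911790645679564247635547155470758369891254898935199371370643318219134338297191158522125448332648246269360872688472477167759780458514512045179873959063375577196021917613987147998615272066378334552093901155791519092866815258950447015485002204188630204743456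77594144411544434886784385393760662552177158033813837186697565729369014171592673560091059879551178319939664030189389405252820207752498330175024776031908592195632561999491721622582116339420359011942043247855241989068981734795410822348597835037987563048828912385936118388293274891897371002307020876579578849895310799948783563116281917822240807284975418896366286204808150065628731972285758369887059787836339761657704861814054222314846124966798843188420860069784094748510782706824574551002556787414564115007385668414436991954803038586826840578304906968686327132123735561283124770729887050126709885216121850125190265625643807170543611137622923599917258985760649417674113042734292433316459298062604763070659577117232938242980444752847841401573446064068703188356633378584269289298427582608157348312578114865381460129866396634312299979327773879554653115988965789288093405292287692190912055791598644000904203888286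446756778301237493640935089523671590974607204480657434361339361766896942093330030055054647004766321421029692376716290906188184293391162518665440963596082139590044607562249061186190182303729220014647064617482357067182519240318019723640744593617840892228511205950696136086278268886269190184186300219086544574799757097830231803719674658111057776266120498692158625355993642443841299213338940926373182599620503708967853515275642793074135965593348350928097963727255853697031060331426290866225463629605851138791307462887061419042163053084840254225882625837422981700344065087126920888778801247538779941581626837414688757715872869140866279653108385730365980175460568920856492960101331693104935302325003040076312923316054372515298152687675192851733550407343440724053222560024512010213737526090658500583018579503985974003763239033026985852928)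

noncomputable def rc0 : Nat := (nat_lit 23573572692197778288198741681017988126354515561290217129292088050139456049178532389337558797450684856158995195026380189505921494854969021997329957241805770954075208287839046826478622972057008329876213200671990002951695784320201480876699331809294534581253114286984533037561551988773540655602515774356905938968324456412769032577303445180292430864760112418973146785276520883130899232533847326353921043819895012602898593954357089501896599107249031606863185573670855296904656282921393122516531064599593741451636475358214280443349129847999650449467973492776673943538610301206585450804104570344745400646625925761270842430307290578561801658835650709965563075340140850550758259552622019406571871803030593043472764623536216547229794832965757208149029068753124882617924575032718180619521478782216488590033933113580603519175932940456440436713128681685123478591308355320639308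94114326661335995771649327184177412715450294914057167982389704700815383136173475008227258225382037765358720687646159142796006819750521155043042714683576744517759331295666135483620754569050216368147945093327007680720885364277461229909045126266520924034182500147277994762182940112855789756167787100631351313676515971912975148908494785721424005030616457516086779830444253684138425155493747707002996990396331365151689316446325398734340745146480624968681148497548265246590056102127227097291102556930979274962588382559532095026056350063507325378439824190791417874353923867432211202081038587269514264182104227580795525857457530158484151821777910650555961756876063266920661272741460924969466496380307450384829308281420639501017029354375328106731143628754563680868129469678051609698396694125077435348482722406503572137826135385043291962435663642235036960134655580862520629607530699446644314292549725957985141540459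73944147245790551529040409514369345963289737490550389705285003173834202371345820643443105667036231673008059029137613032065489331456373297921591318798176061409377667294095822959110516395621482840662449567382726570092347383281708076869605596108673302485154126557437295152090562559464393136023777414229493108678013076900477486647545815590107099623616167477153161634561247040299753855713001192833263650790495449122559999789573884814583634844936957220242389146240723804134780961846429167023480444811259569949339641162394049129100218551189811220520193815448454161463278129662425673993249487617527850921252319810294198019468789196114675181830596569277219862681536959170126248273521559093892107755217920752632220424094190604272459114513831324570932014414921937419820425330940829839823696835784579869664987709463921074330297729743741135020341658130558022171174987365913636849756633928769774839057060885620958451284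37534002813862666093482930690373463490973247162638985782277596974145454494196374428168188718547049427688434930740862984291358487636895531009382338292569063780604618580763865581596175030445251120130115010220296370242107982314073467435214149235651338717211536003910172022613476299780409155146971101602847795319293885586622175792340450302584790855214271653489858912624651635597662211305674427171221456361439910663318195729777668333785075884403458459836455501572124258061169983174121825016255801480697313620946447734839051571317169351996777273752517666066287095501550506356809589926601883557878516420128812172587074672617494071275875227082810642101117909849007357726330876198735461544602400244672695346411004945267850630385692271258360091448987781026362706892762244968642496702421286174920831065803878151444953198123754697841707811777834134934957235793540164710349501934661589594630683547241621738304201895319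13782582197270178262872997771796955134103735169202915249516621293807072330867694047126076807788112689942381013207043492303042146087671922023771007281755023838820614240516625091339310802696481264423593636764667150413635545302801888268837824263397871392481450030683924612755206905262681972233868406775714635154576344400262476062271216654501817147025861801265244525000718295969364100820010553712156197772187780130015482065786808517902724019600308000063841808688550146402180720846729083380896550752182915380500001446574953143970776703669388988315421227822149044534822839907784357770527304048770381419581400122226779958293643222359857595607170339448649375605235694062296360990907653653645642195055111450876427972295183422317643936572026010213803774484749872048689328317718557626131138631864656850119346595966396973772086108099267700124304948028314643953103618051361540479144256357530093804123592808185717713112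44202008929388531881164961895130026163563558444994210913659581751701652128110978807148233570593774072126375879779794351982109990370459853135585733138577344055653206488494507998751409716291169835858715137658894318209972676459614290497099443051700466132149085124060229568938191884957446885512499118470500499946299655280091582179398980147654727059361759966856336622582449659972583076365890235018827492309579350564486251750704032560416426014184619432122738628795616246711382717373043821229069337034667093411023004067375968609804155476384592947923011759579092805840729742981726712029669825191903346149377701900428250865112096944268768486887327694421308753526905121720152890251940540052034796709654872812832158602632856207359733822993494496389345110287138018885921841908405460295941374414839150817573398991739908801898039619348544717414331896674527584412062650923067670158519496990265093300077207898709188150764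440685496825229621811267716665860248194237690383786342871062614339832261271296227325665195059208262920480723194223318148366784246821773401907523289678895051309248473713507828681088398315580881469466456782891422799855747594960598736197662431851145740231957373588589740980837141364921704778783824872824447410598948660828993438671447273551609258343598731197756318813156846316181200413802099825526161611150218138147034305857010458032512722390128711302952635310334967153834597379100707685376231871560015679908299969358826640354929257709489660956969974846012517304441959538507570507762329234695900115561506503378403815790069305868235405303725696370520146524118444879250955986832892791052867699549328580453617125607134517444730605746116051020361942071984952276534319486548989553121525136510447212987041345090002922502629184867895062036480)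

noncomputable def rc1 : Nat := (nat_lit 24639016682535494793988106051823698230562702793427688678892317613724274295147906558327605272998742201164204370269370360826716620727196313993805955619534411685095721159304798829695908786068250739497923392175405747924534005217099277195710004988777913324904510652663374847194706197388999681031730745135057818699346879047084100624072936706966143016106279578892551499204077679948033545851502441787430253034796933373732322828296668136918015513848920928910282975286305371116941252834829130893816941241304398741965061176129949055212390940458035486131630653094846815940654680247885845606219968217915535437301759404949296999900069233441043481797744387023796324231408539196800503018306091971672228249313238082486899199907950884621355921946527990361319909517134372448607207033986420203071867518146781634159314940453630344079797168547879201818576656133144222362815910391484964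41188600053859569424900114633269615498396924593406551739549054302866167288028451762618118928710464496428581326381434900410828310415111398120606814552375150655211261900744568670042157335608459794621122537599186040387442851497372566188188020181506030028044309656559520261456268147494811586593075246992424980254027253013524047371289817477467934505377391616282736425446659449582714435003705029079989940556436881513361430203704712374373159284458920646997368012902911567252178497602960490183368574499017564444127430654974311314496456915084199171511890848570668910160410149965934919756468468912421934074876614843364141400489562880212194368462986345160781110201963273600356205951502165376293688125783741079508313838625766744517355984064357602726276912567320936330972830130384642781058452685833260069267387447035546770112011081804761605485004907226859502034268003087547970634656311486220438731373607444533435461429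58841075537956868976053697315712883381459131081937398802834942587023490285373943805168908310915897744170283211964945702796467166456728709322813333363006146823598527694536903094411806509442462660227782478398516435583737166485336171475972419039811686317829877425527296197723889899567215941959021561958375562529729498656653564836873091704887074444103640480970005712002241278755176268894225173387620829721231233070435830430140381469647617045202053397910218164773841555383190593317996058485297136696041224204106736780753975178661482840451622628242226168227388103035862716392440081699207540558025392965596618279524377929494512630984147829456968416762336358849065812459087211030483817789846396368886994017707706617241808549505442270918874394874593147119813564422035247676774649927605017333390593935962750440274981727159980784670887332740920834778428261692401441721438622547897348453660991450740125054157433585199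96560281583238006261390104974644853021788791103685624476778172249538450119925929200982331122905429892044923711439482546033388177513549818695537726833130316063448635788610605622543801366823423417378947910719161184037468645706558445050176246902357632779510167025309958380559030796142461314723611757815673983201163495265250545642034691720352760365402938407146048061930446857163268995720860724971899113766201770861459998545820250610272094454637518985334837495320009488359248893653413569784389969672241692055522842219261744660973898131840462329698366429892744139311136521140700148735459209122312846638538301001263404440382224466080777532290554922995429328115453513372142063140615615395568799572854359574337806881000908602837742550594736985024784010464400744907909748428408219747505358762076053051132455040082584416957953735759139544563384696122616217094556208254298899003520552814661431167952110485294467900595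57978178758251346112621627737011695560456542830026560189535579801882255276832377174173640937258015208050672457345768639134511083291561287904569416977705128194705138268083036739724346855139581862401890011298878531965420222967798032854074652138072762434880050187905536988141460286609053751178656671265727183326442798288521421889856946340595512442986959148541806289866532453395202949623795625906215871475855490219037481859027595944007546034475310509147941452431102317015164859397318253050258326297570435323661762119514544487952042165445947103916432910654681491337746675069543954500532783642348378012041541508084921914144649194154433701139052892116099536714273563728605965407855682969606968202182016741090822643459130112063394369494290633454737606600415698165984046361209796880360835151479562312035794588078097525518623213627158950084383400083116814883993569644707179054350427750110626726143867451483303677117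68671595800169240987845990488551663309237299372311927345064190086629830336968376106527184662577049966268175131839844945193204494110712256988550560444925241277136517666083041130346316669071415815510758063168744505960979505167464057665763782899635340755962921770590063000614880987959356310500244106827570570784241498483182432710122793019239334838961292806583828310809958486542570992632510305580798294037476495305092209973554515180700927442932763113963515282491609214880582076327905713579445636051730830175532491215678400398702981058661239801934607931069439351309124890031106482996027343112264856776993153650839966505197937543557786828621991702672492325152664266420339579413687998903804344592570556373370024250031048396171666435443309463581191999207057753914088249624030475926352304634794706081437445864272315315057277994512871319730137674794863777660827612562446413444654105471353700485908871242205139847070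712790011255159711890915641184430018641179464683556099737467504150671412452498103957439105928457715392150831801968032318042676419458067306500379018316998819121407024411542419530665842302586128989869456137213836813759603685984404295479829214162058593902055332665168900130823928941734962018954840460070804766596447709870225205864790899036950933011690095050701762808005210258211465304149451325960644047188049908211113661052489794234979083704926400051651395889606690820840740943229734404701025322922170362194846827336726971697315663894266523735632642678475876771568174649085724240332525504424351408312116518507565632462781936803495703367012906254147090432547781892305826791322161420902219824082818839217386585732290436202316152247620334657230633554575909796315585700261587743439733107211170553763773236346732407529985831505990906806272)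

noncomputable def rc2 : Nat := (nat_lit 25746465316297893045359228631439603719164272751888187408074028638632114464882307512162930409157099943066307883542055662330680606042273553672832760206913375587772495279991230151582962790899322143613628778281428087819655439633041154041027490077813954633474009480366903311702737416079773251517605527222678212801090798201872685020277538176729375733016797349372221045194777829367559592904243718992448886135635408337826092727764357987951475666046572565168497781171502316247038430937089208935334056302004334713857515218412399453294141113415017916674424331246221956613587166780550143138833769676796352827582931462597975554040240595675993341933817918639413539237059672696763096971042589488767675904745871866401059085426054924538858551038762770062034255477912988476140519093107770688167861660389890899958171418876321146822516522899889519137391914573339783320284890325701135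26270343456647146949716350096097284442818649457200115547305456564729400693454436777527485048767832458354780061453694922524934280711155128695586959717729010126848193772096638936629634574472249822477143455119699584889481375017585622789779002737067123498446402675500791018092478398873871948254931079097051629807758882814904631835148961940856073149213039989113716965084404025465369070316802352139559626459668209565588063510965752961719291950495117315306493728008970334738208515577268535153391693106280621110055305164182182366942858155800617467103034708562498660325866180765734779795846768196010115192043218531896858954074575894361500013541104252056827271327511216834110497061791518666356316009683030491128404673242528971809032234214803854116177485591457806865177891415826826676368949859295541038428597680238194962018730586243025939802848060682524213764686041682204551216181819021775834236203200428090383987012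00832389658329755786684711214662807701226502313593143465151643590734582063543579572594125820559949855450805705217458924970204878110041748535001081418041806170681881180905538779969583265846720328062083834019229274003543075163311482990468484509163668905611429280235805106772651422573571090709606363847083134113819278516159723031712863262953685059559062169040056795392610347961265576452608814549940257356973712731879003044416614541439987480834296978309914393786004182971361577453783504519032361812779193751263244564900005231972787127745379424581620612085914380221753912336607090716101892336479010707516791557138568926619375863285640742833795823670728510435070961562228720583962708105302753427346990128082360078446953044223489787961082841432136525320654756963178027424943618077345741230886582872027547218494427133836044973827732420553643935714361640770202391710744063593000010873311384576769295374119752618095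95702441214736688774660523853376460639716876747397943059804784943922151136255999140204708161920726203550131642359961240441282824927655692050287906129924871922811618025089934982341578417516704160752924564860700093980243811715897647876727474265597523896602615685184321951392446873984340931731824119962304395895383562074179488868608557022009236065347680622031690597868220744761171489854611751112588660532395487714264740161798529182507004086566676999773265072981478689085894169853495967446737146334750230588494163589427824658121647870642361525014910249816327146618733954384538990967575351507584759873670878518243141644676523211013251672001995192589720811553829321215062280846169075890098110619862690178083348244717696995420963597199081080225676190118571020468186715898993787410188155788860779536333573649787360139480354426282605040106088044516181489352599983666315178108762671756739206055685696601332774938088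57771657690719730141803467471348191792515312991477174140685335329624590745924488494453153757525525689661624209238976271581579181179531085357431777109138783286117486480403961345186164678691531688338015328176547940977550511632631989981858794296122662206980889999892522954184472825624232746449814698995812659884736231960660112501421715346766271389528204469271119993982896960621402985941662591541001577561920254982872259356618344992139443344850306033128103628720880500522428144276747082485906038929986932569138859959598858844335289948649085449975678099498817067250496436271864958487503516468837847903077887708026644288342174638530225104989120035816941008793814130911229889593346123308949708641195242902925219613765773297484896631409133445329147667765262356859390672331804467799289824205043948134086858165668000165769882793708879378459815089286874103832293065666451949064419174686746250263345423740350086932976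56897729767168025730207302630253339481790079091805257615846936707839982171179257746277628106974377048672413904442055819159776271445590113469025642344840359783669138524615771101573290444906242096135240819637071831786313561794416936673994820552357869220054657035155294611548764559678047082452251084715462814794398642212485152776323002731249429598233345334389383493044348526837101552118074817212708184345121018680791229165945072241118752020786786801031311564147401373049505757571380484232248960708200626898502717513627855649735032130638937738069458189481495118835663531890086392448510691054148113915344286557141634848135795924715868103451166796317991777973953128171252845884432511839850306556958567866328121749299289402998464820046654207284881769613203144895173181128563603812715235911416179554287654721759853388715436122796384975370032667710322373777320338014372487234444502240402573699419608179886919251098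607034275122056898699608410106643785293437483373133030553209618208496513724921982579613210175853083793007614630099098817172300458664109037255822114970557106482268157472751161957245940245564463130016400545704819325866359882827665791497210480939378348859211438992643988548368578619983197429886303914018061434249101200655770902340780194202829480768289007012653336051454690724722041486603473128719221590374061044375016255261443250881465999881225956710946653685123712099361619889661568499821511746335056667593971071373833852510809798195897831998426901495470949585322694024490452582305081001172119627922007677369481200193408768584806430271072723831145758253948259878887243855196400278119864625375811380807839469218851414101029150284880495818327449678204581455734954029216906527748262572127415310901052180213071583692957046398068776239104)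

noncomputable def rc3 : Nat := (nat_lit 26891312740580192859080574448827473428792281268171856805609628605145649094051887630811651747978762840243290689947016109767557850524633610511168744271599373883377123879940031081850419187973937247384896055462248963136759825672523443688716456627119570716753311991716994047472522682296305833420019769941602593765387517035824215879150785129465497089659894903025277553801344729112012290522663816219193774632733315214953274171967341658466282538679225726601700305653809448054346462557147086821882653411481567010174912310252727382512753168471703350600944191876813667704406448950075865500434195547743441438402048218798716314002523800580495608714375601848887661237258672141641905738821432978202728360797480805784841761398713956602359782303204600780255516537568130678574440770737915755467941486268715242983840809184465715782488771097733829019102685954864300480767955181323515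93962468984134776006826686071330406950369334194228412719147758665171188860750860775938309746991854589237530867051371061476847732544894877823777387879587182007058935878968891981965622212529623462627396078584721642977136570488660042494346434679492290143272682519834974183803730793563043109987945472706664483098737171962587139351384540095333354055153909668043599352894179647991233768797735994837475768106558588039855279383433540862565020506845687575469683461826757651066715719819921296114671381624357351071906029672930269219502153062464902901385342799071576085077939002404853982197629443832049525303052385877684459934809471367030630552579156938810030278914349781903938402200981749376671464884763752682389297052600811080357152869100851326080202380527568294782342334389201259132709667299063049876964652172023756885695930930698845723046779636895859721692322695826618356389914150506100276838999545845194629477971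21713185302765934772685843897452445878266129944179369138463697446421601138069235012271977548127973948680465369324812805954912064548658523678952998441992641898498499076771334588170462926292380027016639884411202428039101911059005346909777227022139897660022601271870627480041206485234471910183121403188406236869121053894220562227277253762454328452448459990823558613810655065462704911283459386928259041520135647878214308900725732719234622979481987050877422465080437337840611290461347104164790413997972475789439828417795233844740476519396476041031624105891395685240491563801006061546688554151571115438575222972798897003585572823146296559135742092795218171404138698809375902765889526662972449132134210605378498676516799855765648275994852541369655252134656732995007773221519776399671041865545919693000618423129142531174092167769341509836633612767531287648516287133254617534480129475641163256461374232686252995609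60294967235407502022690866889690986081815044023458546801575107953783715281810877330114448708060367352184215051882999061199639581378922716640968654444391731640208038196502355907552760579851566504755832402417370695437543215564984793492699048995725015540704500943100164694834981231422380096340875456414212421453046736386331280308451094704446542036551978391059583154395516398303293849499312819508001276590961781101455584148271580207691102047019822005181765820946125339844967660179888089726034531026501434221771079857883541883873917808158103040056856420198927325877861933853538007918446217344554321965695208496263484702765661590333924318802763560721034489211038326115012604157357619308631191549208445128412811175502942201803216793310684318303862043970872057096096635115433336038489203683908243140410418984571676832260333368322719962182614703346614195801888888198843501468628958194776181594049435462967492073707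07359586657188747471918894845643534771575108755291976726045801935271062634172384359721323815697831852332054717780324175771382687468693148211009446469874844850661318281673784390561688773047428210703050071875888093178688892412447121378643121159826761355200389795326715104400953861490583687859044066446573816528389849833645631822465022502330217303854783235047339970341108388521025759280512141018454181168533055370445788588524295509549007116253440297403883570690767402677059399723076263240467228971308220205261835123974604817896638666971931151158228727202239385343710616231616265197051827399407547630246346547016108729514415328638391696433541832222926640380032888624539528324012612832427148706206903919107832147118645357123240391897173404504549693612074107904001052629504122566891723726024928005142650727423615860734588794162460883250755005439129592591104952813849407555082658632881069595341565733412115329057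44047400111969697542804131737227318056597566235452760518115084076158178452345917874707833501230300973586492923896940931372765764455270562429353777602670927912034631291066908434501689707622898581330741385508121140265790118284030108571487022195181333471676743092248244040163812356864218051826418423956407457803794404107353533865363855793279442822813657645027357701339410419503195244383529420886375487004115358397080743104841804342158678356267936103979011473652553908064572982315011815922417536006564592691926261093018937697030303371710382122266253033681515137518930806426596198964223567986055025529254891916137032766266371646769856128993299116698787334389034680609253897185899352021081003452391573264850892065472227098437191500056457801039224268690600629135799388017571206090118992424161760689697333374472094549831220708916950254447944969337666321115730175203262144506063470408552792989159610340814750877034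612753672883987127118988320669857559953397473867685791228227005480586498194761637237328772127484402412885537458011482479409165934132766099813509637958822725667093318733417778509855168194326787875313771290439107688701515088044865273550187780412026707905800665747494432526746407670655576997809817319673389942565084391749809289642400138050809484633730291417420871842800739868848930065813340579964064914856108530701391958327489101544401485911267603110257988817509458220678279170365788418321216954512147634505129427389180469870265495851995386544902029778865476123935367350719447889423813300635633190337903085160577051743279985399588472830624160839588186257395344937857116749198790170868852387776966659262576356159362463263816952208221341714089783570591959985748727328127216423631690198696128226849047503111623950064865617072090198835200)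

noncomputable def rc4 : Nat := (nat_lit 28043440954077721742598362484620404154450376686894706895024743019583334662188777468919759840525243670744072416920844345098979365190285636964883709924292047587363052605224073970464609635978201508529630447268666594970722168315233105483286709334530707986495074973839242575684821087138833516276078584270861495353953703818438586835349989842258139370054022464867403394321566670054086191534840803545842308732005689233634633966933376502228906056463836501326364129849786299637504365923399536396474176979270942717470057294430589525018155589710525729838184165861858519298062121714778020765270419453642599437998377258723109867587416663991916906972503730974766482627891341656590466893360112196061432849220706309882274753027256807200621026159686368463848781076412897863019733648088023240817907754602053386317078046284427692127392626698916210390522096879757765833725077040307260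73346489426159844603790455519008468641698234466601548854711309867248561966336433419339649687427300253599762234863925660540485273076739754473828035803131211685067660759539081817595583483315379695994531660277372939026690666367624036606336224718465747304912086606357753774523861620233980197409615147360616677730530030666003499207115669826097771813519010574134992672925108806810390169470089347967913589199749454193647348805954729906357899570554286257129916309482886725413294857891600961411634236674620264080328321331848124684960235606996066314110267830514258328591393433509655123020268366924489617839978910794858483782117336369208541160726362170942544061730768560145289293920595439099884434941718006214619733665460900025864202483805317099981599406993234096583675291525549778366598323616186837346040443895153587206634808148897549639429924086354494064643944822073336931333527668450633202621569999652838308747997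38394985594588406463565315137191975237460934516893080866497058975144193071452870620595721373748105632904739532860145256101951719882589160856519480807938922607694083142349885981921441379721226004314126515479848949559098063704043052197903666347305157419131504567653144126510119474660317892715112176126022225687615951161332835535446433403816942904977170585822669552839712371784177860371964662153864440528205724275694784684418691882616483025268391402924484036716943468107817266903003451502934758521815783039842571141102321156369569382422107865843101502999582730183470486100918600832045522341860700474619280407796645792870229917675166611186123145435770165566408760592507812209780169687547420677459518109992888234001096600655928077285464010182411479163806529069122394507458868037786134873362141074148625773652701270934737202211774996519963765293516817105586805652887154051965560285716199581282030923137452359252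45390998860360375636963272187064918209296889484183810047468295662775689270682240250279091162645758560002663699925672833976869780623685152331389811251802814182302386739594951246847005509602963828616649214020028078678169902629247967355082235424899204191250983174700682127353843763418615238842975647348253307431022866530553704007972969956689394227287943573382121930345998668101603675536032389353728607837234957859613505648610311062950355662701937494706099431652813719409579287485649634668027898331165227503969965002134568471713724462786864117764540613831437776726326635698793973937701287474815167711912449708785859919896864495654533483964221168176791324854470926945358056753335901852980073140133924939476309032196285408690410652864454689661139387329965592571520894401552264023889890477742562616815502583896698180115643408878543754585106226387826418880900890699725151150190771446433410292031767881943501693890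73542767127085868983045381466946873483166001936063386260073370604977786688273929835842851547563132353561768411944813321199370323427229761190247655877986162824478346613905801538415250597071479900540344200669693030218805686106631728018704799874810629606242057004155753231389154055120586753486751440586313072986874885941909771505549935848657095620149009950196549287961148782893295967788994797135846132926518848824860978562723005848661687161763753923271524041088956568784798421246027489665460343301220617631804636109295380990766998764813920552155130449336351571862401997717711558085923341794103617206420876528542645446329213413736629880735783279296372757803500634631277090151669828458424628282142374643936352703529633984556193828067095598123804810370976166040773173168215209592009643517301828067972349395911515358169729766603988661276636879932585040446047254773408673516309425547871921810959026510988485311536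11857062677635545674494020003752747861312572733570128468298541830721632783362928601140784309447665981439136582140158369502851009070442764065275644756986265350536888542515042914674713212231209524220387063051707766948847934897608338670613736287577502889082441138066574061892813970160508414967995226932555001789791634164487597110365808925776108333850137260368833953953851644945063760990344420276738218632859939702236448448860376826312964938128083754832774495912201863947545423986272905427118481693691970296709463407281572943311696292887598244880728464070471932110402707942982506455440013850527387401763061998717727669697715849454262106076394575695921076585309968858276884388563054590277378615105970503935978161011514099801070558525732509931471046262536231599171361429882727748395459861989448476221619008182121623559792986943958131834384651907675698364993394092596028583508760953358258255176487382455642598578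705112485630682947321453935526267063228946227333428638152519370827014077804644251892393800440000258023701310054436172932263107156530532675763229693908422323041246493833833766381033653751620374331111830182119208919866347792739892972102885924717552014077817078101302813671991641621395647384214641802484559072691496475860994604538176866646337364300890727519062437214411375536481866510223773844667062844260225889455398502628123748844262155243828014875036596272827464319952033197796924751599560062836613078662043494709524469750953403307906881205992101307436096315807678921782820285472781703677527000741982506752531514762042207436558937334968189588701376926580257834917588131046238569023477052185238072982888624986025158788480132242274729740550441058678688583178481925062802871430745079398163349651132696107871901898027819645840794845184)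

noncomputable def rc5 : Nat := (nat_lit 29183191067027687579674998823789951981883343027780645288815815666554118251692784067996644206855295539865242071619224632919318658560305054659685606692464477360423949527461739651353942985585417317314903000548885986553048825956045643301787531610889477851452231028292034305139945159679801529918772173978963691744620432292816657778529744764595828367592704288569665789460703181506154736424600836983835625281941463407931060802369947457479870278129592198984478389539715073533788856055631350987879983122151414104619787706716599465991703155445328009924544954436912638854906437782154597010490606355973547025249110388716762960787281637056928508618601223710623327633603406421850288931154139845811355576522278340798127741350261674659224715522160589274646780092401510716217964604256641280221367739801764178295353518551595311050268774797549292864417553032192141194070419225128134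93312763402559914608899837014792969534104111372310360472910336427405387894112216565209956787050296606723464506824448751143419680307031634673283868591882625698315665757411346934681198008549007185092832195897848891169490248224777064878486488064176116554118888466301394179337965331136844707374851622585387317503589145993359333213992485392646232867331736871273354814186799859279200191405869014987142829247727330225750161678093480926148594182852380918566410556534905759502918207318422764457964603243217321559538098756332939018652184949385813466867389862683394718166876088337869980525686169730218593224014706005225643910581083223959444238778908806399880441303152342253793160090365451373064068078787927991204524944245464381783558441768025253082267871276166430890661133405307379859040367795251541085776675937963654566780541766345010386652512104690686694871742682064979435368148567003733270369865665441086938916687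86705975793950888644996242902948553056934722787863332067685865529602696549239165594564665467385773375464702277214923118908607647163921768614554309961651938733866537239282950459168415840028503160319213183160259066213127343090508103693675311761961652656068239818218682467804909811563906123294455354471676604315831645444126280467942147981075450054257142073955971826105462660671985623466834219080785049964382898304889179421108701204915351642687002112654820408699022930315227673050990859574478752255427819237927715203872054943665972398495993596122886927486190401878648293528331266902789595034516079476309000677276137986161697524053164368857939691600723843022365701231609220286719373477398899037424473072486656835587472058755061694186020812348458609992304301722404623506342744239854332805896725547516360051612838321639290428256253319257706173055078700192040991248807331218669643788458867082889317927503046390773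25742066141812623942926891813037635601271160683672168049870193226965339990028393295404688996383220909809227365047024857307622377685570110504280435988183593597408093412966184368029522070216746836668600480640969946369948186701399677459551843270060850925951032696712538041646927274428392880089777647058208016034118246497601555570326411207332428766752464208953517359527071624270201573163296464990962056418246753735387195209435004446602106369453001417388804538042816465006289175892902413229102622228452481096745722515225748717926248539149806307036884152558452682005378648449836988407822911016098538094463438802197777512915273726642350058828599988202559040529968187015918423212746684975326051960150238851252567364145954997461979578887778251531939336674020111259987864821025839171087996958046089807298011484841885189311857525290695484959059036757851093105357958255601886771652572442943931096370189559424735441049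36653423934706678644251420354388720101520324365647882254509190097949073231497560220814693460100705906888624680590172849765436374681850503848412114231423411088628333227376367104519919589116193405230550484051409719367174749292111410197140277879515127854783264674361629404759025760580495506305529450809806618139765387558414031567768791073558051381693735117195725844721323193991890974857909453916265704256880970476916078527233812534171039263880034844378022961154642851430106184920729776227637738089570266995217974649368214223896308276784620069994810428148683225903685290933442688585716893929832733647699348780427227754351079084461263588904519878123810136779152677694360572388330218701606595723141936292524182065599813995568709490240713604862573138132426256280041812401766853938656802670655348161547590340062810807317094793372821736214843727656638785873711852844747524582464516440553789731402100069181165676484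34830584386962905938477247072683552642381395883454099173495915832609016532783082977592524645519587739380741810256954020540876942910822152480990732641063724383198377367958930268889136327898671755543669525991611962855365395973713768034116128836011756322465719135101283682188291523636758760160611375584907169355867072790248274909232131997172290365802851929518093508910486746086150131832323291558843603803312594123297945076218253353505537346399287709692283107388050471979203997769236635565392840595623351547693661713118103017107549487933805676332042872616504869501650212414209487527181357241743837478082809108414727969331041092788924569537312846955804016362558765278580647587094606893102934311619964480953265521164672328411383151341932345898154102637809906127707909891079881944389951563544186851433579164842516307839744005628834041164148661810257454445686958800101477189278295368333751389119959401187534752642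180611556054011698533171350779264602559843700331966347707906342407897975519742810880879904859569373219230327945887566130073838739469190074562034287344634938595729060349473381712137785567276599121916806299679219740288243455014379976620064511992064392806443399997156617244789202604597897981311547990300652035291028167697229732479597637956321375730077489216633359126816057774225274435470736474124275688320143040460132749131907448849550529488873876602016362278606260669650368124687521093614768410960001269417456323816296865491225667272082494868732410307666927964690065447480588738612196925747184140860347423948106780738232898959051863572986358066062978902280020638353298802908820632259562648163145421687558809705671115044415526198859729937263921029710155059186632218623436371507109946233085355214836596652143844590563629804969391030272)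

noncomputable def rc6 : Nat := (nat_lit 30663747218251047812095313893181159067563091340645533406582851572334685844232358713622906509053795109223786336653031646045909301642016124351043857318193121060868032864752018989201534699236356903940649183543600142475876487682569684296635367376671518357038043286322973555352312995764645133820005803727522588921110310103393221764421594933792405783384024014179291143959131380399934174903720671286833549534786210809704016289682099904586817655242233490736385234926947350137814973489721301575904256076585621835621645724203948621241130001679040455349170567183436687999074702724540926311241106194746294258286632502282209806599786756845460512398377608732206113376813229353704000917628708152897086014551370767104512704916291027349800989196770563031869098421308203586256223070509640013669211844263464881388137681500170768903980542852513954320242166146602394789858341941296215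24133228342590376936687689092039923702444797898394554649842296702752410902550767479751939086455517985779780803814347865145957755462985642966900508601235640555075994821994415408438917083569791770681001720804943440300486429459762060004496802016438329731264187520471763848479943079382826474932581491372401470094044020114385420891643409585590755376394162694133561972489918930777157698580054386413345964059768736051726726392945331724825758646640952099717208397647278757211674357976608451373670583401365735800166203392193366112179125476162588888262763558882823941053801154981877145711469486325637634684508879290488242913843975534535318203071293108011695853566498638676787329866497196051240541404842064877511168584769269962348946935275662850830419386849512016990403787276796886857179408127328202321172536897135343821545981715079272395054731235197804693099493501686465204854453239066347352591264927214963148894452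22052751665606737755474670320300825944018670420401936696710523012080269005400147358407526423178714754999067369535461143975635477598142911766712218251459436599809923769178007283828675881520841909347621963214211757601834921202129847894939485427431555774525042507538432047719523340646893572993773556783567321142294331033776220097293029746424260112036601031121666793457983611282391052396654031959652585578799889591908492857586726247623628131537337555967441275036973558637706806175839838978040960378897923896097562075522984108625000881336843266955111530248089153042375007421924234937563300306241096704783880090941297756434031577132356841271958446114569726327073280946166951694957645443790398302044097777350806201358891339627774394513128231045727758740026905020799202275340627157781046335993673207275761550915506493670356870744145951694508877118112346465279602123310002804341653686567717769343033060329555275308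13389665144487897156392603752886446264251667286327794375756689990870243497368228083850043257405998414295208261196989528649896985368429403138048274629027358984803990304466138323278008830451653453408238025624224540767213717029831441859295833896886941871438754513151192806750352771359424395152232686602340681228901885328110707082505150238789462017242194800778518225819265850062134633371508487584938793727088439666822264872704018455209427858607720132266158126792870690193730584210280575359883014518554115511372684002875237699860861709773480623311612577045797985797347781868985301382199007619440925271337887356318471351817723421779495075207121786995136360883496699299475507041751519504540648526752469132005674111412464327297166484970381673030180213976431756574144184978622167938150250061765570302425763311858198399865355940164256997195760311461183146518357291904539961851180100734183967214744388184724960824410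96169687816857824853469379136128628409631095901880819255622461559818947370472635096100570281581783484562151440949528919904626080975311522460666472201577492631502458256262873164888873953979144150195163328721047755233118456510586130905642889202945573333786428686837713326122243473228281249656134457377844539581135187967628966532899627003987608627178691740630358643887722080290219221559861838590752902688025670704617333421940177488012070293151706045844540488169745225332359270599316361117846123086614983137467501065629969293549364327841313244905505106672558759774709323526658028180792241849198389411531790862775788332919142419582071570369508126997368352763541385467690261888082680217258213311882688113710637740315874766992024818458077297351994201846908179155620985896742832157352463885233005367396318223511541419876219877872143598495133427340839773170958328430212683393207724742858770423507585113812128472461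34924502781940455852734630792446915220501511081913850770815144706142174691002340886595501086649423319443797404376584665305164678077144415864286842384049835161835723166740414007061734516075019353742051287260135391338284307084539903096839504806255452547002979877670166309964399889052638768946923012483675235092657362161704280865704266528767982368436058382675703349121096299768992919880161537669867334864374791544334539601508922890278164483856890153909971722200675315498124580251194427928718610216592361174908963177105886256593207243187171439814741073590875483191355753238053977075732304758319622343823099212038254451326114151617124459014784837482716156645426989219940014704979959460505271389791805668362965798838478890910356518425420095359337431935924351244713681520512211559827715757957871201670580461350030156361053341951524306937514051261277173585685307861340329679256607911395495029037947700341562839401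471351620870471615772407345590749092532592038033728272936777755997259164775504163249110756057176640367871152119075052732219461061530561111043816191273029182429308304066053823722511667885918204998045669525102934547384962291164312384071553473181814349901412841762216350452395530664385598738022916755429299938329716938887556647414361559193761275834163925254003547853562122761166876611578905328651391688911669503295339576992483597948536351428379751104362345809856850721723597882237941177924008233347899268314062934482337634569358931810432773924342367252209708689568463332100356097326307160915598299097651290244409689341809973495895273560974745884487375218397032778972172173556612761087174756294399344444983601877057814612237448095974652506289942815496648205441199974602738752788230597877915337421029966151931203949622399101653546434560)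

noncomputable def rc7 : Nat := (nat_lit 32084922097809279976421226810701929496624362695785059495930238683681387362901654225520278118579854189135272933200265799833761561880064509778898682011155193573892098621577363089858667270988659736608426842651437944257915684750695681114527617399480855897335390981513246024672777826245146670439590145659702815422948995413670305142691824717207622410740009213687782831998677001228337143380031016671563293514111311379960922259643349538921343757427032561006983561905761632731959916976416551055407183956997452358115340749318936542339942337138567233171688187405938434536120026843882995440330123504876798759979237344120785642281278815235750855587237575535742021651163858418758920111273492821430854862661861058991701002214266534406278526404257308158953415986119359989576271267140973813714813127582929105935855301829739160602410714237681412485826105825727426354696368122875342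19921823963748257053912037229733733929294168528463764982069869462796776047044647467045204128349548615766958219298601890014734399948441828925033365260357930470857754257687132048559172211045651688356534070759237924758365317368433615884246168399900016483764779080495302878766883501730640971103370432140966654227303863843300406323969501632538839163929856322955424169491637884367508571228088027964245602820305954206022141327384304995627902118878669978457400283513452301907080418645001301780686885058871459432801923387902320295262162727964771939904453852237145779437503104610125102879541870231334647474284571489829657626838064874327587669201945799394744007810686434201678544522102638384284433707507436556431760762001650301978640919516791161093842995249595387262580522685574283372811221021616784006912567944682862088536910121240069719522134239874424077859904655795898078209195393561617417216697973747587021453457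62466800669520451843771919087501444487438842274050489040620337711902740240795607834086898615205792912425749728521251781913870831186116453227207488240412129627786652196476067749715385980145035999106903891507443210421117105478651596383266661312502247593994572052830015414264517754669507130734621985809028398508547993879345881201284628859939701097654885494304643942872921430734316165268496501508976040367121652024518484372712005486992137761140605573388322302816461043155591571167223946122181571347072245631035674303290309622638750751698639187305946343468105329002390647864717344194060795575962318247105275084839650194340553774984532945348157837748939845047139358846026171561335866719319357871580795051853488921462216699912415941236006291786907178643911819984079392864501423313037795468227221252741704102901279940029346587916671904604251510463563479453664523316365102267609422691762257892856147468733621649349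72665071947871848160085714864973044704219166857546251326005423054998862913995497876499941809767663313360063020277388081106911787785151712321408145363174197039869451322634022778025457726419453457543987386520062622439566996310829611185944691644580738744286634116536868315226293727628123236703566054014360509143022340312758557319405053092687213763114441420646038803831121041833345734179985938483758427198946052880665306943852877898907216546755820686248214393786295970687659435635678742142018857462374342417504263922623553393448188663949101773064544898435278948894047089350909182011025564458698723782219243718933766587914948615959994308686476646529970683916512953902074982862918555053038648008938048968207492395703954198788587783745950310221110291694045122045905136180157328571156853393410205352761031118051540438405878411968457461231786966250765756604283438918773541793593791596975018813771245674594126672137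62091368487748158266949781602426157926400643873298318296508028903268470756295176666283874927215680378616316591736346552737879802002417229434170981968792525778976857171263548573650130619494960425690285092424684479852368111916906784905498126596857253756549120003323757533796273110915913509463214380751227822788322599618291754149050717634945375649329750043666743008198029858595714336980098895210911393245919683512644460486895855404267277777443505513072790844525388241581531392954662746644181164730428637477842853094043117667757559244094669904143416792199552890919411236301293385000427276770873776021763729974547826213676751285447740096267352579720201955053623524931343646599138670229539189217814548313992975144952398351532466130522603951265350882072672045219541551649149988532087377498369010637389235459327546648383141584599202979730455093723448200972677484558867855102299938625451731621228625913337752768917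95516707812301882244912991295682371894397472505704533741051846096087774484803079333524970957595423967718978608059430617999356256845313804132660783325074038546988375547977610945661816791833742021801621397316663543258810604295954764735492915318016690720898550722819353485347397803788711449965338316210874820637489205467544803691505723430649671013926198454609148739023839834445398146613645053416612240966499415827485853653676372638763044309589214151839108069998747310314276703451067333886697977503115298616998306739237558422429035607608684249522877408603353887229382535930146834442884838004022464794857666950884662168360497482045650651191782909777805071249646918107261243129902309146155778351683218457455169923275282932130648332253413540012600089268214357205266765342507969529090131444107012781740578599013851080216674094005471438081872316879352668641456690712698889939987987377088398970328522750860785422451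792635574393888100703366555722082535876481917109072329953905657122002879902226555785069632986448017438507692313021986522114600015296755532340941536218569402175239455038613459753122607645811333626809266642945829665325610718775622352734860779893008001714236521445511243065130622272826857473011057009277082218093521107555230321028931670815245024469763414727662291560636221571373681525082615490742867044072272922024707716585209972128809415621132209041300122428520181218427897559331664251548550695430227566285679915890224495450295088727375444109060775325054294242939138755627352607785567033222961308073670909276031570684400632858408193715020450672961682437215591813956138090827281183090589922638822832641517194086444517192217781326525906317202085185470064097994488092328485305070149320198766240145642952873398252062119630115072261488640)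

noncomputable def rc8 : Nat := (nat_lit 33437336024304277852682653727406949863392654544284580644964739278498617106466308713630815133420595326823562013763961844853918581511568160400736704213812244693623565614123766077829673641015629533616630365523172539119814002789608480316193415132464455411398848148162835137385314333195896791639255173394433812672635043300381607085790462299756767086832890675808577545429395132724253342055573204208699739254908905620234982008149854783803391814232689230719955500129929491457965339430399409878726583967598337188892045608657054042047853243274687314084351133664328815137269956632768028492653877662150455743427432411299357649890305219901671342264008184944926023678330107140605252424170005919529604065180089431619898439587489561736231317971262103202658939413255511755659328520697146747648232592342829165752850654608986657669748726750969734832276423554913748788946651802259272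40798678446161731814137127676133880233566814843756655315837449303041097535466418745428755164613691634271929803803861026550580315232303006500388320677280337182219266254943011913659070073230190074962147512250279021977409074240693091530261242584049664276981016104206186307602238317478141662393275116015688923925391583959681855607554585651681948518641945053441877076841590816542734364217283731102661820070833076465492743934575650807013842423859948677874451938885591114935767944804619663015979610082617217439688379001930892295062434555854140610526897692995298317609168775295856134851718063603426882112484036760763211922065259250209741313342480516690084948079124320579090964031625406566555649282425279113778708359109472131958433743308720982475963544474742844475382975153278082094101619599706132168402350168848519895035229717602677947835721556442672580393822369094736258952695492710245130095903923380417686011103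14580150980318993383495522510421459895164279763777239328558994572285271186837491074173805714396169208563164968210527859584027795131873961868784845512674083721756581108394737402207255010028858267099855501592843864190607102852117421950771356393218051358331747108175517405957208948677079968021686531378963223233939261565857371985706264763151544614408547408282271713617176720232848197710242438682323714568853194544103153534507340355713228369562202649872994304270248556825664256851928728073094746693408276082411431809355341632736816209723888624783097704100129600209373910689827163035932867113227391820856941947191357036345713027629709877607504979052516044602708361879087148292404803247115514807149055184330798470486290444909695317362050335151846231477047460409678004089155973837111092188437112636913350232158556989125739471697429921789672396071523550330938158378989564175763745194119416757118714826545864479922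89798261205908919781027332568343279186958910368230280492403156807043676554916848052752381776683673398342720814703045300590687377915805272331367812325295432879146729773257901087887760831386654615016112627907612211187001730750852118984839121193105395939343995298977529511772143906190000624218431476602334712199939154080653865850968889684963121258100934393338598971108143522556783623940791953399738457025985709885114732998177598717281116626718240568560063070487039331733064840556109185705920306178924509098875311701724383688368131427392536933968987572982345750829990809705606860244149155479633687501729839276523944645663659063962681743720941202048374015633354630947034239441739701215707079113831789408058339164708816761736459238358882117733147945683053034213112172276198315803278753468291190517533458948862250272081571768128767107682589809224192671434292605311259344341979205088759601150475018489266896353584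59909576606915213207895304618602371853563075814438800278688505538640965036085298079277983396673182073772790717873080286224967856557005881081268881972611063392988552278776273615963350638898916321403696922612744752243136084245063984069860854513576533318955966474586197734880453634977502825473184172300703484608110120085457960513221439413421098468874259260690638061330548559141234001823502496619063377160264169995537380405247906621718410646803267549322044246745223303467671721019396558610585989190237117511812360189017414663379964859281921775766450297562081002215011208122053412792903276131166626062958937688754570997948201561663095318105131240811849888240948115550512734559985301980192426683482939712666166977620007830295570227756129332586203243383029663988759285434567651539750147245968419605731291101211482955723041654400538615960878776481799659010916210734936957571162294147452211553710819199207604715537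91311929169882425620083222678701550275418186622214861610893616049806023082268097743102012769496846877862158777726986925739577962600674174126250199496518731960296369232242507665618895798954520705009235779525757803868565176159828755658920305800801162403758346469895871810842707420710588513992194478130808872874127428412846831379114058718112091299203930094509379265458878464955583134276689838777153671678435955774767417253087086109242161151077456950547482277058781240121815969746822232364098148713493571497208481645807405425714889252996916730814300280293432594225917019321026800873973323292089379636376053032369188906705628245282029345145748147494754467209444109409745631325852309316703907960638047230382301848332836969855170513310956063760599760438499384022290764548930408003257886264750858299255313083854309737366330075891873543133397269721060290341698964186167835083128657257453409910362501780090201480445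191042147496413980571005567093448527261355663726735643255486646064701573591685439968836826646213989497509338441629042981883012213375429654473361110057421466224729534651099937605707093268296435512344497331618907586218730881772645453545573350271807953488655677713555431708347424565076309585507822564650286008554230529230163604307315125234740434795518174550187068294506641528831164515679335757675454753125625787263773088683957022484934753048141078183174952842008061743298930297032100495933520255101707477723069833770362421795317429934271008614564700086781270372053364955792475686474792620355911202529591334895548340686518922837261263917321999001032741916606409011334294607669448556358690544891988061681898419156211521946979559473264145325420836703044231237550012148589842202072116255243844811160286994197218435894206514699889100718080)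

noncomputable def rc9 : Nat := (nat_lit 34715808952771169114673698957913941786034870193354534529870757201026492435869589309893808426045502758410261597106895453506552669950598976633588367824813832289558974602269609773901805907942879527883557563062259865177637579493954223129661581853760117976885823945482514146717486015198477684965907805586461056323006234029068552450093661893753107525309609094786462482015420285518641431334873488031447161517070122412429001514753610125374551359560545020564090369821754992616445545601099370286650461293987252594279275080662828483524721792755972659591466174235586105879980804759241900237770293186192229767709672455013685818990044886075414862510666309413182484474535303250364862654565669327445599089651297802979997230089905797092474719434030918239504150207092434752303075037951282194045119842623876686494570412665355387573012669238992820508864384993714798115311667346606141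59502245167931508742960554390121416536588764246077630247210635969390561481817770411313487649998094199698548310191631838219194250507758343385217485063574672578591231343705162457146802974988667622263960995909169202720485897406174434751867954966328840942480226653941765208472443213630711842454379102031731292375911725149518511494324124726748706719434804877634393096027287207092658446290274915006353662932850140751011076929552943403124179763048253678821443699609469339878348589187589214639562667220467626146193872363978969928188472369803653043253165754448682691060216973321010825366174341913583425703393948506124188046528276330634050993738066664342972240222251026959998801102797374725626263910807633604174483214849720364424755681312359054258682989424301624190222621113109773304345950408994545375849132381259260295725839772729485207544624782043270593001208172754197854054453913331715362896122306223335662227879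30647099331571061431167079389530396121614827698715779377965809571227172320666204854529251389543353556756159031159631490462195747414021709155237977124598921183269918721551429513447441340705213541133926368389254752116069311830750078094439464378232303531868186469854071708993778444383840312459588147290235454310301342028085565577609362746501832065262510973019338763575539364322021427506692567256539627381959247870948316146553238164888827045775965906299535277129417095343025339073313638542866082299597128044688157159837488422094613236150860175302956402377449628986123201936341751849137807731520787860697213246046077347156509920406321559638027294261392137296929056666070237068905550005405007075404429706580874266137479814566743039234897371376539361333181901967373155563466261068509370961988221210993924435826342472326964940628959224351676486751077464215011761739866542816476971259199858752825758568930347812691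02462333662316058192446758459371835340809769113775046048499600739171024506309824322064431407601273695453877087022186497851428998302054949878042806022835390495049088732383021009234077538875148895947064899611965828160273602355064338543704977346161309597628991966481541526988224556297753879304202086598437617843217647992100956913835374256509531554638783764376779003034832650398281817396990185692920137095409330363292463623400927759789914876831344166434112831223093336199612760779056442945471188398806600693516217744828402011360458689619443921916188969680987092275783053813072890143084967851424726929464876696202981017721697999954110724302105232499547407868454987051630584834727901572873607052715986840638169950098902683182779713243598219355740543492902613675272824495404245348345715216919419908872109274304784673230173991938921540355412724946316338109383234847907703281869068367438868352883790596779687259511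72693631013831010102647838454853683428930971542684004265470535788283520027070462326469813296685590983024915822485172462882345244125905815740522075399175996827160697786682441072326644099840806581038411943020445560393686629207447351239742106152214924136736501219363644189674232009154382182644142467970393656360201879857379018204231176740454180645170003737471014498097902995328976486541166857113352463760255922651910235411968382080198612549938588934955973361258884611236946877199328841422147016378407093776660351797869692185728080724945961762827779929865524719614153867297677860060864883641013215478288569848758043862343844596831340297235852277377932725119041584445796002439736173946564408927224714470713048394564625320342188099591792613961645663640920891654574287709340491647687691056052483723938913974247044294436291314705922596864218814763388310998421986973752723277961485095647285247490305354241733155174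08659282340191013468746033974951269116655949672318656670586962161594404986038146259893348054406586837694994619893449141685822936640773827276840021434409783383128583674874727503626183033798032504275656320474392638777668255892890548151634699586709367370347430131981096201054856545527560421258410687999731611001829920758654177526138453454009066902513321989820142998012983070542172809504547447592997668044711842179039009787936136054958917205754770294897244635543863628506907212136609713494886432667035680746023282674015612588691821954659145471383892244005674395254569979787710237884123976283568913915370833533707961778917815230429370634931890984286235939148853762844623107304484224863805358310371547191676449211097756759222161256524145417476230803073337423473735799756175451973679453691954424591800962378078386832967874642944273752534421765157107850734234658819123966449328496598108153557652838182473608448136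441161566138850673115503703271350879154397839918133509729351157802492654014212816180731120266486332184694301997580301294769583365514299416333719415167080501113262849485653290360805653423273984787610550410089786908909963959488092358117080998853628583670370764401141428960188222502472011176093005212869015017384638179007750076913991774920966777378643362922866721350801963016985641769845564133786463246966999072284301060917337406976098264468942846672320121067424231851266551942155691415008550193035623382448980495433678171488881858058459023943683124909031873319461878625530177604306365343193674059071336254151166743233722793502808935578582207965172332868397782803507816651568022988797026801456120792871428784581304986663953640332154112245120947360953730779579722694684070391892621671786805371309689338942060702279020701048269967458304)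

noncomputable def rc10 : Nat := (nat_lit 3562456224504051886572571654789546801471272716549459405247963781750711335669242729677132987836419685230047565299852163025395362954557910800712528932799180382359683083572443130156457561612187231430068177030662330267944511182387344040755880191294466856521510466187130438828851993833173584703033103319842667741114812935841093784548783228152050730605428158111084326334311683527731034098496700351198443331491037236423398582958106450905427346260562966186414268028767549653127773024879893566669048637515122309943667425953365298971369084742038673694801450011595037688790135060889275157908128982077041451162674233149498956887547082448056393614677848963797553317538645930315144421761549772682038495551389199314492950939791660349640817628456982723141280971711440066579140473028195216639070804413481140088439021564673281490821126185804616860830861086186505650857010192756723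27696806538172703765480998795284007858352010037992595418327196511589087581179335340816595723216855955517311545865858021137703324518597742346067643227247384267807140839807581463333885711974183595149541098508452834482397057415961661034233652233568917597720317114204960272015898664669887932064391519172166660789514126132887274497595704657388630177967979190611228132552702580116973911767028164668247578683909087006279995248430127981703889877137281002091983068094253691056477712028037818525506481387156140828226430925328075443599473257221047760519721481377713500092487418362757239377072240292714747672885534202039584534266143791467760122139446745584698780875946492746345145444965903732153599331521639225836252513945868183986432005419836069585741902383788603984527819078372324569524209017153707876452781906774788088468620549807301724151379141771651025813842113375453080054326915393424392930387639217242679220276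63536813680696999804001803089829768620946273100098256709934952982253299173226737053549089458929951421528882797158073616722868431012139067184278762741223560996420051084395014373160297793070696818828433133101246801435422026345834647505865533220917788667181287210513772868114505152863128410663159778466262246992611890391428100497719457063160623639542297051646299500918274909595449681520120898074539424394868426696722009960043297978904784855303886222374218798795096073103128813361039865275739324185564992073226422775917980135052257072813381781298409111761687396449121828692890896089209020553367863709619653782455523096401103474814774444588561349818484050753197009520479220054368701117505084431146393620576740850206298424750097765969419481561997851522162604499221645968986495660740997013689673406094809511490730480252439647681314346623397774681296444468903643400037957070534033771197668117198560494329655042802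53126823247122044052670839261803876823960968790293488537821158944307776755745076711527898614428900009157252804221319395689579287154745805316591133516594494362525388072483459272670139015118090413390058951386812593835381407024454025184862753866052644802399976429325874522540473034653050406338225792919184605834750098338564284009746102718119105453342193980237476433309501766068884848865686673437315422117883609398926895608835789921312292956592908331992115507329307824173857011856335586067712716090419383908250289838621989107107364729586385010037452940294967707930997015543994566255276299915331175505429122698704720811570943907956844854008129552398534469350583097984360678385682645057301841043393918874655388095751009606968027092507617615229374306747043343164801596913494453218497172514154464790885674324209407305758759128919288746716436763006657126261256831188707968905921861406708925961225017820404375321937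43165019828673268538726501580549830663507173836344959044371392123094302091718145877270877328354596354155829077895471764647204938937204562376820044232214291651268060014362783308207966844496585811819553291323474221438033886126567250576360909736196136972940004380993093422900980317329507314659881555949030198994314409786531661135877223152752303529941493369193680029548863119625577084126498108914122545638433469484732880508999220495471887520570481294979771464894879933096852817835935898220036814574670593109738728276832604307729039850553734799081480731558545555845164445380819859689003732626044992727321776807979160335056515665802816127989706012927155238691179064567956424763554715547075836989125489893519937137064331821913433829719115852212544833264824626936087268847247716775978045851451204517987395906337557719602191761398714799861527206637833455209390115579151909286681525895044701548500220418863020474345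67759414441154443488678438539376066255217715803381383718669756572936901417159267356009105987955117831993966403018938940525282020775249833017502477603190859219563256199949172162258211633942035901194204324785524198906898173479541082234859783503798756304882891238593611838829327489189737100230702087657957884989531079994878356311628191782224080728497541889636628620480815006562873197228575836988705978783633976165770486181405422231484612496679884318842086006978409474851078270682457455100255678741456411500738566841443699195480303858682684057830490696868632713212373556128312477072988705012670988521612185012519026562564380717054361113762292359991725898576064941767411304273429243331645929806260476307065957711723293824298044475284784140157344606406870318835663337858426928929842758260815734831257811486538146012986639663431229997932777387955465311598896578928809340529228769219091205579159864400090420388828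6446756778301237493640935089523671590974607204480657434361339361766896942093330030055054647004766321421029692376716290906188184293391162518665440963596082139590044607562249061186190182303729220014647064617482357067182519240318019723640744593617840892228511205950696136086278268886269190184186300219086544574799757097830231803719674658111057776266120498692158625355993642443841299213338940926373182599620503708967853515275642793074135965593348350928097963727255853697031060331426290866225463629605851138791307462887061419042163053084840254225882625837422981700344065087126920888778801247538779941581626837414688757715872869140866279653108385730365980175460568920856492960101331693104935302325003040076312923316054372515298152687675192851733550407343440724053222560024512010213737526090658500583018579503985974003763239033026985852928)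

end Vale.Agent.Lib.P154.PChain.BT.S6
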